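import Crest.Agent.Helper32.Snaky.Gen.R1_0_p30
set_option autoImplicit false
set_option maxRecDepth 100000
set_option linter.all false
set_option Elab.async false
namespace Crest.Agent.Helper32.Snaky.R1_0
@[reducible] def W_31 (d M Bz Z : Nat) : Prop := Crest.Agent.Helper32.Snaky.Wins (nat_lit 17) d M Bz Z
theorem D_31 {d M Bz Z : Nat} (m t1 t2 o1 x1 y1 o2 x2 y2 : Nat) (h : Crest.Agent.Helper32.Snaky.chkDoubleC (nat_lit 17) d M Bz Z m t1 t2 o1 x1 y1 o2 x2 y2 = true) : W_31 d M Bz Z := Crest.Agent.Helper32.Snaky.doubleC m t1 t2 o1 x1 y1 o2 x2 y2 h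
theorem T_31 {d M Bz Z cd cM cBz cZ : Nat} (m t o x y : Nat) (child : W_31 cd cM cBz cZ) (h : Crest.Agent.Helper32.Snaky.chkThreatC (nat_lit 17) d M Bz Z cd cM cBz cZ m t o x y = true) : W_31 d M Bz Z := Crest.Agent.Helper32.Snaky.threatC m t o x y child h
theorem Q_31 {d M Bz Z : Nat} (m : Nat) {l : List Crest.Agent.Helper32.Snaky.Spec} (kids : Crest.Agent.Helper32.Snaky.AllWins (nat_lit 17) l) (h : Crest.Agent.Helper32.Snaky.chkQuiet d M Bz Z m l = true) : W_31 d M Bz Z := Crest.Agent.Helper32.Snaky.quiet m kids h
theorem C_31 {cd cM cBz cZ : Nat} {l : List Crest.Agent.Helper32.Snaky.Spec} (h : W_31 cd cM cBz cZ) (hl : Crest.Agent.Helper32.Snaky.AllWins (nat_lit 17) l) : Crest.Agent.Helper32.Snaky.AllWins (nat_lit 17) ((cd, cM, cBz, cZ) :: l) := Crest.Agent.Helper32.Snaky.AllWins.cons h hl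
theorem N_31 : Crest.Agent.Helper32.Snaky.AllWins (nat_lit 17) [] := Crest.Agent.Helper32.Snaky.AllWins.nil
theorem L78849 : W_31 (nat_lit 2) (nat_lit 0x4000e0007000b00000001000080000000000000000000000000000000) (nat_lit 0x0) (nat_lit 0x200300000000000000000000000000000000000000000000000000000) := D_31 (nat_lit 212) (nat_lit 213) (nat_lit 225) (nat_lit 0) (nat_lit 9) (nat_lit 12) (nat_lit 1) (nat_lit 8) (nat_lit 12) (by decide +kernel)
theorem L78850 : W_31 (nat_lit 3) (nat_lit 0xe0007000b00000001000080000000000000000000000000000000) (nat_lit 0x0) (nat_lit 0x8000600300000000000000000000000000000000000000000000000000000) := T_31 (nat_lit 226) (nat_lit 243) (nat_lit 6) (nat_lit 5) (nat_lit 14) L78849 (by decide +kernel)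
theorem L78851 : W_31 (nat_lit 4) (nat_lit 0xe0007000300000001000080000000000000000000000000000000) (nat_lit 0x0) (nat_lit 0x8000600300000000c00000000000000000000000000000000000000000000) := T_31 (nat_lit 179) (nat_lit 178) (nat_lit 1) (nat_lit 9) (nat_lit 10) L78850 (by decide +kernel)
theorem L78910 : W_31 (nat_lit 5) (nat_lit 0xd0007000200000001000080000000000000000000000000000000) (nat_lit 0x0) (nat_lit 0x80004000700028000000080004000000000000000000000000000000000000000) := T_31 (nat_lit 209) (nat_lit 207) (nat_lit 2) (nat_lit 3) (nat_lit 12) L78905 (by decide +kernel)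
theorem L78922 : W_31 (nat_lit 2) (nat_lit 0xd001c00060003c0000001000080000000000000000000000000000000) (nat_lit 0x0) (nat_lit 0x1c00000000000000000000000000000000000000000000000) := D_31 (nat_lit 191) (nat_lit 192) (nat_lit 190) (nat_lit 3) (nat_lit 4) (nat_lit 11) (nat_lit 1) (nat_lit 7) (nat_lit 10) (by decide +kernel)
theorem L78923 : W_31 (nat_lit 3) (nat_lit 0xd001c0006000380000001000080000000000000000000000000000000) (nat_lit 0x0) (nat_lit 0x1c00060000000000000000000000000000000000000000000) := T_31 (nat_lit 174) (nat_lit 173) (nat_lit 3) (nat_lit 3) (nat_lit 10) L78922 (by decide +kernel)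
theorem L78924 : W_31 (nat_lit 4) (nat_lit 0xd001c0006000300000001000080000000000000000000000000000000) (nat_lit 0x0) (nat_lit 0x1c000e0004000000000000000000000000000000000000000) := T_31 (nat_lit 175) (nat_lit 158) (nat_lit 4) (nat_lit 6) (nat_lit 13) L78923 (by decide +kernel)
theorem L78925 : W_31 (nat_lit 5) (nat_lit 0xd000c0006000300000001000080000000000000000000000000000000) (nat_lit 0x0) (nat_lit 0x300001c000e0004000000000000000000000000000000000000000) := T_31 (nat_lit 212) (nat_lit 213) (nat_lit 1) (nat_lit 9) (nat_lit 12) L78924 (by decide +kernel)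
theorem L78926 : W_31 (nat_lit 6) (nat_lit 0xc000c0006000300000001000080000000000000000000000000000000) (nat_lit 0x0) (nat_lit 0x300300001c000e0004000000000000000000000000000000000000000) := T_31 (nat_lit 224) (nat_lit 225) (nat_lit 2) (nat_lit 3) (nat_lit 13) L78925 (by decide +kernel)
theorem L78927 : W_31 (nat_lit 7) (nat_lit 0x8000c0006000300000001000080000000000000000000000000000000) (nat_lit 0x0) (nat_lit 0x8000700300001c000e0004000000000000000000000000000000000000000) := T_31 (nat_lit 226) (nat_lit 243) (nat_lit 5) (nat_lit 6) (nat_lit 10) L78926 (by decide +kernel)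
theorem L78928 : W_31 (nat_lit 8) (nat_lit 0xc0006000300000001000080000000000000000000000000000000) (nat_lit 0x0) (nat_lit 0x18000f00300001c000e0004000000000000000000000000000000000000000) := T_31 (nat_lit 227) (nat_lit 244) (nat_lit 6) (nat_lit 6) (nat_lit 14) L78927 (by decide +kernel)
theorem L78929 : W_31 (nat_lit 2) (nat_lit 0xc0007000300000001000080000000000000000000000000000000) (nat_lit 0x0) (nat_lit 0x800c00000000000000000000000000000000000000000000) := D_31 (nat_lit 178) (nat_lit 179) (nat_lit 191) (nat_lit 1) (nat_lit 9) (nat_lit 10) (nat_lit 2) (nat_lit 4) (nat_lit 11) (by decide +kernel)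
theorem L78930 : W_31 (nat_lit 2) (nat_lit 0x6c0016000f00000001000080000000000000000000000000000000) (nat_lit 0x0) (nat_lit 0x80000000000000000c0000000000000000000000000000000000000000) := D_31 (nat_lit 162) (nat_lit 163) (nat_lit 231) (nat_lit 2) (nat_lit 6) (nat_lit 10) (nat_lit 7) (nat_lit 9) (nat_lit 9) (by decide +kernel)
theorem L78931 : W_31 (nat_lit 3) (nat_lit 0x6c0006000f00000001000080000000000000000000000000000000) (nat_lit 0x0) (nat_lit 0x80000000300000000c0000000000000000000000000000000000000000) := T_31 (nat_lit 196) (nat_lit 197) (nat_lit 3) (nat_lit 6) (nat_lit 10) L78930 (by decide +kernel)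
theorem L78932 : W_31 (nat_lit 4) (nat_lit 0x2c0006000f00000001000080000000000000000000000000000000) (nat_lit 0x0) (nat_lit 0x80005000300000000c0000000000000000000000000000000000000000) := T_31 (nat_lit 214) (nat_lit 212) (nat_lit 0) (nat_lit 10) (nat_lit 12) L78931 (by decide +kernel)
theorem L78933 : W_31 (nat_lit 5) (nat_lit 0x2c0006000700000001000080000000000000000000000000000000) (nat_lit 0x0) (nat_lit 0x80005000300018000c0000000000000000000000000000000000000000) := T_31 (nat_lit 179) (nat_lit 180) (nat_lit 1) (nat_lit 10) (nat_lit 10) L78932 (by decide +kernel)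
theorem L78934 : W_31 (nat_lit 2) (nat_lit 0x8002c0006000700000001000080000000000000000000000000000000) (nat_lit 0x0) (nat_lit 0x400500000000000000000000000000000000000000000000000000000) := D_31 (nat_lit 212) (nat_lit 214) (nat_lit 226) (nat_lit 0) (nat_lit 10) (nat_lit 12) (nat_lit 1) (nat_lit 9) (nat_lit 12) (by decide +kernel)
theorem L78935 : W_31 (nat_lit 3) (nat_lit 0x2c0006000700000001000080000000000000000000000000000000) (nat_lit 0x0) (nat_lit 0x10000c00500000000000000000000000000000000000000000000000000000) := T_31 (nat_lit 227) (nat_lit 244) (nat_lit 6) (nat_lit 6) (nat_lit 14) L78934 (by decide +kernel)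
theorem L78936 : W_31 (nat_lit 2) (nat_lit 0x8002c0006001700000001000080000000000000000000000000000000) (nat_lit 0x0) (nat_lit 0x8000400100000000000000000000000000000000000000000000000000000) := D_31 (nat_lit 226) (nat_lit 243) (nat_lit 212) (nat_lit 5) (nat_lit 6) (nat_lit 10) (nat_lit 1) (nat_lit 9) (nat_lit 12) (by decide +kernel)
theorem L78937 : W_31 (nat_lit 3) (nat_lit 0x2c0006001700000001000080000000000000000000000000000000) (nat_lit 0x0) (nat_lit 0x18000c00100000000000000000000000000000000000000000000000000000) := T_31 (nat_lit 227) (nat_lit 244) (nat_lit 6) (nat_lit 6) (nat_lit 14) L78936 (by decide +kernel)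
theorem L78938 : W_31 (nat_lit 4) (nat_lit 0x2c0006000700000001000080000000000000000000000000000000) (nat_lit 0x0) (nat_lit 0x18000c00100000001800000000000000000000000000000000000000000000) := T_31 (nat_lit 180) (nat_lit 179) (nat_lit 1) (nat_lit 10) (nat_lit 10) L78937 (by decide +kernel)
theorem L78939 : W_31 (nat_lit 2) (nat_lit 0x5000c0002c0016000f00040001000080000000000000000000000000000000) (nat_lit 0x0) (nat_lit 0x8000a0000000000000000000000000000000000000000000000000000000000000) := D_31 (nat_lit 247) (nat_lit 245) (nat_lit 263) (nat_lit 2) (nat_lit 6) (nat_lit 14) (nat_lit 5) (nat_lit 9) (nat_lit 11) (by decide +kernel)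
theorem L78940 : W_31 (nat_lit 3) (nat_lit 0x1000c0002c0016000f00040001000080000000000000000000000000000000) (nat_lit 0x0) (nat_lit 0x8000e0002000000000000000000000000000000000000000000000000000000000) := T_31 (nat_lit 246) (nat_lit 229) (nat_lit 5) (nat_lit 9) (nat_lit 10) L78939 (by decide +kernel)
theorem L78941 : W_31 (nat_lit 4) (nat_lit 0x100080002c0016000f00040001000080000000000000000000000000000000) (nat_lit 0x0) (nat_lit 0x8001e0006000000000000000000000000000000000000000000000000000000000) := T_31 (nat_lit 230) (nat_lit 248) (nat_lit 7) (nat_lit 9) (nat_lit 10) L78940 (by decide +kernel)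
theorem L78942 : W_31 (nat_lit 5) (nat_lit 0x100000002c0016000f00040001000080000000000000000000000000000000) (nat_lit 0x0) (nat_lit 0x8001e000e000400000000000000000000000000000000000000000000000000000) := T_31 (nat_lit 231) (nat_lit 214) (nat_lit 7) (nat_lit 9) (nat_lit 9) L78941 (by decide +kernel)
theorem L78943 : W_31 (nat_lit 6) (nat_lit 0x100000002c0016000f00000001000080000000000000000000000000000000) (nat_lit 0x0) (nat_lit 0x8001e000e0004000000000000c0000000000000000000000000000000000000000) := T_31 (nat_lit 162) (nat_lit 163) (nat_lit 2) (nat_lit 6) (nat_lit 10) L78942 (by decide +kernel)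
theorem L78944 : W_31 (nat_lit 7) (nat_lit 0x100000002c0006000f00000001000080000000000000000000000000000000) (nat_lit 0x0) (nat_lit 0x8001e000e0004000300000000c0000000000000000000000000000000000000000) := T_31 (nat_lit 196) (nat_lit 197) (nat_lit 3) (nat_lit 6) (nat_lit 10) L78943 (by decide +kernel)
theorem L78945 : W_31 (nat_lit 8) (nat_lit 0x2c0006000f00000001000080000000000000000000000000000000) (nat_lit 0x0) (nat_lit 0x8001f000e8004000300000000c0000000000000000000000000000000000000000) := T_31 (nat_lit 244) (nat_lit 227) (nat_lit 6) (nat_lit 6) (nat_lit 14) L78944 (by decide +kernel)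
theorem L78946 : W_31 (nat_lit 9) (nat_lit 0x2c0006000700000001000080000000000000000000000000000000) (nat_lit 0x0) (nat_lit 0x8001f000e8004000300018000c0000000000000000000000000000000000000000) := T_31 (nat_lit 179) (nat_lit 180) (nat_lit 1) (nat_lit 10) (nat_lit 10) L78945 (by decide +kernel)
theorem L78947 : W_31 (nat_lit 2) (nat_lit 0x8000c0006000300008001000080000000000000000000000000000000) (nat_lit 0x0) (nat_lit 0x80004000200000000000000000000000000000000000) := D_31 (nat_lit 158) (nat_lit 141) (nat_lit 175) (nat_lit 4) (nat_lit 6) (nat_lit 12) (nat_lit 4) (nat_lit 6) (nat_lit 13) (by decide +kernel)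
theorem L78948 : W_31 (nat_lit 3) (nat_lit 0xc0006000300008001000080000000000000000000000000000000) (nat_lit 0x0) (nat_lit 0x10000800000000000080004000200000000000000000000000000000000000) := T_31 (nat_lit 227) (nat_lit 244) (nat_lit 6) (nat_lit 6) (nat_lit 14) L78947 (by decide +kernel)
theorem L78949 : W_31 (nat_lit 2) (nat_lit 0x180003000d000780034000d001000080000000000000000000000000000000) (nat_lit 0x0) (nat_lit 0x100024000000000000000000000000000000000000000000000000000000000000) := D_31 (nat_lit 242) (nat_lit 260) (nat_lit 245) (nat_lit 7) (nat_lit 4) (nat_lit 11) (nat_lit 0) (nat_lit 7) (nat_lit 14) (by decide +kernel)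
theorem L78950 : W_31 (nat_lit 3) (nat_lit 0x100003000d000780034000d001000080000000000000000000000000000000) (nat_lit 0x0) (nat_lit 0x10002c000400000000000000000000000000000000000000000000000000000000) := T_31 (nat_lit 243) (nat_lit 226) (nat_lit 7) (nat_lit 4) (nat_lit 10) L78949 (by decide +kernel)
theorem L78951 : W_31 (nat_lit 4) (nat_lit 0x100002000d000780034000d001000080000000000000000000000000000000) (nat_lit 0x0) (nat_lit 0x10002e000500000000000000000000000000000000000000000000000000000000) := T_31 (nat_lit 224) (nat_lit 241) (nat_lit 5) (nat_lit 4) (nat_lit 10) L78950 (by decide +kernel)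
theorem L78952 : W_31 (nat_lit 5) (nat_lit 0x100000000d000780034000d001000080000000000000000000000000000000) (nat_lit 0x0) (nat_lit 0x10002e000700000000000080000000000000000000000000000000000000000000) := T_31 (nat_lit 225) (nat_lit 175) (nat_lit 6) (nat_lit 4) (nat_lit 13) L78951 (by decide +kernel)
theorem L78953 : W_31 (nat_lit 6) (nat_lit 0x100000000c000780034000d001000080000000000000000000000000000000) (nat_lit 0x0) (nat_lit 0x10002e000700018000000080000000000000000000000000000000000000000000) := T_31 (nat_lit 208) (nat_lit 207) (nat_lit 1) (nat_lit 7) (nat_lit 11) L78952 (by decide +kernel)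
theorem L78954 : W_31 (nat_lit 7) (nat_lit 0x100000000c000780030000d001000080000000000000000000000000000000) (nat_lit 0x0) (nat_lit 0x10002e0007000180000000e0000000000000000000000000000000000000000000) := T_31 (nat_lit 174) (nat_lit 173) (nat_lit 0) (nat_lit 7) (nat_lit 11) L78953 (by decide +kernel)
theorem L78955 : W_31 (nat_lit 8) (nat_lit 0x100000000c000780030000c001000080000000000000000000000000000000) (nat_lit 0x0) (nat_lit 0x10002e0007000180000000e0003000000000000000000000000000000000000000) := T_31 (nat_lit 156) (nat_lit 157) (nat_lit 3) (nat_lit 3) (nat_lit 9) L78954 (by decide +kernel)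
theorem L78956 : W_31 (nat_lit 9) (nat_lit 0x100000000c0007800300008001000080000000000000000000000000000000) (nat_lit 0x0) (nat_lit 0x10002e0007000180000000e0007000200000000000000000000000000000000000) := T_31 (nat_lit 158) (nat_lit 141) (nat_lit 4) (nat_lit 6) (nat_lit 12) L78955 (by decide +kernel)
theorem L78957 : W_31 (nat_lit 10) (nat_lit 0x100000000c0007000300008001000080000000000000000000000000000000) (nat_lit 0x0) (nat_lit 0x10002e000700018000c000e0007000200000000000000000000000000000000000) := T_31 (nat_lit 191) (nat_lit 190) (nat_lit 3) (nat_lit 3) (nat_lit 11) L78956 (by decide +kernel)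
theorem L78958 : W_31 (nat_lit 11) (nat_lit 0x100000000c0007000300000001000080000000000000000000000000000000) (nat_lit 0x0) (nat_lit 0x10002e000700018000c000e000f000600000000000000000000000000000000000) := T_31 (nat_lit 159) (nat_lit 142) (nat_lit 7) (nat_lit 6) (nat_lit 8) L78957 (by decide +kernel)
theorem L78959 : W_31 (nat_lit 2) (nat_lit 0xe000f0004800200000001000080000000000000000000000000000000) (nat_lit 0x0) (nat_lit 0x8000000000000000040002000000000000000000000000000000000000000) := D_31 (nat_lit 174) (nat_lit 157) (nat_lit 243) (nat_lit 7) (nat_lit 4) (nat_lit 9) (nat_lit 7) (nat_lit 4) (nat_lit 10) (by decide +kernel)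
theorem L78962 : W_31 (nat_lit 2) (nat_lit 0x8001e0004000200000001000080000000000000000000000000000000) (nat_lit 0x0) (nat_lit 0x600200000000000000000000000000000000000000000000000000000) := D_31 (nat_lit 226) (nat_lit 225) (nat_lit 213) (nat_lit 1) (nat_lit 8) (nat_lit 12) (nat_lit 1) (nat_lit 9) (nat_lit 12) (by decide +kernel)
theorem L78963 : W_31 (nat_lit 2) (nat_lit 0x9000fe004800200000001000080000000000000000000000000000000) (nat_lit 0x0) (nat_lit 0x380000000000000000000000000000000000000000000000) := D_31 (nat_lit 188) (nat_lit 189) (nat_lit 187) (nat_lit 0) (nat_lit 5) (nat_lit 12) (nat_lit 0) (nat_lit 4) (nat_lit 12) (by decide +kernel)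
theorem L78964 : W_31 (nat_lit 3) (nat_lit 0x9000fc004800200000001000080000000000000000000000000000000) (nat_lit 0x0) (nat_lit 0x2001380000000000000000000000000000000000000000000000) := T_31 (nat_lit 205) (nat_lit 192) (nat_lit 2) (nat_lit 1) (nat_lit 12) L78963 (by decide +kernel)
theorem L78965 : W_31 (nat_lit 4) (nat_lit 0x9000f8004800200000001000080000000000000000000000000000000) (nat_lit 0x0) (nat_lit 0x400006001380000000000000000000000000000000000000000000000) := T_31 (nat_lit 206) (nat_lit 226) (nat_lit 3) (nat_lit 2) (nat_lit 12) L78964 (by decide +kernel)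
theorem L78966 : W_31 (nat_lit 5) (nat_lit 0x9000f0004800200000001000080000000000000000000000000000000) (nat_lit 0x0) (nat_lit 0x48000e001380000000000000000000000000000000000000000000000) := T_31 (nat_lit 207) (nat_lit 223) (nat_lit 1) (nat_lit 6) (nat_lit 12) L78965 (by decide +kernel)
theorem L78967 : W_31 (nat_lit 6) (nat_lit 0x9000f0004000200000001000080000000000000000000000000000000) (nat_lit 0x0) (nat_lit 0x48000e001f80000000000000000000000000000000000000000000000) := T_31 (nat_lit 191) (nat_lit 190) (nat_lit 0) (nat_lit 7) (nat_lit 12) L78966 (by decide +kernel)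
theorem L78968 : W_31 (nat_lit 7) (nat_lit 0x8000f0004000200000001000080000000000000000000000000000000) (nat_lit 0x0) (nat_lit 0x78000e001f80000000000000000000000000000000000000000000000) := T_31 (nat_lit 224) (nat_lit 225) (nat_lit 1) (nat_lit 7) (nat_lit 12) L78967 (by decide +kernel)
theorem L78987 : W_31 (nat_lit 3) (nat_lit 0xa000f0004800200000001000080000000000000000000000000000000) (nat_lit 0x0) (nat_lit 0x8000400100000000040002000000000000000000000000000000000000000) := T_31 (nat_lit 226) (nat_lit 212) (nat_lit 1) (nat_lit 8) (nat_lit 12) L78959 (by decide +kernel)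
theorem L78988 : W_31 (nat_lit 4) (nat_lit 0x8000f0004800200000001000080000000000000000000000000000000) (nat_lit 0x0) (nat_lit 0x8000700100000000040002000000000000000000000000000000000000000) := T_31 (nat_lit 225) (nat_lit 224) (nat_lit 1) (nat_lit 7) (nat_lit 12) L78987 (by decide +kernel)
theorem L78989 : W_31 (nat_lit 5) (nat_lit 0x8000f0004000200000001000080000000000000000000000000000000) (nat_lit 0x0) (nat_lit 0x8000700100000c00040002000000000000000000000000000000000000000) := T_31 (nat_lit 191) (nat_lit 190) (nat_lit 0) (nat_lit 7) (nat_lit 12) L78988 (by decide +kernel)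
theorem L79006 : W_31 (nat_lit 2) (nat_lit 0x80003e0025000200000001000080000000000000000000000000000000) (nat_lit 0x0) (nat_lit 0x10000400040000000000000000000000000000000000000000000000000) := D_31 (nat_lit 214) (nat_lit 232) (nat_lit 198) (nat_lit 3) (nat_lit 7) (nat_lit 12) (nat_lit 2) (nat_lit 7) (nat_lit 12) (by decide +kernel)
theorem L79007 : W_31 (nat_lit 3) (nat_lit 0x80003e0005000200000001000080000000000000000000000000000000) (nat_lit 0x0) (nat_lit 0x10000400070000000000000000000000000000000000000000000000000) := T_31 (nat_lit 197) (nat_lit 196) (nat_lit 2) (nat_lit 6) (nat_lit 12) L79006 (by decide +kernel)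
theorem L79008 : W_31 (nat_lit 4) (nat_lit 0x3e0005000200000001000080000000000000000000000000000000) (nat_lit 0x0) (nat_lit 0x1c000400070000000000000000000000000000000000000000000000000) := T_31 (nat_lit 231) (nat_lit 230) (nat_lit 3) (nat_lit 6) (nat_lit 12) L79007 (by decide +kernel)
theorem L79216 : W_31 (nat_lit 2) (nat_lit 0xf000740030000c001000080000000000000000000000000000000) (nat_lit 0x0) (nat_lit 0x300000000000080000000000000000000000000000000000000000000) := D_31 (nat_lit 225) (nat_lit 224) (nat_lit 175) (nat_lit 1) (nat_lit 7) (nat_lit 12) (nat_lit 5) (nat_lit 5) (nat_lit 9) (by decide +kernel)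
theorem L79217 : W_31 (nat_lit 3) (nat_lit 0xf0007400300008001000080000000000000000000000000000000) (nat_lit 0x0) (nat_lit 0x300000000000080004000200000000000000000000000000000000000) := T_31 (nat_lit 158) (nat_lit 141) (nat_lit 4) (nat_lit 6) (nat_lit 12) L79216 (by decide +kernel)
theorem L79218 : W_31 (nat_lit 4) (nat_lit 0xe0007400300008001000080000000000000000000000000000000) (nat_lit 0x0) (nat_lit 0x300018000000080004000200000000000000000000000000000000000) := T_31 (nat_lit 208) (nat_lit 207) (nat_lit 2) (nat_lit 3) (nat_lit 12) L79217 (by decide +kernel)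
theorem L79219 : W_31 (nat_lit 5) (nat_lit 0xc0007400300008001000080000000000000000000000000000000) (nat_lit 0x0) (nat_lit 0x700038000000080004000200000000000000000000000000000000000) := T_31 (nat_lit 209) (nat_lit 226) (nat_lit 5) (nat_lit 6) (nat_lit 9) L79218 (by decide +kernel)
theorem L79220 : W_31 (nat_lit 6) (nat_lit 0xc0007400300000001000080000000000000000000000000000000) (nat_lit 0x0) (nat_lit 0x70003800000008000c000600000000000000000000000000000000000) := T_31 (nat_lit 159) (nat_lit 142) (nat_lit 7) (nat_lit 6) (nat_lit 8) L79219 (by decide +kernel)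
theorem L79221 : W_31 (nat_lit 7) (nat_lit 0xc0007000300000001000080000000000000000000000000000000) (nat_lit 0x0) (nat_lit 0x700038000c0008000c000600000000000000000000000000000000000) := T_31 (nat_lit 190) (nat_lit 191) (nat_lit 3) (nat_lit 3) (nat_lit 11) L79220 (by decide +kernel)
theorem L79222 : W_31 (nat_lit 2) (nat_lit 0xe0007000300000001000080000000000000000000000000000000) (nat_lit 0x0) (nat_lit 0x8000400000000000000008000000000000000000000000000000000000000) := D_31 (nat_lit 226) (nat_lit 159) (nat_lit 243) (nat_lit 5) (nat_lit 6) (nat_lit 9) (nat_lit 6) (nat_lit 5) (nat_lit 14) (by decide +kernel)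
theorem L79223 : W_31 (nat_lit 2) (nat_lit 0x80002000f0007800340000001800080000000000000000000000000000000) (nat_lit 0x0) (nat_lit 0x4000000000000000080004000000000000000000000000000000000000000) := D_31 (nat_lit 175) (nat_lit 158) (nat_lit 242) (nat_lit 6) (nat_lit 4) (nat_lit 13) (nat_lit 6) (nat_lit 4) (nat_lit 14) (by decide +kernel)
theorem L79224 : W_31 (nat_lit 3) (nat_lit 0x80000000f0007800340000001800080000000000000000000000000000000) (nat_lit 0x0) (nat_lit 0x4000300000000000080004000000000000000000000000000000000000000) := T_31 (nat_lit 225) (nat_lit 224) (nat_lit 1) (nat_lit 7) (nat_lit 12) L79223 (by decide +kernel)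
theorem L79225 : W_31 (nat_lit 4) (nat_lit 0x80000000f0007800300000001800080000000000000000000000000000000) (nat_lit 0x0) (nat_lit 0x40003000000000000e0004000000000000000000000000000000000000000) := T_31 (nat_lit 174) (nat_lit 173) (nat_lit 0) (nat_lit 7) (nat_lit 11) L79224 (by decide +kernel)
theorem L79226 : W_31 (nat_lit 5) (nat_lit 0x80000000e0007800300000001800080000000000000000000000000000000) (nat_lit 0x0) (nat_lit 0x40003000180000000e0004000000000000000000000000000000000000000) := T_31 (nat_lit 208) (nat_lit 207) (nat_lit 2) (nat_lit 3) (nat_lit 12) L79225 (by decide +kernel)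
theorem L79227 : W_31 (nat_lit 6) (nat_lit 0x80000000e0007000300000001800080000000000000000000000000000000) (nat_lit 0x0) (nat_lit 0x4000300018000c000e0004000000000000000000000000000000000000000) := T_31 (nat_lit 191) (nat_lit 190) (nat_lit 3) (nat_lit 3) (nat_lit 11) L79226 (by decide +kernel)
theorem L79228 : W_31 (nat_lit 7) (nat_lit 0xe0007000300000001800080000000000000000000000000000000) (nat_lit 0x0) (nat_lit 0xc000700018000c000e0004000000000000000000000000000000000000000) := T_31 (nat_lit 243) (nat_lit 226) (nat_lit 6) (nat_lit 5) (nat_lit 14) L79227 (by decide +kernel)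
theorem L79229 : W_31 (nat_lit 8) (nat_lit 0xe0007000300000001000080000000000000000000000000000000) (nat_lit 0x0) (nat_lit 0xc000700018000c000e0014000800000000000000000000000000000000000) := T_31 (nat_lit 143) (nat_lit 160) (nat_lit 6) (nat_lit 7) (nat_lit 11) L79228 (by decide +kernel)
theorem L79230 : W_31 (nat_lit 2) (nat_lit 0x2000f0007800300010001000080000000000000000000000000000000) (nat_lit 0x0) (nat_lit 0x4000000000000000080004000000000000000000000000000000000000000) := D_31 (nat_lit 175) (nat_lit 158) (nat_lit 242) (nat_lit 5) (nat_lit 5) (nat_lit 9) (nat_lit 6) (nat_lit 4) (nat_lit 14) (by decide +kernel)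
theorem L79231 : W_31 (nat_lit 3) (nat_lit 0xf0007800300010001000080000000000000000000000000000000) (nat_lit 0x0) (nat_lit 0x4000300000000000080004000000000000000000000000000000000000000) := T_31 (nat_lit 225) (nat_lit 224) (nat_lit 1) (nat_lit 7) (nat_lit 12) L79230 (by decide +kernel)
theorem L79232 : W_31 (nat_lit 4) (nat_lit 0xe0007800300010001000080000000000000000000000000000000) (nat_lit 0x0) (nat_lit 0x4000300018000000080004000000000000000000000000000000000000000) := T_31 (nat_lit 208) (nat_lit 207) (nat_lit 2) (nat_lit 3) (nat_lit 12) L79231 (by decide +kernel)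
theorem L79233 : W_31 (nat_lit 5) (nat_lit 0xe0007800300000001000080000000000000000000000000000000) (nat_lit 0x0) (nat_lit 0x4000300018000000080014000800000000000000000000000000000000000) := T_31 (nat_lit 160) (nat_lit 143) (nat_lit 6) (nat_lit 7) (nat_lit 11) L79232 (by decide +kernel)
theorem L79234 : W_31 (nat_lit 6) (nat_lit 0xe0007000300000001000080000000000000000000000000000000) (nat_lit 0x0) (nat_lit 0x4000300018000c00080014000800000000000000000000000000000000000) := T_31 (nat_lit 191) (nat_lit 190) (nat_lit 3) (nat_lit 3) (nat_lit 11) L79233 (by decide +kernel)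
theorem L79235 : W_31 (nat_lit 9) (nat_lit 0xc0007000300000001000080000000000000000000000000000000) (nat_lit 0x0) (nat_lit 0xc000700038000c000e001c000800000000000000000000000000000000000) := Q_31 (nat_lit 209) (C_31 L79222 (C_31 L79229 (C_31 L79234 N_31))) (by decide +kernel)
theorem L79236 : W_31 (nat_lit 2) (nat_lit 0xc0007000380004001800080000000000000000000000000000000) (nat_lit 0x0) (nat_lit 0xc00002000000000000000000000000000000000000000) := D_31 (nat_lit 178) (nat_lit 179) (nat_lit 157) (nat_lit 1) (nat_lit 9) (nat_lit 10) (nat_lit 0) (nat_lit 8) (nat_lit 10) (by decide +kernel)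
theorem L79237 : W_31 (nat_lit 3) (nat_lit 0xc0007000380000001800080000000000000000000000000000000) (nat_lit 0x0) (nat_lit 0xc00006000200000000000000000000000000000000000) := T_31 (nat_lit 158) (nat_lit 141) (nat_lit 7) (nat_lit 5) (nat_lit 8) L79236 (by decide +kernel)
theorem L79238 : W_31 (nat_lit 4) (nat_lit 0xc0007000380000001000080000000000000000000000000000000) (nat_lit 0x0) (nat_lit 0xc00016000a00000000000000000000000000000000000) := T_31 (nat_lit 143) (nat_lit 160) (nat_lit 6) (nat_lit 7) (nat_lit 11) L79237 (by decide +kernel)
theorem L79239 : W_31 (nat_lit 2) (nat_lit 0x6000f0007000300010001000080000000000000000000000000000000) (nat_lit 0x0) (nat_lit 0x80004000000000000000080000000000000000000000000000000000000000000) := D_31 (nat_lit 242) (nat_lit 259) (nat_lit 175) (nat_lit 6) (nat_lit 4) (nat_lit 15) (nat_lit 5) (nat_lit 5) (nat_lit 10) (by decide +kernel)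
theorem L79240 : W_31 (nat_lit 3) (nat_lit 0x4000f0007000300010001000080000000000000000000000000000000) (nat_lit 0x0) (nat_lit 0x80004000300000000000080000000000000000000000000000000000000000000) := T_31 (nat_lit 225) (nat_lit 224) (nat_lit 1) (nat_lit 7) (nat_lit 12) L79239 (by decide +kernel)
theorem L79241 : W_31 (nat_lit 4) (nat_lit 0x4000e0007000300010001000080000000000000000000000000000000) (nat_lit 0x0) (nat_lit 0x80004000300018000000080000000000000000000000000000000000000000000) := T_31 (nat_lit 208) (nat_lit 207) (nat_lit 2) (nat_lit 3) (nat_lit 12) L79240 (by decide +kernel)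
theorem L79242 : W_31 (nat_lit 5) (nat_lit 0xe0007000300010001000080000000000000000000000000000000) (nat_lit 0x0) (nat_lit 0x8000c000700018000000080000000000000000000000000000000000000000000) := T_31 (nat_lit 226) (nat_lit 243) (nat_lit 6) (nat_lit 5) (nat_lit 14) L79241 (by decide +kernel)
theorem L79243 : W_31 (nat_lit 6) (nat_lit 0xe0007000300000001000080000000000000000000000000000000) (nat_lit 0x0) (nat_lit 0x8000c000700018000000080010000800000000000000000000000000000000000) := T_31 (nat_lit 160) (nat_lit 143) (nat_lit 6) (nat_lit 7) (nat_lit 11) L79242 (by decide +kernel)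
theorem L79247 : W_31 (nat_lit 2) (nat_lit 0xc000600030000e001800080000000000000000000000000000000) (nat_lit 0x0) (nat_lit 0xc80000000000000000000000000000000000000000000) := D_31 (nat_lit 178) (nat_lit 179) (nat_lit 175) (nat_lit 0) (nat_lit 9) (nat_lit 10) (nat_lit 0) (nat_lit 8) (nat_lit 10) (by decide +kernel)
theorem L79248 : W_31 (nat_lit 3) (nat_lit 0xc000600030000c001800080000000000000000000000000000000) (nat_lit 0x0) (nat_lit 0xc80003000000000000000000000000000000000000000) := T_31 (nat_lit 157) (nat_lit 156) (nat_lit 3) (nat_lit 3) (nat_lit 9) L79247 (by decide +kernel)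
theorem L79249 : W_31 (nat_lit 4) (nat_lit 0xc0006000300008001800080000000000000000000000000000000) (nat_lit 0x0) (nat_lit 0xc80007000200000000000000000000000000000000000) := T_31 (nat_lit 158) (nat_lit 141) (nat_lit 4) (nat_lit 6) (nat_lit 12) L79248 (by decide +kernel)
theorem L79254 : W_31 (nat_lit 2) (nat_lit 0xd80068003c0000001000080000000000000000000000000000000) (nat_lit 0x0) (nat_lit 0x100000000000000003000000000000000000000000000000000000000) := D_31 (nat_lit 157) (nat_lit 156) (nat_lit 224) (nat_lit 0) (nat_lit 7) (nat_lit 10) (nat_lit 5) (nat_lit 4) (nat_lit 9) (by decide +kernel)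
theorem L79255 : W_31 (nat_lit 3) (nat_lit 0xd80060003c0000001000080000000000000000000000000000000) (nat_lit 0x0) (nat_lit 0x100000000c00000003000000000000000000000000000000000000000) := T_31 (nat_lit 191) (nat_lit 190) (nat_lit 1) (nat_lit 7) (nat_lit 10) L79254 (by decide +kernel)
theorem L79256 : W_31 (nat_lit 4) (nat_lit 0xd8006000380000001000080000000000000000000000000000000) (nat_lit 0x0) (nat_lit 0x100000000c00060003000000000000000000000000000000000000000) := T_31 (nat_lit 174) (nat_lit 173) (nat_lit 3) (nat_lit 3) (nat_lit 10) L79255 (by decide +kernel)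
theorem L79257 : W_31 (nat_lit 5) (nat_lit 0xd0006000380000001000080000000000000000000000000000000) (nat_lit 0x0) (nat_lit 0x100028000c00060003000000000000000000000000000000000000000) := T_31 (nat_lit 207) (nat_lit 209) (nat_lit 2) (nat_lit 3) (nat_lit 12) L79256 (by decide +kernel)
theorem L79258 : W_31 (nat_lit 2) (nat_lit 0xc00068003c0006001000080000000000000000000000000000000) (nat_lit 0x0) (nat_lit 0x10000000000000000200010000000000000000000000000000000) := D_31 (nat_lit 141) (nat_lit 124) (nat_lit 208) (nat_lit 7) (nat_lit 5) (nat_lit 7) (nat_lit 6) (nat_lit 4) (nat_lit 12) (by decide +kernel)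
theorem L79259 : W_31 (nat_lit 3) (nat_lit 0xc00068003c0002001000080000000000000000000000000000000) (nat_lit 0x0) (nat_lit 0x10000000400004000200010000000000000000000000000000000) := T_31 (nat_lit 158) (nat_lit 178) (nat_lit 0) (nat_lit 8) (nat_lit 10) L79258 (by decide +kernel)
theorem L79260 : W_31 (nat_lit 4) (nat_lit 0xc00068003c0000001000080000000000000000000000000000000) (nat_lit 0x0) (nat_lit 0x10000000400007000200010000000000000000000000000000000) := T_31 (nat_lit 157) (nat_lit 156) (nat_lit 0) (nat_lit 7) (nat_lit 10) L79259 (by decide +kernel)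
theorem L79261 : W_31 (nat_lit 5) (nat_lit 0xc00060003c0000001000080000000000000000000000000000000) (nat_lit 0x0) (nat_lit 0x10000c00400007000200010000000000000000000000000000000) := T_31 (nat_lit 191) (nat_lit 190) (nat_lit 1) (nat_lit 7) (nat_lit 10) L79260 (by decide +kernel)
theorem L79262 : W_31 (nat_lit 6) (nat_lit 0xc0006000380000001000080000000000000000000000000000000) (nat_lit 0x0) (nat_lit 0x10000c00460007000200010000000000000000000000000000000) := T_31 (nat_lit 174) (nat_lit 173) (nat_lit 3) (nat_lit 3) (nat_lit 10) L79261 (by decide +kernel)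
theorem L79268 : W_31 (nat_lit 2) (nat_lit 0x2000f000680164001a001000080000000000000000000000000000000) (nat_lit 0x0) (nat_lit 0x20001000080000000000000000000000000000000000) := D_31 (nat_lit 156) (nat_lit 173) (nat_lit 139) (nat_lit 4) (nat_lit 4) (nat_lit 13) (nat_lit 4) (nat_lit 4) (nat_lit 12) (by decide +kernel)
theorem L79269 : W_31 (nat_lit 3) (nat_lit 0x2000f000680160001a001000080000000000000000000000000000000) (nat_lit 0x0) (nat_lit 0x400000000000060001000080000000000000000000000000000000000) := T_31 (nat_lit 174) (nat_lit 226) (nat_lit 7) (nat_lit 4) (nat_lit 9) L79268 (by decide +kernel)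
theorem L79270 : W_31 (nat_lit 4) (nat_lit 0xf000680160001a001000080000000000000000000000000000000) (nat_lit 0x0) (nat_lit 0x700000000000060001000080000000000000000000000000000000000) := T_31 (nat_lit 225) (nat_lit 224) (nat_lit 1) (nat_lit 7) (nat_lit 12) L79269 (by decide +kernel)
theorem L79271 : W_31 (nat_lit 5) (nat_lit 0xf0006801600018001000080000000000000000000000000000000) (nat_lit 0x0) (nat_lit 0x700000000000060007000080000000000000000000000000000000000) := T_31 (nat_lit 157) (nat_lit 158) (nat_lit 3) (nat_lit 4) (nat_lit 9) L79270 (by decide +kernel)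
theorem L79272 : W_31 (nat_lit 6) (nat_lit 0xf0006001600018001000080000000000000000000000000000000) (nat_lit 0x0) (nat_lit 0x700000000c00060007000080000000000000000000000000000000000) := T_31 (nat_lit 191) (nat_lit 190) (nat_lit 0) (nat_lit 7) (nat_lit 12) L79271 (by decide +kernel)
theorem L79273 : W_31 (nat_lit 2) (nat_lit 0xe800600170000c001000080000000000000000000000000000000) (nat_lit 0x0) (nat_lit 0x80003000000000000000000000000000000000000000) := D_31 (nat_lit 157) (nat_lit 156) (nat_lit 175) (nat_lit 3) (nat_lit 3) (nat_lit 9) (nat_lit 0) (nat_lit 8) (nat_lit 10) (by decide +kernel)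
theorem L79274 : W_31 (nat_lit 3) (nat_lit 0xe8006001700008001000080000000000000000000000000000000) (nat_lit 0x0) (nat_lit 0x80007000200000000000000000000000000000000000) := T_31 (nat_lit 158) (nat_lit 141) (nat_lit 4) (nat_lit 6) (nat_lit 12) L79273 (by decide +kernel)
theorem L79275 : W_31 (nat_lit 4) (nat_lit 0xe0006001700008001000080000000000000000000000000000000) (nat_lit 0x0) (nat_lit 0x18000000080007000200000000000000000000000000000000000) := T_31 (nat_lit 207) (nat_lit 208) (nat_lit 2) (nat_lit 3) (nat_lit 12) L79274 (by decide +kernel)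
theorem L79514 : W_31 (nat_lit 15) (nat_lit 0x4000200000001000080000000000000000000000000000000) (nat_lit 0x0) (nat_lit 0x1c000f801fe03ff80ff807bc005e001f000d00000000000000000000000000000000000) := Q_31 (nat_lit 211) (C_31 L79511 (C_31 L79506 (C_31 L79450 (C_31 L79463 (C_31 L79470 (C_31 L79374 (C_31 L79513 (C_31 L79507 (C_31 L79509 N_31))))))))) (by decide +kernel)
theorem L80253 : W_31 (nat_lit 2) (nat_lit 0x30000c0006000200010001000080000000000000000000000000000000) (nat_lit 0x0) (nat_lit 0x400020000000000000000100000000000000000000000000000000000000000000) := D_31 (nat_lit 245) (nat_lit 262) (nat_lit 176) (nat_lit 4) (nat_lit 7) (nat_lit 15) (nat_lit 4) (nat_lit 7) (nat_lit 14) (by decide +kernel)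
theorem L80254 : W_31 (nat_lit 3) (nat_lit 0x20000c0006000200010001000080000000000000000000000000000000) (nat_lit 0x0) (nat_lit 0x400060001000000000000100000000000000000000000000000000000000000000) := T_31 (nat_lit 228) (nat_lit 246) (nat_lit 7) (nat_lit 7) (nat_lit 10) L80253 (by decide +kernel)
theorem L80255 : W_31 (nat_lit 4) (nat_lit 0xc0006000200010001000080000000000000000000000000000000) (nat_lit 0x0) (nat_lit 0x400060003000100000000100000000000000000000000000000000000000000000) := T_31 (nat_lit 229) (nat_lit 212) (nat_lit 7) (nat_lit 7) (nat_lit 9) L80254 (by decide +kernel)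
theorem L80256 : W_31 (nat_lit 5) (nat_lit 0xc0006000200000001000080000000000000000000000000000000) (nat_lit 0x0) (nat_lit 0x400060003000100000000100010000800000000000000000000000000000000000) := T_31 (nat_lit 160) (nat_lit 143) (nat_lit 6) (nat_lit 7) (nat_lit 11) L80255 (by decide +kernel)
theorem L80258 : W_31 (nat_lit 2) (nat_lit 0x200010000e0016000200000001000080000000000000000000000000000000) (nat_lit 0x0) (nat_lit 0x800040002000000000000000000000000000000000000000000000000000000000) := D_31 (nat_lit 246) (nat_lit 229) (nat_lit 263) (nat_lit 7) (nat_lit 7) (nat_lit 10) (nat_lit 7) (nat_lit 7) (nat_lit 11) (by decide +kernel)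
theorem L80264 : W_31 (nat_lit 2) (nat_lit 0x10000d0006000380000001800080000000000000000000000000000000) (nat_lit 0x0) (nat_lit 0x2000028000000000000000000000000000000000000000000000000000) := D_31 (nat_lit 209) (nat_lit 207) (nat_lit 229) (nat_lit 2) (nat_lit 3) (nat_lit 12) (nat_lit 3) (nat_lit 4) (nat_lit 12) (by decide +kernel)
theorem L80265 : W_31 (nat_lit 3) (nat_lit 0xd0006000380000001800080000000000000000000000000000000) (nat_lit 0x0) (nat_lit 0x20003000028000000000000000000000000000000000000000000000000000) := T_31 (nat_lit 228) (nat_lit 245) (nat_lit 4) (nat_lit 7) (nat_lit 14) L80264 (by decide +kernel)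
theorem L80266 : W_31 (nat_lit 4) (nat_lit 0xd0006000380000001000080000000000000000000000000000000) (nat_lit 0x0) (nat_lit 0x20003000028000000000010000800000000000000000000000000000000000) := T_31 (nat_lit 143) (nat_lit 160) (nat_lit 6) (nat_lit 7) (nat_lit 11) L80265 (by decide +kernel)
theorem L80267 : W_31 (nat_lit 2) (nat_lit 0xf0006800340000001000080000000000000000000000000000000) (nat_lit 0x0) (nat_lit 0x20003000000000000000000000000000000000000000000000000000000000) := D_31 (nat_lit 228) (nat_lit 229) (nat_lit 245) (nat_lit 3) (nat_lit 4) (nat_lit 12) (nat_lit 4) (nat_lit 7) (nat_lit 14) (by decide +kernel)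
theorem L80268 : W_31 (nat_lit 3) (nat_lit 0x70006800340000001000080000000000000000000000000000000) (nat_lit 0x0) (nat_lit 0x20003000080000400000000000000000000000000000000000000000000000) := T_31 (nat_lit 211) (nat_lit 190) (nat_lit 0) (nat_lit 7) (nat_lit 12) L80267 (by decide +kernel)
theorem L80374 : W_31 (nat_lit 2) (nat_lit 0x30000e000200000001000080000000000000000000000000000000) (nat_lit 0x0) (nat_lit 0xc80000000000000000000000000000000000000000000000000000) := D_31 (nat_lit 214) (nat_lit 211) (nat_lit 215) (nat_lit 0) (nat_lit 10) (nat_lit 12) (nat_lit 0) (nat_lit 11) (nat_lit 12) (by decide +kernel)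
theorem L80394 : W_31 (nat_lit 2) (nat_lit 0x8000e000300002001e00088000000000000000000000000000000) (nat_lit 0x0) (nat_lit 0x1000100004000000000000000000000000000000) := D_31 (nat_lit 140) (nat_lit 156) (nat_lit 122) (nat_lit 1) (nat_lit 7) (nat_lit 8) (nat_lit 0) (nat_lit 7) (nat_lit 8) (by decide +kernel)
theorem L80395 : W_31 (nat_lit 3) (nat_lit 0x8000e000300002001e00080000000000000000000000000000000) (nat_lit 0x0) (nat_lit 0x100010001c000000000000000000000000000000) := T_31 (nat_lit 123) (nat_lit 124) (nat_lit 0) (nat_lit 8) (nat_lit 8) L80394 (by decide +kernel)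
theorem L80396 : W_31 (nat_lit 4) (nat_lit 0x8000e000300000001e00080000000000000000000000000000000) (nat_lit 0x0) (nat_lit 0x700010001c000000000000000000000000000000) := T_31 (nat_lit 157) (nat_lit 158) (nat_lit 1) (nat_lit 8) (nat_lit 8) L80395 (by decide +kernel)
theorem L80614 : W_31 (nat_lit 2) (nat_lit 0x7c0024000200000001000080000000000000000000000000000000) (nat_lit 0x0) (nat_lit 0x1c000000000000000000000000000000000000000000000000000000000) := D_31 (nat_lit 231) (nat_lit 232) (nat_lit 230) (nat_lit 3) (nat_lit 7) (nat_lit 12) (nat_lit 3) (nat_lit 6) (nat_lit 12) (by decide +kernel)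
theorem L80615 : W_31 (nat_lit 3) (nat_lit 0x780024000200000001000080000000000000000000000000000000) (nat_lit 0x0) (nat_lit 0x1c000040010000000000000000000000000000000000000000000000000) := T_31 (nat_lit 210) (nat_lit 196) (nat_lit 2) (nat_lit 6) (nat_lit 12) L80614 (by decide +kernel)
theorem L80616 : W_31 (nat_lit 4) (nat_lit 0x780004000200000001000080000000000000000000000000000000) (nat_lit 0x0) (nat_lit 0x1c000040070000000000000000000000000000000000000000000000000) := T_31 (nat_lit 197) (nat_lit 198) (nat_lit 2) (nat_lit 7) (nat_lit 12) L80615 (by decide +kernel)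
theorem L80617 : W_31 (nat_lit 5) (nat_lit 0x380004000200000001000080000000000000000000000000000000) (nat_lit 0x0) (nat_lit 0x1c000440072000000000000000000000000000000000000000000000000) := T_31 (nat_lit 214) (nat_lit 193) (nat_lit 0) (nat_lit 10) (nat_lit 12) L80616 (by decide +kernel)
theorem L80630 : W_31 (nat_lit 6) (nat_lit 0x380004000200000001000080000000000000000000000000000000) (nat_lit 0x0) (nat_lit 0x80005000ee0006003b000800000000000000000000000000000000000000000000) := Q_31 (nat_lit 210) (C_31 L79015 (C_31 L80626 (C_31 L80629 (C_31 L79012 N_31)))) (by decide +kernel)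
theorem L80634 : W_31 (nat_lit 10) (nat_lit 0x180004000200000001000080000000000000000000000000000000) (nat_lit 0x0) (nat_lit 0xa0005003ee00e700fb000800000000000000000000000000000000000000000000) := Q_31 (nat_lit 213) (C_31 L80613 (C_31 L80617 (C_31 L80627 (C_31 L80630 (C_31 L80633 N_31))))) (by decide +kernel)
theorem L80636 : W_31 (nat_lit 5) (nat_lit 0x1c0004000200000001000080000000000000000000000000000000) (nat_lit 0x0) (nat_lit 0x1001ce0062007b000000000000000000000000000000000000000000000000) := Q_31 (nat_lit 213) (C_31 L80629 (C_31 L80626 (C_31 L79287 N_31))) (by decide +kernel)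
theorem L80637 : W_31 (nat_lit 2) (nat_lit 0x1000000004001e000f000680018001000080000000000000000000000000000000) (nat_lit 0x0) (nat_lit 0x6000200000000000000000000000000000000000) := D_31 (nat_lit 158) (nat_lit 157) (nat_lit 141) (nat_lit 3) (nat_lit 4) (nat_lit 9) (nat_lit 7) (nat_lit 5) (nat_lit 8) (by decide +kernel)
theorem L80638 : W_31 (nat_lit 3) (nat_lit 0x1000000004001e000f000680010001000080000000000000000000000000000000) (nat_lit 0x0) (nat_lit 0xe000600000000000000000000000000000000000) := T_31 (nat_lit 159) (nat_lit 142) (nat_lit 4) (nat_lit 7) (nat_lit 12) L80637 (by decide +kernel)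
theorem L80639 : W_31 (nat_lit 4) (nat_lit 0x1000000004001e000f000600010001000080000000000000000000000000000000) (nat_lit 0x0) (nat_lit 0xc000e000600000000000000000000000000000000000) := T_31 (nat_lit 175) (nat_lit 174) (nat_lit 0) (nat_lit 8) (nat_lit 11) L80638 (by decide +kernel)
theorem L80640 : W_31 (nat_lit 5) (nat_lit 0x1000000004001e000f000200010001000080000000000000000000000000000000) (nat_lit 0x0) (nat_lit 0xcc000e000600000000000000000000000000000000000) := T_31 (nat_lit 178) (nat_lit 179) (nat_lit 2) (nat_lit 5) (nat_lit 11) L80639 (by decide +kernel)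
theorem L80641 : W_31 (nat_lit 6) (nat_lit 0x4001e000f000200010001000080000000000000000000000000000000) (nat_lit 0x0) (nat_lit 0x100008000000000000000cc000e000600000000000000000000000000000000000) := T_31 (nat_lit 260) (nat_lit 243) (nat_lit 6) (nat_lit 5) (nat_lit 15) L80640 (by decide +kernel)
theorem L80642 : W_31 (nat_lit 7) (nat_lit 0x4001e000e000200010001000080000000000000000000000000000000) (nat_lit 0x0) (nat_lit 0x100008000000000001800cc000e000600000000000000000000000000000000000) := T_31 (nat_lit 192) (nat_lit 191) (nat_lit 3) (nat_lit 4) (nat_lit 11) L80641 (by decide +kernel)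
theorem L80643 : W_31 (nat_lit 8) (nat_lit 0x1e000e000200010001000080000000000000000000000000000000) (nat_lit 0x0) (nat_lit 0x100008000600000001800cc000e000600000000000000000000000000000000000) := T_31 (nat_lit 226) (nat_lit 225) (nat_lit 1) (nat_lit 8) (nat_lit 12) L80642 (by decide +kernel)
theorem L80644 : W_31 (nat_lit 9) (nat_lit 0x1e0006000200010001000080000000000000000000000000000000) (nat_lit 0x0) (nat_lit 0x100008000600000019800cc000e000600000000000000000000000000000000000) := T_31 (nat_lit 195) (nat_lit 196) (nat_lit 2) (nat_lit 5) (nat_lit 12) L80643 (by decide +kernel)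
theorem L80645 : W_31 (nat_lit 10) (nat_lit 0x1e0006000200000001000080000000000000000000000000000000) (nat_lit 0x0) (nat_lit 0x100008000600000019800cc001e000e00000000000000000000000000000000000) := T_31 (nat_lit 160) (nat_lit 143) (nat_lit 6) (nat_lit 7) (nat_lit 11) L80644 (by decide +kernel)
theorem L80646 : W_31 (nat_lit 11) (nat_lit 0x1c0006000200000001000080000000000000000000000000000000) (nat_lit 0x0) (nat_lit 0x100008000700038019c00cc001e000e00000000000000000000000000000000000) := Q_31 (nat_lit 209) (C_31 L78868 (C_31 L80645 (C_31 L78866 N_31))) (by decide +kernel)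
theorem L80647 : W_31 (nat_lit 12) (nat_lit 0x1c0004000200000001000080000000000000000000000000000000) (nat_lit 0x0) (nat_lit 0x10000800070063803bc00cc001e000e00000000000000000000000000000000000) := Q_31 (nat_lit 193) (C_31 L78857 (C_31 L79501 (C_31 L80646 N_31))) (by decide +kernel)
theorem L80648 : W_31 (nat_lit 13) (nat_lit 0x180004000200000001000080000000000000000000000000000000) (nat_lit 0x0) (nat_lit 0x10001801cf0067807bc00cc001e000e00000000000000000000000000000000000) := Q_31 (nat_lit 210) (C_31 L80635 (C_31 L79492 (C_31 L80636 (C_31 L80647 N_31)))) (by decide +kernel)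
theorem L80649 : W_31 (nat_lit 14) (nat_lit 0x80004000200000001000080000000000000000000000000000000) (nat_lit 0x0) (nat_lit 0xb0005803ef00f780fbc00cc001e000e00000000000000000000000000000000000) := Q_31 (nat_lit 212) (C_31 L80584 (C_31 L80586 (C_31 L80634 (C_31 L80648 N_31)))) (by decide +kernel)
theorem L80659 : W_31 (nat_lit 2) (nat_lit 0xe0007000200010001000080000000000000000000000000000000) (nat_lit 0x0) (nat_lit 0xc00400000000000000000000000000000000000000000000) := D_31 (nat_lit 191) (nat_lit 178) (nat_lit 190) (nat_lit 2) (nat_lit 4) (nat_lit 11) (nat_lit 3) (nat_lit 3) (nat_lit 11) (by decide +kernel)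
theorem L80660 : W_31 (nat_lit 2) (nat_lit 0x4000e0017800240018001000080000000000000000000000000000000) (nat_lit 0x0) (nat_lit 0x80002000100000000000000000000000000000000000) := D_31 (nat_lit 157) (nat_lit 140) (nat_lit 175) (nat_lit 7) (nat_lit 4) (nat_lit 8) (nat_lit 4) (nat_lit 5) (nat_lit 13) (by decide +kernel)
theorem L80661 : W_31 (nat_lit 3) (nat_lit 0xe0017800240018001000080000000000000000000000000000000) (nat_lit 0x0) (nat_lit 0x8000400000000000080002000100000000000000000000000000000000000) := T_31 (nat_lit 226) (nat_lit 243) (nat_lit 4) (nat_lit 5) (nat_lit 14) L80660 (by decide +kernel)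
theorem L80662 : W_31 (nat_lit 4) (nat_lit 0xe0017800200018001000080000000000000000000000000000000) (nat_lit 0x0) (nat_lit 0x80004000000000000e0002000100000000000000000000000000000000000) := T_31 (nat_lit 174) (nat_lit 173) (nat_lit 0) (nat_lit 7) (nat_lit 11) L80661 (by decide +kernel)
theorem L80663 : W_31 (nat_lit 5) (nat_lit 0xe0017800200010001000080000000000000000000000000000000) (nat_lit 0x0) (nat_lit 0x80004000000000000e000a000500000000000000000000000000000000000) := T_31 (nat_lit 159) (nat_lit 142) (nat_lit 4) (nat_lit 7) (nat_lit 12) L80662 (by decide +kernel)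
theorem L80664 : W_31 (nat_lit 6) (nat_lit 0xe0017000200010001000080000000000000000000000000000000) (nat_lit 0x0) (nat_lit 0x8000400000000c000e000a000500000000000000000000000000000000000) := T_31 (nat_lit 191) (nat_lit 190) (nat_lit 3) (nat_lit 3) (nat_lit 11) L80663 (by decide +kernel)
theorem L80665 : W_31 (nat_lit 7) (nat_lit 0xe0007000200010001000080000000000000000000000000000000) (nat_lit 0x0) (nat_lit 0x8000400000018c000e000a000500000000000000000000000000000000000) := T_31 (nat_lit 196) (nat_lit 195) (nat_lit 1) (nat_lit 9) (nat_lit 11) L80664 (by decide +kernel)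
theorem L80666 : W_31 (nat_lit 2) (nat_lit 0xe000f000680018001000080000000000000000000000000000000) (nat_lit 0x0) (nat_lit 0x6000200000000000000000000000000000000000) := D_31 (nat_lit 158) (nat_lit 157) (nat_lit 141) (nat_lit 3) (nat_lit 4) (nat_lit 9) (nat_lit 7) (nat_lit 5) (nat_lit 8) (by decide +kernel)
theorem L80667 : W_31 (nat_lit 3) (nat_lit 0xe000f000280018001000080000000000000000000000000000000) (nat_lit 0x0) (nat_lit 0xc00006000200000000000000000000000000000000000) := T_31 (nat_lit 178) (nat_lit 179) (nat_lit 2) (nat_lit 5) (nat_lit 11) L80666 (by decide +kernel)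
theorem L80668 : W_31 (nat_lit 4) (nat_lit 0xe000f000200018001000080000000000000000000000000000000) (nat_lit 0x0) (nat_lit 0xcc0006000200000000000000000000000000000000000) := T_31 (nat_lit 175) (nat_lit 174) (nat_lit 0) (nat_lit 8) (nat_lit 11) L80667 (by decide +kernel)
theorem L80669 : W_31 (nat_lit 5) (nat_lit 0xe0007000200018001000080000000000000000000000000000000) (nat_lit 0x0) (nat_lit 0x18000cc0006000200000000000000000000000000000000000) := T_31 (nat_lit 195) (nat_lit 196) (nat_lit 1) (nat_lit 9) (nat_lit 11) L80668 (by decide +kernel)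
theorem L80670 : W_31 (nat_lit 6) (nat_lit 0xe0007000200010001000080000000000000000000000000000000) (nat_lit 0x0) (nat_lit 0x18000cc000e000600000000000000000000000000000000000) := T_31 (nat_lit 159) (nat_lit 142) (nat_lit 4) (nat_lit 7) (nat_lit 12) L80669 (by decide +kernel)
theorem L80671 : W_31 (nat_lit 8) (nat_lit 0xe0006000200010001000080000000000000000000000000000000) (nat_lit 0x0) (nat_lit 0x8000400000019c00ce000e000700000000000000000000000000000000000) := Q_31 (nat_lit 192) (C_31 L80659 (C_31 L80665 (C_31 L80670 N_31))) (by decide +kernel)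
theorem L80714 : W_31 (nat_lit 2) (nat_lit 0x700010000c000e000200000001000080000000000000000000000000000000) (nat_lit 0x0) (nat_lit 0x30010000000000000000000000000000000000000000000000000) := D_31 (nat_lit 209) (nat_lit 208) (nat_lit 196) (nat_lit 2) (nat_lit 4) (nat_lit 12) (nat_lit 1) (nat_lit 9) (nat_lit 11) (by decide +kernel)
theorem L80715 : W_31 (nat_lit 3) (nat_lit 0x7000100008000e000200000001000080000000000000000000000000000000) (nat_lit 0x0) (nat_lit 0x400000000000070010000000000000000000000000000000000000000000000000) := T_31 (nat_lit 210) (nat_lit 262) (nat_lit 4) (nat_lit 7) (nat_lit 15) L80714 (by decide +kernel)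
theorem L80716 : W_31 (nat_lit 4) (nat_lit 0x6000100008000e000200000001000080000000000000000000000000000000) (nat_lit 0x0) (nat_lit 0x600010000000070010000000000000000000000000000000000000000000000000) := T_31 (nat_lit 244) (nat_lit 261) (nat_lit 5) (nat_lit 7) (nat_lit 11) L80715 (by decide +kernel)
theorem L80717 : W_31 (nat_lit 5) (nat_lit 0x60001000080006000200000001000080000000000000000000000000000000) (nat_lit 0x0) (nat_lit 0x600010000000070018000400000000000000000000000000000000000000000000) := T_31 (nat_lit 195) (nat_lit 178) (nat_lit 6) (nat_lit 7) (nat_lit 14) L80716 (by decide +kernel)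
theorem L80718 : W_31 (nat_lit 6) (nat_lit 0x40001000080006000200000001000080000000000000000000000000000000) (nat_lit 0x0) (nat_lit 0xe00030000000070018000400000000000000000000000000000000000000000000) := T_31 (nat_lit 245) (nat_lit 263) (nat_lit 7) (nat_lit 7) (nat_lit 11) L80717 (by decide +kernel)
theorem L80719 : W_31 (nat_lit 7) (nat_lit 0x1000080006000200000001000080000000000000000000000000000000) (nat_lit 0x0) (nat_lit 0xe00070002000070018000400000000000000000000000000000000000000000000) := T_31 (nat_lit 246) (nat_lit 229) (nat_lit 7) (nat_lit 7) (nat_lit 10) L80718 (by decide +kernel)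
theorem L80728 : W_31 (nat_lit 2) (nat_lit 0xb8000d00078002c0000001000080000000000000000000000000000000) (nat_lit 0x0) (nat_lit 0x200000000000000004000200000000000000000000000000000000000) := D_31 (nat_lit 158) (nat_lit 141) (nat_lit 225) (nat_lit 7) (nat_lit 5) (nat_lit 8) (nat_lit 6) (nat_lit 4) (nat_lit 13) (by decide +kernel)
theorem L80729 : W_31 (nat_lit 3) (nat_lit 0xb8000d0007800240000001000080000000000000000000000000000000) (nat_lit 0x0) (nat_lit 0x200000008000080004000200000000000000000000000000000000000) := T_31 (nat_lit 175) (nat_lit 195) (nat_lit 0) (nat_lit 8) (nat_lit 11) L80728 (by decide +kernel)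
theorem L80730 : W_31 (nat_lit 4) (nat_lit 0xb8000c0007800240000001000080000000000000000000000000000000) (nat_lit 0x0) (nat_lit 0x200018008000080004000200000000000000000000000000000000000) := T_31 (nat_lit 208) (nat_lit 207) (nat_lit 1) (nat_lit 7) (nat_lit 11) L80729 (by decide +kernel)
theorem L80731 : W_31 (nat_lit 5) (nat_lit 0xb8000c0007800200000001000080000000000000000000000000000000) (nat_lit 0x0) (nat_lit 0x2000180080000e0004000200000000000000000000000000000000000) := T_31 (nat_lit 174) (nat_lit 173) (nat_lit 0) (nat_lit 7) (nat_lit 11) L80730 (by decide +kernel)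
theorem L80732 : W_31 (nat_lit 6) (nat_lit 0x38000c0007800200000001000080000000000000000000000000000000) (nat_lit 0x0) (nat_lit 0xc2000180080000e0004000200000000000000000000000000000000000) := T_31 (nat_lit 231) (nat_lit 230) (nat_lit 0) (nat_lit 10) (nat_lit 13) L80731 (by decide +kernel)
theorem L80733 : W_31 (nat_lit 7) (nat_lit 0x18000c0007800200000001000080000000000000000000000000000000) (nat_lit 0x0) (nat_lit 0x4000e2000180080000e0004000200000000000000000000000000000000000) := T_31 (nat_lit 229) (nat_lit 246) (nat_lit 7) (nat_lit 7) (nat_lit 10) L80732 (by decide +kernel)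
theorem L80734 : W_31 (nat_lit 8) (nat_lit 0x18000c0007000200000001000080000000000000000000000000000000) (nat_lit 0x0) (nat_lit 0x4000e200018008c000e0004000200000000000000000000000000000000000) := T_31 (nat_lit 191) (nat_lit 190) (nat_lit 3) (nat_lit 3) (nat_lit 11) L80733 (by decide +kernel)
theorem L80735 : W_31 (nat_lit 9) (nat_lit 0x10000c0007000200000001000080000000000000000000000000000000) (nat_lit 0x0) (nat_lit 0x5000ea00018008c000e0004000200000000000000000000000000000000000) := T_31 (nat_lit 227) (nat_lit 244) (nat_lit 6) (nat_lit 6) (nat_lit 14) L80734 (by decide +kernel)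
theorem L80736 : W_31 (nat_lit 2) (nat_lit 0x1000b0000c000f800240000001000080000000000000000000000000000000) (nat_lit 0x0) (nat_lit 0x20030000000000000000000000000000000000000000000000000) := D_31 (nat_lit 196) (nat_lit 209) (nat_lit 197) (nat_lit 1) (nat_lit 9) (nat_lit 11) (nat_lit 1) (nat_lit 10) (nat_lit 11) (by decide +kernel)
theorem L80737 : W_31 (nat_lit 3) (nat_lit 0x1000b0000c0007800240000001000080000000000000000000000000000000) (nat_lit 0x0) (nat_lit 0x20038000080000000000000000000000000000000000000000000) := T_31 (nat_lit 195) (nat_lit 175) (nat_lit 0) (nat_lit 8) (nat_lit 11) L80736 (by decide +kernel)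
theorem L80738 : W_31 (nat_lit 4) (nat_lit 0x1000b0000c0007800200000001000080000000000000000000000000000000) (nat_lit 0x0) (nat_lit 0x200380000e0000000000000000000000000000000000000000000) := T_31 (nat_lit 174) (nat_lit 173) (nat_lit 0) (nat_lit 7) (nat_lit 11) L80737 (by decide +kernel)
theorem L80739 : W_31 (nat_lit 5) (nat_lit 0xb0000c0007800200000001000080000000000000000000000000000000) (nat_lit 0x0) (nat_lit 0x100008000200380000e0000000000000000000000000000000000000000000) := T_31 (nat_lit 244) (nat_lit 227) (nat_lit 6) (nat_lit 6) (nat_lit 14) L80738 (by decide +kernel)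
theorem L80740 : W_31 (nat_lit 6) (nat_lit 0xb0000c0007000200000001000080000000000000000000000000000000) (nat_lit 0x0) (nat_lit 0x10000800020038c000e0000000000000000000000000000000000000000000) := T_31 (nat_lit 191) (nat_lit 190) (nat_lit 3) (nat_lit 3) (nat_lit 11) L80739 (by decide +kernel)
theorem L80741 : W_31 (nat_lit 7) (nat_lit 0x30000c0007000200000001000080000000000000000000000000000000) (nat_lit 0x0) (nat_lit 0x1000c800020038c000e0000000000000000000000000000000000000000000) := T_31 (nat_lit 231) (nat_lit 230) (nat_lit 0) (nat_lit 10) (nat_lit 13) L80740 (by decide +kernel)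
theorem L80742 : W_31 (nat_lit 8) (nat_lit 0x10000c0007000200000001000080000000000000000000000000000000) (nat_lit 0x0) (nat_lit 0x5000e800020038c000e0000000000000000000000000000000000000000000) := T_31 (nat_lit 229) (nat_lit 246) (nat_lit 7) (nat_lit 7) (nat_lit 10) L80741 (by decide +kernel)
theorem L80743 : W_31 (nat_lit 10) (nat_lit 0x1000080007000200000001000080000000000000000000000000000000) (nat_lit 0x0) (nat_lit 0x5000ea00078038c000e0004000200000000000000000000000000000000000) := Q_31 (nat_lit 210) (C_31 L78657 (C_31 L79339 (C_31 L80735 (C_31 L78599 (C_31 L80742 N_31))))) (by decide +kernel)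
theorem L80829 : W_31 (nat_lit 14) (nat_lit 0x1000080006000200000001000080000000000000000000000000000000) (nat_lit 0x0) (nat_lit 0x5e00ef00e7c079f07cf0006000300000000000000000000000000000000000) := Q_31 (nat_lit 192) (C_31 L80727 (C_31 L80743 (C_31 L80748 (C_31 L80754 (C_31 L80816 (C_31 L80828 N_31)))))) (by decide +kernel)
theorem L80835 : W_31 (nat_lit 15) (nat_lit 0x80006000200000001000080000000000000000000000000000000) (nat_lit 0x0) (nat_lit 0xe0007e00ff00e7c079f07cf0006000300000000000000000000000000000000000) := Q_31 (nat_lit 228) (C_31 L80713 (C_31 L80719 (C_31 L80723 (C_31 L80829 (C_31 L80834 N_31))))) (by decide +kernel)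
theorem L80836 : W_31 (nat_lit 2) (nat_lit 0x90007c00200018001000080000000000000000000000000000000) (nat_lit 0x0) (nat_lit 0x70000000000000000000000000000000000000000000) := D_31 (nat_lit 173) (nat_lit 172) (nat_lit 174) (nat_lit 0) (nat_lit 6) (nat_lit 11) (nat_lit 0) (nat_lit 7) (nat_lit 11) (by decide +kernel)
theorem L80837 : W_31 (nat_lit 3) (nat_lit 0x90007800200018001000080000000000000000000000000000000) (nat_lit 0x0) (nat_lit 0x40000400070000000000000000000000000000000000000000000) := T_31 (nat_lit 190) (nat_lit 210) (nat_lit 3) (nat_lit 3) (nat_lit 11) L80836 (by decide +kernel)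
theorem L80838 : W_31 (nat_lit 4) (nat_lit 0x80007800200018001000080000000000000000000000000000000) (nat_lit 0x0) (nat_lit 0x58000400070000000000000000000000000000000000000000000) := T_31 (nat_lit 208) (nat_lit 207) (nat_lit 1) (nat_lit 7) (nat_lit 11) L80837 (by decide +kernel)
theorem L80839 : W_31 (nat_lit 5) (nat_lit 0x80007000200018001000080000000000000000000000000000000) (nat_lit 0x0) (nat_lit 0x58000c00470000000000000000000000000000000000000000000) := T_31 (nat_lit 191) (nat_lit 178) (nat_lit 2) (nat_lit 4) (nat_lit 11) L80838 (by decide +kernel)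
theorem L80840 : W_31 (nat_lit 6) (nat_lit 0x80007000200010001000080000000000000000000000000000000) (nat_lit 0x0) (nat_lit 0x58000c00470008000400000000000000000000000000000000000) := T_31 (nat_lit 159) (nat_lit 142) (nat_lit 4) (nat_lit 7) (nat_lit 12) L80839 (by decide +kernel)
theorem L80841 : W_31 (nat_lit 7) (nat_lit 0x80007000200000001000080000000000000000000000000000000) (nat_lit 0x0) (nat_lit 0x58000c00470018000c00000000000000000000000000000000000) := T_31 (nat_lit 160) (nat_lit 143) (nat_lit 6) (nat_lit 7) (nat_lit 11) L80840 (by decide +kernel)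
theorem L80842 : W_31 (nat_lit 5) (nat_lit 0x80007800200010001000080000000000000000000000000000000) (nat_lit 0x0) (nat_lit 0x58000400070008000400000000000000000000000000000000000) := T_31 (nat_lit 159) (nat_lit 142) (nat_lit 4) (nat_lit 7) (nat_lit 12) L80838 (by decide +kernel)
theorem L80843 : W_31 (nat_lit 6) (nat_lit 0x80007800200000001000080000000000000000000000000000000) (nat_lit 0x0) (nat_lit 0x58000400070018000c00000000000000000000000000000000000) := T_31 (nat_lit 160) (nat_lit 143) (nat_lit 6) (nat_lit 7) (nat_lit 11) L80842 (by decide +kernel)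
theorem L80844 : W_31 (nat_lit 2) (nat_lit 0x9000f800200018001000080000000000000000000000000000000) (nat_lit 0x0) (nat_lit 0xe0000000000000000000000000000000000000000000) := D_31 (nat_lit 174) (nat_lit 175) (nat_lit 173) (nat_lit 0) (nat_lit 8) (nat_lit 11) (nat_lit 0) (nat_lit 7) (nat_lit 11) (by decide +kernel)
theorem L80845 : W_31 (nat_lit 3) (nat_lit 0x90007800200018001000080000000000000000000000000000000) (nat_lit 0x0) (nat_lit 0x200080000e0000000000000000000000000000000000000000000) := T_31 (nat_lit 195) (nat_lit 209) (nat_lit 1) (nat_lit 8) (nat_lit 11) L80844 (by decide +kernel)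
theorem L80846 : W_31 (nat_lit 4) (nat_lit 0x90007800200010001000080000000000000000000000000000000) (nat_lit 0x0) (nat_lit 0x200080000e0008000400000000000000000000000000000000000) := T_31 (nat_lit 159) (nat_lit 142) (nat_lit 4) (nat_lit 7) (nat_lit 12) L80845 (by decide +kernel)
theorem L80847 : W_31 (nat_lit 5) (nat_lit 0x90007800200000001000080000000000000000000000000000000) (nat_lit 0x0) (nat_lit 0x200080000e0018000c00000000000000000000000000000000000) := T_31 (nat_lit 160) (nat_lit 143) (nat_lit 6) (nat_lit 7) (nat_lit 11) L80846 (by decide +kernel)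
theorem L80848 : W_31 (nat_lit 6) (nat_lit 0x80007800200000001000080000000000000000000000000000000) (nat_lit 0x0) (nat_lit 0x380080000e0018000c00000000000000000000000000000000000) := T_31 (nat_lit 208) (nat_lit 207) (nat_lit 1) (nat_lit 7) (nat_lit 11) L80847 (by decide +kernel)
theorem L80849 : W_31 (nat_lit 2) (nat_lit 0xc000f800240018001000080000000000000000000000000000000) (nat_lit 0x0) (nat_lit 0x20030000000000000000000000000000000000000000000000000) := D_31 (nat_lit 196) (nat_lit 197) (nat_lit 209) (nat_lit 1) (nat_lit 10) (nat_lit 11) (nat_lit 1) (nat_lit 9) (nat_lit 11) (by decide +kernel)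
theorem L80850 : W_31 (nat_lit 3) (nat_lit 0x8000f800240018001000080000000000000000000000000000000) (nat_lit 0x0) (nat_lit 0x60030400000000000000000000000000000000000000000000000) := T_31 (nat_lit 210) (nat_lit 190) (nat_lit 3) (nat_lit 3) (nat_lit 11) L80849 (by decide +kernel)
theorem L80851 : W_31 (nat_lit 4) (nat_lit 0x80007800240018001000080000000000000000000000000000000) (nat_lit 0x0) (nat_lit 0x60038400080000000000000000000000000000000000000000000) := T_31 (nat_lit 195) (nat_lit 175) (nat_lit 0) (nat_lit 8) (nat_lit 11) L80850 (by decide +kernel)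
theorem L80852 : W_31 (nat_lit 5) (nat_lit 0x80007800240010001000080000000000000000000000000000000) (nat_lit 0x0) (nat_lit 0x60038400080008000400000000000000000000000000000000000) := T_31 (nat_lit 159) (nat_lit 142) (nat_lit 4) (nat_lit 7) (nat_lit 12) L80851 (by decide +kernel)
theorem L80853 : W_31 (nat_lit 6) (nat_lit 0x80007800240000001000080000000000000000000000000000000) (nat_lit 0x0) (nat_lit 0x60038400080018000c00000000000000000000000000000000000) := T_31 (nat_lit 160) (nat_lit 143) (nat_lit 6) (nat_lit 7) (nat_lit 11) L80852 (by decide +kernel)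
theorem L80854 : W_31 (nat_lit 7) (nat_lit 0x80007800200000001000080000000000000000000000000000000) (nat_lit 0x0) (nat_lit 0x600384000e0018000c00000000000000000000000000000000000) := T_31 (nat_lit 174) (nat_lit 173) (nat_lit 0) (nat_lit 7) (nat_lit 11) L80853 (by decide +kernel)
theorem L80855 : W_31 (nat_lit 8) (nat_lit 0x80007000200000001000080000000000000000000000000000000) (nat_lit 0x0) (nat_lit 0x7c038c000f0018000c00000000000000000000000000000000000) := Q_31 (nat_lit 191) (C_31 L80843 (C_31 L17480 (C_31 L80848 (C_31 L80854 N_31)))) (by decide +kernel)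
theorem L80856 : W_31 (nat_lit 4) (nat_lit 0x80007000200000001000080000000000000000000000000000000) (nat_lit 0x0) (nat_lit 0x5c000c00400000000000000000000000000000000000000000000) := T_31 (nat_lit 191) (nat_lit 178) (nat_lit 2) (nat_lit 4) (nat_lit 11) L17480 (by decide +kernel)
theorem L80857 : W_31 (nat_lit 7) (nat_lit 0x80007000200000001000080000000000000000000000000000000) (nat_lit 0x0) (nat_lit 0x380088004e0018000c00000000000000000000000000000000000) := T_31 (nat_lit 191) (nat_lit 178) (nat_lit 2) (nat_lit 4) (nat_lit 11) L80848 (by decide +kernel)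
theorem L80858 : W_31 (nat_lit 2) (nat_lit 0x200000000a003f00068001a001000080000000000000000000000000000000) (nat_lit 0x0) (nat_lit 0xe00000000000000000000000000000000000000000000000000000) := D_31 (nat_lit 214) (nat_lit 213) (nat_lit 215) (nat_lit 3) (nat_lit 6) (nat_lit 11) (nat_lit 3) (nat_lit 7) (nat_lit 11) (by decide +kernel)
theorem L80859 : W_31 (nat_lit 3) (nat_lit 0x200000000a001f00068001a001000080000000000000000000000000000000) (nat_lit 0x0) (nat_lit 0xe00060000000000000000000000000000000000000000000000000) := T_31 (nat_lit 197) (nat_lit 198) (nat_lit 0) (nat_lit 11) (nat_lit 11) L80858 (by decide +kernel)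
theorem L80860 : W_31 (nat_lit 4) (nat_lit 0x200000000a000f00068001a001000080000000000000000000000000000000) (nat_lit 0x0) (nat_lit 0xe40070000000000000000000000000000000000000000000000000) := T_31 (nat_lit 196) (nat_lit 210) (nat_lit 1) (nat_lit 9) (nat_lit 11) L80859 (by decide +kernel)
theorem L80861 : W_31 (nat_lit 5) (nat_lit 0x200000000a000f00060001a001000080000000000000000000000000000000) (nat_lit 0x0) (nat_lit 0xe400700000c0000000000000000000000000000000000000000000) := T_31 (nat_lit 175) (nat_lit 174) (nat_lit 0) (nat_lit 8) (nat_lit 11) L80860 (by decide +kernel)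
theorem L80862 : W_31 (nat_lit 6) (nat_lit 0x2000000008000f00060001a001000080000000000000000000000000000000) (nat_lit 0x0) (nat_lit 0xe700700000c0000000000000000000000000000000000000000000) := T_31 (nat_lit 209) (nat_lit 208) (nat_lit 1) (nat_lit 8) (nat_lit 11) L80861 (by decide +kernel)
theorem L80863 : W_31 (nat_lit 7) (nat_lit 0x8000f00060001a001000080000000000000000000000000000000) (nat_lit 0x0) (nat_lit 0x20001000e700700000c0000000000000000000000000000000000000000000) := T_31 (nat_lit 245) (nat_lit 228) (nat_lit 6) (nat_lit 7) (nat_lit 14) L80862 (by decide +kernel)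
theorem L80864 : W_31 (nat_lit 8) (nat_lit 0x8000f000600018001000080000000000000000000000000000000) (nat_lit 0x0) (nat_lit 0x20001000e700700000c0006000000000000000000000000000000000000000) := T_31 (nat_lit 157) (nat_lit 158) (nat_lit 3) (nat_lit 4) (nat_lit 9) L80863 (by decide +kernel)
theorem L80865 : W_31 (nat_lit 9) (nat_lit 0x8000f000200018001000080000000000000000000000000000000) (nat_lit 0x0) (nat_lit 0x20001000e70070000cc0006000000000000000000000000000000000000000) := T_31 (nat_lit 178) (nat_lit 179) (nat_lit 2) (nat_lit 5) (nat_lit 11) L80864 (by decide +kernel)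
theorem L80866 : W_31 (nat_lit 10) (nat_lit 0x8000f000200010001000080000000000000000000000000000000) (nat_lit 0x0) (nat_lit 0x20001000e70070000cc000e000400000000000000000000000000000000000) := T_31 (nat_lit 159) (nat_lit 142) (nat_lit 4) (nat_lit 7) (nat_lit 12) L80865 (by decide +kernel)
theorem L80867 : W_31 (nat_lit 11) (nat_lit 0x8000f000200000001000080000000000000000000000000000000) (nat_lit 0x0) (nat_lit 0x20001000e70070000cc001e000c00000000000000000000000000000000000) := T_31 (nat_lit 160) (nat_lit 143) (nat_lit 6) (nat_lit 7) (nat_lit 11) L80866 (by decide +kernel)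
theorem L80868 : W_31 (nat_lit 2) (nat_lit 0x4a001f001280018001000080000000000000000000000000000000) (nat_lit 0x0) (nat_lit 0x800020002000000000000000000000000000000000000000000000) := D_31 (nat_lit 197) (nat_lit 181) (nat_lit 215) (nat_lit 2) (nat_lit 7) (nat_lit 11) (nat_lit 3) (nat_lit 7) (nat_lit 11) (by decide +kernel)
theorem L80869 : W_31 (nat_lit 3) (nat_lit 0xa001f001280018001000080000000000000000000000000000000) (nat_lit 0x0) (nat_lit 0xe00020002000000000000000000000000000000000000000000000) := T_31 (nat_lit 214) (nat_lit 213) (nat_lit 3) (nat_lit 6) (nat_lit 11) L80868 (by decide +kernel)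
theorem L80870 : W_31 (nat_lit 4) (nat_lit 0xa001f000280018001000080000000000000000000000000000000) (nat_lit 0x0) (nat_lit 0xe00020003800000000000000000000000000000000000000000000) := T_31 (nat_lit 180) (nat_lit 179) (nat_lit 2) (nat_lit 6) (nat_lit 11) L80869 (by decide +kernel)
theorem L80871 : W_31 (nat_lit 5) (nat_lit 0xa001f000200018001000080000000000000000000000000000000) (nat_lit 0x0) (nat_lit 0xe000200038c0000000000000000000000000000000000000000000) := T_31 (nat_lit 175) (nat_lit 174) (nat_lit 0) (nat_lit 8) (nat_lit 11) L80870 (by decide +kernel)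
theorem L80872 : W_31 (nat_lit 6) (nat_lit 0xa000f000200018001000080000000000000000000000000000000) (nat_lit 0x0) (nat_lit 0xe400300038c0000000000000000000000000000000000000000000) := T_31 (nat_lit 196) (nat_lit 210) (nat_lit 1) (nat_lit 9) (nat_lit 11) L80871 (by decide +kernel)
theorem L80873 : W_31 (nat_lit 7) (nat_lit 0xa000f000200010001000080000000000000000000000000000000) (nat_lit 0x0) (nat_lit 0xe400300038c0008000400000000000000000000000000000000000) := T_31 (nat_lit 159) (nat_lit 142) (nat_lit 4) (nat_lit 7) (nat_lit 12) L80872 (by decide +kernel)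
theorem L80874 : W_31 (nat_lit 8) (nat_lit 0xa000f000200000001000080000000000000000000000000000000) (nat_lit 0x0) (nat_lit 0xe400300038c0018000c00000000000000000000000000000000000) := T_31 (nat_lit 160) (nat_lit 143) (nat_lit 6) (nat_lit 7) (nat_lit 11) L80873 (by decide +kernel)
theorem L80875 : W_31 (nat_lit 9) (nat_lit 0x8000f000200000001000080000000000000000000000000000000) (nat_lit 0x0) (nat_lit 0xe700300038c0018000c00000000000000000000000000000000000) := T_31 (nat_lit 209) (nat_lit 208) (nat_lit 1) (nat_lit 8) (nat_lit 11) L80874 (by decide +kernel)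
theorem L80876 : W_31 (nat_lit 2) (nat_lit 0x200000000a003f000600000001000080000000000000000000000000000000) (nat_lit 0x0) (nat_lit 0xe00000000000000000000000000000000000000000000000000000) := D_31 (nat_lit 214) (nat_lit 213) (nat_lit 215) (nat_lit 3) (nat_lit 6) (nat_lit 11) (nat_lit 3) (nat_lit 7) (nat_lit 11) (by decide +kernel)
theorem L80877 : W_31 (nat_lit 3) (nat_lit 0x200000000a001f000600000001000080000000000000000000000000000000) (nat_lit 0x0) (nat_lit 0xe00060000000000000000000000000000000000000000000000000) := T_31 (nat_lit 197) (nat_lit 198) (nat_lit 0) (nat_lit 11) (nat_lit 11) L80876 (by decide +kernel)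
theorem L80878 : W_31 (nat_lit 4) (nat_lit 0x200000000a000f000600000001000080000000000000000000000000000000) (nat_lit 0x0) (nat_lit 0xe40070000000000000000000000000000000000000000000000000) := T_31 (nat_lit 196) (nat_lit 210) (nat_lit 1) (nat_lit 9) (nat_lit 11) L80877 (by decide +kernel)
theorem L80879 : W_31 (nat_lit 5) (nat_lit 0xa000f000600000001000080000000000000000000000000000000) (nat_lit 0x0) (nat_lit 0x20001000e40070000000000000000000000000000000000000000000000000) := T_31 (nat_lit 245) (nat_lit 228) (nat_lit 6) (nat_lit 7) (nat_lit 14) L80878 (by decide +kernel)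
theorem L80880 : W_31 (nat_lit 6) (nat_lit 0xa000f000200000001000080000000000000000000000000000000) (nat_lit 0x0) (nat_lit 0x20001000e40070000c00000000000000000000000000000000000000000000) := T_31 (nat_lit 178) (nat_lit 179) (nat_lit 2) (nat_lit 5) (nat_lit 11) L80879 (by decide +kernel)
theorem L80881 : W_31 (nat_lit 7) (nat_lit 0x8000f000200000001000080000000000000000000000000000000) (nat_lit 0x0) (nat_lit 0x20001000e70070000c00000000000000000000000000000000000000000000) := T_31 (nat_lit 209) (nat_lit 208) (nat_lit 1) (nat_lit 8) (nat_lit 11) L80880 (by decide +kernel)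
theorem L80882 : W_31 (nat_lit 2) (nat_lit 0x4a003f002280018001000080000000000000000000000000000000) (nat_lit 0x0) (nat_lit 0x40004400000000000000000000000000000000000000000000) := D_31 (nat_lit 198) (nat_lit 178) (nat_lit 182) (nat_lit 0) (nat_lit 11) (nat_lit 11) (nat_lit 2) (nat_lit 8) (nat_lit 11) (by decide +kernel)
theorem L80883 : W_31 (nat_lit 3) (nat_lit 0x4a003f000280018001000080000000000000000000000000000000) (nat_lit 0x0) (nat_lit 0x40007400000000000000000000000000000000000000000000) := T_31 (nat_lit 181) (nat_lit 180) (nat_lit 2) (nat_lit 7) (nat_lit 11) L80882 (by decide +kernel)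
theorem L80884 : W_31 (nat_lit 4) (nat_lit 0x4a001f000280018001000080000000000000000000000000000000) (nat_lit 0x0) (nat_lit 0x800060007400000000000000000000000000000000000000000000) := T_31 (nat_lit 197) (nat_lit 215) (nat_lit 3) (nat_lit 7) (nat_lit 11) L80883 (by decide +kernel)
theorem L80885 : W_31 (nat_lit 5) (nat_lit 0xa001f000280018001000080000000000000000000000000000000) (nat_lit 0x0) (nat_lit 0xe00060007400000000000000000000000000000000000000000000) := T_31 (nat_lit 214) (nat_lit 213) (nat_lit 3) (nat_lit 6) (nat_lit 11) L80884 (by decide +kernel)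
theorem L80886 : W_31 (nat_lit 6) (nat_lit 0xa001f000200018001000080000000000000000000000000000000) (nat_lit 0x0) (nat_lit 0xe000600074c0000000000000000000000000000000000000000000) := T_31 (nat_lit 175) (nat_lit 174) (nat_lit 0) (nat_lit 8) (nat_lit 11) L80885 (by decide +kernel)
theorem L80887 : W_31 (nat_lit 7) (nat_lit 0xa000f000200018001000080000000000000000000000000000000) (nat_lit 0x0) (nat_lit 0xe400700074c0000000000000000000000000000000000000000000) := T_31 (nat_lit 196) (nat_lit 210) (nat_lit 1) (nat_lit 9) (nat_lit 11) L80886 (by decide +kernel)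
theorem L80888 : W_31 (nat_lit 8) (nat_lit 0xa000f000200010001000080000000000000000000000000000000) (nat_lit 0x0) (nat_lit 0xe400700074c0008000400000000000000000000000000000000000) := T_31 (nat_lit 159) (nat_lit 142) (nat_lit 4) (nat_lit 7) (nat_lit 12) L80887 (by decide +kernel)
theorem L80889 : W_31 (nat_lit 9) (nat_lit 0xa000f000200000001000080000000000000000000000000000000) (nat_lit 0x0) (nat_lit 0xe400700074c0018000c00000000000000000000000000000000000) := T_31 (nat_lit 160) (nat_lit 143) (nat_lit 6) (nat_lit 7) (nat_lit 11) L80888 (by decide +kernel)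
theorem L80890 : W_31 (nat_lit 10) (nat_lit 0x8000f000200000001000080000000000000000000000000000000) (nat_lit 0x0) (nat_lit 0xe700700074c0018000c00000000000000000000000000000000000) := T_31 (nat_lit 209) (nat_lit 208) (nat_lit 1) (nat_lit 8) (nat_lit 11) L80889 (by decide +kernel)
theorem L80891 : W_31 (nat_lit 2) (nat_lit 0x100008000f000200000001000080000000000000000000000000000000) (nat_lit 0x0) (nat_lit 0x20000000000000000c00000000000000000000000000000000000000000000) := D_31 (nat_lit 178) (nat_lit 179) (nat_lit 245) (nat_lit 2) (nat_lit 5) (nat_lit 11) (nat_lit 6) (nat_lit 7) (nat_lit 14) (by decide +kernel)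
theorem L80892 : W_31 (nat_lit 2) (nat_lit 0x2000600010000a000f000280000001000080000000000000000000000000000000) (nat_lit 0x0) (nat_lit 0x4000400000000000040000000000000000000000000000000000000000000000000000) := D_31 (nat_lit 262) (nat_lit 210) (nat_lit 278) (nat_lit 4) (nat_lit 7) (nat_lit 15) (nat_lit 5) (nat_lit 7) (nat_lit 12) (by decide +kernel)
theorem L80893 : W_31 (nat_lit 3) (nat_lit 0x600010000a000f000280000001000080000000000000000000000000000000) (nat_lit 0x0) (nat_lit 0x4000600010000000040000000000000000000000000000000000000000000000000000) := T_31 (nat_lit 261) (nat_lit 244) (nat_lit 5) (nat_lit 7) (nat_lit 11) L80892 (by decide +kernel)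
theorem L80894 : W_31 (nat_lit 4) (nat_lit 0x400010000a000f000280000001000080000000000000000000000000000000) (nat_lit 0x0) (nat_lit 0x4000e00030000000040000000000000000000000000000000000000000000000000000) := T_31 (nat_lit 245) (nat_lit 263) (nat_lit 7) (nat_lit 7) (nat_lit 11) L80893 (by decide +kernel)
theorem L80895 : W_31 (nat_lit 5) (nat_lit 0x400010000a000f000200000001000080000000000000000000000000000000) (nat_lit 0x0) (nat_lit 0x4000e000300000000400000000c0000000000000000000000000000000000000000000) := T_31 (nat_lit 175) (nat_lit 174) (nat_lit 0) (nat_lit 8) (nat_lit 11) L80894 (by decide +kernel)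
theorem L80896 : W_31 (nat_lit 6) (nat_lit 0x10000a000f000200000001000080000000000000000000000000000000) (nat_lit 0x0) (nat_lit 0x4000e000700020000400000000c0000000000000000000000000000000000000000000) := T_31 (nat_lit 246) (nat_lit 229) (nat_lit 7) (nat_lit 7) (nat_lit 10) L80895 (by decide +kernel)
theorem L80897 : W_31 (nat_lit 7) (nat_lit 0x100008000f000200000001000080000000000000000000000000000000) (nat_lit 0x0) (nat_lit 0x4000e000700020000700000000c0000000000000000000000000000000000000000000) := T_31 (nat_lit 209) (nat_lit 208) (nat_lit 1) (nat_lit 8) (nat_lit 11) L80896 (by decide +kernel)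
theorem L80898 : W_31 (nat_lit 2) (nat_lit 0x100008000f000200000001400080000000000000000000000000000000) (nat_lit 0x0) (nat_lit 0x18000800000000000000000000000000000000000) := D_31 (nat_lit 160) (nat_lit 143) (nat_lit 159) (nat_lit 6) (nat_lit 7) (nat_lit 11) (nat_lit 4) (nat_lit 7) (nat_lit 12) (by decide +kernel)
theorem L80899 : W_31 (nat_lit 2) (nat_lit 0x30000a000f000680000001400080000000000000000000000000000000) (nat_lit 0x0) (nat_lit 0x1c000000000000000000000000000000000000000) := D_31 (nat_lit 159) (nat_lit 160) (nat_lit 158) (nat_lit 4) (nat_lit 7) (nat_lit 12) (nat_lit 6) (nat_lit 5) (nat_lit 12) (by decide +kernel)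
theorem L80900 : W_31 (nat_lit 3) (nat_lit 0x300008000f000680000001400080000000000000000000000000000000) (nat_lit 0x0) (nat_lit 0x3000000000001c000000000000000000000000000000000000000) := T_31 (nat_lit 209) (nat_lit 208) (nat_lit 1) (nat_lit 8) (nat_lit 11) L80899 (by decide +kernel)
theorem L80901 : W_31 (nat_lit 4) (nat_lit 0x100008000f000680000001400080000000000000000000000000000000) (nat_lit 0x0) (nat_lit 0x4000200003000000000001c000000000000000000000000000000000000000) := T_31 (nat_lit 229) (nat_lit 246) (nat_lit 7) (nat_lit 7) (nat_lit 10) L80900 (by decide +kernel)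
theorem L80902 : W_31 (nat_lit 5) (nat_lit 0x100008000f000280000001400080000000000000000000000000000000) (nat_lit 0x0) (nat_lit 0x40002000030000000c0001c000000000000000000000000000000000000000) := T_31 (nat_lit 178) (nat_lit 179) (nat_lit 2) (nat_lit 5) (nat_lit 11) L80901 (by decide +kernel)
theorem L80903 : W_31 (nat_lit 6) (nat_lit 0x100008000f000200000001400080000000000000000000000000000000) (nat_lit 0x0) (nat_lit 0x40002000030000000cc001c000000000000000000000000000000000000000) := T_31 (nat_lit 175) (nat_lit 174) (nat_lit 0) (nat_lit 8) (nat_lit 11) L80902 (by decide +kernel)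
theorem L80904 : W_31 (nat_lit 2) (nat_lit 0x100008000f000280000001e00080000000000000000000000000000000) (nat_lit 0x0) (nat_lit 0x6000000020000000000000000000000000000000) := D_31 (nat_lit 158) (nat_lit 157) (nat_lit 125) (nat_lit 1) (nat_lit 8) (nat_lit 8) (nat_lit 6) (nat_lit 5) (nat_lit 11) (by decide +kernel)
theorem L80905 : W_31 (nat_lit 3) (nat_lit 0x100008000f000280000001c00080000000000000000000000000000000) (nat_lit 0x0) (nat_lit 0x6000200120000000000000000000000000000000) := T_31 (nat_lit 141) (nat_lit 128) (nat_lit 2) (nat_lit 5) (nat_lit 8) L80904 (by decide +kernel)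
theorem L80906 : W_31 (nat_lit 4) (nat_lit 0x100008000f000200000001c00080000000000000000000000000000000) (nat_lit 0x0) (nat_lit 0xc0006000200120000000000000000000000000000000) := T_31 (nat_lit 175) (nat_lit 174) (nat_lit 0) (nat_lit 8) (nat_lit 11) L80905 (by decide +kernel)
theorem L80907 : W_31 (nat_lit 5) (nat_lit 0x100008000f000200000001400080000000000000000000000000000000) (nat_lit 0x0) (nat_lit 0xc0016000a00120000000000000000000000000000000) := T_31 (nat_lit 143) (nat_lit 160) (nat_lit 6) (nat_lit 7) (nat_lit 11) L80906 (by decide +kernel)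
theorem L80908 : W_31 (nat_lit 2) (nat_lit 0x30000a000f000680004001400080000000000000000000000000000000) (nat_lit 0x0) (nat_lit 0x40000000000000000200020000000000000000000000000000000) := D_31 (nat_lit 141) (nat_lit 125) (nat_lit 210) (nat_lit 6) (nat_lit 5) (nat_lit 11) (nat_lit 7) (nat_lit 5) (nat_lit 8) (by decide +kernel)
theorem L80909 : W_31 (nat_lit 3) (nat_lit 0x30000a000f000680000001400080000000000000000000000000000000) (nat_lit 0x0) (nat_lit 0x4000000000000c000200020000000000000000000000000000000) := T_31 (nat_lit 158) (nat_lit 159) (nat_lit 6) (nat_lit 5) (nat_lit 12) L80908 (by decide +kernel)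
theorem L80910 : W_31 (nat_lit 4) (nat_lit 0x300008000f000680000001400080000000000000000000000000000000) (nat_lit 0x0) (nat_lit 0x7000000000000c000200020000000000000000000000000000000) := T_31 (nat_lit 209) (nat_lit 208) (nat_lit 1) (nat_lit 8) (nat_lit 11) L80909 (by decide +kernel)
theorem L80911 : W_31 (nat_lit 5) (nat_lit 0x100008000f000680000001400080000000000000000000000000000000) (nat_lit 0x0) (nat_lit 0x4000200007000000000000c000200020000000000000000000000000000000) := T_31 (nat_lit 229) (nat_lit 246) (nat_lit 7) (nat_lit 7) (nat_lit 10) L80910 (by decide +kernel)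
theorem L80912 : W_31 (nat_lit 6) (nat_lit 0x100008000f000280000001400080000000000000000000000000000000) (nat_lit 0x0) (nat_lit 0x40002000070000000c0000c000200020000000000000000000000000000000) := T_31 (nat_lit 178) (nat_lit 179) (nat_lit 2) (nat_lit 5) (nat_lit 11) L80911 (by decide +kernel)
theorem L80913 : W_31 (nat_lit 7) (nat_lit 0x100008000f000200000001400080000000000000000000000000000000) (nat_lit 0x0) (nat_lit 0x40002000070000000cc000c000200020000000000000000000000000000000) := T_31 (nat_lit 175) (nat_lit 174) (nat_lit 0) (nat_lit 8) (nat_lit 11) L80912 (by decide +kernel)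
theorem L80914 : W_31 (nat_lit 8) (nat_lit 0x100008000f000200000001000080000000000000000000000000000000) (nat_lit 0x0) (nat_lit 0x40002000070000000cc001e000e00120000000000000000000000000000000) := Q_31 (nat_lit 142) (C_31 L80898 (C_31 L80903 (C_31 L80907 (C_31 L80913 N_31)))) (by decide +kernel)
theorem L80915 : W_31 (nat_lit 9) (nat_lit 0x8000f000200000001000080000000000000000000000000000000) (nat_lit 0x0) (nat_lit 0x4000e00070003000070000000cc001e000e00120000000000000000000000000000000) := Q_31 (nat_lit 228) (C_31 L80891 (C_31 L80897 (C_31 L80914 N_31))) (by decide +kernel)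
theorem L80916 : W_31 (nat_lit 2) (nat_lit 0x8001f000200000001000080000000000000000000000000000000) (nat_lit 0x0) (nat_lit 0x1c00000000000000000000000000000000000000000000) := D_31 (nat_lit 179) (nat_lit 178) (nat_lit 180) (nat_lit 2) (nat_lit 5) (nat_lit 11) (nat_lit 2) (nat_lit 6) (nat_lit 11) (by decide +kernel)
theorem L80917 : W_31 (nat_lit 2) (nat_lit 0x48003f000200018001000080000000000000000000000000000000) (nat_lit 0x0) (nat_lit 0x3800000000000000000000000000000000000000000000) := D_31 (nat_lit 180) (nat_lit 181) (nat_lit 179) (nat_lit 2) (nat_lit 7) (nat_lit 11) (nat_lit 2) (nat_lit 6) (nat_lit 11) (by decide +kernel)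
theorem L80918 : W_31 (nat_lit 3) (nat_lit 0x48001f000200018001000080000000000000000000000000000000) (nat_lit 0x0) (nat_lit 0x800020003800000000000000000000000000000000000000000000) := T_31 (nat_lit 197) (nat_lit 215) (nat_lit 3) (nat_lit 7) (nat_lit 11) L80917 (by decide +kernel)
theorem L80919 : W_31 (nat_lit 4) (nat_lit 0x48001f000200010001000080000000000000000000000000000000) (nat_lit 0x0) (nat_lit 0x800020003800008000400000000000000000000000000000000000) := T_31 (nat_lit 159) (nat_lit 142) (nat_lit 4) (nat_lit 7) (nat_lit 12) L80918 (by decide +kernel)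
theorem L80920 : W_31 (nat_lit 5) (nat_lit 0x48001f000200000001000080000000000000000000000000000000) (nat_lit 0x0) (nat_lit 0x800020003800018000c00000000000000000000000000000000000) := T_31 (nat_lit 160) (nat_lit 143) (nat_lit 6) (nat_lit 7) (nat_lit 11) L80919 (by decide +kernel)
theorem L80921 : W_31 (nat_lit 6) (nat_lit 0x8001f000200000001000080000000000000000000000000000000) (nat_lit 0x0) (nat_lit 0xe00020003800018000c00000000000000000000000000000000000) := T_31 (nat_lit 214) (nat_lit 213) (nat_lit 3) (nat_lit 6) (nat_lit 11) L80920 (by decide +kernel)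
theorem L80922 : W_31 (nat_lit 2) (nat_lit 0x48003f002280018001000080000000000000000000000000000000) (nat_lit 0x0) (nat_lit 0x40004400000000000000000000000000000000000000000000) := D_31 (nat_lit 198) (nat_lit 178) (nat_lit 182) (nat_lit 0) (nat_lit 11) (nat_lit 11) (nat_lit 2) (nat_lit 8) (nat_lit 11) (by decide +kernel)
theorem L80923 : W_31 (nat_lit 3) (nat_lit 0x48003f000280018001000080000000000000000000000000000000) (nat_lit 0x0) (nat_lit 0x40007400000000000000000000000000000000000000000000) := T_31 (nat_lit 181) (nat_lit 180) (nat_lit 2) (nat_lit 7) (nat_lit 11) L80922 (by decide +kernel)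
theorem L80924 : W_31 (nat_lit 4) (nat_lit 0x48001f000280018001000080000000000000000000000000000000) (nat_lit 0x0) (nat_lit 0x800060007400000000000000000000000000000000000000000000) := T_31 (nat_lit 197) (nat_lit 215) (nat_lit 3) (nat_lit 7) (nat_lit 11) L80923 (by decide +kernel)
theorem L80925 : W_31 (nat_lit 5) (nat_lit 0x48001f000280010001000080000000000000000000000000000000) (nat_lit 0x0) (nat_lit 0x800060007400008000400000000000000000000000000000000000) := T_31 (nat_lit 159) (nat_lit 142) (nat_lit 4) (nat_lit 7) (nat_lit 12) L80924 (by decide +kernel)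
theorem L80926 : W_31 (nat_lit 6) (nat_lit 0x48001f000280000001000080000000000000000000000000000000) (nat_lit 0x0) (nat_lit 0x800060007400018000c00000000000000000000000000000000000) := T_31 (nat_lit 160) (nat_lit 143) (nat_lit 6) (nat_lit 7) (nat_lit 11) L80925 (by decide +kernel)
theorem L80927 : W_31 (nat_lit 7) (nat_lit 0x8001f000280000001000080000000000000000000000000000000) (nat_lit 0x0) (nat_lit 0xe00060007400018000c00000000000000000000000000000000000) := T_31 (nat_lit 214) (nat_lit 213) (nat_lit 3) (nat_lit 6) (nat_lit 11) L80926 (by decide +kernel)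
theorem L80928 : W_31 (nat_lit 8) (nat_lit 0x8001f000200000001000080000000000000000000000000000000) (nat_lit 0x0) (nat_lit 0xe000600074c0018000c00000000000000000000000000000000000) := T_31 (nat_lit 175) (nat_lit 174) (nat_lit 0) (nat_lit 8) (nat_lit 11) L80927 (by decide +kernel)
theorem L80929 : W_31 (nat_lit 2) (nat_lit 0xa003f000600000001000080000000000000000000000000000000) (nat_lit 0x0) (nat_lit 0xe00000000000000000000000000000000000000000000000000000) := D_31 (nat_lit 214) (nat_lit 213) (nat_lit 215) (nat_lit 3) (nat_lit 6) (nat_lit 11) (nat_lit 3) (nat_lit 7) (nat_lit 11) (by decide +kernel)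
theorem L80930 : W_31 (nat_lit 3) (nat_lit 0xa001f000600000001000080000000000000000000000000000000) (nat_lit 0x0) (nat_lit 0xe00060000000000000000000000000000000000000000000000000) := T_31 (nat_lit 197) (nat_lit 198) (nat_lit 0) (nat_lit 11) (nat_lit 11) L80929 (by decide +kernel)
theorem L80931 : W_31 (nat_lit 4) (nat_lit 0xa001f000200000001000080000000000000000000000000000000) (nat_lit 0x0) (nat_lit 0xe00060000c00000000000000000000000000000000000000000000) := T_31 (nat_lit 178) (nat_lit 179) (nat_lit 2) (nat_lit 5) (nat_lit 11) L80930 (by decide +kernel)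
theorem L80932 : W_31 (nat_lit 5) (nat_lit 0x8001f000200000001000080000000000000000000000000000000) (nat_lit 0x0) (nat_lit 0xe30060000c00000000000000000000000000000000000000000000) := T_31 (nat_lit 209) (nat_lit 208) (nat_lit 1) (nat_lit 8) (nat_lit 11) L80931 (by decide +kernel)
theorem L80933 : W_31 (nat_lit 9) (nat_lit 0x8000f000200000001000080000000000000000000000000000000) (nat_lit 0x0) (nat_lit 0xe30070007cc0018000c00000000000000000000000000000000000) := Q_31 (nat_lit 196) (C_31 L80916 (C_31 L80921 (C_31 L80928 (C_31 L80932 N_31)))) (by decide +kernel)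
theorem L80934 : W_31 (nat_lit 2) (nat_lit 0x70000c001f00068001c001000080000000000000000000000000000000) (nat_lit 0x0) (nat_lit 0x80000000600000000000000000000000000000000000000000000000000000) := D_31 (nat_lit 213) (nat_lit 214) (nat_lit 247) (nat_lit 3) (nat_lit 6) (nat_lit 11) (nat_lit 4) (nat_lit 9) (nat_lit 14) (by decide +kernel)
theorem L80935 : W_31 (nat_lit 3) (nat_lit 0x30000c001f00068001c001000080000000000000000000000000000000) (nat_lit 0x0) (nat_lit 0x8000c000600000000000000000000000000000000000000000000000000000) := T_31 (nat_lit 230) (nat_lit 231) (nat_lit 0) (nat_lit 10) (nat_lit 13) L80934 (by decide +kernel)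
theorem L80936 : W_31 (nat_lit 4) (nat_lit 0x30000c000f00068001c001000080000000000000000000000000000000) (nat_lit 0x0) (nat_lit 0x8000c000600030000000000000000000000000000000000000000000000000) := T_31 (nat_lit 196) (nat_lit 197) (nat_lit 1) (nat_lit 10) (nat_lit 11) L80935 (by decide +kernel)
theorem L80937 : W_31 (nat_lit 5) (nat_lit 0x300008000f00068001c001000080000000000000000000000000000000) (nat_lit 0x0) (nat_lit 0x8000c000640030000000000000200000000000000000000000000000000000) := T_31 (nat_lit 210) (nat_lit 141) (nat_lit 7) (nat_lit 5) (nat_lit 8) L80936 (by decide +kernel)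
theorem L80938 : W_31 (nat_lit 6) (nat_lit 0x300008000f000680018001000080000000000000000000000000000000) (nat_lit 0x0) (nat_lit 0x8000c000640030000000006000200000000000000000000000000000000000) := T_31 (nat_lit 158) (nat_lit 157) (nat_lit 3) (nat_lit 4) (nat_lit 9) L80937 (by decide +kernel)
theorem L80939 : W_31 (nat_lit 7) (nat_lit 0x300008000f000680010001000080000000000000000000000000000000) (nat_lit 0x0) (nat_lit 0x8000c00064003000000000e000600000000000000000000000000000000000) := T_31 (nat_lit 159) (nat_lit 142) (nat_lit 4) (nat_lit 7) (nat_lit 12) L80938 (by decide +kernel)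
theorem L80940 : W_31 (nat_lit 8) (nat_lit 0x300008000f000680000001000080000000000000000000000000000000) (nat_lit 0x0) (nat_lit 0x8000c00064003000000001e000e00000000000000000000000000000000000) := T_31 (nat_lit 160) (nat_lit 143) (nat_lit 6) (nat_lit 7) (nat_lit 11) L80939 (by decide +kernel)
theorem L80941 : W_31 (nat_lit 9) (nat_lit 0x100008000f000680000001000080000000000000000000000000000000) (nat_lit 0x0) (nat_lit 0xc000e00064003000000001e000e00000000000000000000000000000000000) := T_31 (nat_lit 229) (nat_lit 246) (nat_lit 7) (nat_lit 7) (nat_lit 10) L80940 (by decide +kernel)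
theorem L80942 : W_31 (nat_lit 10) (nat_lit 0x100008000f000600000001000080000000000000000000000000000000) (nat_lit 0x0) (nat_lit 0xc000e0006400300000c001e000e00000000000000000000000000000000000) := T_31 (nat_lit 175) (nat_lit 174) (nat_lit 0) (nat_lit 8) (nat_lit 11) L80941 (by decide +kernel)
theorem L80943 : W_31 (nat_lit 11) (nat_lit 0x8000f000600000001000080000000000000000000000000000000) (nat_lit 0x0) (nat_lit 0xe000f0006400300000c001e000e00000000000000000000000000000000000) := T_31 (nat_lit 228) (nat_lit 245) (nat_lit 6) (nat_lit 7) (nat_lit 14) L80942 (by decide +kernel)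
theorem L80944 : W_31 (nat_lit 12) (nat_lit 0x8000f000200000001000080000000000000000000000000000000) (nat_lit 0x0) (nat_lit 0xe000f000640030000cc001e000e00000000000000000000000000000000000) := T_31 (nat_lit 178) (nat_lit 179) (nat_lit 2) (nat_lit 5) (nat_lit 11) L80943 (by decide +kernel)
theorem L80945 : W_31 (nat_lit 13) (nat_lit 0x80007000200000001000080000000000000000000000000000000) (nat_lit 0x0) (nat_lit 0x4000e000f000f000e70078007cc001e000e00120000000000000000000000000000000) := Q_31 (nat_lit 195) (C_31 L80867 (C_31 L80875 (C_31 L80881 (C_31 L80890 (C_31 L80915 (C_31 L80933 (C_31 L80944 N_31))))))) (by decide +kernel)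
theorem L80946 : W_31 (nat_lit 5) (nat_lit 0x80007800200018001000080000000000000000000000000000000) (nat_lit 0x0) (nat_lit 0x600384000e0000000000000000000000000000000000000000000) := T_31 (nat_lit 174) (nat_lit 173) (nat_lit 0) (nat_lit 7) (nat_lit 11) L80851 (by decide +kernel)
theorem L80947 : W_31 (nat_lit 6) (nat_lit 0x80007000200018001000080000000000000000000000000000000) (nat_lit 0x0) (nat_lit 0x60038c004e0000000000000000000000000000000000000000000) := T_31 (nat_lit 191) (nat_lit 178) (nat_lit 2) (nat_lit 4) (nat_lit 11) L80946 (by decide +kernel)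
theorem L80948 : W_31 (nat_lit 7) (nat_lit 0x80007000200010001000080000000000000000000000000000000) (nat_lit 0x0) (nat_lit 0x60038c004e0008000400000000000000000000000000000000000) := T_31 (nat_lit 159) (nat_lit 142) (nat_lit 4) (nat_lit 7) (nat_lit 12) L80947 (by decide +kernel)
theorem L80949 : W_31 (nat_lit 8) (nat_lit 0x80007000200000001000080000000000000000000000000000000) (nat_lit 0x0) (nat_lit 0x60038c004e0018000c00000000000000000000000000000000000) := T_31 (nat_lit 160) (nat_lit 143) (nat_lit 6) (nat_lit 7) (nat_lit 11) L80948 (by decide +kernel)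
theorem L80950 : W_31 (nat_lit 14) (nat_lit 0x80006000200000001000080000000000000000000000000000000) (nat_lit 0x0) (nat_lit 0x4000e000f000f000e7c079c07cf001e000e00120000000000000000000000000000000) := Q_31 (nat_lit 192) (C_31 L80841 (C_31 L80855 (C_31 L80856 (C_31 L80857 (C_31 L80945 (C_31 L80949 N_31)))))) (by decide +kernel)
theorem L80951 : W_31 (nat_lit 2) (nat_lit 0x100010000f0006000200000001000080000000000000000000000000000000) (nat_lit 0x0) (nat_lit 0x600020000000000000000000000000000000000000000000000000000000000000) := D_31 (nat_lit 245) (nat_lit 262) (nat_lit 261) (nat_lit 4) (nat_lit 7) (nat_lit 15) (nat_lit 5) (nat_lit 7) (nat_lit 11) (by decide +kernel)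
theorem L80952 : W_31 (nat_lit 3) (nat_lit 0x100000000f0006000200000001000080000000000000000000000000000000) (nat_lit 0x0) (nat_lit 0x600020003000000000000000000000000000000000000000000000000000000000) := T_31 (nat_lit 228) (nat_lit 229) (nat_lit 3) (nat_lit 4) (nat_lit 12) L80951 (by decide +kernel)
theorem L80953 : W_31 (nat_lit 4) (nat_lit 0xf0006000200000001000080000000000000000000000000000000) (nat_lit 0x0) (nat_lit 0x600030003800000000000000000000000000000000000000000000000000000000) := T_31 (nat_lit 244) (nat_lit 227) (nat_lit 6) (nat_lit 6) (nat_lit 14) L80952 (by decide +kernel)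
theorem L80954 : W_31 (nat_lit 5) (nat_lit 0xe0006000200000001000080000000000000000000000000000000) (nat_lit 0x0) (nat_lit 0x600030003800018000000000000000000000000000000000000000000000000000) := T_31 (nat_lit 208) (nat_lit 207) (nat_lit 2) (nat_lit 3) (nat_lit 12) L80953 (by decide +kernel)
theorem L80955 : W_31 (nat_lit 2) (nat_lit 0x100010000e0006000200000001000080000000000000000000000000000000) (nat_lit 0x0) (nat_lit 0x600020000000000000000000000000000000000000000000000000000000000000) := D_31 (nat_lit 245) (nat_lit 261) (nat_lit 262) (nat_lit 5) (nat_lit 7) (nat_lit 11) (nat_lit 4) (nat_lit 7) (nat_lit 15) (by decide +kernel)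
theorem L80956 : W_31 (nat_lit 3) (nat_lit 0x10000e0006000200000001000080000000000000000000000000000000) (nat_lit 0x0) (nat_lit 0x600030000800000000000000000000000000000000000000000000000000000000) := T_31 (nat_lit 244) (nat_lit 227) (nat_lit 6) (nat_lit 6) (nat_lit 14) L80955 (by decide +kernel)
theorem L80957 : W_31 (nat_lit 3) (nat_lit 0x10000e0016000200000001000080000000000000000000000000000000) (nat_lit 0x0) (nat_lit 0xc00060002000000000000000000000000000000000000000000000000000000000) := T_31 (nat_lit 245) (nat_lit 262) (nat_lit 4) (nat_lit 7) (nat_lit 15) L80258 (by decide +kernel)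
theorem L80958 : W_31 (nat_lit 4) (nat_lit 0x10000e0006000200000001000080000000000000000000000000000000) (nat_lit 0x0) (nat_lit 0xc00060002000000018000000000000000000000000000000000000000000000000) := T_31 (nat_lit 196) (nat_lit 195) (nat_lit 1) (nat_lit 9) (nat_lit 11) L80957 (by decide +kernel)
theorem L80959 : W_31 (nat_lit 2) (nat_lit 0x30000e0006000200000001000080000000000000000000000000000000) (nat_lit 0x0) (nat_lit 0xc800000000000000000000000000000000000000000000000000000000) := D_31 (nat_lit 230) (nat_lit 231) (nat_lit 227) (nat_lit 0) (nat_lit 10) (nat_lit 13) (nat_lit 0) (nat_lit 9) (nat_lit 13) (by decide +kernel)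
theorem L80960 : W_31 (nat_lit 3) (nat_lit 0x10000e0006000200000001000080000000000000000000000000000000) (nat_lit 0x0) (nat_lit 0x4000e800000000000000000000000000000000000000000000000000000000) := T_31 (nat_lit 229) (nat_lit 246) (nat_lit 7) (nat_lit 7) (nat_lit 10) L80959 (by decide +kernel)
theorem L80961 : W_31 (nat_lit 5) (nat_lit 0xe0006000200000001000080000000000000000000000000000000) (nat_lit 0x0) (nat_lit 0xe0007000f800000018000000000000000000000000000000000000000000000000) := Q_31 (nat_lit 228) (C_31 L80956 (C_31 L80958 (C_31 L80960 N_31))) (by decide +kernel)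
theorem L80962 : W_31 (nat_lit 6) (nat_lit 0xc0006000200000001000080000000000000000000000000000000) (nat_lit 0x0) (nat_lit 0xe0007000f800038018000000000000000000000000000000000000000000000000) := Q_31 (nat_lit 209) (C_31 L79389 (C_31 L80954 (C_31 L80961 N_31))) (by decide +kernel)
theorem L80963 : W_31 (nat_lit 2) (nat_lit 0xc000f800200010001000080000000000000000000000000000000) (nat_lit 0x0) (nat_lit 0xe0000000000000000000000000000000000000000000) := D_31 (nat_lit 174) (nat_lit 175) (nat_lit 173) (nat_lit 0) (nat_lit 8) (nat_lit 11) (nat_lit 0) (nat_lit 7) (nat_lit 11) (by decide +kernel)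
theorem L80964 : W_31 (nat_lit 3) (nat_lit 0xc000f000200010001000080000000000000000000000000000000) (nat_lit 0x0) (nat_lit 0xc000e0000000000000000000000000000000000000000000) := T_31 (nat_lit 191) (nat_lit 190) (nat_lit 3) (nat_lit 3) (nat_lit 11) L80963 (by decide +kernel)
theorem L80965 : W_31 (nat_lit 4) (nat_lit 0xc000f000200000001000080000000000000000000000000000000) (nat_lit 0x0) (nat_lit 0xc000e0010000800000000000000000000000000000000000) := T_31 (nat_lit 160) (nat_lit 143) (nat_lit 6) (nat_lit 7) (nat_lit 11) L80964 (by decide +kernel)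
theorem L80966 : W_31 (nat_lit 2) (nat_lit 0xd0007000200000001000080000000000000000000000000000000) (nat_lit 0x0) (nat_lit 0x8000c00000000000000000000000000000000000000000000000) := D_31 (nat_lit 191) (nat_lit 207) (nat_lit 190) (nat_lit 1) (nat_lit 7) (nat_lit 11) (nat_lit 3) (nat_lit 3) (nat_lit 11) (by decide +kernel)
theorem L80969 : W_31 (nat_lit 2) (nat_lit 0x2c001f400280001001f00088000000000000000000000000000000) (nat_lit 0x0) (nat_lit 0x20000800080000000000000000000000000000000000) := D_31 (nat_lit 139) (nat_lit 155) (nat_lit 173) (nat_lit 1) (nat_lit 6) (nat_lit 8) (nat_lit 6) (nat_lit 3) (nat_lit 11) (by decide +kernel)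
theorem L80970 : W_31 (nat_lit 3) (nat_lit 0x2c001f400280000001f00088000000000000000000000000000000) (nat_lit 0x0) (nat_lit 0x20003800080000000000000000000000000000000000) := T_31 (nat_lit 156) (nat_lit 157) (nat_lit 1) (nat_lit 7) (nat_lit 8) L80969 (by decide +kernel)
theorem L80971 : W_31 (nat_lit 4) (nat_lit 0x2c001f400280000001e00088000000000000000000000000000000) (nat_lit 0x0) (nat_lit 0x20003800180004000000000000000000000000000000) := T_31 (nat_lit 140) (nat_lit 122) (nat_lit 0) (nat_lit 7) (nat_lit 8) L80970 (by decide +kernel)
theorem L80972 : W_31 (nat_lit 5) (nat_lit 0x2c001f400280000001e00080000000000000000000000000000000) (nat_lit 0x0) (nat_lit 0x2000380018001c000000000000000000000000000000) := T_31 (nat_lit 123) (nat_lit 124) (nat_lit 0) (nat_lit 8) (nat_lit 8) L80971 (by decide +kernel)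
theorem L80973 : W_31 (nat_lit 6) (nat_lit 0x2c001f400280000001a00080000000000000000000000000000000) (nat_lit 0x0) (nat_lit 0x2000380058011c000000000000000000000000000000) := T_31 (nat_lit 142) (nat_lit 128) (nat_lit 2) (nat_lit 5) (nat_lit 8) L80972 (by decide +kernel)
theorem L80974 : W_31 (nat_lit 7) (nat_lit 0x2c001f400280000001800080000000000000000000000000000000) (nat_lit 0x0) (nat_lit 0x2000780078011c000000000000000000000000000000) := T_31 (nat_lit 141) (nat_lit 158) (nat_lit 7) (nat_lit 5) (nat_lit 8) L80973 (by decide +kernel)
theorem L80975 : W_31 (nat_lit 8) (nat_lit 0xc0007000200000001000080000000000000000000000000000000) (nat_lit 0x0) (nat_lit 0x200018008c000e001c000e00000000000000000000000000000000000) := T_31 (nat_lit 160) (nat_lit 143) (nat_lit 6) (nat_lit 7) (nat_lit 11) L80678 (by decide +kernel)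
theorem L80980 : W_31 (nat_lit 2) (nat_lit 0x800700012000f0007400200000001800080000000000000000000000000000000) (nat_lit 0x0) (nat_lit 0x100008000400000000000000000000000000000000000000000000000000000000) := D_31 (nat_lit 243) (nat_lit 260) (nat_lit 226) (nat_lit 1) (nat_lit 8) (nat_lit 14) (nat_lit 0) (nat_lit 8) (nat_lit 14) (by decide +kernel)
theorem L80981 : W_31 (nat_lit 3) (nat_lit 0x800600012000f0007400200000001800080000000000000000000000000000000) (nat_lit 0x0) (nat_lit 0x300018000400000000000000000000000000000000000000000000000000000000) := T_31 (nat_lit 244) (nat_lit 261) (nat_lit 5) (nat_lit 7) (nat_lit 11) L80980 (by decide +kernel)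
theorem L80982 : W_31 (nat_lit 4) (nat_lit 0x800200012000f0007400200000001800080000000000000000000000000000000) (nat_lit 0x0) (nat_lit 0xb00058000400000000000000000000000000000000000000000000000000000000) := T_31 (nat_lit 246) (nat_lit 263) (nat_lit 7) (nat_lit 7) (nat_lit 11) L80981 (by decide +kernel)
theorem L80983 : W_31 (nat_lit 5) (nat_lit 0x800200012000f0007400200000001000080000000000000000000000000000000) (nat_lit 0x0) (nat_lit 0xb00058000400000000000000010000800000000000000000000000000000000000) := T_31 (nat_lit 143) (nat_lit 160) (nat_lit 6) (nat_lit 7) (nat_lit 11) L80982 (by decide +kernel)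
theorem L80984 : W_31 (nat_lit 6) (nat_lit 0x800000012000f0007400200000001000080000000000000000000000000000000) (nat_lit 0x0) (nat_lit 0xf00078000400000000000000010000800000000000000000000000000000000000) := T_31 (nat_lit 245) (nat_lit 262) (nat_lit 4) (nat_lit 7) (nat_lit 15) L80983 (by decide +kernel)
theorem L80985 : W_31 (nat_lit 7) (nat_lit 0x12000f0007400200000001000080000000000000000000000000000000) (nat_lit 0x0) (nat_lit 0xf8007c000400000000000000010000800000000000000000000000000000000000) := T_31 (nat_lit 259) (nat_lit 242) (nat_lit 6) (nat_lit 4) (nat_lit 15) L80984 (by decide +kernel)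
theorem L80986 : W_31 (nat_lit 8) (nat_lit 0x2000f0007400200000001000080000000000000000000000000000000) (nat_lit 0x0) (nat_lit 0xf8007c003400000000000000010000800000000000000000000000000000000000) := T_31 (nat_lit 228) (nat_lit 229) (nat_lit 3) (nat_lit 4) (nat_lit 12) L80985 (by decide +kernel)
theorem L80987 : W_31 (nat_lit 9) (nat_lit 0xf0007400200000001000080000000000000000000000000000000) (nat_lit 0x0) (nat_lit 0xf8007c003700000000000000010000800000000000000000000000000000000000) := T_31 (nat_lit 225) (nat_lit 224) (nat_lit 1) (nat_lit 7) (nat_lit 12) L80986 (by decide +kernel)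
theorem L80988 : W_31 (nat_lit 10) (nat_lit 0xf0007000200000001000080000000000000000000000000000000) (nat_lit 0x0) (nat_lit 0xf8007c003700000000c00000010000800000000000000000000000000000000000) := T_31 (nat_lit 190) (nat_lit 191) (nat_lit 3) (nat_lit 3) (nat_lit 11) L80987 (by decide +kernel)
theorem L80989 : W_31 (nat_lit 2) (nat_lit 0x4000000012000f0007800240000001000080000000000000000000000000000000) (nat_lit 0x0) (nat_lit 0x4000000000000000080004000000000000000000000000000000000000000) := D_31 (nat_lit 175) (nat_lit 158) (nat_lit 242) (nat_lit 6) (nat_lit 4) (nat_lit 13) (nat_lit 6) (nat_lit 4) (nat_lit 14) (by decide +kernel)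
theorem L80990 : W_31 (nat_lit 3) (nat_lit 0x4000000010000f0007800240000001000080000000000000000000000000000000) (nat_lit 0x0) (nat_lit 0x4000300000000000080004000000000000000000000000000000000000000) := T_31 (nat_lit 225) (nat_lit 224) (nat_lit 1) (nat_lit 7) (nat_lit 12) L80989 (by decide +kernel)
theorem L80991 : W_31 (nat_lit 4) (nat_lit 0x4000000010000f0007800200000001000080000000000000000000000000000000) (nat_lit 0x0) (nat_lit 0x40003000000000000e0004000000000000000000000000000000000000000) := T_31 (nat_lit 174) (nat_lit 173) (nat_lit 0) (nat_lit 7) (nat_lit 11) L80990 (by decide +kernel)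
theorem L80992 : W_31 (nat_lit 5) (nat_lit 0x10000f0007800200000001000080000000000000000000000000000000) (nat_lit 0x0) (nat_lit 0x4000240003000000000000e0004000000000000000000000000000000000000000) := T_31 (nat_lit 262) (nat_lit 245) (nat_lit 4) (nat_lit 7) (nat_lit 15) L80991 (by decide +kernel)
theorem L80993 : W_31 (nat_lit 6) (nat_lit 0x10000f0007000200000001000080000000000000000000000000000000) (nat_lit 0x0) (nat_lit 0x400024000300000000c000e0004000000000000000000000000000000000000000) := T_31 (nat_lit 191) (nat_lit 190) (nat_lit 3) (nat_lit 3) (nat_lit 11) L80992 (by decide +kernel)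
theorem L80994 : W_31 (nat_lit 7) (nat_lit 0xf0007000200000001000080000000000000000000000000000000) (nat_lit 0x0) (nat_lit 0x400024003300000000c000e0004000000000000000000000000000000000000000) := T_31 (nat_lit 228) (nat_lit 229) (nat_lit 3) (nat_lit 4) (nat_lit 12) L80993 (by decide +kernel)
theorem L80995 : W_31 (nat_lit 2) (nat_lit 0xf0007800240000001000080000000000000000000000000000000) (nat_lit 0x0) (nat_lit 0x8000400000000000000002000000000000000000000000000000000000000) := D_31 (nat_lit 226) (nat_lit 243) (nat_lit 157) (nat_lit 4) (nat_lit 5) (nat_lit 14) (nat_lit 7) (nat_lit 4) (nat_lit 9) (by decide +kernel)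
theorem L80996 : W_31 (nat_lit 3) (nat_lit 0xf0007800200000001000080000000000000000000000000000000) (nat_lit 0x0) (nat_lit 0x8000400000000000060002000000000000000000000000000000000000000) := T_31 (nat_lit 174) (nat_lit 173) (nat_lit 0) (nat_lit 7) (nat_lit 11) L80995 (by decide +kernel)
theorem L80997 : W_31 (nat_lit 4) (nat_lit 0xf0007000200000001000080000000000000000000000000000000) (nat_lit 0x0) (nat_lit 0x8000400000000c00060002000000000000000000000000000000000000000) := T_31 (nat_lit 191) (nat_lit 190) (nat_lit 3) (nat_lit 3) (nat_lit 11) L80996 (by decide +kernel)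
theorem L80998 : W_31 (nat_lit 11) (nat_lit 0xd0007000200000001000080000000000000000000000000000000) (nat_lit 0x0) (nat_lit 0xf8007c003700020000c000e0016000800000000000000000000000000000000000) := Q_31 (nat_lit 209) (C_31 L78905 (C_31 L80988 (C_31 L80994 (C_31 L80997 N_31)))) (by decide +kernel)
theorem L80999 : W_31 (nat_lit 12) (nat_lit 0xc0007000200000001000080000000000000000000000000000000) (nat_lit 0x0) (nat_lit 0xf8007c003700038000c000e0016000800000000000000000000000000000000000) := Q_31 (nat_lit 208) (C_31 L80966 (C_31 L78910 (C_31 L80998 N_31))) (by decide +kernel)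
theorem L81000 : W_31 (nat_lit 2) (nat_lit 0xf0007800240018001000080000000000000000000000000000000) (nat_lit 0x0) (nat_lit 0x400000000000000002000100000000000000000000000000000000000) := D_31 (nat_lit 157) (nat_lit 226) (nat_lit 140) (nat_lit 7) (nat_lit 4) (nat_lit 9) (nat_lit 7) (nat_lit 4) (nat_lit 8) (by decide +kernel)
theorem L81001 : W_31 (nat_lit 3) (nat_lit 0xd0007800240018001000080000000000000000000000000000000) (nat_lit 0x0) (nat_lit 0x400020008000000002000100000000000000000000000000000000000) := T_31 (nat_lit 209) (nat_lit 195) (nat_lit 2) (nat_lit 4) (nat_lit 12) L81000 (by decide +kernel)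
theorem L81002 : W_31 (nat_lit 4) (nat_lit 0xd0007800240010001000080000000000000000000000000000000) (nat_lit 0x0) (nat_lit 0x40002000800000000a000500000000000000000000000000000000000) := T_31 (nat_lit 159) (nat_lit 142) (nat_lit 4) (nat_lit 7) (nat_lit 12) L81001 (by decide +kernel)
theorem L81003 : W_31 (nat_lit 5) (nat_lit 0xc0007800240010001000080000000000000000000000000000000) (nat_lit 0x0) (nat_lit 0x40003800800000000a000500000000000000000000000000000000000) := T_31 (nat_lit 208) (nat_lit 207) (nat_lit 1) (nat_lit 7) (nat_lit 11) L81002 (by decide +kernel)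
theorem L81004 : W_31 (nat_lit 6) (nat_lit 0xc0007800200010001000080000000000000000000000000000000) (nat_lit 0x0) (nat_lit 0x40003800800006000a000500000000000000000000000000000000000) := T_31 (nat_lit 174) (nat_lit 173) (nat_lit 0) (nat_lit 7) (nat_lit 11) L81003 (by decide +kernel)
theorem L81005 : W_31 (nat_lit 7) (nat_lit 0xc0007800200000001000080000000000000000000000000000000) (nat_lit 0x0) (nat_lit 0x40003800800006001a000d00000000000000000000000000000000000) := T_31 (nat_lit 160) (nat_lit 143) (nat_lit 6) (nat_lit 7) (nat_lit 11) L81004 (by decide +kernel)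
theorem L81006 : W_31 (nat_lit 8) (nat_lit 0xc0007000200000001000080000000000000000000000000000000) (nat_lit 0x0) (nat_lit 0x400038008c0006001a000d00000000000000000000000000000000000) := T_31 (nat_lit 191) (nat_lit 190) (nat_lit 3) (nat_lit 3) (nat_lit 11) L81005 (by decide +kernel)
theorem L81012 : W_31 (nat_lit 2) (nat_lit 0xe0007000200000001400080000000000000000000000000000000) (nat_lit 0x0) (nat_lit 0x18000800000000000000000000000000000000000) := D_31 (nat_lit 160) (nat_lit 143) (nat_lit 159) (nat_lit 6) (nat_lit 7) (nat_lit 11) (nat_lit 4) (nat_lit 7) (nat_lit 12) (by decide +kernel)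
theorem L81013 : W_31 (nat_lit 2) (nat_lit 0xe000f000200008001400080000000000000000000000000000000) (nat_lit 0x0) (nat_lit 0xc0004000000000000000000000000000000000000000) := D_31 (nat_lit 175) (nat_lit 158) (nat_lit 174) (nat_lit 6) (nat_lit 5) (nat_lit 12) (nat_lit 0) (nat_lit 8) (nat_lit 11) (by decide +kernel)
theorem L81014 : W_31 (nat_lit 3) (nat_lit 0xe0007000200008001400080000000000000000000000000000000) (nat_lit 0x0) (nat_lit 0x180000c0004000000000000000000000000000000000000000) := T_31 (nat_lit 195) (nat_lit 196) (nat_lit 1) (nat_lit 9) (nat_lit 11) L81013 (by decide +kernel)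
theorem L81015 : W_31 (nat_lit 4) (nat_lit 0xe0007000200000001400080000000000000000000000000000000) (nat_lit 0x0) (nat_lit 0x180000c001c000000000000000000000000000000000000000) := T_31 (nat_lit 159) (nat_lit 160) (nat_lit 4) (nat_lit 7) (nat_lit 12) L81014 (by decide +kernel)
theorem L81016 : W_31 (nat_lit 2) (nat_lit 0xe0017000200000001e00080000000000000000000000000000000) (nat_lit 0x0) (nat_lit 0x80006000000000000000000000000000000000000000) := D_31 (nat_lit 158) (nat_lit 157) (nat_lit 175) (nat_lit 1) (nat_lit 8) (nat_lit 8) (nat_lit 7) (nat_lit 5) (nat_lit 8) (by decide +kernel)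
theorem L81017 : W_31 (nat_lit 3) (nat_lit 0xe0017000200000001c00080000000000000000000000000000000) (nat_lit 0x0) (nat_lit 0x80006000200100000000000000000000000000000000) := T_31 (nat_lit 141) (nat_lit 128) (nat_lit 2) (nat_lit 5) (nat_lit 8) L81016 (by decide +kernel)
theorem L81018 : W_31 (nat_lit 4) (nat_lit 0xe0007000200000001c00080000000000000000000000000000000) (nat_lit 0x0) (nat_lit 0x18000080006000200100000000000000000000000000000000) := T_31 (nat_lit 196) (nat_lit 195) (nat_lit 1) (nat_lit 9) (nat_lit 11) L81017 (by decide +kernel)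
theorem L81019 : W_31 (nat_lit 5) (nat_lit 0xe0007000200000001400080000000000000000000000000000000) (nat_lit 0x0) (nat_lit 0x18000080016000a00100000000000000000000000000000000) := T_31 (nat_lit 143) (nat_lit 160) (nat_lit 6) (nat_lit 7) (nat_lit 11) L81018 (by decide +kernel)
theorem L81020 : W_31 (nat_lit 2) (nat_lit 0xe000f000280000001400080000000000000000000000000000000) (nat_lit 0x0) (nat_lit 0xc000200000000000000000000000000000000000) := D_31 (nat_lit 158) (nat_lit 159) (nat_lit 141) (nat_lit 6) (nat_lit 5) (nat_lit 12) (nat_lit 7) (nat_lit 5) (nat_lit 8) (by decide +kernel)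
theorem L81021 : W_31 (nat_lit 3) (nat_lit 0xe000f000200000001400080000000000000000000000000000000) (nat_lit 0x0) (nat_lit 0xc000c000200000000000000000000000000000000000) := T_31 (nat_lit 175) (nat_lit 174) (nat_lit 0) (nat_lit 8) (nat_lit 11) L81020 (by decide +kernel)
theorem L81022 : W_31 (nat_lit 4) (nat_lit 0xe0007000200000001400080000000000000000000000000000000) (nat_lit 0x0) (nat_lit 0x180000c000c000200000000000000000000000000000000000) := T_31 (nat_lit 195) (nat_lit 196) (nat_lit 1) (nat_lit 9) (nat_lit 11) L81021 (by decide +kernel)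
theorem L81023 : W_31 (nat_lit 6) (nat_lit 0xe0007000200000001000080000000000000000000000000000000) (nat_lit 0x0) (nat_lit 0x180000c001e000e00100000000000000000000000000000000) := Q_31 (nat_lit 142) (C_31 L81012 (C_31 L81015 (C_31 L81019 (C_31 L81022 N_31)))) (by decide +kernel)
theorem L81024 : W_31 (nat_lit 7) (nat_lit 0xc0007000200000001000080000000000000000000000000000000) (nat_lit 0x0) (nat_lit 0x800040007000380180000c001e000e00100000000000000000000000000000000) := Q_31 (nat_lit 209) (C_31 L78906 (C_31 L81011 (C_31 L81023 N_31))) (by decide +kernel)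
theorem L81025 : W_31 (nat_lit 5) (nat_lit 0xc0007000200000001800080000000000000000000000000000000) (nat_lit 0x0) (nat_lit 0x20038c000e0000000000000000000000000000000000000000000) := T_31 (nat_lit 191) (nat_lit 190) (nat_lit 3) (nat_lit 3) (nat_lit 11) L24919 (by decide +kernel)
theorem L81026 : W_31 (nat_lit 6) (nat_lit 0xc0007000200000001000080000000000000000000000000000000) (nat_lit 0x0) (nat_lit 0x20038c000e0010000800000000000000000000000000000000000) := T_31 (nat_lit 143) (nat_lit 160) (nat_lit 6) (nat_lit 7) (nat_lit 11) L81025 (by decide +kernel)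
theorem L81027 : W_31 (nat_lit 13) (nat_lit 0xc0006000200000001000080000000000000000000000000000000) (nat_lit 0x0) (nat_lit 0xf8007c003700038039c000e001e000f00100000000000000000000000000000000) := Q_31 (nat_lit 192) (C_31 L80975 (C_31 L80979 (C_31 L80999 (C_31 L81006 (C_31 L81010 (C_31 L81024 (C_31 L81026 N_31))))))) (by decide +kernel)
theorem L81029 : W_31 (nat_lit 14) (nat_lit 0x80006000200000001000080000000000000000000000000000000) (nat_lit 0x0) (nat_lit 0xf8007c00ff00078039c000e001e000f00100000000000000000000000000000000) := Q_31 (nat_lit 210) (C_31 L80057 (C_31 L80962 (C_31 L81027 (C_31 L81028 N_31)))) (by decide +kernel)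
theorem L81043 : W_31 (nat_lit 3) (nat_lit 0x2000f0006800200000001800080000000000000000000000000000000) (nat_lit 0x0) (nat_lit 0x4000000000001000480004000000000000000000000000000000000000000) := T_31 (nat_lit 192) (nat_lit 178) (nat_lit 2) (nat_lit 4) (nat_lit 11) L79735 (by decide +kernel)
theorem L81044 : W_31 (nat_lit 4) (nat_lit 0x2000f0006000200000001800080000000000000000000000000000000) (nat_lit 0x0) (nat_lit 0x4000000000001c00480004000000000000000000000000000000000000000) := T_31 (nat_lit 191) (nat_lit 190) (nat_lit 0) (nat_lit 7) (nat_lit 12) L81043 (by decide +kernel)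
theorem L81045 : W_31 (nat_lit 5) (nat_lit 0xf0006000200000001800080000000000000000000000000000000) (nat_lit 0x0) (nat_lit 0x4000300000001c00480004000000000000000000000000000000000000000) := T_31 (nat_lit 225) (nat_lit 224) (nat_lit 1) (nat_lit 7) (nat_lit 12) L81044 (by decide +kernel)
theorem L81046 : W_31 (nat_lit 6) (nat_lit 0xe0006000200000001800080000000000000000000000000000000) (nat_lit 0x0) (nat_lit 0x4000300018001c00480004000000000000000000000000000000000000000) := T_31 (nat_lit 208) (nat_lit 207) (nat_lit 2) (nat_lit 3) (nat_lit 12) L81045 (by decide +kernel)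
theorem L81047 : W_31 (nat_lit 7) (nat_lit 0xe0006000200000001000080000000000000000000000000000000) (nat_lit 0x0) (nat_lit 0x4000300018001c00480014000800000000000000000000000000000000000) := T_31 (nat_lit 143) (nat_lit 160) (nat_lit 6) (nat_lit 7) (nat_lit 11) L81046 (by decide +kernel)
theorem L81048 : W_31 (nat_lit 9) (nat_lit 0xe0006000200000001000080000000000000000000000000000000) (nat_lit 0x0) (nat_lit 0x8000400000019c00ce001e000f00000000000000000000000000000000000) := T_31 (nat_lit 160) (nat_lit 143) (nat_lit 6) (nat_lit 7) (nat_lit 11) L80671 (by decide +kernel)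
theorem L81049 : W_31 (nat_lit 10) (nat_lit 0xc0006000200000001000080000000000000000000000000000000) (nat_lit 0x0) (nat_lit 0xc000700038019c00ce001e000f00000000000000000000000000000000000) := Q_31 (nat_lit 209) (C_31 L79389 (C_31 L81047 (C_31 L81048 N_31))) (by decide +kernel)
theorem L81055 : W_31 (nat_lit 11) (nat_lit 0x80006000200000001000080000000000000000000000000000000) (nat_lit 0x0) (nat_lit 0x1c000f00078019c00ce001e000f00000000000000000000000000000000000) := Q_31 (nat_lit 210) (C_31 L81049 (C_31 L81028 (C_31 L80057 (C_31 L81054 N_31)))) (by decide +kernel)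
theorem L81056 : W_31 (nat_lit 2) (nat_lit 0x88007800220018001000080000000000000000000000000000000) (nat_lit 0x0) (nat_lit 0x4000400010000000000000000000000000000000000000000000) := D_31 (nat_lit 190) (nat_lit 206) (nat_lit 172) (nat_lit 1) (nat_lit 6) (nat_lit 11) (nat_lit 0) (nat_lit 6) (nat_lit 11) (by decide +kernel)
theorem L81057 : W_31 (nat_lit 3) (nat_lit 0x88007800200018001000080000000000000000000000000000000) (nat_lit 0x0) (nat_lit 0x4000400070000000000000000000000000000000000000000000) := T_31 (nat_lit 173) (nat_lit 174) (nat_lit 0) (nat_lit 7) (nat_lit 11) L81056 (by decide +kernel)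
theorem L81058 : W_31 (nat_lit 4) (nat_lit 0x80007800200018001000080000000000000000000000000000000) (nat_lit 0x0) (nat_lit 0x1c000400070000000000000000000000000000000000000000000) := T_31 (nat_lit 207) (nat_lit 208) (nat_lit 1) (nat_lit 7) (nat_lit 11) L81057 (by decide +kernel)
theorem L81059 : W_31 (nat_lit 5) (nat_lit 0x80007000200018001000080000000000000000000000000000000) (nat_lit 0x0) (nat_lit 0x1c000c00470000000000000000000000000000000000000000000) := T_31 (nat_lit 191) (nat_lit 178) (nat_lit 2) (nat_lit 4) (nat_lit 11) L81058 (by decide +kernel)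
theorem L81060 : W_31 (nat_lit 6) (nat_lit 0x80007000200010001000080000000000000000000000000000000) (nat_lit 0x0) (nat_lit 0x1c000c00470008000400000000000000000000000000000000000) := T_31 (nat_lit 159) (nat_lit 142) (nat_lit 4) (nat_lit 7) (nat_lit 12) L81059 (by decide +kernel)
theorem L81061 : W_31 (nat_lit 7) (nat_lit 0x80007000200000001000080000000000000000000000000000000) (nat_lit 0x0) (nat_lit 0x1c000c00470018000c00000000000000000000000000000000000) := T_31 (nat_lit 160) (nat_lit 143) (nat_lit 6) (nat_lit 7) (nat_lit 11) L81060 (by decide +kernel)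
theorem L81062 : W_31 (nat_lit 2) (nat_lit 0x800070002c0018001000080000000000000000000000000000000) (nat_lit 0x0) (nat_lit 0x800030000000000000000000000000000000000000000000) := D_31 (nat_lit 173) (nat_lit 191) (nat_lit 172) (nat_lit 0) (nat_lit 7) (nat_lit 11) (nat_lit 3) (nat_lit 2) (nat_lit 10) (by decide +kernel)
theorem L81063 : W_31 (nat_lit 3) (nat_lit 0x80007000240018001000080000000000000000000000000000000) (nat_lit 0x0) (nat_lit 0x88000b0000000000000000000000000000000000000000000) := T_31 (nat_lit 175) (nat_lit 195) (nat_lit 0) (nat_lit 8) (nat_lit 11) L81062 (by decide +kernel)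
theorem L81064 : W_31 (nat_lit 4) (nat_lit 0x80007000240010001000080000000000000000000000000000000) (nat_lit 0x0) (nat_lit 0x88000b0008000400000000000000000000000000000000000) := T_31 (nat_lit 159) (nat_lit 142) (nat_lit 4) (nat_lit 7) (nat_lit 12) L81063 (by decide +kernel)
theorem L81065 : W_31 (nat_lit 5) (nat_lit 0x80007000240000001000080000000000000000000000000000000) (nat_lit 0x0) (nat_lit 0x88000b0018000c00000000000000000000000000000000000) := T_31 (nat_lit 160) (nat_lit 143) (nat_lit 6) (nat_lit 7) (nat_lit 11) L81064 (by decide +kernel)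
theorem L81066 : W_31 (nat_lit 4) (nat_lit 0x80007000240000001000080000000000000000000000000000000) (nat_lit 0x0) (nat_lit 0x380088000a0000000000000000000000000000000000000000000) := T_31 (nat_lit 191) (nat_lit 173) (nat_lit 0) (nat_lit 7) (nat_lit 11) L10042 (by decide +kernel)
theorem L81067 : W_31 (nat_lit 2) (nat_lit 0x8000700024001a001000080000000000000000000000000000000) (nat_lit 0x0) (nat_lit 0x800020004000000000000000000000000000000000000000) := D_31 (nat_lit 173) (nat_lit 158) (nat_lit 191) (nat_lit 1) (nat_lit 7) (nat_lit 9) (nat_lit 0) (nat_lit 7) (nat_lit 11) (by decide +kernel)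
theorem L81068 : W_31 (nat_lit 3) (nat_lit 0x80007000240012001000080000000000000000000000000000000) (nat_lit 0x0) (nat_lit 0x80002000c000400000000000000000000000000000000000) := T_31 (nat_lit 159) (nat_lit 142) (nat_lit 4) (nat_lit 7) (nat_lit 12) L81067 (by decide +kernel)
theorem L81069 : W_31 (nat_lit 4) (nat_lit 0x80007000240002001000080000000000000000000000000000000) (nat_lit 0x0) (nat_lit 0x80002001c000c00000000000000000000000000000000000) := T_31 (nat_lit 160) (nat_lit 143) (nat_lit 6) (nat_lit 7) (nat_lit 11) L81068 (by decide +kernel)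
theorem L81070 : W_31 (nat_lit 2) (nat_lit 0x90007800240002001000080000000000000000000000000000000) (nat_lit 0x0) (nat_lit 0x400020000000000000000100000000000000000000000000000000000) := D_31 (nat_lit 209) (nat_lit 140) (nat_lit 226) (nat_lit 7) (nat_lit 4) (nat_lit 8) (nat_lit 7) (nat_lit 4) (nat_lit 9) (by decide +kernel)
theorem L81071 : W_31 (nat_lit 3) (nat_lit 0x80007800240002001000080000000000000000000000000000000) (nat_lit 0x0) (nat_lit 0x400038000000000000000100000000000000000000000000000000000) := T_31 (nat_lit 208) (nat_lit 207) (nat_lit 1) (nat_lit 7) (nat_lit 11) L81070 (by decide +kernel)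
theorem L81072 : W_31 (nat_lit 4) (nat_lit 0x80007000240002001000080000000000000000000000000000000) (nat_lit 0x0) (nat_lit 0x400038000800020000000100000000000000000000000000000000000) := T_31 (nat_lit 191) (nat_lit 173) (nat_lit 0) (nat_lit 7) (nat_lit 11) L81071 (by decide +kernel)
theorem L81073 : W_31 (nat_lit 2) (nat_lit 0x8000700024001e001100080000000000000000000000000000000) (nat_lit 0x0) (nat_lit 0x20000000080000000000008000000000000000000000000000000) := D_31 (nat_lit 175) (nat_lit 209) (nat_lit 123) (nat_lit 4) (nat_lit 5) (nat_lit 12) (nat_lit 7) (nat_lit 4) (nat_lit 7) (by decide +kernel)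
theorem L81074 : W_31 (nat_lit 3) (nat_lit 0x8000700024001e001000080000000000000000000000000000000) (nat_lit 0x0) (nat_lit 0x20000000080000000180008000000000000000000000000000000) := T_31 (nat_lit 140) (nat_lit 139) (nat_lit 0) (nat_lit 7) (nat_lit 9) L81073 (by decide +kernel)
theorem L81075 : W_31 (nat_lit 4) (nat_lit 0x8000700024001a001000080000000000000000000000000000000) (nat_lit 0x0) (nat_lit 0x200000000a0004000180008000000000000000000000000000000) := T_31 (nat_lit 158) (nat_lit 173) (nat_lit 1) (nat_lit 7) (nat_lit 9) L81074 (by decide +kernel)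
theorem L81076 : W_31 (nat_lit 5) (nat_lit 0x80007000240012001000080000000000000000000000000000000) (nat_lit 0x0) (nat_lit 0x200000000a000c000580008000000000000000000000000000000) := T_31 (nat_lit 159) (nat_lit 142) (nat_lit 4) (nat_lit 7) (nat_lit 12) L81075 (by decide +kernel)
theorem L81077 : W_31 (nat_lit 6) (nat_lit 0x80007000240002001000080000000000000000000000000000000) (nat_lit 0x0) (nat_lit 0x200000000a001c000d80008000000000000000000000000000000) := T_31 (nat_lit 160) (nat_lit 143) (nat_lit 6) (nat_lit 7) (nat_lit 11) L81076 (by decide +kernel)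
theorem L81078 : W_31 (nat_lit 2) (nat_lit 0xa00020009000780024001f001000080000000000000000000000000000000) (nat_lit 0x0) (nat_lit 0x140004000000000000000000000000000000000000000000000000000000000000) := D_31 (nat_lit 242) (nat_lit 258) (nat_lit 260) (nat_lit 5) (nat_lit 4) (nat_lit 11) (nat_lit 7) (nat_lit 4) (nat_lit 11) (by decide +kernel)
theorem L81079 : W_31 (nat_lit 3) (nat_lit 0x200020009000780024001f001000080000000000000000000000000000000) (nat_lit 0x0) (nat_lit 0x14000c000400000000000000000000000000000000000000000000000000000000) := T_31 (nat_lit 243) (nat_lit 226) (nat_lit 7) (nat_lit 4) (nat_lit 10) L81078 (by decide +kernel)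
theorem L81080 : W_31 (nat_lit 4) (nat_lit 0x20009000780024001f001000080000000000000000000000000000000) (nat_lit 0x0) (nat_lit 0x14000e000500000000000000000000000000000000000000000000000000000000) := T_31 (nat_lit 241) (nat_lit 224) (nat_lit 5) (nat_lit 4) (nat_lit 10) L81079 (by decide +kernel)
theorem L81081 : W_31 (nat_lit 5) (nat_lit 0x9000780024001f001000080000000000000000000000000000000) (nat_lit 0x0) (nat_lit 0x14000e000700000000000080000000000000000000000000000000000000000000) := T_31 (nat_lit 225) (nat_lit 175) (nat_lit 6) (nat_lit 4) (nat_lit 13) L81080 (by decide +kernel)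
theorem L81082 : W_31 (nat_lit 6) (nat_lit 0x9000780024001b001000080000000000000000000000000000000) (nat_lit 0x0) (nat_lit 0x14000e000700000000000080004000200000000000000000000000000000000000) := T_31 (nat_lit 158) (nat_lit 141) (nat_lit 6) (nat_lit 4) (nat_lit 12) L81081 (by decide +kernel)
theorem L81083 : W_31 (nat_lit 7) (nat_lit 0x9000780024001a001000080000000000000000000000000000000) (nat_lit 0x0) (nat_lit 0x14000e000700000000000080005000280000000000000000000000000000000000) := T_31 (nat_lit 156) (nat_lit 139) (nat_lit 4) (nat_lit 4) (nat_lit 12) L81082 (by decide +kernel)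
theorem L81084 : W_31 (nat_lit 8) (nat_lit 0x8000780024001a001000080000000000000000000000000000000) (nat_lit 0x0) (nat_lit 0x14000e000700018000000080005000280000000000000000000000000000000000) := T_31 (nat_lit 208) (nat_lit 207) (nat_lit 1) (nat_lit 7) (nat_lit 11) L81083 (by decide +kernel)
theorem L81085 : W_31 (nat_lit 9) (nat_lit 0x80007800240012001000080000000000000000000000000000000) (nat_lit 0x0) (nat_lit 0x14000e00070001800000008000d000680000000000000000000000000000000000) := T_31 (nat_lit 159) (nat_lit 142) (nat_lit 4) (nat_lit 7) (nat_lit 12) L81084 (by decide +kernel)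
theorem L81086 : W_31 (nat_lit 10) (nat_lit 0x80007800240002001000080000000000000000000000000000000) (nat_lit 0x0) (nat_lit 0x14000e00070001800000008001d000e80000000000000000000000000000000000) := T_31 (nat_lit 160) (nat_lit 143) (nat_lit 6) (nat_lit 7) (nat_lit 11) L81085 (by decide +kernel)
theorem L81087 : W_31 (nat_lit 2) (nat_lit 0x80007800240002001100088000000000000000000000000000000) (nat_lit 0x0) (nat_lit 0x200010000800000000000000000000000000) := D_31 (nat_lit 124) (nat_lit 107) (nat_lit 141) (nat_lit 6) (nat_lit 4) (nat_lit 10) (nat_lit 6) (nat_lit 4) (nat_lit 11) (by decide +kernel)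
theorem L81088 : W_31 (nat_lit 3) (nat_lit 0x80007800240002001100080000000000000000000000000000000) (nat_lit 0x0) (nat_lit 0x80000000200018000800000000000000000000000000) := T_31 (nat_lit 123) (nat_lit 175) (nat_lit 7) (nat_lit 4) (nat_lit 7) L81087 (by decide +kernel)
theorem L81089 : W_31 (nat_lit 4) (nat_lit 0x80007800240002001000080000000000000000000000000000000) (nat_lit 0x0) (nat_lit 0x20000000080000000300018000800000000000000000000000000) := T_31 (nat_lit 140) (nat_lit 209) (nat_lit 7) (nat_lit 4) (nat_lit 8) L81088 (by decide +kernel)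
theorem L81090 : W_31 (nat_lit 11) (nat_lit 0x80007000240002001000080000000000000000000000000000000) (nat_lit 0x0) (nat_lit 0x14000e00070003800080008001d000f80018000800000000000000000000000000) := Q_31 (nat_lit 191) (C_31 L81071 (C_31 L81086 (C_31 L81089 N_31))) (by decide +kernel)
theorem L81091 : W_31 (nat_lit 12) (nat_lit 0x80007000240000001000080000000000000000000000000000000) (nat_lit 0x0) (nat_lit 0x14000e0007000380008000a001f000f80018000800000000000000000000000000) := Q_31 (nat_lit 157) (C_31 L81069 (C_31 L81072 (C_31 L81077 (C_31 L81090 N_31)))) (by decide +kernel)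
theorem L81092 : W_31 (nat_lit 2) (nat_lit 0xb0007800240018001000080000000000000000000000000000000) (nat_lit 0x0) (nat_lit 0x8000400000000000000002000000000000000000000000000000000000000) := D_31 (nat_lit 226) (nat_lit 243) (nat_lit 157) (nat_lit 4) (nat_lit 5) (nat_lit 14) (nat_lit 7) (nat_lit 4) (nat_lit 9) (by decide +kernel)
theorem L81093 : W_31 (nat_lit 3) (nat_lit 0x90007800240018001000080000000000000000000000000000000) (nat_lit 0x0) (nat_lit 0x8000400020008000000002000000000000000000000000000000000000000) := T_31 (nat_lit 209) (nat_lit 195) (nat_lit 1) (nat_lit 8) (nat_lit 11) L81092 (by decide +kernel)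
theorem L81094 : W_31 (nat_lit 4) (nat_lit 0x80007800240018001000080000000000000000000000000000000) (nat_lit 0x0) (nat_lit 0x8000400038008000000002000000000000000000000000000000000000000) := T_31 (nat_lit 208) (nat_lit 207) (nat_lit 1) (nat_lit 7) (nat_lit 11) L81093 (by decide +kernel)
theorem L81095 : W_31 (nat_lit 5) (nat_lit 0x80007000240018001000080000000000000000000000000000000) (nat_lit 0x0) (nat_lit 0x8000400038008800020002000000000000000000000000000000000000000) := T_31 (nat_lit 191) (nat_lit 173) (nat_lit 0) (nat_lit 7) (nat_lit 11) L81094 (by decide +kernel)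
theorem L81096 : W_31 (nat_lit 6) (nat_lit 0x80007000240010001000080000000000000000000000000000000) (nat_lit 0x0) (nat_lit 0x800040003800880002000a000400000000000000000000000000000000000) := T_31 (nat_lit 159) (nat_lit 142) (nat_lit 4) (nat_lit 7) (nat_lit 12) L81095 (by decide +kernel)
theorem L81097 : W_31 (nat_lit 7) (nat_lit 0x80007000240000001000080000000000000000000000000000000) (nat_lit 0x0) (nat_lit 0x800040003800880002001a000c00000000000000000000000000000000000) := T_31 (nat_lit 160) (nat_lit 143) (nat_lit 6) (nat_lit 7) (nat_lit 11) L81096 (by decide +kernel)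
theorem L81098 : W_31 (nat_lit 2) (nat_lit 0x80007000240000001400080000000000000000000000000000000) (nat_lit 0x0) (nat_lit 0x18000800000000000000000000000000000000000) := D_31 (nat_lit 160) (nat_lit 159) (nat_lit 143) (nat_lit 4) (nat_lit 7) (nat_lit 12) (nat_lit 6) (nat_lit 7) (nat_lit 11) (by decide +kernel)
theorem L81099 : W_31 (nat_lit 2) (nat_lit 0x140004000a00070002d0008001400080000000000000000000000000000000) (nat_lit 0x0) (nat_lit 0x280008000000000000000000000000000000000000000000000000000000000000) := D_31 (nat_lit 243) (nat_lit 259) (nat_lit 261) (nat_lit 5) (nat_lit 5) (nat_lit 11) (nat_lit 7) (nat_lit 5) (nat_lit 11) (by decide +kernel)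
theorem L81100 : W_31 (nat_lit 3) (nat_lit 0x40004000a00070002d0008001400080000000000000000000000000000000) (nat_lit 0x0) (nat_lit 0x280018000800000000000000000000000000000000000000000000000000000000) := T_31 (nat_lit 244) (nat_lit 227) (nat_lit 7) (nat_lit 5) (nat_lit 10) L81099 (by decide +kernel)
theorem L81101 : W_31 (nat_lit 4) (nat_lit 0x4000a00070002d0008001400080000000000000000000000000000000) (nat_lit 0x0) (nat_lit 0x28001c000a00000000000000000000000000000000000000000000000000000000) := T_31 (nat_lit 242) (nat_lit 225) (nat_lit 5) (nat_lit 5) (nat_lit 10) L81100 (by decide +kernel)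
theorem L81102 : W_31 (nat_lit 5) (nat_lit 0xa00070002d0008001400080000000000000000000000000000000) (nat_lit 0x0) (nat_lit 0x28001c000e00000000000000002000000000000000000000000000000000000000) := T_31 (nat_lit 226) (nat_lit 157) (nat_lit 4) (nat_lit 5) (nat_lit 13) L81101 (by decide +kernel)
theorem L81103 : W_31 (nat_lit 6) (nat_lit 0x800070002d0008001400080000000000000000000000000000000) (nat_lit 0x0) (nat_lit 0x28001c000e00020000000000006000000000000000000000000000000000000000) := T_31 (nat_lit 209) (nat_lit 158) (nat_lit 6) (nat_lit 5) (nat_lit 12) L81102 (by decide +kernel)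
theorem L81104 : W_31 (nat_lit 7) (nat_lit 0x800070002c0008001400080000000000000000000000000000000) (nat_lit 0x0) (nat_lit 0x28001c000e00020000000030006000000000000000000000000000000000000000) := T_31 (nat_lit 172) (nat_lit 173) (nat_lit 3) (nat_lit 2) (nat_lit 10) L81103 (by decide +kernel)
theorem L81105 : W_31 (nat_lit 8) (nat_lit 0x80007000240008001400080000000000000000000000000000000) (nat_lit 0x0) (nat_lit 0x28001c000e000200080000b0006000000000000000000000000000000000000000) := T_31 (nat_lit 175) (nat_lit 195) (nat_lit 0) (nat_lit 8) (nat_lit 11) L81104 (by decide +kernel)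
theorem L81106 : W_31 (nat_lit 9) (nat_lit 0x80007000240000001400080000000000000000000000000000000) (nat_lit 0x0) (nat_lit 0x28001c000e000200080000b001e000000000000000000000000000000000000000) := T_31 (nat_lit 159) (nat_lit 160) (nat_lit 4) (nat_lit 7) (nat_lit 12) L81105 (by decide +kernel)
theorem L81107 : W_31 (nat_lit 2) (nat_lit 0xa000f000240002001e00088000000000000000000000000000000) (nat_lit 0x0) (nat_lit 0x1000100004000000000000000000000000000000) := D_31 (nat_lit 140) (nat_lit 156) (nat_lit 122) (nat_lit 1) (nat_lit 7) (nat_lit 8) (nat_lit 0) (nat_lit 7) (nat_lit 8) (by decide +kernel)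
theorem L81108 : W_31 (nat_lit 3) (nat_lit 0xa000f000240002001e00080000000000000000000000000000000) (nat_lit 0x0) (nat_lit 0x100010001c000000000000000000000000000000) := T_31 (nat_lit 123) (nat_lit 124) (nat_lit 0) (nat_lit 8) (nat_lit 8) L81107 (by decide +kernel)
theorem L81109 : W_31 (nat_lit 4) (nat_lit 0xa000f000240000001e00080000000000000000000000000000000) (nat_lit 0x0) (nat_lit 0x700010001c000000000000000000000000000000) := T_31 (nat_lit 157) (nat_lit 158) (nat_lit 1) (nat_lit 8) (nat_lit 8) L81108 (by decide +kernel)
theorem L81110 : W_31 (nat_lit 5) (nat_lit 0xa000f000240000001c00080000000000000000000000000000000) (nat_lit 0x0) (nat_lit 0x700030011c000000000000000000000000000000) := T_31 (nat_lit 141) (nat_lit 128) (nat_lit 2) (nat_lit 5) (nat_lit 8) L81109 (by decide +kernel)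
theorem L81111 : W_31 (nat_lit 6) (nat_lit 0x8000f000240000001c00080000000000000000000000000000000) (nat_lit 0x0) (nat_lit 0x3000000000000700030011c000000000000000000000000000000) := T_31 (nat_lit 209) (nat_lit 208) (nat_lit 1) (nat_lit 8) (nat_lit 11) L81110 (by decide +kernel)
theorem L81112 : W_31 (nat_lit 7) (nat_lit 0x8000f000240000001400080000000000000000000000000000000) (nat_lit 0x0) (nat_lit 0x30000000000017000b0011c000000000000000000000000000000) := T_31 (nat_lit 143) (nat_lit 160) (nat_lit 6) (nat_lit 7) (nat_lit 11) L81111 (by decide +kernel)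
theorem L81113 : W_31 (nat_lit 8) (nat_lit 0x80007000240000001400080000000000000000000000000000000) (nat_lit 0x0) (nat_lit 0x30008000080017000b0011c000000000000000000000000000000) := T_31 (nat_lit 195) (nat_lit 175) (nat_lit 0) (nat_lit 8) (nat_lit 11) L81112 (by decide +kernel)
theorem L81114 : W_31 (nat_lit 2) (nat_lit 0x80007000240004001e00088000000000000000000000000000000) (nat_lit 0x0) (nat_lit 0x80000000100020000000000000000000000000000000) := D_31 (nat_lit 175) (nat_lit 125) (nat_lit 140) (nat_lit 6) (nat_lit 5) (nat_lit 11) (nat_lit 4) (nat_lit 5) (nat_lit 11) (by decide +kernel)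
theorem L81115 : W_31 (nat_lit 3) (nat_lit 0x80007000240004001e00080000000000000000000000000000000) (nat_lit 0x0) (nat_lit 0x80000000100038000000000000000000000000000000) := T_31 (nat_lit 123) (nat_lit 124) (nat_lit 0) (nat_lit 8) (nat_lit 8) L81114 (by decide +kernel)
theorem L81116 : W_31 (nat_lit 4) (nat_lit 0x80007000240000001e00080000000000000000000000000000000) (nat_lit 0x0) (nat_lit 0x80006000100038000000000000000000000000000000) := T_31 (nat_lit 158) (nat_lit 157) (nat_lit 1) (nat_lit 8) (nat_lit 8) L81115 (by decide +kernel)
theorem L81117 : W_31 (nat_lit 5) (nat_lit 0x80007000240000001600080000000000000000000000000000000) (nat_lit 0x0) (nat_lit 0x80006000900138000000000000000000000000000000) := T_31 (nat_lit 143) (nat_lit 128) (nat_lit 2) (nat_lit 5) (nat_lit 8) L81116 (by decide +kernel)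
theorem L81118 : W_31 (nat_lit 2) (nat_lit 0x800070002d0004001700080000000000000000000000000000000) (nat_lit 0x0) (nat_lit 0x2000000000000a000000000000000000000000000000000000000) := D_31 (nat_lit 209) (nat_lit 159) (nat_lit 157) (nat_lit 6) (nat_lit 5) (nat_lit 12) (nat_lit 4) (nat_lit 5) (nat_lit 12) (by decide +kernel)
theorem L81119 : W_31 (nat_lit 3) (nat_lit 0x800070002d0004001600080000000000000000000000000000000) (nat_lit 0x0) (nat_lit 0x2000000000000a000100008000000000000000000000000000000) := T_31 (nat_lit 140) (nat_lit 123) (nat_lit 4) (nat_lit 5) (nat_lit 11) L81118 (by decide +kernel)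
theorem L81120 : W_31 (nat_lit 4) (nat_lit 0x800070002d0000001600080000000000000000000000000000000) (nat_lit 0x0) (nat_lit 0x2000000000000e000100028000000000000000000000000000000) := T_31 (nat_lit 158) (nat_lit 125) (nat_lit 6) (nat_lit 5) (nat_lit 11) L81119 (by decide +kernel)
theorem L81121 : W_31 (nat_lit 5) (nat_lit 0x800070002c0000001600080000000000000000000000000000000) (nat_lit 0x0) (nat_lit 0x2000000003000e000100028000000000000000000000000000000) := T_31 (nat_lit 172) (nat_lit 173) (nat_lit 3) (nat_lit 2) (nat_lit 10) L81120 (by decide +kernel)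
theorem L81122 : W_31 (nat_lit 6) (nat_lit 0x80007000240000001600080000000000000000000000000000000) (nat_lit 0x0) (nat_lit 0x200080000b000e000100028000000000000000000000000000000) := T_31 (nat_lit 175) (nat_lit 195) (nat_lit 0) (nat_lit 8) (nat_lit 11) L81121 (by decide +kernel)
theorem L81123 : W_31 (nat_lit 2) (nat_lit 0x800070002c0000001e00088000000000000000000000000000000) (nat_lit 0x0) (nat_lit 0x2000100004000000000000000000000000000000) := D_31 (nat_lit 140) (nat_lit 122) (nat_lit 157) (nat_lit 0) (nat_lit 7) (nat_lit 8) (nat_lit 7) (nat_lit 4) (nat_lit 7) (by decide +kernel)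
theorem L81124 : W_31 (nat_lit 3) (nat_lit 0x800070002c0000001e00080000000000000000000000000000000) (nat_lit 0x0) (nat_lit 0x200010001c000000000000000000000000000000) := T_31 (nat_lit 123) (nat_lit 124) (nat_lit 0) (nat_lit 8) (nat_lit 8) L81123 (by decide +kernel)
theorem L81125 : W_31 (nat_lit 4) (nat_lit 0x800070002c0000001600080000000000000000000000000000000) (nat_lit 0x0) (nat_lit 0x200090011c000000000000000000000000000000) := T_31 (nat_lit 143) (nat_lit 128) (nat_lit 2) (nat_lit 5) (nat_lit 8) L81124 (by decide +kernel)
theorem L81126 : W_31 (nat_lit 5) (nat_lit 0x80007000240000001600080000000000000000000000000000000) (nat_lit 0x0) (nat_lit 0x800008000200090011c000000000000000000000000000000) := T_31 (nat_lit 175) (nat_lit 195) (nat_lit 0) (nat_lit 8) (nat_lit 11) L81125 (by decide +kernel)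
theorem L81127 : W_31 (nat_lit 2) (nat_lit 0x80007000240002001e00088000000000000000000000000000000) (nat_lit 0x0) (nat_lit 0x1000100004000000000000000000000000000000) := D_31 (nat_lit 140) (nat_lit 156) (nat_lit 122) (nat_lit 1) (nat_lit 7) (nat_lit 8) (nat_lit 0) (nat_lit 7) (nat_lit 8) (by decide +kernel)
theorem L81128 : W_31 (nat_lit 3) (nat_lit 0x80007000240002001e00080000000000000000000000000000000) (nat_lit 0x0) (nat_lit 0x100010001c000000000000000000000000000000) := T_31 (nat_lit 123) (nat_lit 124) (nat_lit 0) (nat_lit 8) (nat_lit 8) L81127 (by decide +kernel)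
theorem L81129 : W_31 (nat_lit 4) (nat_lit 0x80007000240000001e00080000000000000000000000000000000) (nat_lit 0x0) (nat_lit 0x700010001c000000000000000000000000000000) := T_31 (nat_lit 157) (nat_lit 158) (nat_lit 1) (nat_lit 8) (nat_lit 8) L81128 (by decide +kernel)
theorem L81130 : W_31 (nat_lit 5) (nat_lit 0x80007000240000001600080000000000000000000000000000000) (nat_lit 0x0) (nat_lit 0x700090011c000000000000000000000000000000) := T_31 (nat_lit 143) (nat_lit 128) (nat_lit 2) (nat_lit 5) (nat_lit 8) L81129 (by decide +kernel)
theorem L81131 : W_31 (nat_lit 2) (nat_lit 0x800070002c0000001e00088000000000000000000000000000000) (nat_lit 0x0) (nat_lit 0x4000100004000000000000000000000000000000) := D_31 (nat_lit 140) (nat_lit 122) (nat_lit 158) (nat_lit 0) (nat_lit 7) (nat_lit 8) (nat_lit 4) (nat_lit 5) (nat_lit 11) (by decide +kernel)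
theorem L81132 : W_31 (nat_lit 3) (nat_lit 0x80007000240000001e00088000000000000000000000000000000) (nat_lit 0x0) (nat_lit 0x8000080004000100004000000000000000000000000000000) := T_31 (nat_lit 175) (nat_lit 195) (nat_lit 0) (nat_lit 8) (nat_lit 11) L81131 (by decide +kernel)
theorem L81133 : W_31 (nat_lit 4) (nat_lit 0x80007000240000001e00080000000000000000000000000000000) (nat_lit 0x0) (nat_lit 0x800008000400010001c000000000000000000000000000000) := T_31 (nat_lit 123) (nat_lit 124) (nat_lit 0) (nat_lit 8) (nat_lit 8) L81132 (by decide +kernel)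
theorem L81134 : W_31 (nat_lit 5) (nat_lit 0x80007000240000001600080000000000000000000000000000000) (nat_lit 0x0) (nat_lit 0x800008000400090011c000000000000000000000000000000) := T_31 (nat_lit 143) (nat_lit 128) (nat_lit 2) (nat_lit 5) (nat_lit 8) L81133 (by decide +kernel)
theorem L81135 : W_31 (nat_lit 2) (nat_lit 0x800070002c0000001e00080000000000000000000000000000000) (nat_lit 0x0) (nat_lit 0x6000000020000000000000000000000000000000) := D_31 (nat_lit 158) (nat_lit 157) (nat_lit 125) (nat_lit 1) (nat_lit 8) (nat_lit 8) (nat_lit 6) (nat_lit 5) (nat_lit 11) (by decide +kernel)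
theorem L81136 : W_31 (nat_lit 3) (nat_lit 0x800070002c0000001600080000000000000000000000000000000) (nat_lit 0x0) (nat_lit 0x6000800120000000000000000000000000000000) := T_31 (nat_lit 143) (nat_lit 128) (nat_lit 2) (nat_lit 5) (nat_lit 8) L81135 (by decide +kernel)
theorem L81137 : W_31 (nat_lit 4) (nat_lit 0x80007000240000001600080000000000000000000000000000000) (nat_lit 0x0) (nat_lit 0x8000080006000800120000000000000000000000000000000) := T_31 (nat_lit 175) (nat_lit 195) (nat_lit 0) (nat_lit 8) (nat_lit 11) L81136 (by decide +kernel)
theorem L81138 : W_31 (nat_lit 7) (nat_lit 0x80007000240000001400080000000000000000000000000000000) (nat_lit 0x0) (nat_lit 0x200080000b000f000b0013c000000000000000000000000000000) := Q_31 (nat_lit 141) (C_31 L81117 (C_31 L81122 (C_31 L81126 (C_31 L81130 (C_31 L81134 (C_31 L81137 N_31)))))) (by decide +kernel)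
theorem L81139 : W_31 (nat_lit 10) (nat_lit 0x80007000240000001000080000000000000000000000000000000) (nat_lit 0x0) (nat_lit 0x28001c000e000300080000b001f000f0013c000000000000000000000000000000) := Q_31 (nat_lit 142) (C_31 L81098 (C_31 L81106 (C_31 L81113 (C_31 L81138 N_31)))) (by decide +kernel)
theorem L81140 : W_31 (nat_lit 2) (nat_lit 0x80004000a00070002c0018001000080000000000000000000000000000000) (nat_lit 0x0) (nat_lit 0x200010000800000000000000000000000000000000000000000000000000000000) := D_31 (nat_lit 244) (nat_lit 261) (nat_lit 227) (nat_lit 7) (nat_lit 5) (nat_lit 11) (nat_lit 7) (nat_lit 5) (nat_lit 10) (by decide +kernel)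
theorem L81141 : W_31 (nat_lit 3) (nat_lit 0x80004000a0007000240018001000080000000000000000000000000000000) (nat_lit 0x0) (nat_lit 0x200010000800000000000080002000000000000000000000000000000000000000) := T_31 (nat_lit 175) (nat_lit 157) (nat_lit 4) (nat_lit 5) (nat_lit 13) L81140 (by decide +kernel)
theorem L81142 : W_31 (nat_lit 4) (nat_lit 0x4000a0007000240018001000080000000000000000000000000000000) (nat_lit 0x0) (nat_lit 0x200018000800000000800080002000000000000000000000000000000000000000) := T_31 (nat_lit 243) (nat_lit 191) (nat_lit 4) (nat_lit 5) (nat_lit 14) L81141 (by decide +kernel)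
theorem L81143 : W_31 (nat_lit 5) (nat_lit 0x4000a0007000240010001000080000000000000000000000000000000) (nat_lit 0x0) (nat_lit 0x20001800080000000080008000a000400000000000000000000000000000000000) := T_31 (nat_lit 159) (nat_lit 142) (nat_lit 4) (nat_lit 7) (nat_lit 12) L81142 (by decide +kernel)
theorem L81144 : W_31 (nat_lit 6) (nat_lit 0x4000a0007000240000001000080000000000000000000000000000000) (nat_lit 0x0) (nat_lit 0x20001800080000000080008001a000c00000000000000000000000000000000000) := T_31 (nat_lit 160) (nat_lit 143) (nat_lit 6) (nat_lit 7) (nat_lit 11) L81143 (by decide +kernel)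
theorem L81145 : W_31 (nat_lit 2) (nat_lit 0x80004000a00070002c0000001000080000000000000000000000000000000) (nat_lit 0x0) (nat_lit 0x200010000800000000000000000000000000000000000000000000000000000000) := D_31 (nat_lit 244) (nat_lit 227) (nat_lit 261) (nat_lit 7) (nat_lit 5) (nat_lit 10) (nat_lit 7) (nat_lit 5) (nat_lit 11) (by decide +kernel)
theorem L81146 : W_31 (nat_lit 3) (nat_lit 0x4000a00070002c0000001000080000000000000000000000000000000) (nat_lit 0x0) (nat_lit 0x200018000800000000800000000000000000000000000000000000000000000000) := T_31 (nat_lit 243) (nat_lit 191) (nat_lit 4) (nat_lit 5) (nat_lit 14) L81145 (by decide +kernel)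
theorem L81147 : W_31 (nat_lit 4) (nat_lit 0x4000a0007000240000001000080000000000000000000000000000000) (nat_lit 0x0) (nat_lit 0x200018000800000000800080002000000000000000000000000000000000000000) := T_31 (nat_lit 175) (nat_lit 157) (nat_lit 4) (nat_lit 5) (nat_lit 13) L81146 (by decide +kernel)
theorem L81148 : W_31 (nat_lit 2) (nat_lit 0x1c0014000a0007000240018001000080000000000000000000000000000000) (nat_lit 0x0) (nat_lit 0x60002000000000000000000000000000000000000000000000000000000000) := D_31 (nat_lit 229) (nat_lit 245) (nat_lit 246) (nat_lit 2) (nat_lit 4) (nat_lit 14) (nat_lit 7) (nat_lit 7) (nat_lit 10) (by decide +kernel)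
theorem L81149 : W_31 (nat_lit 3) (nat_lit 0x180014000a0007000240018001000080000000000000000000000000000000) (nat_lit 0x0) (nat_lit 0x80064002000000000000000000000000000000000000000000000000000000000) := T_31 (nat_lit 242) (nat_lit 259) (nat_lit 5) (nat_lit 5) (nat_lit 11) L81148 (by decide +kernel)
theorem L81150 : W_31 (nat_lit 4) (nat_lit 0x180004000a0007000240018001000080000000000000000000000000000000) (nat_lit 0x0) (nat_lit 0x80064003800000000000000000000000000000000000000000000000000000000) := T_31 (nat_lit 228) (nat_lit 227) (nat_lit 5) (nat_lit 7) (nat_lit 10) L81149 (by decide +kernel)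
theorem L81151 : W_31 (nat_lit 5) (nat_lit 0x80004000a0007000240018001000080000000000000000000000000000000) (nat_lit 0x0) (nat_lit 0x280074003800000000000000000000000000000000000000000000000000000000) := T_31 (nat_lit 244) (nat_lit 261) (nat_lit 7) (nat_lit 5) (nat_lit 11) L81150 (by decide +kernel)
theorem L81152 : W_31 (nat_lit 6) (nat_lit 0x80004000a0007000240010001000080000000000000000000000000000000) (nat_lit 0x0) (nat_lit 0x280074003800000000000000008000400000000000000000000000000000000000) := T_31 (nat_lit 159) (nat_lit 142) (nat_lit 4) (nat_lit 7) (nat_lit 12) L81151 (by decide +kernel)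
theorem L81153 : W_31 (nat_lit 7) (nat_lit 0x80004000a0007000240000001000080000000000000000000000000000000) (nat_lit 0x0) (nat_lit 0x280074003800000000000000018000c00000000000000000000000000000000000) := T_31 (nat_lit 160) (nat_lit 143) (nat_lit 6) (nat_lit 7) (nat_lit 11) L81152 (by decide +kernel)
theorem L81154 : W_31 (nat_lit 8) (nat_lit 0x4000a0007000240000001000080000000000000000000000000000000) (nat_lit 0x0) (nat_lit 0x28007c003800000000800000018000c00000000000000000000000000000000000) := T_31 (nat_lit 243) (nat_lit 191) (nat_lit 4) (nat_lit 5) (nat_lit 14) L81153 (by decide +kernel)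
theorem L81155 : W_31 (nat_lit 2) (nat_lit 0x80004000a00070002c0000001000080000000000000000000000000000000) (nat_lit 0x0) (nat_lit 0x80004000200000000000000000000000000000000000000000000000000000000) := D_31 (nat_lit 242) (nat_lit 259) (nat_lit 225) (nat_lit 5) (nat_lit 5) (nat_lit 11) (nat_lit 5) (nat_lit 5) (nat_lit 10) (by decide +kernel)
theorem L81156 : W_31 (nat_lit 3) (nat_lit 0x80004000a0007000240000001000080000000000000000000000000000000) (nat_lit 0x0) (nat_lit 0x80004000200000000000080002000000000000000000000000000000000000000) := T_31 (nat_lit 175) (nat_lit 157) (nat_lit 4) (nat_lit 5) (nat_lit 13) L81155 (by decide +kernel)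
theorem L81157 : W_31 (nat_lit 4) (nat_lit 0x4000a0007000240000001000080000000000000000000000000000000) (nat_lit 0x0) (nat_lit 0x8000c000200000000800080002000000000000000000000000000000000000000) := T_31 (nat_lit 243) (nat_lit 191) (nat_lit 4) (nat_lit 5) (nat_lit 14) L81156 (by decide +kernel)
theorem L81158 : W_31 (nat_lit 2) (nat_lit 0xe000b00070002c0018001000080000000000000000000000000000000) (nat_lit 0x0) (nat_lit 0x100000c000000000000000000000000000000000000000000000000000) := D_31 (nat_lit 207) (nat_lit 206) (nat_lit 228) (nat_lit 3) (nat_lit 2) (nat_lit 12) (nat_lit 0) (nat_lit 7) (nat_lit 13) (by decide +kernel)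
theorem L81159 : W_31 (nat_lit 3) (nat_lit 0xe000a00070002c0018001000080000000000000000000000000000000) (nat_lit 0x0) (nat_lit 0x100001c000000000004000000000000000000000000000000000000000) := T_31 (nat_lit 208) (nat_lit 158) (nat_lit 5) (nat_lit 5) (nat_lit 9) L81158 (by decide +kernel)
theorem L81160 : W_31 (nat_lit 4) (nat_lit 0xc000a00070002c0018001000080000000000000000000000000000000) (nat_lit 0x0) (nat_lit 0x400120001c000000000004000000000000000000000000000000000000000) := T_31 (nat_lit 225) (nat_lit 242) (nat_lit 5) (nat_lit 5) (nat_lit 10) L81159 (by decide +kernel)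
theorem L81161 : W_31 (nat_lit 5) (nat_lit 0x4000a00070002c0018001000080000000000000000000000000000000) (nat_lit 0x0) (nat_lit 0x14001a0001c000000000004000000000000000000000000000000000000000) := T_31 (nat_lit 227) (nat_lit 244) (nat_lit 7) (nat_lit 5) (nat_lit 10) L81160 (by decide +kernel)
theorem L81162 : W_31 (nat_lit 6) (nat_lit 0x4000a00070002c0010001000080000000000000000000000000000000) (nat_lit 0x0) (nat_lit 0x14001a0001c00000000000c000400000000000000000000000000000000000) := T_31 (nat_lit 159) (nat_lit 142) (nat_lit 4) (nat_lit 7) (nat_lit 12) L81161 (by decide +kernel)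
theorem L81163 : W_31 (nat_lit 7) (nat_lit 0x4000a00070002c0000001000080000000000000000000000000000000) (nat_lit 0x0) (nat_lit 0x14001a0001c00000000001c000c00000000000000000000000000000000000) := T_31 (nat_lit 160) (nat_lit 143) (nat_lit 6) (nat_lit 7) (nat_lit 11) L81162 (by decide +kernel)
theorem L81164 : W_31 (nat_lit 8) (nat_lit 0x4000a0007000240000001000080000000000000000000000000000000) (nat_lit 0x0) (nat_lit 0x14001a0001c00000008001e000c00000000000000000000000000000000000) := T_31 (nat_lit 175) (nat_lit 157) (nat_lit 4) (nat_lit 5) (nat_lit 13) L81163 (by decide +kernel)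
theorem L81165 : W_31 (nat_lit 9) (nat_lit 0xa0007000240000001000080000000000000000000000000000000) (nat_lit 0x0) (nat_lit 0x28007c003e0001c00080008001e000c00000000000000000000000000000000000) := Q_31 (nat_lit 226) (C_31 L81144 (C_31 L81147 (C_31 L81154 (C_31 L81157 (C_31 L81164 N_31))))) (by decide +kernel)
theorem L81166 : W_31 (nat_lit 2) (nat_lit 0xa0007000240000001000080000000000000000000000000000000) (nat_lit 0x0) (nat_lit 0x10008000080000000000000000000000000000000000000000000) := D_31 (nat_lit 195) (nat_lit 175) (nat_lit 208) (nat_lit 0) (nat_lit 8) (nat_lit 11) (nat_lit 1) (nat_lit 8) (nat_lit 11) (by decide +kernel)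
theorem L81167 : W_31 (nat_lit 2) (nat_lit 0xb0007000240018001000080000000000000000000000000000000) (nat_lit 0x0) (nat_lit 0xc000800000000000000000000000000000000000000000000000) := D_31 (nat_lit 207) (nat_lit 191) (nat_lit 206) (nat_lit 1) (nat_lit 7) (nat_lit 11) (nat_lit 2) (nat_lit 2) (nat_lit 12) (by decide +kernel)
theorem L81168 : W_31 (nat_lit 3) (nat_lit 0xa0007000240018001000080000000000000000000000000000000) (nat_lit 0x0) (nat_lit 0x1c008800000000000000000000000000000000000000000000000) := T_31 (nat_lit 208) (nat_lit 195) (nat_lit 1) (nat_lit 8) (nat_lit 11) L81167 (by decide +kernel)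
theorem L81169 : W_31 (nat_lit 4) (nat_lit 0xa0007000240010001000080000000000000000000000000000000) (nat_lit 0x0) (nat_lit 0x1c008800000008000400000000000000000000000000000000000) := T_31 (nat_lit 159) (nat_lit 142) (nat_lit 4) (nat_lit 7) (nat_lit 12) L81168 (by decide +kernel)
theorem L81170 : W_31 (nat_lit 5) (nat_lit 0xa0007000240000001000080000000000000000000000000000000) (nat_lit 0x0) (nat_lit 0x1c008800000018000c00000000000000000000000000000000000) := T_31 (nat_lit 160) (nat_lit 143) (nat_lit 6) (nat_lit 7) (nat_lit 11) L81169 (by decide +kernel)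
theorem L81171 : W_31 (nat_lit 3) (nat_lit 0x4000a00070002c0018001000080000000000000000000000000000000) (nat_lit 0x0) (nat_lit 0x200018000800000000800000000000000000000000000000000000000000000000) := T_31 (nat_lit 243) (nat_lit 191) (nat_lit 4) (nat_lit 5) (nat_lit 14) L81140 (by decide +kernel)
theorem L81172 : W_31 (nat_lit 4) (nat_lit 0xa00070002c0018001000080000000000000000000000000000000) (nat_lit 0x0) (nat_lit 0x200018000c00000000800000002000000000000000000000000000000000000000) := T_31 (nat_lit 226) (nat_lit 157) (nat_lit 4) (nat_lit 5) (nat_lit 13) L81171 (by decide +kernel)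
theorem L81173 : W_31 (nat_lit 5) (nat_lit 0xa00070002c0010001000080000000000000000000000000000000) (nat_lit 0x0) (nat_lit 0x200018000c0000000080000000a000400000000000000000000000000000000000) := T_31 (nat_lit 159) (nat_lit 142) (nat_lit 4) (nat_lit 7) (nat_lit 12) L81172 (by decide +kernel)
theorem L81174 : W_31 (nat_lit 6) (nat_lit 0xa00070002c0000001000080000000000000000000000000000000) (nat_lit 0x0) (nat_lit 0x200018000c0000000080000001a000c00000000000000000000000000000000000) := T_31 (nat_lit 160) (nat_lit 143) (nat_lit 6) (nat_lit 7) (nat_lit 11) L81173 (by decide +kernel)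
theorem L81175 : W_31 (nat_lit 7) (nat_lit 0xa0007000240000001000080000000000000000000000000000000) (nat_lit 0x0) (nat_lit 0x200018000c0000000880008001a000c00000000000000000000000000000000000) := T_31 (nat_lit 175) (nat_lit 195) (nat_lit 0) (nat_lit 8) (nat_lit 11) L81174 (by decide +kernel)
theorem L81176 : W_31 (nat_lit 10) (nat_lit 0x80007000240000001000080000000000000000000000000000000) (nat_lit 0x0) (nat_lit 0x28007c003e0003c00880008001e000c00000000000000000000000000000000000) := Q_31 (nat_lit 209) (C_31 L81165 (C_31 L81166 (C_31 L81170 (C_31 L81175 N_31)))) (by decide +kernel)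
theorem L81177 : W_31 (nat_lit 13) (nat_lit 0x80007000200000001000080000000000000000000000000000000) (nat_lit 0x0) (nat_lit 0x3c007e003f0003c0088000f001f000f8013c000800000000000000000000000000) := Q_31 (nat_lit 174) (C_31 L81065 (C_31 L81066 (C_31 L81091 (C_31 L81097 (C_31 L81139 (C_31 L81176 N_31)))))) (by decide +kernel)
theorem L81178 : W_31 (nat_lit 2) (nat_lit 0x90007800240000001000080000000000000000000000000000000) (nat_lit 0x0) (nat_lit 0x20008000080000000000000000000000000000000000000000000) := D_31 (nat_lit 195) (nat_lit 209) (nat_lit 175) (nat_lit 1) (nat_lit 8) (nat_lit 11) (nat_lit 0) (nat_lit 8) (nat_lit 11) (by decide +kernel)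
theorem L81179 : W_31 (nat_lit 3) (nat_lit 0x90007800200000001000080000000000000000000000000000000) (nat_lit 0x0) (nat_lit 0x200080000e0000000000000000000000000000000000000000000) := T_31 (nat_lit 174) (nat_lit 173) (nat_lit 0) (nat_lit 7) (nat_lit 11) L81178 (by decide +kernel)
theorem L81180 : W_31 (nat_lit 4) (nat_lit 0x80007800200000001000080000000000000000000000000000000) (nat_lit 0x0) (nat_lit 0x380080000e0000000000000000000000000000000000000000000) := T_31 (nat_lit 208) (nat_lit 207) (nat_lit 1) (nat_lit 7) (nat_lit 11) L81179 (by decide +kernel)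
theorem L81181 : W_31 (nat_lit 5) (nat_lit 0x80007000200000001000080000000000000000000000000000000) (nat_lit 0x0) (nat_lit 0x380088004e0000000000000000000000000000000000000000000) := T_31 (nat_lit 191) (nat_lit 178) (nat_lit 2) (nat_lit 4) (nat_lit 11) L81180 (by decide +kernel)
theorem L81182 : W_31 (nat_lit 3) (nat_lit 0x80007000200000001000080000000000000000000000000000000) (nat_lit 0x0) (nat_lit 0x8801c00000000000000000000000000000000000000000000) := T_31 (nat_lit 178) (nat_lit 191) (nat_lit 2) (nat_lit 4) (nat_lit 11) L6350 (by decide +kernel)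
theorem L81183 : W_31 (nat_lit 2) (nat_lit 0x5000100008000f000200018001000080000000000000000000000000000000) (nat_lit 0x0) (nat_lit 0xa00020000000000000000000000000000000000000000000000000000000000000) := D_31 (nat_lit 245) (nat_lit 261) (nat_lit 263) (nat_lit 5) (nat_lit 7) (nat_lit 11) (nat_lit 7) (nat_lit 7) (nat_lit 11) (by decide +kernel)
theorem L81184 : W_31 (nat_lit 3) (nat_lit 0x1000100008000f000200018001000080000000000000000000000000000000) (nat_lit 0x0) (nat_lit 0xa00060002000000000000000000000000000000000000000000000000000000000) := T_31 (nat_lit 246) (nat_lit 229) (nat_lit 7) (nat_lit 7) (nat_lit 10) L81183 (by decide +kernel)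
theorem L81185 : W_31 (nat_lit 4) (nat_lit 0x100008000f000200018001000080000000000000000000000000000000) (nat_lit 0x0) (nat_lit 0xa00070002800000000000000000000000000000000000000000000000000000000) := T_31 (nat_lit 244) (nat_lit 227) (nat_lit 5) (nat_lit 7) (nat_lit 10) L81184 (by decide +kernel)
theorem L81186 : W_31 (nat_lit 5) (nat_lit 0x100008000f000200010001000080000000000000000000000000000000) (nat_lit 0x0) (nat_lit 0xa00070002800000000000000008000400000000000000000000000000000000000) := T_31 (nat_lit 159) (nat_lit 142) (nat_lit 4) (nat_lit 7) (nat_lit 12) L81185 (by decide +kernel)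
theorem L81187 : W_31 (nat_lit 6) (nat_lit 0x100008000f000200000001000080000000000000000000000000000000) (nat_lit 0x0) (nat_lit 0xa00070002800000000000000018000c00000000000000000000000000000000000) := T_31 (nat_lit 160) (nat_lit 143) (nat_lit 6) (nat_lit 7) (nat_lit 11) L81186 (by decide +kernel)
theorem L81188 : W_31 (nat_lit 2) (nat_lit 0x380048003f002280018001000080000000000000000000000000000000) (nat_lit 0x0) (nat_lit 0x40004400000000000000000000000000000000000000000000) := D_31 (nat_lit 198) (nat_lit 178) (nat_lit 182) (nat_lit 0) (nat_lit 11) (nat_lit 11) (nat_lit 2) (nat_lit 8) (nat_lit 11) (by decide +kernel)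
theorem L81189 : W_31 (nat_lit 3) (nat_lit 0x380048003f000280018001000080000000000000000000000000000000) (nat_lit 0x0) (nat_lit 0x40007400000000000000000000000000000000000000000000) := T_31 (nat_lit 181) (nat_lit 180) (nat_lit 2) (nat_lit 7) (nat_lit 11) L81188 (by decide +kernel)
theorem L81190 : W_31 (nat_lit 4) (nat_lit 0x380048001f000280018001000080000000000000000000000000000000) (nat_lit 0x0) (nat_lit 0x800060007400000000000000000000000000000000000000000000) := T_31 (nat_lit 197) (nat_lit 215) (nat_lit 3) (nat_lit 7) (nat_lit 11) L81189 (by decide +kernel)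
theorem L81191 : W_31 (nat_lit 5) (nat_lit 0x380048001f000200018001000080000000000000000000000000000000) (nat_lit 0x0) (nat_lit 0x8000600074c0000000000000000000000000000000000000000000) := T_31 (nat_lit 175) (nat_lit 174) (nat_lit 0) (nat_lit 8) (nat_lit 11) L81190 (by decide +kernel)
theorem L81192 : W_31 (nat_lit 6) (nat_lit 0x380008001f000200018001000080000000000000000000000000000000) (nat_lit 0x0) (nat_lit 0xe000600074c0000000000000000000000000000000000000000000) := T_31 (nat_lit 214) (nat_lit 213) (nat_lit 3) (nat_lit 6) (nat_lit 11) L81191 (by decide +kernel)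
theorem L81193 : W_31 (nat_lit 7) (nat_lit 0x380008001f000200010001000080000000000000000000000000000000) (nat_lit 0x0) (nat_lit 0xe000600074c0008000400000000000000000000000000000000000) := T_31 (nat_lit 159) (nat_lit 142) (nat_lit 4) (nat_lit 7) (nat_lit 12) L81192 (by decide +kernel)
theorem L81194 : W_31 (nat_lit 8) (nat_lit 0x380008001f000200000001000080000000000000000000000000000000) (nat_lit 0x0) (nat_lit 0xe000600074c0018000c00000000000000000000000000000000000) := T_31 (nat_lit 160) (nat_lit 143) (nat_lit 6) (nat_lit 7) (nat_lit 11) L81193 (by decide +kernel)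
theorem L81195 : W_31 (nat_lit 9) (nat_lit 0x180008001f000200000001000080000000000000000000000000000000) (nat_lit 0x0) (nat_lit 0x40002000e000600074c0018000c00000000000000000000000000000000000) := T_31 (nat_lit 229) (nat_lit 246) (nat_lit 7) (nat_lit 7) (nat_lit 10) L81194 (by decide +kernel)
theorem L81196 : W_31 (nat_lit 10) (nat_lit 0x100008001f000200000001000080000000000000000000000000000000) (nat_lit 0x0) (nat_lit 0x50002800e000600074c0018000c00000000000000000000000000000000000) := T_31 (nat_lit 227) (nat_lit 244) (nat_lit 5) (nat_lit 7) (nat_lit 10) L81195 (by decide +kernel)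
theorem L81197 : W_31 (nat_lit 11) (nat_lit 0x100008000f000200000001000080000000000000000000000000000000) (nat_lit 0x0) (nat_lit 0x50002800e00070007cc0018000c00000000000000000000000000000000000) := Q_31 (nat_lit 196) (C_31 L80803 (C_31 L80794 (C_31 L81196 (C_31 L80789 N_31)))) (by decide +kernel)
theorem L81198 : W_31 (nat_lit 12) (nat_lit 0x8000f000200000001000080000000000000000000000000000000) (nat_lit 0x0) (nat_lit 0xa00070003800e00070007cc0018000c00000000000000000000000000000000000) := Q_31 (nat_lit 228) (C_31 L80891 (C_31 L81187 (C_31 L81197 N_31))) (by decide +kernel)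
theorem L81199 : W_31 (nat_lit 2) (nat_lit 0x4a001f001200000001000080000000000000000000000000000000) (nat_lit 0x0) (nat_lit 0x800020002000000000000000000000000000000000000000000000) := D_31 (nat_lit 197) (nat_lit 181) (nat_lit 215) (nat_lit 2) (nat_lit 7) (nat_lit 11) (nat_lit 3) (nat_lit 7) (nat_lit 11) (by decide +kernel)
theorem L81200 : W_31 (nat_lit 3) (nat_lit 0xa001f001200000001000080000000000000000000000000000000) (nat_lit 0x0) (nat_lit 0xe00020002000000000000000000000000000000000000000000000) := T_31 (nat_lit 214) (nat_lit 213) (nat_lit 3) (nat_lit 6) (nat_lit 11) L81199 (by decide +kernel)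
theorem L81201 : W_31 (nat_lit 4) (nat_lit 0xa001f000200000001000080000000000000000000000000000000) (nat_lit 0x0) (nat_lit 0xe00020003800000000000000000000000000000000000000000000) := T_31 (nat_lit 180) (nat_lit 179) (nat_lit 2) (nat_lit 6) (nat_lit 11) L81200 (by decide +kernel)
theorem L81202 : W_31 (nat_lit 5) (nat_lit 0x8001f000200000001000080000000000000000000000000000000) (nat_lit 0x0) (nat_lit 0xe30020003800000000000000000000000000000000000000000000) := T_31 (nat_lit 209) (nat_lit 208) (nat_lit 1) (nat_lit 8) (nat_lit 11) L81201 (by decide +kernel)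
theorem L81203 : W_31 (nat_lit 2) (nat_lit 0x8001f000200000001400080000000000000000000000000000000) (nat_lit 0x0) (nat_lit 0x18000800000000000000000000000000000000000) := D_31 (nat_lit 160) (nat_lit 143) (nat_lit 159) (nat_lit 6) (nat_lit 7) (nat_lit 11) (nat_lit 4) (nat_lit 7) (nat_lit 12) (by decide +kernel)
theorem L81204 : W_31 (nat_lit 2) (nat_lit 0xa001f000200008001400080000000000000000000000000000000) (nat_lit 0x0) (nat_lit 0xc0004000000000000000000000000000000000000000) := D_31 (nat_lit 175) (nat_lit 174) (nat_lit 158) (nat_lit 0) (nat_lit 8) (nat_lit 11) (nat_lit 6) (nat_lit 5) (nat_lit 12) (by decide +kernel)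
theorem L81205 : W_31 (nat_lit 3) (nat_lit 0x8001f000200008001400080000000000000000000000000000000) (nat_lit 0x0) (nat_lit 0x300000000c0004000000000000000000000000000000000000000) := T_31 (nat_lit 209) (nat_lit 208) (nat_lit 1) (nat_lit 8) (nat_lit 11) L81204 (by decide +kernel)
theorem L81206 : W_31 (nat_lit 4) (nat_lit 0x8001f000200000001400080000000000000000000000000000000) (nat_lit 0x0) (nat_lit 0x300000000c001c000000000000000000000000000000000000000) := T_31 (nat_lit 159) (nat_lit 160) (nat_lit 4) (nat_lit 7) (nat_lit 12) L81205 (by decide +kernel)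
theorem L81207 : W_31 (nat_lit 2) (nat_lit 0x2a001f000200004001e00080000000000000000000000000000000) (nat_lit 0x0) (nat_lit 0xc0000000000020000000000000000000000000000000) := D_31 (nat_lit 175) (nat_lit 174) (nat_lit 125) (nat_lit 0) (nat_lit 8) (nat_lit 11) (nat_lit 6) (nat_lit 5) (nat_lit 11) (by decide +kernel)
theorem L81208 : W_31 (nat_lit 3) (nat_lit 0x2a001f000200000001e00080000000000000000000000000000000) (nat_lit 0x0) (nat_lit 0xc0006000000020000000000000000000000000000000) := T_31 (nat_lit 158) (nat_lit 157) (nat_lit 1) (nat_lit 8) (nat_lit 8) L81207 (by decide +kernel)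
theorem L81209 : W_31 (nat_lit 4) (nat_lit 0x2a001f000200000001c00080000000000000000000000000000000) (nat_lit 0x0) (nat_lit 0xc0006000200120000000000000000000000000000000) := T_31 (nat_lit 141) (nat_lit 128) (nat_lit 2) (nat_lit 5) (nat_lit 8) L81208 (by decide +kernel)
theorem L81210 : W_31 (nat_lit 5) (nat_lit 0x28001f000200000001c00080000000000000000000000000000000) (nat_lit 0x0) (nat_lit 0x300000000c0006000200120000000000000000000000000000000) := T_31 (nat_lit 209) (nat_lit 208) (nat_lit 1) (nat_lit 8) (nat_lit 11) L81209 (by decide +kernel)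
theorem L81211 : W_31 (nat_lit 6) (nat_lit 0x28001f000200000001400080000000000000000000000000000000) (nat_lit 0x0) (nat_lit 0x300000000c0016000a00120000000000000000000000000000000) := T_31 (nat_lit 143) (nat_lit 160) (nat_lit 6) (nat_lit 7) (nat_lit 11) L81210 (by decide +kernel)
theorem L81212 : W_31 (nat_lit 7) (nat_lit 0x8001f000200000001400080000000000000000000000000000000) (nat_lit 0x0) (nat_lit 0x6300000000c0016000a00120000000000000000000000000000000) := T_31 (nat_lit 213) (nat_lit 214) (nat_lit 3) (nat_lit 6) (nat_lit 11) L81211 (by decide +kernel)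
theorem L81213 : W_31 (nat_lit 2) (nat_lit 0x2a001f000280004001600080000000000000000000000000000000) (nat_lit 0x0) (nat_lit 0x2000100008000000000000000000000000000000) := D_31 (nat_lit 140) (nat_lit 123) (nat_lit 157) (nat_lit 4) (nat_lit 5) (nat_lit 11) (nat_lit 4) (nat_lit 5) (nat_lit 12) (by decide +kernel)
theorem L81214 : W_31 (nat_lit 3) (nat_lit 0x2a001f000280004001400080000000000000000000000000000000) (nat_lit 0x0) (nat_lit 0x2000300028000000000000000000000000000000) := T_31 (nat_lit 141) (nat_lit 125) (nat_lit 6) (nat_lit 5) (nat_lit 11) L81213 (by decide +kernel)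
theorem L81215 : W_31 (nat_lit 4) (nat_lit 0x2a001f000280000001400080000000000000000000000000000000) (nat_lit 0x0) (nat_lit 0xe000300028000000000000000000000000000000) := T_31 (nat_lit 158) (nat_lit 159) (nat_lit 6) (nat_lit 5) (nat_lit 12) L81214 (by decide +kernel)
theorem L81216 : W_31 (nat_lit 5) (nat_lit 0x28001f000280000001400080000000000000000000000000000000) (nat_lit 0x0) (nat_lit 0x3000000000000e000300028000000000000000000000000000000) := T_31 (nat_lit 209) (nat_lit 208) (nat_lit 1) (nat_lit 8) (nat_lit 11) L81215 (by decide +kernel)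
theorem L81217 : W_31 (nat_lit 6) (nat_lit 0x8001f000280000001400080000000000000000000000000000000) (nat_lit 0x0) (nat_lit 0x63000000000000e000300028000000000000000000000000000000) := T_31 (nat_lit 213) (nat_lit 214) (nat_lit 3) (nat_lit 6) (nat_lit 11) L81216 (by decide +kernel)
theorem L81218 : W_31 (nat_lit 7) (nat_lit 0x8001f000200000001400080000000000000000000000000000000) (nat_lit 0x0) (nat_lit 0x6300000000c000e000300028000000000000000000000000000000) := T_31 (nat_lit 175) (nat_lit 174) (nat_lit 0) (nat_lit 8) (nat_lit 11) L81217 (by decide +kernel)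
theorem L81219 : W_31 (nat_lit 8) (nat_lit 0x8001f000200000001000080000000000000000000000000000000) (nat_lit 0x0) (nat_lit 0x6300000000c001e000f00128000000000000000000000000000000) := Q_31 (nat_lit 142) (C_31 L81203 (C_31 L81206 (C_31 L81212 (C_31 L81218 N_31)))) (by decide +kernel)
theorem L81220 : W_31 (nat_lit 2) (nat_lit 0xa001f000280000001e00080000000000000000000000000000000) (nat_lit 0x0) (nat_lit 0x6000000020000000000000000000000000000000) := D_31 (nat_lit 158) (nat_lit 157) (nat_lit 125) (nat_lit 1) (nat_lit 8) (nat_lit 8) (nat_lit 6) (nat_lit 5) (nat_lit 11) (by decide +kernel)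
theorem L81221 : W_31 (nat_lit 3) (nat_lit 0xa001f000280000001c00080000000000000000000000000000000) (nat_lit 0x0) (nat_lit 0x6000200120000000000000000000000000000000) := T_31 (nat_lit 141) (nat_lit 128) (nat_lit 2) (nat_lit 5) (nat_lit 8) L81220 (by decide +kernel)
theorem L81222 : W_31 (nat_lit 4) (nat_lit 0xa001f000200000001c00080000000000000000000000000000000) (nat_lit 0x0) (nat_lit 0xc0006000200120000000000000000000000000000000) := T_31 (nat_lit 175) (nat_lit 174) (nat_lit 0) (nat_lit 8) (nat_lit 11) L81221 (by decide +kernel)
theorem L81223 : W_31 (nat_lit 5) (nat_lit 0xa001f000200000001400080000000000000000000000000000000) (nat_lit 0x0) (nat_lit 0xc0016000a00120000000000000000000000000000000) := T_31 (nat_lit 143) (nat_lit 160) (nat_lit 6) (nat_lit 7) (nat_lit 11) L81222 (by decide +kernel)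
theorem L81224 : W_31 (nat_lit 6) (nat_lit 0x8001f000200000001400080000000000000000000000000000000) (nat_lit 0x0) (nat_lit 0x300000000c0016000a00120000000000000000000000000000000) := T_31 (nat_lit 209) (nat_lit 208) (nat_lit 1) (nat_lit 8) (nat_lit 11) L81223 (by decide +kernel)
theorem L81225 : W_31 (nat_lit 2) (nat_lit 0xa001f000a80004001600080000000000000000000000000000000) (nat_lit 0x0) (nat_lit 0x2000100008000000000000000000000000000000) := D_31 (nat_lit 140) (nat_lit 123) (nat_lit 157) (nat_lit 4) (nat_lit 5) (nat_lit 11) (nat_lit 4) (nat_lit 5) (nat_lit 12) (by decide +kernel)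
theorem L81226 : W_31 (nat_lit 3) (nat_lit 0xa001f000a80004001400080000000000000000000000000000000) (nat_lit 0x0) (nat_lit 0x2000300028000000000000000000000000000000) := T_31 (nat_lit 141) (nat_lit 125) (nat_lit 6) (nat_lit 5) (nat_lit 11) L81225 (by decide +kernel)
theorem L81227 : W_31 (nat_lit 4) (nat_lit 0xa001f000a80000001400080000000000000000000000000000000) (nat_lit 0x0) (nat_lit 0xe000300028000000000000000000000000000000) := T_31 (nat_lit 158) (nat_lit 159) (nat_lit 6) (nat_lit 5) (nat_lit 12) L81226 (by decide +kernel)
theorem L81228 : W_31 (nat_lit 5) (nat_lit 0xa001f000280000001400080000000000000000000000000000000) (nat_lit 0x0) (nat_lit 0x180000e000300028000000000000000000000000000000) := T_31 (nat_lit 179) (nat_lit 180) (nat_lit 2) (nat_lit 6) (nat_lit 11) L81227 (by decide +kernel)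
theorem L81229 : W_31 (nat_lit 6) (nat_lit 0x8001f000280000001400080000000000000000000000000000000) (nat_lit 0x0) (nat_lit 0x3000000180000e000300028000000000000000000000000000000) := T_31 (nat_lit 209) (nat_lit 208) (nat_lit 1) (nat_lit 8) (nat_lit 11) L81228 (by decide +kernel)
theorem L81230 : W_31 (nat_lit 7) (nat_lit 0x8001f000200000001400080000000000000000000000000000000) (nat_lit 0x0) (nat_lit 0x300000018c000e000300028000000000000000000000000000000) := T_31 (nat_lit 175) (nat_lit 174) (nat_lit 0) (nat_lit 8) (nat_lit 11) L81229 (by decide +kernel)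
theorem L81231 : W_31 (nat_lit 8) (nat_lit 0x8001f000200000001000080000000000000000000000000000000) (nat_lit 0x0) (nat_lit 0x300000018c001e000f00128000000000000000000000000000000) := Q_31 (nat_lit 142) (C_31 L81206 (C_31 L81224 (C_31 L81203 (C_31 L81230 N_31)))) (by decide +kernel)
theorem L81232 : W_31 (nat_lit 9) (nat_lit 0x8000f000200000001000080000000000000000000000000000000) (nat_lit 0x0) (nat_lit 0xe300300038c001e000f00128000000000000000000000000000000) := Q_31 (nat_lit 196) (C_31 L80921 (C_31 L81202 (C_31 L81219 (C_31 L81231 N_31)))) (by decide +kernel)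
theorem L81233 : W_31 (nat_lit 2) (nat_lit 0x5000100008000f000200000001000080000000000000000000000000000000) (nat_lit 0x0) (nat_lit 0xa00020000000000000000000000000000000000000000000000000000000000000) := D_31 (nat_lit 245) (nat_lit 263) (nat_lit 261) (nat_lit 7) (nat_lit 7) (nat_lit 11) (nat_lit 5) (nat_lit 7) (nat_lit 11) (by decide +kernel)
theorem L81234 : W_31 (nat_lit 3) (nat_lit 0x4000100008000f000200000001000080000000000000000000000000000000) (nat_lit 0x0) (nat_lit 0xa00030000800000000000000000000000000000000000000000000000000000000) := T_31 (nat_lit 244) (nat_lit 227) (nat_lit 5) (nat_lit 7) (nat_lit 10) L81233 (by decide +kernel)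
theorem L81235 : W_31 (nat_lit 4) (nat_lit 0x100008000f000200000001000080000000000000000000000000000000) (nat_lit 0x0) (nat_lit 0xa00070002800000000000000000000000000000000000000000000000000000000) := T_31 (nat_lit 246) (nat_lit 229) (nat_lit 7) (nat_lit 7) (nat_lit 10) L81234 (by decide +kernel)
theorem L81236 : W_31 (nat_lit 8) (nat_lit 0x8000f000200000001000080000000000000000000000000000000) (nat_lit 0x0) (nat_lit 0xa00070003800e30070007cc0000000000000000000000000000000000000000000) := Q_31 (nat_lit 228) (C_31 L80891 (C_31 L81235 (C_31 L80804 N_31))) (by decide +kernel)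
theorem L81237 : W_31 (nat_lit 2) (nat_lit 0x200010000a000f000200000001000080000000000000000000000000000000) (nat_lit 0x0) (nat_lit 0x200010000800000000000000000000000000000000000000000000000000000000) := D_31 (nat_lit 244) (nat_lit 261) (nat_lit 227) (nat_lit 5) (nat_lit 7) (nat_lit 11) (nat_lit 5) (nat_lit 7) (nat_lit 10) (by decide +kernel)
theorem L81238 : W_31 (nat_lit 3) (nat_lit 0x10000a000f000200000001000080000000000000000000000000000000) (nat_lit 0x0) (nat_lit 0x200030000800000000000400000000000000000000000000000000000000000000) := T_31 (nat_lit 245) (nat_lit 178) (nat_lit 6) (nat_lit 7) (nat_lit 14) L81237 (by decide +kernel)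
theorem L81239 : W_31 (nat_lit 4) (nat_lit 0x100008000f000200000001000080000000000000000000000000000000) (nat_lit 0x0) (nat_lit 0x200030000800030000000400000000000000000000000000000000000000000000) := T_31 (nat_lit 209) (nat_lit 208) (nat_lit 1) (nat_lit 8) (nat_lit 11) L81238 (by decide +kernel)
theorem L81240 : W_31 (nat_lit 2) (nat_lit 0x4000100008000f000200000001000080000000000000000000000000000000) (nat_lit 0x0) (nat_lit 0x800020000000000000000400000000000000000000000000000000000000000000) := D_31 (nat_lit 245) (nat_lit 178) (nat_lit 263) (nat_lit 6) (nat_lit 7) (nat_lit 14) (nat_lit 7) (nat_lit 7) (nat_lit 11) (by decide +kernel)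
theorem L81241 : W_31 (nat_lit 3) (nat_lit 0x100008000f000200000001000080000000000000000000000000000000) (nat_lit 0x0) (nat_lit 0x800060002000000000000400000000000000000000000000000000000000000000) := T_31 (nat_lit 246) (nat_lit 229) (nat_lit 7) (nat_lit 7) (nat_lit 10) L81240 (by decide +kernel)
theorem L81242 : W_31 (nat_lit 2) (nat_lit 0x100008000f000280008001400080000000000000000000000000000000) (nat_lit 0x0) (nat_lit 0x30000000000004000000000000000000000000000000000000000) := D_31 (nat_lit 209) (nat_lit 208) (nat_lit 158) (nat_lit 1) (nat_lit 8) (nat_lit 11) (nat_lit 6) (nat_lit 5) (nat_lit 12) (by decide +kernel)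
theorem L81243 : W_31 (nat_lit 3) (nat_lit 0x100008000f000280000001400080000000000000000000000000000000) (nat_lit 0x0) (nat_lit 0x3000000000001c000000000000000000000000000000000000000) := T_31 (nat_lit 159) (nat_lit 160) (nat_lit 4) (nat_lit 7) (nat_lit 12) L81242 (by decide +kernel)
theorem L81244 : W_31 (nat_lit 4) (nat_lit 0x100008000f000200000001400080000000000000000000000000000000) (nat_lit 0x0) (nat_lit 0x300000000c001c000000000000000000000000000000000000000) := T_31 (nat_lit 175) (nat_lit 174) (nat_lit 0) (nat_lit 8) (nat_lit 11) L81243 (by decide +kernel)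
theorem L81245 : W_31 (nat_lit 2) (nat_lit 0x38000a000f000280004001600080000000000000000000000000000000) (nat_lit 0x0) (nat_lit 0x2000100008000000000000000000000000000000) := D_31 (nat_lit 140) (nat_lit 123) (nat_lit 157) (nat_lit 4) (nat_lit 5) (nat_lit 11) (nat_lit 4) (nat_lit 5) (nat_lit 12) (by decide +kernel)
theorem L81246 : W_31 (nat_lit 3) (nat_lit 0x38000a000f000280004001400080000000000000000000000000000000) (nat_lit 0x0) (nat_lit 0x2000300028000000000000000000000000000000) := T_31 (nat_lit 141) (nat_lit 125) (nat_lit 6) (nat_lit 5) (nat_lit 11) L81245 (by decide +kernel)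
theorem L81247 : W_31 (nat_lit 4) (nat_lit 0x38000a000f000280000001400080000000000000000000000000000000) (nat_lit 0x0) (nat_lit 0xe000300028000000000000000000000000000000) := T_31 (nat_lit 158) (nat_lit 159) (nat_lit 6) (nat_lit 5) (nat_lit 12) L81246 (by decide +kernel)
theorem L81248 : W_31 (nat_lit 5) (nat_lit 0x18000a000f000280000001400080000000000000000000000000000000) (nat_lit 0x0) (nat_lit 0x4000200000000000000000e000300028000000000000000000000000000000) := T_31 (nat_lit 229) (nat_lit 246) (nat_lit 7) (nat_lit 7) (nat_lit 10) L81247 (by decide +kernel)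
theorem L81249 : W_31 (nat_lit 6) (nat_lit 0x180008000f000280000001400080000000000000000000000000000000) (nat_lit 0x0) (nat_lit 0x4000200003000000000000e000300028000000000000000000000000000000) := T_31 (nat_lit 209) (nat_lit 208) (nat_lit 1) (nat_lit 8) (nat_lit 11) L81248 (by decide +kernel)
theorem L81250 : W_31 (nat_lit 7) (nat_lit 0x180008000f000200000001400080000000000000000000000000000000) (nat_lit 0x0) (nat_lit 0x400020000300000000c000e000300028000000000000000000000000000000) := T_31 (nat_lit 175) (nat_lit 174) (nat_lit 0) (nat_lit 8) (nat_lit 11) L81249 (by decide +kernel)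
theorem L81251 : W_31 (nat_lit 8) (nat_lit 0x100008000f000200000001400080000000000000000000000000000000) (nat_lit 0x0) (nat_lit 0x500028000300000000c000e000300028000000000000000000000000000000) := T_31 (nat_lit 227) (nat_lit 244) (nat_lit 5) (nat_lit 7) (nat_lit 10) L81250 (by decide +kernel)
theorem L81252 : W_31 (nat_lit 9) (nat_lit 0x100008000f000200000001000080000000000000000000000000000000) (nat_lit 0x0) (nat_lit 0x500028000300000000c001e000f00128000000000000000000000000000000) := Q_31 (nat_lit 142) (C_31 L80907 (C_31 L80898 (C_31 L81244 (C_31 L81251 N_31)))) (by decide +kernel)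
theorem L81253 : W_31 (nat_lit 10) (nat_lit 0x8000f000200000001000080000000000000000000000000000000) (nat_lit 0x0) (nat_lit 0xa000700038000300000004c001e000f00128000000000000000000000000000000) := Q_31 (nat_lit 228) (C_31 L81239 (C_31 L81235 (C_31 L81241 (C_31 L81252 N_31)))) (by decide +kernel)
theorem L81254 : W_31 (nat_lit 2) (nat_lit 0x380008003f001200000001000080000000000000000000000000000000) (nat_lit 0x0) (nat_lit 0xe00000000000000000000000000000000000000000000000000000) := D_31 (nat_lit 214) (nat_lit 213) (nat_lit 215) (nat_lit 3) (nat_lit 6) (nat_lit 11) (nat_lit 3) (nat_lit 7) (nat_lit 11) (by decide +kernel)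
theorem L81255 : W_31 (nat_lit 3) (nat_lit 0x380008001f001200000001000080000000000000000000000000000000) (nat_lit 0x0) (nat_lit 0xe00020002000000000000000000000000000000000000000000000) := T_31 (nat_lit 197) (nat_lit 181) (nat_lit 2) (nat_lit 7) (nat_lit 11) L81254 (by decide +kernel)
theorem L81256 : W_31 (nat_lit 4) (nat_lit 0x180008001f001200000001000080000000000000000000000000000000) (nat_lit 0x0) (nat_lit 0x40002000e00020002000000000000000000000000000000000000000000000) := T_31 (nat_lit 229) (nat_lit 246) (nat_lit 7) (nat_lit 7) (nat_lit 10) L81255 (by decide +kernel)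
theorem L81257 : W_31 (nat_lit 5) (nat_lit 0x180008001f000200000001000080000000000000000000000000000000) (nat_lit 0x0) (nat_lit 0x40002000e00020003800000000000000000000000000000000000000000000) := T_31 (nat_lit 180) (nat_lit 179) (nat_lit 2) (nat_lit 6) (nat_lit 11) L81256 (by decide +kernel)
theorem L81258 : W_31 (nat_lit 6) (nat_lit 0x100008001f000200000001000080000000000000000000000000000000) (nat_lit 0x0) (nat_lit 0x50002800e00020003800000000000000000000000000000000000000000000) := T_31 (nat_lit 227) (nat_lit 244) (nat_lit 5) (nat_lit 7) (nat_lit 10) L81257 (by decide +kernel)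
theorem L81259 : W_31 (nat_lit 7) (nat_lit 0x100008000f000200000001000080000000000000000000000000000000) (nat_lit 0x0) (nat_lit 0x50002800e30070007c00000000000000000000000000000000000000000000) := Q_31 (nat_lit 196) (C_31 L80803 (C_31 L81258 (C_31 L80799 (C_31 L80789 N_31)))) (by decide +kernel)
theorem L81260 : W_31 (nat_lit 8) (nat_lit 0x8000f000200000001000080000000000000000000000000000000) (nat_lit 0x0) (nat_lit 0xa00070003800e30070007c00000000000000000000000000000000000000000000) := Q_31 (nat_lit 228) (C_31 L81239 (C_31 L81241 (C_31 L81235 (C_31 L81259 N_31)))) (by decide +kernel)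
theorem L81261 : W_31 (nat_lit 13) (nat_lit 0x80007000200000001000080000000000000000000000000000000) (nat_lit 0x0) (nat_lit 0xa00070003800e30078007cc001e000f00128000000000000000000000000000000) := Q_31 (nat_lit 195) (C_31 L81198 (C_31 L80933 (C_31 L81232 (C_31 L81236 (C_31 L81253 (C_31 L81260 N_31)))))) (by decide +kernel)
theorem L81262 : W_31 (nat_lit 14) (nat_lit 0x80006000200000001000080000000000000000000000000000000) (nat_lit 0x0) (nat_lit 0xbc007e003f00e3c079c07cf001f000f8013c000800000000000000000000000000) := Q_31 (nat_lit 192) (C_31 L81061 (C_31 L81177 (C_31 L81181 (C_31 L81182 (C_31 L81261 N_31))))) (by decide +kernel)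
theorem L81263 : W_31 (nat_lit 12) (nat_lit 0x80006000200010001000080000000000000000000000000000000) (nat_lit 0x0) (nat_lit 0xe000fa00658039c01cf000e000780008000000000000000000000000000000) := T_31 (nat_lit 210) (nat_lit 227) (nat_lit 5) (nat_lit 7) (nat_lit 9) L80710 (by decide +kernel)
theorem L81264 : W_31 (nat_lit 13) (nat_lit 0x80006000200000001000080000000000000000000000000000000) (nat_lit 0x0) (nat_lit 0xe000fa00658039c01cf001e000f80008000000000000000000000000000000) := T_31 (nat_lit 160) (nat_lit 143) (nat_lit 6) (nat_lit 7) (nat_lit 11) L81263 (by decide +kernel)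
theorem L81265 : W_31 (nat_lit 16) (nat_lit 0x80004000200000001000080000000000000000000000000000000) (nat_lit 0x0) (nat_lit 0x4000fc00fe00ff00e7c07bf07cf001f000f8013c000800000000000000000000000000) := Q_31 (nat_lit 193) (C_31 L80835 (C_31 L80950 (C_31 L81029 (C_31 L81042 (C_31 L81055 (C_31 L81262 (C_31 L81264 N_31))))))) (by decide +kernel)
theorem L81266 : W_31 (nat_lit 2) (nat_lit 0x2000180004000200000001000080000000000000000000000000000000) (nat_lit 0x0) (nat_lit 0x800040001000000000000000000000000000000000000000000000000000000000) := D_31 (nat_lit 246) (nat_lit 228) (nat_lit 263) (nat_lit 7) (nat_lit 7) (nat_lit 10) (nat_lit 4) (nat_lit 8) (nat_lit 15) (by decide +kernel)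
theorem L81267 : W_31 (nat_lit 2) (nat_lit 0x2000780004000200000001000080000000000000000000000000000000) (nat_lit 0x0) (nat_lit 0x1000800008000000000000000000000000000000000000000000000000) := D_31 (nat_lit 215) (nat_lit 195) (nat_lit 228) (nat_lit 0) (nat_lit 11) (nat_lit 12) (nat_lit 1) (nat_lit 11) (nat_lit 12) (by decide +kernel)
theorem L81268 : W_31 (nat_lit 3) (nat_lit 0x2000380004000200000001000080000000000000000000000000000000) (nat_lit 0x0) (nat_lit 0x1000c0000a000000000000000000000000000000000000000000000000) := T_31 (nat_lit 214) (nat_lit 193) (nat_lit 0) (nat_lit 10) (nat_lit 12) L81267 (by decide +kernel)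
theorem L81269 : W_31 (nat_lit 2) (nat_lit 0x2000f80004000200000001000080000000000000000000000000000000) (nat_lit 0x0) (nat_lit 0x38000000000000000000000000000000000000000000000000000000000) := D_31 (nat_lit 232) (nat_lit 231) (nat_lit 233) (nat_lit 3) (nat_lit 7) (nat_lit 12) (nat_lit 3) (nat_lit 8) (nat_lit 12) (by decide +kernel)
theorem L81270 : W_31 (nat_lit 3) (nat_lit 0x2000780004000200000001000080000000000000000000000000000000) (nat_lit 0x0) (nat_lit 0x39000800000000000000000000000000000000000000000000000000000) := T_31 (nat_lit 215) (nat_lit 228) (nat_lit 1) (nat_lit 11) (nat_lit 12) L81269 (by decide +kernel)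
theorem L81271 : W_31 (nat_lit 4) (nat_lit 0x2000380004000200000001000080000000000000000000000000000000) (nat_lit 0x0) (nat_lit 0x39000c00002000000000000000000000000000000000000000000000000) := T_31 (nat_lit 214) (nat_lit 193) (nat_lit 0) (nat_lit 10) (nat_lit 12) L81270 (by decide +kernel)
theorem L81272 : W_31 (nat_lit 2) (nat_lit 0xa0007c0004000200000001000080000000000000000000000000000000) (nat_lit 0x0) (nat_lit 0x70000000000000000000000000000000000000000000000000) := D_31 (nat_lit 197) (nat_lit 196) (nat_lit 198) (nat_lit 2) (nat_lit 6) (nat_lit 12) (nat_lit 2) (nat_lit 7) (nat_lit 12) (by decide +kernel)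
theorem L81273 : W_31 (nat_lit 3) (nat_lit 0xa000780004000200000001000080000000000000000000000000000000) (nat_lit 0x0) (nat_lit 0x4000040070000000000000000000000000000000000000000000000000) := T_31 (nat_lit 210) (nat_lit 230) (nat_lit 3) (nat_lit 6) (nat_lit 12) L81272 (by decide +kernel)
theorem L81274 : W_31 (nat_lit 4) (nat_lit 0x2000780004000200000001000080000000000000000000000000000000) (nat_lit 0x0) (nat_lit 0x1c000040070000000000000000000000000000000000000000000000000) := T_31 (nat_lit 231) (nat_lit 232) (nat_lit 3) (nat_lit 7) (nat_lit 12) L81273 (by decide +kernel)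
theorem L81275 : W_31 (nat_lit 5) (nat_lit 0x2000380004000200000001000080000000000000000000000000000000) (nat_lit 0x0) (nat_lit 0x3d000c40078000000000000000000000000000000000000000000000000) := Q_31 (nat_lit 214) (C_31 L81270 (C_31 L81274 (C_31 L81267 N_31))) (by decide +kernel)
theorem L81276 : W_31 (nat_lit 5) (nat_lit 0x2000380004000200000001000080000000000000000000000000000000) (nat_lit 0x0) (nat_lit 0x1c000440072000000000000000000000000000000000000000000000000) := T_31 (nat_lit 214) (nat_lit 193) (nat_lit 0) (nat_lit 10) (nat_lit 12) L81274 (by decide +kernel)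
theorem L81277 : W_31 (nat_lit 2) (nat_lit 0x20003c0004000200000001000080000000000000000000000000000000) (nat_lit 0x0) (nat_lit 0xc000020000000000000000000000000000000000000000000000000000) := D_31 (nat_lit 230) (nat_lit 209) (nat_lit 231) (nat_lit 3) (nat_lit 5) (nat_lit 12) (nat_lit 3) (nat_lit 6) (nat_lit 12) (by decide +kernel)
theorem L81278 : W_31 (nat_lit 2) (nat_lit 0x60003c0016000a00000001000080000000000000000000000000000000) (nat_lit 0x0) (nat_lit 0x8001400000000000000000000000000000000000000000000) := D_31 (nat_lit 180) (nat_lit 195) (nat_lit 178) (nat_lit 2) (nat_lit 6) (nat_lit 11) (nat_lit 1) (nat_lit 10) (nat_lit 10) (by decide +kernel)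
theorem L81279 : W_31 (nat_lit 3) (nat_lit 0x60003c0016000200000001000080000000000000000000000000000000) (nat_lit 0x0) (nat_lit 0x8001c00040000000000000000000000000000000000000000) := T_31 (nat_lit 179) (nat_lit 162) (nat_lit 5) (nat_lit 9) (nat_lit 9) L81278 (by decide +kernel)
theorem L81280 : W_31 (nat_lit 4) (nat_lit 0x60003c0006000200000001000080000000000000000000000000000000) (nat_lit 0x0) (nat_lit 0x38001c00040000000000000000000000000000000000000000) := T_31 (nat_lit 196) (nat_lit 197) (nat_lit 2) (nat_lit 6) (nat_lit 12) L81279 (by decide +kernel)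
theorem L81281 : W_31 (nat_lit 5) (nat_lit 0x20003c0006000200000001000080000000000000000000000000000000) (nat_lit 0x0) (nat_lit 0xc000000038001c00040000000000000000000000000000000000000000) := T_31 (nat_lit 230) (nat_lit 231) (nat_lit 3) (nat_lit 6) (nat_lit 12) L81280 (by decide +kernel)
theorem L81282 : W_31 (nat_lit 6) (nat_lit 0x20003c0004000200000001000080000000000000000000000000000000) (nat_lit 0x0) (nat_lit 0xc00000003b001c00040000000000000000000000000000000000000000) := T_31 (nat_lit 193) (nat_lit 192) (nat_lit 0) (nat_lit 9) (nat_lit 12) L81281 (by decide +kernel)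
theorem L81286 : W_31 (nat_lit 7) (nat_lit 0x2000380004000200000001000080000000000000000000000000000000) (nat_lit 0x0) (nat_lit 0xc70007003bc01c00040000000000000000000000000000000000000000) := Q_31 (nat_lit 210) (C_31 L81277 (C_31 L81282 (C_31 L81283 (C_31 L81285 N_31)))) (by decide +kernel)
theorem L81287 : W_31 (nat_lit 8) (nat_lit 0x2000180004000200000001000080000000000000000000000000000000) (nat_lit 0x0) (nat_lit 0x3d700e7007bc01c00040000000000000000000000000000000000000000) := Q_31 (nat_lit 213) (C_31 L81268 (C_31 L81271 (C_31 L81275 (C_31 L81276 (C_31 L81286 N_31))))) (by decide +kernel)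
theorem L81288 : W_31 (nat_lit 9) (nat_lit 0x180004000200000001000080000000000000000000000000000000) (nat_lit 0x0) (nat_lit 0x80004003f700e7007bc01c00040000000000000000000000000000000000000000) := Q_31 (nat_lit 229) (C_31 L81266 (C_31 L80585 (C_31 L81287 N_31))) (by decide +kernel)
theorem L81289 : W_31 (nat_lit 2) (nat_lit 0x180007000200018001000080000000000000000000000000000000) (nat_lit 0x0) (nat_lit 0x640000000000000000000000000000000000000000000000000000) := D_31 (nat_lit 213) (nat_lit 214) (nat_lit 210) (nat_lit 0) (nat_lit 10) (nat_lit 12) (nat_lit 0) (nat_lit 9) (nat_lit 12) (by decide +kernel)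
theorem L81290 : W_31 (nat_lit 3) (nat_lit 0x180005000200018001000080000000000000000000000000000000) (nat_lit 0x0) (nat_lit 0x640002800000000000000000000000000000000000000000000000) := T_31 (nat_lit 193) (nat_lit 191) (nat_lit 3) (nat_lit 4) (nat_lit 11) L81289 (by decide +kernel)
theorem L81291 : W_31 (nat_lit 4) (nat_lit 0x180005000200010001000080000000000000000000000000000000) (nat_lit 0x0) (nat_lit 0x640002800000008000400000000000000000000000000000000000) := T_31 (nat_lit 159) (nat_lit 142) (nat_lit 4) (nat_lit 7) (nat_lit 12) L81290 (by decide +kernel)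
theorem L81292 : W_31 (nat_lit 5) (nat_lit 0x180005000200000001000080000000000000000000000000000000) (nat_lit 0x0) (nat_lit 0x640002800000018000c00000000000000000000000000000000000) := T_31 (nat_lit 160) (nat_lit 143) (nat_lit 6) (nat_lit 7) (nat_lit 11) L81291 (by decide +kernel)
theorem L81293 : W_31 (nat_lit 3) (nat_lit 0x180005000200000001000080000000000000000000000000000000) (nat_lit 0x0) (nat_lit 0x60000a800000000000000000000000000000000000000000000000) := T_31 (nat_lit 193) (nat_lit 191) (nat_lit 3) (nat_lit 4) (nat_lit 11) L80589 (by decide +kernel)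
theorem L81294 : W_31 (nat_lit 4) (nat_lit 0x1a0005000200010001000080000000000000000000000000000000) (nat_lit 0x0) (nat_lit 0x50018800000008000400000000000000000000000000000000000) := T_31 (nat_lit 159) (nat_lit 142) (nat_lit 4) (nat_lit 7) (nat_lit 12) L24807 (by decide +kernel)
theorem L81295 : W_31 (nat_lit 5) (nat_lit 0x1a0005000200000001000080000000000000000000000000000000) (nat_lit 0x0) (nat_lit 0x50018800000018000c00000000000000000000000000000000000) := T_31 (nat_lit 160) (nat_lit 143) (nat_lit 6) (nat_lit 7) (nat_lit 11) L81294 (by decide +kernel)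
theorem L81296 : W_31 (nat_lit 3) (nat_lit 0x1a0005000200000001000080000000000000000000000000000000) (nat_lit 0x0) (nat_lit 0x50018800000000000000000000000000000000000000000000000) := T_31 (nat_lit 210) (nat_lit 191) (nat_lit 0) (nat_lit 8) (nat_lit 12) L24165 (by decide +kernel)
theorem L81297 : W_31 (nat_lit 9) (nat_lit 0x1e0005000200010001000080000000000000000000000000000000) (nat_lit 0x0) (nat_lit 0x7000100000004f000f0005c0000000000000000000000000000000000) := T_31 (nat_lit 159) (nat_lit 142) (nat_lit 4) (nat_lit 7) (nat_lit 12) L24607 (by decide +kernel)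
theorem L81298 : W_31 (nat_lit 10) (nat_lit 0x1e0005000200000001000080000000000000000000000000000000) (nat_lit 0x0) (nat_lit 0x7000100000004f001f000dc0000000000000000000000000000000000) := T_31 (nat_lit 160) (nat_lit 143) (nat_lit 6) (nat_lit 7) (nat_lit 11) L81297 (by decide +kernel)
theorem L81299 : W_31 (nat_lit 11) (nat_lit 0x1a0005000200000001000080000000000000000000000000000000) (nat_lit 0x0) (nat_lit 0x7000500008004f001f000dc0000000000000000000000000000000000) := T_31 (nat_lit 210) (nat_lit 191) (nat_lit 0) (nat_lit 8) (nat_lit 12) L81298 (by decide +kernel)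
theorem L81300 : W_31 (nat_lit 3) (nat_lit 0x1a000500020001c001000080000000000000000000000000000000) (nat_lit 0x0) (nat_lit 0x480002000180000000000000000000000000000000000) := T_31 (nat_lit 157) (nat_lit 178) (nat_lit 3) (nat_lit 4) (nat_lit 9) L24822 (by decide +kernel)
theorem L81301 : W_31 (nat_lit 4) (nat_lit 0x1a0005000200014001000080000000000000000000000000000000) (nat_lit 0x0) (nat_lit 0x48000a000580000000000000000000000000000000000) := T_31 (nat_lit 159) (nat_lit 142) (nat_lit 4) (nat_lit 7) (nat_lit 12) L81300 (by decide +kernel)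
theorem L81302 : W_31 (nat_lit 5) (nat_lit 0x1a0005000200004001000080000000000000000000000000000000) (nat_lit 0x0) (nat_lit 0x48001a000d80000000000000000000000000000000000) := T_31 (nat_lit 160) (nat_lit 143) (nat_lit 6) (nat_lit 7) (nat_lit 11) L81301 (by decide +kernel)
theorem L81303 : W_31 (nat_lit 2) (nat_lit 0x1a0005000200004001400080000000000000000000000000000000) (nat_lit 0x0) (nat_lit 0x18000800000000000000000000000000000000000) := D_31 (nat_lit 160) (nat_lit 143) (nat_lit 159) (nat_lit 6) (nat_lit 7) (nat_lit 11) (nat_lit 4) (nat_lit 7) (nat_lit 12) (by decide +kernel)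
theorem L81304 : W_31 (nat_lit 2) (nat_lit 0x1a0005000200004001400080000000000000000000000000000000) (nat_lit 0x0) (nat_lit 0x80018000000000000000000000000000000000000000) := D_31 (nat_lit 159) (nat_lit 175) (nat_lit 160) (nat_lit 6) (nat_lit 5) (nat_lit 12) (nat_lit 4) (nat_lit 7) (nat_lit 12) (by decide +kernel)
theorem L81305 : W_31 (nat_lit 2) (nat_lit 0x1a0005000200004001c00080000000000000000000000000000000) (nat_lit 0x0) (nat_lit 0x2000200100000000000000000000000000000000) := D_31 (nat_lit 141) (nat_lit 128) (nat_lit 157) (nat_lit 2) (nat_lit 5) (nat_lit 8) (nat_lit 1) (nat_lit 8) (nat_lit 8) (by decide +kernel)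
theorem L81306 : W_31 (nat_lit 3) (nat_lit 0x1a0005000200004001400080000000000000000000000000000000) (nat_lit 0x0) (nat_lit 0x12000a00100000000000000000000000000000000) := T_31 (nat_lit 143) (nat_lit 160) (nat_lit 6) (nat_lit 7) (nat_lit 11) L81305 (by decide +kernel)
theorem L81307 : W_31 (nat_lit 2) (nat_lit 0x1a0005000280004001600080000000000000000000000000000000) (nat_lit 0x0) (nat_lit 0x200010000800000000000000000000000000000000000000000000000) := D_31 (nat_lit 208) (nat_lit 191) (nat_lit 225) (nat_lit 5) (nat_lit 5) (nat_lit 8) (nat_lit 5) (nat_lit 5) (nat_lit 9) (by decide +kernel)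
theorem L81308 : W_31 (nat_lit 3) (nat_lit 0x1a0005000280004001400080000000000000000000000000000000) (nat_lit 0x0) (nat_lit 0x200010000800000000000200020000000000000000000000000000000) := T_31 (nat_lit 141) (nat_lit 125) (nat_lit 6) (nat_lit 5) (nat_lit 11) L81307 (by decide +kernel)
theorem L81309 : W_31 (nat_lit 4) (nat_lit 0x1a0005000200004001400080000000000000000000000000000000) (nat_lit 0x0) (nat_lit 0x200010000800080008000200020000000000000000000000000000000) := T_31 (nat_lit 175) (nat_lit 159) (nat_lit 6) (nat_lit 5) (nat_lit 12) L81308 (by decide +kernel)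
theorem L81310 : W_31 (nat_lit 5) (nat_lit 0x1a0005000200004001000080000000000000000000000000000000) (nat_lit 0x0) (nat_lit 0x20001000080008001a000e00120000000000000000000000000000000) := Q_31 (nat_lit 142) (C_31 L81303 (C_31 L81304 (C_31 L81306 (C_31 L81309 N_31)))) (by decide +kernel)
theorem L81311 : W_31 (nat_lit 2) (nat_lit 0x1a000500028001e001000080000000000000000000000000000000) (nat_lit 0x0) (nat_lit 0x400000000000060000000000000000000000000000000000000000000) := D_31 (nat_lit 174) (nat_lit 173) (nat_lit 226) (nat_lit 1) (nat_lit 7) (nat_lit 9) (nat_lit 4) (nat_lit 5) (nat_lit 13) (by decide +kernel)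
theorem L81312 : W_31 (nat_lit 3) (nat_lit 0x1a000500028000e001000080000000000000000000000000000000) (nat_lit 0x0) (nat_lit 0x400000000000460010000000000000000000000000000000000000000) := T_31 (nat_lit 160) (nat_lit 178) (nat_lit 3) (nat_lit 4) (nat_lit 9) L81311 (by decide +kernel)
theorem L81313 : W_31 (nat_lit 4) (nat_lit 0x1a0005000280006001000080000000000000000000000000000000) (nat_lit 0x0) (nat_lit 0x400000000000460018000400000000000000000000000000000000000) := T_31 (nat_lit 159) (nat_lit 142) (nat_lit 6) (nat_lit 5) (nat_lit 12) L81312 (by decide +kernel)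
theorem L81314 : W_31 (nat_lit 5) (nat_lit 0x1a0005000280004001000080000000000000000000000000000000) (nat_lit 0x0) (nat_lit 0x40000000000046001a000500000000000000000000000000000000000) := T_31 (nat_lit 157) (nat_lit 140) (nat_lit 4) (nat_lit 5) (nat_lit 12) L81313 (by decide +kernel)
theorem L81315 : W_31 (nat_lit 2) (nat_lit 0x4001a000500028000e001000080000000000000000000000000000000) (nat_lit 0x0) (nat_lit 0x4000200010000000000000000000000000000000000000000000000000000) := D_31 (nat_lit 225) (nat_lit 208) (nat_lit 242) (nat_lit 5) (nat_lit 5) (nat_lit 9) (nat_lit 5) (nat_lit 5) (nat_lit 10) (by decide +kernel)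
theorem L81316 : W_31 (nat_lit 3) (nat_lit 0x1a000500028000e001000080000000000000000000000000000000) (nat_lit 0x0) (nat_lit 0x4000600010000000040000000000000000000000000000000000000000000) := T_31 (nat_lit 226) (nat_lit 174) (nat_lit 4) (nat_lit 5) (nat_lit 13) L81315 (by decide +kernel)
theorem L81317 : W_31 (nat_lit 4) (nat_lit 0x1a0005000280006001000080000000000000000000000000000000) (nat_lit 0x0) (nat_lit 0x4000600010000000040008000400000000000000000000000000000000000) := T_31 (nat_lit 159) (nat_lit 142) (nat_lit 6) (nat_lit 5) (nat_lit 12) L81316 (by decide +kernel)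
theorem L81318 : W_31 (nat_lit 5) (nat_lit 0x1a0005000280004001000080000000000000000000000000000000) (nat_lit 0x0) (nat_lit 0x400060001000000004000a000500000000000000000000000000000000000) := T_31 (nat_lit 157) (nat_lit 140) (nat_lit 4) (nat_lit 5) (nat_lit 12) L81317 (by decide +kernel)
theorem L81319 : W_31 (nat_lit 2) (nat_lit 0x1b0005000280004001200080000000000000000000000000000000) (nat_lit 0x0) (nat_lit 0x2000100008000000000000000000000000000000) := D_31 (nat_lit 140) (nat_lit 123) (nat_lit 157) (nat_lit 4) (nat_lit 5) (nat_lit 11) (nat_lit 4) (nat_lit 5) (nat_lit 12) (by decide +kernel)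
theorem L81320 : W_31 (nat_lit 3) (nat_lit 0x1b0005000280004001000080000000000000000000000000000000) (nat_lit 0x0) (nat_lit 0x800000002000300008000000000000000000000000000000) := T_31 (nat_lit 141) (nat_lit 191) (nat_lit 5) (nat_lit 5) (nat_lit 8) L81319 (by decide +kernel)
theorem L81321 : W_31 (nat_lit 4) (nat_lit 0x1a0005000280004001000080000000000000000000000000000000) (nat_lit 0x0) (nat_lit 0x200010000800000002000300008000000000000000000000000000000) := T_31 (nat_lit 208) (nat_lit 225) (nat_lit 5) (nat_lit 5) (nat_lit 9) L81320 (by decide +kernel)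
theorem L81322 : W_31 (nat_lit 4) (nat_lit 0x1a0005000280004001000080000000000000000000000000000000) (nat_lit 0x0) (nat_lit 0x200010000800000008000600020000000000000000000000000000000) := T_31 (nat_lit 142) (nat_lit 159) (nat_lit 6) (nat_lit 5) (nat_lit 12) L81308 (by decide +kernel)
theorem L81323 : W_31 (nat_lit 6) (nat_lit 0x1a0005000200004001000080000000000000000000000000000000) (nat_lit 0x0) (nat_lit 0x40006000100008004e001a000700028000000000000000000000000000000) := Q_31 (nat_lit 175) (C_31 L81314 (C_31 L81318 (C_31 L81321 (C_31 L81322 N_31)))) (by decide +kernel)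
theorem L81324 : W_31 (nat_lit 2) (nat_lit 0x2001a0005000280016001000080000000000000000000000000000000) (nat_lit 0x0) (nat_lit 0x4000400000000000040000000000000000000000000000000000000000000) := D_31 (nat_lit 226) (nat_lit 242) (nat_lit 174) (nat_lit 5) (nat_lit 5) (nat_lit 10) (nat_lit 4) (nat_lit 5) (nat_lit 13) (by decide +kernel)
theorem L81325 : W_31 (nat_lit 3) (nat_lit 0x2001a0005000280014001000080000000000000000000000000000000) (nat_lit 0x0) (nat_lit 0x4000400000000000040002000100000000000000000000000000000000000) := T_31 (nat_lit 157) (nat_lit 140) (nat_lit 4) (nat_lit 5) (nat_lit 12) L81324 (by decide +kernel)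
theorem L81326 : W_31 (nat_lit 4) (nat_lit 0x1a0005000280014001000080000000000000000000000000000000) (nat_lit 0x0) (nat_lit 0x4000600010000000040002000100000000000000000000000000000000000) := T_31 (nat_lit 225) (nat_lit 208) (nat_lit 5) (nat_lit 5) (nat_lit 9) L81325 (by decide +kernel)
theorem L81327 : W_31 (nat_lit 5) (nat_lit 0x1a0005000280004001000080000000000000000000000000000000) (nat_lit 0x0) (nat_lit 0x4000600010000000040012000900000000000000000000000000000000000) := T_31 (nat_lit 160) (nat_lit 143) (nat_lit 6) (nat_lit 7) (nat_lit 11) L81326 (by decide +kernel)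
theorem L81328 : W_31 (nat_lit 2) (nat_lit 0x1b0005000280004001700080000000000000000000000000000000) (nat_lit 0x0) (nat_lit 0x10000800100000000000000000000000000000000) := D_31 (nat_lit 143) (nat_lit 128) (nat_lit 160) (nat_lit 2) (nat_lit 5) (nat_lit 8) (nat_lit 6) (nat_lit 7) (nat_lit 11) (by decide +kernel)
theorem L81329 : W_31 (nat_lit 3) (nat_lit 0x1b0005000280004001300080000000000000000000000000000000) (nat_lit 0x0) (nat_lit 0x10000c00120000000000000000000000000000000) := T_31 (nat_lit 142) (nat_lit 125) (nat_lit 6) (nat_lit 5) (nat_lit 11) L81328 (by decide +kernel)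
theorem L81330 : W_31 (nat_lit 4) (nat_lit 0x1b0005000280004001200080000000000000000000000000000000) (nat_lit 0x0) (nat_lit 0x10000d00128000000000000000000000000000000) := T_31 (nat_lit 140) (nat_lit 123) (nat_lit 4) (nat_lit 5) (nat_lit 11) L81329 (by decide +kernel)
theorem L81331 : W_31 (nat_lit 5) (nat_lit 0x1b0005000280004001000080000000000000000000000000000000) (nat_lit 0x0) (nat_lit 0x800000010000f00128000000000000000000000000000000) := T_31 (nat_lit 141) (nat_lit 191) (nat_lit 5) (nat_lit 5) (nat_lit 8) L81330 (by decide +kernel)
theorem L81332 : W_31 (nat_lit 6) (nat_lit 0x1a0005000280004001000080000000000000000000000000000000) (nat_lit 0x0) (nat_lit 0x200010000800000010000f00128000000000000000000000000000000) := T_31 (nat_lit 208) (nat_lit 225) (nat_lit 5) (nat_lit 5) (nat_lit 9) L81331 (by decide +kernel)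
theorem L81333 : W_31 (nat_lit 2) (nat_lit 0x1a00050002c0006001a00080000000000000000000000000000000) (nat_lit 0x0) (nat_lit 0x800000000000000010000800000000000000000000000000) := D_31 (nat_lit 124) (nat_lit 107) (nat_lit 191) (nat_lit 5) (nat_lit 5) (nat_lit 6) (nat_lit 5) (nat_lit 5) (nat_lit 7) (by decide +kernel)
theorem L81334 : W_31 (nat_lit 3) (nat_lit 0x1a0005000280006001a00080000000000000000000000000000000) (nat_lit 0x0) (nat_lit 0x400000000800040000000000010000800000000000000000000000000) := T_31 (nat_lit 174) (nat_lit 226) (nat_lit 4) (nat_lit 5) (nat_lit 13) L81333 (by decide +kernel)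
theorem L81335 : W_31 (nat_lit 4) (nat_lit 0x1a0005000280006001800080000000000000000000000000000000) (nat_lit 0x0) (nat_lit 0x400000000800040000000600010000800000000000000000000000000) := T_31 (nat_lit 141) (nat_lit 142) (nat_lit 1) (nat_lit 8) (nat_lit 8) L81334 (by decide +kernel)
theorem L81336 : W_31 (nat_lit 5) (nat_lit 0x1a0005000280004001800080000000000000000000000000000000) (nat_lit 0x0) (nat_lit 0x400000000800040002000700010000800000000000000000000000000) := T_31 (nat_lit 157) (nat_lit 140) (nat_lit 4) (nat_lit 5) (nat_lit 12) L81335 (by decide +kernel)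
theorem L81337 : W_31 (nat_lit 6) (nat_lit 0x1a0005000280004001000080000000000000000000000000000000) (nat_lit 0x0) (nat_lit 0x400000000800040012000f00010000800000000000000000000000000) := T_31 (nat_lit 143) (nat_lit 160) (nat_lit 6) (nat_lit 7) (nat_lit 11) L81336 (by decide +kernel)
theorem L81338 : W_31 (nat_lit 2) (nat_lit 0x1b0005000280004001a00080000000000000000000000000000000) (nat_lit 0x0) (nat_lit 0x400120000000000000000000000000000000) := D_31 (nat_lit 142) (nat_lit 125) (nat_lit 128) (nat_lit 6) (nat_lit 5) (nat_lit 11) (nat_lit 2) (nat_lit 5) (nat_lit 8) (by decide +kernel)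
theorem L81339 : W_31 (nat_lit 3) (nat_lit 0x1b0005000280004001200080000000000000000000000000000000) (nat_lit 0x0) (nat_lit 0x10000c00120000000000000000000000000000000) := T_31 (nat_lit 143) (nat_lit 160) (nat_lit 6) (nat_lit 7) (nat_lit 11) L81338 (by decide +kernel)
theorem L81340 : W_31 (nat_lit 4) (nat_lit 0x1b0005000280004001000080000000000000000000000000000000) (nat_lit 0x0) (nat_lit 0x800000010000e00120000000000000000000000000000000) := T_31 (nat_lit 141) (nat_lit 191) (nat_lit 5) (nat_lit 5) (nat_lit 8) L81339 (by decide +kernel)
theorem L81341 : W_31 (nat_lit 5) (nat_lit 0x1a0005000280004001000080000000000000000000000000000000) (nat_lit 0x0) (nat_lit 0x200010000800000010000e00120000000000000000000000000000000) := T_31 (nat_lit 208) (nat_lit 225) (nat_lit 5) (nat_lit 5) (nat_lit 9) L81340 (by decide +kernel)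
theorem L81342 : W_31 (nat_lit 7) (nat_lit 0x1a0005000200004001000080000000000000000000000000000000) (nat_lit 0x0) (nat_lit 0x40006000100008000c0012000f00138000800000000000000000000000000) := Q_31 (nat_lit 175) (C_31 L81321 (C_31 L81327 (C_31 L81332 (C_31 L81337 (C_31 L81341 N_31))))) (by decide +kernel)
theorem L81343 : W_31 (nat_lit 4) (nat_lit 0x1a000500020001c001000080000000000000000000000000000000) (nat_lit 0x0) (nat_lit 0x800460002000180000000000000000000000000000000000) := T_31 (nat_lit 157) (nat_lit 178) (nat_lit 3) (nat_lit 4) (nat_lit 9) L24815 (by decide +kernel)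
theorem L81344 : W_31 (nat_lit 5) (nat_lit 0x1a0005000200014001000080000000000000000000000000000000) (nat_lit 0x0) (nat_lit 0x80046000a000580000000000000000000000000000000000) := T_31 (nat_lit 159) (nat_lit 142) (nat_lit 4) (nat_lit 7) (nat_lit 12) L81343 (by decide +kernel)
theorem L81345 : W_31 (nat_lit 6) (nat_lit 0x1a0005000200004001000080000000000000000000000000000000) (nat_lit 0x0) (nat_lit 0x80046001a000d80000000000000000000000000000000000) := T_31 (nat_lit 160) (nat_lit 143) (nat_lit 6) (nat_lit 7) (nat_lit 11) L81344 (by decide +kernel)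
theorem L81346 : W_31 (nat_lit 2) (nat_lit 0x1a0005000280006001400080000000000000000000000000000000) (nat_lit 0x0) (nat_lit 0xa00020000000000000000000000000000000) := D_31 (nat_lit 141) (nat_lit 125) (nat_lit 143) (nat_lit 6) (nat_lit 5) (nat_lit 11) (nat_lit 1) (nat_lit 8) (nat_lit 8) (by decide +kernel)
theorem L81347 : W_31 (nat_lit 3) (nat_lit 0x1a0005000280006001000080000000000000000000000000000000) (nat_lit 0x0) (nat_lit 0x8000e00020000000000000000000000000000000) := T_31 (nat_lit 142) (nat_lit 159) (nat_lit 6) (nat_lit 5) (nat_lit 12) L81346 (by decide +kernel)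
theorem L81348 : W_31 (nat_lit 4) (nat_lit 0x1a0005000280004001000080000000000000000000000000000000) (nat_lit 0x0) (nat_lit 0xa000f00020000000000000000000000000000000) := T_31 (nat_lit 157) (nat_lit 140) (nat_lit 4) (nat_lit 5) (nat_lit 12) L81347 (by decide +kernel)
theorem L81349 : W_31 (nat_lit 6) (nat_lit 0x1a0005000200004001000080000000000000000000000000000000) (nat_lit 0x0) (nat_lit 0x40006000100008000c000a000f00028000000000000000000000000000000) := Q_31 (nat_lit 175) (C_31 L81322 (C_31 L81321 (C_31 L81318 (C_31 L81348 N_31)))) (by decide +kernel)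
theorem L81350 : W_31 (nat_lit 4) (nat_lit 0x1a0005000200016001000080000000000000000000000000000000) (nat_lit 0x0) (nat_lit 0x800460008000180000000000000000000000000000000000) := T_31 (nat_lit 159) (nat_lit 178) (nat_lit 3) (nat_lit 4) (nat_lit 9) L24815 (by decide +kernel)
theorem L81351 : W_31 (nat_lit 5) (nat_lit 0x1a0005000200006001000080000000000000000000000000000000) (nat_lit 0x0) (nat_lit 0x800460018000980000000000000000000000000000000000) := T_31 (nat_lit 160) (nat_lit 143) (nat_lit 6) (nat_lit 7) (nat_lit 11) L81350 (by decide +kernel)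
theorem L81352 : W_31 (nat_lit 2) (nat_lit 0x1b80058002e0017801000080000000000000000000000000000000) (nat_lit 0x0) (nat_lit 0x400000000000060000000000000000000000000000000000) := D_31 (nat_lit 138) (nat_lit 190) (nat_lit 137) (nat_lit 4) (nat_lit 3) (nat_lit 12) (nat_lit 0) (nat_lit 5) (nat_lit 9) (by decide +kernel)
theorem L81353 : W_31 (nat_lit 3) (nat_lit 0x1b00058002e0017801000080000000000000000000000000000000) (nat_lit 0x0) (nat_lit 0x100008000400000000000060000000000000000000000000000000000) := T_31 (nat_lit 207) (nat_lit 224) (nat_lit 5) (nat_lit 4) (nat_lit 9) L81352 (by decide +kernel)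
theorem L81354 : W_31 (nat_lit 4) (nat_lit 0x1b00058002c0017801000080000000000000000000000000000000) (nat_lit 0x0) (nat_lit 0x100008000400020008000060000000000000000000000000000000000) := T_31 (nat_lit 173) (nat_lit 159) (nat_lit 1) (nat_lit 7) (nat_lit 9) L81353 (by decide +kernel)
theorem L81355 : W_31 (nat_lit 5) (nat_lit 0x1b00058002c0017001000080000000000000000000000000000000) (nat_lit 0x0) (nat_lit 0x100008000400020008c00060000000000000000000000000000000000) := T_31 (nat_lit 155) (nat_lit 154) (nat_lit 3) (nat_lit 1) (nat_lit 9) L81354 (by decide +kernel)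
theorem L81356 : W_31 (nat_lit 6) (nat_lit 0x1b00058002c0016001000080000000000000000000000000000000) (nat_lit 0x0) (nat_lit 0x100008000400020009c000e0000000000000000000000000000000000) := T_31 (nat_lit 156) (nat_lit 139) (nat_lit 4) (nat_lit 4) (nat_lit 12) L81355 (by decide +kernel)
theorem L81357 : W_31 (nat_lit 7) (nat_lit 0x1b0005800280016001000080000000000000000000000000000000) (nat_lit 0x0) (nat_lit 0x500008000400060009c000e0000000000000000000000000000000000) := T_31 (nat_lit 174) (nat_lit 226) (nat_lit 7) (nat_lit 4) (nat_lit 9) L81356 (by decide +kernel)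
theorem L81358 : W_31 (nat_lit 8) (nat_lit 0x1b0005000280016001000080000000000000000000000000000000) (nat_lit 0x0) (nat_lit 0x500008000c00060009c002e0000000000000000000000000000000000) := T_31 (nat_lit 191) (nat_lit 141) (nat_lit 5) (nat_lit 5) (nat_lit 8) L81357 (by decide +kernel)
theorem L81359 : W_31 (nat_lit 9) (nat_lit 0x1a0005000280016001000080000000000000000000000000000000) (nat_lit 0x0) (nat_lit 0x700018000c00060009c002e0000000000000000000000000000000000) := T_31 (nat_lit 208) (nat_lit 225) (nat_lit 5) (nat_lit 5) (nat_lit 9) L81358 (by decide +kernel)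
theorem L81360 : W_31 (nat_lit 10) (nat_lit 0x1a0005000280006001000080000000000000000000000000000000) (nat_lit 0x0) (nat_lit 0x700018000c00060019c00ae0000000000000000000000000000000000) := T_31 (nat_lit 160) (nat_lit 143) (nat_lit 6) (nat_lit 7) (nat_lit 11) L81359 (by decide +kernel)
theorem L81361 : W_31 (nat_lit 11) (nat_lit 0x1a0005000200006001000080000000000000000000000000000000) (nat_lit 0x0) (nat_lit 0x700018000c000e0019c00be0000000000000000000000000000000000) := T_31 (nat_lit 175) (nat_lit 140) (nat_lit 4) (nat_lit 5) (nat_lit 12) L81360 (by decide +kernel)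
theorem L81362 : W_31 (nat_lit 2) (nat_lit 0x4001a0005000280006001000080000000000000000000000000000000) (nat_lit 0x0) (nat_lit 0x4000200010000000000000000000000000000000000000000000000000000) := D_31 (nat_lit 225) (nat_lit 208) (nat_lit 242) (nat_lit 5) (nat_lit 5) (nat_lit 9) (nat_lit 5) (nat_lit 5) (nat_lit 10) (by decide +kernel)
theorem L81363 : W_31 (nat_lit 3) (nat_lit 0x1a0005000280006001000080000000000000000000000000000000) (nat_lit 0x0) (nat_lit 0x4000600010000000040000000000000000000000000000000000000000000) := T_31 (nat_lit 226) (nat_lit 174) (nat_lit 4) (nat_lit 5) (nat_lit 13) L81362 (by decide +kernel)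
theorem L81364 : W_31 (nat_lit 4) (nat_lit 0x1a0005000200006001000080000000000000000000000000000000) (nat_lit 0x0) (nat_lit 0x40006000100000000c0000000100000000000000000000000000000000000) := T_31 (nat_lit 175) (nat_lit 140) (nat_lit 4) (nat_lit 5) (nat_lit 12) L81363 (by decide +kernel)
theorem L81365 : W_31 (nat_lit 2) (nat_lit 0x1a0005000200016001100080000000000000000000000000000000) (nat_lit 0x0) (nat_lit 0x400008000080000000000000000000000000000000000) := D_31 (nat_lit 159) (nat_lit 178) (nat_lit 139) (nat_lit 3) (nat_lit 4) (nat_lit 9) (nat_lit 0) (nat_lit 7) (nat_lit 9) (by decide +kernel)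
theorem L81366 : W_31 (nat_lit 3) (nat_lit 0x1a0005000200006001100080000000000000000000000000000000) (nat_lit 0x0) (nat_lit 0x400018000880000000000000000000000000000000000) := T_31 (nat_lit 160) (nat_lit 143) (nat_lit 6) (nat_lit 7) (nat_lit 11) L81365 (by decide +kernel)
theorem L81367 : W_31 (nat_lit 4) (nat_lit 0x1a0005000200006001000080000000000000000000000000000000) (nat_lit 0x0) (nat_lit 0x480018000980000000000000000000000000000000000) := T_31 (nat_lit 140) (nat_lit 175) (nat_lit 4) (nat_lit 5) (nat_lit 12) L81366 (by decide +kernel)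
theorem L81368 : W_31 (nat_lit 4) (nat_lit 0x1a000500020001e001000080000000000000000000000000000000) (nat_lit 0x0) (nat_lit 0x80004000100008000e0000000000000000000000000000000000000000000) := T_31 (nat_lit 174) (nat_lit 173) (nat_lit 1) (nat_lit 7) (nat_lit 9) L24705 (by decide +kernel)
theorem L81369 : W_31 (nat_lit 5) (nat_lit 0x1a0005000200016001000080000000000000000000000000000000) (nat_lit 0x0) (nat_lit 0x80004000100008004e0008000000000000000000000000000000000000000) := T_31 (nat_lit 159) (nat_lit 178) (nat_lit 3) (nat_lit 4) (nat_lit 9) L81368 (by decide +kernel)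
theorem L81370 : W_31 (nat_lit 6) (nat_lit 0x1a0005000200006001000080000000000000000000000000000000) (nat_lit 0x0) (nat_lit 0x80004000100008004e0018000800000000000000000000000000000000000) := T_31 (nat_lit 160) (nat_lit 143) (nat_lit 6) (nat_lit 7) (nat_lit 11) L81369 (by decide +kernel)
theorem L81371 : W_31 (nat_lit 12) (nat_lit 0x1a0005000200004001000080000000000000000000000000000000) (nat_lit 0x0) (nat_lit 0xc000700018000c004e001bc00be0000000000000000000000000000000000) := Q_31 (nat_lit 157) (C_31 L81351 (C_31 L81361 (C_31 L81364 (C_31 L81367 (C_31 L81370 N_31))))) (by decide +kernel)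
theorem L81372 : W_31 (nat_lit 2) (nat_lit 0x1a0005000280004001e00090000000000000000000000000000000) (nat_lit 0x0) (nat_lit 0x200010000800000000000000000000000000000000000000000000000) := D_31 (nat_lit 208) (nat_lit 225) (nat_lit 191) (nat_lit 5) (nat_lit 5) (nat_lit 9) (nat_lit 5) (nat_lit 5) (nat_lit 8) (by decide +kernel)
theorem L81373 : W_31 (nat_lit 3) (nat_lit 0x1a0005000200004001e00090000000000000000000000000000000) (nat_lit 0x0) (nat_lit 0x200010000800080000000000020000000000000000000000000000000) := T_31 (nat_lit 175) (nat_lit 125) (nat_lit 6) (nat_lit 5) (nat_lit 11) L81372 (by decide +kernel)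
theorem L81374 : W_31 (nat_lit 4) (nat_lit 0x1a0005000200004001e00080000000000000000000000000000000) (nat_lit 0x0) (nat_lit 0x200010000800080000000000038000000000000000000000000000000) := T_31 (nat_lit 124) (nat_lit 123) (nat_lit 0) (nat_lit 8) (nat_lit 8) L81373 (by decide +kernel)
theorem L81375 : W_31 (nat_lit 5) (nat_lit 0x1a0005000200004001c00080000000000000000000000000000000) (nat_lit 0x0) (nat_lit 0x200010000800080000000200138000000000000000000000000000000) := T_31 (nat_lit 141) (nat_lit 128) (nat_lit 2) (nat_lit 5) (nat_lit 8) L81374 (by decide +kernel)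
theorem L81376 : W_31 (nat_lit 6) (nat_lit 0x1a0005000200004001400080000000000000000000000000000000) (nat_lit 0x0) (nat_lit 0x200010000800080010000a00138000000000000000000000000000000) := T_31 (nat_lit 143) (nat_lit 160) (nat_lit 6) (nat_lit 7) (nat_lit 11) L81375 (by decide +kernel)
theorem L81377 : W_31 (nat_lit 7) (nat_lit 0x1a0005000200004001000080000000000000000000000000000000) (nat_lit 0x0) (nat_lit 0x200010000800080018000e00138000000000000000000000000000000) := Q_31 (nat_lit 142) (C_31 L81309 (C_31 L81376 (C_31 L81303 N_31))) (by decide +kernel)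
theorem L81378 : W_31 (nat_lit 13) (nat_lit 0x1a0005000200000001000080000000000000000000000000000000) (nat_lit 0x0) (nat_lit 0xc000700018000c004e001fc00fe0138000800000000000000000000000000) := Q_31 (nat_lit 158) (C_31 L81302 (C_31 L81310 (C_31 L81323 (C_31 L81342 (C_31 L81345 (C_31 L81349 (C_31 L81371 (C_31 L81377 N_31)))))))) (by decide +kernel)
theorem L81379 : W_31 (nat_lit 2) (nat_lit 0x84007e0045000200018001000080000000000000000000000000000000) (nat_lit 0x0) (nat_lit 0x800088000000000000000000000000000000000000000000000000) := D_31 (nat_lit 215) (nat_lit 195) (nat_lit 199) (nat_lit 0) (nat_lit 11) (nat_lit 12) (nat_lit 2) (nat_lit 8) (nat_lit 12) (by decide +kernel)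
theorem L81380 : W_31 (nat_lit 3) (nat_lit 0x84007e0005000200018001000080000000000000000000000000000000) (nat_lit 0x0) (nat_lit 0x8000e8000000000000000000000000000000000000000000000000) := T_31 (nat_lit 198) (nat_lit 197) (nat_lit 2) (nat_lit 7) (nat_lit 12) L81379 (by decide +kernel)
theorem L81381 : W_31 (nat_lit 4) (nat_lit 0x84003e0005000200018001000080000000000000000000000000000000) (nat_lit 0x0) (nat_lit 0x10000c000e8000000000000000000000000000000000000000000000000) := T_31 (nat_lit 214) (nat_lit 232) (nat_lit 3) (nat_lit 7) (nat_lit 12) L81380 (by decide +kernel)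
theorem L81382 : W_31 (nat_lit 5) (nat_lit 0x80003e0005000200018001000080000000000000000000000000000000) (nat_lit 0x0) (nat_lit 0x10600c000e8000000000000000000000000000000000000000000000000) := T_31 (nat_lit 226) (nat_lit 225) (nat_lit 1) (nat_lit 8) (nat_lit 12) L81381 (by decide +kernel)
theorem L81383 : W_31 (nat_lit 6) (nat_lit 0x3e0005000200018001000080000000000000000000000000000000) (nat_lit 0x0) (nat_lit 0x1c600c000e8000000000000000000000000000000000000000000000000) := T_31 (nat_lit 231) (nat_lit 230) (nat_lit 3) (nat_lit 6) (nat_lit 12) L81382 (by decide +kernel)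
theorem L81384 : W_31 (nat_lit 7) (nat_lit 0x3e0005000200010001000080000000000000000000000000000000) (nat_lit 0x0) (nat_lit 0x1c600c000e8000000008000400000000000000000000000000000000000) := T_31 (nat_lit 159) (nat_lit 142) (nat_lit 4) (nat_lit 7) (nat_lit 12) L81383 (by decide +kernel)
theorem L81385 : W_31 (nat_lit 8) (nat_lit 0x3e0005000200000001000080000000000000000000000000000000) (nat_lit 0x0) (nat_lit 0x1c600c000e8000000018000c00000000000000000000000000000000000) := T_31 (nat_lit 160) (nat_lit 143) (nat_lit 6) (nat_lit 7) (nat_lit 11) L81384 (by decide +kernel)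
theorem L81386 : W_31 (nat_lit 2) (nat_lit 0x80003e000d000200000001000080000000000000000000000000000000) (nat_lit 0x0) (nat_lit 0x10000c00000000000000000000000000000000000000000000000000000) := D_31 (nat_lit 214) (nat_lit 215) (nat_lit 232) (nat_lit 0) (nat_lit 11) (nat_lit 12) (nat_lit 3) (nat_lit 7) (nat_lit 12) (by decide +kernel)
theorem L81387 : W_31 (nat_lit 3) (nat_lit 0x80003e0005000200000001000080000000000000000000000000000000) (nat_lit 0x0) (nat_lit 0x10000c00018000000000000000000000000000000000000000000000000) := T_31 (nat_lit 195) (nat_lit 196) (nat_lit 2) (nat_lit 5) (nat_lit 12) L81386 (by decide +kernel)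
theorem L81388 : W_31 (nat_lit 4) (nat_lit 0x3e0005000200000001000080000000000000000000000000000000) (nat_lit 0x0) (nat_lit 0x1c000c00018000000000000000000000000000000000000000000000000) := T_31 (nat_lit 231) (nat_lit 230) (nat_lit 3) (nat_lit 6) (nat_lit 12) L81387 (by decide +kernel)
theorem L81389 : W_31 (nat_lit 2) (nat_lit 0x3e0005000200000001000080000000000000000000000000000000) (nat_lit 0x0) (nat_lit 0x38000000000000000000000000000000000000000000000000) := D_31 (nat_lit 196) (nat_lit 195) (nat_lit 197) (nat_lit 2) (nat_lit 5) (nat_lit 12) (nat_lit 2) (nat_lit 6) (nat_lit 12) (by decide +kernel)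
theorem L81390 : W_31 (nat_lit 9) (nat_lit 0x1e0005000200000001000080000000000000000000000000000000) (nat_lit 0x0) (nat_lit 0x1c600e000f8000000018000c00000000000000000000000000000000000) := Q_31 (nat_lit 213) (C_31 L79008 (C_31 L81385 (C_31 L81388 (C_31 L81389 N_31)))) (by decide +kernel)
theorem L81391 : W_31 (nat_lit 11) (nat_lit 0x1a0005000200000001000080000000000000000000000000000000) (nat_lit 0x0) (nat_lit 0x1c700e500f80004f001f000dc0000000000000000000000000000000000) := Q_31 (nat_lit 210) (C_31 L81298 (C_31 L24165 (C_31 L81390 N_31))) (by decide +kernel)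
theorem L81392 : W_31 (nat_lit 10) (nat_lit 0x1a0005000200000001000080000000000000000000000000000000) (nat_lit 0x0) (nat_lit 0x1c600e400f8800000018000c00000000000000000000000000000000000) := T_31 (nat_lit 210) (nat_lit 191) (nat_lit 0) (nat_lit 8) (nat_lit 12) L81390 (by decide +kernel)
theorem L81393 : W_31 (nat_lit 14) (nat_lit 0x180005000200000001000080000000000000000000000000000000) (nat_lit 0x0) (nat_lit 0xc01c700e780f8c004f001fc00fe0138000800000000000000000000000000) := Q_31 (nat_lit 209) (C_31 L81295 (C_31 L81296 (C_31 L81299 (C_31 L81378 (C_31 L81391 (C_31 L81392 N_31)))))) (by decide +kernel)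
theorem L81394 : W_31 (nat_lit 2) (nat_lit 0x1a000d000200000001000080000000000000000000000000000000) (nat_lit 0x0) (nat_lit 0x50002000000000000000000000000000000000000000000000000) := D_31 (nat_lit 208) (nat_lit 193) (nat_lit 210) (nat_lit 1) (nat_lit 8) (nat_lit 11) (nat_lit 2) (nat_lit 4) (nat_lit 12) (by decide +kernel)
theorem L81395 : W_31 (nat_lit 2) (nat_lit 0x1a000d000200000001000080000000000000000000000000000000) (nat_lit 0x0) (nat_lit 0x50010000000000000000000000000000000000000000000000000) := D_31 (nat_lit 210) (nat_lit 208) (nat_lit 196) (nat_lit 2) (nat_lit 4) (nat_lit 12) (nat_lit 2) (nat_lit 5) (nat_lit 12) (by decide +kernel)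
theorem L81396 : W_31 (nat_lit 2) (nat_lit 0x1a000d000200000001400080000000000000000000000000000000) (nat_lit 0x0) (nat_lit 0x18000800000000000000000000000000000000000) := D_31 (nat_lit 160) (nat_lit 143) (nat_lit 159) (nat_lit 7) (nat_lit 7) (nat_lit 8) (nat_lit 4) (nat_lit 7) (nat_lit 12) (by decide +kernel)
theorem L81397 : W_31 (nat_lit 2) (nat_lit 0x1a000f000200008001400080000000000000000000000000000000) (nat_lit 0x0) (nat_lit 0xc0004000000000000000000000000000000000000000) := D_31 (nat_lit 175) (nat_lit 174) (nat_lit 158) (nat_lit 0) (nat_lit 8) (nat_lit 11) (nat_lit 6) (nat_lit 5) (nat_lit 12) (by decide +kernel)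
theorem L81398 : W_31 (nat_lit 3) (nat_lit 0x1a000d000200008001400080000000000000000000000000000000) (nat_lit 0x0) (nat_lit 0x100020000c0004000000000000000000000000000000000000000) := T_31 (nat_lit 193) (nat_lit 208) (nat_lit 1) (nat_lit 8) (nat_lit 11) L81397 (by decide +kernel)
theorem L81399 : W_31 (nat_lit 4) (nat_lit 0x1a000d000200000001400080000000000000000000000000000000) (nat_lit 0x0) (nat_lit 0x100020000c001c000000000000000000000000000000000000000) := T_31 (nat_lit 159) (nat_lit 160) (nat_lit 4) (nat_lit 7) (nat_lit 12) L81398 (by decide +kernel)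
theorem L81400 : W_31 (nat_lit 2) (nat_lit 0x200000001a000f000680000001e00080000000000000000000000000000000) (nat_lit 0x0) (nat_lit 0x6000000020000000000000000000000000000000) := D_31 (nat_lit 158) (nat_lit 157) (nat_lit 125) (nat_lit 1) (nat_lit 8) (nat_lit 8) (nat_lit 6) (nat_lit 5) (nat_lit 11) (by decide +kernel)
theorem L81401 : W_31 (nat_lit 3) (nat_lit 0x200000001a000f000680000001c00080000000000000000000000000000000) (nat_lit 0x0) (nat_lit 0x6000200120000000000000000000000000000000) := T_31 (nat_lit 141) (nat_lit 128) (nat_lit 2) (nat_lit 5) (nat_lit 8) L81400 (by decide +kernel)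
theorem L81402 : W_31 (nat_lit 4) (nat_lit 0x200000001a000f000680000001400080000000000000000000000000000000) (nat_lit 0x0) (nat_lit 0x16000a00120000000000000000000000000000000) := T_31 (nat_lit 143) (nat_lit 160) (nat_lit 7) (nat_lit 7) (nat_lit 8) L81401 (by decide +kernel)
theorem L81403 : W_31 (nat_lit 5) (nat_lit 0x1a000f000680000001400080000000000000000000000000000000) (nat_lit 0x0) (nat_lit 0x20001000000000000000016000a00120000000000000000000000000000000) := T_31 (nat_lit 245) (nat_lit 228) (nat_lit 6) (nat_lit 7) (nat_lit 14) L81402 (by decide +kernel)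
theorem L81404 : W_31 (nat_lit 6) (nat_lit 0x1a000f000280000001400080000000000000000000000000000000) (nat_lit 0x0) (nat_lit 0x20001000000000000c00016000a00120000000000000000000000000000000) := T_31 (nat_lit 178) (nat_lit 179) (nat_lit 2) (nat_lit 5) (nat_lit 11) L81403 (by decide +kernel)
theorem L81405 : W_31 (nat_lit 7) (nat_lit 0x1a000f000200000001400080000000000000000000000000000000) (nat_lit 0x0) (nat_lit 0x20001000000000000cc0016000a00120000000000000000000000000000000) := T_31 (nat_lit 175) (nat_lit 174) (nat_lit 0) (nat_lit 8) (nat_lit 11) L81404 (by decide +kernel)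
theorem L81406 : W_31 (nat_lit 8) (nat_lit 0x1a000d000200000001400080000000000000000000000000000000) (nat_lit 0x0) (nat_lit 0x20001000010002000cc0016000a00120000000000000000000000000000000) := T_31 (nat_lit 193) (nat_lit 208) (nat_lit 1) (nat_lit 8) (nat_lit 11) L81405 (by decide +kernel)
theorem L81407 : W_31 (nat_lit 2) (nat_lit 0x200000001a000f000680004001600080000000000000000000000000000000) (nat_lit 0x0) (nat_lit 0x2000100008000000000000000000000000000000) := D_31 (nat_lit 140) (nat_lit 123) (nat_lit 157) (nat_lit 4) (nat_lit 5) (nat_lit 11) (nat_lit 4) (nat_lit 5) (nat_lit 12) (by decide +kernel)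
theorem L81408 : W_31 (nat_lit 3) (nat_lit 0x200000001a000f000680004001400080000000000000000000000000000000) (nat_lit 0x0) (nat_lit 0x2000300028000000000000000000000000000000) := T_31 (nat_lit 141) (nat_lit 125) (nat_lit 6) (nat_lit 5) (nat_lit 11) L81407 (by decide +kernel)
theorem L81409 : W_31 (nat_lit 4) (nat_lit 0x200000001a000f000680000001400080000000000000000000000000000000) (nat_lit 0x0) (nat_lit 0xe000300028000000000000000000000000000000) := T_31 (nat_lit 158) (nat_lit 159) (nat_lit 6) (nat_lit 5) (nat_lit 12) L81408 (by decide +kernel)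
theorem L81410 : W_31 (nat_lit 5) (nat_lit 0x1a000f000680000001400080000000000000000000000000000000) (nat_lit 0x0) (nat_lit 0x2000100000000000000000e000300028000000000000000000000000000000) := T_31 (nat_lit 245) (nat_lit 228) (nat_lit 6) (nat_lit 7) (nat_lit 14) L81409 (by decide +kernel)
theorem L81411 : W_31 (nat_lit 6) (nat_lit 0x1a000f000280000001400080000000000000000000000000000000) (nat_lit 0x0) (nat_lit 0x20001000000000000c0000e000300028000000000000000000000000000000) := T_31 (nat_lit 178) (nat_lit 179) (nat_lit 2) (nat_lit 5) (nat_lit 11) L81410 (by decide +kernel)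
theorem L81412 : W_31 (nat_lit 7) (nat_lit 0x1a000f000200000001400080000000000000000000000000000000) (nat_lit 0x0) (nat_lit 0x20001000000000000cc000e000300028000000000000000000000000000000) := T_31 (nat_lit 175) (nat_lit 174) (nat_lit 0) (nat_lit 8) (nat_lit 11) L81411 (by decide +kernel)
theorem L81413 : W_31 (nat_lit 8) (nat_lit 0x1a000d000200000001400080000000000000000000000000000000) (nat_lit 0x0) (nat_lit 0x20001000010002000cc000e000300028000000000000000000000000000000) := T_31 (nat_lit 193) (nat_lit 208) (nat_lit 1) (nat_lit 8) (nat_lit 11) L81412 (by decide +kernel)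
theorem L81414 : W_31 (nat_lit 9) (nat_lit 0x1a000d000200000001000080000000000000000000000000000000) (nat_lit 0x0) (nat_lit 0x20001000010002000cc001e000f00128000000000000000000000000000000) := Q_31 (nat_lit 142) (C_31 L81396 (C_31 L81399 (C_31 L81406 (C_31 L81413 N_31)))) (by decide +kernel)
theorem L81415 : W_31 (nat_lit 2) (nat_lit 0x5a003d001200018001000080000000000000000000000000000000) (nat_lit 0x0) (nat_lit 0x2000c00000000000000000000000000000000000000000000) := D_31 (nat_lit 179) (nat_lit 193) (nat_lit 178) (nat_lit 2) (nat_lit 6) (nat_lit 11) (nat_lit 0) (nat_lit 10) (nat_lit 10) (by decide +kernel)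
theorem L81416 : W_31 (nat_lit 3) (nat_lit 0x5a003d000200018001000080000000000000000000000000000000) (nat_lit 0x0) (nat_lit 0x2003c00000000000000000000000000000000000000000000) := T_31 (nat_lit 180) (nat_lit 181) (nat_lit 2) (nat_lit 7) (nat_lit 11) L81415 (by decide +kernel)
theorem L81417 : W_31 (nat_lit 4) (nat_lit 0x1a003d000200018001000080000000000000000000000000000000) (nat_lit 0x0) (nat_lit 0xc00002003c00000000000000000000000000000000000000000000) := T_31 (nat_lit 214) (nat_lit 215) (nat_lit 3) (nat_lit 7) (nat_lit 11) L81416 (by decide +kernel)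
theorem L81418 : W_31 (nat_lit 5) (nat_lit 0x1a001d000200018001000080000000000000000000000000000000) (nat_lit 0x0) (nat_lit 0xc00062003c00000000000000000000000000000000000000000000) := T_31 (nat_lit 197) (nat_lit 198) (nat_lit 1) (nat_lit 11) (nat_lit 11) L81417 (by decide +kernel)
theorem L81419 : W_31 (nat_lit 6) (nat_lit 0x1a001d000200010001000080000000000000000000000000000000) (nat_lit 0x0) (nat_lit 0xc00062003c00008000400000000000000000000000000000000000) := T_31 (nat_lit 159) (nat_lit 142) (nat_lit 4) (nat_lit 7) (nat_lit 12) L81418 (by decide +kernel)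
theorem L81420 : W_31 (nat_lit 7) (nat_lit 0x1a001d000200000001000080000000000000000000000000000000) (nat_lit 0x0) (nat_lit 0xc00062003c00018000c00000000000000000000000000000000000) := T_31 (nat_lit 160) (nat_lit 143) (nat_lit 7) (nat_lit 7) (nat_lit 8) L81419 (by decide +kernel)
theorem L81421 : W_31 (nat_lit 8) (nat_lit 0x1a000d000200000001000080000000000000000000000000000000) (nat_lit 0x0) (nat_lit 0xc40072003c00018000c00000000000000000000000000000000000) := T_31 (nat_lit 196) (nat_lit 210) (nat_lit 2) (nat_lit 5) (nat_lit 12) L81420 (by decide +kernel)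
theorem L81422 : W_31 (nat_lit 10) (nat_lit 0x1a0005000200000001000080000000000000000000000000000000) (nat_lit 0x0) (nat_lit 0x20001000c5007a003cc001e000f00128000000000000000000000000000000) := Q_31 (nat_lit 195) (C_31 L81394 (C_31 L81395 (C_31 L81414 (C_31 L81421 N_31)))) (by decide +kernel)
theorem L81423 : W_31 (nat_lit 2) (nat_lit 0x1a0005000200000001000080000000000000000000000000000000) (nat_lit 0x0) (nat_lit 0x40002800000000000000000000000000000000000000000000000) := D_31 (nat_lit 191) (nat_lit 210) (nat_lit 193) (nat_lit 0) (nat_lit 8) (nat_lit 12) (nat_lit 3) (nat_lit 4) (nat_lit 11) (by decide +kernel)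
theorem L81424 : W_31 (nat_lit 14) (nat_lit 0x180005000200000001000080000000000000000000000000000000) (nat_lit 0x0) (nat_lit 0x2c001700c7807ac03cf001fc00fe0138000800000000000000000000000000) := Q_31 (nat_lit 209) (C_31 L81378 (C_31 L81299 (C_31 L81296 (C_31 L81422 (C_31 L81423 N_31))))) (by decide +kernel)
theorem L81425 : W_31 (nat_lit 2) (nat_lit 0x18001f000a80018001000080000000000000000000000000000000) (nat_lit 0x0) (nat_lit 0x40060000000000000000000000000000000000000000000000000) := D_31 (nat_lit 197) (nat_lit 198) (nat_lit 210) (nat_lit 1) (nat_lit 11) (nat_lit 11) (nat_lit 1) (nat_lit 10) (nat_lit 11) (by decide +kernel)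
theorem L81426 : W_31 (nat_lit 3) (nat_lit 0x18000f000a80018001000080000000000000000000000000000000) (nat_lit 0x0) (nat_lit 0x40070001000000000000000000000000000000000000000000000) := T_31 (nat_lit 196) (nat_lit 180) (nat_lit 2) (nat_lit 6) (nat_lit 11) L81425 (by decide +kernel)
theorem L81427 : W_31 (nat_lit 4) (nat_lit 0x18000f000a00018001000080000000000000000000000000000000) (nat_lit 0x0) (nat_lit 0x400700010c0000000000000000000000000000000000000000000) := T_31 (nat_lit 175) (nat_lit 174) (nat_lit 0) (nat_lit 8) (nat_lit 11) L81426 (by decide +kernel)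
theorem L81428 : W_31 (nat_lit 5) (nat_lit 0x18000f000200018001000080000000000000000000000000000000) (nat_lit 0x0) (nat_lit 0x40070001cc0000000000000000000000000000000000000000000) := T_31 (nat_lit 179) (nat_lit 178) (nat_lit 2) (nat_lit 5) (nat_lit 11) L81427 (by decide +kernel)
theorem L81429 : W_31 (nat_lit 6) (nat_lit 0x18000d000200018001000080000000000000000000000000000000) (nat_lit 0x0) (nat_lit 0x240072001cc0000000000000000000000000000000000000000000) := T_31 (nat_lit 193) (nat_lit 213) (nat_lit 3) (nat_lit 5) (nat_lit 11) L81428 (by decide +kernel)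
theorem L81430 : W_31 (nat_lit 7) (nat_lit 0x18000d000200010001000080000000000000000000000000000000) (nat_lit 0x0) (nat_lit 0x240072001cc0008000400000000000000000000000000000000000) := T_31 (nat_lit 159) (nat_lit 142) (nat_lit 4) (nat_lit 7) (nat_lit 12) L81429 (by decide +kernel)
theorem L81431 : W_31 (nat_lit 8) (nat_lit 0x18000d000200000001000080000000000000000000000000000000) (nat_lit 0x0) (nat_lit 0x240072001cc0018000c00000000000000000000000000000000000) := T_31 (nat_lit 160) (nat_lit 143) (nat_lit 7) (nat_lit 7) (nat_lit 8) L81430 (by decide +kernel)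
theorem L81434 : W_31 (nat_lit 4) (nat_lit 0x1a000f000280000001000080000000000000000000000000000000) (nat_lit 0x0) (nat_lit 0x40070003800000000000000000000000000000000000000000000) := T_31 (nat_lit 196) (nat_lit 210) (nat_lit 2) (nat_lit 5) (nat_lit 12) L81433 (by decide +kernel)
theorem L81435 : W_31 (nat_lit 5) (nat_lit 0x1a000f000200000001000080000000000000000000000000000000) (nat_lit 0x0) (nat_lit 0x400700038c0000000000000000000000000000000000000000000) := T_31 (nat_lit 175) (nat_lit 174) (nat_lit 0) (nat_lit 8) (nat_lit 11) L81434 (by decide +kernel)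
theorem L81436 : W_31 (nat_lit 6) (nat_lit 0x18000f000200000001000080000000000000000000000000000000) (nat_lit 0x0) (nat_lit 0x700700038c0000000000000000000000000000000000000000000) := T_31 (nat_lit 209) (nat_lit 208) (nat_lit 1) (nat_lit 8) (nat_lit 11) L81435 (by decide +kernel)
theorem L81437 : W_31 (nat_lit 7) (nat_lit 0x18000d000200000001000080000000000000000000000000000000) (nat_lit 0x0) (nat_lit 0x2700720038c0000000000000000000000000000000000000000000) := T_31 (nat_lit 193) (nat_lit 213) (nat_lit 3) (nat_lit 5) (nat_lit 11) L81436 (by decide +kernel)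
theorem L81438 : W_31 (nat_lit 2) (nat_lit 0x7c002d000200000001800080000000000000000000000000000000) (nat_lit 0x0) (nat_lit 0x1c000000000000000000000000000000000000000000000000000000000) := D_31 (nat_lit 231) (nat_lit 230) (nat_lit 232) (nat_lit 3) (nat_lit 6) (nat_lit 12) (nat_lit 3) (nat_lit 7) (nat_lit 12) (by decide +kernel)
theorem L81439 : W_31 (nat_lit 3) (nat_lit 0x78002d000200000001800080000000000000000000000000000000) (nat_lit 0x0) (nat_lit 0x1c000040010000000000000000000000000000000000000000000000000) := T_31 (nat_lit 210) (nat_lit 196) (nat_lit 2) (nat_lit 6) (nat_lit 12) L81438 (by decide +kernel)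
theorem L81440 : W_31 (nat_lit 4) (nat_lit 0x78000d000200000001800080000000000000000000000000000000) (nat_lit 0x0) (nat_lit 0x1c000040070000000000000000000000000000000000000000000000000) := T_31 (nat_lit 197) (nat_lit 198) (nat_lit 2) (nat_lit 7) (nat_lit 12) L81439 (by decide +kernel)
theorem L81441 : W_31 (nat_lit 5) (nat_lit 0x38000d000200000001800080000000000000000000000000000000) (nat_lit 0x0) (nat_lit 0x1c000c40070000000000000000000000000000000000000000000000000) := T_31 (nat_lit 214) (nat_lit 215) (nat_lit 0) (nat_lit 11) (nat_lit 12) L81440 (by decide +kernel)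
theorem L81442 : W_31 (nat_lit 6) (nat_lit 0x18000d000200000001800080000000000000000000000000000000) (nat_lit 0x0) (nat_lit 0x1c000e40072000000000000000000000000000000000000000000000000) := T_31 (nat_lit 213) (nat_lit 193) (nat_lit 3) (nat_lit 5) (nat_lit 11) L81441 (by decide +kernel)
theorem L81443 : W_31 (nat_lit 7) (nat_lit 0x18000d000200000001000080000000000000000000000000000000) (nat_lit 0x0) (nat_lit 0x1c000e40072000000010000800000000000000000000000000000000000) := T_31 (nat_lit 143) (nat_lit 160) (nat_lit 7) (nat_lit 7) (nat_lit 8) L81442 (by decide +kernel)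
theorem L81444 : W_31 (nat_lit 2) (nat_lit 0x7c002d000200018001000080000000000000000000000000000000) (nat_lit 0x0) (nat_lit 0x1c000000000000000000000000000000000000000000000000000000000) := D_31 (nat_lit 231) (nat_lit 230) (nat_lit 232) (nat_lit 3) (nat_lit 6) (nat_lit 12) (nat_lit 3) (nat_lit 7) (nat_lit 12) (by decide +kernel)
theorem L81445 : W_31 (nat_lit 3) (nat_lit 0x78002d000200018001000080000000000000000000000000000000) (nat_lit 0x0) (nat_lit 0x1c000040010000000000000000000000000000000000000000000000000) := T_31 (nat_lit 210) (nat_lit 196) (nat_lit 2) (nat_lit 6) (nat_lit 12) L81444 (by decide +kernel)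
theorem L81446 : W_31 (nat_lit 4) (nat_lit 0x78000d000200018001000080000000000000000000000000000000) (nat_lit 0x0) (nat_lit 0x1c000040070000000000000000000000000000000000000000000000000) := T_31 (nat_lit 197) (nat_lit 198) (nat_lit 2) (nat_lit 7) (nat_lit 12) L81445 (by decide +kernel)
theorem L81447 : W_31 (nat_lit 5) (nat_lit 0x38000d000200018001000080000000000000000000000000000000) (nat_lit 0x0) (nat_lit 0x1c000c40070000000000000000000000000000000000000000000000000) := T_31 (nat_lit 214) (nat_lit 215) (nat_lit 0) (nat_lit 11) (nat_lit 12) L81446 (by decide +kernel)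
theorem L81448 : W_31 (nat_lit 6) (nat_lit 0x38000d000200010001000080000000000000000000000000000000) (nat_lit 0x0) (nat_lit 0x1c000c40070000000008000400000000000000000000000000000000000) := T_31 (nat_lit 159) (nat_lit 142) (nat_lit 4) (nat_lit 7) (nat_lit 12) L81447 (by decide +kernel)
theorem L81449 : W_31 (nat_lit 7) (nat_lit 0x38000d000200000001000080000000000000000000000000000000) (nat_lit 0x0) (nat_lit 0x1c000c40070000000018000c00000000000000000000000000000000000) := T_31 (nat_lit 160) (nat_lit 143) (nat_lit 7) (nat_lit 7) (nat_lit 8) L81448 (by decide +kernel)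
theorem L81450 : W_31 (nat_lit 2) (nat_lit 0x7c002d000200000001000080000000000000000000000000000000) (nat_lit 0x0) (nat_lit 0x1c000000000000000000000000000000000000000000000000000000000) := D_31 (nat_lit 231) (nat_lit 230) (nat_lit 232) (nat_lit 3) (nat_lit 6) (nat_lit 12) (nat_lit 3) (nat_lit 7) (nat_lit 12) (by decide +kernel)
theorem L81451 : W_31 (nat_lit 3) (nat_lit 0x78002d000200000001000080000000000000000000000000000000) (nat_lit 0x0) (nat_lit 0x1c000040010000000000000000000000000000000000000000000000000) := T_31 (nat_lit 210) (nat_lit 196) (nat_lit 2) (nat_lit 6) (nat_lit 12) L81450 (by decide +kernel)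
theorem L81452 : W_31 (nat_lit 4) (nat_lit 0x78000d000200000001000080000000000000000000000000000000) (nat_lit 0x0) (nat_lit 0x1c000040070000000000000000000000000000000000000000000000000) := T_31 (nat_lit 197) (nat_lit 198) (nat_lit 2) (nat_lit 7) (nat_lit 12) L81451 (by decide +kernel)
theorem L81453 : W_31 (nat_lit 5) (nat_lit 0x38000d000200000001000080000000000000000000000000000000) (nat_lit 0x0) (nat_lit 0x1c000c40070000000000000000000000000000000000000000000000000) := T_31 (nat_lit 214) (nat_lit 215) (nat_lit 0) (nat_lit 11) (nat_lit 12) L81452 (by decide +kernel)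
theorem L81454 : W_31 (nat_lit 2) (nat_lit 0xc00078002d000200018001000080000000000000000000000000000000) (nat_lit 0x0) (nat_lit 0x1000080000000000000001000000000000000000000000000000000000000000000) := D_31 (nat_lit 247) (nat_lit 264) (nat_lit 180) (nat_lit 6) (nat_lit 9) (nat_lit 15) (nat_lit 5) (nat_lit 10) (nat_lit 10) (by decide +kernel)
theorem L81455 : W_31 (nat_lit 3) (nat_lit 0x800078002d000200018001000080000000000000000000000000000000) (nat_lit 0x0) (nat_lit 0x1000080004000040000001000000000000000000000000000000000000000000000) := T_31 (nat_lit 230) (nat_lit 210) (nat_lit 3) (nat_lit 6) (nat_lit 12) L81454 (by decide +kernel)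
theorem L81456 : W_31 (nat_lit 4) (nat_lit 0x78002d000200018001000080000000000000000000000000000000) (nat_lit 0x0) (nat_lit 0x100008001c000040000001000000000000000000000000000000000000000000000) := T_31 (nat_lit 231) (nat_lit 232) (nat_lit 3) (nat_lit 7) (nat_lit 12) L81455 (by decide +kernel)
theorem L81457 : W_31 (nat_lit 5) (nat_lit 0x78000d000200018001000080000000000000000000000000000000) (nat_lit 0x0) (nat_lit 0x100008001c000040060001000000000000000000000000000000000000000000000) := T_31 (nat_lit 197) (nat_lit 198) (nat_lit 2) (nat_lit 7) (nat_lit 12) L81456 (by decide +kernel)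
theorem L81458 : W_31 (nat_lit 6) (nat_lit 0x78000d000200010001000080000000000000000000000000000000) (nat_lit 0x0) (nat_lit 0x100008001c000040060001000008000400000000000000000000000000000000000) := T_31 (nat_lit 159) (nat_lit 142) (nat_lit 4) (nat_lit 7) (nat_lit 12) L81457 (by decide +kernel)
theorem L81459 : W_31 (nat_lit 7) (nat_lit 0x78000d000200000001000080000000000000000000000000000000) (nat_lit 0x0) (nat_lit 0x100008001c000040060001000018000c00000000000000000000000000000000000) := T_31 (nat_lit 160) (nat_lit 143) (nat_lit 7) (nat_lit 7) (nat_lit 8) L81458 (by decide +kernel)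
theorem L81460 : W_31 (nat_lit 8) (nat_lit 0x38000d000200000001000080000000000000000000000000000000) (nat_lit 0x0) (nat_lit 0x100008001c000c40060001000018000c00000000000000000000000000000000000) := T_31 (nat_lit 214) (nat_lit 215) (nat_lit 0) (nat_lit 11) (nat_lit 12) L81459 (by decide +kernel)
theorem L81461 : W_31 (nat_lit 2) (nat_lit 0xb8003d001a00018001000080000000000000000000000000000000) (nat_lit 0x0) (nat_lit 0x80004000000000000000080000000000000000000000000000000000000000) := D_31 (nat_lit 230) (nat_lit 247) (nat_lit 163) (nat_lit 6) (nat_lit 9) (nat_lit 14) (nat_lit 6) (nat_lit 9) (nat_lit 13) (by decide +kernel)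
theorem L81462 : W_31 (nat_lit 3) (nat_lit 0xb8003d001200018001000080000000000000000000000000000000) (nat_lit 0x0) (nat_lit 0x80004000000000000c00080000000000000000000000000000000000000000) := T_31 (nat_lit 179) (nat_lit 178) (nat_lit 0) (nat_lit 10) (nat_lit 10) L81461 (by decide +kernel)
theorem L81463 : W_31 (nat_lit 4) (nat_lit 0xb8003d000200018001000080000000000000000000000000000000) (nat_lit 0x0) (nat_lit 0x80004000000000003c00080000000000000000000000000000000000000000) := T_31 (nat_lit 180) (nat_lit 181) (nat_lit 2) (nat_lit 7) (nat_lit 11) L81462 (by decide +kernel)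
theorem L81464 : W_31 (nat_lit 5) (nat_lit 0xb8003d000200010001000080000000000000000000000000000000) (nat_lit 0x0) (nat_lit 0x80004000000000003c00088000400000000000000000000000000000000000) := T_31 (nat_lit 159) (nat_lit 142) (nat_lit 4) (nat_lit 7) (nat_lit 12) L81463 (by decide +kernel)
theorem L81465 : W_31 (nat_lit 6) (nat_lit 0xb8003d000200000001000080000000000000000000000000000000) (nat_lit 0x0) (nat_lit 0x80004000000000003c00098000c00000000000000000000000000000000000) := T_31 (nat_lit 160) (nat_lit 143) (nat_lit 7) (nat_lit 7) (nat_lit 8) L81464 (by decide +kernel)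
theorem L81466 : W_31 (nat_lit 7) (nat_lit 0xb8001d000200000001000080000000000000000000000000000000) (nat_lit 0x0) (nat_lit 0x80004000000060003c00098000c00000000000000000000000000000000000) := T_31 (nat_lit 197) (nat_lit 198) (nat_lit 1) (nat_lit 11) (nat_lit 11) L81465 (by decide +kernel)
theorem L81467 : W_31 (nat_lit 8) (nat_lit 0x38001d000200000001000080000000000000000000000000000000) (nat_lit 0x0) (nat_lit 0x80004000c00060003c00098000c00000000000000000000000000000000000) := T_31 (nat_lit 215) (nat_lit 214) (nat_lit 0) (nat_lit 11) (nat_lit 12) L81466 (by decide +kernel)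
theorem L81468 : W_31 (nat_lit 2) (nat_lit 0x10000800078005d000200018001000080000000000000000000000000000000) (nat_lit 0x0) (nat_lit 0x4000000000000800040000000000000000000000000000000000000000) := D_31 (nat_lit 179) (nat_lit 162) (nat_lit 230) (nat_lit 7) (nat_lit 9) (nat_lit 9) (nat_lit 7) (nat_lit 9) (nat_lit 10) (by decide +kernel)
theorem L81469 : W_31 (nat_lit 3) (nat_lit 0x800078005d000200018001000080000000000000000000000000000000) (nat_lit 0x0) (nat_lit 0x2000100004000000000000800040000000000000000000000000000000000000000) := T_31 (nat_lit 248) (nat_lit 265) (nat_lit 4) (nat_lit 10) (nat_lit 15) L81468 (by decide +kernel)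
theorem L81470 : W_31 (nat_lit 4) (nat_lit 0x78005d000200018001000080000000000000000000000000000000) (nat_lit 0x0) (nat_lit 0x200010001c000000000000800040000000000000000000000000000000000000000) := T_31 (nat_lit 231) (nat_lit 232) (nat_lit 3) (nat_lit 7) (nat_lit 12) L81469 (by decide +kernel)
theorem L81471 : W_31 (nat_lit 5) (nat_lit 0x78005d000200010001000080000000000000000000000000000000) (nat_lit 0x0) (nat_lit 0x200010001c000000000000800048000400000000000000000000000000000000000) := T_31 (nat_lit 159) (nat_lit 142) (nat_lit 4) (nat_lit 7) (nat_lit 12) L81470 (by decide +kernel)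
theorem L81472 : W_31 (nat_lit 6) (nat_lit 0x78005d000200000001000080000000000000000000000000000000) (nat_lit 0x0) (nat_lit 0x200010001c000000000000800058000c00000000000000000000000000000000000) := T_31 (nat_lit 160) (nat_lit 143) (nat_lit 7) (nat_lit 7) (nat_lit 8) L81471 (by decide +kernel)
theorem L81473 : W_31 (nat_lit 7) (nat_lit 0x38005d000200000001000080000000000000000000000000000000) (nat_lit 0x0) (nat_lit 0x200010001c000c00000000800058000c00000000000000000000000000000000000) := T_31 (nat_lit 214) (nat_lit 215) (nat_lit 0) (nat_lit 11) (nat_lit 12) L81472 (by decide +kernel)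
theorem L81474 : W_31 (nat_lit 8) (nat_lit 0x38001d000200000001000080000000000000000000000000000000) (nat_lit 0x0) (nat_lit 0x200010001c000c00060000800058000c00000000000000000000000000000000000) := T_31 (nat_lit 198) (nat_lit 197) (nat_lit 1) (nat_lit 11) (nat_lit 11) L81473 (by decide +kernel)
theorem L81475 : W_31 (nat_lit 2) (nat_lit 0xb8003d001200080001000080000000000000000000000000000000) (nat_lit 0x0) (nat_lit 0x80004000000000000800000000000000000000000000000000000000000000) := D_31 (nat_lit 230) (nat_lit 247) (nat_lit 179) (nat_lit 6) (nat_lit 9) (nat_lit 14) (nat_lit 6) (nat_lit 9) (nat_lit 13) (by decide +kernel)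
theorem L81476 : W_31 (nat_lit 3) (nat_lit 0xb8003d001200000001000080000000000000000000000000000000) (nat_lit 0x0) (nat_lit 0x80004000000000000800080004000000000000000000000000000000000000) := T_31 (nat_lit 163) (nat_lit 146) (nat_lit 5) (nat_lit 10) (nat_lit 8) L81475 (by decide +kernel)
theorem L81477 : W_31 (nat_lit 4) (nat_lit 0xb8003d000200000001000080000000000000000000000000000000) (nat_lit 0x0) (nat_lit 0x80004000000000003800080004000000000000000000000000000000000000) := T_31 (nat_lit 180) (nat_lit 181) (nat_lit 2) (nat_lit 7) (nat_lit 11) L81476 (by decide +kernel)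
theorem L81478 : W_31 (nat_lit 5) (nat_lit 0xb8001d000200000001000080000000000000000000000000000000) (nat_lit 0x0) (nat_lit 0x80004000000060003800080004000000000000000000000000000000000000) := T_31 (nat_lit 197) (nat_lit 198) (nat_lit 1) (nat_lit 11) (nat_lit 11) L81477 (by decide +kernel)
theorem L81479 : W_31 (nat_lit 6) (nat_lit 0x38001d000200000001000080000000000000000000000000000000) (nat_lit 0x0) (nat_lit 0x80004000c00060003800080004000000000000000000000000000000000000) := T_31 (nat_lit 215) (nat_lit 214) (nat_lit 0) (nat_lit 11) (nat_lit 12) L81478 (by decide +kernel)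
theorem L81480 : W_31 (nat_lit 2) (nat_lit 0x800078003d001200018001000080000000000000000000000000000000) (nat_lit 0x0) (nat_lit 0x4000000000000000080004000000000000000000000000000000000000) := D_31 (nat_lit 163) (nat_lit 146) (nat_lit 230) (nat_lit 5) (nat_lit 10) (nat_lit 8) (nat_lit 5) (nat_lit 10) (nat_lit 9) (by decide +kernel)
theorem L81481 : W_31 (nat_lit 3) (nat_lit 0x800078003d000200018001000080000000000000000000000000000000) (nat_lit 0x0) (nat_lit 0x4000000000003000080004000000000000000000000000000000000000) := T_31 (nat_lit 180) (nat_lit 181) (nat_lit 2) (nat_lit 7) (nat_lit 11) L81480 (by decide +kernel)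
theorem L81482 : W_31 (nat_lit 4) (nat_lit 0x78003d000200018001000080000000000000000000000000000000) (nat_lit 0x0) (nat_lit 0x1c000000000003000080004000000000000000000000000000000000000) := T_31 (nat_lit 231) (nat_lit 232) (nat_lit 3) (nat_lit 7) (nat_lit 12) L81481 (by decide +kernel)
theorem L81483 : W_31 (nat_lit 5) (nat_lit 0x38003d000200018001000080000000000000000000000000000000) (nat_lit 0x0) (nat_lit 0x1c000c00000003000080004000000000000000000000000000000000000) := T_31 (nat_lit 214) (nat_lit 215) (nat_lit 3) (nat_lit 7) (nat_lit 11) L81482 (by decide +kernel)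
theorem L81484 : W_31 (nat_lit 6) (nat_lit 0x38003d000200010001000080000000000000000000000000000000) (nat_lit 0x0) (nat_lit 0x1c000c00000003000088004400000000000000000000000000000000000) := T_31 (nat_lit 159) (nat_lit 142) (nat_lit 4) (nat_lit 7) (nat_lit 12) L81483 (by decide +kernel)
theorem L81485 : W_31 (nat_lit 7) (nat_lit 0x38003d000200000001000080000000000000000000000000000000) (nat_lit 0x0) (nat_lit 0x1c000c00000003000098004c00000000000000000000000000000000000) := T_31 (nat_lit 160) (nat_lit 143) (nat_lit 7) (nat_lit 7) (nat_lit 8) L81484 (by decide +kernel)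
theorem L81486 : W_31 (nat_lit 8) (nat_lit 0x38001d000200000001000080000000000000000000000000000000) (nat_lit 0x0) (nat_lit 0x1c000c00060003000098004c00000000000000000000000000000000000) := T_31 (nat_lit 197) (nat_lit 198) (nat_lit 1) (nat_lit 11) (nat_lit 11) L81485 (by decide +kernel)
theorem L81487 : W_31 (nat_lit 2) (nat_lit 0x10000800078001d000200000001800080000000000000000000000000000000) (nat_lit 0x0) (nat_lit 0x4000000000000800040000000000000000000000000000000000000000) := D_31 (nat_lit 179) (nat_lit 162) (nat_lit 230) (nat_lit 7) (nat_lit 9) (nat_lit 9) (nat_lit 7) (nat_lit 9) (nat_lit 10) (by decide +kernel)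
theorem L81488 : W_31 (nat_lit 3) (nat_lit 0x800078001d000200000001800080000000000000000000000000000000) (nat_lit 0x0) (nat_lit 0x2000100004000000000000800040000000000000000000000000000000000000000) := T_31 (nat_lit 248) (nat_lit 265) (nat_lit 4) (nat_lit 10) (nat_lit 15) L81487 (by decide +kernel)
theorem L81489 : W_31 (nat_lit 4) (nat_lit 0x78001d000200000001800080000000000000000000000000000000) (nat_lit 0x0) (nat_lit 0x200010001c000000000000800040000000000000000000000000000000000000000) := T_31 (nat_lit 231) (nat_lit 232) (nat_lit 3) (nat_lit 7) (nat_lit 12) L81488 (by decide +kernel)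
theorem L81490 : W_31 (nat_lit 5) (nat_lit 0x38001d000200000001800080000000000000000000000000000000) (nat_lit 0x0) (nat_lit 0x200010001c000c00000000800040000000000000000000000000000000000000000) := T_31 (nat_lit 214) (nat_lit 215) (nat_lit 0) (nat_lit 11) (nat_lit 12) L81489 (by decide +kernel)
theorem L81491 : W_31 (nat_lit 6) (nat_lit 0x38001d000200000001000080000000000000000000000000000000) (nat_lit 0x0) (nat_lit 0x200010001c000c00000000800050000800000000000000000000000000000000000) := T_31 (nat_lit 143) (nat_lit 160) (nat_lit 7) (nat_lit 7) (nat_lit 8) L81490 (by decide +kernel)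
theorem L81492 : W_31 (nat_lit 2) (nat_lit 0x38003d001a00018001000080000000000000000000000000000000) (nat_lit 0x0) (nat_lit 0x80004000000000000000080000000000000000000000000000000000000000) := D_31 (nat_lit 230) (nat_lit 247) (nat_lit 163) (nat_lit 6) (nat_lit 9) (nat_lit 14) (nat_lit 6) (nat_lit 9) (nat_lit 13) (by decide +kernel)
theorem L81493 : W_31 (nat_lit 3) (nat_lit 0x38003d001200018001000080000000000000000000000000000000) (nat_lit 0x0) (nat_lit 0x80004000000000000c00080000000000000000000000000000000000000000) := T_31 (nat_lit 179) (nat_lit 178) (nat_lit 0) (nat_lit 10) (nat_lit 10) L81492 (by decide +kernel)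
theorem L81494 : W_31 (nat_lit 4) (nat_lit 0x38003d000200018001000080000000000000000000000000000000) (nat_lit 0x0) (nat_lit 0x80004000000000003c00080000000000000000000000000000000000000000) := T_31 (nat_lit 180) (nat_lit 181) (nat_lit 2) (nat_lit 7) (nat_lit 11) L81493 (by decide +kernel)
theorem L81495 : W_31 (nat_lit 5) (nat_lit 0x38003d000200010001000080000000000000000000000000000000) (nat_lit 0x0) (nat_lit 0x80004000000000003c00088000400000000000000000000000000000000000) := T_31 (nat_lit 159) (nat_lit 142) (nat_lit 4) (nat_lit 7) (nat_lit 12) L81494 (by decide +kernel)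
theorem L81496 : W_31 (nat_lit 6) (nat_lit 0x38003d000200000001000080000000000000000000000000000000) (nat_lit 0x0) (nat_lit 0x80004000000000003c00098000c00000000000000000000000000000000000) := T_31 (nat_lit 160) (nat_lit 143) (nat_lit 7) (nat_lit 7) (nat_lit 8) L81495 (by decide +kernel)
theorem L81497 : W_31 (nat_lit 7) (nat_lit 0x38001d000200000001000080000000000000000000000000000000) (nat_lit 0x0) (nat_lit 0x80004000000060003c00098000c00000000000000000000000000000000000) := T_31 (nat_lit 197) (nat_lit 198) (nat_lit 1) (nat_lit 11) (nat_lit 11) L81496 (by decide +kernel)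
theorem L81498 : W_31 (nat_lit 2) (nat_lit 0x800078003d001200000001000080000000000000000000000000000000) (nat_lit 0x0) (nat_lit 0x100000000000000000800040000000000000000000000000000000000000000) := D_31 (nat_lit 179) (nat_lit 162) (nat_lit 248) (nat_lit 7) (nat_lit 9) (nat_lit 9) (nat_lit 4) (nat_lit 10) (nat_lit 14) (by decide +kernel)
theorem L81499 : W_31 (nat_lit 3) (nat_lit 0x78003d001200000001000080000000000000000000000000000000) (nat_lit 0x0) (nat_lit 0x100018000000000000800040000000000000000000000000000000000000000) := T_31 (nat_lit 231) (nat_lit 232) (nat_lit 3) (nat_lit 7) (nat_lit 12) L81498 (by decide +kernel)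
theorem L81500 : W_31 (nat_lit 4) (nat_lit 0x78003d000200000001000080000000000000000000000000000000) (nat_lit 0x0) (nat_lit 0x100018000000000003800040000000000000000000000000000000000000000) := T_31 (nat_lit 180) (nat_lit 181) (nat_lit 2) (nat_lit 7) (nat_lit 11) L81499 (by decide +kernel)
theorem L81501 : W_31 (nat_lit 5) (nat_lit 0x38003d000200000001000080000000000000000000000000000000) (nat_lit 0x0) (nat_lit 0x100018000c00000003800040000000000000000000000000000000000000000) := T_31 (nat_lit 214) (nat_lit 215) (nat_lit 3) (nat_lit 7) (nat_lit 11) L81500 (by decide +kernel)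
theorem L81502 : W_31 (nat_lit 6) (nat_lit 0x38001d000200000001000080000000000000000000000000000000) (nat_lit 0x0) (nat_lit 0x100018000c00060003800040000000000000000000000000000000000000000) := T_31 (nat_lit 197) (nat_lit 198) (nat_lit 1) (nat_lit 11) (nat_lit 11) L81501 (by decide +kernel)
theorem L81503 : W_31 (nat_lit 9) (nat_lit 0x38000d000200000001000080000000000000000000000000000000) (nat_lit 0x0) (nat_lit 0x200018001c000c00070003c000d8004c00000000000000000000000000000000000) := Q_31 (nat_lit 196) (C_31 L81467 (C_31 L81474 (C_31 L81479 (C_31 L81486 (C_31 L81491 (C_31 L81497 (C_31 L81502 N_31))))))) (by decide +kernel)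
theorem L81504 : W_31 (nat_lit 2) (nat_lit 0x80007c000d000200000001800080000000000000000000000000000000) (nat_lit 0x0) (nat_lit 0x30010000000000000000000000000000000000000000000000000) := D_31 (nat_lit 209) (nat_lit 196) (nat_lit 208) (nat_lit 2) (nat_lit 5) (nat_lit 12) (nat_lit 2) (nat_lit 4) (nat_lit 12) (by decide +kernel)
theorem L81505 : W_31 (nat_lit 3) (nat_lit 0x800078000d000200000001800080000000000000000000000000000000) (nat_lit 0x0) (nat_lit 0x4000070010000000000000000000000000000000000000000000000000) := T_31 (nat_lit 210) (nat_lit 230) (nat_lit 3) (nat_lit 6) (nat_lit 12) L81504 (by decide +kernel)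
theorem L81506 : W_31 (nat_lit 4) (nat_lit 0x78000d000200000001800080000000000000000000000000000000) (nat_lit 0x0) (nat_lit 0x1c000070010000000000000000000000000000000000000000000000000) := T_31 (nat_lit 231) (nat_lit 232) (nat_lit 3) (nat_lit 7) (nat_lit 12) L81505 (by decide +kernel)
theorem L81507 : W_31 (nat_lit 5) (nat_lit 0x78000d000200000001000080000000000000000000000000000000) (nat_lit 0x0) (nat_lit 0x1c000070010000000010000800000000000000000000000000000000000) := T_31 (nat_lit 143) (nat_lit 160) (nat_lit 7) (nat_lit 7) (nat_lit 8) L81506 (by decide +kernel)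
theorem L81508 : W_31 (nat_lit 6) (nat_lit 0x38000d000200000001000080000000000000000000000000000000) (nat_lit 0x0) (nat_lit 0x1c000c70010000000010000800000000000000000000000000000000000) := T_31 (nat_lit 214) (nat_lit 215) (nat_lit 0) (nat_lit 11) (nat_lit 12) L81507 (by decide +kernel)
theorem L81509 : W_31 (nat_lit 2) (nat_lit 0x38001d000200000001000080000000000000000000000000000000) (nat_lit 0x0) (nat_lit 0x40060000000000000000000000000000000000000000000000000) := D_31 (nat_lit 197) (nat_lit 210) (nat_lit 198) (nat_lit 2) (nat_lit 6) (nat_lit 12) (nat_lit 1) (nat_lit 11) (nat_lit 11) (by decide +kernel)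
theorem L81510 : W_31 (nat_lit 2) (nat_lit 0x40003c001d000200000001800080000000000000000000000000000000) (nat_lit 0x0) (nat_lit 0x1000080000000000000000400000000000000000000000000000000000000000000) := D_31 (nat_lit 247) (nat_lit 178) (nat_lit 264) (nat_lit 4) (nat_lit 9) (nat_lit 14) (nat_lit 4) (nat_lit 9) (nat_lit 15) (by decide +kernel)
theorem L81511 : W_31 (nat_lit 3) (nat_lit 0x3c001d000200000001800080000000000000000000000000000000) (nat_lit 0x0) (nat_lit 0x100008000c000000000000400000000000000000000000000000000000000000000) := T_31 (nat_lit 230) (nat_lit 231) (nat_lit 3) (nat_lit 6) (nat_lit 12) L81510 (by decide +kernel)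
theorem L81512 : W_31 (nat_lit 4) (nat_lit 0x38001d000200000001800080000000000000000000000000000000) (nat_lit 0x0) (nat_lit 0x100008000c000060000000400000000000000000000000000000000000000000000) := T_31 (nat_lit 210) (nat_lit 209) (nat_lit 2) (nat_lit 5) (nat_lit 12) L81511 (by decide +kernel)
theorem L81513 : W_31 (nat_lit 5) (nat_lit 0x38001d000200000001000080000000000000000000000000000000) (nat_lit 0x0) (nat_lit 0x100008000c000060000000400010000800000000000000000000000000000000000) := T_31 (nat_lit 143) (nat_lit 160) (nat_lit 7) (nat_lit 7) (nat_lit 8) L81512 (by decide +kernel)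
theorem L81514 : W_31 (nat_lit 8) (nat_lit 0x38000d000200000001000080000000000000000000000000000000) (nat_lit 0x0) (nat_lit 0x100008000c000060070003c00098000c00000000000000000000000000000000000) := Q_31 (nat_lit 196) (C_31 L81497 (C_31 L81509 (C_31 L81513 N_31))) (by decide +kernel)
theorem L81515 : W_31 (nat_lit 2) (nat_lit 0x78003d001200000001800080000000000000000000000000000000) (nat_lit 0x0) (nat_lit 0x4000000000000000080004000000000000000000000000000000000000) := D_31 (nat_lit 163) (nat_lit 146) (nat_lit 230) (nat_lit 5) (nat_lit 10) (nat_lit 8) (nat_lit 5) (nat_lit 10) (nat_lit 9) (by decide +kernel)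
theorem L81516 : W_31 (nat_lit 3) (nat_lit 0x78003d000200000001800080000000000000000000000000000000) (nat_lit 0x0) (nat_lit 0x4000000000003000080004000000000000000000000000000000000000) := T_31 (nat_lit 180) (nat_lit 181) (nat_lit 2) (nat_lit 7) (nat_lit 11) L81515 (by decide +kernel)
theorem L81517 : W_31 (nat_lit 4) (nat_lit 0x78002d000200000001800080000000000000000000000000000000) (nat_lit 0x0) (nat_lit 0x4000040010003000080004000000000000000000000000000000000000) := T_31 (nat_lit 196) (nat_lit 210) (nat_lit 2) (nat_lit 6) (nat_lit 12) L81516 (by decide +kernel)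
theorem L81518 : W_31 (nat_lit 5) (nat_lit 0x78000d000200000001800080000000000000000000000000000000) (nat_lit 0x0) (nat_lit 0x4000040070003000080004000000000000000000000000000000000000) := T_31 (nat_lit 197) (nat_lit 198) (nat_lit 2) (nat_lit 7) (nat_lit 12) L81517 (by decide +kernel)
theorem L81519 : W_31 (nat_lit 6) (nat_lit 0x38000d000200000001800080000000000000000000000000000000) (nat_lit 0x0) (nat_lit 0x4000c40070003000080004000000000000000000000000000000000000) := T_31 (nat_lit 214) (nat_lit 215) (nat_lit 0) (nat_lit 11) (nat_lit 12) L81518 (by decide +kernel)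
theorem L81520 : W_31 (nat_lit 7) (nat_lit 0x38000d000200000001000080000000000000000000000000000000) (nat_lit 0x0) (nat_lit 0x4000c40070003000090004800000000000000000000000000000000000) := T_31 (nat_lit 143) (nat_lit 160) (nat_lit 7) (nat_lit 7) (nat_lit 8) L81519 (by decide +kernel)
theorem L81521 : W_31 (nat_lit 2) (nat_lit 0x800078003d001200000001800080000000000000000000000000000000) (nat_lit 0x0) (nat_lit 0x100000000000000000800040000000000000000000000000000000000000000) := D_31 (nat_lit 179) (nat_lit 162) (nat_lit 248) (nat_lit 7) (nat_lit 9) (nat_lit 9) (nat_lit 4) (nat_lit 10) (nat_lit 14) (by decide +kernel)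
theorem L81522 : W_31 (nat_lit 3) (nat_lit 0x78003d001200000001800080000000000000000000000000000000) (nat_lit 0x0) (nat_lit 0x100018000000000000800040000000000000000000000000000000000000000) := T_31 (nat_lit 231) (nat_lit 232) (nat_lit 3) (nat_lit 7) (nat_lit 12) L81521 (by decide +kernel)
theorem L81523 : W_31 (nat_lit 4) (nat_lit 0x78003d000200000001800080000000000000000000000000000000) (nat_lit 0x0) (nat_lit 0x100018000000000003800040000000000000000000000000000000000000000) := T_31 (nat_lit 180) (nat_lit 181) (nat_lit 2) (nat_lit 7) (nat_lit 11) L81522 (by decide +kernel)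
theorem L81524 : W_31 (nat_lit 5) (nat_lit 0x78002d000200000001800080000000000000000000000000000000) (nat_lit 0x0) (nat_lit 0x100018000040010003800040000000000000000000000000000000000000000) := T_31 (nat_lit 196) (nat_lit 210) (nat_lit 2) (nat_lit 6) (nat_lit 12) L81523 (by decide +kernel)
theorem L81525 : W_31 (nat_lit 6) (nat_lit 0x78000d000200000001800080000000000000000000000000000000) (nat_lit 0x0) (nat_lit 0x100018000040070003800040000000000000000000000000000000000000000) := T_31 (nat_lit 197) (nat_lit 198) (nat_lit 2) (nat_lit 7) (nat_lit 12) L81524 (by decide +kernel)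
theorem L81526 : W_31 (nat_lit 7) (nat_lit 0x78000d000200000001000080000000000000000000000000000000) (nat_lit 0x0) (nat_lit 0x100018000040070003800050000800000000000000000000000000000000000) := T_31 (nat_lit 143) (nat_lit 160) (nat_lit 7) (nat_lit 7) (nat_lit 8) L81525 (by decide +kernel)
theorem L81527 : W_31 (nat_lit 8) (nat_lit 0x38000d000200000001000080000000000000000000000000000000) (nat_lit 0x0) (nat_lit 0x100018000c40070003800050000800000000000000000000000000000000000) := T_31 (nat_lit 214) (nat_lit 215) (nat_lit 0) (nat_lit 11) (nat_lit 12) L81526 (by decide +kernel)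
theorem L81528 : W_31 (nat_lit 10) (nat_lit 0x18000d000200000001000080000000000000000000000000000000) (nat_lit 0x0) (nat_lit 0x300018001c000e70070003c000d8004c00000000000000000000000000000000000) := Q_31 (nat_lit 213) (C_31 L81449 (C_31 L81453 (C_31 L81460 (C_31 L81503 (C_31 L81508 (C_31 L81514 (C_31 L81520 (C_31 L81527 N_31)))))))) (by decide +kernel)
theorem L81529 : W_31 (nat_lit 2) (nat_lit 0xc00078002d000200000001800080000000000000000000000000000000) (nat_lit 0x0) (nat_lit 0x1000080000000000000001000000000000000000000000000000000000000000000) := D_31 (nat_lit 247) (nat_lit 264) (nat_lit 180) (nat_lit 6) (nat_lit 9) (nat_lit 15) (nat_lit 5) (nat_lit 10) (nat_lit 10) (by decide +kernel)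
theorem L81530 : W_31 (nat_lit 3) (nat_lit 0x800078002d000200000001800080000000000000000000000000000000) (nat_lit 0x0) (nat_lit 0x1000080004000040000001000000000000000000000000000000000000000000000) := T_31 (nat_lit 230) (nat_lit 210) (nat_lit 3) (nat_lit 6) (nat_lit 12) L81529 (by decide +kernel)
theorem L81531 : W_31 (nat_lit 4) (nat_lit 0x78002d000200000001800080000000000000000000000000000000) (nat_lit 0x0) (nat_lit 0x100008001c000040000001000000000000000000000000000000000000000000000) := T_31 (nat_lit 231) (nat_lit 232) (nat_lit 3) (nat_lit 7) (nat_lit 12) L81530 (by decide +kernel)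
theorem L81532 : W_31 (nat_lit 5) (nat_lit 0x78000d000200000001800080000000000000000000000000000000) (nat_lit 0x0) (nat_lit 0x100008001c000040060001000000000000000000000000000000000000000000000) := T_31 (nat_lit 197) (nat_lit 198) (nat_lit 2) (nat_lit 7) (nat_lit 12) L81531 (by decide +kernel)
theorem L81533 : W_31 (nat_lit 6) (nat_lit 0x38000d000200000001800080000000000000000000000000000000) (nat_lit 0x0) (nat_lit 0x100008001c000c40060001000000000000000000000000000000000000000000000) := T_31 (nat_lit 214) (nat_lit 215) (nat_lit 0) (nat_lit 11) (nat_lit 12) L81532 (by decide +kernel)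
theorem L81534 : W_31 (nat_lit 7) (nat_lit 0x18000d000200000001800080000000000000000000000000000000) (nat_lit 0x0) (nat_lit 0x100008001c000e40062001000000000000000000000000000000000000000000000) := T_31 (nat_lit 213) (nat_lit 193) (nat_lit 3) (nat_lit 5) (nat_lit 11) L81533 (by decide +kernel)
theorem L81535 : W_31 (nat_lit 8) (nat_lit 0x18000d000200000001000080000000000000000000000000000000) (nat_lit 0x0) (nat_lit 0x100008001c000e40062001000010000800000000000000000000000000000000000) := T_31 (nat_lit 143) (nat_lit 160) (nat_lit 7) (nat_lit 7) (nat_lit 8) L81534 (by decide +kernel)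
theorem L81536 : W_31 (nat_lit 10) (nat_lit 0x18000d000200000001000080000000000000000000000000000000) (nat_lit 0x0) (nat_lit 0x200018001c000e00072003c000d8004c00000000000000000000000000000000000) := T_31 (nat_lit 213) (nat_lit 193) (nat_lit 3) (nat_lit 5) (nat_lit 11) L81503 (by decide +kernel)
theorem L81537 : W_31 (nat_lit 2) (nat_lit 0x18001d000200000001000080000000000000000000000000000000) (nat_lit 0x0) (nat_lit 0x40060000000000000000000000000000000000000000000000000) := D_31 (nat_lit 197) (nat_lit 210) (nat_lit 198) (nat_lit 1) (nat_lit 10) (nat_lit 11) (nat_lit 1) (nat_lit 11) (nat_lit 11) (by decide +kernel)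
theorem L81538 : W_31 (nat_lit 2) (nat_lit 0x58003d001a00000001800080000000000000000000000000000000) (nat_lit 0x0) (nat_lit 0x100008000000000000000040000000000000000000000000000000000000000) := D_31 (nat_lit 231) (nat_lit 162) (nat_lit 248) (nat_lit 4) (nat_lit 10) (nat_lit 13) (nat_lit 4) (nat_lit 10) (nat_lit 14) (by decide +kernel)
theorem L81539 : W_31 (nat_lit 3) (nat_lit 0x58003d001200000001800080000000000000000000000000000000) (nat_lit 0x0) (nat_lit 0x100008000000002000800040000000000000000000000000000000000000000) := T_31 (nat_lit 179) (nat_lit 193) (nat_lit 2) (nat_lit 6) (nat_lit 11) L81538 (by decide +kernel)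
theorem L81540 : W_31 (nat_lit 4) (nat_lit 0x58003d000200000001800080000000000000000000000000000000) (nat_lit 0x0) (nat_lit 0x100008000000002003800040000000000000000000000000000000000000000) := T_31 (nat_lit 180) (nat_lit 181) (nat_lit 2) (nat_lit 7) (nat_lit 11) L81539 (by decide +kernel)
theorem L81541 : W_31 (nat_lit 5) (nat_lit 0x18003d000200000001800080000000000000000000000000000000) (nat_lit 0x0) (nat_lit 0x100008000c00002003800040000000000000000000000000000000000000000) := T_31 (nat_lit 214) (nat_lit 215) (nat_lit 3) (nat_lit 7) (nat_lit 11) L81540 (by decide +kernel)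
theorem L81542 : W_31 (nat_lit 6) (nat_lit 0x18001d000200000001800080000000000000000000000000000000) (nat_lit 0x0) (nat_lit 0x100008000c00062003800040000000000000000000000000000000000000000) := T_31 (nat_lit 197) (nat_lit 198) (nat_lit 1) (nat_lit 11) (nat_lit 11) L81541 (by decide +kernel)
theorem L81543 : W_31 (nat_lit 7) (nat_lit 0x18001d000200000001000080000000000000000000000000000000) (nat_lit 0x0) (nat_lit 0x100008000c00062003800050000800000000000000000000000000000000000) := T_31 (nat_lit 143) (nat_lit 160) (nat_lit 7) (nat_lit 7) (nat_lit 8) L81542 (by decide +kernel)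
theorem L81544 : W_31 (nat_lit 2) (nat_lit 0x1a001f000200000001000080000000000000000000000000000000) (nat_lit 0x0) (nat_lit 0x1c00000000000000000000000000000000000000000000) := D_31 (nat_lit 179) (nat_lit 178) (nat_lit 180) (nat_lit 2) (nat_lit 5) (nat_lit 11) (nat_lit 2) (nat_lit 6) (nat_lit 11) (by decide +kernel)
theorem L81545 : W_31 (nat_lit 3) (nat_lit 0x1a001d000200000001000080000000000000000000000000000000) (nat_lit 0x0) (nat_lit 0x10002001c00000000000000000000000000000000000000000000) := T_31 (nat_lit 193) (nat_lit 208) (nat_lit 1) (nat_lit 8) (nat_lit 11) L81544 (by decide +kernel)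
theorem L81546 : W_31 (nat_lit 4) (nat_lit 0x18001d000200000001000080000000000000000000000000000000) (nat_lit 0x0) (nat_lit 0x70002001c00000000000000000000000000000000000000000000) := T_31 (nat_lit 209) (nat_lit 210) (nat_lit 2) (nat_lit 5) (nat_lit 12) L81545 (by decide +kernel)
theorem L81547 : W_31 (nat_lit 8) (nat_lit 0x18000d000200000001000080000000000000000000000000000000) (nat_lit 0x0) (nat_lit 0x100008000c70072003c00050000800000000000000000000000000000000000) := Q_31 (nat_lit 196) (C_31 L81537 (C_31 L81543 (C_31 L81546 N_31))) (by decide +kernel)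
theorem L81548 : W_31 (nat_lit 2) (nat_lit 0x1a000f000a80000001800080000000000000000000000000000000) (nat_lit 0x0) (nat_lit 0x40010001000000000000000000000000000000000000000000000) := D_31 (nat_lit 196) (nat_lit 180) (nat_lit 210) (nat_lit 2) (nat_lit 6) (nat_lit 11) (nat_lit 2) (nat_lit 5) (nat_lit 12) (by decide +kernel)
theorem L81549 : W_31 (nat_lit 3) (nat_lit 0x18000f000a80000001800080000000000000000000000000000000) (nat_lit 0x0) (nat_lit 0x70010001000000000000000000000000000000000000000000000) := T_31 (nat_lit 209) (nat_lit 208) (nat_lit 1) (nat_lit 8) (nat_lit 11) L81548 (by decide +kernel)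
theorem L81550 : W_31 (nat_lit 4) (nat_lit 0x18000f000a00000001800080000000000000000000000000000000) (nat_lit 0x0) (nat_lit 0x700100010c0000000000000000000000000000000000000000000) := T_31 (nat_lit 175) (nat_lit 174) (nat_lit 0) (nat_lit 8) (nat_lit 11) L81549 (by decide +kernel)
theorem L81551 : W_31 (nat_lit 5) (nat_lit 0x18000f000200000001800080000000000000000000000000000000) (nat_lit 0x0) (nat_lit 0x70010001cc0000000000000000000000000000000000000000000) := T_31 (nat_lit 179) (nat_lit 178) (nat_lit 2) (nat_lit 5) (nat_lit 11) L81550 (by decide +kernel)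
theorem L81552 : W_31 (nat_lit 6) (nat_lit 0x18000d000200000001800080000000000000000000000000000000) (nat_lit 0x0) (nat_lit 0x270012001cc0000000000000000000000000000000000000000000) := T_31 (nat_lit 193) (nat_lit 213) (nat_lit 3) (nat_lit 5) (nat_lit 11) L81551 (by decide +kernel)
theorem L81553 : W_31 (nat_lit 7) (nat_lit 0x18000d000200000001000080000000000000000000000000000000) (nat_lit 0x0) (nat_lit 0x270012001cc0010000800000000000000000000000000000000000) := T_31 (nat_lit 143) (nat_lit 160) (nat_lit 7) (nat_lit 7) (nat_lit 8) L81552 (by decide +kernel)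
theorem L81554 : W_31 (nat_lit 11) (nat_lit 0x180005000200000001000080000000000000000000000000000000) (nat_lit 0x0) (nat_lit 0x300018001c000e7007a003cc00d8004c00000000000000000000000000000000000) := Q_31 (nat_lit 195) (C_31 L81431 (C_31 L81437 (C_31 L81443 (C_31 L81528 (C_31 L81535 (C_31 L81536 (C_31 L81547 (C_31 L81553 N_31)))))))) (by decide +kernel)
theorem L81555 : W_31 (nat_lit 2) (nat_lit 0x180007000200018001000080000000000000000000000000000000) (nat_lit 0x0) (nat_lit 0x240008000000000000000000000000000000000000000000000000) := D_31 (nat_lit 213) (nat_lit 195) (nat_lit 210) (nat_lit 3) (nat_lit 5) (nat_lit 11) (nat_lit 0) (nat_lit 9) (nat_lit 12) (by decide +kernel)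
theorem L81556 : W_31 (nat_lit 3) (nat_lit 0x180005000200018001000080000000000000000000000000000000) (nat_lit 0x0) (nat_lit 0x24000a800000000000000000000000000000000000000000000000) := T_31 (nat_lit 193) (nat_lit 191) (nat_lit 3) (nat_lit 4) (nat_lit 11) L81555 (by decide +kernel)
theorem L81557 : W_31 (nat_lit 4) (nat_lit 0x180005000200010001000080000000000000000000000000000000) (nat_lit 0x0) (nat_lit 0x24000a800000008000400000000000000000000000000000000000) := T_31 (nat_lit 159) (nat_lit 142) (nat_lit 4) (nat_lit 7) (nat_lit 12) L81556 (by decide +kernel)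
theorem L81558 : W_31 (nat_lit 5) (nat_lit 0x180005000200000001000080000000000000000000000000000000) (nat_lit 0x0) (nat_lit 0x24000a800000018000c00000000000000000000000000000000000) := T_31 (nat_lit 160) (nat_lit 143) (nat_lit 6) (nat_lit 7) (nat_lit 11) L81557 (by decide +kernel)
theorem L81559 : W_31 (nat_lit 15) (nat_lit 0x180004000200000001000080000000000000000000000000000000) (nat_lit 0x0) (nat_lit 0x30001ac01d700e780fbc03cf00dfc04fe0138000800000000000000000000000000) := Q_31 (nat_lit 192) (C_31 L81292 (C_31 L81293 (C_31 L81393 (C_31 L81424 (C_31 L81554 (C_31 L81558 N_31)))))) (by decide +kernel)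
theorem L81560 : W_31 (nat_lit 16) (nat_lit 0x80004000200000001000080000000000000000000000000000000) (nat_lit 0x0) (nat_lit 0x38001ec03f700f780fbc03cf00dfc04fe0138000800000000000000000000000000) := Q_31 (nat_lit 212) (C_31 L81288 (C_31 L80586 (C_31 L80584 (C_31 L81559 N_31)))) (by decide +kernel)
theorem L81561 : W_31 (nat_lit 2) (nat_lit 0x8000c0004000200000001000080000000000000000000000000000000) (nat_lit 0x0) (nat_lit 0x200010001000000000000000000000000000000000000000000000000000000000) := D_31 (nat_lit 244) (nat_lit 228) (nat_lit 261) (nat_lit 5) (nat_lit 7) (nat_lit 10) (nat_lit 6) (nat_lit 6) (nat_lit 15) (by decide +kernel)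
theorem L81562 : W_31 (nat_lit 6) (nat_lit 0x8000e0004000200000001000080000000000000000000000000000000) (nat_lit 0x0) (nat_lit 0x8000700110008c00040002000000000000000000000000000000000000000) := T_31 (nat_lit 208) (nat_lit 195) (nat_lit 2) (nat_lit 4) (nat_lit 12) L78989 (by decide +kernel)
theorem L81563 : W_31 (nat_lit 2) (nat_lit 0x8000f0004000200000001000080000000000000000000000000000000) (nat_lit 0x0) (nat_lit 0x3000008000000000000000000000000000000000000000000000000000) := D_31 (nat_lit 228) (nat_lit 229) (nat_lit 207) (nat_lit 3) (nat_lit 4) (nat_lit 12) (nat_lit 3) (nat_lit 3) (nat_lit 12) (by decide +kernel)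
theorem L81564 : W_31 (nat_lit 8) (nat_lit 0x8000e0004000200000001000080000000000000000000000000000000) (nat_lit 0x0) (nat_lit 0x800378011e001f80040002000000000000000000000000000000000000000) := Q_31 (nat_lit 208) (C_31 L78989 (C_31 L78968 (C_31 L81563 N_31))) (by decide +kernel)
theorem L81565 : W_31 (nat_lit 3) (nat_lit 0x8000e0004000200000001000080000000000000000000000000000000) (nat_lit 0x0) (nat_lit 0x3000018008000000000000000000000000000000000000000000000000) := T_31 (nat_lit 208) (nat_lit 195) (nat_lit 2) (nat_lit 4) (nat_lit 12) L81563 (by decide +kernel)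
theorem L81566 : W_31 (nat_lit 2) (nat_lit 0x3c001e000f000680000001000080000000000000000000000000000000) (nat_lit 0x0) (nat_lit 0x10000c000000000000000000000000000000000000000000000000000000000000) := D_31 (nat_lit 243) (nat_lit 260) (nat_lit 242) (nat_lit 6) (nat_lit 5) (nat_lit 15) (nat_lit 1) (nat_lit 8) (nat_lit 13) (by decide +kernel)
theorem L81567 : W_31 (nat_lit 3) (nat_lit 0x2c001e000f000680000001000080000000000000000000000000000000) (nat_lit 0x0) (nat_lit 0x10002c001000000000000000000000000000000000000000000000000000000000) := T_31 (nat_lit 228) (nat_lit 245) (nat_lit 6) (nat_lit 7) (nat_lit 14) L81566 (by decide +kernel)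
theorem L81568 : W_31 (nat_lit 4) (nat_lit 0x2c001e000f000280000001000080000000000000000000000000000000) (nat_lit 0x0) (nat_lit 0x10002c001000000000000c00000000000000000000000000000000000000000000) := T_31 (nat_lit 178) (nat_lit 179) (nat_lit 2) (nat_lit 5) (nat_lit 11) L81567 (by decide +kernel)
theorem L81569 : W_31 (nat_lit 5) (nat_lit 0x28001e000f000280000001000080000000000000000000000000000000) (nat_lit 0x0) (nat_lit 0x10002c001600000000000c00000000000000000000000000000000000000000000) := T_31 (nat_lit 226) (nat_lit 225) (nat_lit 1) (nat_lit 8) (nat_lit 12) L81568 (by decide +kernel)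
theorem L81570 : W_31 (nat_lit 6) (nat_lit 0x28001e000d000280000001000080000000000000000000000000000000) (nat_lit 0x0) (nat_lit 0x10002c001600000002000c40000000000000000000000000000000000000000000) := T_31 (nat_lit 193) (nat_lit 174) (nat_lit 0) (nat_lit 8) (nat_lit 11) L81569 (by decide +kernel)
theorem L81571 : W_31 (nat_lit 7) (nat_lit 0x28001e0005000280000001000080000000000000000000000000000000) (nat_lit 0x0) (nat_lit 0x10002c00160000001a000c40000000000000000000000000000000000000000000) := T_31 (nat_lit 195) (nat_lit 196) (nat_lit 2) (nat_lit 5) (nat_lit 12) L81570 (by decide +kernel)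
theorem L81572 : W_31 (nat_lit 8) (nat_lit 0x28001e0005000200000001000080000000000000000000000000000000) (nat_lit 0x0) (nat_lit 0x10002c00160000001a000cc0004000000000000000000000000000000000000000) := T_31 (nat_lit 175) (nat_lit 158) (nat_lit 7) (nat_lit 5) (nat_lit 9) L81571 (by decide +kernel)
theorem L81573 : W_31 (nat_lit 9) (nat_lit 0x8001e0005000200000001000080000000000000000000000000000000) (nat_lit 0x0) (nat_lit 0x10002c00760000001a000cc0004000000000000000000000000000000000000000) := T_31 (nat_lit 229) (nat_lit 230) (nat_lit 3) (nat_lit 5) (nat_lit 12) L81572 (by decide +kernel)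
theorem L81574 : W_31 (nat_lit 10) (nat_lit 0x8001e0004000200000001000080000000000000000000000000000000) (nat_lit 0x0) (nat_lit 0x10002c00760000001b800cc0004000000000000000000000000000000000000000) := T_31 (nat_lit 192) (nat_lit 191) (nat_lit 0) (nat_lit 8) (nat_lit 12) L81573 (by decide +kernel)
theorem L81575 : W_31 (nat_lit 2) (nat_lit 0x28001e000f000200000001000080000000000000000000000000000000) (nat_lit 0x0) (nat_lit 0xc0004000000000000000000000000000000000000000) := D_31 (nat_lit 175) (nat_lit 174) (nat_lit 158) (nat_lit 0) (nat_lit 8) (nat_lit 11) (nat_lit 7) (nat_lit 5) (nat_lit 9) (by decide +kernel)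
theorem L81576 : W_31 (nat_lit 3) (nat_lit 0x28001e000d000200000001000080000000000000000000000000000000) (nat_lit 0x0) (nat_lit 0x2000020000c0004000000000000000000000000000000000000000) := T_31 (nat_lit 193) (nat_lit 213) (nat_lit 3) (nat_lit 5) (nat_lit 11) L81575 (by decide +kernel)
theorem L81577 : W_31 (nat_lit 4) (nat_lit 0x28001e0005000200000001000080000000000000000000000000000000) (nat_lit 0x0) (nat_lit 0x20001a0000c0004000000000000000000000000000000000000000) := T_31 (nat_lit 195) (nat_lit 196) (nat_lit 2) (nat_lit 5) (nat_lit 12) L81576 (by decide +kernel)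
theorem L81578 : W_31 (nat_lit 5) (nat_lit 0x28001e0004000200000001000080000000000000000000000000000000) (nat_lit 0x0) (nat_lit 0x20001b8000c0004000000000000000000000000000000000000000) := T_31 (nat_lit 192) (nat_lit 191) (nat_lit 0) (nat_lit 8) (nat_lit 12) L81577 (by decide +kernel)
theorem L81579 : W_31 (nat_lit 6) (nat_lit 0x8001e0004000200000001000080000000000000000000000000000000) (nat_lit 0x0) (nat_lit 0x600020001b8000c0004000000000000000000000000000000000000000) := T_31 (nat_lit 229) (nat_lit 230) (nat_lit 3) (nat_lit 5) (nat_lit 12) L81578 (by decide +kernel)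
theorem L81580 : W_31 (nat_lit 11) (nat_lit 0x8000e0004000200000001000080000000000000000000000000000000) (nat_lit 0x0) (nat_lit 0x10002c00760030001b800cc0004000000000000000000000000000000000000000) := Q_31 (nat_lit 212) (C_31 L78962 (C_31 L81574 (C_31 L81579 N_31))) (by decide +kernel)
theorem L81581 : W_31 (nat_lit 12) (nat_lit 0x8000c0004000200000001000080000000000000000000000000000000) (nat_lit 0x0) (nat_lit 0x10002c00778033e01bf80cc0006000000000000000000000000000000000000000) := Q_31 (nat_lit 209) (C_31 L81562 (C_31 L81564 (C_31 L81565 (C_31 L81580 N_31)))) (by decide +kernel)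
theorem L81582 : W_31 (nat_lit 13) (nat_lit 0xc0004000200000001000080000000000000000000000000000000) (nat_lit 0x0) (nat_lit 0x30003c007f8033e01bf80cc0006000000000000000000000000000000000000000) := Q_31 (nat_lit 227) (C_31 L6743 (C_31 L81561 (C_31 L81581 N_31))) (by decide +kernel)
theorem L81583 : W_31 (nat_lit 5) (nat_lit 0x1c0004000200000001000080000000000000000000000000000000) (nat_lit 0x0) (nat_lit 0xe00063001b000000000000000000000000000000000000000000000000) := Q_31 (nat_lit 209) (C_31 L17815 (C_31 L79149 N_31)) (by decide +kernel)
theorem L81584 : W_31 (nat_lit 13) (nat_lit 0xc0004000200000001000080000000000000000000000000000000) (nat_lit 0x0) (nat_lit 0x10000800e70073803bc00cc001e000e00000000000000000000000000000000000) := Q_31 (nat_lit 212) (C_31 L17814 (C_31 L80647 (C_31 L79496 (C_31 L81583 N_31)))) (by decide +kernel)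
theorem L81585 : W_31 (nat_lit 14) (nat_lit 0x80004000200000001000080000000000000000000000000000000) (nat_lit 0x0) (nat_lit 0x30003c00ff8077e03bf80cc001e000e00000000000000000000000000000000000) := Q_31 (nat_lit 210) (C_31 L81582 (C_31 L81584 (C_31 L6744 (C_31 L78776 N_31)))) (by decide +kernel)
theorem L81586 : W_31 (nat_lit 2) (nat_lit 0x8000f0004000200000001000080000000000000000000000000000000) (nat_lit 0x0) (nat_lit 0x1000008002000000000000000000000000000000000000000000000000) := D_31 (nat_lit 207) (nat_lit 228) (nat_lit 193) (nat_lit 3) (nat_lit 3) (nat_lit 12) (nat_lit 2) (nat_lit 3) (nat_lit 12) (by decide +kernel)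
theorem L81587 : W_31 (nat_lit 8) (nat_lit 0x8000e0004000200000001000080000000000000000000000000000000) (nat_lit 0x0) (nat_lit 0x800178011e003f80040002000000000000000000000000000000000000000) := Q_31 (nat_lit 208) (C_31 L78989 (C_31 L78968 (C_31 L81586 N_31))) (by decide +kernel)
theorem L81588 : W_31 (nat_lit 3) (nat_lit 0x8000e0004000200000001000080000000000000000000000000000000) (nat_lit 0x0) (nat_lit 0x100001800a000000000000000000000000000000000000000000000000) := T_31 (nat_lit 208) (nat_lit 195) (nat_lit 2) (nat_lit 4) (nat_lit 12) L81586 (by decide +kernel)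
theorem L81589 : W_31 (nat_lit 2) (nat_lit 0xc001e000d000280000001000080000000000000000000000000000000) (nat_lit 0x0) (nat_lit 0x2000040002000000000000000000000000000000000000000) := D_31 (nat_lit 174) (nat_lit 193) (nat_lit 157) (nat_lit 0) (nat_lit 8) (nat_lit 11) (nat_lit 4) (nat_lit 5) (nat_lit 13) (by decide +kernel)
theorem L81590 : W_31 (nat_lit 3) (nat_lit 0x8001e000d000280000001000080000000000000000000000000000000) (nat_lit 0x0) (nat_lit 0x600000002000040002000000000000000000000000000000000000000) := T_31 (nat_lit 226) (nat_lit 225) (nat_lit 1) (nat_lit 8) (nat_lit 12) L81589 (by decide +kernel)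
theorem L81591 : W_31 (nat_lit 4) (nat_lit 0x8001e000d000200000001000080000000000000000000000000000000) (nat_lit 0x0) (nat_lit 0x6000000020000c0006000000000000000000000000000000000000000) := T_31 (nat_lit 175) (nat_lit 158) (nat_lit 7) (nat_lit 5) (nat_lit 9) L81590 (by decide +kernel)
theorem L81592 : W_31 (nat_lit 5) (nat_lit 0x8001e0005000200000001000080000000000000000000000000000000) (nat_lit 0x0) (nat_lit 0x60000001a0000c0006000000000000000000000000000000000000000) := T_31 (nat_lit 195) (nat_lit 196) (nat_lit 2) (nat_lit 5) (nat_lit 12) L81591 (by decide +kernel)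
theorem L81593 : W_31 (nat_lit 6) (nat_lit 0x8001e0004000200000001000080000000000000000000000000000000) (nat_lit 0x0) (nat_lit 0x60000001b8000c0006000000000000000000000000000000000000000) := T_31 (nat_lit 192) (nat_lit 191) (nat_lit 0) (nat_lit 8) (nat_lit 12) L81592 (by decide +kernel)
theorem L81594 : W_31 (nat_lit 2) (nat_lit 0x8003e000d000200000001000080000000000000000000000000000000) (nat_lit 0x0) (nat_lit 0x1000c00000000000000000000000000000000000000000000000000000) := D_31 (nat_lit 214) (nat_lit 228) (nat_lit 215) (nat_lit 1) (nat_lit 10) (nat_lit 12) (nat_lit 0) (nat_lit 11) (nat_lit 12) (by decide +kernel)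
theorem L81595 : W_31 (nat_lit 3) (nat_lit 0x8001e000d000200000001000080000000000000000000000000000000) (nat_lit 0x0) (nat_lit 0x1000e00002000000000000000000000000000000000000000000000000) := T_31 (nat_lit 213) (nat_lit 193) (nat_lit 3) (nat_lit 5) (nat_lit 11) L81594 (by decide +kernel)
theorem L81596 : W_31 (nat_lit 4) (nat_lit 0x8001e000c000200000001000080000000000000000000000000000000) (nat_lit 0x0) (nat_lit 0x1000e00003800000000000000000000000000000000000000000000000) := T_31 (nat_lit 192) (nat_lit 191) (nat_lit 0) (nat_lit 8) (nat_lit 12) L81595 (by decide +kernel)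
theorem L81597 : W_31 (nat_lit 5) (nat_lit 0x8001e0004000200000001000080000000000000000000000000000000) (nat_lit 0x0) (nat_lit 0x1000e0001b800000000000000000000000000000000000000000000000) := T_31 (nat_lit 195) (nat_lit 196) (nat_lit 2) (nat_lit 5) (nat_lit 12) L81596 (by decide +kernel)
theorem L81598 : W_31 (nat_lit 7) (nat_lit 0x8000e0004000200000001000080000000000000000000000000000000) (nat_lit 0x0) (nat_lit 0x1600f0001b8000c0006000000000000000000000000000000000000000) := Q_31 (nat_lit 212) (C_31 L78962 (C_31 L81593 (C_31 L81597 N_31))) (by decide +kernel)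
theorem L81599 : W_31 (nat_lit 9) (nat_lit 0x8000c0004000200000001000080000000000000000000000000000000) (nat_lit 0x0) (nat_lit 0x8001780f3e01bf800c0006000000000000000000000000000000000000000) := Q_31 (nat_lit 209) (C_31 L81562 (C_31 L81587 (C_31 L81588 (C_31 L81598 N_31)))) (by decide +kernel)
theorem L81600 : W_31 (nat_lit 10) (nat_lit 0xc0004000200000001000080000000000000000000000000000000) (nat_lit 0x0) (nat_lit 0x200018001f80f3e01bf800c0006000000000000000000000000000000000000000) := Q_31 (nat_lit 227) (C_31 L81561 (C_31 L6743 (C_31 L81599 N_31))) (by decide +kernel)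
theorem L81601 : W_31 (nat_lit 2) (nat_lit 0xe000c000200018001000080000000000000000000000000000000) (nat_lit 0x0) (nat_lit 0x100030000000000000000000000000000000000000000000000000) := D_31 (nat_lit 196) (nat_lit 197) (nat_lit 212) (nat_lit 1) (nat_lit 10) (nat_lit 11) (nat_lit 2) (nat_lit 5) (nat_lit 12) (by decide +kernel)
theorem L81602 : W_31 (nat_lit 3) (nat_lit 0xc000c000200018001000080000000000000000000000000000000) (nat_lit 0x0) (nat_lit 0x130030000000000000000000000000000000000000000000000000) := T_31 (nat_lit 209) (nat_lit 208) (nat_lit 2) (nat_lit 4) (nat_lit 12) L81601 (by decide +kernel)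
theorem L81603 : W_31 (nat_lit 4) (nat_lit 0xc000c000200010001000080000000000000000000000000000000) (nat_lit 0x0) (nat_lit 0x130030000000008000400000000000000000000000000000000000) := T_31 (nat_lit 159) (nat_lit 142) (nat_lit 4) (nat_lit 7) (nat_lit 12) L81602 (by decide +kernel)
theorem L81604 : W_31 (nat_lit 5) (nat_lit 0xc000c000200000001000080000000000000000000000000000000) (nat_lit 0x0) (nat_lit 0x130030000000018000c00000000000000000000000000000000000) := T_31 (nat_lit 160) (nat_lit 143) (nat_lit 6) (nat_lit 7) (nat_lit 11) L81603 (by decide +kernel)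
theorem L81611 : W_31 (nat_lit 2) (nat_lit 0xe000d00020001e001000080000000000000000000000000000000) (nat_lit 0x0) (nat_lit 0x80000000180000000000000000000000000000000000) := D_31 (nat_lit 140) (nat_lit 139) (nat_lit 175) (nat_lit 0) (nat_lit 7) (nat_lit 9) (nat_lit 4) (nat_lit 5) (nat_lit 12) (by decide +kernel)
theorem L81612 : W_31 (nat_lit 3) (nat_lit 0xe000d00020001a001000080000000000000000000000000000000) (nat_lit 0x0) (nat_lit 0x480004000180000000000000000000000000000000000) := T_31 (nat_lit 158) (nat_lit 178) (nat_lit 3) (nat_lit 4) (nat_lit 9) L81611 (by decide +kernel)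
theorem L81613 : W_31 (nat_lit 4) (nat_lit 0xe000d000200012001000080000000000000000000000000000000) (nat_lit 0x0) (nat_lit 0x48000c000580000000000000000000000000000000000) := T_31 (nat_lit 159) (nat_lit 142) (nat_lit 4) (nat_lit 7) (nat_lit 12) L81612 (by decide +kernel)
theorem L81614 : W_31 (nat_lit 5) (nat_lit 0xe000d000200002001000080000000000000000000000000000000) (nat_lit 0x0) (nat_lit 0x48001c000d80000000000000000000000000000000000) := T_31 (nat_lit 160) (nat_lit 143) (nat_lit 6) (nat_lit 7) (nat_lit 11) L81613 (by decide +kernel)
theorem L81615 : W_31 (nat_lit 2) (nat_lit 0xe000da0020001a001100080000000000000000000000000000000) (nat_lit 0x0) (nat_lit 0x80004000080000000000000000000000000000000000) := D_31 (nat_lit 158) (nat_lit 175) (nat_lit 139) (nat_lit 4) (nat_lit 5) (nat_lit 12) (nat_lit 0) (nat_lit 7) (nat_lit 9) (by decide +kernel)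
theorem L81616 : W_31 (nat_lit 3) (nat_lit 0xe000da0020001a001000080000000000000000000000000000000) (nat_lit 0x0) (nat_lit 0xc0004000180000000000000000000000000000000000) := T_31 (nat_lit 140) (nat_lit 174) (nat_lit 7) (nat_lit 4) (nat_lit 8) L81615 (by decide +kernel)
theorem L81617 : W_31 (nat_lit 4) (nat_lit 0xe000d80020001a001000080000000000000000000000000000000) (nat_lit 0x0) (nat_lit 0x6000c0004000180000000000000000000000000000000000) := T_31 (nat_lit 189) (nat_lit 190) (nat_lit 3) (nat_lit 2) (nat_lit 11) L81616 (by decide +kernel)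
theorem L81618 : W_31 (nat_lit 5) (nat_lit 0xe000d00020001a001000080000000000000000000000000000000) (nat_lit 0x0) (nat_lit 0x100000e000c0004000180000000000000000000000000000000000) := T_31 (nat_lit 191) (nat_lit 212) (nat_lit 0) (nat_lit 8) (nat_lit 12) L81617 (by decide +kernel)
theorem L81619 : W_31 (nat_lit 6) (nat_lit 0xe000d000200012001000080000000000000000000000000000000) (nat_lit 0x0) (nat_lit 0x100000e000c000c000580000000000000000000000000000000000) := T_31 (nat_lit 159) (nat_lit 142) (nat_lit 4) (nat_lit 7) (nat_lit 12) L81618 (by decide +kernel)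
theorem L81620 : W_31 (nat_lit 7) (nat_lit 0xe000d000200002001000080000000000000000000000000000000) (nat_lit 0x0) (nat_lit 0x100000e000c001c000d80000000000000000000000000000000000) := T_31 (nat_lit 160) (nat_lit 143) (nat_lit 6) (nat_lit 7) (nat_lit 11) L81619 (by decide +kernel)
theorem L81621 : W_31 (nat_lit 2) (nat_lit 0xe000da00240002001000080000000000000000000000000000000) (nat_lit 0x0) (nat_lit 0x8000400000000000080000000000000000000000000000000000000000000) := D_31 (nat_lit 226) (nat_lit 243) (nat_lit 175) (nat_lit 4) (nat_lit 5) (nat_lit 14) (nat_lit 4) (nat_lit 5) (nat_lit 13) (by decide +kernel)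
theorem L81622 : W_31 (nat_lit 3) (nat_lit 0xe000da00200002001000080000000000000000000000000000000) (nat_lit 0x0) (nat_lit 0x80004000000000000c0000000100000000000000000000000000000000000) := T_31 (nat_lit 174) (nat_lit 140) (nat_lit 7) (nat_lit 4) (nat_lit 8) L81621 (by decide +kernel)
theorem L81623 : W_31 (nat_lit 4) (nat_lit 0xe000d800200002001000080000000000000000000000000000000) (nat_lit 0x0) (nat_lit 0x80004000000006000c0000000100000000000000000000000000000000000) := T_31 (nat_lit 189) (nat_lit 190) (nat_lit 3) (nat_lit 2) (nat_lit 11) L81622 (by decide +kernel)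
theorem L81624 : W_31 (nat_lit 5) (nat_lit 0xe000d000200002001000080000000000000000000000000000000) (nat_lit 0x0) (nat_lit 0x8000400100000e000c0000000100000000000000000000000000000000000) := T_31 (nat_lit 191) (nat_lit 212) (nat_lit 0) (nat_lit 8) (nat_lit 12) L81623 (by decide +kernel)
theorem L81625 : W_31 (nat_lit 2) (nat_lit 0x1e000d00022001e001080080000000000000000000000000000000) (nat_lit 0x0) (nat_lit 0x10001000040000000000000000000000000000000000) := D_31 (nat_lit 156) (nat_lit 172) (nat_lit 138) (nat_lit 1) (nat_lit 6) (nat_lit 9) (nat_lit 0) (nat_lit 6) (nat_lit 9) (by decide +kernel)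
theorem L81626 : W_31 (nat_lit 3) (nat_lit 0x1e000d00022001e001000080000000000000000000000000000000) (nat_lit 0x0) (nat_lit 0x100010001c0000000000000000000000000000000000) := T_31 (nat_lit 139) (nat_lit 140) (nat_lit 0) (nat_lit 7) (nat_lit 9) L81625 (by decide +kernel)
theorem L81627 : W_31 (nat_lit 4) (nat_lit 0x1e000d00020001e001000080000000000000000000000000000000) (nat_lit 0x0) (nat_lit 0x700010001c0000000000000000000000000000000000) := T_31 (nat_lit 173) (nat_lit 174) (nat_lit 1) (nat_lit 7) (nat_lit 9) L81626 (by decide +kernel)
theorem L81628 : W_31 (nat_lit 5) (nat_lit 0x1e000d00020001a001000080000000000000000000000000000000) (nat_lit 0x0) (nat_lit 0x4700050001c0000000000000000000000000000000000) := T_31 (nat_lit 158) (nat_lit 178) (nat_lit 3) (nat_lit 4) (nat_lit 9) L81627 (by decide +kernel)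
theorem L81629 : W_31 (nat_lit 6) (nat_lit 0x1e000d000200012001000080000000000000000000000000000000) (nat_lit 0x0) (nat_lit 0x47000d0005c0000000000000000000000000000000000) := T_31 (nat_lit 159) (nat_lit 142) (nat_lit 4) (nat_lit 7) (nat_lit 12) L81628 (by decide +kernel)
theorem L81630 : W_31 (nat_lit 7) (nat_lit 0x1e000d000200002001000080000000000000000000000000000000) (nat_lit 0x0) (nat_lit 0x47001d000dc0000000000000000000000000000000000) := T_31 (nat_lit 160) (nat_lit 143) (nat_lit 7) (nat_lit 7) (nat_lit 8) L81629 (by decide +kernel)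
theorem L81631 : W_31 (nat_lit 8) (nat_lit 0xe000d000200002001000080000000000000000000000000000000) (nat_lit 0x0) (nat_lit 0x10000080047001d000dc0000000000000000000000000000000000) := T_31 (nat_lit 212) (nat_lit 191) (nat_lit 0) (nat_lit 8) (nat_lit 12) L81630 (by decide +kernel)
theorem L81632 : W_31 (nat_lit 2) (nat_lit 0x1e000d00024001e001000080000000000000000000000000000000) (nat_lit 0x0) (nat_lit 0x600000000000080000000000000000000000000000000000000000000) := D_31 (nat_lit 226) (nat_lit 225) (nat_lit 175) (nat_lit 1) (nat_lit 8) (nat_lit 12) (nat_lit 4) (nat_lit 5) (nat_lit 13) (by decide +kernel)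
theorem L81633 : W_31 (nat_lit 3) (nat_lit 0x1e000d00020001e001000080000000000000000000000000000000) (nat_lit 0x0) (nat_lit 0x6000000000000e0000000000000000000000000000000000000000000) := T_31 (nat_lit 174) (nat_lit 173) (nat_lit 1) (nat_lit 7) (nat_lit 9) L81632 (by decide +kernel)
theorem L81634 : W_31 (nat_lit 4) (nat_lit 0x1e000d00020001a001000080000000000000000000000000000000) (nat_lit 0x0) (nat_lit 0x6000000000004e0004000000000000000000000000000000000000000) := T_31 (nat_lit 158) (nat_lit 178) (nat_lit 3) (nat_lit 4) (nat_lit 9) L81633 (by decide +kernel)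
theorem L81635 : W_31 (nat_lit 5) (nat_lit 0x1e000d000200012001000080000000000000000000000000000000) (nat_lit 0x0) (nat_lit 0x6000000000004e000c000400000000000000000000000000000000000) := T_31 (nat_lit 159) (nat_lit 142) (nat_lit 4) (nat_lit 7) (nat_lit 12) L81634 (by decide +kernel)
theorem L81636 : W_31 (nat_lit 6) (nat_lit 0x1e000d000200002001000080000000000000000000000000000000) (nat_lit 0x0) (nat_lit 0x6000000000004e001c000c00000000000000000000000000000000000) := T_31 (nat_lit 160) (nat_lit 143) (nat_lit 7) (nat_lit 7) (nat_lit 8) L81635 (by decide +kernel)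
theorem L81637 : W_31 (nat_lit 7) (nat_lit 0xe000d000200002001000080000000000000000000000000000000) (nat_lit 0x0) (nat_lit 0x6001000008004e001c000c00000000000000000000000000000000000) := T_31 (nat_lit 212) (nat_lit 191) (nat_lit 0) (nat_lit 8) (nat_lit 12) L81636 (by decide +kernel)
theorem L81638 : W_31 (nat_lit 9) (nat_lit 0xe000d000200000001000080000000000000000000000000000000) (nat_lit 0x0) (nat_lit 0x8000600100000e004f001f000dc0000000000000000000000000000000000) := Q_31 (nat_lit 157) (C_31 L81614 (C_31 L81620 (C_31 L81624 (C_31 L81631 (C_31 L81637 N_31))))) (by decide +kernel)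
theorem L81639 : W_31 (nat_lit 10) (nat_lit 0xc000d000200000001000080000000000000000000000000000000) (nat_lit 0x0) (nat_lit 0x8000600130000e004f001f000dc0000000000000000000000000000000000) := T_31 (nat_lit 209) (nat_lit 208) (nat_lit 2) (nat_lit 4) (nat_lit 12) L81638 (by decide +kernel)
theorem L81640 : W_31 (nat_lit 2) (nat_lit 0x7e000d000200010001000080000000000000000000000000000000) (nat_lit 0x0) (nat_lit 0x1c000000000000000000000000000000000000000000000000000000000) := D_31 (nat_lit 231) (nat_lit 230) (nat_lit 232) (nat_lit 3) (nat_lit 6) (nat_lit 12) (nat_lit 3) (nat_lit 7) (nat_lit 12) (by decide +kernel)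
theorem L81641 : W_31 (nat_lit 3) (nat_lit 0x3e000d000200010001000080000000000000000000000000000000) (nat_lit 0x0) (nat_lit 0x1c000c00000000000000000000000000000000000000000000000000000) := T_31 (nat_lit 214) (nat_lit 215) (nat_lit 0) (nat_lit 11) (nat_lit 12) L81640 (by decide +kernel)
theorem L81642 : W_31 (nat_lit 4) (nat_lit 0x1e000d000200010001000080000000000000000000000000000000) (nat_lit 0x0) (nat_lit 0x1c000e00002000000000000000000000000000000000000000000000000) := T_31 (nat_lit 213) (nat_lit 193) (nat_lit 3) (nat_lit 5) (nat_lit 11) L81641 (by decide +kernel)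
theorem L81643 : W_31 (nat_lit 5) (nat_lit 0xe000d000200010001000080000000000000000000000000000000) (nat_lit 0x0) (nat_lit 0x1c000f00002800000000000000000000000000000000000000000000000) := T_31 (nat_lit 212) (nat_lit 191) (nat_lit 0) (nat_lit 8) (nat_lit 12) L81642 (by decide +kernel)
theorem L81644 : W_31 (nat_lit 6) (nat_lit 0xc000d000200010001000080000000000000000000000000000000) (nat_lit 0x0) (nat_lit 0x1c000f30002800000000000000000000000000000000000000000000000) := T_31 (nat_lit 209) (nat_lit 208) (nat_lit 2) (nat_lit 4) (nat_lit 12) L81643 (by decide +kernel)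
theorem L81645 : W_31 (nat_lit 7) (nat_lit 0xc000d000200000001000080000000000000000000000000000000) (nat_lit 0x0) (nat_lit 0x1c000f30002800000010000800000000000000000000000000000000000) := T_31 (nat_lit 160) (nat_lit 143) (nat_lit 6) (nat_lit 7) (nat_lit 11) L81644 (by decide +kernel)
theorem L81646 : W_31 (nat_lit 2) (nat_lit 0x7e000d000200000001000080000000000000000000000000000000) (nat_lit 0x0) (nat_lit 0x1c000000000000000000000000000000000000000000000000000000000) := D_31 (nat_lit 231) (nat_lit 230) (nat_lit 232) (nat_lit 3) (nat_lit 6) (nat_lit 12) (nat_lit 3) (nat_lit 7) (nat_lit 12) (by decide +kernel)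
theorem L81647 : W_31 (nat_lit 3) (nat_lit 0x3e000d000200000001000080000000000000000000000000000000) (nat_lit 0x0) (nat_lit 0x1c000c00000000000000000000000000000000000000000000000000000) := T_31 (nat_lit 214) (nat_lit 215) (nat_lit 0) (nat_lit 11) (nat_lit 12) L81646 (by decide +kernel)
theorem L81648 : W_31 (nat_lit 4) (nat_lit 0x1e000d000200000001000080000000000000000000000000000000) (nat_lit 0x0) (nat_lit 0x1c000e00002000000000000000000000000000000000000000000000000) := T_31 (nat_lit 213) (nat_lit 193) (nat_lit 3) (nat_lit 5) (nat_lit 11) L81647 (by decide +kernel)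
theorem L81649 : W_31 (nat_lit 5) (nat_lit 0xe000d000200000001000080000000000000000000000000000000) (nat_lit 0x0) (nat_lit 0x1c000f00002800000000000000000000000000000000000000000000000) := T_31 (nat_lit 212) (nat_lit 191) (nat_lit 0) (nat_lit 8) (nat_lit 12) L81648 (by decide +kernel)
theorem L81650 : W_31 (nat_lit 6) (nat_lit 0xc000d000200000001000080000000000000000000000000000000) (nat_lit 0x0) (nat_lit 0x1c000f30002800000000000000000000000000000000000000000000000) := T_31 (nat_lit 209) (nat_lit 208) (nat_lit 2) (nat_lit 4) (nat_lit 12) L81649 (by decide +kernel)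
theorem L81651 : W_31 (nat_lit 2) (nat_lit 0xc000f000200000001000080000000000000000000000000000000) (nat_lit 0x0) (nat_lit 0xc00400000000000000000000000000000000000000000000) := D_31 (nat_lit 191) (nat_lit 190) (nat_lit 178) (nat_lit 3) (nat_lit 3) (nat_lit 11) (nat_lit 2) (nat_lit 4) (nat_lit 11) (by decide +kernel)
theorem L81652 : W_31 (nat_lit 2) (nat_lit 0x200000000d000f000680018001000080000000000000000000000000000000) (nat_lit 0x0) (nat_lit 0x6000200000000000000000000000000000000000) := D_31 (nat_lit 158) (nat_lit 157) (nat_lit 141) (nat_lit 3) (nat_lit 4) (nat_lit 9) (nat_lit 7) (nat_lit 5) (nat_lit 8) (by decide +kernel)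
theorem L81653 : W_31 (nat_lit 3) (nat_lit 0x200000000d000f000680010001000080000000000000000000000000000000) (nat_lit 0x0) (nat_lit 0xe000600000000000000000000000000000000000) := T_31 (nat_lit 159) (nat_lit 142) (nat_lit 4) (nat_lit 7) (nat_lit 12) L81652 (by decide +kernel)
theorem L81654 : W_31 (nat_lit 4) (nat_lit 0x200000000d000f000600010001000080000000000000000000000000000000) (nat_lit 0x0) (nat_lit 0xc000e000600000000000000000000000000000000000) := T_31 (nat_lit 175) (nat_lit 174) (nat_lit 0) (nat_lit 8) (nat_lit 11) L81653 (by decide +kernel)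
theorem L81655 : W_31 (nat_lit 5) (nat_lit 0xd000f000600010001000080000000000000000000000000000000) (nat_lit 0x0) (nat_lit 0x200010000000000000c000e000600000000000000000000000000000000000) := T_31 (nat_lit 245) (nat_lit 228) (nat_lit 6) (nat_lit 7) (nat_lit 14) L81654 (by decide +kernel)
theorem L81656 : W_31 (nat_lit 6) (nat_lit 0xd000f000200010001000080000000000000000000000000000000) (nat_lit 0x0) (nat_lit 0x20001000000000000cc000e000600000000000000000000000000000000000) := T_31 (nat_lit 178) (nat_lit 179) (nat_lit 2) (nat_lit 5) (nat_lit 11) L81655 (by decide +kernel)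
theorem L81657 : W_31 (nat_lit 7) (nat_lit 0xd000f000200000001000080000000000000000000000000000000) (nat_lit 0x0) (nat_lit 0x20001000000000000cc001e000e00000000000000000000000000000000000) := T_31 (nat_lit 160) (nat_lit 143) (nat_lit 6) (nat_lit 7) (nat_lit 11) L81656 (by decide +kernel)
theorem L81658 : W_31 (nat_lit 8) (nat_lit 0xc000f000200000001000080000000000000000000000000000000) (nat_lit 0x0) (nat_lit 0x20001000030000000cc001e000e00000000000000000000000000000000000) := T_31 (nat_lit 208) (nat_lit 209) (nat_lit 2) (nat_lit 4) (nat_lit 12) L81657 (by decide +kernel)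
theorem L81659 : W_31 (nat_lit 9) (nat_lit 0xc000d000200000001000080000000000000000000000000000000) (nat_lit 0x0) (nat_lit 0x20001000030002c00ce001e000e00000000000000000000000000000000000) := Q_31 (nat_lit 193) (C_31 L80965 (C_31 L81651 (C_31 L81658 N_31))) (by decide +kernel)
theorem L81660 : W_31 (nat_lit 2) (nat_lit 0x200000001c000f00060001c001000080000000000000000000000000000000) (nat_lit 0x0) (nat_lit 0xc0000000200000000000000000000000000000000000) := D_31 (nat_lit 175) (nat_lit 174) (nat_lit 141) (nat_lit 0) (nat_lit 8) (nat_lit 11) (nat_lit 7) (nat_lit 5) (nat_lit 8) (by decide +kernel)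
theorem L81661 : W_31 (nat_lit 3) (nat_lit 0x200000001c000f000600018001000080000000000000000000000000000000) (nat_lit 0x0) (nat_lit 0xc0006000200000000000000000000000000000000000) := T_31 (nat_lit 158) (nat_lit 157) (nat_lit 3) (nat_lit 4) (nat_lit 9) L81660 (by decide +kernel)
theorem L81662 : W_31 (nat_lit 4) (nat_lit 0x200000001c000f000600010001000080000000000000000000000000000000) (nat_lit 0x0) (nat_lit 0xc000e000600000000000000000000000000000000000) := T_31 (nat_lit 159) (nat_lit 142) (nat_lit 4) (nat_lit 7) (nat_lit 12) L81661 (by decide +kernel)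
theorem L81663 : W_31 (nat_lit 5) (nat_lit 0x200000000c000f000600010001000080000000000000000000000000000000) (nat_lit 0x0) (nat_lit 0x3000000000c000e000600000000000000000000000000000000000) := T_31 (nat_lit 212) (nat_lit 213) (nat_lit 3) (nat_lit 5) (nat_lit 11) L81662 (by decide +kernel)
theorem L81664 : W_31 (nat_lit 6) (nat_lit 0xc000f000600010001000080000000000000000000000000000000) (nat_lit 0x0) (nat_lit 0x200010003000000000c000e000600000000000000000000000000000000000) := T_31 (nat_lit 245) (nat_lit 228) (nat_lit 6) (nat_lit 7) (nat_lit 14) L81663 (by decide +kernel)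
theorem L81665 : W_31 (nat_lit 7) (nat_lit 0xc000f000200010001000080000000000000000000000000000000) (nat_lit 0x0) (nat_lit 0x20001000300000000cc000e000600000000000000000000000000000000000) := T_31 (nat_lit 178) (nat_lit 179) (nat_lit 2) (nat_lit 5) (nat_lit 11) L81664 (by decide +kernel)
theorem L81666 : W_31 (nat_lit 8) (nat_lit 0xc000f000200000001000080000000000000000000000000000000) (nat_lit 0x0) (nat_lit 0x20001000300000000cc001e000e00000000000000000000000000000000000) := T_31 (nat_lit 160) (nat_lit 143) (nat_lit 6) (nat_lit 7) (nat_lit 11) L81665 (by decide +kernel)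
theorem L81667 : W_31 (nat_lit 9) (nat_lit 0xc000d000200000001000080000000000000000000000000000000) (nat_lit 0x0) (nat_lit 0x20001000300002c00ce001e000e00000000000000000000000000000000000) := Q_31 (nat_lit 193) (C_31 L81651 (C_31 L80965 (C_31 L81666 N_31))) (by decide +kernel)
theorem L81668 : W_31 (nat_lit 2) (nat_lit 0x1d000f00028001c001000080000000000000000000000000000000) (nat_lit 0x0) (nat_lit 0xc00002000000000000000000000000000000000000000) := D_31 (nat_lit 178) (nat_lit 179) (nat_lit 157) (nat_lit 2) (nat_lit 5) (nat_lit 11) (nat_lit 3) (nat_lit 4) (nat_lit 9) (by decide +kernel)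
theorem L81669 : W_31 (nat_lit 3) (nat_lit 0x1d000f000280018001000080000000000000000000000000000000) (nat_lit 0x0) (nat_lit 0xc00006000200000000000000000000000000000000000) := T_31 (nat_lit 158) (nat_lit 141) (nat_lit 7) (nat_lit 5) (nat_lit 8) L81668 (by decide +kernel)
theorem L81670 : W_31 (nat_lit 4) (nat_lit 0xd000f000280018001000080000000000000000000000000000000) (nat_lit 0x0) (nat_lit 0x300000000c00006000200000000000000000000000000000000000) := T_31 (nat_lit 212) (nat_lit 213) (nat_lit 3) (nat_lit 5) (nat_lit 11) L81669 (by decide +kernel)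
theorem L81671 : W_31 (nat_lit 5) (nat_lit 0xc000f000280018001000080000000000000000000000000000000) (nat_lit 0x0) (nat_lit 0x330000000c00006000200000000000000000000000000000000000) := T_31 (nat_lit 208) (nat_lit 209) (nat_lit 2) (nat_lit 4) (nat_lit 12) L81670 (by decide +kernel)
theorem L81672 : W_31 (nat_lit 6) (nat_lit 0xc000d000280018001000080000000000000000000000000000000) (nat_lit 0x0) (nat_lit 0x330002000c40006000200000000000000000000000000000000000) := T_31 (nat_lit 193) (nat_lit 174) (nat_lit 0) (nat_lit 8) (nat_lit 11) L81671 (by decide +kernel)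
theorem L81673 : W_31 (nat_lit 7) (nat_lit 0xc000d000280010001000080000000000000000000000000000000) (nat_lit 0x0) (nat_lit 0x330002000c4000e000600000000000000000000000000000000000) := T_31 (nat_lit 159) (nat_lit 142) (nat_lit 4) (nat_lit 7) (nat_lit 12) L81672 (by decide +kernel)
theorem L81674 : W_31 (nat_lit 8) (nat_lit 0xc000d000280000001000080000000000000000000000000000000) (nat_lit 0x0) (nat_lit 0x330002000c4001e000e00000000000000000000000000000000000) := T_31 (nat_lit 160) (nat_lit 143) (nat_lit 6) (nat_lit 7) (nat_lit 11) L81673 (by decide +kernel)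
theorem L81675 : W_31 (nat_lit 2) (nat_lit 0x2c000f00028001c001000080000000000000000000000000000000) (nat_lit 0x0) (nat_lit 0xc00002000000000000000000000000000000000000000) := D_31 (nat_lit 178) (nat_lit 179) (nat_lit 157) (nat_lit 2) (nat_lit 5) (nat_lit 11) (nat_lit 3) (nat_lit 4) (nat_lit 9) (by decide +kernel)
theorem L81676 : W_31 (nat_lit 3) (nat_lit 0x2c000f000280018001000080000000000000000000000000000000) (nat_lit 0x0) (nat_lit 0xc00006000200000000000000000000000000000000000) := T_31 (nat_lit 158) (nat_lit 141) (nat_lit 7) (nat_lit 5) (nat_lit 8) L81675 (by decide +kernel)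
theorem L81677 : W_31 (nat_lit 4) (nat_lit 0xc000f000280018001000080000000000000000000000000000000) (nat_lit 0x0) (nat_lit 0x300000000c00006000200000000000000000000000000000000000) := T_31 (nat_lit 213) (nat_lit 212) (nat_lit 3) (nat_lit 5) (nat_lit 11) L81676 (by decide +kernel)
theorem L81678 : W_31 (nat_lit 5) (nat_lit 0xc000d000280018001000080000000000000000000000000000000) (nat_lit 0x0) (nat_lit 0x300002000c40006000200000000000000000000000000000000000) := T_31 (nat_lit 193) (nat_lit 174) (nat_lit 0) (nat_lit 8) (nat_lit 11) L81677 (by decide +kernel)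
theorem L81679 : W_31 (nat_lit 6) (nat_lit 0xc000d000280010001000080000000000000000000000000000000) (nat_lit 0x0) (nat_lit 0x300002000c4000e000600000000000000000000000000000000000) := T_31 (nat_lit 159) (nat_lit 142) (nat_lit 4) (nat_lit 7) (nat_lit 12) L81678 (by decide +kernel)
theorem L81680 : W_31 (nat_lit 7) (nat_lit 0xc000d000280000001000080000000000000000000000000000000) (nat_lit 0x0) (nat_lit 0x300002000c4001e000e00000000000000000000000000000000000) := T_31 (nat_lit 160) (nat_lit 143) (nat_lit 6) (nat_lit 7) (nat_lit 11) L81679 (by decide +kernel)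
theorem L81681 : W_31 (nat_lit 2) (nat_lit 0x4000e000d0002c0018001000080000000000000000000000000000000) (nat_lit 0x0) (nat_lit 0x4000200100000000000000000000000000000000000000000000000000000) := D_31 (nat_lit 225) (nat_lit 212) (nat_lit 242) (nat_lit 1) (nat_lit 8) (nat_lit 12) (nat_lit 5) (nat_lit 5) (nat_lit 10) (by decide +kernel)
theorem L81682 : W_31 (nat_lit 3) (nat_lit 0xe000d0002c0018001000080000000000000000000000000000000) (nat_lit 0x0) (nat_lit 0x4000600100000000000002000000000000000000000000000000000000000) := T_31 (nat_lit 226) (nat_lit 157) (nat_lit 4) (nat_lit 5) (nat_lit 13) L81681 (by decide +kernel)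
theorem L81683 : W_31 (nat_lit 4) (nat_lit 0xc000d0002c0018001000080000000000000000000000000000000) (nat_lit 0x0) (nat_lit 0x4000600130000000000002000000000000000000000000000000000000000) := T_31 (nat_lit 209) (nat_lit 208) (nat_lit 2) (nat_lit 4) (nat_lit 12) L81682 (by decide +kernel)
theorem L81684 : W_31 (nat_lit 5) (nat_lit 0xc000d0002c0010001000080000000000000000000000000000000) (nat_lit 0x0) (nat_lit 0x400060013000000000000a000400000000000000000000000000000000000) := T_31 (nat_lit 159) (nat_lit 142) (nat_lit 4) (nat_lit 7) (nat_lit 12) L81683 (by decide +kernel)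
theorem L81685 : W_31 (nat_lit 6) (nat_lit 0xc000d0002c0000001000080000000000000000000000000000000) (nat_lit 0x0) (nat_lit 0x400060013000000000001a000c00000000000000000000000000000000000) := T_31 (nat_lit 160) (nat_lit 143) (nat_lit 6) (nat_lit 7) (nat_lit 11) L81684 (by decide +kernel)
theorem L81686 : W_31 (nat_lit 7) (nat_lit 0xc000d000280000001000080000000000000000000000000000000) (nat_lit 0x0) (nat_lit 0x400060013000200004001a000c00000000000000000000000000000000000) := T_31 (nat_lit 174) (nat_lit 193) (nat_lit 0) (nat_lit 8) (nat_lit 11) L81685 (by decide +kernel)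
theorem L81687 : W_31 (nat_lit 2) (nat_lit 0x200000002e000f000680006001000080000000000000000000000000000000) (nat_lit 0x0) (nat_lit 0x18000400000000000000000000000000000000000) := D_31 (nat_lit 159) (nat_lit 160) (nat_lit 142) (nat_lit 3) (nat_lit 4) (nat_lit 9) (nat_lit 6) (nat_lit 5) (nat_lit 12) (by decide +kernel)
theorem L81688 : W_31 (nat_lit 3) (nat_lit 0x200000002e000f000680004001000080000000000000000000000000000000) (nat_lit 0x0) (nat_lit 0x1a000500000000000000000000000000000000000) := T_31 (nat_lit 157) (nat_lit 140) (nat_lit 4) (nat_lit 5) (nat_lit 12) L81687 (by decide +kernel)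
theorem L81689 : W_31 (nat_lit 4) (nat_lit 0x2e000f000680004001000080000000000000000000000000000000) (nat_lit 0x0) (nat_lit 0x2000100000000000000001a000500000000000000000000000000000000000) := T_31 (nat_lit 245) (nat_lit 228) (nat_lit 6) (nat_lit 7) (nat_lit 14) L81688 (by decide +kernel)
theorem L81690 : W_31 (nat_lit 5) (nat_lit 0x2e000f000280004001000080000000000000000000000000000000) (nat_lit 0x0) (nat_lit 0x20001000000000000c0001a000500000000000000000000000000000000000) := T_31 (nat_lit 178) (nat_lit 179) (nat_lit 2) (nat_lit 5) (nat_lit 11) L81689 (by decide +kernel)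
theorem L81691 : W_31 (nat_lit 6) (nat_lit 0x2e000f000280000001000080000000000000000000000000000000) (nat_lit 0x0) (nat_lit 0x20001000000000000c0001e000700000000000000000000000000000000000) := T_31 (nat_lit 158) (nat_lit 141) (nat_lit 7) (nat_lit 5) (nat_lit 8) L81690 (by decide +kernel)
theorem L81692 : W_31 (nat_lit 7) (nat_lit 0xe000f000280000001000080000000000000000000000000000000) (nat_lit 0x0) (nat_lit 0x20001000300000000c0001e000700000000000000000000000000000000000) := T_31 (nat_lit 213) (nat_lit 212) (nat_lit 3) (nat_lit 5) (nat_lit 11) L81691 (by decide +kernel)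
theorem L81693 : W_31 (nat_lit 8) (nat_lit 0xe000d000280000001000080000000000000000000000000000000) (nat_lit 0x0) (nat_lit 0x20001000300002000c4001e000700000000000000000000000000000000000) := T_31 (nat_lit 193) (nat_lit 174) (nat_lit 0) (nat_lit 8) (nat_lit 11) L81692 (by decide +kernel)
theorem L81694 : W_31 (nat_lit 9) (nat_lit 0xc000d000280000001000080000000000000000000000000000000) (nat_lit 0x0) (nat_lit 0x20001000330002000c4001e000700000000000000000000000000000000000) := T_31 (nat_lit 209) (nat_lit 208) (nat_lit 2) (nat_lit 4) (nat_lit 12) L81693 (by decide +kernel)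
theorem L81695 : W_31 (nat_lit 2) (nat_lit 0x4000e000d0002c0010001000080000000000000000000000000000000) (nat_lit 0x0) (nat_lit 0x4000200100000000000000000000000000000000000000000000000000000) := D_31 (nat_lit 225) (nat_lit 212) (nat_lit 242) (nat_lit 1) (nat_lit 8) (nat_lit 12) (nat_lit 5) (nat_lit 5) (nat_lit 10) (by decide +kernel)
theorem L81696 : W_31 (nat_lit 3) (nat_lit 0xe000d0002c0010001000080000000000000000000000000000000) (nat_lit 0x0) (nat_lit 0x4000600100000000000002000000000000000000000000000000000000000) := T_31 (nat_lit 226) (nat_lit 157) (nat_lit 4) (nat_lit 5) (nat_lit 13) L81695 (by decide +kernel)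
theorem L81697 : W_31 (nat_lit 4) (nat_lit 0xc000d0002c0010001000080000000000000000000000000000000) (nat_lit 0x0) (nat_lit 0x4000600130000000000002000000000000000000000000000000000000000) := T_31 (nat_lit 209) (nat_lit 208) (nat_lit 2) (nat_lit 4) (nat_lit 12) L81696 (by decide +kernel)
theorem L81698 : W_31 (nat_lit 5) (nat_lit 0xc000d0002c0000001000080000000000000000000000000000000) (nat_lit 0x0) (nat_lit 0x4000600130000000000012000800000000000000000000000000000000000) := T_31 (nat_lit 160) (nat_lit 143) (nat_lit 6) (nat_lit 7) (nat_lit 11) L81697 (by decide +kernel)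
theorem L81699 : W_31 (nat_lit 6) (nat_lit 0xc000d000280000001000080000000000000000000000000000000) (nat_lit 0x0) (nat_lit 0x4000600130002000040012000800000000000000000000000000000000000) := T_31 (nat_lit 174) (nat_lit 193) (nat_lit 0) (nat_lit 8) (nat_lit 11) L81698 (by decide +kernel)
theorem L81700 : W_31 (nat_lit 2) (nat_lit 0xc000d000280000001400080000000000000000000000000000000) (nat_lit 0x0) (nat_lit 0x18000800000000000000000000000000000000000) := D_31 (nat_lit 160) (nat_lit 159) (nat_lit 143) (nat_lit 4) (nat_lit 7) (nat_lit 12) (nat_lit 6) (nat_lit 7) (nat_lit 11) (by decide +kernel)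
theorem L81701 : W_31 (nat_lit 2) (nat_lit 0xc000d000280008001400080000000000000000000000000000000) (nat_lit 0x0) (nat_lit 0x30000000000004000000000000000000000000000000000000000) := D_31 (nat_lit 209) (nat_lit 208) (nat_lit 158) (nat_lit 2) (nat_lit 4) (nat_lit 12) (nat_lit 6) (nat_lit 5) (nat_lit 12) (by decide +kernel)
theorem L81702 : W_31 (nat_lit 3) (nat_lit 0xc000d000280000001400080000000000000000000000000000000) (nat_lit 0x0) (nat_lit 0x3000000000001c000000000000000000000000000000000000000) := T_31 (nat_lit 159) (nat_lit 160) (nat_lit 4) (nat_lit 7) (nat_lit 12) L81701 (by decide +kernel)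
theorem L81703 : W_31 (nat_lit 2) (nat_lit 0xd000d000280000001e00080000000000000000000000000000000) (nat_lit 0x0) (nat_lit 0x6000000020000000000000000000000000000000) := D_31 (nat_lit 158) (nat_lit 157) (nat_lit 125) (nat_lit 1) (nat_lit 8) (nat_lit 8) (nat_lit 6) (nat_lit 5) (nat_lit 11) (by decide +kernel)
theorem L81704 : W_31 (nat_lit 3) (nat_lit 0xd000d000280000001c00080000000000000000000000000000000) (nat_lit 0x0) (nat_lit 0x6000200120000000000000000000000000000000) := T_31 (nat_lit 141) (nat_lit 128) (nat_lit 2) (nat_lit 5) (nat_lit 8) L81703 (by decide +kernel)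
theorem L81705 : W_31 (nat_lit 4) (nat_lit 0xd000d000280000001400080000000000000000000000000000000) (nat_lit 0x0) (nat_lit 0x16000a00120000000000000000000000000000000) := T_31 (nat_lit 143) (nat_lit 160) (nat_lit 6) (nat_lit 7) (nat_lit 11) L81704 (by decide +kernel)
theorem L81706 : W_31 (nat_lit 5) (nat_lit 0xc000d000280000001400080000000000000000000000000000000) (nat_lit 0x0) (nat_lit 0x30000000000016000a00120000000000000000000000000000000) := T_31 (nat_lit 208) (nat_lit 209) (nat_lit 2) (nat_lit 4) (nat_lit 12) L81705 (by decide +kernel)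
theorem L81707 : W_31 (nat_lit 2) (nat_lit 0xe000d000280004001600080000000000000000000000000000000) (nat_lit 0x0) (nat_lit 0x2000100008000000000000000000000000000000) := D_31 (nat_lit 140) (nat_lit 123) (nat_lit 157) (nat_lit 4) (nat_lit 5) (nat_lit 11) (nat_lit 4) (nat_lit 5) (nat_lit 12) (by decide +kernel)
theorem L81708 : W_31 (nat_lit 3) (nat_lit 0xe000d000280004001400080000000000000000000000000000000) (nat_lit 0x0) (nat_lit 0x2000300028000000000000000000000000000000) := T_31 (nat_lit 141) (nat_lit 125) (nat_lit 6) (nat_lit 5) (nat_lit 11) L81707 (by decide +kernel)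
theorem L81709 : W_31 (nat_lit 4) (nat_lit 0xe000d000280000001400080000000000000000000000000000000) (nat_lit 0x0) (nat_lit 0xe000300028000000000000000000000000000000) := T_31 (nat_lit 158) (nat_lit 159) (nat_lit 6) (nat_lit 5) (nat_lit 12) L81708 (by decide +kernel)
theorem L81710 : W_31 (nat_lit 5) (nat_lit 0xc000d000280000001400080000000000000000000000000000000) (nat_lit 0x0) (nat_lit 0x3000000000000e000300028000000000000000000000000000000) := T_31 (nat_lit 209) (nat_lit 208) (nat_lit 2) (nat_lit 4) (nat_lit 12) L81709 (by decide +kernel)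
theorem L81711 : W_31 (nat_lit 6) (nat_lit 0xc000d000280000001000080000000000000000000000000000000) (nat_lit 0x0) (nat_lit 0x3000000000001e000f00128000000000000000000000000000000) := Q_31 (nat_lit 142) (C_31 L81700 (C_31 L81702 (C_31 L81706 (C_31 L81710 N_31)))) (by decide +kernel)
theorem L81712 : W_31 (nat_lit 2) (nat_lit 0x4000e000d0002c0000001000080000000000000000000000000000000) (nat_lit 0x0) (nat_lit 0x4000200100000000000000000000000000000000000000000000000000000) := D_31 (nat_lit 225) (nat_lit 212) (nat_lit 242) (nat_lit 1) (nat_lit 8) (nat_lit 12) (nat_lit 5) (nat_lit 5) (nat_lit 10) (by decide +kernel)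
theorem L81713 : W_31 (nat_lit 3) (nat_lit 0xe000d0002c0000001000080000000000000000000000000000000) (nat_lit 0x0) (nat_lit 0x4000600100000000000002000000000000000000000000000000000000000) := T_31 (nat_lit 226) (nat_lit 157) (nat_lit 4) (nat_lit 5) (nat_lit 13) L81712 (by decide +kernel)
theorem L81714 : W_31 (nat_lit 4) (nat_lit 0xe000d000280000001000080000000000000000000000000000000) (nat_lit 0x0) (nat_lit 0x4000600100002000040002000000000000000000000000000000000000000) := T_31 (nat_lit 174) (nat_lit 193) (nat_lit 0) (nat_lit 8) (nat_lit 11) L81713 (by decide +kernel)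
theorem L81715 : W_31 (nat_lit 5) (nat_lit 0xc000d000280000001000080000000000000000000000000000000) (nat_lit 0x0) (nat_lit 0x4000600130002000040002000000000000000000000000000000000000000) := T_31 (nat_lit 209) (nat_lit 208) (nat_lit 2) (nat_lit 4) (nat_lit 12) L81714 (by decide +kernel)
theorem L81716 : W_31 (nat_lit 2) (nat_lit 0xc000f000280000001c00080000000000000000000000000000000) (nat_lit 0x0) (nat_lit 0x4000200100000000000000000000000000000000) := D_31 (nat_lit 141) (nat_lit 158) (nat_lit 128) (nat_lit 7) (nat_lit 5) (nat_lit 8) (nat_lit 2) (nat_lit 5) (nat_lit 8) (by decide +kernel)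
theorem L81717 : W_31 (nat_lit 3) (nat_lit 0xc000f000280000001400080000000000000000000000000000000) (nat_lit 0x0) (nat_lit 0x14000a00100000000000000000000000000000000) := T_31 (nat_lit 143) (nat_lit 160) (nat_lit 6) (nat_lit 7) (nat_lit 11) L81716 (by decide +kernel)
theorem L81718 : W_31 (nat_lit 4) (nat_lit 0xc000d000280000001400080000000000000000000000000000000) (nat_lit 0x0) (nat_lit 0x2000040014000a00100000000000000000000000000000000) := T_31 (nat_lit 193) (nat_lit 174) (nat_lit 0) (nat_lit 8) (nat_lit 11) L81717 (by decide +kernel)
theorem L81719 : W_31 (nat_lit 3) (nat_lit 0xc000f000280000001400080000000000000000000000000000000) (nat_lit 0x0) (nat_lit 0x3000000000000c000200000000000000000000000000000000000) := T_31 (nat_lit 209) (nat_lit 208) (nat_lit 2) (nat_lit 4) (nat_lit 12) L81020 (by decide +kernel)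
theorem L81720 : W_31 (nat_lit 4) (nat_lit 0xc000d000280000001400080000000000000000000000000000000) (nat_lit 0x0) (nat_lit 0x3000200004000c000200000000000000000000000000000000000) := T_31 (nat_lit 193) (nat_lit 174) (nat_lit 0) (nat_lit 8) (nat_lit 11) L81719 (by decide +kernel)
theorem L81721 : W_31 (nat_lit 5) (nat_lit 0xc000d000280000001000080000000000000000000000000000000) (nat_lit 0x0) (nat_lit 0x3000200004001c000e00100000000000000000000000000000000) := Q_31 (nat_lit 142) (C_31 L81700 (C_31 L81702 (C_31 L81718 (C_31 L81720 N_31)))) (by decide +kernel)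
theorem L81722 : W_31 (nat_lit 10) (nat_lit 0xc000d000200000001000080000000000000000000000000000000) (nat_lit 0x0) (nat_lit 0x24001600330002000cc001e000f00128000000000000000000000000000000) := Q_31 (nat_lit 175) (C_31 L81674 (C_31 L81680 (C_31 L81686 (C_31 L81694 (C_31 L81699 (C_31 L81711 (C_31 L81715 (C_31 L81721 N_31)))))))) (by decide +kernel)
theorem L81723 : W_31 (nat_lit 11) (nat_lit 0xc000c000200000001000080000000000000000000000000000000) (nat_lit 0x0) (nat_lit 0x2c01d600f30003e00cf001f000fc0128000000000000000000000000000000) := Q_31 (nat_lit 192) (C_31 L81639 (C_31 L81645 (C_31 L81650 (C_31 L81659 (C_31 L81667 (C_31 L81722 N_31)))))) (by decide +kernel)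
theorem L81724 : W_31 (nat_lit 2) (nat_lit 0x2c001f000200018001000080000000000000000000000000000000) (nat_lit 0x0) (nat_lit 0xc00400000000000000000000000000000000000000000000) := D_31 (nat_lit 191) (nat_lit 190) (nat_lit 178) (nat_lit 3) (nat_lit 3) (nat_lit 11) (nat_lit 2) (nat_lit 4) (nat_lit 11) (by decide +kernel)
theorem L81725 : W_31 (nat_lit 3) (nat_lit 0x2c001e000200018001000080000000000000000000000000000000) (nat_lit 0x0) (nat_lit 0x100001c00400000000000000000000000000000000000000000000) := T_31 (nat_lit 192) (nat_lit 212) (nat_lit 3) (nat_lit 5) (nat_lit 11) L81724 (by decide +kernel)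
theorem L81726 : W_31 (nat_lit 4) (nat_lit 0x2c001c000200018001000080000000000000000000000000000000) (nat_lit 0x0) (nat_lit 0x500003c00400000000000000000000000000000000000000000000) := T_31 (nat_lit 193) (nat_lit 214) (nat_lit 3) (nat_lit 6) (nat_lit 11) L81725 (by decide +kernel)
theorem L81727 : W_31 (nat_lit 5) (nat_lit 0x2c001c000200010001000080000000000000000000000000000000) (nat_lit 0x0) (nat_lit 0x500003c00400008000400000000000000000000000000000000000) := T_31 (nat_lit 159) (nat_lit 142) (nat_lit 4) (nat_lit 7) (nat_lit 12) L81726 (by decide +kernel)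
theorem L81728 : W_31 (nat_lit 6) (nat_lit 0x2c001c000200000001000080000000000000000000000000000000) (nat_lit 0x0) (nat_lit 0x500003c00400018000c00000000000000000000000000000000000) := T_31 (nat_lit 160) (nat_lit 143) (nat_lit 6) (nat_lit 7) (nat_lit 11) L81727 (by decide +kernel)
theorem L81729 : W_31 (nat_lit 8) (nat_lit 0x2c001f400200000001800080000000000000000000000000000000) (nat_lit 0x0) (nat_lit 0xe000780078011c000000000000000000000000000000) := T_31 (nat_lit 175) (nat_lit 174) (nat_lit 0) (nat_lit 8) (nat_lit 11) L80974 (by decide +kernel)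
theorem L81730 : W_31 (nat_lit 9) (nat_lit 0x2c001f400200000001000080000000000000000000000000000000) (nat_lit 0x0) (nat_lit 0xe0017800f8011c000000000000000000000000000000) := T_31 (nat_lit 143) (nat_lit 160) (nat_lit 6) (nat_lit 7) (nat_lit 11) L81729 (by decide +kernel)
theorem L81731 : W_31 (nat_lit 10) (nat_lit 0x2c001f000200000001000080000000000000000000000000000000) (nat_lit 0x0) (nat_lit 0xc000e0017800f8011c000000000000000000000000000000) := T_31 (nat_lit 190) (nat_lit 191) (nat_lit 3) (nat_lit 3) (nat_lit 11) L81730 (by decide +kernel)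
theorem L81732 : W_31 (nat_lit 11) (nat_lit 0x2c001e000200000001000080000000000000000000000000000000) (nat_lit 0x0) (nat_lit 0x100001c000e0017800f8011c000000000000000000000000000000) := T_31 (nat_lit 192) (nat_lit 212) (nat_lit 3) (nat_lit 5) (nat_lit 11) L81731 (by decide +kernel)
theorem L81733 : W_31 (nat_lit 12) (nat_lit 0x2c001c000200000001000080000000000000000000000000000000) (nat_lit 0x0) (nat_lit 0x500003c000e0017800f8011c000000000000000000000000000000) := T_31 (nat_lit 193) (nat_lit 214) (nat_lit 3) (nat_lit 6) (nat_lit 11) L81732 (by decide +kernel)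
theorem L81734 : W_31 (nat_lit 2) (nat_lit 0x2c001f000200000001000080000000000000000000000000000000) (nat_lit 0x0) (nat_lit 0xc00400000000000000000000000000000000000000000000) := D_31 (nat_lit 191) (nat_lit 190) (nat_lit 178) (nat_lit 3) (nat_lit 3) (nat_lit 11) (nat_lit 2) (nat_lit 4) (nat_lit 11) (by decide +kernel)
theorem L81735 : W_31 (nat_lit 3) (nat_lit 0x2c001e000200000001000080000000000000000000000000000000) (nat_lit 0x0) (nat_lit 0x100001c00400000000000000000000000000000000000000000000) := T_31 (nat_lit 192) (nat_lit 212) (nat_lit 3) (nat_lit 5) (nat_lit 11) L81734 (by decide +kernel)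
theorem L81736 : W_31 (nat_lit 4) (nat_lit 0x2c001c000200000001000080000000000000000000000000000000) (nat_lit 0x0) (nat_lit 0x500003c00400000000000000000000000000000000000000000000) := T_31 (nat_lit 193) (nat_lit 214) (nat_lit 3) (nat_lit 6) (nat_lit 11) L81735 (by decide +kernel)
theorem L81737 : W_31 (nat_lit 2) (nat_lit 0x1c000c0002c001c000200018001000080000000000000000000000000000000) (nat_lit 0x0) (nat_lit 0x30010000000000000000000000000000000000000000000000000000000000) := D_31 (nat_lit 245) (nat_lit 232) (nat_lit 244) (nat_lit 2) (nat_lit 7) (nat_lit 14) (nat_lit 2) (nat_lit 6) (nat_lit 14) (by decide +kernel)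
theorem L81738 : W_31 (nat_lit 3) (nat_lit 0x1c00040002c001c000200018001000080000000000000000000000000000000) (nat_lit 0x0) (nat_lit 0x30018000000000000800000000000000000000000000000000000000000000) := T_31 (nat_lit 231) (nat_lit 179) (nat_lit 7) (nat_lit 9) (nat_lit 10) L81737 (by decide +kernel)
theorem L81739 : W_31 (nat_lit 4) (nat_lit 0xc00040002c001c000200018001000080000000000000000000000000000000) (nat_lit 0x0) (nat_lit 0x2000130018000000000000800000000000000000000000000000000000000000000) := T_31 (nat_lit 248) (nat_lit 265) (nat_lit 7) (nat_lit 9) (nat_lit 11) L81738 (by decide +kernel)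
theorem L81740 : W_31 (nat_lit 5) (nat_lit 0x800040002c001c000200018001000080000000000000000000000000000000) (nat_lit 0x0) (nat_lit 0x2800170018000000000000800000000000000000000000000000000000000000000) := T_31 (nat_lit 246) (nat_lit 263) (nat_lit 5) (nat_lit 9) (nat_lit 11) L81739 (by decide +kernel)
theorem L81741 : W_31 (nat_lit 6) (nat_lit 0x40002c001c000200018001000080000000000000000000000000000000) (nat_lit 0x0) (nat_lit 0x28001f0018000000000000c00000000000000000000000000000000000000000000) := T_31 (nat_lit 247) (nat_lit 178) (nat_lit 4) (nat_lit 9) (nat_lit 14) L81740 (by decide +kernel)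
theorem L81742 : W_31 (nat_lit 7) (nat_lit 0x40002c001c000200010001000080000000000000000000000000000000) (nat_lit 0x0) (nat_lit 0x28001f0018000000000000c00008000400000000000000000000000000000000000) := T_31 (nat_lit 159) (nat_lit 142) (nat_lit 4) (nat_lit 7) (nat_lit 12) L81741 (by decide +kernel)
theorem L81743 : W_31 (nat_lit 8) (nat_lit 0x40002c001c000200000001000080000000000000000000000000000000) (nat_lit 0x0) (nat_lit 0x28001f0018000000000000c00018000c00000000000000000000000000000000000) := T_31 (nat_lit 160) (nat_lit 143) (nat_lit 6) (nat_lit 7) (nat_lit 11) L81742 (by decide +kernel)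
theorem L81744 : W_31 (nat_lit 2) (nat_lit 0xc0002c001c000a00058001000080000000000000000000000000000000) (nat_lit 0x0) (nat_lit 0x1000080004000000000000000000000000000000000000) := D_31 (nat_lit 163) (nat_lit 146) (nat_lit 180) (nat_lit 6) (nat_lit 9) (nat_lit 12) (nat_lit 6) (nat_lit 9) (nat_lit 13) (by decide +kernel)
theorem L81745 : W_31 (nat_lit 3) (nat_lit 0xc0002c001c000a00018001000080000000000000000000000000000000) (nat_lit 0x0) (nat_lit 0x4000000010000c0004000000000000000000000000000000000000) := T_31 (nat_lit 162) (nat_lit 214) (nat_lit 7) (nat_lit 9) (nat_lit 9) L81744 (by decide +kernel)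
theorem L81746 : W_31 (nat_lit 4) (nat_lit 0xc0002c001c000200018001000080000000000000000000000000000000) (nat_lit 0x0) (nat_lit 0x1000000004000000018000c0004000000000000000000000000000000000000) := T_31 (nat_lit 179) (nat_lit 248) (nat_lit 7) (nat_lit 9) (nat_lit 10) L81745 (by decide +kernel)
theorem L81747 : W_31 (nat_lit 5) (nat_lit 0xc0002c001c000200010001000080000000000000000000000000000000) (nat_lit 0x0) (nat_lit 0x1000000004000000018000c8004400000000000000000000000000000000000) := T_31 (nat_lit 159) (nat_lit 142) (nat_lit 4) (nat_lit 7) (nat_lit 12) L81746 (by decide +kernel)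
theorem L81748 : W_31 (nat_lit 6) (nat_lit 0xc0002c001c000200000001000080000000000000000000000000000000) (nat_lit 0x0) (nat_lit 0x1000000004000000018000d8004c00000000000000000000000000000000000) := T_31 (nat_lit 160) (nat_lit 143) (nat_lit 6) (nat_lit 7) (nat_lit 11) L81747 (by decide +kernel)
theorem L81749 : W_31 (nat_lit 7) (nat_lit 0x40002c001c000200000001000080000000000000000000000000000000) (nat_lit 0x0) (nat_lit 0x1000080005000000018000d8004c00000000000000000000000000000000000) := T_31 (nat_lit 231) (nat_lit 212) (nat_lit 3) (nat_lit 6) (nat_lit 12) L81748 (by decide +kernel)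
theorem L81751 : W_31 (nat_lit 3) (nat_lit 0x40002c001c000200000001000080000000000000000000000000000000) (nat_lit 0x0) (nat_lit 0x1000080008000100000000400000000000000000000000000000000000000000000) := T_31 (nat_lit 212) (nat_lit 231) (nat_lit 3) (nat_lit 6) (nat_lit 12) L81750 (by decide +kernel)
theorem L81752 : W_31 (nat_lit 2) (nat_lit 0x10000800040002c001c000200018001000080000000000000000000000000000000) (nat_lit 0x0) (nat_lit 0x40002000100000000000000000000000000000000000000000000000000000000000000) := D_31 (nat_lit 265) (nat_lit 248) (nat_lit 282) (nat_lit 7) (nat_lit 9) (nat_lit 11) (nat_lit 7) (nat_lit 9) (nat_lit 12) (by decide +kernel)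
theorem L81753 : W_31 (nat_lit 3) (nat_lit 0x800040002c001c000200018001000080000000000000000000000000000000) (nat_lit 0x0) (nat_lit 0x40003000100000000100000000000000000000000000000000000000000000000000000) := T_31 (nat_lit 264) (nat_lit 212) (nat_lit 4) (nat_lit 9) (nat_lit 15) L81752 (by decide +kernel)
theorem L81754 : W_31 (nat_lit 4) (nat_lit 0x40002c001c000200018001000080000000000000000000000000000000) (nat_lit 0x0) (nat_lit 0x40003000180000000100000000400000000000000000000000000000000000000000000) := T_31 (nat_lit 247) (nat_lit 178) (nat_lit 4) (nat_lit 9) (nat_lit 14) L81753 (by decide +kernel)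
theorem L81755 : W_31 (nat_lit 5) (nat_lit 0x40002c001c000200010001000080000000000000000000000000000000) (nat_lit 0x0) (nat_lit 0x40003000180000000100000000400008000400000000000000000000000000000000000) := T_31 (nat_lit 159) (nat_lit 142) (nat_lit 4) (nat_lit 7) (nat_lit 12) L81754 (by decide +kernel)
theorem L81756 : W_31 (nat_lit 6) (nat_lit 0x40002c001c000200000001000080000000000000000000000000000000) (nat_lit 0x0) (nat_lit 0x40003000180000000100000000400018000c00000000000000000000000000000000000) := T_31 (nat_lit 160) (nat_lit 143) (nat_lit 6) (nat_lit 7) (nat_lit 11) L81755 (by decide +kernel)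
theorem L81757 : W_31 (nat_lit 9) (nat_lit 0x2c001c000200000001000080000000000000000000000000000000) (nat_lit 0x0) (nat_lit 0x400038001f001c000500000001c000d8004c00000000000000000000000000000000000) := Q_31 (nat_lit 230) (C_31 L81743 (C_31 L81749 (C_31 L81751 (C_31 L81756 N_31)))) (by decide +kernel)
theorem L81758 : W_31 (nat_lit 2) (nat_lit 0x2c001f800a00018001000080000000000000000000000000000000) (nat_lit 0x0) (nat_lit 0xe0000000000000000000000000000000000000000000) := D_31 (nat_lit 174) (nat_lit 175) (nat_lit 173) (nat_lit 0) (nat_lit 8) (nat_lit 11) (nat_lit 0) (nat_lit 7) (nat_lit 11) (by decide +kernel)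
theorem L81759 : W_31 (nat_lit 3) (nat_lit 0x2c001f000a00018001000080000000000000000000000000000000) (nat_lit 0x0) (nat_lit 0xc000e0000000000000000000000000000000000000000000) := T_31 (nat_lit 191) (nat_lit 190) (nat_lit 3) (nat_lit 3) (nat_lit 11) L81758 (by decide +kernel)
theorem L81760 : W_31 (nat_lit 4) (nat_lit 0x2c001e000a00018001000080000000000000000000000000000000) (nat_lit 0x0) (nat_lit 0x1c004e0000000000000000000000000000000000000000000) := T_31 (nat_lit 192) (nat_lit 178) (nat_lit 2) (nat_lit 5) (nat_lit 11) L81759 (by decide +kernel)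
theorem L81761 : W_31 (nat_lit 5) (nat_lit 0x2c001e000200018001000080000000000000000000000000000000) (nat_lit 0x0) (nat_lit 0x1c01ce0000000000000000000000000000000000000000000) := T_31 (nat_lit 179) (nat_lit 180) (nat_lit 2) (nat_lit 6) (nat_lit 11) L81760 (by decide +kernel)
theorem L81762 : W_31 (nat_lit 6) (nat_lit 0x2c001c000200018001000080000000000000000000000000000000) (nat_lit 0x0) (nat_lit 0x400003c01ce0000000000000000000000000000000000000000000) := T_31 (nat_lit 193) (nat_lit 214) (nat_lit 3) (nat_lit 6) (nat_lit 11) L81761 (by decide +kernel)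
theorem L81763 : W_31 (nat_lit 7) (nat_lit 0x2c001c000200010001000080000000000000000000000000000000) (nat_lit 0x0) (nat_lit 0x400003c01ce0008000400000000000000000000000000000000000) := T_31 (nat_lit 159) (nat_lit 142) (nat_lit 4) (nat_lit 7) (nat_lit 12) L81762 (by decide +kernel)
theorem L81764 : W_31 (nat_lit 8) (nat_lit 0x2c001c000200000001000080000000000000000000000000000000) (nat_lit 0x0) (nat_lit 0x400003c01ce0018000c00000000000000000000000000000000000) := T_31 (nat_lit 160) (nat_lit 143) (nat_lit 6) (nat_lit 7) (nat_lit 11) L81763 (by decide +kernel)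
theorem L81765 : W_31 (nat_lit 2) (nat_lit 0xc0002c001c000a00018001000080000000000000000000000000000000) (nat_lit 0x0) (nat_lit 0x2001000080000000000000000000000000000000000000000) := D_31 (nat_lit 180) (nat_lit 163) (nat_lit 193) (nat_lit 6) (nat_lit 9) (nat_lit 13) (nat_lit 2) (nat_lit 6) (nat_lit 11) (by decide +kernel)
theorem L81766 : W_31 (nat_lit 3) (nat_lit 0xc0002c001c000200018001000080000000000000000000000000000000) (nat_lit 0x0) (nat_lit 0x100000000000002001800080000000000000000000000000000000000000000) := T_31 (nat_lit 179) (nat_lit 248) (nat_lit 7) (nat_lit 9) (nat_lit 10) L81765 (by decide +kernel)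
theorem L81767 : W_31 (nat_lit 4) (nat_lit 0x40002c001c000200018001000080000000000000000000000000000000) (nat_lit 0x0) (nat_lit 0x100008000100002001800080000000000000000000000000000000000000000) := T_31 (nat_lit 231) (nat_lit 212) (nat_lit 3) (nat_lit 6) (nat_lit 12) L81766 (by decide +kernel)
theorem L81768 : W_31 (nat_lit 5) (nat_lit 0x40002c001c000200010001000080000000000000000000000000000000) (nat_lit 0x0) (nat_lit 0x100008000100002001800088000400000000000000000000000000000000000) := T_31 (nat_lit 159) (nat_lit 142) (nat_lit 4) (nat_lit 7) (nat_lit 12) L81767 (by decide +kernel)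
theorem L81769 : W_31 (nat_lit 6) (nat_lit 0x40002c001c000200000001000080000000000000000000000000000000) (nat_lit 0x0) (nat_lit 0x100008000100002001800098000c00000000000000000000000000000000000) := T_31 (nat_lit 160) (nat_lit 143) (nat_lit 6) (nat_lit 7) (nat_lit 11) L81768 (by decide +kernel)
theorem L81770 : W_31 (nat_lit 9) (nat_lit 0x2c001c000200000001000080000000000000000000000000000000) (nat_lit 0x0) (nat_lit 0x400038001f001c000100002001c00098000c00000000000000000000000000000000000) := Q_31 (nat_lit 230) (C_31 L81743 (C_31 L81756 (C_31 L81769 (C_31 L81751 N_31)))) (by decide +kernel)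
theorem L81771 : W_31 (nat_lit 13) (nat_lit 0xc001c000200000001000080000000000000000000000000000000) (nat_lit 0x0) (nat_lit 0x400038001f001c000700003c01ce00df804f8011c000000000000000000000000000000) := Q_31 (nat_lit 213) (C_31 L81728 (C_31 L81733 (C_31 L81736 (C_31 L81757 (C_31 L81764 (C_31 L81770 N_31)))))) (by decide +kernel)
theorem L81772 : W_31 (nat_lit 14) (nat_lit 0xc000c000200000001000080000000000000000000000000000000) (nat_lit 0x0) (nat_lit 0x400038001f001c000700033c01ce00df804f8011c000000000000000000000000000000) := T_31 (nat_lit 196) (nat_lit 197) (nat_lit 1) (nat_lit 10) (nat_lit 11) L81771 (by decide +kernel)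
theorem L81773 : W_31 (nat_lit 15) (nat_lit 0xc0004000200000001000080000000000000000000000000000000) (nat_lit 0x0) (nat_lit 0x400038001fc01d600f3003be01cf00df804fc013c000000000000000000000000000000) := Q_31 (nat_lit 195) (C_31 L9036 (C_31 L81604 (C_31 L81723 (C_31 L81772 N_31)))) (by decide +kernel)
theorem L81774 : W_31 (nat_lit 16) (nat_lit 0x80004000200000001000080000000000000000000000000000000) (nat_lit 0x0) (nat_lit 0x40003a001fc01df80f7e03bf81cf00df804fc013c000000000000000000000000000000) := Q_31 (nat_lit 210) (C_31 L81600 (C_31 L81773 (C_31 L6744 (C_31 L78776 N_31)))) (by decide +kernel)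
theorem L81775 : W_31 (nat_lit 17) (nat_lit 0x4000200000001000080000000000000000000000000000000) (nat_lit 0x0) (nat_lit 0x5c003fc03fe03ff80ffe0fbf87cf00dfc04fe013c000800000000000000000000000000) := Q_31 (nat_lit 211) (C_31 L79463 (C_31 L17799 (C_31 L80583 (C_31 L80649 (C_31 L80658 (C_31 L81265 (C_31 L81560 (C_31 L81585 (C_31 L81774 N_31))))))))) (by decide +kernel)
theorem L81834 : W_31 (nat_lit 12) (nat_lit 0x4000200000001000080000000000000000000000000000000) (nat_lit 0x0) (nat_lit 0x1c001f803fc03ff80ff807bc01dc00d8000c00000000000000000000000000000000000) := Q_31 (nat_lit 211) (C_31 L80658 (C_31 L79506 (C_31 L80583 (C_31 L81833 (C_31 L79507 (C_31 L79508 (C_31 L79509 (C_31 L79510 (C_31 L79511 N_31))))))))) (by decide +kernel)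
theorem L81944 : W_31 (nat_lit 2) (nat_lit 0x500006001a000d000780000001000080000000000000000000000000000000) (nat_lit 0x0) (nat_lit 0x200028000000000000000000000000000000000000000000000000000000000000) := D_31 (nat_lit 243) (nat_lit 245) (nat_lit 261) (nat_lit 0) (nat_lit 8) (nat_lit 14) (nat_lit 7) (nat_lit 5) (nat_lit 11) (by decide +kernel)
theorem L81945 : W_31 (nat_lit 2) (nat_lit 0x1e000c000300000001000080000000000000000000000000000000) (nat_lit 0x0) (nat_lit 0x40006000000000000000000000000000000000000000000000000000000000) := D_31 (nat_lit 229) (nat_lit 246) (nat_lit 230) (nat_lit 4) (nat_lit 8) (nat_lit 14) (nat_lit 3) (nat_lit 5) (nat_lit 12) (by decide +kernel)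
theorem L81946 : W_31 (nat_lit 3) (nat_lit 0x1c000c000300000001000080000000000000000000000000000000) (nat_lit 0x0) (nat_lit 0x40006000030000000000000000000000000000000000000000000000000000) := T_31 (nat_lit 209) (nat_lit 208) (nat_lit 2) (nat_lit 4) (nat_lit 12) L81945 (by decide +kernel)
theorem L82118 : W_31 (nat_lit 2) (nat_lit 0x1000180007000200000001000080000000000000000000000000000000) (nat_lit 0x0) (nat_lit 0x600008000000000000000000000000000000000000000000000000) := D_31 (nat_lit 213) (nat_lit 195) (nat_lit 214) (nat_lit 3) (nat_lit 5) (nat_lit 11) (nat_lit 0) (nat_lit 10) (nat_lit 12) (by decide +kernel)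
theorem L82119 : W_31 (nat_lit 2) (nat_lit 0x34001a000f000b80000001000080000000000000000000000000000000) (nat_lit 0x0) (nat_lit 0x4200040000000000000000000000000000000000000000000000000000) := D_31 (nat_lit 210) (nat_lit 230) (nat_lit 225) (nat_lit 3) (nat_lit 5) (nat_lit 12) (nat_lit 1) (nat_lit 8) (nat_lit 12) (by decide +kernel)
theorem L82120 : W_31 (nat_lit 3) (nat_lit 0x30001a000f000b80000001000080000000000000000000000000000000) (nat_lit 0x0) (nat_lit 0x8004600040000000000000000000000000000000000000000000000000000) := T_31 (nat_lit 226) (nat_lit 243) (nat_lit 6) (nat_lit 5) (nat_lit 14) L82119 (by decide +kernel)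
theorem L82121 : W_31 (nat_lit 4) (nat_lit 0x300018000f000b80000001000080000000000000000000000000000000) (nat_lit 0x0) (nat_lit 0x8004600070000000000000000000000000000000000000000000000000000) := T_31 (nat_lit 209) (nat_lit 208) (nat_lit 1) (nat_lit 8) (nat_lit 11) L82120 (by decide +kernel)
theorem L82122 : W_31 (nat_lit 5) (nat_lit 0x300018000f000380000001000080000000000000000000000000000000) (nat_lit 0x0) (nat_lit 0x8004600070000000c00000000000000000000000000000000000000000000) := T_31 (nat_lit 179) (nat_lit 178) (nat_lit 2) (nat_lit 5) (nat_lit 11) L82121 (by decide +kernel)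
theorem L82123 : W_31 (nat_lit 6) (nat_lit 0x300018000f000280000001000080000000000000000000000000000000) (nat_lit 0x0) (nat_lit 0x8004600070000000d00008000000000000000000000000000000000000000) := T_31 (nat_lit 176) (nat_lit 159) (nat_lit 4) (nat_lit 7) (nat_lit 13) L82122 (by decide +kernel)
theorem L82124 : W_31 (nat_lit 7) (nat_lit 0x3000180007000280000001000080000000000000000000000000000000) (nat_lit 0x0) (nat_lit 0x8004600070008000d40008000000000000000000000000000000000000000) := T_31 (nat_lit 195) (nat_lit 174) (nat_lit 0) (nat_lit 8) (nat_lit 11) L82123 (by decide +kernel)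
theorem L82125 : W_31 (nat_lit 8) (nat_lit 0x1000180007000280000001000080000000000000000000000000000000) (nat_lit 0x0) (nat_lit 0x48006600070008000d40008000000000000000000000000000000000000000) := T_31 (nat_lit 229) (nat_lit 246) (nat_lit 7) (nat_lit 7) (nat_lit 10) L82124 (by decide +kernel)
theorem L82126 : W_31 (nat_lit 2) (nat_lit 0x14001a000f000b80000001000080000000000000000000000000000000) (nat_lit 0x0) (nat_lit 0x4000200040000000000000000000000000000000000000000000000000000) := D_31 (nat_lit 225) (nat_lit 242) (nat_lit 210) (nat_lit 5) (nat_lit 5) (nat_lit 10) (nat_lit 1) (nat_lit 8) (nat_lit 12) (by decide +kernel)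
theorem L82127 : W_31 (nat_lit 3) (nat_lit 0x10001a000f000b80000001000080000000000000000000000000000000) (nat_lit 0x0) (nat_lit 0xc000600040000000000000000000000000000000000000000000000000000) := T_31 (nat_lit 226) (nat_lit 243) (nat_lit 6) (nat_lit 5) (nat_lit 14) L82126 (by decide +kernel)
theorem L82128 : W_31 (nat_lit 4) (nat_lit 0x100018000f000b80000001000080000000000000000000000000000000) (nat_lit 0x0) (nat_lit 0xc000600070000000000000000000000000000000000000000000000000000) := T_31 (nat_lit 209) (nat_lit 208) (nat_lit 1) (nat_lit 8) (nat_lit 11) L82127 (by decide +kernel)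
theorem L82129 : W_31 (nat_lit 5) (nat_lit 0x100018000f000380000001000080000000000000000000000000000000) (nat_lit 0x0) (nat_lit 0xc000600070000000c00000000000000000000000000000000000000000000) := T_31 (nat_lit 179) (nat_lit 178) (nat_lit 2) (nat_lit 5) (nat_lit 11) L82128 (by decide +kernel)
theorem L82130 : W_31 (nat_lit 6) (nat_lit 0x100018000f000280000001000080000000000000000000000000000000) (nat_lit 0x0) (nat_lit 0xc000600070000000d00008000000000000000000000000000000000000000) := T_31 (nat_lit 176) (nat_lit 159) (nat_lit 4) (nat_lit 7) (nat_lit 13) L82129 (by decide +kernel)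
theorem L82131 : W_31 (nat_lit 7) (nat_lit 0x1000180007000280000001000080000000000000000000000000000000) (nat_lit 0x0) (nat_lit 0xc000600070008000d40008000000000000000000000000000000000000000) := T_31 (nat_lit 195) (nat_lit 174) (nat_lit 0) (nat_lit 8) (nat_lit 11) L82130 (by decide +kernel)
theorem L82132 : W_31 (nat_lit 2) (nat_lit 0x30001e000f000380000001000080000000000000000000000000000000) (nat_lit 0x0) (nat_lit 0x8000600000000000000000000000000000000000000000000000000000000) := D_31 (nat_lit 226) (nat_lit 225) (nat_lit 243) (nat_lit 1) (nat_lit 8) (nat_lit 12) (nat_lit 6) (nat_lit 5) (nat_lit 14) (by decide +kernel)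
theorem L82133 : W_31 (nat_lit 3) (nat_lit 0x30001a000f000380000001000080000000000000000000000000000000) (nat_lit 0x0) (nat_lit 0x8004600040000000000000000000000000000000000000000000000000000) := T_31 (nat_lit 210) (nat_lit 230) (nat_lit 3) (nat_lit 5) (nat_lit 12) L82132 (by decide +kernel)
theorem L82134 : W_31 (nat_lit 4) (nat_lit 0x30001a000f000280000001000080000000000000000000000000000000) (nat_lit 0x0) (nat_lit 0x8004600040000000100008000000000000000000000000000000000000000) := T_31 (nat_lit 176) (nat_lit 159) (nat_lit 4) (nat_lit 7) (nat_lit 13) L82133 (by decide +kernel)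
theorem L82135 : W_31 (nat_lit 5) (nat_lit 0x300018000f000280000001000080000000000000000000000000000000) (nat_lit 0x0) (nat_lit 0x8004600070000000100008000000000000000000000000000000000000000) := T_31 (nat_lit 209) (nat_lit 208) (nat_lit 1) (nat_lit 8) (nat_lit 11) L82134 (by decide +kernel)
theorem L82136 : W_31 (nat_lit 6) (nat_lit 0x100018000f000280000001000080000000000000000000000000000000) (nat_lit 0x0) (nat_lit 0x48006600070000000100008000000000000000000000000000000000000000) := T_31 (nat_lit 229) (nat_lit 246) (nat_lit 7) (nat_lit 7) (nat_lit 10) L82135 (by decide +kernel)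
theorem L82137 : W_31 (nat_lit 7) (nat_lit 0x1000180007000280000001000080000000000000000000000000000000) (nat_lit 0x0) (nat_lit 0x48006600070008000140008000000000000000000000000000000000000000) := T_31 (nat_lit 195) (nat_lit 174) (nat_lit 0) (nat_lit 8) (nat_lit 11) L82136 (by decide +kernel)
theorem L82138 : W_31 (nat_lit 2) (nat_lit 0x30001800070007a0004001000080000000000000000000000000000000) (nat_lit 0x0) (nat_lit 0x40000000000000000200010000000000000000000000000000000) := D_31 (nat_lit 141) (nat_lit 124) (nat_lit 210) (nat_lit 7) (nat_lit 5) (nat_lit 7) (nat_lit 7) (nat_lit 5) (nat_lit 8) (by decide +kernel)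
theorem L82139 : W_31 (nat_lit 3) (nat_lit 0x30001800070007a0000001000080000000000000000000000000000000) (nat_lit 0x0) (nat_lit 0x40000000000006000200010000000000000000000000000000000) := T_31 (nat_lit 158) (nat_lit 157) (nat_lit 0) (nat_lit 8) (nat_lit 10) L82138 (by decide +kernel)
theorem L82140 : W_31 (nat_lit 4) (nat_lit 0x30001800070003a0000001000080000000000000000000000000000000) (nat_lit 0x0) (nat_lit 0x40000000c00006000200010000000000000000000000000000000) := T_31 (nat_lit 178) (nat_lit 179) (nat_lit 1) (nat_lit 9) (nat_lit 10) L82139 (by decide +kernel)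
theorem L82141 : W_31 (nat_lit 5) (nat_lit 0x3000180007000380000001000080000000000000000000000000000000) (nat_lit 0x0) (nat_lit 0x40000000c60006000200010000000000000000000000000000000) := T_31 (nat_lit 173) (nat_lit 174) (nat_lit 3) (nat_lit 3) (nat_lit 10) L82140 (by decide +kernel)
theorem L82142 : W_31 (nat_lit 6) (nat_lit 0x3000180007000280000001000080000000000000000000000000000000) (nat_lit 0x0) (nat_lit 0x40000000d6000e000200010000000000000000000000000000000) := T_31 (nat_lit 176) (nat_lit 159) (nat_lit 4) (nat_lit 7) (nat_lit 13) L82141 (by decide +kernel)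
theorem L82143 : W_31 (nat_lit 7) (nat_lit 0x1000180007000280000001000080000000000000000000000000000000) (nat_lit 0x0) (nat_lit 0x40002000040000000d6000e000200010000000000000000000000000000000) := T_31 (nat_lit 229) (nat_lit 246) (nat_lit 7) (nat_lit 7) (nat_lit 10) L82142 (by decide +kernel)
theorem L82144 : W_31 (nat_lit 2) (nat_lit 0x700018000f000680000001000080000000000000000000000000000000) (nat_lit 0x0) (nat_lit 0x70000000000000000000000000000000000000000000000000000) := D_31 (nat_lit 209) (nat_lit 210) (nat_lit 208) (nat_lit 3) (nat_lit 5) (nat_lit 12) (nat_lit 1) (nat_lit 8) (nat_lit 11) (by decide +kernel)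
theorem L82145 : W_31 (nat_lit 3) (nat_lit 0x300018000f000680000001000080000000000000000000000000000000) (nat_lit 0x0) (nat_lit 0x80004000070000000000000000000000000000000000000000000000000000) := T_31 (nat_lit 230) (nat_lit 247) (nat_lit 7) (nat_lit 8) (nat_lit 10) L82144 (by decide +kernel)
theorem L82146 : W_31 (nat_lit 4) (nat_lit 0x300018000f000280000001000080000000000000000000000000000000) (nat_lit 0x0) (nat_lit 0x80004000070000000c00000000000000000000000000000000000000000000) := T_31 (nat_lit 178) (nat_lit 179) (nat_lit 2) (nat_lit 5) (nat_lit 11) L82145 (by decide +kernel)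
theorem L82147 : W_31 (nat_lit 5) (nat_lit 0x100018000f000280000001000080000000000000000000000000000000) (nat_lit 0x0) (nat_lit 0xc0006000070000000c00000000000000000000000000000000000000000000) := T_31 (nat_lit 229) (nat_lit 246) (nat_lit 7) (nat_lit 7) (nat_lit 10) L82146 (by decide +kernel)
theorem L82148 : W_31 (nat_lit 6) (nat_lit 0x1000180007000280000001000080000000000000000000000000000000) (nat_lit 0x0) (nat_lit 0xc0006000070008000c40000000000000000000000000000000000000000000) := T_31 (nat_lit 195) (nat_lit 174) (nat_lit 0) (nat_lit 8) (nat_lit 11) L82147 (by decide +kernel)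
theorem L82149 : W_31 (nat_lit 2) (nat_lit 0x10001800070002c0000001000080000000000000000000000000000000) (nat_lit 0x0) (nat_lit 0x120008000000000000000000000000000000000000000) := D_31 (nat_lit 176) (nat_lit 159) (nat_lit 173) (nat_lit 4) (nat_lit 7) (nat_lit 13) (nat_lit 3) (nat_lit 3) (nat_lit 10) (by decide +kernel)
theorem L82150 : W_31 (nat_lit 3) (nat_lit 0x1000180007000280000001000080000000000000000000000000000000) (nat_lit 0x0) (nat_lit 0x8000160008000000000000000000000000000000000000000) := T_31 (nat_lit 174) (nat_lit 195) (nat_lit 0) (nat_lit 8) (nat_lit 11) L82149 (by decide +kernel)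
theorem L82151 : W_31 (nat_lit 2) (nat_lit 0x3000180007000780004001000080000000000000000000000000000000) (nat_lit 0x0) (nat_lit 0x40000000000000000200010000000000000000000000000000000) := D_31 (nat_lit 141) (nat_lit 124) (nat_lit 210) (nat_lit 7) (nat_lit 5) (nat_lit 7) (nat_lit 7) (nat_lit 5) (nat_lit 8) (by decide +kernel)
theorem L82152 : W_31 (nat_lit 3) (nat_lit 0x3000180007000780000001000080000000000000000000000000000000) (nat_lit 0x0) (nat_lit 0x40000000000006000200010000000000000000000000000000000) := T_31 (nat_lit 158) (nat_lit 157) (nat_lit 0) (nat_lit 8) (nat_lit 10) L82151 (by decide +kernel)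
theorem L82153 : W_31 (nat_lit 4) (nat_lit 0x1000180007000780000001000080000000000000000000000000000000) (nat_lit 0x0) (nat_lit 0x40002000040000000000006000200010000000000000000000000000000000) := T_31 (nat_lit 229) (nat_lit 246) (nat_lit 7) (nat_lit 7) (nat_lit 10) L82152 (by decide +kernel)
theorem L82154 : W_31 (nat_lit 5) (nat_lit 0x1000180007000380000001000080000000000000000000000000000000) (nat_lit 0x0) (nat_lit 0x40002000040000000c00006000200010000000000000000000000000000000) := T_31 (nat_lit 178) (nat_lit 179) (nat_lit 1) (nat_lit 9) (nat_lit 10) L82153 (by decide +kernel)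
theorem L82155 : W_31 (nat_lit 6) (nat_lit 0x1000180007000280000001000080000000000000000000000000000000) (nat_lit 0x0) (nat_lit 0x40002000040000000d0000e000200010000000000000000000000000000000) := T_31 (nat_lit 176) (nat_lit 159) (nat_lit 4) (nat_lit 7) (nat_lit 13) L82154 (by decide +kernel)
theorem L82156 : W_31 (nat_lit 9) (nat_lit 0x1000180007000200000001000080000000000000000000000000000000) (nat_lit 0x0) (nat_lit 0xcc006600070008000de000e000200010000000000000000000000000000000) := Q_31 (nat_lit 175) (C_31 L82125 (C_31 L82131 (C_31 L82137 (C_31 L82143 (C_31 L82148 (C_31 L82150 (C_31 L82155 N_31))))))) (by decide +kernel)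
theorem L82157 : W_31 (nat_lit 10) (nat_lit 0x1000080007000200000001000080000000000000000000000000000000) (nat_lit 0x0) (nat_lit 0xcc006600770008000de000e000200010000000000000000000000000000000) := Q_31 (nat_lit 212) (C_31 L82118 (C_31 L78554 (C_31 L82156 N_31))) (by decide +kernel)
theorem L82158 : W_31 (nat_lit 11) (nat_lit 0x1000080006000200000001000080000000000000000000000000000000) (nat_lit 0x0) (nat_lit 0xcc006600778009c00de000e000200010000000000000000000000000000000) := Q_31 (nat_lit 192) (C_31 L80727 (C_31 L78632 (C_31 L82157 N_31))) (by decide +kernel)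
theorem L82159 : W_31 (nat_lit 14) (nat_lit 0x1000080006000200000001000080000000000000000000000000000000) (nat_lit 0x0) (nat_lit 0x5e002f0076c009f00de000a000100000000000000000000000000000000000) := Q_31 (nat_lit 192) (C_31 L82116 (C_31 L78632 (C_31 L80828 N_31))) (by decide +kernel)
theorem L82160 : W_31 (nat_lit 2) (nat_lit 0x18002c0007000b80000001000080000000000000000000000000000000) (nat_lit 0x0) (nat_lit 0x8000060000000000000000000000000000000000000000000) := D_31 (nat_lit 174) (nat_lit 195) (nat_lit 173) (nat_lit 3) (nat_lit 4) (nat_lit 10) (nat_lit 3) (nat_lit 3) (nat_lit 10) (by decide +kernel)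
theorem L82161 : W_31 (nat_lit 3) (nat_lit 0x18002c0007000b00000001000080000000000000000000000000000000) (nat_lit 0x0) (nat_lit 0x80000e0004000000000000000000000000000000000000000) := T_31 (nat_lit 175) (nat_lit 158) (nat_lit 4) (nat_lit 6) (nat_lit 13) L82160 (by decide +kernel)
theorem L82162 : W_31 (nat_lit 4) (nat_lit 0x18000c0007000b00000001000080000000000000000000000000000000) (nat_lit 0x0) (nat_lit 0x3000080000e0004000000000000000000000000000000000000000) := T_31 (nat_lit 213) (nat_lit 212) (nat_lit 0) (nat_lit 9) (nat_lit 12) L82161 (by decide +kernel)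
theorem L82163 : W_31 (nat_lit 5) (nat_lit 0x10000c0007000b00000001000080000000000000000000000000000000) (nat_lit 0x0) (nat_lit 0x100008003000080000e0004000000000000000000000000000000000000000) := T_31 (nat_lit 227) (nat_lit 244) (nat_lit 6) (nat_lit 6) (nat_lit 14) L82162 (by decide +kernel)
theorem L82164 : W_31 (nat_lit 6) (nat_lit 0x10000c0007000300000001000080000000000000000000000000000000) (nat_lit 0x0) (nat_lit 0x10000800300008000ce0004000000000000000000000000000000000000000) := T_31 (nat_lit 179) (nat_lit 178) (nat_lit 1) (nat_lit 9) (nat_lit 10) L82163 (by decide +kernel)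
theorem L82165 : W_31 (nat_lit 7) (nat_lit 0x10000c0007000200000001000080000000000000000000000000000000) (nat_lit 0x0) (nat_lit 0x10000800300008000de000c000000000000000000000000000000000000000) := T_31 (nat_lit 176) (nat_lit 159) (nat_lit 7) (nat_lit 6) (nat_lit 9) L82164 (by decide +kernel)
theorem L82166 : W_31 (nat_lit 8) (nat_lit 0x1000080007000200000001000080000000000000000000000000000000) (nat_lit 0x0) (nat_lit 0x5000e800370008000de000c000000000000000000000000000000000000000) := Q_31 (nat_lit 210) (C_31 L78602 (C_31 L78599 (C_31 L82165 N_31))) (by decide +kernel)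
theorem L82167 : W_31 (nat_lit 9) (nat_lit 0x1000080006000200000001000080000000000000000000000000000000) (nat_lit 0x0) (nat_lit 0x5000e800378009c00df000c000000000000000000000000000000000000000) := Q_31 (nat_lit 192) (C_31 L80754 (C_31 L78632 (C_31 L82166 N_31))) (by decide +kernel)
theorem L82168 : W_31 (nat_lit 15) (nat_lit 0x1000080004000200000001000080000000000000000000000000000000) (nat_lit 0x0) (nat_lit 0x1800df00ef0077c00bf01df000f000700010000000000000000000000000000000) := Q_31 (nat_lit 193) (C_31 L78744 (C_31 L78627 (C_31 L78650 (C_31 L78743 (C_31 L82117 (C_31 L82158 (C_31 L78570 (C_31 L82159 (C_31 L82167 N_31))))))))) (by decide +kernel)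
theorem L82169 : W_31 (nat_lit 16) (nat_lit 0x80004000200000001000080000000000000000000000000000000) (nat_lit 0x0) (nat_lit 0x10000f800ff00ff0077c00bf01df000f000700010000000000000000000000000000000) := Q_31 (nat_lit 228) (C_31 L6805 (C_31 L6067 (C_31 L6682 (C_31 L82168 N_31)))) (by decide +kernel)
theorem L82171 : W_31 (nat_lit 2) (nat_lit 0x20001e000f000380008001000080000000000000000000000000000000) (nat_lit 0x0) (nat_lit 0x800000000000000004000200000000000000000000000000000000000) := D_31 (nat_lit 158) (nat_lit 141) (nat_lit 227) (nat_lit 7) (nat_lit 5) (nat_lit 8) (nat_lit 7) (nat_lit 5) (nat_lit 9) (by decide +kernel)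
theorem L82172 : W_31 (nat_lit 3) (nat_lit 0x20001a000f000380008001000080000000000000000000000000000000) (nat_lit 0x0) (nat_lit 0x4800040000000000004000200000000000000000000000000000000000) := T_31 (nat_lit 210) (nat_lit 230) (nat_lit 3) (nat_lit 5) (nat_lit 12) L82171 (by decide +kernel)
theorem L82173 : W_31 (nat_lit 4) (nat_lit 0x1a000f000380008001000080000000000000000000000000000000) (nat_lit 0x0) (nat_lit 0x40006800040000000000004000200000000000000000000000000000000000) := T_31 (nat_lit 229) (nat_lit 246) (nat_lit 4) (nat_lit 8) (nat_lit 14) L82172 (by decide +kernel)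
theorem L82187 : W_31 (nat_lit 17) (nat_lit 0x4000200000001000080000000000000000000000000000000) (nat_lit 0x0) (nat_lit 0x14000f800ff03ff00ffc0ebf01df009f000f00010000000000000000000000000000000) := Q_31 (nat_lit 211) (C_31 L80658 (C_31 L79506 (C_31 L79450 (C_31 L82169 (C_31 L82186 (C_31 L79507 (C_31 L17847 (C_31 L17848 N_31)))))))) (by decide +kernel)
theorem L82188 : W_31 (nat_lit 12) (nat_lit 0x4000200000001000080000000000000000000000000000000) (nat_lit 0x0) (nat_lit 0x1c000f003fc03ff00ff80fbc01d000d8000c00000000000000000000000000000000000) := Q_31 (nat_lit 211) (C_31 L82186 (C_31 L80583 (C_31 L79506 (C_31 L80658 (C_31 L79507 (C_31 L17847 (C_31 L17848 N_31))))))) (by decide +kernel)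
theorem L82195 : W_31 (nat_lit 6) (nat_lit 0xe000300000001000080000000000000000000000000000000) (nat_lit 0x0) (nat_lit 0x8000400030001c00ce0008000000000000000000000000000000000000000) := Q_31 (nat_lit 192) (C_31 L11603 (C_31 L11585 (C_31 L82194 N_31))) (by decide +kernel)
theorem L82196 : W_31 (nat_lit 2) (nat_lit 0x40012000f400300000001000080000000000000000000000000000000) (nat_lit 0x0) (nat_lit 0x40000000000008000400000000000000000000000000000000000) := D_31 (nat_lit 159) (nat_lit 142) (nat_lit 210) (nat_lit 5) (nat_lit 6) (nat_lit 8) (nat_lit 5) (nat_lit 6) (nat_lit 9) (by decide +kernel)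
theorem L82197 : W_31 (nat_lit 3) (nat_lit 0x12000f400300000001000080000000000000000000000000000000) (nat_lit 0x0) (nat_lit 0x8000400040000000000008000400000000000000000000000000000000000) := T_31 (nat_lit 226) (nat_lit 243) (nat_lit 6) (nat_lit 5) (nat_lit 14) L82196 (by decide +kernel)
theorem L82198 : W_31 (nat_lit 4) (nat_lit 0x2000f400300000001000080000000000000000000000000000000) (nat_lit 0x0) (nat_lit 0x8000400340000000000008000400000000000000000000000000000000000) := T_31 (nat_lit 212) (nat_lit 213) (nat_lit 3) (nat_lit 5) (nat_lit 11) L82197 (by decide +kernel)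
theorem L82199 : W_31 (nat_lit 5) (nat_lit 0xf400300000001000080000000000000000000000000000000) (nat_lit 0x0) (nat_lit 0x8000400370000000000008000400000000000000000000000000000000000) := T_31 (nat_lit 209) (nat_lit 208) (nat_lit 1) (nat_lit 8) (nat_lit 11) L82198 (by decide +kernel)
theorem L82200 : W_31 (nat_lit 6) (nat_lit 0xf000300000001000080000000000000000000000000000000) (nat_lit 0x0) (nat_lit 0x8000400370000c00000008000400000000000000000000000000000000000) := T_31 (nat_lit 190) (nat_lit 191) (nat_lit 2) (nat_lit 3) (nat_lit 11) L82199 (by decide +kernel)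
theorem L82206 : W_31 (nat_lit 7) (nat_lit 0xe000300000001000080000000000000000000000000000000) (nat_lit 0x0) (nat_lit 0x48002400370001c000e0008000400000000000000000000000000000000000) := Q_31 (nat_lit 192) (C_31 L11603 (C_31 L82200 (C_31 L82205 N_31))) (by decide +kernel)
theorem L82207 : W_31 (nat_lit 2) (nat_lit 0x800600016000f000740000001000080000000000000000000000000000000) (nat_lit 0x0) (nat_lit 0x20001800000000000000000000000000000000000000000000000000000000) := D_31 (nat_lit 228) (nat_lit 227) (nat_lit 245) (nat_lit 0) (nat_lit 9) (nat_lit 13) (nat_lit 5) (nat_lit 8) (nat_lit 10) (by decide +kernel)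
theorem L82208 : W_31 (nat_lit 3) (nat_lit 0x800600012000f000740000001000080000000000000000000000000000000) (nat_lit 0x0) (nat_lit 0x200018000c0000000000000000000000000000000000000000000000000000) := T_31 (nat_lit 210) (nat_lit 211) (nat_lit 3) (nat_lit 5) (nat_lit 12) L82207 (by decide +kernel)
theorem L82209 : W_31 (nat_lit 4) (nat_lit 0x800200012000f000740000001000080000000000000000000000000000000) (nat_lit 0x0) (nat_lit 0xa00058000c0000000000000000000000000000000000000000000000000000) := T_31 (nat_lit 230) (nat_lit 247) (nat_lit 7) (nat_lit 8) (nat_lit 10) L82208 (by decide +kernel)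
theorem L82210 : W_31 (nat_lit 5) (nat_lit 0x200012000f000740000001000080000000000000000000000000000000) (nat_lit 0x0) (nat_lit 0xa8005c000c0000000000000000000000000000000000000000000000000000) := T_31 (nat_lit 243) (nat_lit 226) (nat_lit 6) (nat_lit 5) (nat_lit 14) L82209 (by decide +kernel)
theorem L82211 : W_31 (nat_lit 6) (nat_lit 0x12000f000740000001000080000000000000000000000000000000) (nat_lit 0x0) (nat_lit 0xe8007c000c0000000000000000000000000000000000000000000000000000) := T_31 (nat_lit 229) (nat_lit 246) (nat_lit 4) (nat_lit 8) (nat_lit 14) L82210 (by decide +kernel)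
theorem L82212 : W_31 (nat_lit 7) (nat_lit 0x10000f000740000001000080000000000000000000000000000000) (nat_lit 0x0) (nat_lit 0xe8007c000f0000000000000000000000000000000000000000000000000000) := T_31 (nat_lit 209) (nat_lit 208) (nat_lit 1) (nat_lit 8) (nat_lit 11) L82211 (by decide +kernel)
theorem L82213 : W_31 (nat_lit 8) (nat_lit 0xf000740000001000080000000000000000000000000000000) (nat_lit 0x0) (nat_lit 0xe8007c003f0000000000000000000000000000000000000000000000000000) := T_31 (nat_lit 212) (nat_lit 213) (nat_lit 3) (nat_lit 5) (nat_lit 11) L82212 (by decide +kernel)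
theorem L82214 : W_31 (nat_lit 9) (nat_lit 0xf000340000001000080000000000000000000000000000000) (nat_lit 0x0) (nat_lit 0xe8007c003f0000000c00000000000000000000000000000000000000000000) := T_31 (nat_lit 178) (nat_lit 179) (nat_lit 2) (nat_lit 5) (nat_lit 11) L82213 (by decide +kernel)
theorem L82215 : W_31 (nat_lit 10) (nat_lit 0xf000300000001000080000000000000000000000000000000) (nat_lit 0x0) (nat_lit 0xe8007c003f0000000cc0000000000000000000000000000000000000000000) := T_31 (nat_lit 174) (nat_lit 175) (nat_lit 3) (nat_lit 4) (nat_lit 10) L82214 (by decide +kernel)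
theorem L82216 : W_31 (nat_lit 11) (nat_lit 0xe000300000001000080000000000000000000000000000000) (nat_lit 0x0) (nat_lit 0xe8007c003f0001c00ce0000000000000000000000000000000000000000000) := Q_31 (nat_lit 192) (C_31 L11603 (C_31 L11585 (C_31 L82215 N_31))) (by decide +kernel)
theorem L82223 : W_31 (nat_lit 8) (nat_lit 0xe000300000001000080000000000000000000000000000000) (nat_lit 0x0) (nat_lit 0x48002400370001c00c00008000400000000000000000000000000000000000) := Q_31 (nat_lit 192) (C_31 L82200 (C_31 L11585 (C_31 L82222 N_31))) (by decide +kernel)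
theorem L82231 : W_31 (nat_lit 9) (nat_lit 0xe000300000001000080000000000000000000000000000000) (nat_lit 0x0) (nat_lit 0x38001e001f80000000c000c000400000000000000000000000000000000000) := Q_31 (nat_lit 211) (C_31 L11830 (C_31 L82227 (C_31 L82230 N_31))) (by decide +kernel)
theorem L82232 : W_31 (nat_lit 3) (nat_lit 0x300018000f000740000001000080000000000000000000000000000000) (nat_lit 0x0) (nat_lit 0x8001c000040000000000000000000000000000000000000000000000000000) := T_31 (nat_lit 230) (nat_lit 247) (nat_lit 7) (nat_lit 8) (nat_lit 10) L15170 (by decide +kernel)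
theorem L82233 : W_31 (nat_lit 4) (nat_lit 0x300010000f000740000001000080000000000000000000000000000000) (nat_lit 0x0) (nat_lit 0x8001c0000c0000000000008000000000000000000000000000000000000000) := T_31 (nat_lit 211) (nat_lit 159) (nat_lit 4) (nat_lit 7) (nat_lit 13) L82232 (by decide +kernel)
theorem L82234 : W_31 (nat_lit 5) (nat_lit 0x200010000f000740000001000080000000000000000000000000000000) (nat_lit 0x0) (nat_lit 0xa001d0000c0000000000008000000000000000000000000000000000000000) := T_31 (nat_lit 228) (nat_lit 245) (nat_lit 5) (nat_lit 8) (nat_lit 10) L82233 (by decide +kernel)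
theorem L82235 : W_31 (nat_lit 6) (nat_lit 0x10000f000740000001000080000000000000000000000000000000) (nat_lit 0x0) (nat_lit 0xe001f0000c0000000000008000000000000000000000000000000000000000) := T_31 (nat_lit 229) (nat_lit 246) (nat_lit 4) (nat_lit 8) (nat_lit 14) L82234 (by decide +kernel)
theorem L82236 : W_31 (nat_lit 7) (nat_lit 0xf000740000001000080000000000000000000000000000000) (nat_lit 0x0) (nat_lit 0xe001f0003c0000000000008000000000000000000000000000000000000000) := T_31 (nat_lit 212) (nat_lit 213) (nat_lit 3) (nat_lit 5) (nat_lit 11) L82235 (by decide +kernel)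
theorem L82237 : W_31 (nat_lit 8) (nat_lit 0xf000340000001000080000000000000000000000000000000) (nat_lit 0x0) (nat_lit 0xe001f0003c0000000c00008000000000000000000000000000000000000000) := T_31 (nat_lit 178) (nat_lit 179) (nat_lit 2) (nat_lit 5) (nat_lit 11) L82236 (by decide +kernel)
theorem L82238 : W_31 (nat_lit 9) (nat_lit 0xf000300000001000080000000000000000000000000000000) (nat_lit 0x0) (nat_lit 0xe001f0003c0000000cc0008000000000000000000000000000000000000000) := T_31 (nat_lit 174) (nat_lit 175) (nat_lit 3) (nat_lit 4) (nat_lit 10) L82237 (by decide +kernel)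
theorem L82239 : W_31 (nat_lit 10) (nat_lit 0xe000300000001000080000000000000000000000000000000) (nat_lit 0x0) (nat_lit 0xe001f0003c0001c00ce0008000000000000000000000000000000000000000) := Q_31 (nat_lit 192) (C_31 L11603 (C_31 L11585 (C_31 L82238 N_31))) (by decide +kernel)
theorem L82240 : W_31 (nat_lit 12) (nat_lit 0xc000300000001000080000000000000000000000000000000) (nat_lit 0x0) (nat_lit 0xf801fe003f8003c00ce000c000400000000000000000000000000000000000) := Q_31 (nat_lit 193) (C_31 L82195 (C_31 L82206 (C_31 L82216 (C_31 L82223 (C_31 L82231 (C_31 L82239 N_31)))))) (by decide +kernel)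
theorem L82241 : W_31 (nat_lit 2) (nat_lit 0x1c0004001f400b00008001400080000000000000000000000000000000) (nat_lit 0x0) (nat_lit 0x4000200010000000000000000000000000000000) := D_31 (nat_lit 141) (nat_lit 158) (nat_lit 124) (nat_lit 4) (nat_lit 6) (nat_lit 12) (nat_lit 4) (nat_lit 6) (nat_lit 11) (by decide +kernel)
theorem L82242 : W_31 (nat_lit 3) (nat_lit 0x1c0004001f400b00008001000080000000000000000000000000000000) (nat_lit 0x0) (nat_lit 0x4000600030000000000000000000000000000000) := T_31 (nat_lit 142) (nat_lit 125) (nat_lit 7) (nat_lit 6) (nat_lit 7) L82241 (by decide +kernel)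
theorem L82243 : W_31 (nat_lit 4) (nat_lit 0x1c0004001f400b00000001000080000000000000000000000000000000) (nat_lit 0x0) (nat_lit 0x8000000000000c000600030000000000000000000000000000000) := T_31 (nat_lit 159) (nat_lit 211) (nat_lit 7) (nat_lit 6) (nat_lit 9) L82242 (by decide +kernel)
theorem L82244 : W_31 (nat_lit 5) (nat_lit 0xc0004001f400b00000001000080000000000000000000000000000000) (nat_lit 0x0) (nat_lit 0x2000100008000000000000c000600030000000000000000000000000000000) := T_31 (nat_lit 228) (nat_lit 245) (nat_lit 7) (nat_lit 6) (nat_lit 10) L82243 (by decide +kernel)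
theorem L82245 : W_31 (nat_lit 6) (nat_lit 0x80004001f400b00000001000080000000000000000000000000000000) (nat_lit 0x0) (nat_lit 0x2800140008000000000000c000600030000000000000000000000000000000) := T_31 (nat_lit 226) (nat_lit 243) (nat_lit 5) (nat_lit 6) (nat_lit 10) L82244 (by decide +kernel)
theorem L82246 : W_31 (nat_lit 7) (nat_lit 0x4001f400b00000001000080000000000000000000000000000000) (nat_lit 0x0) (nat_lit 0x38001c0008000000000000c000600030000000000000000000000000000000) := T_31 (nat_lit 227) (nat_lit 244) (nat_lit 6) (nat_lit 6) (nat_lit 14) L82245 (by decide +kernel)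
theorem L82247 : W_31 (nat_lit 8) (nat_lit 0x4001f000b00000001000080000000000000000000000000000000) (nat_lit 0x0) (nat_lit 0x38001c00080000c0000000c000600030000000000000000000000000000000) := T_31 (nat_lit 190) (nat_lit 191) (nat_lit 2) (nat_lit 3) (nat_lit 11) L82246 (by decide +kernel)
theorem L82248 : W_31 (nat_lit 9) (nat_lit 0x4001e000b00000001000080000000000000000000000000000000) (nat_lit 0x0) (nat_lit 0x38001c00080001c0040000c000600030000000000000000000000000000000) := T_31 (nat_lit 192) (nat_lit 178) (nat_lit 2) (nat_lit 5) (nat_lit 11) L82247 (by decide +kernel)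
theorem L82249 : W_31 (nat_lit 10) (nat_lit 0x4001e000300000001000080000000000000000000000000000000) (nat_lit 0x0) (nat_lit 0x38001c00080001c01c0000c000600030000000000000000000000000000000) := T_31 (nat_lit 179) (nat_lit 180) (nat_lit 2) (nat_lit 6) (nat_lit 11) L82248 (by decide +kernel)
theorem L82250 : W_31 (nat_lit 11) (nat_lit 0x1e000300000001000080000000000000000000000000000000) (nat_lit 0x0) (nat_lit 0x38001c000e0001c01c0000c000600030000000000000000000000000000000) := T_31 (nat_lit 210) (nat_lit 209) (nat_lit 1) (nat_lit 9) (nat_lit 11) L82249 (by decide +kernel)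
theorem L82251 : W_31 (nat_lit 12) (nat_lit 0xe000300000001000080000000000000000000000000000000) (nat_lit 0x0) (nat_lit 0x38001c000e0031c01c0000c000600030000000000000000000000000000000) := T_31 (nat_lit 196) (nat_lit 197) (nat_lit 0) (nat_lit 10) (nat_lit 11) L82250 (by decide +kernel)
theorem L82252 : W_31 (nat_lit 2) (nat_lit 0x180024001f400b00008001400080000000000000000000000000000000) (nat_lit 0x0) (nat_lit 0x4000200010000000000000000000000000000000) := D_31 (nat_lit 141) (nat_lit 158) (nat_lit 124) (nat_lit 4) (nat_lit 6) (nat_lit 12) (nat_lit 4) (nat_lit 6) (nat_lit 11) (by decide +kernel)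
theorem L82253 : W_31 (nat_lit 3) (nat_lit 0x180024001f400b00008001000080000000000000000000000000000000) (nat_lit 0x0) (nat_lit 0x4000600030000000000000000000000000000000) := T_31 (nat_lit 142) (nat_lit 125) (nat_lit 7) (nat_lit 6) (nat_lit 7) L82252 (by decide +kernel)
theorem L82254 : W_31 (nat_lit 4) (nat_lit 0x180024001f400b00000001000080000000000000000000000000000000) (nat_lit 0x0) (nat_lit 0x8000000000000c000600030000000000000000000000000000000) := T_31 (nat_lit 159) (nat_lit 211) (nat_lit 7) (nat_lit 6) (nat_lit 9) L82253 (by decide +kernel)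
theorem L82255 : W_31 (nat_lit 5) (nat_lit 0x80024001f400b00000001000080000000000000000000000000000000) (nat_lit 0x0) (nat_lit 0x2000100008000000000000c000600030000000000000000000000000000000) := T_31 (nat_lit 228) (nat_lit 245) (nat_lit 7) (nat_lit 6) (nat_lit 10) L82254 (by decide +kernel)
theorem L82256 : W_31 (nat_lit 6) (nat_lit 0x80024001f400300000001000080000000000000000000000000000000) (nat_lit 0x0) (nat_lit 0x2000100008000000180000c000600030000000000000000000000000000000) := T_31 (nat_lit 179) (nat_lit 180) (nat_lit 2) (nat_lit 6) (nat_lit 11) L82255 (by decide +kernel)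
theorem L82257 : W_31 (nat_lit 7) (nat_lit 0x24001f400300000001000080000000000000000000000000000000) (nat_lit 0x0) (nat_lit 0x3000180008000000180000c000600030000000000000000000000000000000) := T_31 (nat_lit 227) (nat_lit 244) (nat_lit 6) (nat_lit 6) (nat_lit 14) L82256 (by decide +kernel)
theorem L82258 : W_31 (nat_lit 8) (nat_lit 0x24001f000300000001000080000000000000000000000000000000) (nat_lit 0x0) (nat_lit 0x30001800080000c0180000c000600030000000000000000000000000000000) := T_31 (nat_lit 190) (nat_lit 191) (nat_lit 2) (nat_lit 3) (nat_lit 11) L82257 (by decide +kernel)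
theorem L82259 : W_31 (nat_lit 9) (nat_lit 0x24001e000300000001000080000000000000000000000000000000) (nat_lit 0x0) (nat_lit 0x30001800180001c0180000c000600030000000000000000000000000000000) := T_31 (nat_lit 192) (nat_lit 212) (nat_lit 3) (nat_lit 5) (nat_lit 11) L82258 (by decide +kernel)
theorem L82260 : W_31 (nat_lit 10) (nat_lit 0x4001e000300000001000080000000000000000000000000000000) (nat_lit 0x0) (nat_lit 0x30001800780001c0180000c000600030000000000000000000000000000000) := T_31 (nat_lit 213) (nat_lit 214) (nat_lit 3) (nat_lit 6) (nat_lit 11) L82259 (by decide +kernel)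
theorem L82261 : W_31 (nat_lit 11) (nat_lit 0x1e000300000001000080000000000000000000000000000000) (nat_lit 0x0) (nat_lit 0x300018007e0001c0180000c000600030000000000000000000000000000000) := T_31 (nat_lit 210) (nat_lit 209) (nat_lit 1) (nat_lit 9) (nat_lit 11) L82260 (by decide +kernel)
theorem L82262 : W_31 (nat_lit 12) (nat_lit 0xe000300000001000080000000000000000000000000000000) (nat_lit 0x0) (nat_lit 0x300018007e0031c0180000c000600030000000000000000000000000000000) := T_31 (nat_lit 196) (nat_lit 197) (nat_lit 0) (nat_lit 10) (nat_lit 11) L82261 (by decide +kernel)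
theorem L82268 : W_31 (nat_lit 7) (nat_lit 0x4001e000300000001000080000000000000000000000000000000) (nat_lit 0x0) (nat_lit 0x30001800680000001c0000c000200000000000000000000000000000000000) := T_31 (nat_lit 213) (nat_lit 214) (nat_lit 3) (nat_lit 6) (nat_lit 11) L82267 (by decide +kernel)
theorem L82269 : W_31 (nat_lit 8) (nat_lit 0x1e000300000001000080000000000000000000000000000000) (nat_lit 0x0) (nat_lit 0x300018006e0000001c0000c000200000000000000000000000000000000000) := T_31 (nat_lit 210) (nat_lit 209) (nat_lit 1) (nat_lit 9) (nat_lit 11) L82268 (by decide +kernel)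
theorem L82270 : W_31 (nat_lit 9) (nat_lit 0xe000300000001000080000000000000000000000000000000) (nat_lit 0x0) (nat_lit 0x300018006e0030001c0000c000200000000000000000000000000000000000) := T_31 (nat_lit 196) (nat_lit 197) (nat_lit 0) (nat_lit 10) (nat_lit 11) L82269 (by decide +kernel)
theorem L82271 : W_31 (nat_lit 13) (nat_lit 0xc000300000001000080000000000000000000000000000000) (nat_lit 0x0) (nat_lit 0x78003c007f0033c01c0000c000600030000000000000000000000000000000) := Q_31 (nat_lit 193) (C_31 L82251 (C_31 L82262 (C_31 L11651 (C_31 L82223 (C_31 L11663 (C_31 L82270 N_31)))))) (by decide +kernel)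
theorem L82272 : W_31 (nat_lit 14) (nat_lit 0x4000300000001000080000000000000000000000000000000) (nat_lit 0x0) (nat_lit 0xf801fe007f803bc01ce000c000600030000000000000000000000000000000) := Q_31 (nat_lit 195) (C_31 L82190 (C_31 L5377 (C_31 L82240 (C_31 L82271 N_31)))) (by decide +kernel)
theorem L82273 : W_31 (nat_lit 2) (nat_lit 0x20000c000e000e000300000001000080000000000000000000000000000000) (nat_lit 0x0) (nat_lit 0x300100000000000000000000000000000000000000000000000000000) := D_31 (nat_lit 225) (nat_lit 224) (nat_lit 212) (nat_lit 2) (nat_lit 3) (nat_lit 13) (nat_lit 1) (nat_lit 8) (nat_lit 12) (by decide +kernel)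
theorem L82274 : W_31 (nat_lit 3) (nat_lit 0x200008000e000e000300000001000080000000000000000000000000000000) (nat_lit 0x0) (nat_lit 0x8000700100000000000000000000000000000000000000000000000000000) := T_31 (nat_lit 226) (nat_lit 243) (nat_lit 5) (nat_lit 6) (nat_lit 10) L82273 (by decide +kernel)
theorem L82275 : W_31 (nat_lit 4) (nat_lit 0x200008000c000e000300000001000080000000000000000000000000000000) (nat_lit 0x0) (nat_lit 0x8000700130000000000000000000000000000000000000000000000000000) := T_31 (nat_lit 209) (nat_lit 208) (nat_lit 2) (nat_lit 4) (nat_lit 12) L82274 (by decide +kernel)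
theorem L82276 : W_31 (nat_lit 5) (nat_lit 0x200000000c000e000300000001000080000000000000000000000000000000) (nat_lit 0x0) (nat_lit 0x18000f00130000000000000000000000000000000000000000000000000000) := T_31 (nat_lit 227) (nat_lit 244) (nat_lit 6) (nat_lit 6) (nat_lit 14) L82275 (by decide +kernel)
theorem L82277 : W_31 (nat_lit 6) (nat_lit 0xc000e000300000001000080000000000000000000000000000000) (nat_lit 0x0) (nat_lit 0x38001f00130000000000000000000000000000000000000000000000000000) := T_31 (nat_lit 245) (nat_lit 228) (nat_lit 4) (nat_lit 7) (nat_lit 14) L82276 (by decide +kernel)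
theorem L82278 : W_31 (nat_lit 2) (nat_lit 0xc000e000e000300000001000080000000000000000000000000000000) (nat_lit 0x0) (nat_lit 0x300100000000000000000000000000000000000000000000000000000) := D_31 (nat_lit 225) (nat_lit 224) (nat_lit 212) (nat_lit 2) (nat_lit 3) (nat_lit 13) (nat_lit 1) (nat_lit 8) (nat_lit 12) (by decide +kernel)
theorem L82279 : W_31 (nat_lit 3) (nat_lit 0x8000e000e000300000001000080000000000000000000000000000000) (nat_lit 0x0) (nat_lit 0x8000700100000000000000000000000000000000000000000000000000000) := T_31 (nat_lit 226) (nat_lit 243) (nat_lit 5) (nat_lit 6) (nat_lit 10) L82278 (by decide +kernel)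
theorem L82280 : W_31 (nat_lit 4) (nat_lit 0x8000c000e000300000001000080000000000000000000000000000000) (nat_lit 0x0) (nat_lit 0x8000700130000000000000000000000000000000000000000000000000000) := T_31 (nat_lit 209) (nat_lit 208) (nat_lit 2) (nat_lit 4) (nat_lit 12) L82279 (by decide +kernel)
theorem L82281 : W_31 (nat_lit 5) (nat_lit 0xc000e000300000001000080000000000000000000000000000000) (nat_lit 0x0) (nat_lit 0x18000f00130000000000000000000000000000000000000000000000000000) := T_31 (nat_lit 227) (nat_lit 244) (nat_lit 6) (nat_lit 6) (nat_lit 14) L82280 (by decide +kernel)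
theorem L82282 : W_31 (nat_lit 2) (nat_lit 0x3d000c000e000300000001000080000000000000000000000000000000) (nat_lit 0x0) (nat_lit 0x4000030000000000000000000000000000000000000000000000000000) := D_31 (nat_lit 209) (nat_lit 208) (nat_lit 230) (nat_lit 3) (nat_lit 4) (nat_lit 12) (nat_lit 0) (nat_lit 9) (nat_lit 13) (by decide +kernel)
theorem L82283 : W_31 (nat_lit 3) (nat_lit 0x1d000c000e000300000001000080000000000000000000000000000000) (nat_lit 0x0) (nat_lit 0x40006000030000000000000000000000000000000000000000000000000000) := T_31 (nat_lit 229) (nat_lit 246) (nat_lit 7) (nat_lit 7) (nat_lit 10) L82282 (by decide +kernel)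
theorem L82284 : W_31 (nat_lit 4) (nat_lit 0x1c000c000e000300000001000080000000000000000000000000000000) (nat_lit 0x0) (nat_lit 0x40006300030000000000000000000000000000000000000000000000000000) := T_31 (nat_lit 224) (nat_lit 225) (nat_lit 2) (nat_lit 3) (nat_lit 13) L82283 (by decide +kernel)
theorem L82285 : W_31 (nat_lit 5) (nat_lit 0x18000c000e000300000001000080000000000000000000000000000000) (nat_lit 0x0) (nat_lit 0x48006700030000000000000000000000000000000000000000000000000000) := T_31 (nat_lit 226) (nat_lit 243) (nat_lit 5) (nat_lit 6) (nat_lit 10) L82284 (by decide +kernel)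
theorem L82286 : W_31 (nat_lit 6) (nat_lit 0x8000c000e000300000001000080000000000000000000000000000000) (nat_lit 0x0) (nat_lit 0x68007700030000000000000000000000000000000000000000000000000000) := T_31 (nat_lit 228) (nat_lit 245) (nat_lit 7) (nat_lit 6) (nat_lit 10) L82285 (by decide +kernel)
theorem L82287 : W_31 (nat_lit 7) (nat_lit 0xc000e000300000001000080000000000000000000000000000000) (nat_lit 0x0) (nat_lit 0x78007f00030000000000000000000000000000000000000000000000000000) := T_31 (nat_lit 227) (nat_lit 244) (nat_lit 6) (nat_lit 6) (nat_lit 14) L82286 (by decide +kernel)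
theorem L82288 : W_31 (nat_lit 2) (nat_lit 0x1c000c000e000300000001000080000000000000000000000000000000) (nat_lit 0x0) (nat_lit 0x300100000000000000000000000000000000000000000000000000000) := D_31 (nat_lit 225) (nat_lit 212) (nat_lit 224) (nat_lit 2) (nat_lit 4) (nat_lit 13) (nat_lit 2) (nat_lit 3) (nat_lit 13) (by decide +kernel)
theorem L82289 : W_31 (nat_lit 3) (nat_lit 0x18000c000e000300000001000080000000000000000000000000000000) (nat_lit 0x0) (nat_lit 0x8000700100000000000000000000000000000000000000000000000000000) := T_31 (nat_lit 226) (nat_lit 243) (nat_lit 5) (nat_lit 6) (nat_lit 10) L82288 (by decide +kernel)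
theorem L82290 : W_31 (nat_lit 4) (nat_lit 0x8000c000e000300000001000080000000000000000000000000000000) (nat_lit 0x0) (nat_lit 0x28001700100000000000000000000000000000000000000000000000000000) := T_31 (nat_lit 228) (nat_lit 245) (nat_lit 7) (nat_lit 6) (nat_lit 10) L82289 (by decide +kernel)
theorem L82291 : W_31 (nat_lit 5) (nat_lit 0xc000e000300000001000080000000000000000000000000000000) (nat_lit 0x0) (nat_lit 0x38001f00100000000000000000000000000000000000000000000000000000) := T_31 (nat_lit 227) (nat_lit 244) (nat_lit 6) (nat_lit 6) (nat_lit 14) L82290 (by decide +kernel)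
theorem L82292 : W_31 (nat_lit 2) (nat_lit 0x30000e000e000300000001000080000000000000000000000000000000) (nat_lit 0x0) (nat_lit 0xc000100000000000000000000000000000000000000000000000000000) := D_31 (nat_lit 230) (nat_lit 212) (nat_lit 231) (nat_lit 3) (nat_lit 5) (nat_lit 12) (nat_lit 0) (nat_lit 10) (nat_lit 13) (by decide +kernel)
theorem L82293 : W_31 (nat_lit 3) (nat_lit 0x10000e000e000300000001000080000000000000000000000000000000) (nat_lit 0x0) (nat_lit 0x4000e000100000000000000000000000000000000000000000000000000000) := T_31 (nat_lit 229) (nat_lit 246) (nat_lit 7) (nat_lit 7) (nat_lit 10) L82292 (by decide +kernel)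
theorem L82294 : W_31 (nat_lit 4) (nat_lit 0x10000c000e000300000001000080000000000000000000000000000000) (nat_lit 0x0) (nat_lit 0x4000e000130000000000000000000000000000000000000000000000000000) := T_31 (nat_lit 209) (nat_lit 208) (nat_lit 2) (nat_lit 4) (nat_lit 12) L82293 (by decide +kernel)
theorem L82295 : W_31 (nat_lit 5) (nat_lit 0xc000e000300000001000080000000000000000000000000000000) (nat_lit 0x0) (nat_lit 0x6000f000130000000000000000000000000000000000000000000000000000) := T_31 (nat_lit 228) (nat_lit 245) (nat_lit 4) (nat_lit 7) (nat_lit 14) L82294 (by decide +kernel)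
theorem L82296 : W_31 (nat_lit 8) (nat_lit 0x8000e000300000001000080000000000000000000000000000000) (nat_lit 0x0) (nat_lit 0x7800ff00170000000000000000000000000000000000000000000000000000) := Q_31 (nat_lit 210) (C_31 L82277 (C_31 L82281 (C_31 L82287 (C_31 L82291 (C_31 L82295 N_31))))) (by decide +kernel)
theorem L82301 : W_31 (nat_lit 2) (nat_lit 0x1c0006000e000340000001000080000000000000000000000000000000) (nat_lit 0x0) (nat_lit 0x2000018000000000000000000000000000000000000000000000000000) := D_31 (nat_lit 208) (nat_lit 207) (nat_lit 229) (nat_lit 3) (nat_lit 3) (nat_lit 12) (nat_lit 0) (nat_lit 8) (nat_lit 13) (by decide +kernel)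
theorem L82302 : W_31 (nat_lit 3) (nat_lit 0xc0006000e000340000001000080000000000000000000000000000000) (nat_lit 0x0) (nat_lit 0x20003000018000000000000000000000000000000000000000000000000000) := T_31 (nat_lit 228) (nat_lit 245) (nat_lit 7) (nat_lit 6) (nat_lit 10) L82301 (by decide +kernel)
theorem L82303 : W_31 (nat_lit 4) (nat_lit 0xc0004000e000340000001000080000000000000000000000000000000) (nat_lit 0x0) (nat_lit 0x20003000038000000000008000000000000000000000000000000000000000) := T_31 (nat_lit 209) (nat_lit 159) (nat_lit 5) (nat_lit 6) (nat_lit 9) L82302 (by decide +kernel)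
theorem L82304 : W_31 (nat_lit 5) (nat_lit 0x80004000e000340000001000080000000000000000000000000000000) (nat_lit 0x0) (nat_lit 0x28003400038000000000008000000000000000000000000000000000000000) := T_31 (nat_lit 226) (nat_lit 243) (nat_lit 5) (nat_lit 6) (nat_lit 10) L82303 (by decide +kernel)
theorem L82305 : W_31 (nat_lit 6) (nat_lit 0x4000e000340000001000080000000000000000000000000000000) (nat_lit 0x0) (nat_lit 0x38003c00038000000000008000000000000000000000000000000000000000) := T_31 (nat_lit 227) (nat_lit 244) (nat_lit 6) (nat_lit 6) (nat_lit 14) L82304 (by decide +kernel)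
theorem L82306 : W_31 (nat_lit 7) (nat_lit 0x4000e000300000001000080000000000000000000000000000000) (nat_lit 0x0) (nat_lit 0x38003c000380000000c0008000000000000000000000000000000000000000) := T_31 (nat_lit 174) (nat_lit 175) (nat_lit 3) (nat_lit 4) (nat_lit 10) L82305 (by decide +kernel)
theorem L82312 : W_31 (nat_lit 8) (nat_lit 0x4000e000300000001000080000000000000000000000000000000) (nat_lit 0x0) (nat_lit 0x7800ff001b0000000000000000000000000000000000000000000000000000) := Q_31 (nat_lit 211) (C_31 L82295 (C_31 L82281 (C_31 L82287 (C_31 L82291 N_31)))) (by decide +kernel)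
theorem L82313 : W_31 (nat_lit 2) (nat_lit 0xbc000c000e000340000001000080000000000000000000000000000000) (nat_lit 0x0) (nat_lit 0x200300000000000000000000000000000000000000000000000000000) := D_31 (nat_lit 212) (nat_lit 213) (nat_lit 225) (nat_lit 2) (nat_lit 5) (nat_lit 13) (nat_lit 2) (nat_lit 4) (nat_lit 13) (by decide +kernel)
theorem L82314 : W_31 (nat_lit 3) (nat_lit 0xb8000c000e000340000001000080000000000000000000000000000000) (nat_lit 0x0) (nat_lit 0x8000600300000000000000000000000000000000000000000000000000000) := T_31 (nat_lit 226) (nat_lit 243) (nat_lit 5) (nat_lit 6) (nat_lit 10) L82313 (by decide +kernel)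
theorem L82315 : W_31 (nat_lit 4) (nat_lit 0x38000c000e000340000001000080000000000000000000000000000000) (nat_lit 0x0) (nat_lit 0x800c600300000000000000000000000000000000000000000000000000000) := T_31 (nat_lit 231) (nat_lit 230) (nat_lit 0) (nat_lit 10) (nat_lit 13) L82314 (by decide +kernel)
theorem L82316 : W_31 (nat_lit 5) (nat_lit 0x18000c000e000340000001000080000000000000000000000000000000) (nat_lit 0x0) (nat_lit 0x4800e600300000000000000000000000000000000000000000000000000000) := T_31 (nat_lit 229) (nat_lit 246) (nat_lit 7) (nat_lit 7) (nat_lit 10) L82315 (by decide +kernel)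
theorem L82317 : W_31 (nat_lit 6) (nat_lit 0x180004000e000340000001000080000000000000000000000000000000) (nat_lit 0x0) (nat_lit 0x4800e600380000000000008000000000000000000000000000000000000000) := T_31 (nat_lit 211) (nat_lit 159) (nat_lit 7) (nat_lit 6) (nat_lit 9) L82316 (by decide +kernel)
theorem L82318 : W_31 (nat_lit 7) (nat_lit 0x80004000e000340000001000080000000000000000000000000000000) (nat_lit 0x0) (nat_lit 0x6800f600380000000000008000000000000000000000000000000000000000) := T_31 (nat_lit 228) (nat_lit 245) (nat_lit 7) (nat_lit 6) (nat_lit 10) L82317 (by decide +kernel)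
theorem L82319 : W_31 (nat_lit 8) (nat_lit 0x80004000e000300000001000080000000000000000000000000000000) (nat_lit 0x0) (nat_lit 0x6800f6003800000000c0008000000000000000000000000000000000000000) := T_31 (nat_lit 174) (nat_lit 175) (nat_lit 3) (nat_lit 4) (nat_lit 10) L82318 (by decide +kernel)
theorem L82320 : W_31 (nat_lit 9) (nat_lit 0x4000e000300000001000080000000000000000000000000000000) (nat_lit 0x0) (nat_lit 0x7800fe003800000000c0008000000000000000000000000000000000000000) := T_31 (nat_lit 227) (nat_lit 244) (nat_lit 6) (nat_lit 6) (nat_lit 14) L82319 (by decide +kernel)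
theorem L82322 : W_31 (nat_lit 6) (nat_lit 0x4000e000300000001000080000000000000000000000000000000) (nat_lit 0x0) (nat_lit 0x6000f4001b0000000000008000400000000000000000000000000000000000) := Q_31 (nat_lit 211) (C_31 L82295 (C_31 L82229 (C_31 L82321 N_31))) (by decide +kernel)
theorem L82323 : W_31 (nat_lit 2) (nat_lit 0x800078002d000e000340000001000080000000000000000000000000000000) (nat_lit 0x0) (nat_lit 0x1000000000000100000000400000000000000000000000000000000000000000000) := D_31 (nat_lit 212) (nat_lit 264) (nat_lit 178) (nat_lit 4) (nat_lit 9) (nat_lit 15) (nat_lit 7) (nat_lit 8) (nat_lit 10) (by decide +kernel)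
theorem L82324 : W_31 (nat_lit 3) (nat_lit 0x78002d000e000340000001000080000000000000000000000000000000) (nat_lit 0x0) (nat_lit 0x1000180000000100000000400000000000000000000000000000000000000000000) := T_31 (nat_lit 247) (nat_lit 248) (nat_lit 3) (nat_lit 6) (nat_lit 13) L82323 (by decide +kernel)
theorem L82325 : W_31 (nat_lit 4) (nat_lit 0x78000d000e000340000001000080000000000000000000000000000000) (nat_lit 0x0) (nat_lit 0x1000180000000700000000400000000000000000000000000000000000000000000) := T_31 (nat_lit 213) (nat_lit 214) (nat_lit 2) (nat_lit 6) (nat_lit 13) L82324 (by decide +kernel)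
theorem L82326 : W_31 (nat_lit 5) (nat_lit 0x38000d000e000340000001000080000000000000000000000000000000) (nat_lit 0x0) (nat_lit 0x100018000c000700000000400000000000000000000000000000000000000000000) := T_31 (nat_lit 230) (nat_lit 231) (nat_lit 0) (nat_lit 10) (nat_lit 13) L82325 (by decide +kernel)
theorem L82327 : W_31 (nat_lit 6) (nat_lit 0x18000d000e000340000001000080000000000000000000000000000000) (nat_lit 0x0) (nat_lit 0x10001c000e000700000000400000000000000000000000000000000000000000000) := T_31 (nat_lit 229) (nat_lit 246) (nat_lit 7) (nat_lit 7) (nat_lit 10) L82326 (by decide +kernel)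
theorem L82328 : W_31 (nat_lit 7) (nat_lit 0x18000c000e000340000001000080000000000000000000000000000000) (nat_lit 0x0) (nat_lit 0x10001c000e000730000000400000000000000000000000000000000000000000000) := T_31 (nat_lit 208) (nat_lit 209) (nat_lit 2) (nat_lit 4) (nat_lit 12) L82327 (by decide +kernel)
theorem L82329 : W_31 (nat_lit 8) (nat_lit 0x180004000e000340000001000080000000000000000000000000000000) (nat_lit 0x0) (nat_lit 0x10001c000e0007b0000000400008000000000000000000000000000000000000000) := T_31 (nat_lit 211) (nat_lit 159) (nat_lit 7) (nat_lit 6) (nat_lit 9) L82328 (by decide +kernel)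
theorem L82330 : W_31 (nat_lit 9) (nat_lit 0x80004000e000340000001000080000000000000000000000000000000) (nat_lit 0x0) (nat_lit 0x10001e000f0007b0000000400008000000000000000000000000000000000000000) := T_31 (nat_lit 228) (nat_lit 245) (nat_lit 7) (nat_lit 6) (nat_lit 10) L82329 (by decide +kernel)
theorem L82331 : W_31 (nat_lit 10) (nat_lit 0x4000e000340000001000080000000000000000000000000000000) (nat_lit 0x0) (nat_lit 0x10001f000f8007b0000000400008000000000000000000000000000000000000000) := T_31 (nat_lit 227) (nat_lit 244) (nat_lit 6) (nat_lit 6) (nat_lit 14) L82330 (by decide +kernel)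
theorem L82332 : W_31 (nat_lit 11) (nat_lit 0x4000e000300000001000080000000000000000000000000000000) (nat_lit 0x0) (nat_lit 0x10001f000f8007b00000004c0008000000000000000000000000000000000000000) := T_31 (nat_lit 174) (nat_lit 175) (nat_lit 3) (nat_lit 4) (nat_lit 10) L82331 (by decide +kernel)
theorem L82333 : W_31 (nat_lit 12) (nat_lit 0xe000300000001000080000000000000000000000000000000) (nat_lit 0x0) (nat_lit 0x10001f800ff007f80000004c0008000400020000000000000000000000000000000) := Q_31 (nat_lit 210) (C_31 L82306 (C_31 L82311 (C_31 L82312 (C_31 L82320 (C_31 L82322 (C_31 L82332 N_31)))))) (by decide +kernel)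
theorem L82334 : W_31 (nat_lit 13) (nat_lit 0xc000300000001000080000000000000000000000000000000) (nat_lit 0x0) (nat_lit 0x10001f801ff007f8003c00ce0008000400020000000000000000000000000000000) := Q_31 (nat_lit 193) (C_31 L82195 (C_31 L82239 (C_31 L82206 (C_31 L82216 (C_31 L82223 (C_31 L82333 N_31)))))) (by decide +kernel)
theorem L82335 : W_31 (nat_lit 2) (nat_lit 0x1000200034001e000300000001000080000000000000000000000000000000) (nat_lit 0x0) (nat_lit 0x1800040000000000000000000000000000000000000000) := D_31 (nat_lit 179) (nat_lit 180) (nat_lit 162) (nat_lit 2) (nat_lit 6) (nat_lit 11) (nat_lit 5) (nat_lit 9) (nat_lit 9) (by decide +kernel)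
theorem L82336 : W_31 (nat_lit 3) (nat_lit 0x1000000034001e000300000001000080000000000000000000000000000000) (nat_lit 0x0) (nat_lit 0x40002000000000001800040000000000000000000000000000000000000000) := T_31 (nat_lit 229) (nat_lit 246) (nat_lit 4) (nat_lit 8) (nat_lit 14) L82335 (by decide +kernel)
theorem L82337 : W_31 (nat_lit 4) (nat_lit 0x34001e000300000001000080000000000000000000000000000000) (nat_lit 0x0) (nat_lit 0x50002800000000001800040000000000000000000000000000000000000000) := T_31 (nat_lit 244) (nat_lit 227) (nat_lit 6) (nat_lit 6) (nat_lit 14) L82336 (by decide +kernel)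
theorem L82338 : W_31 (nat_lit 5) (nat_lit 0x24001e000300000001000080000000000000000000000000000000) (nat_lit 0x0) (nat_lit 0x50002800100001001800040000000000000000000000000000000000000000) := T_31 (nat_lit 212) (nat_lit 192) (nat_lit 3) (nat_lit 5) (nat_lit 11) L82337 (by decide +kernel)
theorem L82339 : W_31 (nat_lit 6) (nat_lit 0x4001e000300000001000080000000000000000000000000000000) (nat_lit 0x0) (nat_lit 0x50002800700001001800040000000000000000000000000000000000000000) := T_31 (nat_lit 213) (nat_lit 214) (nat_lit 3) (nat_lit 6) (nat_lit 11) L82338 (by decide +kernel)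
theorem L82340 : W_31 (nat_lit 7) (nat_lit 0x1e000300000001000080000000000000000000000000000000) (nat_lit 0x0) (nat_lit 0x50002800760001001800040000000000000000000000000000000000000000) := T_31 (nat_lit 210) (nat_lit 209) (nat_lit 1) (nat_lit 9) (nat_lit 11) L82339 (by decide +kernel)
theorem L82341 : W_31 (nat_lit 8) (nat_lit 0xe000300000001000080000000000000000000000000000000) (nat_lit 0x0) (nat_lit 0x50002800760031001800040000000000000000000000000000000000000000) := T_31 (nat_lit 196) (nat_lit 197) (nat_lit 0) (nat_lit 10) (nat_lit 11) L82340 (by decide +kernel)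
theorem L82342 : W_31 (nat_lit 2) (nat_lit 0x1000e00024001e000f00040001000080000000000000000000000000000000) (nat_lit 0x0) (nat_lit 0x20001000080000000000000000000000000000000000000000000000000000) := D_31 (nat_lit 228) (nat_lit 245) (nat_lit 211) (nat_lit 1) (nat_lit 10) (nat_lit 13) (nat_lit 0) (nat_lit 10) (nat_lit 13) (by decide +kernel)
theorem L82343 : W_31 (nat_lit 3) (nat_lit 0x1000c00024001e000f00040001000080000000000000000000000000000000) (nat_lit 0x0) (nat_lit 0x60003000080000000000000000000000000000000000000000000000000000) := T_31 (nat_lit 229) (nat_lit 246) (nat_lit 5) (nat_lit 9) (nat_lit 10) L82342 (by decide +kernel)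
theorem L82344 : W_31 (nat_lit 4) (nat_lit 0x1000400024001e000f00040001000080000000000000000000000000000000) (nat_lit 0x0) (nat_lit 0x16000b000080000000000000000000000000000000000000000000000000000) := T_31 (nat_lit 231) (nat_lit 248) (nat_lit 7) (nat_lit 9) (nat_lit 10) L82343 (by decide +kernel)
theorem L82345 : W_31 (nat_lit 5) (nat_lit 0x1000400024001e000f00000001000080000000000000000000000000000000) (nat_lit 0x0) (nat_lit 0x16000b0000800000000000c0000000000000000000000000000000000000000) := T_31 (nat_lit 162) (nat_lit 163) (nat_lit 2) (nat_lit 6) (nat_lit 10) L82344 (by decide +kernel)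
theorem L82346 : W_31 (nat_lit 6) (nat_lit 0x1000000024001e000f00000001000080000000000000000000000000000000) (nat_lit 0x0) (nat_lit 0x1e000f0000800000000000c0000000000000000000000000000000000000000) := T_31 (nat_lit 230) (nat_lit 247) (nat_lit 4) (nat_lit 9) (nat_lit 14) L82345 (by decide +kernel)
theorem L82347 : W_31 (nat_lit 7) (nat_lit 0x1000000024001e000b00000001000080000000000000000000000000000000) (nat_lit 0x0) (nat_lit 0x1e000f0000800010004000c0000000000000000000000000000000000000000) := T_31 (nat_lit 178) (nat_lit 192) (nat_lit 2) (nat_lit 5) (nat_lit 11) L82346 (by decide +kernel)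
theorem L82348 : W_31 (nat_lit 8) (nat_lit 0x1000000024001e000300000001000080000000000000000000000000000000) (nat_lit 0x0) (nat_lit 0x1e000f000080001001c000c0000000000000000000000000000000000000000) := T_31 (nat_lit 179) (nat_lit 180) (nat_lit 2) (nat_lit 6) (nat_lit 11) L82347 (by decide +kernel)
theorem L82349 : W_31 (nat_lit 9) (nat_lit 0x24001e000300000001000080000000000000000000000000000000) (nat_lit 0x0) (nat_lit 0x1f000f800080001001c000c0000000000000000000000000000000000000000) := T_31 (nat_lit 244) (nat_lit 227) (nat_lit 6) (nat_lit 6) (nat_lit 14) L82348 (by decide +kernel)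
theorem L82350 : W_31 (nat_lit 10) (nat_lit 0x4001e000300000001000080000000000000000000000000000000) (nat_lit 0x0) (nat_lit 0x1f000f800680001001c000c0000000000000000000000000000000000000000) := T_31 (nat_lit 213) (nat_lit 214) (nat_lit 3) (nat_lit 6) (nat_lit 11) L82349 (by decide +kernel)
theorem L82351 : W_31 (nat_lit 11) (nat_lit 0x1e000300000001000080000000000000000000000000000000) (nat_lit 0x0) (nat_lit 0x1f000f8006e0001001c000c0000000000000000000000000000000000000000) := T_31 (nat_lit 210) (nat_lit 209) (nat_lit 1) (nat_lit 9) (nat_lit 11) L82350 (by decide +kernel)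
theorem L82352 : W_31 (nat_lit 12) (nat_lit 0xe000300000001000080000000000000000000000000000000) (nat_lit 0x0) (nat_lit 0x1f000f8006e0031001c000c0000000000000000000000000000000000000000) := T_31 (nat_lit 196) (nat_lit 197) (nat_lit 0) (nat_lit 10) (nat_lit 11) L82351 (by decide +kernel)
theorem L82353 : W_31 (nat_lit 2) (nat_lit 0x3c0024001e000b000080010000a0000000000000000000000000000000) (nat_lit 0x0) (nat_lit 0xc0004000000000000000000000000000000000000000000000000000000000) := D_31 (nat_lit 246) (nat_lit 247) (nat_lit 230) (nat_lit 3) (nat_lit 5) (nat_lit 13) (nat_lit 5) (nat_lit 9) (nat_lit 10) (by decide +kernel)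
theorem L82354 : W_31 (nat_lit 3) (nat_lit 0x1c0024001e000b000080010000a0000000000000000000000000000000) (nat_lit 0x0) (nat_lit 0xc0006000100000000000000000000000000000000000000000000000000000) := T_31 (nat_lit 229) (nat_lit 212) (nat_lit 2) (nat_lit 5) (nat_lit 13) L82353 (by decide +kernel)
theorem L82355 : W_31 (nat_lit 4) (nat_lit 0x180024001e000b000080010000a0000000000000000000000000000000) (nat_lit 0x0) (nat_lit 0xc8006400100000000000000000000000000000000000000000000000000000) := T_31 (nat_lit 226) (nat_lit 243) (nat_lit 5) (nat_lit 6) (nat_lit 10) L82354 (by decide +kernel)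
theorem L82356 : W_31 (nat_lit 5) (nat_lit 0x180024001e000b00008001000080000000000000000000000000000000) (nat_lit 0x0) (nat_lit 0xc8006400100000000000000000400020000000000000000000000000000000) := T_31 (nat_lit 125) (nat_lit 142) (nat_lit 7) (nat_lit 6) (nat_lit 7) L82355 (by decide +kernel)
theorem L82357 : W_31 (nat_lit 6) (nat_lit 0x180024001e000b00000001000080000000000000000000000000000000) (nat_lit 0x0) (nat_lit 0xc8006400180000000000008000400020000000000000000000000000000000) := T_31 (nat_lit 159) (nat_lit 211) (nat_lit 7) (nat_lit 6) (nat_lit 9) L82356 (by decide +kernel)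
theorem L82358 : W_31 (nat_lit 7) (nat_lit 0x80024001e000b00000001000080000000000000000000000000000000) (nat_lit 0x0) (nat_lit 0xe8007400180000000000008000400020000000000000000000000000000000) := T_31 (nat_lit 228) (nat_lit 245) (nat_lit 7) (nat_lit 6) (nat_lit 10) L82357 (by decide +kernel)
theorem L82359 : W_31 (nat_lit 8) (nat_lit 0x80024001e000300000001000080000000000000000000000000000000) (nat_lit 0x0) (nat_lit 0xe8007400180000001800008000400020000000000000000000000000000000) := T_31 (nat_lit 179) (nat_lit 180) (nat_lit 2) (nat_lit 6) (nat_lit 11) L82358 (by decide +kernel)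
theorem L82360 : W_31 (nat_lit 9) (nat_lit 0x24001e000300000001000080000000000000000000000000000000) (nat_lit 0x0) (nat_lit 0xf8007c00180000001800008000400020000000000000000000000000000000) := T_31 (nat_lit 227) (nat_lit 244) (nat_lit 6) (nat_lit 6) (nat_lit 14) L82359 (by decide +kernel)
theorem L82361 : W_31 (nat_lit 10) (nat_lit 0x4001e000300000001000080000000000000000000000000000000) (nat_lit 0x0) (nat_lit 0xf8007c00780000001800008000400020000000000000000000000000000000) := T_31 (nat_lit 213) (nat_lit 214) (nat_lit 3) (nat_lit 6) (nat_lit 11) L82360 (by decide +kernel)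
theorem L82362 : W_31 (nat_lit 11) (nat_lit 0x1e000300000001000080000000000000000000000000000000) (nat_lit 0x0) (nat_lit 0xf8007c007e0000001800008000400020000000000000000000000000000000) := T_31 (nat_lit 210) (nat_lit 209) (nat_lit 1) (nat_lit 9) (nat_lit 11) L82361 (by decide +kernel)
theorem L82363 : W_31 (nat_lit 12) (nat_lit 0xe000300000001000080000000000000000000000000000000) (nat_lit 0x0) (nat_lit 0xf8007c007e0030001800008000400020000000000000000000000000000000) := T_31 (nat_lit 196) (nat_lit 197) (nat_lit 0) (nat_lit 10) (nat_lit 11) L82362 (by decide +kernel)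
theorem L82364 : W_31 (nat_lit 13) (nat_lit 0xc000300000001000080000000000000000000000000000000) (nat_lit 0x0) (nat_lit 0x1f800ff007f0033c01c000c8000400020000000000000000000000000000000) := Q_31 (nat_lit 193) (C_31 L11673 (C_31 L82341 (C_31 L11651 (C_31 L82223 (C_31 L11663 (C_31 L82352 (C_31 L82363 N_31))))))) (by decide +kernel)
theorem L82365 : W_31 (nat_lit 14) (nat_lit 0x4000300000001000080000000000000000000000000000000) (nat_lit 0x0) (nat_lit 0x10001f801ff007f803bc01ce00c8000400020000000000000000000000000000000) := Q_31 (nat_lit 195) (C_31 L5377 (C_31 L82190 (C_31 L82334 (C_31 L82364 N_31)))) (by decide +kernel)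
theorem L82366 : W_31 (nat_lit 2) (nat_lit 0x60001c0018000c000340000001000080000000000000000000000000000000) (nat_lit 0x0) (nat_lit 0x640000000000000000000000000000000000000000000000000000) := D_31 (nat_lit 213) (nat_lit 214) (nat_lit 210) (nat_lit 1) (nat_lit 10) (nat_lit 12) (nat_lit 1) (nat_lit 9) (nat_lit 12) (by decide +kernel)
theorem L82367 : W_31 (nat_lit 3) (nat_lit 0x6000180018000c000340000001000080000000000000000000000000000000) (nat_lit 0x0) (nat_lit 0x600640000000000000000000000000000000000000000000000000000) := T_31 (nat_lit 226) (nat_lit 225) (nat_lit 3) (nat_lit 4) (nat_lit 13) L82366 (by decide +kernel)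
theorem L82368 : W_31 (nat_lit 4) (nat_lit 0x6000180008000c000340000001000080000000000000000000000000000000) (nat_lit 0x0) (nat_lit 0x400000000600740000000000000000000000000000000000000000000000000000) := T_31 (nat_lit 212) (nat_lit 262) (nat_lit 6) (nat_lit 7) (nat_lit 15) L82367 (by decide +kernel)
theorem L82369 : W_31 (nat_lit 5) (nat_lit 0x4000180008000c000340000001000080000000000000000000000000000000) (nat_lit 0x0) (nat_lit 0xc00020000600740000000000000000000000000000000000000000000000000000) := T_31 (nat_lit 245) (nat_lit 263) (nat_lit 7) (nat_lit 7) (nat_lit 11) L82368 (by decide +kernel)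
theorem L82370 : W_31 (nat_lit 6) (nat_lit 0x180008000c000340000001000080000000000000000000000000000000) (nat_lit 0x0) (nat_lit 0xc00060002600740000000000000000000000000000000000000000000000000000) := T_31 (nat_lit 246) (nat_lit 229) (nat_lit 7) (nat_lit 7) (nat_lit 10) L82369 (by decide +kernel)
theorem L82371 : W_31 (nat_lit 7) (nat_lit 0x100008000c000340000001000080000000000000000000000000000000) (nat_lit 0x0) (nat_lit 0xc00070002e00740000000000000000000000000000000000000000000000000000) := T_31 (nat_lit 227) (nat_lit 244) (nat_lit 5) (nat_lit 7) (nat_lit 10) L82370 (by decide +kernel)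
theorem L82372 : W_31 (nat_lit 8) (nat_lit 0x100008000c000300000001000080000000000000000000000000000000) (nat_lit 0x0) (nat_lit 0xc00070002e007400000000c0000000000000000000000000000000000000000000) := T_31 (nat_lit 174) (nat_lit 175) (nat_lit 3) (nat_lit 4) (nat_lit 10) L82371 (by decide +kernel)
theorem L82373 : W_31 (nat_lit 2) (nat_lit 0x6000100008002c000300000001000080000000000000000000000000000000) (nat_lit 0x0) (nat_lit 0x200010000800000000000000000000000000000000000000000000000000000000) := D_31 (nat_lit 244) (nat_lit 227) (nat_lit 261) (nat_lit 5) (nat_lit 7) (nat_lit 10) (nat_lit 5) (nat_lit 7) (nat_lit 11) (by decide +kernel)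
theorem L82374 : W_31 (nat_lit 3) (nat_lit 0x4000100008002c000300000001000080000000000000000000000000000000) (nat_lit 0x0) (nat_lit 0xa00030000800000000000000000000000000000000000000000000000000000000) := T_31 (nat_lit 245) (nat_lit 263) (nat_lit 7) (nat_lit 7) (nat_lit 11) L82373 (by decide +kernel)
theorem L82375 : W_31 (nat_lit 4) (nat_lit 0x4000100008000c000300000001000080000000000000000000000000000000) (nat_lit 0x0) (nat_lit 0xa00030000800000030000000000000000000000000000000000000000000000000) := T_31 (nat_lit 197) (nat_lit 196) (nat_lit 0) (nat_lit 10) (nat_lit 11) L82374 (by decide +kernel)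
theorem L82376 : W_31 (nat_lit 5) (nat_lit 0x100008000c000300000001000080000000000000000000000000000000) (nat_lit 0x0) (nat_lit 0xa00070002800000030000000000000000000000000000000000000000000000000) := T_31 (nat_lit 246) (nat_lit 229) (nat_lit 7) (nat_lit 7) (nat_lit 10) L82375 (by decide +kernel)
theorem L82377 : W_31 (nat_lit 2) (nat_lit 0x10000e000c000300000001000080000000000000000000000000000000) (nat_lit 0x0) (nat_lit 0x100030000000000000000000000000000000000000000000000000) := D_31 (nat_lit 196) (nat_lit 197) (nat_lit 212) (nat_lit 1) (nat_lit 10) (nat_lit 11) (nat_lit 2) (nat_lit 5) (nat_lit 12) (by decide +kernel)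
theorem L82378 : W_31 (nat_lit 3) (nat_lit 0x10000c000c000300000001000080000000000000000000000000000000) (nat_lit 0x0) (nat_lit 0x130030000000000000000000000000000000000000000000000000) := T_31 (nat_lit 209) (nat_lit 208) (nat_lit 2) (nat_lit 4) (nat_lit 12) L82377 (by decide +kernel)
theorem L82379 : W_31 (nat_lit 2) (nat_lit 0x1c0018000c000300000001000080000000000000000000000000000000) (nat_lit 0x0) (nat_lit 0x2000600000000000000000000000000000000000000000000000000000) := D_31 (nat_lit 213) (nat_lit 214) (nat_lit 229) (nat_lit 1) (nat_lit 10) (nat_lit 12) (nat_lit 2) (nat_lit 5) (nat_lit 13) (by decide +kernel)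
theorem L82380 : W_31 (nat_lit 3) (nat_lit 0x180018000c000300000001000080000000000000000000000000000000) (nat_lit 0x0) (nat_lit 0x2600600000000000000000000000000000000000000000000000000000) := T_31 (nat_lit 226) (nat_lit 225) (nat_lit 2) (nat_lit 4) (nat_lit 13) L82379 (by decide +kernel)
theorem L82381 : W_31 (nat_lit 4) (nat_lit 0x100018000c000300000001000080000000000000000000000000000000) (nat_lit 0x0) (nat_lit 0x10002e00600000000000000000000000000000000000000000000000000000) := T_31 (nat_lit 227) (nat_lit 244) (nat_lit 5) (nat_lit 7) (nat_lit 10) L82380 (by decide +kernel)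
theorem L82382 : W_31 (nat_lit 2) (nat_lit 0x70000c000c000300000001000080000000000000000000000000000000) (nat_lit 0x0) (nat_lit 0x800030000000000000000000000000000000000000000000000000000) := D_31 (nat_lit 209) (nat_lit 208) (nat_lit 227) (nat_lit 3) (nat_lit 4) (nat_lit 12) (nat_lit 0) (nat_lit 9) (nat_lit 13) (by decide +kernel)
theorem L82383 : W_31 (nat_lit 3) (nat_lit 0x30000c000c000300000001000080000000000000000000000000000000) (nat_lit 0x0) (nat_lit 0xc800030000000000000000000000000000000000000000000000000000) := T_31 (nat_lit 230) (nat_lit 231) (nat_lit 0) (nat_lit 10) (nat_lit 13) L82382 (by decide +kernel)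
theorem L82384 : W_31 (nat_lit 6) (nat_lit 0x8000c000300000001000080000000000000000000000000000000) (nat_lit 0x0) (nat_lit 0xa00070003800000030000000008000000000000000000000000000000000000000) := T_31 (nat_lit 228) (nat_lit 159) (nat_lit 4) (nat_lit 7) (nat_lit 13) L82376 (by decide +kernel)
theorem L82385 : W_31 (nat_lit 2) (nat_lit 0xc001c000300000001000080000000000000000000000000000000) (nat_lit 0x0) (nat_lit 0x130000000000000000000000000000000000000000000000000000) := D_31 (nat_lit 209) (nat_lit 208) (nat_lit 212) (nat_lit 2) (nat_lit 4) (nat_lit 12) (nat_lit 2) (nat_lit 5) (nat_lit 12) (by decide +kernel)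
theorem L82386 : W_31 (nat_lit 3) (nat_lit 0xc000c000300000001000080000000000000000000000000000000) (nat_lit 0x0) (nat_lit 0x130030000000000000000000000000000000000000000000000000) := T_31 (nat_lit 196) (nat_lit 197) (nat_lit 1) (nat_lit 10) (nat_lit 11) L82385 (by decide +kernel)
theorem L82401 : W_31 (nat_lit 2) (nat_lit 0xd000380008001400080000000000000000000000000000000) (nat_lit 0x0) (nat_lit 0x400020000000000004000000000000000000000000000000000000000) := D_31 (nat_lit 209) (nat_lit 226) (nat_lit 158) (nat_lit 6) (nat_lit 5) (nat_lit 13) (nat_lit 6) (nat_lit 5) (nat_lit 12) (by decide +kernel)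
theorem L82402 : W_31 (nat_lit 3) (nat_lit 0xd000380008001000080000000000000000000000000000000) (nat_lit 0x0) (nat_lit 0x400020000000000004000400020000000000000000000000000000000) := T_31 (nat_lit 142) (nat_lit 125) (nat_lit 7) (nat_lit 6) (nat_lit 7) L82401 (by decide +kernel)
theorem L82413 : W_31 (nat_lit 8) (nat_lit 0x100000000c000340000001000080000000000000000000000000000000) (nat_lit 0x0) (nat_lit 0xc00070002e007c0000000000008000000000000000000000000000000000000000) := T_31 (nat_lit 211) (nat_lit 159) (nat_lit 4) (nat_lit 7) (nat_lit 13) L82371 (by decide +kernel)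
theorem L82414 : W_31 (nat_lit 9) (nat_lit 0x100000000c000300000001000080000000000000000000000000000000) (nat_lit 0x0) (nat_lit 0xc00070002e007c00000000c0008000000000000000000000000000000000000000) := T_31 (nat_lit 174) (nat_lit 175) (nat_lit 3) (nat_lit 4) (nat_lit 10) L82413 (by decide +kernel)
theorem L82418 : W_31 (nat_lit 2) (nat_lit 0x7c0020000c000300000001000080000000000000000000000000000000) (nat_lit 0x0) (nat_lit 0x1c000000000000000000000000000000000000000000000000000000000000) := D_31 (nat_lit 243) (nat_lit 242) (nat_lit 244) (nat_lit 1) (nat_lit 8) (nat_lit 13) (nat_lit 1) (nat_lit 9) (nat_lit 13) (by decide +kernel)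
theorem L82419 : W_31 (nat_lit 3) (nat_lit 0x780020000c000300000001000080000000000000000000000000000000) (nat_lit 0x0) (nat_lit 0x1c000400100000000000000000000000000000000000000000000000000000) := T_31 (nat_lit 226) (nat_lit 212) (nat_lit 2) (nat_lit 5) (nat_lit 13) L82418 (by decide +kernel)
theorem L82420 : W_31 (nat_lit 4) (nat_lit 0x780000000c000300000001000080000000000000000000000000000000) (nat_lit 0x0) (nat_lit 0x1c000400700000000000000000000000000000000000000000000000000000) := T_31 (nat_lit 213) (nat_lit 214) (nat_lit 2) (nat_lit 6) (nat_lit 13) L82419 (by decide +kernel)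
theorem L82421 : W_31 (nat_lit 2) (nat_lit 0x9000780020000c000300000001000080000000000000000000000000000000) (nat_lit 0x0) (nat_lit 0x1000040000000100000000000000000000000000000000000000000000000000000) := D_31 (nat_lit 212) (nat_lit 246) (nat_lit 264) (nat_lit 4) (nat_lit 8) (nat_lit 14) (nat_lit 4) (nat_lit 9) (nat_lit 15) (by decide +kernel)
theorem L82422 : W_31 (nat_lit 3) (nat_lit 0x9000780000000c000300000001000080000000000000000000000000000000) (nat_lit 0x0) (nat_lit 0x1000040000000700000000000000000000000000000000000000000000000000000) := T_31 (nat_lit 213) (nat_lit 214) (nat_lit 2) (nat_lit 6) (nat_lit 13) L82421 (by decide +kernel)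
theorem L82423 : W_31 (nat_lit 4) (nat_lit 0x8000780000000c000300000001000080000000000000000000000000000000) (nat_lit 0x0) (nat_lit 0x1000058000000700000000000000000000000000000000000000000000000000000) := T_31 (nat_lit 244) (nat_lit 243) (nat_lit 1) (nat_lit 9) (nat_lit 13) L82422 (by decide +kernel)
theorem L82424 : W_31 (nat_lit 5) (nat_lit 0x780000000c000300000001000080000000000000000000000000000000) (nat_lit 0x0) (nat_lit 0x10001d8000000700000000000000000000000000000000000000000000000000000) := T_31 (nat_lit 247) (nat_lit 248) (nat_lit 3) (nat_lit 6) (nat_lit 13) L82423 (by decide +kernel)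
theorem L82425 : W_31 (nat_lit 2) (nat_lit 0x80007c0000000c000300000001000080000000000000000000000000000000) (nat_lit 0x0) (nat_lit 0x70000000000000000000000000000000000000000000000000000) := D_31 (nat_lit 209) (nat_lit 208) (nat_lit 210) (nat_lit 0) (nat_lit 8) (nat_lit 13) (nat_lit 0) (nat_lit 9) (nat_lit 13) (by decide +kernel)
theorem L82426 : W_31 (nat_lit 3) (nat_lit 0x8000780000000c000300000001000080000000000000000000000000000000) (nat_lit 0x0) (nat_lit 0x40000400070000000000000000000000000000000000000000000000000000) := T_31 (nat_lit 226) (nat_lit 246) (nat_lit 3) (nat_lit 5) (nat_lit 13) L82425 (by decide +kernel)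
theorem L82427 : W_31 (nat_lit 4) (nat_lit 0x780000000c000300000001000080000000000000000000000000000000) (nat_lit 0x0) (nat_lit 0x1c0000400070000000000000000000000000000000000000000000000000000) := T_31 (nat_lit 247) (nat_lit 248) (nat_lit 3) (nat_lit 6) (nat_lit 13) L82426 (by decide +kernel)
theorem L82428 : W_31 (nat_lit 2) (nat_lit 0x10000f80000002c000300000001000080000000000000000000000000000000) (nat_lit 0x0) (nat_lit 0x38000000000000000000000000000000000000000000000000000000000000) := D_31 (nat_lit 244) (nat_lit 243) (nat_lit 245) (nat_lit 1) (nat_lit 9) (nat_lit 13) (nat_lit 1) (nat_lit 10) (nat_lit 13) (by decide +kernel)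
theorem L82429 : W_31 (nat_lit 3) (nat_lit 0x10000f00000002c000300000001000080000000000000000000000000000000) (nat_lit 0x0) (nat_lit 0xb8000800000000000000000000000000000000000000000000000000000000) := T_31 (nat_lit 227) (nat_lit 247) (nat_lit 3) (nat_lit 6) (nat_lit 13) L82428 (by decide +kernel)
theorem L82430 : W_31 (nat_lit 4) (nat_lit 0xf00000002c000300000001000080000000000000000000000000000000) (nat_lit 0x0) (nat_lit 0x3b8000800000000000000000000000000000000000000000000000000000000) := T_31 (nat_lit 248) (nat_lit 249) (nat_lit 3) (nat_lit 7) (nat_lit 13) L82429 (by decide +kernel)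
theorem L82431 : W_31 (nat_lit 5) (nat_lit 0xf00000000c000300000001000080000000000000000000000000000000) (nat_lit 0x0) (nat_lit 0x3b8000800000030000000000000000000000000000000000000000000000000) := T_31 (nat_lit 197) (nat_lit 196) (nat_lit 0) (nat_lit 10) (nat_lit 11) L82430 (by decide +kernel)
theorem L82432 : W_31 (nat_lit 2) (nat_lit 0x10000f80040000c000300000001000080000000000000000000000000000000) (nat_lit 0x0) (nat_lit 0x38000000000000000000000000000000000000000000000000000000000000) := D_31 (nat_lit 244) (nat_lit 243) (nat_lit 245) (nat_lit 1) (nat_lit 9) (nat_lit 13) (nat_lit 1) (nat_lit 10) (nat_lit 13) (by decide +kernel)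
theorem L82433 : W_31 (nat_lit 3) (nat_lit 0x10000f00040000c000300000001000080000000000000000000000000000000) (nat_lit 0x0) (nat_lit 0xb8000800000000000000000000000000000000000000000000000000000000) := T_31 (nat_lit 227) (nat_lit 247) (nat_lit 3) (nat_lit 6) (nat_lit 13) L82432 (by decide +kernel)
theorem L82434 : W_31 (nat_lit 4) (nat_lit 0xf00040000c000300000001000080000000000000000000000000000000) (nat_lit 0x0) (nat_lit 0x3b8000800000000000000000000000000000000000000000000000000000000) := T_31 (nat_lit 248) (nat_lit 249) (nat_lit 3) (nat_lit 7) (nat_lit 13) L82433 (by decide +kernel)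
theorem L82435 : W_31 (nat_lit 5) (nat_lit 0xf00000000c000300000001000080000000000000000000000000000000) (nat_lit 0x0) (nat_lit 0x3b8000800c00000000000000000000000000000000000000000000000000000) := T_31 (nat_lit 214) (nat_lit 215) (nat_lit 2) (nat_lit 7) (nat_lit 13) L82434 (by decide +kernel)
theorem L82436 : W_31 (nat_lit 2) (nat_lit 0x10000f00040002c000300000001000080000000000000000000000000000000) (nat_lit 0x0) (nat_lit 0x80000800000000001000000000000000000000000000000000000000000000) := D_31 (nat_lit 247) (nat_lit 227) (nat_lit 180) (nat_lit 3) (nat_lit 6) (nat_lit 13) (nat_lit 5) (nat_lit 10) (nat_lit 10) (by decide +kernel)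
theorem L82437 : W_31 (nat_lit 3) (nat_lit 0xf00040002c000300000001000080000000000000000000000000000000) (nat_lit 0x0) (nat_lit 0x380000800000000001000000000000000000000000000000000000000000000) := T_31 (nat_lit 248) (nat_lit 249) (nat_lit 3) (nat_lit 7) (nat_lit 13) L82436 (by decide +kernel)
theorem L82438 : W_31 (nat_lit 4) (nat_lit 0xf00000002c000300000001000080000000000000000000000000000000) (nat_lit 0x0) (nat_lit 0x380000800c00000001000000000000000000000000000000000000000000000) := T_31 (nat_lit 214) (nat_lit 215) (nat_lit 2) (nat_lit 7) (nat_lit 13) L82437 (by decide +kernel)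
theorem L82439 : W_31 (nat_lit 5) (nat_lit 0xf00000000c000300000001000080000000000000000000000000000000) (nat_lit 0x0) (nat_lit 0x380000800c00030001000000000000000000000000000000000000000000000) := T_31 (nat_lit 197) (nat_lit 196) (nat_lit 0) (nat_lit 10) (nat_lit 11) L82438 (by decide +kernel)
theorem L82440 : W_31 (nat_lit 2) (nat_lit 0x10000f00040002c000300000001000080000000000000000000000000000000) (nat_lit 0x0) (nat_lit 0x1000080000000000000001000000000000000000000000000000000000000000000) := D_31 (nat_lit 247) (nat_lit 180) (nat_lit 264) (nat_lit 5) (nat_lit 10) (nat_lit 10) (nat_lit 5) (nat_lit 10) (nat_lit 11) (by decide +kernel)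
theorem L82441 : W_31 (nat_lit 3) (nat_lit 0x10000f00000002c000300000001000080000000000000000000000000000000) (nat_lit 0x0) (nat_lit 0x1000080000000c00000001000000000000000000000000000000000000000000000) := T_31 (nat_lit 214) (nat_lit 215) (nat_lit 2) (nat_lit 7) (nat_lit 13) L82440 (by decide +kernel)
theorem L82442 : W_31 (nat_lit 4) (nat_lit 0x10000f00000000c000300000001000080000000000000000000000000000000) (nat_lit 0x0) (nat_lit 0x1000080000000c00030001000000000000000000000000000000000000000000000) := T_31 (nat_lit 197) (nat_lit 196) (nat_lit 0) (nat_lit 10) (nat_lit 11) L82441 (by decide +kernel)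
theorem L82443 : W_31 (nat_lit 5) (nat_lit 0xf00000000c000300000001000080000000000000000000000000000000) (nat_lit 0x0) (nat_lit 0x1000380000000c00030001000000000000000000000000000000000000000000000) := T_31 (nat_lit 248) (nat_lit 249) (nat_lit 3) (nat_lit 7) (nat_lit 13) L82442 (by decide +kernel)
theorem L82444 : W_31 (nat_lit 2) (nat_lit 0x2001f00000002c000300000001000080000000000000000000000000000000) (nat_lit 0x0) (nat_lit 0x1c00000000000000000000000000000000000000000000000000000) := D_31 (nat_lit 215) (nat_lit 214) (nat_lit 216) (nat_lit 2) (nat_lit 7) (nat_lit 13) (nat_lit 2) (nat_lit 8) (nat_lit 13) (by decide +kernel)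
theorem L82445 : W_31 (nat_lit 3) (nat_lit 0x2000f00000002c000300000001000080000000000000000000000000000000) (nat_lit 0x0) (nat_lit 0x40010001c00000000000000000000000000000000000000000000000000000) := T_31 (nat_lit 232) (nat_lit 246) (nat_lit 1) (nat_lit 11) (nat_lit 13) L82444 (by decide +kernel)
theorem L82446 : W_31 (nat_lit 4) (nat_lit 0x2000f00000000c000300000001000080000000000000000000000000000000) (nat_lit 0x0) (nat_lit 0x40010001c00030000000000000000000000000000000000000000000000000) := T_31 (nat_lit 197) (nat_lit 196) (nat_lit 0) (nat_lit 10) (nat_lit 11) L82445 (by decide +kernel)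
theorem L82447 : W_31 (nat_lit 5) (nat_lit 0xf00000000c000300000001000080000000000000000000000000000000) (nat_lit 0x0) (nat_lit 0x70010001c00030000000000000000000000000000000000000000000000000) := T_31 (nat_lit 245) (nat_lit 244) (nat_lit 1) (nat_lit 10) (nat_lit 13) L82446 (by decide +kernel)
theorem L82448 : W_31 (nat_lit 6) (nat_lit 0x700000000c000300000001000080000000000000000000000000000000) (nat_lit 0x0) (nat_lit 0x10003f8018801c00030001000000000000000000000000000000000000000000000) := Q_31 (nat_lit 231) (C_31 L82439 (C_31 L82435 (C_31 L82443 (C_31 L82431 (C_31 L82447 N_31))))) (by decide +kernel)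
theorem L82449 : W_31 (nat_lit 2) (nat_lit 0xf80040000c000300000001000080000000000000000000000000000000) (nat_lit 0x0) (nat_lit 0x38000000000000000000000000000000000000000000000000000000000000) := D_31 (nat_lit 244) (nat_lit 243) (nat_lit 245) (nat_lit 1) (nat_lit 9) (nat_lit 13) (nat_lit 1) (nat_lit 10) (nat_lit 13) (by decide +kernel)
theorem L82450 : W_31 (nat_lit 3) (nat_lit 0xf00040000c000300000001000080000000000000000000000000000000) (nat_lit 0x0) (nat_lit 0x38000800200000000000000000000000000000000000000000000000000000) := T_31 (nat_lit 227) (nat_lit 213) (nat_lit 2) (nat_lit 6) (nat_lit 13) L82449 (by decide +kernel)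
theorem L82451 : W_31 (nat_lit 4) (nat_lit 0xf00000000c000300000001000080000000000000000000000000000000) (nat_lit 0x0) (nat_lit 0x38000800e00000000000000000000000000000000000000000000000000000) := T_31 (nat_lit 214) (nat_lit 215) (nat_lit 2) (nat_lit 7) (nat_lit 13) L82450 (by decide +kernel)
theorem L82452 : W_31 (nat_lit 2) (nat_lit 0x40003e0000000c000300000001000080000000000000000000000000000000) (nat_lit 0x0) (nat_lit 0xe000000000000000000000000000000000000000000000000000000000000) := D_31 (nat_lit 242) (nat_lit 241) (nat_lit 243) (nat_lit 1) (nat_lit 7) (nat_lit 13) (nat_lit 1) (nat_lit 8) (nat_lit 13) (by decide +kernel)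
theorem L82453 : W_31 (nat_lit 3) (nat_lit 0x40003c0000000c000300000001000080000000000000000000000000000000) (nat_lit 0x0) (nat_lit 0x2e000200000000000000000000000000000000000000000000000000000000) := T_31 (nat_lit 225) (nat_lit 245) (nat_lit 3) (nat_lit 4) (nat_lit 13) L82452 (by decide +kernel)
theorem L82454 : W_31 (nat_lit 4) (nat_lit 0x4000380000000c000300000001000080000000000000000000000000000000) (nat_lit 0x0) (nat_lit 0xae000600000000000000000000000000000000000000000000000000000000) := T_31 (nat_lit 226) (nat_lit 247) (nat_lit 3) (nat_lit 5) (nat_lit 13) L82453 (by decide +kernel)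
theorem L82455 : W_31 (nat_lit 5) (nat_lit 0x380000000c000300000001000080000000000000000000000000000000) (nat_lit 0x0) (nat_lit 0xee000600100000000000000000000000000000000000000000000000000000) := T_31 (nat_lit 246) (nat_lit 212) (nat_lit 4) (nat_lit 8) (nat_lit 14) L82454 (by decide +kernel)
theorem L82456 : W_31 (nat_lit 2) (nat_lit 0x40003e0000000c000300000001000080000000000000000000000000000000) (nat_lit 0x0) (nat_lit 0x38000000000000000000000000000000000000000000000000000) := D_31 (nat_lit 208) (nat_lit 209) (nat_lit 207) (nat_lit 0) (nat_lit 8) (nat_lit 13) (nat_lit 0) (nat_lit 7) (nat_lit 13) (by decide +kernel)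
theorem L82457 : W_31 (nat_lit 3) (nat_lit 0x40003c0000000c000300000001000080000000000000000000000000000000) (nat_lit 0x0) (nat_lit 0x20000200038000000000000000000000000000000000000000000000000000) := T_31 (nat_lit 225) (nat_lit 245) (nat_lit 3) (nat_lit 4) (nat_lit 13) L82456 (by decide +kernel)
theorem L82458 : W_31 (nat_lit 4) (nat_lit 0x4000380000000c000300000001000080000000000000000000000000000000) (nat_lit 0x0) (nat_lit 0xa0000600038000000000000000000000000000000000000000000000000000) := T_31 (nat_lit 226) (nat_lit 247) (nat_lit 3) (nat_lit 5) (nat_lit 13) L82457 (by decide +kernel)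
theorem L82459 : W_31 (nat_lit 5) (nat_lit 0x380000000c000300000001000080000000000000000000000000000000) (nat_lit 0x0) (nat_lit 0xe0000600138000000000000000000000000000000000000000000000000000) := T_31 (nat_lit 246) (nat_lit 212) (nat_lit 4) (nat_lit 8) (nat_lit 14) L82458 (by decide +kernel)
theorem L82460 : W_31 (nat_lit 2) (nat_lit 0x9000780044000c000300000001000080000000000000000000000000000000) (nat_lit 0x0) (nat_lit 0x20008000800000000000000000000000000000000000000000000000000000) := D_31 (nat_lit 231) (nat_lit 215) (nat_lit 245) (nat_lit 2) (nat_lit 7) (nat_lit 13) (nat_lit 1) (nat_lit 10) (nat_lit 13) (by decide +kernel)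
theorem L82461 : W_31 (nat_lit 3) (nat_lit 0x8000780044000c000300000001000080000000000000000000000000000000) (nat_lit 0x0) (nat_lit 0x38008000800000000000000000000000000000000000000000000000000000) := T_31 (nat_lit 244) (nat_lit 243) (nat_lit 1) (nat_lit 9) (nat_lit 13) L82460 (by decide +kernel)
theorem L82462 : W_31 (nat_lit 4) (nat_lit 0x8000780004000c000300000001000080000000000000000000000000000000) (nat_lit 0x0) (nat_lit 0x38008000e00000000000000000000000000000000000000000000000000000) := T_31 (nat_lit 214) (nat_lit 213) (nat_lit 2) (nat_lit 6) (nat_lit 13) L82461 (by decide +kernel)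
theorem L82463 : W_31 (nat_lit 5) (nat_lit 0x8000780000000c000300000001000080000000000000000000000000000000) (nat_lit 0x0) (nat_lit 0x38008000e60000000000000000000000000000000000000000000000000000) := T_31 (nat_lit 210) (nat_lit 209) (nat_lit 0) (nat_lit 9) (nat_lit 13) L82462 (by decide +kernel)
theorem L82464 : W_31 (nat_lit 6) (nat_lit 0x780000000c000300000001000080000000000000000000000000000000) (nat_lit 0x0) (nat_lit 0x1b8008000e60000000000000000000000000000000000000000000000000000) := T_31 (nat_lit 247) (nat_lit 248) (nat_lit 3) (nat_lit 6) (nat_lit 13) L82463 (by decide +kernel)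
theorem L82465 : W_31 (nat_lit 2) (nat_lit 0x48007e0024000c000340000001000080000000000000000000000000000000) (nat_lit 0x0) (nat_lit 0x18000800000000000000000000000000000000000000000000000) := D_31 (nat_lit 208) (nat_lit 207) (nat_lit 191) (nat_lit 0) (nat_lit 7) (nat_lit 13) (nat_lit 7) (nat_lit 4) (nat_lit 10) (by decide +kernel)
theorem L82466 : W_31 (nat_lit 3) (nat_lit 0x48007c0024000c000340000001000080000000000000000000000000000000) (nat_lit 0x0) (nat_lit 0x20000200018000800000000000000000000000000000000000000000000000) := T_31 (nat_lit 225) (nat_lit 245) (nat_lit 3) (nat_lit 4) (nat_lit 13) L82465 (by decide +kernel)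
theorem L82467 : W_31 (nat_lit 4) (nat_lit 0x8007c0024000c000340000001000080000000000000000000000000000000) (nat_lit 0x0) (nat_lit 0xe0000200018000800000000000000000000000000000000000000000000000) := T_31 (nat_lit 246) (nat_lit 247) (nat_lit 3) (nat_lit 5) (nat_lit 13) L82466 (by decide +kernel)
theorem L82468 : W_31 (nat_lit 5) (nat_lit 0x800780024000c000340000001000080000000000000000000000000000000) (nat_lit 0x0) (nat_lit 0xe4000600018000800000000000000000000000000000000000000000000000) := T_31 (nat_lit 226) (nat_lit 242) (nat_lit 1) (nat_lit 8) (nat_lit 13) L82467 (by decide +kernel)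
theorem L82469 : W_31 (nat_lit 6) (nat_lit 0x800780024000c000300000001000080000000000000000000000000000000) (nat_lit 0x0) (nat_lit 0xe40006000180008000c0000000000000000000000000000000000000000000) := T_31 (nat_lit 174) (nat_lit 175) (nat_lit 3) (nat_lit 4) (nat_lit 10) L82468 (by decide +kernel)
theorem L82470 : W_31 (nat_lit 7) (nat_lit 0x780024000c000300000001000080000000000000000000000000000000) (nat_lit 0x0) (nat_lit 0xfc0006000180008000c0000000000000000000000000000000000000000000) := T_31 (nat_lit 243) (nat_lit 244) (nat_lit 1) (nat_lit 9) (nat_lit 13) L82469 (by decide +kernel)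
theorem L82471 : W_31 (nat_lit 8) (nat_lit 0x780020000c000300000001000080000000000000000000000000000000) (nat_lit 0x0) (nat_lit 0xfc0006000780008000c0000000000000000000000000000000000000000000) := T_31 (nat_lit 210) (nat_lit 209) (nat_lit 0) (nat_lit 9) (nat_lit 13) L82470 (by decide +kernel)
theorem L82472 : W_31 (nat_lit 9) (nat_lit 0x780000000c000300000001000080000000000000000000000000000000) (nat_lit 0x0) (nat_lit 0xfc0006006780008000c0000000000000000000000000000000000000000000) := T_31 (nat_lit 213) (nat_lit 214) (nat_lit 2) (nat_lit 6) (nat_lit 13) L82471 (by decide +kernel)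
theorem L82473 : W_31 (nat_lit 2) (nat_lit 0x30007c0022000c000340000001000080000000000000000000000000000000) (nat_lit 0x0) (nat_lit 0x40000300000000000000000000000000000000000000000000000000000000) := D_31 (nat_lit 225) (nat_lit 224) (nat_lit 246) (nat_lit 3) (nat_lit 3) (nat_lit 13) (nat_lit 3) (nat_lit 4) (nat_lit 13) (by decide +kernel)
theorem L82474 : W_31 (nat_lit 3) (nat_lit 0x10007c0022000c000340000001000080000000000000000000000000000000) (nat_lit 0x0) (nat_lit 0x60008300000000000000000000000000000000000000000000000000000000) := T_31 (nat_lit 245) (nat_lit 231) (nat_lit 1) (nat_lit 10) (nat_lit 13) L82473 (by decide +kernel)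
theorem L82475 : W_31 (nat_lit 4) (nat_lit 0x1000780022000c000340000001000080000000000000000000000000000000) (nat_lit 0x0) (nat_lit 0x60008700010000000000000000000000000000000000000000000000000000) := T_31 (nat_lit 226) (nat_lit 208) (nat_lit 0) (nat_lit 8) (nat_lit 13) L82474 (by decide +kernel)
theorem L82476 : W_31 (nat_lit 5) (nat_lit 0x780022000c000340000001000080000000000000000000000000000000) (nat_lit 0x0) (nat_lit 0x78008700010000000000000000000000000000000000000000000000000000) := T_31 (nat_lit 244) (nat_lit 243) (nat_lit 1) (nat_lit 9) (nat_lit 13) L82475 (by decide +kernel)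
theorem L82477 : W_31 (nat_lit 6) (nat_lit 0x780020000c000340000001000080000000000000000000000000000000) (nat_lit 0x0) (nat_lit 0x78008700070000000000000000000000000000000000000000000000000000) := T_31 (nat_lit 209) (nat_lit 210) (nat_lit 0) (nat_lit 9) (nat_lit 13) L82476 (by decide +kernel)
theorem L82478 : W_31 (nat_lit 7) (nat_lit 0x780000000c000340000001000080000000000000000000000000000000) (nat_lit 0x0) (nat_lit 0x78008700670000000000000000000000000000000000000000000000000000) := T_31 (nat_lit 213) (nat_lit 214) (nat_lit 2) (nat_lit 6) (nat_lit 13) L82477 (by decide +kernel)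
theorem L82479 : W_31 (nat_lit 8) (nat_lit 0x780000000c000300000001000080000000000000000000000000000000) (nat_lit 0x0) (nat_lit 0x780087006700000000c0000000000000000000000000000000000000000000) := T_31 (nat_lit 174) (nat_lit 175) (nat_lit 3) (nat_lit 4) (nat_lit 10) L82478 (by decide +kernel)
theorem L82480 : W_31 (nat_lit 10) (nat_lit 0x380000000c000300000001000080000000000000000000000000000000) (nat_lit 0x0) (nat_lit 0x1fc00c700e780008000c0000000000000000000000000000000000000000000) := Q_31 (nat_lit 230) (C_31 L82427 (C_31 L82417 (C_31 L82464 (C_31 L82472 (C_31 L82479 N_31))))) (by decide +kernel)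
theorem L82481 : W_31 (nat_lit 2) (nat_lit 0x7c0020000c000300000001000080000000000000000000000000000000) (nat_lit 0x0) (nat_lit 0x70000000000000000000000000000000000000000000000000000) := D_31 (nat_lit 209) (nat_lit 210) (nat_lit 208) (nat_lit 0) (nat_lit 9) (nat_lit 13) (nat_lit 0) (nat_lit 8) (nat_lit 13) (by decide +kernel)
theorem L82482 : W_31 (nat_lit 3) (nat_lit 0x780020000c000300000001000080000000000000000000000000000000) (nat_lit 0x0) (nat_lit 0x400170000000000000000000000000000000000000000000000000000) := T_31 (nat_lit 226) (nat_lit 212) (nat_lit 2) (nat_lit 5) (nat_lit 13) L82481 (by decide +kernel)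
theorem L82483 : W_31 (nat_lit 4) (nat_lit 0x780000000c000300000001000080000000000000000000000000000000) (nat_lit 0x0) (nat_lit 0x400770000000000000000000000000000000000000000000000000000) := T_31 (nat_lit 213) (nat_lit 214) (nat_lit 2) (nat_lit 6) (nat_lit 13) L82482 (by decide +kernel)
theorem L82484 : W_31 (nat_lit 2) (nat_lit 0x48003c0002000c000340000001000080000000000000000000000000000000) (nat_lit 0x0) (nat_lit 0x10004000040000000000000000000000000000000000000000000000000000) := D_31 (nat_lit 230) (nat_lit 244) (nat_lit 210) (nat_lit 1) (nat_lit 9) (nat_lit 13) (nat_lit 0) (nat_lit 9) (nat_lit 13) (by decide +kernel)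
theorem L82485 : W_31 (nat_lit 3) (nat_lit 0x48003c0000000c000340000001000080000000000000000000000000000000) (nat_lit 0x0) (nat_lit 0x10004000070000000000000000000000000000000000000000000000000000) := T_31 (nat_lit 209) (nat_lit 208) (nat_lit 0) (nat_lit 8) (nat_lit 13) L82484 (by decide +kernel)
theorem L82486 : W_31 (nat_lit 4) (nat_lit 0x40003c0000000c000340000001000080000000000000000000000000000000) (nat_lit 0x0) (nat_lit 0x1c004000070000000000000000000000000000000000000000000000000000) := T_31 (nat_lit 243) (nat_lit 242) (nat_lit 1) (nat_lit 8) (nat_lit 13) L82485 (by decide +kernel)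
theorem L82487 : W_31 (nat_lit 2) (nat_lit 0x5000f80004000c000340000001000080000000000000000000000000000000) (nat_lit 0x0) (nat_lit 0x380000000000000000000000000000000000000000000000000000000000000) := D_31 (nat_lit 248) (nat_lit 247) (nat_lit 249) (nat_lit 3) (nat_lit 6) (nat_lit 13) (nat_lit 3) (nat_lit 7) (nat_lit 13) (by decide +kernel)
theorem L82488 : W_31 (nat_lit 3) (nat_lit 0x5000780004000c000340000001000080000000000000000000000000000000) (nat_lit 0x0) (nat_lit 0x3a0008000000000000000000000000000000000000000000000000000000000) := T_31 (nat_lit 231) (nat_lit 245) (nat_lit 1) (nat_lit 10) (nat_lit 13) L82487 (by decide +kernel)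
theorem L82489 : W_31 (nat_lit 4) (nat_lit 0x5000780004000c000300000001000080000000000000000000000000000000) (nat_lit 0x0) (nat_lit 0x3a00080000000000000c0000000000000000000000000000000000000000000) := T_31 (nat_lit 174) (nat_lit 175) (nat_lit 3) (nat_lit 4) (nat_lit 10) L82488 (by decide +kernel)
theorem L82490 : W_31 (nat_lit 5) (nat_lit 0x4000780004000c000300000001000080000000000000000000000000000000) (nat_lit 0x0) (nat_lit 0x3b80080000000000000c0000000000000000000000000000000000000000000) := T_31 (nat_lit 244) (nat_lit 243) (nat_lit 1) (nat_lit 9) (nat_lit 13) L82489 (by decide +kernel)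
theorem L82491 : W_31 (nat_lit 6) (nat_lit 0x4000780000000c000300000001000080000000000000000000000000000000) (nat_lit 0x0) (nat_lit 0x3b80080000600000000c0000000000000000000000000000000000000000000) := T_31 (nat_lit 210) (nat_lit 209) (nat_lit 0) (nat_lit 9) (nat_lit 13) L82490 (by decide +kernel)
theorem L82492 : W_31 (nat_lit 7) (nat_lit 0x780000000c000300000001000080000000000000000000000000000000) (nat_lit 0x0) (nat_lit 0x3f80080001600000000c0000000000000000000000000000000000000000000) := T_31 (nat_lit 246) (nat_lit 212) (nat_lit 4) (nat_lit 8) (nat_lit 14) L82491 (by decide +kernel)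
theorem L82493 : W_31 (nat_lit 2) (nat_lit 0xc000f80044000c000340000001000080000000000000000000000000000000) (nat_lit 0x0) (nat_lit 0x20030000000000000000000000000000000000000000000000000000000000) := D_31 (nat_lit 232) (nat_lit 233) (nat_lit 245) (nat_lit 1) (nat_lit 12) (nat_lit 13) (nat_lit 1) (nat_lit 11) (nat_lit 13) (by decide +kernel)
theorem L82494 : W_31 (nat_lit 3) (nat_lit 0xc000780044000c000340000001000080000000000000000000000000000000) (nat_lit 0x0) (nat_lit 0x20038000800000000000000000000000000000000000000000000000000000) := T_31 (nat_lit 231) (nat_lit 215) (nat_lit 2) (nat_lit 7) (nat_lit 13) L82493 (by decide +kernel)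
theorem L82495 : W_31 (nat_lit 4) (nat_lit 0xc000780004000c000340000001000080000000000000000000000000000000) (nat_lit 0x0) (nat_lit 0x20038000e00000000000000000000000000000000000000000000000000000) := T_31 (nat_lit 214) (nat_lit 213) (nat_lit 2) (nat_lit 6) (nat_lit 13) L82494 (by decide +kernel)
theorem L82496 : W_31 (nat_lit 5) (nat_lit 0xc000780004000c000300000001000080000000000000000000000000000000) (nat_lit 0x0) (nat_lit 0x20038000e000000000c0000000000000000000000000000000000000000000) := T_31 (nat_lit 174) (nat_lit 175) (nat_lit 3) (nat_lit 4) (nat_lit 10) L82495 (by decide +kernel)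
theorem L82497 : W_31 (nat_lit 6) (nat_lit 0xc000780000000c000300000001000080000000000000000000000000000000) (nat_lit 0x0) (nat_lit 0x20038000e600000000c0000000000000000000000000000000000000000000) := T_31 (nat_lit 210) (nat_lit 209) (nat_lit 0) (nat_lit 9) (nat_lit 13) L82496 (by decide +kernel)
theorem L82498 : W_31 (nat_lit 7) (nat_lit 0x8000780000000c000300000001000080000000000000000000000000000000) (nat_lit 0x0) (nat_lit 0x60038000f600000000c0000000000000000000000000000000000000000000) := T_31 (nat_lit 246) (nat_lit 212) (nat_lit 4) (nat_lit 8) (nat_lit 14) L82497 (by decide +kernel)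
theorem L82499 : W_31 (nat_lit 8) (nat_lit 0x780000000c000300000001000080000000000000000000000000000000) (nat_lit 0x0) (nat_lit 0x1e0038000f600000000c0000000000000000000000000000000000000000000) := T_31 (nat_lit 247) (nat_lit 248) (nat_lit 3) (nat_lit 6) (nat_lit 13) L82498 (by decide +kernel)
theorem L82500 : W_31 (nat_lit 2) (nat_lit 0xf80044000c000300000001000080000000000000000000000000000000) (nat_lit 0x0) (nat_lit 0x38000000000000000000000000000000000000000000000000000000000000) := D_31 (nat_lit 244) (nat_lit 245) (nat_lit 243) (nat_lit 1) (nat_lit 10) (nat_lit 13) (nat_lit 1) (nat_lit 9) (nat_lit 13) (by decide +kernel)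
theorem L82501 : W_31 (nat_lit 3) (nat_lit 0x780044000c000300000001000080000000000000000000000000000000) (nat_lit 0x0) (nat_lit 0x38008000800000000000000000000000000000000000000000000000000000) := T_31 (nat_lit 231) (nat_lit 215) (nat_lit 2) (nat_lit 7) (nat_lit 13) L82500 (by decide +kernel)
theorem L82502 : W_31 (nat_lit 4) (nat_lit 0x780040000c000300000001000080000000000000000000000000000000) (nat_lit 0x0) (nat_lit 0x38008000860000000000000000000000000000000000000000000000000000) := T_31 (nat_lit 210) (nat_lit 209) (nat_lit 0) (nat_lit 9) (nat_lit 13) L82501 (by decide +kernel)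
theorem L82503 : W_31 (nat_lit 5) (nat_lit 0x780000000c000300000001000080000000000000000000000000000000) (nat_lit 0x0) (nat_lit 0x38008000e60000000000000000000000000000000000000000000000000000) := T_31 (nat_lit 214) (nat_lit 213) (nat_lit 2) (nat_lit 6) (nat_lit 13) L82502 (by decide +kernel)
theorem L82504 : W_31 (nat_lit 9) (nat_lit 0x380000000c000300000001000080000000000000000000000000000000) (nat_lit 0x0) (nat_lit 0x10003f803c000f600000000c0000000000000000000000000000000000000000000) := Q_31 (nat_lit 230) (C_31 L82464 (C_31 L82424 (C_31 L82492 (C_31 L82499 (C_31 L82503 N_31))))) (by decide +kernel)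
theorem L82505 : W_31 (nat_lit 2) (nat_lit 0x8003c0012000c000340000001000080000000000000000000000000000000) (nat_lit 0x0) (nat_lit 0x10004000040000000000000000000000000000000000000000000000000000) := D_31 (nat_lit 230) (nat_lit 244) (nat_lit 210) (nat_lit 1) (nat_lit 9) (nat_lit 13) (nat_lit 0) (nat_lit 9) (nat_lit 13) (by decide +kernel)
theorem L82506 : W_31 (nat_lit 3) (nat_lit 0x8003c0010000c000340000001000080000000000000000000000000000000) (nat_lit 0x0) (nat_lit 0x10004000070000000000000000000000000000000000000000000000000000) := T_31 (nat_lit 209) (nat_lit 208) (nat_lit 0) (nat_lit 8) (nat_lit 13) L82505 (by decide +kernel)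
theorem L82507 : W_31 (nat_lit 4) (nat_lit 0x3c0010000c000340000001000080000000000000000000000000000000) (nat_lit 0x0) (nat_lit 0x1c004000070000000000000000000000000000000000000000000000000000) := T_31 (nat_lit 243) (nat_lit 242) (nat_lit 1) (nat_lit 8) (nat_lit 13) L82506 (by decide +kernel)
theorem L82508 : W_31 (nat_lit 5) (nat_lit 0x380010000c000340000001000080000000000000000000000000000000) (nat_lit 0x0) (nat_lit 0x1c004400270000000000000000000000000000000000000000000000000000) := T_31 (nat_lit 226) (nat_lit 213) (nat_lit 2) (nat_lit 5) (nat_lit 13) L82507 (by decide +kernel)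
theorem L82509 : W_31 (nat_lit 6) (nat_lit 0x380010000c000300000001000080000000000000000000000000000000) (nat_lit 0x0) (nat_lit 0x1c0044002700000000c0000000000000000000000000000000000000000000) := T_31 (nat_lit 174) (nat_lit 175) (nat_lit 3) (nat_lit 4) (nat_lit 10) L82508 (by decide +kernel)
theorem L82510 : W_31 (nat_lit 7) (nat_lit 0x380000000c000300000001000080000000000000000000000000000000) (nat_lit 0x0) (nat_lit 0x5c0044003700000000c0000000000000000000000000000000000000000000) := T_31 (nat_lit 212) (nat_lit 246) (nat_lit 4) (nat_lit 8) (nat_lit 14) L82509 (by decide +kernel)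
theorem L82511 : W_31 (nat_lit 2) (nat_lit 0x12000f00080000c000300000001000080000000000000000000000000000000) (nat_lit 0x0) (nat_lit 0x40010001000000000000000000000000000000000000000000000000000000) := D_31 (nat_lit 232) (nat_lit 216) (nat_lit 246) (nat_lit 2) (nat_lit 8) (nat_lit 13) (nat_lit 1) (nat_lit 11) (nat_lit 13) (by decide +kernel)
theorem L82512 : W_31 (nat_lit 3) (nat_lit 0x10000f00080000c000300000001000080000000000000000000000000000000) (nat_lit 0x0) (nat_lit 0x70010001000000000000000000000000000000000000000000000000000000) := T_31 (nat_lit 245) (nat_lit 244) (nat_lit 1) (nat_lit 10) (nat_lit 13) L82511 (by decide +kernel)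
theorem L82513 : W_31 (nat_lit 4) (nat_lit 0x10000f00000000c000300000001000080000000000000000000000000000000) (nat_lit 0x0) (nat_lit 0x70010001c00000000000000000000000000000000000000000000000000000) := T_31 (nat_lit 215) (nat_lit 214) (nat_lit 2) (nat_lit 7) (nat_lit 13) L82512 (by decide +kernel)
theorem L82514 : W_31 (nat_lit 5) (nat_lit 0xf00000000c000300000001000080000000000000000000000000000000) (nat_lit 0x0) (nat_lit 0x370010001c00000000000000000000000000000000000000000000000000000) := T_31 (nat_lit 248) (nat_lit 249) (nat_lit 3) (nat_lit 7) (nat_lit 13) L82513 (by decide +kernel)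
theorem L82515 : W_31 (nat_lit 2) (nat_lit 0x2001f00000002c000300000001000080000000000000000000000000000000) (nat_lit 0x0) (nat_lit 0x700000000000000000000000000000000000000000000000000000000000000) := D_31 (nat_lit 249) (nat_lit 248) (nat_lit 250) (nat_lit 3) (nat_lit 7) (nat_lit 13) (nat_lit 3) (nat_lit 8) (nat_lit 13) (by decide +kernel)
theorem L82516 : W_31 (nat_lit 3) (nat_lit 0x2000f00000002c000300000001000080000000000000000000000000000000) (nat_lit 0x0) (nat_lit 0x740010000000000000000000000000000000000000000000000000000000000) := T_31 (nat_lit 232) (nat_lit 246) (nat_lit 1) (nat_lit 11) (nat_lit 13) L82515 (by decide +kernel)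
theorem L82517 : W_31 (nat_lit 4) (nat_lit 0x2000f00000000c000300000001000080000000000000000000000000000000) (nat_lit 0x0) (nat_lit 0x740010000000030000000000000000000000000000000000000000000000000) := T_31 (nat_lit 197) (nat_lit 196) (nat_lit 0) (nat_lit 10) (nat_lit 11) L82516 (by decide +kernel)
theorem L82518 : W_31 (nat_lit 5) (nat_lit 0xf00000000c000300000001000080000000000000000000000000000000) (nat_lit 0x0) (nat_lit 0x770010000000030000000000000000000000000000000000000000000000000) := T_31 (nat_lit 245) (nat_lit 244) (nat_lit 1) (nat_lit 10) (nat_lit 13) L82517 (by decide +kernel)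
theorem L82519 : W_31 (nat_lit 2) (nat_lit 0x4000000010000c0003800040016000a0000000000000000000000000000000) (nat_lit 0x0) (nat_lit 0x10001000080000000000000000000000) := D_31 (nat_lit 108) (nat_lit 124) (nat_lit 91) (nat_lit 6) (nat_lit 5) (nat_lit 10) (nat_lit 5) (nat_lit 6) (nat_lit 5) (by decide +kernel)
theorem L82520 : W_31 (nat_lit 3) (nat_lit 0x4000000010000c0003800040014000a0000000000000000000000000000000) (nat_lit 0x0) (nat_lit 0x1000000000000200010001000080000000000000000000000) := T_31 (nat_lit 141) (nat_lit 192) (nat_lit 6) (nat_lit 5) (nat_lit 11) L82519 (by decide +kernel)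
theorem L82521 : W_31 (nat_lit 4) (nat_lit 0x10000c0003800040014000a0000000000000000000000000000000) (nat_lit 0x0) (nat_lit 0x40002000000001000000000000200010001000080000000000000000000000) := T_31 (nat_lit 246) (nat_lit 229) (nat_lit 4) (nat_lit 8) (nat_lit 14) L82520 (by decide +kernel)
theorem L82522 : W_31 (nat_lit 5) (nat_lit 0x10000c0003000040014000a0000000000000000000000000000000) (nat_lit 0x0) (nat_lit 0x400020000000010000c0000000200010001000080000000000000000000000) := T_31 (nat_lit 175) (nat_lit 174) (nat_lit 3) (nat_lit 4) (nat_lit 10) L82521 (by decide +kernel)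
theorem L82523 : W_31 (nat_lit 6) (nat_lit 0x10000c000300004001400080000000000000000000000000000000) (nat_lit 0x0) (nat_lit 0x400020000000010000c0008000200030001000080000000000000000000000) := T_31 (nat_lit 125) (nat_lit 159) (nat_lit 7) (nat_lit 6) (nat_lit 7) L82522 (by decide +kernel)
theorem L82524 : W_31 (nat_lit 2) (nat_lit 0x10000c00030000c001c00080000000000000000000000000000000) (nat_lit 0x0) (nat_lit 0x3000200000000000000000000000000000000000) := D_31 (nat_lit 157) (nat_lit 141) (nat_lit 156) (nat_lit 1) (nat_lit 8) (nat_lit 8) (nat_lit 3) (nat_lit 3) (nat_lit 9) (by decide +kernel)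
theorem L82525 : W_31 (nat_lit 3) (nat_lit 0x10000c000300004001c00080000000000000000000000000000000) (nat_lit 0x0) (nat_lit 0xb000200020000000000000000000000000000000) := T_31 (nat_lit 159) (nat_lit 125) (nat_lit 7) (nat_lit 6) (nat_lit 7) L82524 (by decide +kernel)
theorem L82527 : W_31 (nat_lit 2) (nat_lit 0x10000f80000000c000300000001000080000000000000000000000000000000) (nat_lit 0x0) (nat_lit 0x38000000000000000000000000000000000000000000000000000000000000) := D_31 (nat_lit 244) (nat_lit 243) (nat_lit 245) (nat_lit 1) (nat_lit 9) (nat_lit 13) (nat_lit 1) (nat_lit 10) (nat_lit 13) (by decide +kernel)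
theorem L82528 : W_31 (nat_lit 3) (nat_lit 0x10000f00000000c000300000001000080000000000000000000000000000000) (nat_lit 0x0) (nat_lit 0xb8000800000000000000000000000000000000000000000000000000000000) := T_31 (nat_lit 227) (nat_lit 247) (nat_lit 3) (nat_lit 6) (nat_lit 13) L82527 (by decide +kernel)
theorem L82529 : W_31 (nat_lit 4) (nat_lit 0xf00000000c000300000001000080000000000000000000000000000000) (nat_lit 0x0) (nat_lit 0x3b8000800000000000000000000000000000000000000000000000000000000) := T_31 (nat_lit 248) (nat_lit 249) (nat_lit 3) (nat_lit 7) (nat_lit 13) L82528 (by decide +kernel)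
theorem L82669 : W_31 (nat_lit 2) (nat_lit 0x4000000010000c000380004001e00090000000000000000000000000000000) (nat_lit 0x0) (nat_lit 0x1000000000000000020001000000000000000000000000000) := D_31 (nat_lit 125) (nat_lit 192) (nat_lit 108) (nat_lit 6) (nat_lit 5) (nat_lit 11) (nat_lit 6) (nat_lit 5) (nat_lit 10) (by decide +kernel)
theorem L82670 : W_31 (nat_lit 3) (nat_lit 0x4000000010000c000300004001e00090000000000000000000000000000000) (nat_lit 0x0) (nat_lit 0x10000c0000000000020001000000000000000000000000000) := T_31 (nat_lit 175) (nat_lit 174) (nat_lit 3) (nat_lit 4) (nat_lit 10) L82669 (by decide +kernel)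
theorem L82671 : W_31 (nat_lit 4) (nat_lit 0x4000000010000c000300004001e00080000000000000000000000000000000) (nat_lit 0x0) (nat_lit 0x10000c0000000000038001000000000000000000000000000) := T_31 (nat_lit 124) (nat_lit 123) (nat_lit 0) (nat_lit 8) (nat_lit 8) L82670 (by decide +kernel)
theorem L82672 : W_31 (nat_lit 5) (nat_lit 0x4000000010000c000300004001c00080000000000000000000000000000000) (nat_lit 0x0) (nat_lit 0x10000c0002000200038001000000000000000000000000000) := T_31 (nat_lit 141) (nat_lit 157) (nat_lit 1) (nat_lit 8) (nat_lit 8) L82671 (by decide +kernel)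
theorem L82674 : W_31 (nat_lit 3) (nat_lit 0xc0003800040014000a0000000000000000000000000000000) (nat_lit 0x0) (nat_lit 0x1000000000000200010001000080000000000000000000000) := T_31 (nat_lit 141) (nat_lit 192) (nat_lit 6) (nat_lit 5) (nat_lit 11) L15768 (by decide +kernel)
theorem L82675 : W_31 (nat_lit 4) (nat_lit 0xc000380004001400080000000000000000000000000000000) (nat_lit 0x0) (nat_lit 0x1000000008000200030001000080000000000000000000000) := T_31 (nat_lit 125) (nat_lit 159) (nat_lit 7) (nat_lit 6) (nat_lit 7) L82674 (by decide +kernel)
theorem L82684 : W_31 (nat_lit 2) (nat_lit 0x3000d000380004001200080000000000000000000000000000000) (nat_lit 0x0) (nat_lit 0x2000100008000000000000000000000000000000) := D_31 (nat_lit 140) (nat_lit 123) (nat_lit 157) (nat_lit 4) (nat_lit 5) (nat_lit 11) (nat_lit 4) (nat_lit 5) (nat_lit 12) (by decide +kernel)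
theorem L82685 : W_31 (nat_lit 3) (nat_lit 0x3000d000380004001000080000000000000000000000000000000) (nat_lit 0x0) (nat_lit 0x800000002000300008000000000000000000000000000000) := T_31 (nat_lit 141) (nat_lit 191) (nat_lit 5) (nat_lit 5) (nat_lit 8) L82684 (by decide +kernel)
theorem L82686 : W_31 (nat_lit 4) (nat_lit 0x2000d000380004001000080000000000000000000000000000000) (nat_lit 0x0) (nat_lit 0x200010000800000002000300008000000000000000000000000000000) := T_31 (nat_lit 208) (nat_lit 225) (nat_lit 5) (nat_lit 5) (nat_lit 9) L82685 (by decide +kernel)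
theorem L82692 : W_31 (nat_lit 2) (nat_lit 0x1000d000380004001300080000000000000000000000000000000) (nat_lit 0x0) (nat_lit 0x200020000000000002000000000000000000000000000000000000000) := D_31 (nat_lit 209) (nat_lit 157) (nat_lit 225) (nat_lit 4) (nat_lit 5) (nat_lit 12) (nat_lit 5) (nat_lit 5) (nat_lit 9) (by decide +kernel)
theorem L82693 : W_31 (nat_lit 3) (nat_lit 0xd000380004001300080000000000000000000000000000000) (nat_lit 0x0) (nat_lit 0x200030000800000002000000000000000000000000000000000000000) := T_31 (nat_lit 208) (nat_lit 191) (nat_lit 5) (nat_lit 5) (nat_lit 8) L82692 (by decide +kernel)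
theorem L82694 : W_31 (nat_lit 4) (nat_lit 0xd000380004001200080000000000000000000000000000000) (nat_lit 0x0) (nat_lit 0x200030000800000002000100008000000000000000000000000000000) := T_31 (nat_lit 140) (nat_lit 123) (nat_lit 4) (nat_lit 5) (nat_lit 11) L82693 (by decide +kernel)
theorem L82695 : W_31 (nat_lit 2) (nat_lit 0x2000d000380004001000080000000000000000000000000000000) (nat_lit 0x0) (nat_lit 0x400000000000000008000400000000000000000000000000000000000) := D_31 (nat_lit 159) (nat_lit 226) (nat_lit 142) (nat_lit 6) (nat_lit 5) (nat_lit 13) (nat_lit 6) (nat_lit 5) (nat_lit 12) (by decide +kernel)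
theorem L82696 : W_31 (nat_lit 7) (nat_lit 0xd000380004001000080000000000000000000000000000000) (nat_lit 0x0) (nat_lit 0x14000e0007000080000000b800700008000000000000000000000000000000) := Q_31 (nat_lit 209) (C_31 L82686 (C_31 L82691 (C_31 L82695 N_31))) (by decide +kernel)
theorem L82697 : W_31 (nat_lit 2) (nat_lit 0xd000380004001600080000000000000000000000000000000) (nat_lit 0x0) (nat_lit 0x2000800100000000000000000000000000000000) := D_31 (nat_lit 143) (nat_lit 128) (nat_lit 157) (nat_lit 2) (nat_lit 5) (nat_lit 8) (nat_lit 1) (nat_lit 8) (nat_lit 8) (by decide +kernel)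
theorem L82698 : W_31 (nat_lit 3) (nat_lit 0xd000380004001200080000000000000000000000000000000) (nat_lit 0x0) (nat_lit 0x2000c00120000000000000000000000000000000) := T_31 (nat_lit 142) (nat_lit 125) (nat_lit 6) (nat_lit 5) (nat_lit 11) L82697 (by decide +kernel)
theorem L82699 : W_31 (nat_lit 5) (nat_lit 0xd000380006801000080000000000000000000000000000000) (nat_lit 0x0) (nat_lit 0x14000e00070000000000000000100000000000000000000000000000000000) := T_31 (nat_lit 209) (nat_lit 140) (nat_lit 4) (nat_lit 5) (nat_lit 12) L82689 (by decide +kernel)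
theorem L82700 : W_31 (nat_lit 6) (nat_lit 0xd000380006001000080000000000000000000000000000000) (nat_lit 0x0) (nat_lit 0x14000e00070000000000001800100000000000000000000000000000000000) := T_31 (nat_lit 155) (nat_lit 156) (nat_lit 3) (nat_lit 2) (nat_lit 9) L82699 (by decide +kernel)
theorem L82701 : W_31 (nat_lit 13) (nat_lit 0x6000300000001000080000000000000000000000000000000) (nat_lit 0x0) (nat_lit 0xf8007e007f80390018c004c000400020000000000000000000000000000000) := Q_31 (nat_lit 195) (C_31 L82341 (C_31 L82363 (C_31 L82231 (C_31 L16013 N_31)))) (by decide +kernel)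
theorem L82702 : W_31 (nat_lit 5) (nat_lit 0x100000000c0006000300000001000080000000000000000000000000000000) (nat_lit 0x0) (nat_lit 0x6000f000130000000000000000000000000000000000000000000000000000) := T_31 (nat_lit 228) (nat_lit 245) (nat_lit 4) (nat_lit 7) (nat_lit 14) L6311 (by decide +kernel)
theorem L82703 : W_31 (nat_lit 6) (nat_lit 0xc0006000300000001000080000000000000000000000000000000) (nat_lit 0x0) (nat_lit 0x7000f800130000000000000000000000000000000000000000000000000000) := T_31 (nat_lit 244) (nat_lit 227) (nat_lit 6) (nat_lit 6) (nat_lit 14) L82702 (by decide +kernel)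
theorem L82704 : W_31 (nat_lit 2) (nat_lit 0x20000d000c00068003c0002001000080000000000000000000000000000000) (nat_lit 0x0) (nat_lit 0x30001000000000000000000000000000000000000000000000000) := D_31 (nat_lit 209) (nat_lit 192) (nat_lit 208) (nat_lit 4) (nat_lit 5) (nat_lit 13) (nat_lit 7) (nat_lit 4) (nat_lit 9) (by decide +kernel)
theorem L82705 : W_31 (nat_lit 3) (nat_lit 0x20000d000c00068003c0000001000080000000000000000000000000000000) (nat_lit 0x0) (nat_lit 0x30001000000003000000000000000000000000000000000000000) := T_31 (nat_lit 157) (nat_lit 156) (nat_lit 0) (nat_lit 7) (nat_lit 10) L82704 (by decide +kernel)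
theorem L82706 : W_31 (nat_lit 4) (nat_lit 0x20000d000c00060003c0000001000080000000000000000000000000000000) (nat_lit 0x0) (nat_lit 0x30001c00000003000000000000000000000000000000000000000) := T_31 (nat_lit 191) (nat_lit 190) (nat_lit 1) (nat_lit 7) (nat_lit 10) L82705 (by decide +kernel)
theorem L82707 : W_31 (nat_lit 5) (nat_lit 0x20000d000c0006000380000001000080000000000000000000000000000000) (nat_lit 0x0) (nat_lit 0x30001c00060003000000000000000000000000000000000000000) := T_31 (nat_lit 174) (nat_lit 173) (nat_lit 3) (nat_lit 3) (nat_lit 10) L82706 (by decide +kernel)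
theorem L82708 : W_31 (nat_lit 6) (nat_lit 0x20000d000c0006000300000001000080000000000000000000000000000000) (nat_lit 0x0) (nat_lit 0x30001c000e0007000000000000000000000000000000000000000) := T_31 (nat_lit 175) (nat_lit 158) (nat_lit 4) (nat_lit 6) (nat_lit 13) L82707 (by decide +kernel)
theorem L82709 : W_31 (nat_lit 7) (nat_lit 0x20000c000c0006000300000001000080000000000000000000000000000000) (nat_lit 0x0) (nat_lit 0x300030001c000e0007000000000000000000000000000000000000000) := T_31 (nat_lit 224) (nat_lit 225) (nat_lit 2) (nat_lit 3) (nat_lit 13) L82708 (by decide +kernel)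
theorem L82710 : W_31 (nat_lit 8) (nat_lit 0x200008000c0006000300000001000080000000000000000000000000000000) (nat_lit 0x0) (nat_lit 0x8000700030001c000e0007000000000000000000000000000000000000000) := T_31 (nat_lit 226) (nat_lit 243) (nat_lit 5) (nat_lit 6) (nat_lit 10) L82709 (by decide +kernel)
theorem L82711 : W_31 (nat_lit 9) (nat_lit 0x200000000c0006000300000001000080000000000000000000000000000000) (nat_lit 0x0) (nat_lit 0x18000f00030001c000e0007000000000000000000000000000000000000000) := T_31 (nat_lit 227) (nat_lit 244) (nat_lit 6) (nat_lit 6) (nat_lit 14) L82710 (by decide +kernel)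
theorem L82712 : W_31 (nat_lit 10) (nat_lit 0xc0006000300000001000080000000000000000000000000000000) (nat_lit 0x0) (nat_lit 0x38001f00030001c000e0007000000000000000000000000000000000000000) := T_31 (nat_lit 245) (nat_lit 228) (nat_lit 4) (nat_lit 7) (nat_lit 14) L82711 (by decide +kernel)
theorem L82713 : W_31 (nat_lit 11) (nat_lit 0x80006000300000001000080000000000000000000000000000000) (nat_lit 0x0) (nat_lit 0x7800ff00370001c000e0007000000000000000000000000000000000000000) := Q_31 (nat_lit 210) (C_31 L78928 (C_31 L82703 (C_31 L82712 (C_31 L15253 N_31)))) (by decide +kernel)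
theorem L82714 : W_31 (nat_lit 2) (nat_lit 0x80006000300000001000080000000000000000000000000000000) (nat_lit 0x0) (nat_lit 0x20001000000000000000008000000000000000000000000000000000000000) := D_31 (nat_lit 228) (nat_lit 245) (nat_lit 159) (nat_lit 4) (nat_lit 7) (nat_lit 14) (nat_lit 4) (nat_lit 7) (nat_lit 13) (by decide +kernel)
theorem L82715 : W_31 (nat_lit 2) (nat_lit 0x80007000300000001000080000000000000000000000000000000) (nat_lit 0x0) (nat_lit 0x100000c00000000000000000000000000000000000000000000000) := D_31 (nat_lit 191) (nat_lit 190) (nat_lit 212) (nat_lit 2) (nat_lit 3) (nat_lit 11) (nat_lit 3) (nat_lit 4) (nat_lit 11) (by decide +kernel)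
theorem L82716 : W_31 (nat_lit 2) (nat_lit 0xd000c00074003c0000001000080000000000000000000000000000000) (nat_lit 0x0) (nat_lit 0x20000000000003000000000000000000000000000000000000000) := D_31 (nat_lit 157) (nat_lit 209) (nat_lit 156) (nat_lit 4) (nat_lit 5) (nat_lit 13) (nat_lit 0) (nat_lit 7) (nat_lit 10) (by decide +kernel)
theorem L82717 : W_31 (nat_lit 3) (nat_lit 0xd000c0007400380000001000080000000000000000000000000000000) (nat_lit 0x0) (nat_lit 0x20000000060003000000000000000000000000000000000000000) := T_31 (nat_lit 174) (nat_lit 173) (nat_lit 3) (nat_lit 3) (nat_lit 10) L82716 (by decide +kernel)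
theorem L82718 : W_31 (nat_lit 4) (nat_lit 0xd000c0007400300000001000080000000000000000000000000000000) (nat_lit 0x0) (nat_lit 0x200000000e0007000000000000000000000000000000000000000) := T_31 (nat_lit 175) (nat_lit 158) (nat_lit 4) (nat_lit 6) (nat_lit 13) L82717 (by decide +kernel)
theorem L82719 : W_31 (nat_lit 5) (nat_lit 0xc000c0007400300000001000080000000000000000000000000000000) (nat_lit 0x0) (nat_lit 0x3000200000000e0007000000000000000000000000000000000000000) := T_31 (nat_lit 224) (nat_lit 225) (nat_lit 2) (nat_lit 3) (nat_lit 13) L82718 (by decide +kernel)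
theorem L82720 : W_31 (nat_lit 6) (nat_lit 0x8000c0007400300000001000080000000000000000000000000000000) (nat_lit 0x0) (nat_lit 0x80007000200000000e0007000000000000000000000000000000000000000) := T_31 (nat_lit 226) (nat_lit 243) (nat_lit 5) (nat_lit 6) (nat_lit 10) L82719 (by decide +kernel)
theorem L82721 : W_31 (nat_lit 7) (nat_lit 0xc0007400300000001000080000000000000000000000000000000) (nat_lit 0x0) (nat_lit 0x18000f000200000000e0007000000000000000000000000000000000000000) := T_31 (nat_lit 227) (nat_lit 244) (nat_lit 6) (nat_lit 6) (nat_lit 14) L82720 (by decide +kernel)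
theorem L82722 : W_31 (nat_lit 8) (nat_lit 0xc0007000300000001000080000000000000000000000000000000) (nat_lit 0x0) (nat_lit 0x18000f00020000c000e0007000000000000000000000000000000000000000) := T_31 (nat_lit 190) (nat_lit 191) (nat_lit 3) (nat_lit 3) (nat_lit 11) L82721 (by decide +kernel)
theorem L82723 : W_31 (nat_lit 12) (nat_lit 0xc0007000300000001000080000000000000000000000000000000) (nat_lit 0x0) (nat_lit 0x10003e000f00018000c000e000f000600000000000000000000000000000000000) := T_31 (nat_lit 244) (nat_lit 227) (nat_lit 6) (nat_lit 6) (nat_lit 14) L78958 (by decide +kernel)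
theorem L82724 : W_31 (nat_lit 2) (nat_lit 0x8000d00078003c0002001400080000000000000000000000000000000) (nat_lit 0x0) (nat_lit 0x20000000000000000100008000000000000000000000000000000) := D_31 (nat_lit 140) (nat_lit 209) (nat_lit 123) (nat_lit 7) (nat_lit 4) (nat_lit 8) (nat_lit 7) (nat_lit 4) (nat_lit 7) (by decide +kernel)
theorem L82725 : W_31 (nat_lit 3) (nat_lit 0x8000d00078003c0000001400080000000000000000000000000000000) (nat_lit 0x0) (nat_lit 0x20000000000003000100008000000000000000000000000000000) := T_31 (nat_lit 157) (nat_lit 156) (nat_lit 0) (nat_lit 7) (nat_lit 10) L82724 (by decide +kernel)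
theorem L82726 : W_31 (nat_lit 4) (nat_lit 0x8000c00078003c0000001400080000000000000000000000000000000) (nat_lit 0x0) (nat_lit 0x38000000000003000100008000000000000000000000000000000) := T_31 (nat_lit 208) (nat_lit 207) (nat_lit 1) (nat_lit 7) (nat_lit 11) L82725 (by decide +kernel)
theorem L82727 : W_31 (nat_lit 5) (nat_lit 0x8000c0007800380000001400080000000000000000000000000000000) (nat_lit 0x0) (nat_lit 0x38000000060003000100008000000000000000000000000000000) := T_31 (nat_lit 174) (nat_lit 173) (nat_lit 3) (nat_lit 3) (nat_lit 10) L82726 (by decide +kernel)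
theorem L82728 : W_31 (nat_lit 6) (nat_lit 0x8000c0007800300000001400080000000000000000000000000000000) (nat_lit 0x0) (nat_lit 0x380000000e0007000100008000000000000000000000000000000) := T_31 (nat_lit 175) (nat_lit 158) (nat_lit 4) (nat_lit 6) (nat_lit 13) L82727 (by decide +kernel)
theorem L82729 : W_31 (nat_lit 7) (nat_lit 0x8000c0007000300000001400080000000000000000000000000000000) (nat_lit 0x0) (nat_lit 0x38000c000e0007000100008000000000000000000000000000000) := T_31 (nat_lit 191) (nat_lit 190) (nat_lit 3) (nat_lit 3) (nat_lit 11) L82728 (by decide +kernel)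
theorem L82730 : W_31 (nat_lit 8) (nat_lit 0xc0007000300000001400080000000000000000000000000000000) (nat_lit 0x0) (nat_lit 0x10000800038000c000e0007000100008000000000000000000000000000000) := T_31 (nat_lit 227) (nat_lit 244) (nat_lit 6) (nat_lit 6) (nat_lit 14) L82729 (by decide +kernel)
theorem L82731 : W_31 (nat_lit 9) (nat_lit 0xc0007000300000001000080000000000000000000000000000000) (nat_lit 0x0) (nat_lit 0x10000800038000c000e000f000500008000000000000000000000000000000) := T_31 (nat_lit 142) (nat_lit 159) (nat_lit 7) (nat_lit 6) (nat_lit 8) L82730 (by decide +kernel)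
theorem L82732 : W_31 (nat_lit 13) (nat_lit 0x80007000300000001000080000000000000000000000000000000) (nat_lit 0x0) (nat_lit 0x10003e000f00078000c000e000f000700008000000000000000000000000000000) := Q_31 (nat_lit 210) (C_31 L82722 (C_31 L78884 (C_31 L82723 (C_31 L79221 (C_31 L82731 N_31))))) (by decide +kernel)
theorem L82733 : W_31 (nat_lit 9) (nat_lit 0x80007000300000001000080000000000000000000000000000000) (nat_lit 0x0) (nat_lit 0x18000f003780000000e000f000600000000000000000000000000000000000) := Q_31 (nat_lit 210) (C_31 L78784 (C_31 L78884 (C_31 L78827 (C_31 L78840 N_31)))) (by decide +kernel)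
theorem L82734 : W_31 (nat_lit 14) (nat_lit 0x80006000300000001000080000000000000000000000000000000) (nat_lit 0x0) (nat_lit 0x10003e000f00378001c000e000f000700008000000000000000000000000000000) := Q_31 (nat_lit 192) (C_31 L82715 (C_31 L82732 (C_31 L82733 N_31))) (by decide +kernel)
theorem L82735 : W_31 (nat_lit 15) (nat_lit 0x6000300000001000080000000000000000000000000000000) (nat_lit 0x0) (nat_lit 0x10007e00ff003f8001c000e000f000700008000000000000000000000000000000) := Q_31 (nat_lit 211) (C_31 L82713 (C_31 L82714 (C_31 L82734 (C_31 L17691 N_31)))) (by decide +kernel)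
theorem L82738 : W_31 (nat_lit 2) (nat_lit 0x40000e0012000f000380006801000090000000000000000000000000000000) (nat_lit 0x0) (nat_lit 0x20001000080000000000000000000000000000000000000000000000000000) := D_31 (nat_lit 228) (nat_lit 245) (nat_lit 211) (nat_lit 3) (nat_lit 4) (nat_lit 13) (nat_lit 2) (nat_lit 4) (nat_lit 13) (by decide +kernel)
theorem L82739 : W_31 (nat_lit 3) (nat_lit 0x40000c0012000f000380006801000090000000000000000000000000000000) (nat_lit 0x0) (nat_lit 0x24001200080000000000000000000000000000000000000000000000000000) := T_31 (nat_lit 225) (nat_lit 242) (nat_lit 5) (nat_lit 5) (nat_lit 10) L82738 (by decide +kernel)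
theorem L82740 : W_31 (nat_lit 4) (nat_lit 0xc0012000f000380006801000090000000000000000000000000000000) (nat_lit 0x0) (nat_lit 0x64003200080000000000000000000000000000000000000000000000000000) := T_31 (nat_lit 246) (nat_lit 229) (nat_lit 4) (nat_lit 8) (nat_lit 14) L82739 (by decide +kernel)
theorem L82741 : W_31 (nat_lit 5) (nat_lit 0xc0012000f000380006001000090000000000000000000000000000000) (nat_lit 0x0) (nat_lit 0x64003200080000000000001800000000000000000000000000000000000000) := T_31 (nat_lit 155) (nat_lit 156) (nat_lit 3) (nat_lit 2) (nat_lit 9) L82740 (by decide +kernel)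
theorem L82742 : W_31 (nat_lit 6) (nat_lit 0xc0012000f000380004001000090000000000000000000000000000000) (nat_lit 0x0) (nat_lit 0x64003200080000000000003800100000000000000000000000000000000000) := T_31 (nat_lit 157) (nat_lit 140) (nat_lit 4) (nat_lit 5) (nat_lit 12) L82741 (by decide +kernel)
theorem L82743 : W_31 (nat_lit 7) (nat_lit 0xc0012000f000380004001000080000000000000000000000000000000) (nat_lit 0x0) (nat_lit 0x64003200080000000000003800300010000000000000000000000000000000) := T_31 (nat_lit 124) (nat_lit 141) (nat_lit 7) (nat_lit 5) (nat_lit 7) L82742 (by decide +kernel)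
theorem L82744 : W_31 (nat_lit 8) (nat_lit 0xc0012000f000380000001000080000000000000000000000000000000) (nat_lit 0x0) (nat_lit 0x640032000c0000000000007800300010000000000000000000000000000000) := T_31 (nat_lit 158) (nat_lit 210) (nat_lit 7) (nat_lit 5) (nat_lit 9) L82743 (by decide +kernel)
theorem L82745 : W_31 (nat_lit 9) (nat_lit 0x40012000f000380000001000080000000000000000000000000000000) (nat_lit 0x0) (nat_lit 0x74003a000c0000000000007800300010000000000000000000000000000000) := T_31 (nat_lit 227) (nat_lit 244) (nat_lit 7) (nat_lit 5) (nat_lit 10) L82744 (by decide +kernel)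
theorem L82746 : W_31 (nat_lit 10) (nat_lit 0x40002000f000380000001000080000000000000000000000000000000) (nat_lit 0x0) (nat_lit 0x74003a003c0000000000007800300010000000000000000000000000000000) := T_31 (nat_lit 212) (nat_lit 213) (nat_lit 3) (nat_lit 5) (nat_lit 11) L82745 (by decide +kernel)
theorem L82747 : W_31 (nat_lit 11) (nat_lit 0x2000f000380000001000080000000000000000000000000000000) (nat_lit 0x0) (nat_lit 0x7c003e003c0000000000007800300010000000000000000000000000000000) := T_31 (nat_lit 226) (nat_lit 243) (nat_lit 6) (nat_lit 5) (nat_lit 14) L82746 (by decide +kernel)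
theorem L82748 : W_31 (nat_lit 12) (nat_lit 0x2000f000300000001000080000000000000000000000000000000) (nat_lit 0x0) (nat_lit 0x7c003e003c00000000c0007800300010000000000000000000000000000000) := T_31 (nat_lit 175) (nat_lit 174) (nat_lit 3) (nat_lit 4) (nat_lit 10) L82747 (by decide +kernel)
theorem L82749 : W_31 (nat_lit 13) (nat_lit 0xf000300000001000080000000000000000000000000000000) (nat_lit 0x0) (nat_lit 0x7c003e003f00000000c0007800300010000000000000000000000000000000) := T_31 (nat_lit 209) (nat_lit 208) (nat_lit 1) (nat_lit 8) (nat_lit 11) L82748 (by decide +kernel)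
theorem L82750 : W_31 (nat_lit 14) (nat_lit 0xe000300000001000080000000000000000000000000000000) (nat_lit 0x0) (nat_lit 0x7c003e003f8001c000e0007800300010000000000000000000000000000000) := Q_31 (nat_lit 192) (C_31 L11603 (C_31 L82737 (C_31 L82749 N_31))) (by decide +kernel)
theorem L82751 : W_31 (nat_lit 15) (nat_lit 0x6000300000001000080000000000000000000000000000000) (nat_lit 0x0) (nat_lit 0x7c003e007f8039c018e0047800300010000000000000000000000000000000) := Q_31 (nat_lit 195) (C_31 L16013 (C_31 L82750 (C_31 L82341 N_31))) (by decide +kernel)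
theorem L82752 : W_31 (nat_lit 13) (nat_lit 0x6000300000001000080000000000000000000000000000000) (nat_lit 0x0) (nat_lit 0xf8007c007f0039c018e0008000400020000000000000000000000000000000) := Q_31 (nat_lit 195) (C_31 L16013 (C_31 L82206 (C_31 L82363 N_31))) (by decide +kernel)
theorem L82753 : W_31 (nat_lit 8) (nat_lit 0x80006000300000001000080000000000000000000000000000000) (nat_lit 0x0) (nat_lit 0x7800ff00370000000000000000000000000000000000000000000000000000) := Q_31 (nat_lit 210) (C_31 L15246 (C_31 L15252 (C_31 L15259 (C_31 L15253 N_31)))) (by decide +kernel)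
theorem L82754 : W_31 (nat_lit 2) (nat_lit 0xb0007800340000001400080000000000000000000000000000000) (nat_lit 0x0) (nat_lit 0x400000000000000002000100000000000000000000000000000000000) := D_31 (nat_lit 157) (nat_lit 226) (nat_lit 140) (nat_lit 7) (nat_lit 4) (nat_lit 9) (nat_lit 7) (nat_lit 4) (nat_lit 8) (by decide +kernel)
theorem L82755 : W_31 (nat_lit 3) (nat_lit 0x90007800340000001400080000000000000000000000000000000) (nat_lit 0x0) (nat_lit 0x400020008000000002000100000000000000000000000000000000000) := T_31 (nat_lit 209) (nat_lit 195) (nat_lit 1) (nat_lit 8) (nat_lit 11) L82754 (by decide +kernel)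
theorem L82756 : W_31 (nat_lit 4) (nat_lit 0x90007800300000001400080000000000000000000000000000000) (nat_lit 0x0) (nat_lit 0x400020008000060002000100000000000000000000000000000000000) := T_31 (nat_lit 174) (nat_lit 173) (nat_lit 0) (nat_lit 7) (nat_lit 11) L82755 (by decide +kernel)
theorem L82757 : W_31 (nat_lit 5) (nat_lit 0x80007800300000001400080000000000000000000000000000000) (nat_lit 0x0) (nat_lit 0x400038008000060002000100000000000000000000000000000000000) := T_31 (nat_lit 208) (nat_lit 207) (nat_lit 1) (nat_lit 7) (nat_lit 11) L82756 (by decide +kernel)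
theorem L82758 : W_31 (nat_lit 6) (nat_lit 0x80007000300000001400080000000000000000000000000000000) (nat_lit 0x0) (nat_lit 0x400038008c00060002000100000000000000000000000000000000000) := T_31 (nat_lit 191) (nat_lit 190) (nat_lit 2) (nat_lit 3) (nat_lit 11) L82757 (by decide +kernel)
theorem L82759 : W_31 (nat_lit 7) (nat_lit 0x80007000300000001000080000000000000000000000000000000) (nat_lit 0x0) (nat_lit 0x400038008c0006000a000500000000000000000000000000000000000) := T_31 (nat_lit 142) (nat_lit 159) (nat_lit 7) (nat_lit 6) (nat_lit 8) L82758 (by decide +kernel)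
theorem L82760 : W_31 (nat_lit 2) (nat_lit 0x80000000a000f000300000001000080000000000000000000000000000000) (nat_lit 0x0) (nat_lit 0x40030000000000000000000000000000000000000000000000000) := D_31 (nat_lit 196) (nat_lit 197) (nat_lit 210) (nat_lit 0) (nat_lit 10) (nat_lit 11) (nat_lit 1) (nat_lit 9) (nat_lit 11) (by decide +kernel)
theorem L82761 : W_31 (nat_lit 3) (nat_lit 0x80000000a0007000300000001000080000000000000000000000000000000) (nat_lit 0x0) (nat_lit 0x50038000000000000000000000000000000000000000000000000) := T_31 (nat_lit 195) (nat_lit 208) (nat_lit 1) (nat_lit 8) (nat_lit 11) L82760 (by decide +kernel)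
theorem L82762 : W_31 (nat_lit 4) (nat_lit 0xa0007000300000001000080000000000000000000000000000000) (nat_lit 0x0) (nat_lit 0x8000400050038000000000000000000000000000000000000000000000000) := T_31 (nat_lit 243) (nat_lit 226) (nat_lit 6) (nat_lit 5) (nat_lit 14) L82761 (by decide +kernel)
theorem L82763 : W_31 (nat_lit 2) (nat_lit 0xa0007000300008001000080000000000000000000000000000000) (nat_lit 0x0) (nat_lit 0x8000400040000000000000000000000000000000000000000000000000000) := D_31 (nat_lit 226) (nat_lit 243) (nat_lit 210) (nat_lit 6) (nat_lit 5) (nat_lit 14) (nat_lit 5) (nat_lit 6) (nat_lit 9) (by decide +kernel)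
theorem L82764 : W_31 (nat_lit 3) (nat_lit 0xa0007000300000001000080000000000000000000000000000000) (nat_lit 0x0) (nat_lit 0x8000400040000000000008000400000000000000000000000000000000000) := T_31 (nat_lit 159) (nat_lit 142) (nat_lit 7) (nat_lit 6) (nat_lit 8) L82763 (by decide +kernel)
theorem L82765 : W_31 (nat_lit 2) (nat_lit 0x80000000a001f000300000001000080000000000000000000000000000000) (nat_lit 0x0) (nat_lit 0x700000000000000000000000000000000000000000000000000000) := D_31 (nat_lit 213) (nat_lit 212) (nat_lit 214) (nat_lit 3) (nat_lit 5) (nat_lit 11) (nat_lit 3) (nat_lit 6) (nat_lit 11) (by decide +kernel)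
theorem L82766 : W_31 (nat_lit 3) (nat_lit 0x80000000a000f000300000001000080000000000000000000000000000000) (nat_lit 0x0) (nat_lit 0x700030000000000000000000000000000000000000000000000000) := T_31 (nat_lit 196) (nat_lit 197) (nat_lit 0) (nat_lit 10) (nat_lit 11) L82765 (by decide +kernel)
theorem L82767 : W_31 (nat_lit 4) (nat_lit 0x80000000a0007000300000001000080000000000000000000000000000000) (nat_lit 0x0) (nat_lit 0x710038000000000000000000000000000000000000000000000000) := T_31 (nat_lit 195) (nat_lit 208) (nat_lit 1) (nat_lit 8) (nat_lit 11) L82766 (by decide +kernel)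
theorem L82768 : W_31 (nat_lit 5) (nat_lit 0xa0007000300000001000080000000000000000000000000000000) (nat_lit 0x0) (nat_lit 0x8000400710038000000000000000000000000000000000000000000000000) := T_31 (nat_lit 243) (nat_lit 226) (nat_lit 6) (nat_lit 5) (nat_lit 14) L82767 (by decide +kernel)
theorem L82769 : W_31 (nat_lit 2) (nat_lit 0xa000f000300000001000080000000000000000000000000000000) (nat_lit 0x0) (nat_lit 0x40030000000000000000000000000000000000000000000000000) := D_31 (nat_lit 196) (nat_lit 197) (nat_lit 210) (nat_lit 0) (nat_lit 10) (nat_lit 11) (nat_lit 1) (nat_lit 9) (nat_lit 11) (by decide +kernel)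
theorem L82770 : W_31 (nat_lit 3) (nat_lit 0xa0007000300000001000080000000000000000000000000000000) (nat_lit 0x0) (nat_lit 0x50038000000000000000000000000000000000000000000000000) := T_31 (nat_lit 195) (nat_lit 208) (nat_lit 1) (nat_lit 8) (nat_lit 11) L82769 (by decide +kernel)
theorem L82771 : W_31 (nat_lit 6) (nat_lit 0x80007000300000001000080000000000000000000000000000000) (nat_lit 0x0) (nat_lit 0x8000400770038000000008000400000000000000000000000000000000000) := Q_31 (nat_lit 209) (C_31 L82762 (C_31 L82764 (C_31 L82768 (C_31 L82770 N_31)))) (by decide +kernel)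
theorem L82772 : W_31 (nat_lit 8) (nat_lit 0x80006000300000001000080000000000000000000000000000000) (nat_lit 0x0) (nat_lit 0x8000400778039c0006000a000500000000000000000000000000000000000) := Q_31 (nat_lit 192) (C_31 L82715 (C_31 L82759 (C_31 L82771 N_31))) (by decide +kernel)
theorem L82773 : W_31 (nat_lit 9) (nat_lit 0x6000300000001000080000000000000000000000000000000) (nat_lit 0x0) (nat_lit 0x7800ff007f8039c0006000a000500000000000000000000000000000000000) := Q_31 (nat_lit 211) (C_31 L82753 (C_31 L82772 (C_31 L17691 N_31))) (by decide +kernel)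
theorem L82774 : W_31 (nat_lit 9) (nat_lit 0x6000300000001000080000000000000000000000000000000) (nat_lit 0x0) (nat_lit 0x58002c00770039c018e0048000400000000000000000000000000000000000) := Q_31 (nat_lit 195) (C_31 L16013 (C_31 L82206 (C_31 L82341 N_31))) (by decide +kernel)
theorem L82775 : W_31 (nat_lit 7) (nat_lit 0xe000300000001000080000000000000000000000000000000) (nat_lit 0x0) (nat_lit 0x40002400338001c000e0008000400000000000000000000000000000000000) := Q_31 (nat_lit 192) (C_31 L82737 (C_31 L11603 (C_31 L82205 N_31))) (by decide +kernel)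
theorem L82776 : W_31 (nat_lit 8) (nat_lit 0x6000300000001000080000000000000000000000000000000) (nat_lit 0x0) (nat_lit 0x40002400738039c018e0008000400000000000000000000000000000000000) := Q_31 (nat_lit 195) (C_31 L16013 (C_31 L82775 (C_31 L15638 N_31))) (by decide +kernel)
theorem L82777 : W_31 (nat_lit 2) (nat_lit 0x74003a0008001e00080000000000000000000000000000000) (nat_lit 0x0) (nat_lit 0x40000000000006000000000000000000000000000000000000000) := D_31 (nat_lit 158) (nat_lit 157) (nat_lit 210) (nat_lit 1) (nat_lit 8) (nat_lit 8) (nat_lit 7) (nat_lit 5) (nat_lit 8) (by decide +kernel)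
theorem L82778 : W_31 (nat_lit 3) (nat_lit 0x74003a0008001600080000000000000000000000000000000) (nat_lit 0x0) (nat_lit 0x40000000000006000800100000000000000000000000000000000) := T_31 (nat_lit 143) (nat_lit 128) (nat_lit 2) (nat_lit 5) (nat_lit 8) L82777 (by decide +kernel)
theorem L82779 : W_31 (nat_lit 4) (nat_lit 0x74003a0008001400080000000000000000000000000000000) (nat_lit 0x0) (nat_lit 0x40000000000006000a00110000000000000000000000000000000) := T_31 (nat_lit 141) (nat_lit 124) (nat_lit 4) (nat_lit 6) (nat_lit 11) L82778 (by decide +kernel)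
theorem L82780 : W_31 (nat_lit 5) (nat_lit 0x70003a0008001400080000000000000000000000000000000) (nat_lit 0x0) (nat_lit 0x40000c00000006000a00110000000000000000000000000000000) := T_31 (nat_lit 190) (nat_lit 191) (nat_lit 2) (nat_lit 3) (nat_lit 11) L82779 (by decide +kernel)
theorem L82781 : W_31 (nat_lit 6) (nat_lit 0x60003a0008001400080000000000000000000000000000000) (nat_lit 0x0) (nat_lit 0x60001c00000006000a00110000000000000000000000000000000) := T_31 (nat_lit 192) (nat_lit 209) (nat_lit 5) (nat_lit 6) (nat_lit 8) L82780 (by decide +kernel)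
theorem L82782 : W_31 (nat_lit 7) (nat_lit 0x60003a0008001000080000000000000000000000000000000) (nat_lit 0x0) (nat_lit 0x60001c00000006000e00130000000000000000000000000000000) := T_31 (nat_lit 142) (nat_lit 125) (nat_lit 7) (nat_lit 6) (nat_lit 7) L82781 (by decide +kernel)
theorem L82783 : W_31 (nat_lit 8) (nat_lit 0x6000380008001000080000000000000000000000000000000) (nat_lit 0x0) (nat_lit 0x60001c00060006000e00130000000000000000000000000000000) := T_31 (nat_lit 173) (nat_lit 174) (nat_lit 3) (nat_lit 3) (nat_lit 10) L82782 (by decide +kernel)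
theorem L82784 : W_31 (nat_lit 2) (nat_lit 0x6000380008001000080000000000000000000000000000000) (nat_lit 0x0) (nat_lit 0x80000000000000000400020000000000000000000000000000000) := D_31 (nat_lit 142) (nat_lit 125) (nat_lit 211) (nat_lit 7) (nat_lit 6) (nat_lit 7) (nat_lit 7) (nat_lit 6) (nat_lit 8) (by decide +kernel)
theorem L82785 : W_31 (nat_lit 2) (nat_lit 0x40006000380008001000080000000000000000000000000000000) (nat_lit 0x0) (nat_lit 0x10000800000000000000004000000000000000000000000000000000000000) := D_31 (nat_lit 227) (nat_lit 244) (nat_lit 158) (nat_lit 6) (nat_lit 6) (nat_lit 14) (nat_lit 4) (nat_lit 6) (nat_lit 13) (by decide +kernel)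
theorem L82786 : W_31 (nat_lit 2) (nat_lit 0x100010000680068003c000a001100094000000000000000000000000000000) (nat_lit 0x0) (nat_lit 0x8000a00000000000000000000000000) := D_31 (nat_lit 123) (nat_lit 107) (nat_lit 105) (nat_lit 6) (nat_lit 4) (nat_lit 10) (nat_lit 4) (nat_lit 4) (nat_lit 10) (by decide +kernel)
theorem L82787 : W_31 (nat_lit 3) (nat_lit 0x100010000680068003c000a001100090000000000000000000000000000000) (nat_lit 0x0) (nat_lit 0x8000c000a00000000000000000000000000) := T_31 (nat_lit 122) (nat_lit 139) (nat_lit 4) (nat_lit 4) (nat_lit 11) L82786 (by decide +kernel)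
theorem L82788 : W_31 (nat_lit 4) (nat_lit 0x100010000680068003c000a001100080000000000000000000000000000000) (nat_lit 0x0) (nat_lit 0x28001c000a00000000000000000000000000) := T_31 (nat_lit 124) (nat_lit 141) (nat_lit 6) (nat_lit 4) (nat_lit 11) L82787 (by decide +kernel)
theorem L82789 : W_31 (nat_lit 5) (nat_lit 0x100010000680068003c000a001000080000000000000000000000000000000) (nat_lit 0x0) (nat_lit 0x100000000000038001c000a00000000000000000000000000) := T_31 (nat_lit 140) (nat_lit 192) (nat_lit 7) (nat_lit 4) (nat_lit 8) L82788 (by decide +kernel)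
theorem L82790 : W_31 (nat_lit 6) (nat_lit 0x100010000680068003c0008001000080000000000000000000000000000000) (nat_lit 0x0) (nat_lit 0x100000000300038001c000a00000000000000000000000000) := T_31 (nat_lit 157) (nat_lit 156) (nat_lit 0) (nat_lit 7) (nat_lit 10) L82789 (by decide +kernel)
theorem L82791 : W_31 (nat_lit 7) (nat_lit 0x100010000680060003c0008001000080000000000000000000000000000000) (nat_lit 0x0) (nat_lit 0x1c0000000300038001c000a00000000000000000000000000) := T_31 (nat_lit 191) (nat_lit 190) (nat_lit 1) (nat_lit 7) (nat_lit 10) L82790 (by decide +kernel)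
theorem L82792 : W_31 (nat_lit 8) (nat_lit 0x10001000068006000380008001000080000000000000000000000000000000) (nat_lit 0x0) (nat_lit 0x1c0006000300038001c000a00000000000000000000000000) := T_31 (nat_lit 174) (nat_lit 173) (nat_lit 3) (nat_lit 3) (nat_lit 10) L82791 (by decide +kernel)
theorem L82793 : W_31 (nat_lit 9) (nat_lit 0x10000000068006000380008001000080000000000000000000000000000000) (nat_lit 0x0) (nat_lit 0x1000080001c0006000300038001c000a00000000000000000000000000) := T_31 (nat_lit 228) (nat_lit 211) (nat_lit 7) (nat_lit 6) (nat_lit 9) L82792 (by decide +kernel)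
theorem L82794 : W_31 (nat_lit 10) (nat_lit 0x10000000060006000380008001000080000000000000000000000000000000) (nat_lit 0x0) (nat_lit 0x1000098001c0006000300038001c000a00000000000000000000000000) := T_31 (nat_lit 207) (nat_lit 208) (nat_lit 2) (nat_lit 3) (nat_lit 12) L82793 (by decide +kernel)
theorem L82795 : W_31 (nat_lit 11) (nat_lit 0x10000000040006000380008001000080000000000000000000000000000000) (nat_lit 0x0) (nat_lit 0x14000b8001c0006000300038001c000a00000000000000000000000000) := T_31 (nat_lit 209) (nat_lit 226) (nat_lit 5) (nat_lit 6) (nat_lit 9) L82794 (by decide +kernel)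
theorem L82796 : W_31 (nat_lit 12) (nat_lit 0x40006000380008001000080000000000000000000000000000000) (nat_lit 0x0) (nat_lit 0x10001c000b8001c0006000300038001c000a00000000000000000000000000) := T_31 (nat_lit 244) (nat_lit 227) (nat_lit 6) (nat_lit 6) (nat_lit 14) L82795 (by decide +kernel)
theorem L82797 : W_31 (nat_lit 2) (nat_lit 0xf00060003a000d001000080000000000000000000000000000000) (nat_lit 0x0) (nat_lit 0x300000001000000000000000000000000000000000000000000000000) := D_31 (nat_lit 225) (nat_lit 192) (nat_lit 224) (nat_lit 5) (nat_lit 5) (nat_lit 9) (nat_lit 1) (nat_lit 7) (nat_lit 12) (by decide +kernel)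
theorem L82798 : W_31 (nat_lit 3) (nat_lit 0x700060003a000d001000080000000000000000000000000000000) (nat_lit 0x0) (nat_lit 0x1300080001000000000000000000000000000000000000000000000000) := T_31 (nat_lit 211) (nat_lit 228) (nat_lit 7) (nat_lit 6) (nat_lit 9) L82797 (by decide +kernel)
theorem L82799 : W_31 (nat_lit 4) (nat_lit 0x600060003a000d001000080000000000000000000000000000000) (nat_lit 0x0) (nat_lit 0x1300098001000000000000000000000000000000000000000000000000) := T_31 (nat_lit 208) (nat_lit 207) (nat_lit 2) (nat_lit 3) (nat_lit 12) L82798 (by decide +kernel)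
theorem L82800 : W_31 (nat_lit 5) (nat_lit 0x400060003a000d001000080000000000000000000000000000000) (nat_lit 0x0) (nat_lit 0x17000b8001000000000000000000000000000000000000000000000000) := T_31 (nat_lit 209) (nat_lit 226) (nat_lit 5) (nat_lit 6) (nat_lit 9) L82799 (by decide +kernel)
theorem L82801 : W_31 (nat_lit 6) (nat_lit 0x400060003a000c001000080000000000000000000000000000000) (nat_lit 0x0) (nat_lit 0x17000b8001000000003000000000000000000000000000000000000000) := T_31 (nat_lit 156) (nat_lit 157) (nat_lit 3) (nat_lit 3) (nat_lit 9) L82800 (by decide +kernel)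
theorem L82802 : W_31 (nat_lit 7) (nat_lit 0x400060003a0008001000080000000000000000000000000000000) (nat_lit 0x0) (nat_lit 0x17000b8001000000007000200000000000000000000000000000000000) := T_31 (nat_lit 158) (nat_lit 141) (nat_lit 4) (nat_lit 6) (nat_lit 12) L82801 (by decide +kernel)
theorem L82803 : W_31 (nat_lit 8) (nat_lit 0x40006000380008001000080000000000000000000000000000000) (nat_lit 0x0) (nat_lit 0x17000b8001000060007000200000000000000000000000000000000000) := T_31 (nat_lit 173) (nat_lit 174) (nat_lit 3) (nat_lit 3) (nat_lit 10) L82802 (by decide +kernel)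
theorem L82804 : W_31 (nat_lit 13) (nat_lit 0x6000380008001000080000000000000000000000000000000) (nat_lit 0x0) (nat_lit 0x10001f000f8001c0006000700038001c000a00000000000000000000000000) := Q_31 (nat_lit 210) (C_31 L82785 (C_31 L82796 (C_31 L82803 N_31))) (by decide +kernel)
theorem L82805 : W_31 (nat_lit 14) (nat_lit 0x6000380000001000080000000000000000000000000000000) (nat_lit 0x0) (nat_lit 0x10001f000f8001c0006000f000f8013c000a00000000000000000000000000) := Q_31 (nat_lit 159) (C_31 L82783 (C_31 L82784 (C_31 L82804 N_31))) (by decide +kernel)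
theorem L82806 : W_31 (nat_lit 2) (nat_lit 0x17400380008001e00080000000000000000000000000000000) (nat_lit 0x0) (nat_lit 0x40000000000006000000000000000000000000000000000000000) := D_31 (nat_lit 158) (nat_lit 157) (nat_lit 210) (nat_lit 1) (nat_lit 8) (nat_lit 8) (nat_lit 7) (nat_lit 5) (nat_lit 8) (by decide +kernel)
theorem L82807 : W_31 (nat_lit 3) (nat_lit 0x17400380008001600080000000000000000000000000000000) (nat_lit 0x0) (nat_lit 0x40000000000006000800100000000000000000000000000000000) := T_31 (nat_lit 143) (nat_lit 128) (nat_lit 2) (nat_lit 5) (nat_lit 8) L82806 (by decide +kernel)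
theorem L82808 : W_31 (nat_lit 4) (nat_lit 0x17400380008001400080000000000000000000000000000000) (nat_lit 0x0) (nat_lit 0x40000000000006000a00110000000000000000000000000000000) := T_31 (nat_lit 141) (nat_lit 124) (nat_lit 4) (nat_lit 6) (nat_lit 11) L82807 (by decide +kernel)
theorem L82809 : W_31 (nat_lit 5) (nat_lit 0x17000380008001400080000000000000000000000000000000) (nat_lit 0x0) (nat_lit 0x40000c00000006000a00110000000000000000000000000000000) := T_31 (nat_lit 190) (nat_lit 191) (nat_lit 2) (nat_lit 3) (nat_lit 11) L82808 (by decide +kernel)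
theorem L82810 : W_31 (nat_lit 6) (nat_lit 0x16000380008001400080000000000000000000000000000000) (nat_lit 0x0) (nat_lit 0x60001c00000006000a00110000000000000000000000000000000) := T_31 (nat_lit 192) (nat_lit 209) (nat_lit 5) (nat_lit 6) (nat_lit 8) L82809 (by decide +kernel)
theorem L82811 : W_31 (nat_lit 7) (nat_lit 0x16000380008001000080000000000000000000000000000000) (nat_lit 0x0) (nat_lit 0x60001c00000006000e00130000000000000000000000000000000) := T_31 (nat_lit 142) (nat_lit 125) (nat_lit 7) (nat_lit 6) (nat_lit 7) L82810 (by decide +kernel)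
theorem L82812 : W_31 (nat_lit 8) (nat_lit 0x6000380008001000080000000000000000000000000000000) (nat_lit 0x0) (nat_lit 0x60019c00000006000e00130000000000000000000000000000000) := T_31 (nat_lit 196) (nat_lit 195) (nat_lit 0) (nat_lit 9) (nat_lit 11) L82811 (by decide +kernel)
theorem L82813 : W_31 (nat_lit 2) (nat_lit 0x10000000070006000380008001000080000000000000000000000000000000) (nat_lit 0x0) (nat_lit 0x19000000000000000000000000000000000000000000000000) := D_31 (nat_lit 195) (nat_lit 196) (nat_lit 192) (nat_lit 1) (nat_lit 9) (nat_lit 11) (nat_lit 1) (nat_lit 8) (nat_lit 11) (by decide +kernel)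
theorem L82814 : W_31 (nat_lit 3) (nat_lit 0x10000000060006000380008001000080000000000000000000000000000000) (nat_lit 0x0) (nat_lit 0x18019000000000000000000000000000000000000000000000000) := T_31 (nat_lit 208) (nat_lit 207) (nat_lit 2) (nat_lit 3) (nat_lit 12) L82813 (by decide +kernel)
theorem L82815 : W_31 (nat_lit 4) (nat_lit 0x10000000040006000380008001000080000000000000000000000000000000) (nat_lit 0x0) (nat_lit 0x400038019000000000000000000000000000000000000000000000000) := T_31 (nat_lit 209) (nat_lit 226) (nat_lit 5) (nat_lit 6) (nat_lit 9) L82814 (by decide +kernel)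
theorem L82816 : W_31 (nat_lit 5) (nat_lit 0x40006000380008001000080000000000000000000000000000000) (nat_lit 0x0) (nat_lit 0x10000c00038019000000000000000000000000000000000000000000000000) := T_31 (nat_lit 244) (nat_lit 227) (nat_lit 6) (nat_lit 6) (nat_lit 14) L82815 (by decide +kernel)
theorem L82817 : W_31 (nat_lit 2) (nat_lit 0xf001600038000d001000080000000000000000000000000000000) (nat_lit 0x0) (nat_lit 0x300000001000000000000000000000000000000000000000000000000) := D_31 (nat_lit 225) (nat_lit 224) (nat_lit 192) (nat_lit 1) (nat_lit 7) (nat_lit 12) (nat_lit 5) (nat_lit 5) (nat_lit 9) (by decide +kernel)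
theorem L82818 : W_31 (nat_lit 3) (nat_lit 0xe001600038000d001000080000000000000000000000000000000) (nat_lit 0x0) (nat_lit 0x300018001000000000000000000000000000000000000000000000000) := T_31 (nat_lit 208) (nat_lit 207) (nat_lit 2) (nat_lit 3) (nat_lit 12) L82817 (by decide +kernel)
theorem L82819 : W_31 (nat_lit 4) (nat_lit 0xc001600038000d001000080000000000000000000000000000000) (nat_lit 0x0) (nat_lit 0x700038001000000000000000000000000000000000000000000000000) := T_31 (nat_lit 209) (nat_lit 226) (nat_lit 5) (nat_lit 6) (nat_lit 9) L82818 (by decide +kernel)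
theorem L82820 : W_31 (nat_lit 5) (nat_lit 0x4001600038000d001000080000000000000000000000000000000) (nat_lit 0x0) (nat_lit 0x17000b8001000000000000000000000000000000000000000000000000) := T_31 (nat_lit 211) (nat_lit 228) (nat_lit 7) (nat_lit 6) (nat_lit 9) L82819 (by decide +kernel)
theorem L82821 : W_31 (nat_lit 6) (nat_lit 0x4001600038000c001000080000000000000000000000000000000) (nat_lit 0x0) (nat_lit 0x17000b8001000000003000000000000000000000000000000000000000) := T_31 (nat_lit 156) (nat_lit 157) (nat_lit 3) (nat_lit 3) (nat_lit 9) L82820 (by decide +kernel)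
theorem L82822 : W_31 (nat_lit 7) (nat_lit 0x40016000380008001000080000000000000000000000000000000) (nat_lit 0x0) (nat_lit 0x17000b8001000000007000200000000000000000000000000000000000) := T_31 (nat_lit 158) (nat_lit 141) (nat_lit 4) (nat_lit 6) (nat_lit 12) L82821 (by decide +kernel)
theorem L82823 : W_31 (nat_lit 8) (nat_lit 0x40006000380008001000080000000000000000000000000000000) (nat_lit 0x0) (nat_lit 0x17000b8019000000007000200000000000000000000000000000000000) := T_31 (nat_lit 196) (nat_lit 195) (nat_lit 0) (nat_lit 9) (nat_lit 11) L82822 (by decide +kernel)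
theorem L82824 : W_31 (nat_lit 9) (nat_lit 0x6000380008001000080000000000000000000000000000000) (nat_lit 0x0) (nat_lit 0x10001f000f8019000000007000200000000000000000000000000000000000) := Q_31 (nat_lit 210) (C_31 L82785 (C_31 L82816 (C_31 L82823 N_31))) (by decide +kernel)
theorem L82825 : W_31 (nat_lit 10) (nat_lit 0x6000380000001000080000000000000000000000000000000) (nat_lit 0x0) (nat_lit 0x10001f000f8019c0000000f000e00130000000000000000000000000000000) := Q_31 (nat_lit 159) (C_31 L82812 (C_31 L82784 (C_31 L82824 N_31))) (by decide +kernel)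
theorem L82826 : W_31 (nat_lit 15) (nat_lit 0x6000300000001000080000000000000000000000000000000) (nat_lit 0x0) (nat_lit 0x10001f000f8019c000e000f000f8013c000a00000000000000000000000000) := Q_31 (nat_lit 175) (C_31 L12311 (C_31 L82805 (C_31 L82825 N_31))) (by decide +kernel)
theorem L82827 : W_31 (nat_lit 2) (nat_lit 0x8000e000300000001000080000000000000000000000000000000) (nat_lit 0x0) (nat_lit 0x100000c0000000000000000000000000000000000000000000) := D_31 (nat_lit 175) (nat_lit 174) (nat_lit 196) (nat_lit 3) (nat_lit 4) (nat_lit 10) (nat_lit 0) (nat_lit 9) (nat_lit 11) (by decide +kernel)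
theorem L82828 : W_31 (nat_lit 2) (nat_lit 0x8002c001e000b00000001400080000000000000000000000000000000) (nat_lit 0x0) (nat_lit 0x8000400100000000000000000000000000000000000000000000000000000) := D_31 (nat_lit 226) (nat_lit 243) (nat_lit 212) (nat_lit 5) (nat_lit 6) (nat_lit 10) (nat_lit 1) (nat_lit 9) (nat_lit 12) (by decide +kernel)
theorem L82829 : W_31 (nat_lit 3) (nat_lit 0x2c001e000b00000001400080000000000000000000000000000000) (nat_lit 0x0) (nat_lit 0x18000c00100000000000000000000000000000000000000000000000000000) := T_31 (nat_lit 227) (nat_lit 244) (nat_lit 6) (nat_lit 6) (nat_lit 14) L82828 (by decide +kernel)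
theorem L82830 : W_31 (nat_lit 4) (nat_lit 0x28001e000b00000001400080000000000000000000000000000000) (nat_lit 0x0) (nat_lit 0x18000c00160000000000000000000000000000000000000000000000000000) := T_31 (nat_lit 210) (nat_lit 209) (nat_lit 1) (nat_lit 9) (nat_lit 11) L82829 (by decide +kernel)
theorem L82831 : W_31 (nat_lit 5) (nat_lit 0x8001e000b00000001400080000000000000000000000000000000) (nat_lit 0x0) (nat_lit 0x18000c00760000000000000000000000000000000000000000000000000000) := T_31 (nat_lit 213) (nat_lit 214) (nat_lit 3) (nat_lit 6) (nat_lit 11) L82830 (by decide +kernel)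
theorem L82832 : W_31 (nat_lit 6) (nat_lit 0x8001e000300000001400080000000000000000000000000000000) (nat_lit 0x0) (nat_lit 0x18000c00760000001800000000000000000000000000000000000000000000) := T_31 (nat_lit 179) (nat_lit 180) (nat_lit 2) (nat_lit 6) (nat_lit 11) L82831 (by decide +kernel)
theorem L82833 : W_31 (nat_lit 7) (nat_lit 0x8001e000300000001000080000000000000000000000000000000) (nat_lit 0x0) (nat_lit 0x18000c00760000001800008000400000000000000000000000000000000000) := T_31 (nat_lit 142) (nat_lit 159) (nat_lit 7) (nat_lit 6) (nat_lit 8) L82832 (by decide +kernel)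
theorem L82834 : W_31 (nat_lit 8) (nat_lit 0x8000e000300000001000080000000000000000000000000000000) (nat_lit 0x0) (nat_lit 0x18000c00760030001800008000400000000000000000000000000000000000) := T_31 (nat_lit 196) (nat_lit 197) (nat_lit 0) (nat_lit 10) (nat_lit 11) L82833 (by decide +kernel)
theorem L82835 : W_31 (nat_lit 9) (nat_lit 0x80006000300000001000080000000000000000000000000000000) (nat_lit 0x0) (nat_lit 0x18000c007700380018c000c000400000000000000000000000000000000000) := Q_31 (nat_lit 195) (C_31 L82230 (C_31 L82827 (C_31 L82834 N_31))) (by decide +kernel)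
theorem L82836 : W_31 (nat_lit 10) (nat_lit 0x6000300000001000080000000000000000000000000000000) (nat_lit 0x0) (nat_lit 0x7800ff007f00380018c000c000400000000000000000000000000000000000) := Q_31 (nat_lit 211) (C_31 L82753 (C_31 L82835 (C_31 L17691 N_31))) (by decide +kernel)
theorem L82837 : W_31 (nat_lit 4) (nat_lit 0xc0006000300000001000080000000000000000000000000000000) (nat_lit 0x0) (nat_lit 0x1000080000000000008000c000600000000000000000000000000000000000) := T_31 (nat_lit 159) (nat_lit 142) (nat_lit 7) (nat_lit 6) (nat_lit 8) L78948 (by decide +kernel)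
theorem L82838 : W_31 (nat_lit 6) (nat_lit 0x80006000300000001000080000000000000000000000000000000) (nat_lit 0x0) (nat_lit 0x18000f0037800800008000c000600000000000000000000000000000000000) := Q_31 (nat_lit 210) (C_31 L15246 (C_31 L82837 (C_31 L6422 N_31))) (by decide +kernel)
theorem L82839 : W_31 (nat_lit 9) (nat_lit 0x6000300000001000080000000000000000000000000000000) (nat_lit 0x0) (nat_lit 0x7800ff003f800800008000c000600000000000000000000000000000000000) := Q_31 (nat_lit 211) (C_31 L82753 (C_31 L82838 (C_31 L17691 N_31))) (by decide +kernel)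
theorem L82840 : W_31 (nat_lit 2) (nat_lit 0x8000e000380004001600080000000000000000000000000000000) (nat_lit 0x0) (nat_lit 0x800040001000000000000000000000000000000000000000000000000) := D_31 (nat_lit 210) (nat_lit 227) (nat_lit 192) (nat_lit 4) (nat_lit 6) (nat_lit 13) (nat_lit 7) (nat_lit 5) (nat_lit 8) (by decide +kernel)
theorem L82845 : W_31 (nat_lit 2) (nat_lit 0xf800380000001000080000000000000000000000000000000) (nat_lit 0x0) (nat_lit 0x380000000000000000000000000000000000000000000000000000) := D_31 (nat_lit 212) (nat_lit 211) (nat_lit 213) (nat_lit 3) (nat_lit 4) (nat_lit 11) (nat_lit 3) (nat_lit 5) (nat_lit 11) (by decide +kernel)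
theorem L82847 : W_31 (nat_lit 3) (nat_lit 0xf000380000001000080000000000000000000000000000000) (nat_lit 0x0) (nat_lit 0x380000c00000000000000000000000000000000000000000000000) := T_31 (nat_lit 191) (nat_lit 190) (nat_lit 2) (nat_lit 3) (nat_lit 11) L82845 (by decide +kernel)
theorem L82849 : W_31 (nat_lit 2) (nat_lit 0xbc000c000e000380000001000080000000000000000000000000000000) (nat_lit 0x0) (nat_lit 0x200300000000000000000000000000000000000000000000000000000) := D_31 (nat_lit 212) (nat_lit 213) (nat_lit 225) (nat_lit 2) (nat_lit 5) (nat_lit 13) (nat_lit 2) (nat_lit 4) (nat_lit 13) (by decide +kernel)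
theorem L82850 : W_31 (nat_lit 3) (nat_lit 0xb8000c000e000380000001000080000000000000000000000000000000) (nat_lit 0x0) (nat_lit 0x8000600300000000000000000000000000000000000000000000000000000) := T_31 (nat_lit 226) (nat_lit 243) (nat_lit 5) (nat_lit 6) (nat_lit 10) L82849 (by decide +kernel)
theorem L82851 : W_31 (nat_lit 4) (nat_lit 0x38000c000e000380000001000080000000000000000000000000000000) (nat_lit 0x0) (nat_lit 0x800c600300000000000000000000000000000000000000000000000000000) := T_31 (nat_lit 231) (nat_lit 230) (nat_lit 0) (nat_lit 10) (nat_lit 13) L82850 (by decide +kernel)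
theorem L82852 : W_31 (nat_lit 5) (nat_lit 0x18000c000e000380000001000080000000000000000000000000000000) (nat_lit 0x0) (nat_lit 0x4800e600300000000000000000000000000000000000000000000000000000) := T_31 (nat_lit 229) (nat_lit 246) (nat_lit 7) (nat_lit 7) (nat_lit 10) L82851 (by decide +kernel)
theorem L82853 : W_31 (nat_lit 6) (nat_lit 0x180008000e000380000001000080000000000000000000000000000000) (nat_lit 0x0) (nat_lit 0x4800e600340000000000004000000000000000000000000000000000000000) := T_31 (nat_lit 210) (nat_lit 158) (nat_lit 4) (nat_lit 6) (nat_lit 13) L82852 (by decide +kernel)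
theorem L82854 : W_31 (nat_lit 7) (nat_lit 0x100008000e000380000001000080000000000000000000000000000000) (nat_lit 0x0) (nat_lit 0x5800ee00340000000000004000000000000000000000000000000000000000) := T_31 (nat_lit 227) (nat_lit 244) (nat_lit 5) (nat_lit 7) (nat_lit 10) L82853 (by decide +kernel)
theorem L82855 : W_31 (nat_lit 2) (nat_lit 0x10000e000380000001400080000000000000000000000000000000) (nat_lit 0x0) (nat_lit 0x80000000000008000000020000000000000000000000000000000) := D_31 (nat_lit 159) (nat_lit 125) (nat_lit 211) (nat_lit 7) (nat_lit 6) (nat_lit 7) (nat_lit 7) (nat_lit 6) (nat_lit 8) (by decide +kernel)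
theorem L82856 : W_31 (nat_lit 8) (nat_lit 0x100008000e000300000001000080000000000000000000000000000000) (nat_lit 0x0) (nat_lit 0x5800ee003400000000c0004000000000000000000000000000000000000000) := T_31 (nat_lit 175) (nat_lit 174) (nat_lit 3) (nat_lit 4) (nat_lit 10) L82854 (by decide +kernel)
theorem L82857 : W_31 (nat_lit 9) (nat_lit 0x8000e000300000001000080000000000000000000000000000000) (nat_lit 0x0) (nat_lit 0x7800fe003400000000c0004000000000000000000000000000000000000000) := T_31 (nat_lit 228) (nat_lit 245) (nat_lit 4) (nat_lit 7) (nat_lit 14) L82856 (by decide +kernel)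
theorem L82858 : W_31 (nat_lit 2) (nat_lit 0x2000000038001e000b00000001000080000000000000000000000000000000) (nat_lit 0x0) (nat_lit 0x40002000000000000000040000000000000000000000000000000000000000) := D_31 (nat_lit 229) (nat_lit 162) (nat_lit 246) (nat_lit 5) (nat_lit 9) (nat_lit 9) (nat_lit 6) (nat_lit 8) (nat_lit 14) (by decide +kernel)
theorem L82859 : W_31 (nat_lit 3) (nat_lit 0x2000000028001e000b00000001000080000000000000000000000000000000) (nat_lit 0x0) (nat_lit 0x40002000100001000000040000000000000000000000000000000000000000) := T_31 (nat_lit 212) (nat_lit 192) (nat_lit 3) (nat_lit 5) (nat_lit 11) L82858 (by decide +kernel)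
theorem L82860 : W_31 (nat_lit 4) (nat_lit 0x2000000008001e000b00000001000080000000000000000000000000000000) (nat_lit 0x0) (nat_lit 0x40002000700001000000040000000000000000000000000000000000000000) := T_31 (nat_lit 213) (nat_lit 214) (nat_lit 3) (nat_lit 6) (nat_lit 11) L82859 (by decide +kernel)
theorem L82861 : W_31 (nat_lit 5) (nat_lit 0x2000000008001e000300000001000080000000000000000000000000000000) (nat_lit 0x0) (nat_lit 0x40002000700001001800040000000000000000000000000000000000000000) := T_31 (nat_lit 179) (nat_lit 180) (nat_lit 2) (nat_lit 6) (nat_lit 11) L82860 (by decide +kernel)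
theorem L82862 : W_31 (nat_lit 6) (nat_lit 0x8001e000300000001000080000000000000000000000000000000) (nat_lit 0x0) (nat_lit 0x60003000700001001800040000000000000000000000000000000000000000) := T_31 (nat_lit 245) (nat_lit 228) (nat_lit 4) (nat_lit 7) (nat_lit 14) L82861 (by decide +kernel)
theorem L82863 : W_31 (nat_lit 7) (nat_lit 0x8000e000300000001000080000000000000000000000000000000) (nat_lit 0x0) (nat_lit 0x60003000700031001800040000000000000000000000000000000000000000) := T_31 (nat_lit 196) (nat_lit 197) (nat_lit 0) (nat_lit 10) (nat_lit 11) L82862 (by decide +kernel)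
theorem L82864 : W_31 (nat_lit 10) (nat_lit 0x80006000300000001000080000000000000000000000000000000) (nat_lit 0x0) (nat_lit 0x7800fe007400390018c0044000000000000000000000000000000000000000) := Q_31 (nat_lit 195) (C_31 L82827 (C_31 L82857 (C_31 L82863 N_31))) (by decide +kernel)
theorem L82865 : W_31 (nat_lit 2) (nat_lit 0x8000e000300000001000080000000000000000000000000000000) (nat_lit 0x0) (nat_lit 0x30000080000000000000000000000000000000000000000000) := D_31 (nat_lit 196) (nat_lit 175) (nat_lit 197) (nat_lit 0) (nat_lit 9) (nat_lit 11) (nat_lit 0) (nat_lit 10) (nat_lit 11) (by decide +kernel)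
theorem L82866 : W_31 (nat_lit 2) (nat_lit 0x8000e000340002001e00090000000000000000000000000000000) (nat_lit 0x0) (nat_lit 0x800000001000100000000000000000000000000000000000) := D_31 (nat_lit 140) (nat_lit 156) (nat_lit 191) (nat_lit 1) (nat_lit 7) (nat_lit 8) (nat_lit 6) (nat_lit 4) (nat_lit 11) (by decide +kernel)
theorem L82867 : W_31 (nat_lit 3) (nat_lit 0x8000e000340002001e00080000000000000000000000000000000) (nat_lit 0x0) (nat_lit 0x800000001000100018000000000000000000000000000000) := T_31 (nat_lit 124) (nat_lit 123) (nat_lit 0) (nat_lit 8) (nat_lit 8) L82866 (by decide +kernel)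
theorem L82868 : W_31 (nat_lit 4) (nat_lit 0x8000e000340000001e00080000000000000000000000000000000) (nat_lit 0x0) (nat_lit 0x800000007000100018000000000000000000000000000000) := T_31 (nat_lit 157) (nat_lit 158) (nat_lit 1) (nat_lit 8) (nat_lit 8) L82867 (by decide +kernel)
theorem L82869 : W_31 (nat_lit 5) (nat_lit 0x8000e000340000001600080000000000000000000000000000000) (nat_lit 0x0) (nat_lit 0x800000007000900118000000000000000000000000000000) := T_31 (nat_lit 143) (nat_lit 128) (nat_lit 2) (nat_lit 5) (nat_lit 8) L82868 (by decide +kernel)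
theorem L82870 : W_31 (nat_lit 6) (nat_lit 0x8000e000300000001600080000000000000000000000000000000) (nat_lit 0x0) (nat_lit 0x8000c0007000900118000000000000000000000000000000) := T_31 (nat_lit 174) (nat_lit 175) (nat_lit 3) (nat_lit 4) (nat_lit 10) L82869 (by decide +kernel)
theorem L82871 : W_31 (nat_lit 3) (nat_lit 0x8000e000380000001600080000000000000000000000000000000) (nat_lit 0x0) (nat_lit 0x800040001000000004000000010000000000000000000000000000000) := T_31 (nat_lit 158) (nat_lit 124) (nat_lit 7) (nat_lit 5) (nat_lit 7) L82840 (by decide +kernel)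
theorem L82872 : W_31 (nat_lit 4) (nat_lit 0x8000e000300000001600080000000000000000000000000000000) (nat_lit 0x0) (nat_lit 0x8000400010000c0004000000010000000000000000000000000000000) := T_31 (nat_lit 175) (nat_lit 174) (nat_lit 3) (nat_lit 4) (nat_lit 10) L82871 (by decide +kernel)
theorem L82873 : W_31 (nat_lit 2) (nat_lit 0x8000e400340002001f00088000000000000000000000000000000) (nat_lit 0x0) (nat_lit 0x8001800000000000000000000000000000000000000000000000) := D_31 (nat_lit 191) (nat_lit 192) (nat_lit 207) (nat_lit 2) (nat_lit 3) (nat_lit 11) (nat_lit 5) (nat_lit 4) (nat_lit 8) (by decide +kernel)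
theorem L82874 : W_31 (nat_lit 3) (nat_lit 0x8000e000340002001f00088000000000000000000000000000000) (nat_lit 0x0) (nat_lit 0x8001c00020000000000000000000000000000000000000000000) := T_31 (nat_lit 190) (nat_lit 173) (nat_lit 5) (nat_lit 4) (nat_lit 7) L82873 (by decide +kernel)
theorem L82875 : W_31 (nat_lit 4) (nat_lit 0x8000e000340000001f00088000000000000000000000000000000) (nat_lit 0x0) (nat_lit 0x8001c00020003000000000000000000000000000000000000000) := T_31 (nat_lit 157) (nat_lit 156) (nat_lit 1) (nat_lit 7) (nat_lit 8) L82874 (by decide +kernel)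
theorem L82876 : W_31 (nat_lit 5) (nat_lit 0x8000e000340000001e00088000000000000000000000000000000) (nat_lit 0x0) (nat_lit 0x8001c00020003000100004000000000000000000000000000000) := T_31 (nat_lit 140) (nat_lit 122) (nat_lit 0) (nat_lit 7) (nat_lit 8) L82875 (by decide +kernel)
theorem L82877 : W_31 (nat_lit 6) (nat_lit 0x8000e000340000001e00080000000000000000000000000000000) (nat_lit 0x0) (nat_lit 0x8001c0002000300010001c000000000000000000000000000000) := T_31 (nat_lit 123) (nat_lit 124) (nat_lit 0) (nat_lit 8) (nat_lit 8) L82876 (by decide +kernel)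
theorem L82878 : W_31 (nat_lit 7) (nat_lit 0x8000e000340000001600080000000000000000000000000000000) (nat_lit 0x0) (nat_lit 0x8001c0002000300090011c000000000000000000000000000000) := T_31 (nat_lit 143) (nat_lit 128) (nat_lit 2) (nat_lit 5) (nat_lit 8) L82877 (by decide +kernel)
theorem L82879 : W_31 (nat_lit 8) (nat_lit 0x8000e000300000001600080000000000000000000000000000000) (nat_lit 0x0) (nat_lit 0x8001c000e000300090011c000000000000000000000000000000) := T_31 (nat_lit 174) (nat_lit 175) (nat_lit 3) (nat_lit 4) (nat_lit 10) L82878 (by decide +kernel)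
theorem L82880 : W_31 (nat_lit 5) (nat_lit 0x8000e000300000001600080000000000000000000000000000000) (nat_lit 0x0) (nat_lit 0x700090011c000000000000000000000000000000) := T_31 (nat_lit 143) (nat_lit 128) (nat_lit 2) (nat_lit 5) (nat_lit 8) L80396 (by decide +kernel)
theorem L82881 : W_31 (nat_lit 2) (nat_lit 0x8000e000380004001e00080000000000000000000000000000000) (nat_lit 0x0) (nat_lit 0x40001000000000000000020000000000000000000000000000000) := D_31 (nat_lit 192) (nat_lit 125) (nat_lit 210) (nat_lit 6) (nat_lit 5) (nat_lit 11) (nat_lit 7) (nat_lit 5) (nat_lit 8) (by decide +kernel)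
theorem L82882 : W_31 (nat_lit 3) (nat_lit 0x8000e000300004001e00080000000000000000000000000000000) (nat_lit 0x0) (nat_lit 0x400010000c0000000000020000000000000000000000000000000) := T_31 (nat_lit 175) (nat_lit 174) (nat_lit 3) (nat_lit 4) (nat_lit 10) L82881 (by decide +kernel)
theorem L82883 : W_31 (nat_lit 4) (nat_lit 0x8000e000300000001e00080000000000000000000000000000000) (nat_lit 0x0) (nat_lit 0x400010000c0006000000020000000000000000000000000000000) := T_31 (nat_lit 158) (nat_lit 157) (nat_lit 1) (nat_lit 8) (nat_lit 8) L82882 (by decide +kernel)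
theorem L82884 : W_31 (nat_lit 5) (nat_lit 0x8000e000300000001600080000000000000000000000000000000) (nat_lit 0x0) (nat_lit 0x400010000c0006000800120000000000000000000000000000000) := T_31 (nat_lit 143) (nat_lit 128) (nat_lit 2) (nat_lit 5) (nat_lit 8) L82883 (by decide +kernel)
theorem L82885 : W_31 (nat_lit 9) (nat_lit 0x8000e000300000001400080000000000000000000000000000000) (nat_lit 0x0) (nat_lit 0x800048001c000e0007000b0013c000000000000000000000000000000) := Q_31 (nat_lit 141) (C_31 L82870 (C_31 L82872 (C_31 L82879 (C_31 L82880 (C_31 L82884 N_31))))) (by decide +kernel)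
theorem L82886 : W_31 (nat_lit 10) (nat_lit 0x8000e000300000001000080000000000000000000000000000000) (nat_lit 0x0) (nat_lit 0x800048001c000e000f000f0013c000000000000000000000000000000) := T_31 (nat_lit 142) (nat_lit 159) (nat_lit 7) (nat_lit 6) (nat_lit 8) L82885 (by decide +kernel)
theorem L82887 : W_31 (nat_lit 2) (nat_lit 0x38001e000b00000001400080000000000000000000000000000000) (nat_lit 0x0) (nat_lit 0x40002000000000000000040000000000000000000000000000000000000000) := D_31 (nat_lit 229) (nat_lit 162) (nat_lit 246) (nat_lit 5) (nat_lit 9) (nat_lit 9) (nat_lit 6) (nat_lit 8) (nat_lit 14) (by decide +kernel)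
theorem L82888 : W_31 (nat_lit 3) (nat_lit 0x28001e000b00000001400080000000000000000000000000000000) (nat_lit 0x0) (nat_lit 0x40002000100001000000040000000000000000000000000000000000000000) := T_31 (nat_lit 212) (nat_lit 192) (nat_lit 3) (nat_lit 5) (nat_lit 11) L82887 (by decide +kernel)
theorem L82889 : W_31 (nat_lit 4) (nat_lit 0x8001e000b00000001400080000000000000000000000000000000) (nat_lit 0x0) (nat_lit 0x40002000700001000000040000000000000000000000000000000000000000) := T_31 (nat_lit 213) (nat_lit 214) (nat_lit 3) (nat_lit 6) (nat_lit 11) L82888 (by decide +kernel)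
theorem L82890 : W_31 (nat_lit 5) (nat_lit 0x8001e000300000001400080000000000000000000000000000000) (nat_lit 0x0) (nat_lit 0x40002000700001001800040000000000000000000000000000000000000000) := T_31 (nat_lit 179) (nat_lit 180) (nat_lit 2) (nat_lit 6) (nat_lit 11) L82889 (by decide +kernel)
theorem L82891 : W_31 (nat_lit 6) (nat_lit 0x8001e000300000001000080000000000000000000000000000000) (nat_lit 0x0) (nat_lit 0x40002000700001001800048000400000000000000000000000000000000000) := T_31 (nat_lit 142) (nat_lit 159) (nat_lit 7) (nat_lit 6) (nat_lit 8) L82890 (by decide +kernel)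
theorem L82892 : W_31 (nat_lit 7) (nat_lit 0x8000e000300000001000080000000000000000000000000000000) (nat_lit 0x0) (nat_lit 0x40002000700031001800048000400000000000000000000000000000000000) := T_31 (nat_lit 196) (nat_lit 197) (nat_lit 0) (nat_lit 10) (nat_lit 11) L82891 (by decide +kernel)
theorem L82893 : W_31 (nat_lit 11) (nat_lit 0x80006000300000001000080000000000000000000000000000000) (nat_lit 0x0) (nat_lit 0x40002800748039c018e004f000f0013c000000000000000000000000000000) := Q_31 (nat_lit 195) (C_31 L82865 (C_31 L82886 (C_31 L82892 N_31))) (by decide +kernel)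
theorem L82894 : W_31 (nat_lit 12) (nat_lit 0x6000300000001000080000000000000000000000000000000) (nat_lit 0x0) (nat_lit 0x7800fe007c8039c018e004f000f0013c000000000000000000000000000000) := Q_31 (nat_lit 211) (C_31 L17691 (C_31 L82864 (C_31 L82893 N_31))) (by decide +kernel)
theorem L82895 : W_31 (nat_lit 5) (nat_lit 0x12000f000380008001000080000000000000000000000000000000) (nat_lit 0x0) (nat_lit 0x400078000c0000000000004000200000000000000000000000000000000000) := T_31 (nat_lit 211) (nat_lit 228) (nat_lit 4) (nat_lit 7) (nat_lit 13) L82173 (by decide +kernel)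
theorem L82896 : W_31 (nat_lit 6) (nat_lit 0x2000f000380008001000080000000000000000000000000000000) (nat_lit 0x0) (nat_lit 0x400078003c0000000000004000200000000000000000000000000000000000) := T_31 (nat_lit 212) (nat_lit 213) (nat_lit 3) (nat_lit 5) (nat_lit 11) L82895 (by decide +kernel)
theorem L82897 : W_31 (nat_lit 7) (nat_lit 0x2000f000380000001000080000000000000000000000000000000) (nat_lit 0x0) (nat_lit 0x400078003c000000000000c000600000000000000000000000000000000000) := T_31 (nat_lit 159) (nat_lit 142) (nat_lit 5) (nat_lit 6) (nat_lit 8) L82896 (by decide +kernel)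
theorem L82898 : W_31 (nat_lit 8) (nat_lit 0x2000f000300000001000080000000000000000000000000000000) (nat_lit 0x0) (nat_lit 0x400078003c00000000c000c000600000000000000000000000000000000000) := T_31 (nat_lit 175) (nat_lit 174) (nat_lit 3) (nat_lit 4) (nat_lit 10) L82897 (by decide +kernel)
theorem L82899 : W_31 (nat_lit 9) (nat_lit 0xf000300000001000080000000000000000000000000000000) (nat_lit 0x0) (nat_lit 0x400078003f00000000c000c000600000000000000000000000000000000000) := T_31 (nat_lit 209) (nat_lit 208) (nat_lit 1) (nat_lit 8) (nat_lit 11) L82898 (by decide +kernel)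
theorem L82900 : W_31 (nat_lit 10) (nat_lit 0xe000300000001000080000000000000000000000000000000) (nat_lit 0x0) (nat_lit 0x400078003f8001c000e000c000600000000000000000000000000000000000) := Q_31 (nat_lit 192) (C_31 L82737 (C_31 L11603 (C_31 L82899 N_31))) (by decide +kernel)
theorem L82901 : W_31 (nat_lit 11) (nat_lit 0x6000300000001000080000000000000000000000000000000) (nat_lit 0x0) (nat_lit 0x400078007f8039c018e000c000600000000000000000000000000000000000) := Q_31 (nat_lit 195) (C_31 L15638 (C_31 L16013 (C_31 L82900 N_31))) (by decide +kernel)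
theorem L82902 : W_31 (nat_lit 16) (nat_lit 0x4000300000001000080000000000000000000000000000000) (nat_lit 0x0) (nat_lit 0x1000fe00ff007f803bc018e004f800f8013c000a00000000000000000000000000) := Q_31 (nat_lit 193) (C_31 L82701 (C_31 L82735 (C_31 L82751 (C_31 L82752 (C_31 L82773 (C_31 L82774 (C_31 L82776 (C_31 L82826 (C_31 L82836 (C_31 L82839 (C_31 L82894 (C_31 L82901 N_31)))))))))))) (by decide +kernel)
theorem L82906 : W_31 (nat_lit 2) (nat_lit 0xa0005c003800080010000a0000000000000000000000000000000) (nat_lit 0x0) (nat_lit 0x150000000000000000000000000000000000000000000000000000) := D_31 (nat_lit 210) (nat_lit 212) (nat_lit 208) (nat_lit 0) (nat_lit 8) (nat_lit 12) (nat_lit 0) (nat_lit 7) (nat_lit 12) (by decide +kernel)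
theorem L82907 : W_31 (nat_lit 3) (nat_lit 0xa00058003800080010000a0000000000000000000000000000000) (nat_lit 0x0) (nat_lit 0x150000600000000000000000000000000000000000000000000000) := T_31 (nat_lit 190) (nat_lit 189) (nat_lit 2) (nat_lit 2) (nat_lit 11) L82906 (by decide +kernel)
theorem L82908 : W_31 (nat_lit 4) (nat_lit 0x800058003800080010000a0000000000000000000000000000000) (nat_lit 0x0) (nat_lit 0x400170000600000000000000000000000000000000000000000000000) := T_31 (nat_lit 209) (nat_lit 226) (nat_lit 6) (nat_lit 5) (nat_lit 13) L82907 (by decide +kernel)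
theorem L82909 : W_31 (nat_lit 2) (nat_lit 0x44003c00090010000a0000000000000000000000000000000) (nat_lit 0x0) (nat_lit 0x200020000800000000000000000000000000000000000000) := D_31 (nat_lit 173) (nat_lit 189) (nat_lit 155) (nat_lit 1) (nat_lit 6) (nat_lit 10) (nat_lit 0) (nat_lit 6) (nat_lit 10) (by decide +kernel)
theorem L82910 : W_31 (nat_lit 3) (nat_lit 0x44003c00080010000a0000000000000000000000000000000) (nat_lit 0x0) (nat_lit 0x200020003800000000000000000000000000000000000000) := T_31 (nat_lit 156) (nat_lit 157) (nat_lit 0) (nat_lit 7) (nat_lit 10) L82909 (by decide +kernel)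
theorem L82911 : W_31 (nat_lit 4) (nat_lit 0x40003c00080010000a0000000000000000000000000000000) (nat_lit 0x0) (nat_lit 0xe00020003800000000000000000000000000000000000000) := T_31 (nat_lit 190) (nat_lit 191) (nat_lit 1) (nat_lit 7) (nat_lit 10) L82910 (by decide +kernel)
theorem L82912 : W_31 (nat_lit 4) (nat_lit 0x48003c000a001000080000000000000000000000000000000) (nat_lit 0x0) (nat_lit 0x14000a0001000400000000100000000000000000000000000000000000) := T_31 (nat_lit 228) (nat_lit 211) (nat_lit 4) (nat_lit 7) (nat_lit 13) L14881 (by decide +kernel)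
theorem L82913 : W_31 (nat_lit 5) (nat_lit 0x40003c000a001000080000000000000000000000000000000) (nat_lit 0x0) (nat_lit 0x14000a0001c00400000000100000000000000000000000000000000000) := T_31 (nat_lit 191) (nat_lit 190) (nat_lit 1) (nat_lit 7) (nat_lit 10) L82912 (by decide +kernel)
theorem L82914 : W_31 (nat_lit 6) (nat_lit 0x40003c0008001000080000000000000000000000000000000) (nat_lit 0x0) (nat_lit 0x14000a0001c00400003000100000000000000000000000000000000000) := T_31 (nat_lit 157) (nat_lit 156) (nat_lit 0) (nat_lit 7) (nat_lit 10) L82913 (by decide +kernel)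
theorem L82915 : W_31 (nat_lit 3) (nat_lit 0x80005c003800080010000a0000000000000000000000000000000) (nat_lit 0x0) (nat_lit 0x400170000000000000000000000000000000000000000000000000000) := T_31 (nat_lit 209) (nat_lit 226) (nat_lit 6) (nat_lit 5) (nat_lit 13) L82906 (by decide +kernel)
theorem L82916 : W_31 (nat_lit 4) (nat_lit 0x80004c003800080010000a0000000000000000000000000000000) (nat_lit 0x0) (nat_lit 0x400170001200000000000000000000000000000000000000000000000) := T_31 (nat_lit 192) (nat_lit 189) (nat_lit 2) (nat_lit 2) (nat_lit 11) L82915 (by decide +kernel)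
theorem L82917 : W_31 (nat_lit 5) (nat_lit 0x800048003800080010000a0000000000000000000000000000000) (nat_lit 0x0) (nat_lit 0x400170001600400000000000000000000000000000000000000000000) := T_31 (nat_lit 192) (nat_lit 178) (nat_lit 1) (nat_lit 8) (nat_lit 10) L82908 (by decide +kernel)
theorem L82918 : W_31 (nat_lit 5) (nat_lit 0x800048003800080010000a0000000000000000000000000000000) (nat_lit 0x0) (nat_lit 0x400170001600040000000000000000000000000000000000000000000) := T_31 (nat_lit 190) (nat_lit 174) (nat_lit 1) (nat_lit 7) (nat_lit 10) L82916 (by decide +kernel)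
theorem L82919 : W_31 (nat_lit 2) (nat_lit 0x800058003c000a0010000a0000000000000000000000000000000) (nat_lit 0x0) (nat_lit 0x400020000000000000000100000000000000000000000000000000000) := D_31 (nat_lit 209) (nat_lit 226) (nat_lit 140) (nat_lit 6) (nat_lit 5) (nat_lit 13) (nat_lit 7) (nat_lit 4) (nat_lit 8) (by decide +kernel)
theorem L82920 : W_31 (nat_lit 3) (nat_lit 0x800048003c000a0010000a0000000000000000000000000000000) (nat_lit 0x0) (nat_lit 0x400020001000400000000100000000000000000000000000000000000) := T_31 (nat_lit 192) (nat_lit 178) (nat_lit 1) (nat_lit 8) (nat_lit 10) L82919 (by decide +kernel)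
theorem L82921 : W_31 (nat_lit 4) (nat_lit 0x800048003c00080010000a0000000000000000000000000000000) (nat_lit 0x0) (nat_lit 0x400020001000400003000100000000000000000000000000000000000) := T_31 (nat_lit 157) (nat_lit 156) (nat_lit 0) (nat_lit 7) (nat_lit 10) L82920 (by decide +kernel)
theorem L82922 : W_31 (nat_lit 5) (nat_lit 0x800048003800080010000a0000000000000000000000000000000) (nat_lit 0x0) (nat_lit 0x400020001400440003000100000000000000000000000000000000000) := T_31 (nat_lit 174) (nat_lit 190) (nat_lit 1) (nat_lit 7) (nat_lit 10) L82921 (by decide +kernel)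
theorem L82923 : W_31 (nat_lit 2) (nat_lit 0x800048003c000e0010000a0000000000000000000000000000000) (nat_lit 0x0) (nat_lit 0x10000000000000000200010000000000000000000000000000000) := D_31 (nat_lit 141) (nat_lit 124) (nat_lit 208) (nat_lit 5) (nat_lit 5) (nat_lit 7) (nat_lit 6) (nat_lit 4) (nat_lit 12) (by decide +kernel)
theorem L82924 : W_31 (nat_lit 3) (nat_lit 0x800048003c000a0010000a0000000000000000000000000000000) (nat_lit 0x0) (nat_lit 0x10000000400004000200010000000000000000000000000000000) := T_31 (nat_lit 158) (nat_lit 178) (nat_lit 0) (nat_lit 8) (nat_lit 10) L82923 (by decide +kernel)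
theorem L82925 : W_31 (nat_lit 4) (nat_lit 0x800048003c00080010000a0000000000000000000000000000000) (nat_lit 0x0) (nat_lit 0x10000000400007000200010000000000000000000000000000000) := T_31 (nat_lit 157) (nat_lit 156) (nat_lit 0) (nat_lit 7) (nat_lit 10) L82924 (by decide +kernel)
theorem L82926 : W_31 (nat_lit 2) (nat_lit 0xe000580038000c0010000a0000000000000000000000000000000) (nat_lit 0x0) (nat_lit 0x200010000000000000000200000000000000000000000000000000000) := D_31 (nat_lit 208) (nat_lit 225) (nat_lit 141) (nat_lit 5) (nat_lit 5) (nat_lit 9) (nat_lit 5) (nat_lit 5) (nat_lit 8) (by decide +kernel)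
theorem L82927 : W_31 (nat_lit 3) (nat_lit 0xe00058003800080010000a0000000000000000000000000000000) (nat_lit 0x0) (nat_lit 0xa00010000000000004000200000000000000000000000000000000000) := T_31 (nat_lit 158) (nat_lit 227) (nat_lit 7) (nat_lit 5) (nat_lit 9) L82926 (by decide +kernel)
theorem L82928 : W_31 (nat_lit 4) (nat_lit 0xa00058003800080010000a0000000000000000000000000000000) (nat_lit 0x0) (nat_lit 0xa00150000000000004000200000000000000000000000000000000000) := T_31 (nat_lit 210) (nat_lit 212) (nat_lit 0) (nat_lit 8) (nat_lit 12) L82927 (by decide +kernel)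
theorem L82929 : W_31 (nat_lit 5) (nat_lit 0x800058003800080010000a0000000000000000000000000000000) (nat_lit 0x0) (nat_lit 0xe00170000000000004000200000000000000000000000000000000000) := T_31 (nat_lit 209) (nat_lit 226) (nat_lit 6) (nat_lit 5) (nat_lit 13) L82928 (by decide +kernel)
theorem L82930 : W_31 (nat_lit 6) (nat_lit 0x800048003800080010000a0000000000000000000000000000000) (nat_lit 0x0) (nat_lit 0xe00170001000400004000200000000000000000000000000000000000) := T_31 (nat_lit 192) (nat_lit 178) (nat_lit 1) (nat_lit 8) (nat_lit 10) L82929 (by decide +kernel)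
theorem L82931 : W_31 (nat_lit 5) (nat_lit 0x800048003800080010000a0000000000000000000000000000000) (nat_lit 0x0) (nat_lit 0x10000400440007000200010000000000000000000000000000000) := T_31 (nat_lit 174) (nat_lit 190) (nat_lit 1) (nat_lit 7) (nat_lit 10) L82925 (by decide +kernel)
theorem L82932 : W_31 (nat_lit 7) (nat_lit 0x800040003800080010000a0000000000000000000000000000000) (nat_lit 0x0) (nat_lit 0xe00170001e00440007000300010000000000000000000000000000000) := Q_31 (nat_lit 191) (C_31 L82917 (C_31 L82930 (C_31 L82918 (C_31 L82922 (C_31 L82931 N_31))))) (by decide +kernel)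
theorem L82945 : W_31 (nat_lit 2) (nat_lit 0x34000a0007000700000001000080000000000000000000000000000000) (nat_lit 0x0) (nat_lit 0x10000800010000000000000000000000000000000000000000000000000000) := D_31 (nat_lit 227) (nat_lit 208) (nat_lit 244) (nat_lit 0) (nat_lit 8) (nat_lit 13) (nat_lit 5) (nat_lit 7) (nat_lit 10) (by decide +kernel)
theorem L82946 : W_31 (nat_lit 3) (nat_lit 0x14000a0007000700000001000080000000000000000000000000000000) (nat_lit 0x0) (nat_lit 0x50002800010000000000000000000000000000000000000000000000000000) := T_31 (nat_lit 229) (nat_lit 246) (nat_lit 7) (nat_lit 7) (nat_lit 10) L82945 (by decide +kernel)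
theorem L82947 : W_31 (nat_lit 4) (nat_lit 0x10000a0007000700000001000080000000000000000000000000000000) (nat_lit 0x0) (nat_lit 0x58002c00010000000000000000000000000000000000000000000000000000) := T_31 (nat_lit 226) (nat_lit 243) (nat_lit 6) (nat_lit 5) (nat_lit 14) L82946 (by decide +kernel)
theorem L82964 : W_31 (nat_lit 2) (nat_lit 0x800080006000700000001000080000000000000000000000000000000) (nat_lit 0x0) (nat_lit 0x30001000000000000000000000000000000000000000000000000000000000) := D_31 (nat_lit 228) (nat_lit 245) (nat_lit 244) (nat_lit 4) (nat_lit 7) (nat_lit 14) (nat_lit 5) (nat_lit 7) (nat_lit 10) (by decide +kernel)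
theorem L82965 : W_31 (nat_lit 2) (nat_lit 0x2003f0006800700000001000080000000000000000000000000000000) (nat_lit 0x0) (nat_lit 0xe000000000000000000000000000000000000000000000000000000000) := D_31 (nat_lit 230) (nat_lit 229) (nat_lit 231) (nat_lit 3) (nat_lit 5) (nat_lit 12) (nat_lit 3) (nat_lit 6) (nat_lit 12) (by decide +kernel)
theorem L82966 : W_31 (nat_lit 3) (nat_lit 0x2001f0006800700000001000080000000000000000000000000000000) (nat_lit 0x0) (nat_lit 0xe000600000000000000000000000000000000000000000000000000000) := T_31 (nat_lit 213) (nat_lit 214) (nat_lit 0) (nat_lit 10) (nat_lit 12) L82965 (by decide +kernel)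
theorem L82967 : W_31 (nat_lit 4) (nat_lit 0x2000f0006800700000001000080000000000000000000000000000000) (nat_lit 0x0) (nat_lit 0xe400700000000000000000000000000000000000000000000000000000) := T_31 (nat_lit 212) (nat_lit 226) (nat_lit 1) (nat_lit 8) (nat_lit 12) L82966 (by decide +kernel)
theorem L82968 : W_31 (nat_lit 5) (nat_lit 0x2000f0006000700000001000080000000000000000000000000000000) (nat_lit 0x0) (nat_lit 0xe400700000c00000000000000000000000000000000000000000000000) := T_31 (nat_lit 191) (nat_lit 190) (nat_lit 0) (nat_lit 7) (nat_lit 12) L82967 (by decide +kernel)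
theorem L82969 : W_31 (nat_lit 6) (nat_lit 0xf0006000700000001000080000000000000000000000000000000) (nat_lit 0x0) (nat_lit 0xe700700000c00000000000000000000000000000000000000000000000) := T_31 (nat_lit 225) (nat_lit 224) (nat_lit 1) (nat_lit 7) (nat_lit 12) L82968 (by decide +kernel)
theorem L82970 : W_31 (nat_lit 7) (nat_lit 0xe0006000700000001000080000000000000000000000000000000) (nat_lit 0x0) (nat_lit 0xe700718000c00000000000000000000000000000000000000000000000) := T_31 (nat_lit 208) (nat_lit 207) (nat_lit 2) (nat_lit 3) (nat_lit 12) L82969 (by decide +kernel)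
theorem L82971 : W_31 (nat_lit 2) (nat_lit 0xd002c00068007c0002001000080000000000000000000000000000000) (nat_lit 0x0) (nat_lit 0x38000000000000000000000000000000000000000000000000000) := D_31 (nat_lit 208) (nat_lit 207) (nat_lit 209) (nat_lit 5) (nat_lit 4) (nat_lit 9) (nat_lit 7) (nat_lit 4) (nat_lit 9) (by decide +kernel)
theorem L82972 : W_31 (nat_lit 3) (nat_lit 0xd002c00068007c0000001000080000000000000000000000000000000) (nat_lit 0x0) (nat_lit 0x38000000000003000000000000000000000000000000000000000) := T_31 (nat_lit 157) (nat_lit 156) (nat_lit 0) (nat_lit 7) (nat_lit 10) L82971 (by decide +kernel)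
theorem L82973 : W_31 (nat_lit 4) (nat_lit 0xd002c00060007c0000001000080000000000000000000000000000000) (nat_lit 0x0) (nat_lit 0x38000c00000003000000000000000000000000000000000000000) := T_31 (nat_lit 191) (nat_lit 190) (nat_lit 1) (nat_lit 7) (nat_lit 10) L82972 (by decide +kernel)
theorem L82974 : W_31 (nat_lit 5) (nat_lit 0xd002c0006000780000001000080000000000000000000000000000000) (nat_lit 0x0) (nat_lit 0x38000c00060003000000000000000000000000000000000000000) := T_31 (nat_lit 174) (nat_lit 173) (nat_lit 3) (nat_lit 3) (nat_lit 10) L82973 (by decide +kernel)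
theorem L82975 : W_31 (nat_lit 6) (nat_lit 0xd002c0006000700000001000080000000000000000000000000000000) (nat_lit 0x0) (nat_lit 0x38000c000e0007000000000000000000000000000000000000000) := T_31 (nat_lit 175) (nat_lit 158) (nat_lit 4) (nat_lit 6) (nat_lit 13) L82974 (by decide +kernel)
theorem L82976 : W_31 (nat_lit 7) (nat_lit 0xd000c0006000700000001000080000000000000000000000000000000) (nat_lit 0x0) (nat_lit 0x338000c000e0007000000000000000000000000000000000000000) := T_31 (nat_lit 213) (nat_lit 212) (nat_lit 1) (nat_lit 9) (nat_lit 12) L82975 (by decide +kernel)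
theorem L82977 : W_31 (nat_lit 8) (nat_lit 0xc000c0006000700000001000080000000000000000000000000000000) (nat_lit 0x0) (nat_lit 0x300338000c000e0007000000000000000000000000000000000000000) := T_31 (nat_lit 224) (nat_lit 225) (nat_lit 2) (nat_lit 3) (nat_lit 13) L82976 (by decide +kernel)
theorem L82978 : W_31 (nat_lit 9) (nat_lit 0x8000c0006000700000001000080000000000000000000000000000000) (nat_lit 0x0) (nat_lit 0x8000700338000c000e0007000000000000000000000000000000000000000) := T_31 (nat_lit 226) (nat_lit 243) (nat_lit 5) (nat_lit 6) (nat_lit 10) L82977 (by decide +kernel)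
theorem L82979 : W_31 (nat_lit 10) (nat_lit 0x800080006000700000001000080000000000000000000000000000000) (nat_lit 0x0) (nat_lit 0x18000700378000c000e0007000000000000000000000000000000000000000) := T_31 (nat_lit 210) (nat_lit 244) (nat_lit 6) (nat_lit 6) (nat_lit 14) L82978 (by decide +kernel)
theorem L82980 : W_31 (nat_lit 2) (nat_lit 0x20000e000c0006000700000001000080000000000000000000000000000000) (nat_lit 0x0) (nat_lit 0x320000000000000000000000000000000000000000000000000000) := D_31 (nat_lit 212) (nat_lit 213) (nat_lit 209) (nat_lit 1) (nat_lit 9) (nat_lit 12) (nat_lit 1) (nat_lit 8) (nat_lit 12) (by decide +kernel)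
theorem L82981 : W_31 (nat_lit 3) (nat_lit 0x20000c000c0006000700000001000080000000000000000000000000000000) (nat_lit 0x0) (nat_lit 0x300320000000000000000000000000000000000000000000000000000) := T_31 (nat_lit 225) (nat_lit 224) (nat_lit 2) (nat_lit 3) (nat_lit 13) L82980 (by decide +kernel)
theorem L82982 : W_31 (nat_lit 4) (nat_lit 0x200008000c0006000700000001000080000000000000000000000000000000) (nat_lit 0x0) (nat_lit 0x8000700320000000000000000000000000000000000000000000000000000) := T_31 (nat_lit 226) (nat_lit 243) (nat_lit 5) (nat_lit 6) (nat_lit 10) L82981 (by decide +kernel)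
theorem L82983 : W_31 (nat_lit 5) (nat_lit 0x8000c0006000700000001000080000000000000000000000000000000) (nat_lit 0x0) (nat_lit 0x28001700320000000000000000000000000000000000000000000000000000) := T_31 (nat_lit 245) (nat_lit 228) (nat_lit 7) (nat_lit 6) (nat_lit 10) L82982 (by decide +kernel)
theorem L82984 : W_31 (nat_lit 2) (nat_lit 0x3d000c0006000700000001000080000000000000000000000000000000) (nat_lit 0x0) (nat_lit 0x4000030000000000000000000000000000000000000000000000000000) := D_31 (nat_lit 209) (nat_lit 208) (nat_lit 230) (nat_lit 3) (nat_lit 4) (nat_lit 12) (nat_lit 0) (nat_lit 9) (nat_lit 13) (by decide +kernel)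
theorem L82985 : W_31 (nat_lit 3) (nat_lit 0x1d000c0006000700000001000080000000000000000000000000000000) (nat_lit 0x0) (nat_lit 0x40006000030000000000000000000000000000000000000000000000000000) := T_31 (nat_lit 229) (nat_lit 246) (nat_lit 7) (nat_lit 7) (nat_lit 10) L82984 (by decide +kernel)
theorem L82986 : W_31 (nat_lit 4) (nat_lit 0xd000c0006000700000001000080000000000000000000000000000000) (nat_lit 0x0) (nat_lit 0x60007000030000000000000000000000000000000000000000000000000000) := T_31 (nat_lit 228) (nat_lit 245) (nat_lit 7) (nat_lit 6) (nat_lit 10) L82985 (by decide +kernel)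
theorem L82987 : W_31 (nat_lit 5) (nat_lit 0xc000c0006000700000001000080000000000000000000000000000000) (nat_lit 0x0) (nat_lit 0x60007300030000000000000000000000000000000000000000000000000000) := T_31 (nat_lit 224) (nat_lit 225) (nat_lit 2) (nat_lit 3) (nat_lit 13) L82986 (by decide +kernel)
theorem L82988 : W_31 (nat_lit 6) (nat_lit 0x8000c0006000700000001000080000000000000000000000000000000) (nat_lit 0x0) (nat_lit 0x68007700030000000000000000000000000000000000000000000000000000) := T_31 (nat_lit 226) (nat_lit 243) (nat_lit 5) (nat_lit 6) (nat_lit 10) L82987 (by decide +kernel)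
theorem L82989 : W_31 (nat_lit 2) (nat_lit 0x3d002c00060007a0000001000080000000000000000000000000000000) (nat_lit 0x0) (nat_lit 0xc000400000000000000000000000000000000000000000000000000000) := D_31 (nat_lit 230) (nat_lit 214) (nat_lit 231) (nat_lit 2) (nat_lit 6) (nat_lit 13) (nat_lit 0) (nat_lit 10) (nat_lit 13) (by decide +kernel)
theorem L82990 : W_31 (nat_lit 3) (nat_lit 0x1d002c00060007a0000001000080000000000000000000000000000000) (nat_lit 0x0) (nat_lit 0x4000e000400000000000000000000000000000000000000000000000000000) := T_31 (nat_lit 229) (nat_lit 246) (nat_lit 7) (nat_lit 7) (nat_lit 10) L82989 (by decide +kernel)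
theorem L82991 : W_31 (nat_lit 4) (nat_lit 0xd002c00060007a0000001000080000000000000000000000000000000) (nat_lit 0x0) (nat_lit 0x6000f000400000000000000000000000000000000000000000000000000000) := T_31 (nat_lit 228) (nat_lit 245) (nat_lit 7) (nat_lit 6) (nat_lit 10) L82990 (by decide +kernel)
theorem L82992 : W_31 (nat_lit 5) (nat_lit 0xd000c00060007a0000001000080000000000000000000000000000000) (nat_lit 0x0) (nat_lit 0x6000f000700000000000000000000000000000000000000000000000000000) := T_31 (nat_lit 213) (nat_lit 212) (nat_lit 1) (nat_lit 9) (nat_lit 12) L82991 (by decide +kernel)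
theorem L82993 : W_31 (nat_lit 6) (nat_lit 0xc000c00060007a0000001000080000000000000000000000000000000) (nat_lit 0x0) (nat_lit 0x6000f300700000000000000000000000000000000000000000000000000000) := T_31 (nat_lit 224) (nat_lit 225) (nat_lit 2) (nat_lit 3) (nat_lit 13) L82992 (by decide +kernel)
theorem L82994 : W_31 (nat_lit 7) (nat_lit 0x8000c00060007a0000001000080000000000000000000000000000000) (nat_lit 0x0) (nat_lit 0x6800f700700000000000000000000000000000000000000000000000000000) := T_31 (nat_lit 226) (nat_lit 243) (nat_lit 5) (nat_lit 6) (nat_lit 10) L82993 (by decide +kernel)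
theorem L82995 : W_31 (nat_lit 8) (nat_lit 0x8000c0006000780000001000080000000000000000000000000000000) (nat_lit 0x0) (nat_lit 0x6800f700700000000060000000000000000000000000000000000000000000) := T_31 (nat_lit 173) (nat_lit 174) (nat_lit 3) (nat_lit 3) (nat_lit 10) L82994 (by decide +kernel)
theorem L82996 : W_31 (nat_lit 9) (nat_lit 0x8000c0006000700000001000080000000000000000000000000000000) (nat_lit 0x0) (nat_lit 0x6800f7007000000000e0004000000000000000000000000000000000000000) := T_31 (nat_lit 175) (nat_lit 158) (nat_lit 4) (nat_lit 6) (nat_lit 13) L82995 (by decide +kernel)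
theorem L82998 : W_31 (nat_lit 3) (nat_lit 0x18000c0006000700000001000080000000000000000000000000000000) (nat_lit 0x0) (nat_lit 0x40006000030000000000000000000000000000000000000000000000000000) := T_31 (nat_lit 229) (nat_lit 246) (nat_lit 7) (nat_lit 7) (nat_lit 10) L82997 (by decide +kernel)
theorem L82999 : W_31 (nat_lit 4) (nat_lit 0x8000c0006000700000001000080000000000000000000000000000000) (nat_lit 0x0) (nat_lit 0x60007000030000000000000000000000000000000000000000000000000000) := T_31 (nat_lit 228) (nat_lit 245) (nat_lit 7) (nat_lit 6) (nat_lit 10) L82998 (by decide +kernel)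
theorem L83000 : W_31 (nat_lit 10) (nat_lit 0x800080006000700000001000080000000000000000000000000000000) (nat_lit 0x0) (nat_lit 0x6800f700778000c000e0007000000000000000000000000000000000000000) := Q_31 (nat_lit 210) (C_31 L82983 (C_31 L82978 (C_31 L82988 (C_31 L82996 (C_31 L82999 N_31))))) (by decide +kernel)
theorem L83001 : W_31 (nat_lit 11) (nat_lit 0x80006000700000001000080000000000000000000000000000000) (nat_lit 0x0) (nat_lit 0x7800ff00778000c000e0007000000000000000000000000000000000000000) := Q_31 (nat_lit 227) (C_31 L82964 (C_31 L82979 (C_31 L83000 N_31))) (by decide +kernel)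
theorem L83002 : W_31 (nat_lit 10) (nat_lit 0xc0006000700000001000080000000000000000000000000000000) (nat_lit 0x0) (nat_lit 0x18000f00338000c000e0007000000000000000000000000000000000000000) := T_31 (nat_lit 227) (nat_lit 244) (nat_lit 6) (nat_lit 6) (nat_lit 14) L82978 (by decide +kernel)
theorem L83003 : W_31 (nat_lit 2) (nat_lit 0xd000c00068017c0002001000080000000000000000000000000000000) (nat_lit 0x0) (nat_lit 0x38000000000000000000000000000000000000000000000000000) := D_31 (nat_lit 208) (nat_lit 207) (nat_lit 209) (nat_lit 5) (nat_lit 4) (nat_lit 9) (nat_lit 7) (nat_lit 4) (nat_lit 9) (by decide +kernel)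
theorem L83004 : W_31 (nat_lit 3) (nat_lit 0xd000c00060017c0002001000080000000000000000000000000000000) (nat_lit 0x0) (nat_lit 0x38000c00000000000000000000000000000000000000000000000) := T_31 (nat_lit 191) (nat_lit 190) (nat_lit 1) (nat_lit 7) (nat_lit 10) L83003 (by decide +kernel)
theorem L83005 : W_31 (nat_lit 4) (nat_lit 0xd000c00060017c0000001000080000000000000000000000000000000) (nat_lit 0x0) (nat_lit 0x38000c00000003000000000000000000000000000000000000000) := T_31 (nat_lit 157) (nat_lit 156) (nat_lit 0) (nat_lit 7) (nat_lit 10) L83004 (by decide +kernel)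
theorem L83006 : W_31 (nat_lit 5) (nat_lit 0xc000c00060017c0000001000080000000000000000000000000000000) (nat_lit 0x0) (nat_lit 0x300038000c00000003000000000000000000000000000000000000000) := T_31 (nat_lit 224) (nat_lit 225) (nat_lit 2) (nat_lit 3) (nat_lit 13) L83005 (by decide +kernel)
theorem L83007 : W_31 (nat_lit 6) (nat_lit 0x8000c00060017c0000001000080000000000000000000000000000000) (nat_lit 0x0) (nat_lit 0x8000700038000c00000003000000000000000000000000000000000000000) := T_31 (nat_lit 226) (nat_lit 243) (nat_lit 5) (nat_lit 6) (nat_lit 10) L83006 (by decide +kernel)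
theorem L83008 : W_31 (nat_lit 7) (nat_lit 0x8000c0006001780000001000080000000000000000000000000000000) (nat_lit 0x0) (nat_lit 0x8000700038000c00060003000000000000000000000000000000000000000) := T_31 (nat_lit 174) (nat_lit 173) (nat_lit 3) (nat_lit 3) (nat_lit 10) L83007 (by decide +kernel)
theorem L83009 : W_31 (nat_lit 8) (nat_lit 0x8000c0006001700000001000080000000000000000000000000000000) (nat_lit 0x0) (nat_lit 0x8000700038000c000e0007000000000000000000000000000000000000000) := T_31 (nat_lit 175) (nat_lit 158) (nat_lit 4) (nat_lit 6) (nat_lit 13) L83008 (by decide +kernel)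
theorem L83010 : W_31 (nat_lit 9) (nat_lit 0x8000c0006000700000001000080000000000000000000000000000000) (nat_lit 0x0) (nat_lit 0x8000700038000c018e0007000000000000000000000000000000000000000) := T_31 (nat_lit 180) (nat_lit 179) (nat_lit 1) (nat_lit 10) (nat_lit 10) L83009 (by decide +kernel)
theorem L83011 : W_31 (nat_lit 10) (nat_lit 0xc0006000700000001000080000000000000000000000000000000) (nat_lit 0x0) (nat_lit 0x18000f00038000c018e0007000000000000000000000000000000000000000) := T_31 (nat_lit 227) (nat_lit 244) (nat_lit 6) (nat_lit 6) (nat_lit 14) L83010 (by decide +kernel)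
theorem L83012 : W_31 (nat_lit 10) (nat_lit 0xc0006000700000001000080000000000000000000000000000000) (nat_lit 0x0) (nat_lit 0x8001f800ec007000300018000c0000000000000000000000000000000000000000) := Q_31 (nat_lit 213) (C_31 L78933 (C_31 L78946 (C_31 L78935 (C_31 L78938 N_31)))) (by decide +kernel)
theorem L83013 : W_31 (nat_lit 2) (nat_lit 0x6800340000001000080000000000000000000000000000000) (nat_lit 0x0) (nat_lit 0x4000a0000000000000000000000000000000000000000000) := D_31 (nat_lit 175) (nat_lit 190) (nat_lit 173) (nat_lit 1) (nat_lit 7) (nat_lit 10) (nat_lit 3) (nat_lit 3) (nat_lit 10) (by decide +kernel)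
theorem L83014 : W_31 (nat_lit 2) (nat_lit 0x30006800340003001000080000000000000000000000000000000) (nat_lit 0x0) (nat_lit 0x100048000000000000000000000000000000000000000000000000000) := D_31 (nat_lit 207) (nat_lit 210) (nat_lit 224) (nat_lit 2) (nat_lit 3) (nat_lit 12) (nat_lit 5) (nat_lit 4) (nat_lit 9) (by decide +kernel)
theorem L83015 : W_31 (nat_lit 3) (nat_lit 0x10006800340003001000080000000000000000000000000000000) (nat_lit 0x0) (nat_lit 0x500068000000000000000000000000000000000000000000000000000) := T_31 (nat_lit 209) (nat_lit 226) (nat_lit 7) (nat_lit 4) (nat_lit 9) L83014 (by decide +kernel)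
theorem L83016 : W_31 (nat_lit 4) (nat_lit 0x10006800340002001000080000000000000000000000000000000) (nat_lit 0x0) (nat_lit 0x500068000000000001000080000000000000000000000000000000000) := T_31 (nat_lit 156) (nat_lit 139) (nat_lit 4) (nat_lit 4) (nat_lit 12) L83015 (by decide +kernel)
theorem L83017 : W_31 (nat_lit 2) (nat_lit 0x200030006800340003001000080000000000000000000000000000000) (nat_lit 0x0) (nat_lit 0x2000100008000000000000000000000000000000000000000000000000000) := D_31 (nat_lit 224) (nat_lit 207) (nat_lit 241) (nat_lit 5) (nat_lit 4) (nat_lit 9) (nat_lit 5) (nat_lit 4) (nat_lit 10) (by decide +kernel)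
theorem L83018 : W_31 (nat_lit 3) (nat_lit 0x30006800340003001000080000000000000000000000000000000) (nat_lit 0x0) (nat_lit 0x2000300008000000020000000000000000000000000000000000000000000) := T_31 (nat_lit 225) (nat_lit 173) (nat_lit 4) (nat_lit 4) (nat_lit 13) L83017 (by decide +kernel)
theorem L83019 : W_31 (nat_lit 4) (nat_lit 0x10006800340003001000080000000000000000000000000000000) (nat_lit 0x0) (nat_lit 0x2000700028000000020000000000000000000000000000000000000000000) := T_31 (nat_lit 209) (nat_lit 226) (nat_lit 7) (nat_lit 4) (nat_lit 9) L83018 (by decide +kernel)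
theorem L83020 : W_31 (nat_lit 5) (nat_lit 0x10006800340002001000080000000000000000000000000000000) (nat_lit 0x0) (nat_lit 0x2000700028000000020001000080000000000000000000000000000000000) := T_31 (nat_lit 156) (nat_lit 139) (nat_lit 4) (nat_lit 4) (nat_lit 12) L83019 (by decide +kernel)
theorem L83021 : W_31 (nat_lit 2) (nat_lit 0x4000200018006c00340007001000080000000000000000000000000000000) (nat_lit 0x0) (nat_lit 0x100008000400000000000000000000000000000000000000000000000000000000) := D_31 (nat_lit 243) (nat_lit 226) (nat_lit 260) (nat_lit 7) (nat_lit 4) (nat_lit 10) (nat_lit 7) (nat_lit 4) (nat_lit 11) (by decide +kernel)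
theorem L83022 : W_31 (nat_lit 3) (nat_lit 0x200018006c00340007001000080000000000000000000000000000000) (nat_lit 0x0) (nat_lit 0x18000c000400000000000000000000000000000000000000000000000000000000) := T_31 (nat_lit 242) (nat_lit 259) (nat_lit 4) (nat_lit 4) (nat_lit 15) L83021 (by decide +kernel)
theorem L83023 : W_31 (nat_lit 4) (nat_lit 0x18006c00340007001000080000000000000000000000000000000) (nat_lit 0x0) (nat_lit 0x18000c000600000000000020000000000000000000000000000000000000000000) := T_31 (nat_lit 225) (nat_lit 173) (nat_lit 7) (nat_lit 3) (nat_lit 9) L83022 (by decide +kernel)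
theorem L83024 : W_31 (nat_lit 5) (nat_lit 0x18006800340007001000080000000000000000000000000000000) (nat_lit 0x0) (nat_lit 0x18000c000600000000400020000000100000000000000000000000000000000000) := T_31 (nat_lit 190) (nat_lit 140) (nat_lit 5) (nat_lit 4) (nat_lit 8) L83023 (by decide +kernel)
theorem L83025 : W_31 (nat_lit 6) (nat_lit 0x10006800340007001000080000000000000000000000000000000) (nat_lit 0x0) (nat_lit 0x18000c000700008000400020000000100000000000000000000000000000000000) := T_31 (nat_lit 207) (nat_lit 224) (nat_lit 5) (nat_lit 4) (nat_lit 9) L83024 (by decide +kernel)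
theorem L83026 : W_31 (nat_lit 7) (nat_lit 0x10006800340006001000080000000000000000000000000000000) (nat_lit 0x0) (nat_lit 0x18000c000700008000400020001000180000000000000000000000000000000000) := T_31 (nat_lit 156) (nat_lit 139) (nat_lit 4) (nat_lit 4) (nat_lit 12) L83025 (by decide +kernel)
theorem L83027 : W_31 (nat_lit 8) (nat_lit 0x10006800340002001000080000000000000000000000000000000) (nat_lit 0x0) (nat_lit 0x18000c000700008000400020005000380000000000000000000000000000000000) := T_31 (nat_lit 158) (nat_lit 141) (nat_lit 6) (nat_lit 4) (nat_lit 12) L83026 (by decide +kernel)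
theorem L83028 : W_31 (nat_lit 2) (nat_lit 0x200010006800340007001000080000000000000000000000000000000) (nat_lit 0x0) (nat_lit 0x2000100008000000000000000000000000000000000000000000000000000) := D_31 (nat_lit 224) (nat_lit 207) (nat_lit 241) (nat_lit 5) (nat_lit 4) (nat_lit 9) (nat_lit 5) (nat_lit 4) (nat_lit 10) (by decide +kernel)
theorem L83029 : W_31 (nat_lit 3) (nat_lit 0x10006800340007001000080000000000000000000000000000000) (nat_lit 0x0) (nat_lit 0x2000300008000000020000000000000000000000000000000000000000000) := T_31 (nat_lit 225) (nat_lit 173) (nat_lit 4) (nat_lit 4) (nat_lit 13) L83028 (by decide +kernel)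
theorem L83030 : W_31 (nat_lit 4) (nat_lit 0x10006800340003001000080000000000000000000000000000000) (nat_lit 0x0) (nat_lit 0x2000300008000000020004000200000000000000000000000000000000000) := T_31 (nat_lit 158) (nat_lit 141) (nat_lit 6) (nat_lit 4) (nat_lit 12) L83029 (by decide +kernel)
theorem L83031 : W_31 (nat_lit 5) (nat_lit 0x10006800340002001000080000000000000000000000000000000) (nat_lit 0x0) (nat_lit 0x2000300008000000020005000280000000000000000000000000000000000) := T_31 (nat_lit 156) (nat_lit 139) (nat_lit 4) (nat_lit 4) (nat_lit 12) L83030 (by decide +kernel)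
theorem L83032 : W_31 (nat_lit 2) (nat_lit 0x18006800340002001000080000000000000000000000000000000) (nat_lit 0x0) (nat_lit 0x400060000000000000000000000000000000000000000000000000000) := D_31 (nat_lit 209) (nat_lit 226) (nat_lit 210) (nat_lit 7) (nat_lit 4) (nat_lit 9) (nat_lit 2) (nat_lit 3) (nat_lit 12) (by decide +kernel)
theorem L83033 : W_31 (nat_lit 3) (nat_lit 0x10006800340002001000080000000000000000000000000000000) (nat_lit 0x0) (nat_lit 0x500068000000000000000000000000000000000000000000000000000) := T_31 (nat_lit 207) (nat_lit 224) (nat_lit 5) (nat_lit 4) (nat_lit 9) L83032 (by decide +kernel)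
theorem L83034 : W_31 (nat_lit 2) (nat_lit 0x400010006800340007001000080000000000000000000000000000000) (nat_lit 0x0) (nat_lit 0x8000200000000000020000000000000000000000000000000000000000000) := D_31 (nat_lit 225) (nat_lit 173) (nat_lit 243) (nat_lit 4) (nat_lit 4) (nat_lit 13) (nat_lit 7) (nat_lit 4) (nat_lit 10) (by decide +kernel)
theorem L83035 : W_31 (nat_lit 3) (nat_lit 0x10006800340007001000080000000000000000000000000000000) (nat_lit 0x0) (nat_lit 0x8000600020000000020000000000000000000000000000000000000000000) := T_31 (nat_lit 226) (nat_lit 209) (nat_lit 7) (nat_lit 4) (nat_lit 9) L83034 (by decide +kernel)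
theorem L83036 : W_31 (nat_lit 4) (nat_lit 0x10006800340006001000080000000000000000000000000000000) (nat_lit 0x0) (nat_lit 0x8000600020000000020001000080000000000000000000000000000000000) := T_31 (nat_lit 156) (nat_lit 139) (nat_lit 4) (nat_lit 4) (nat_lit 12) L83035 (by decide +kernel)
theorem L83037 : W_31 (nat_lit 5) (nat_lit 0x10006800340002001000080000000000000000000000000000000) (nat_lit 0x0) (nat_lit 0x8000600020000000020005000280000000000000000000000000000000000) := T_31 (nat_lit 158) (nat_lit 141) (nat_lit 6) (nat_lit 4) (nat_lit 12) L83036 (by decide +kernel)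
theorem L83038 : W_31 (nat_lit 9) (nat_lit 0x10006800340000001000080000000000000000000000000000000) (nat_lit 0x0) (nat_lit 0x18000e000700068000400020007000380000000000000000000000000000000000) := Q_31 (nat_lit 157) (C_31 L83016 (C_31 L83020 (C_31 L83027 (C_31 L83031 (C_31 L83033 (C_31 L83037 N_31)))))) (by decide +kernel)
theorem L83039 : W_31 (nat_lit 2) (nat_lit 0x600010006800360002001000080000000000000000000000000000000) (nat_lit 0x0) (nat_lit 0x2000100008000000000000000000000000000000000000000000000000000) := D_31 (nat_lit 224) (nat_lit 207) (nat_lit 241) (nat_lit 5) (nat_lit 4) (nat_lit 9) (nat_lit 5) (nat_lit 4) (nat_lit 10) (by decide +kernel)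
theorem L83040 : W_31 (nat_lit 3) (nat_lit 0x600010006800360000001000080000000000000000000000000000000) (nat_lit 0x0) (nat_lit 0x2000100028000000000002000000000000000000000000000000000000000) := T_31 (nat_lit 157) (nat_lit 209) (nat_lit 7) (nat_lit 4) (nat_lit 9) L83039 (by decide +kernel)
theorem L83041 : W_31 (nat_lit 4) (nat_lit 0x200010006800360000001000080000000000000000000000000000000) (nat_lit 0x0) (nat_lit 0xa000500028000000000002000000000000000000000000000000000000000) := T_31 (nat_lit 226) (nat_lit 243) (nat_lit 7) (nat_lit 4) (nat_lit 10) L83040 (by decide +kernel)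
theorem L83042 : W_31 (nat_lit 5) (nat_lit 0x200010006800340000001000080000000000000000000000000000000) (nat_lit 0x0) (nat_lit 0xa000500028000000020003000000000000000000000000000000000000000) := T_31 (nat_lit 173) (nat_lit 156) (nat_lit 4) (nat_lit 4) (nat_lit 13) L83041 (by decide +kernel)
theorem L83043 : W_31 (nat_lit 2) (nat_lit 0x4000600010006800360000001000080000000000000000000000000000000) (nat_lit 0x0) (nat_lit 0x40002000100000000000000000000000000000000000000000000000000000000) := D_31 (nat_lit 241) (nat_lit 224) (nat_lit 258) (nat_lit 5) (nat_lit 4) (nat_lit 10) (nat_lit 5) (nat_lit 4) (nat_lit 11) (by decide +kernel)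
theorem L83044 : W_31 (nat_lit 3) (nat_lit 0x600010006800360000001000080000000000000000000000000000000) (nat_lit 0x0) (nat_lit 0x40006000100000000400000000000000000000000000000000000000000000000) := T_31 (nat_lit 242) (nat_lit 190) (nat_lit 4) (nat_lit 4) (nat_lit 14) L83043 (by decide +kernel)
theorem L83045 : W_31 (nat_lit 4) (nat_lit 0x200010006800360000001000080000000000000000000000000000000) (nat_lit 0x0) (nat_lit 0x4000e000500000000400000000000000000000000000000000000000000000000) := T_31 (nat_lit 226) (nat_lit 243) (nat_lit 7) (nat_lit 4) (nat_lit 10) L83044 (by decide +kernel)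
theorem L83046 : W_31 (nat_lit 5) (nat_lit 0x200010006800340000001000080000000000000000000000000000000) (nat_lit 0x0) (nat_lit 0x4000e000500000000400020001000000000000000000000000000000000000000) := T_31 (nat_lit 173) (nat_lit 156) (nat_lit 4) (nat_lit 4) (nat_lit 13) L83045 (by decide +kernel)
theorem L83047 : W_31 (nat_lit 2) (nat_lit 0x300010006800340002001000080000000000000000000000000000000) (nat_lit 0x0) (nat_lit 0x20001000080000000000000000000000000000000000) := D_31 (nat_lit 156) (nat_lit 139) (nat_lit 173) (nat_lit 4) (nat_lit 4) (nat_lit 12) (nat_lit 4) (nat_lit 4) (nat_lit 13) (by decide +kernel)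
theorem L83048 : W_31 (nat_lit 3) (nat_lit 0x300010006800340000001000080000000000000000000000000000000) (nat_lit 0x0) (nat_lit 0x8000000020003000080000000000000000000000000000000000) := T_31 (nat_lit 157) (nat_lit 207) (nat_lit 5) (nat_lit 4) (nat_lit 9) L83047 (by decide +kernel)
theorem L83049 : W_31 (nat_lit 4) (nat_lit 0x200010006800340000001000080000000000000000000000000000000) (nat_lit 0x0) (nat_lit 0x2000100008000000020003000080000000000000000000000000000000000) := T_31 (nat_lit 224) (nat_lit 241) (nat_lit 5) (nat_lit 4) (nat_lit 10) L83048 (by decide +kernel)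
theorem L83050 : W_31 (nat_lit 2) (nat_lit 0x600010006800340002001000080000000000000000000000000000000) (nat_lit 0x0) (nat_lit 0x2000100008000000000000000000000000000000000000000000000000000) := D_31 (nat_lit 224) (nat_lit 207) (nat_lit 241) (nat_lit 5) (nat_lit 4) (nat_lit 9) (nat_lit 5) (nat_lit 4) (nat_lit 10) (by decide +kernel)
theorem L83051 : W_31 (nat_lit 3) (nat_lit 0x600010006800340000001000080000000000000000000000000000000) (nat_lit 0x0) (nat_lit 0x2000100028000000000002000000000000000000000000000000000000000) := T_31 (nat_lit 157) (nat_lit 209) (nat_lit 7) (nat_lit 4) (nat_lit 9) L83050 (by decide +kernel)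
theorem L83052 : W_31 (nat_lit 4) (nat_lit 0x200010006800340000001000080000000000000000000000000000000) (nat_lit 0x0) (nat_lit 0xa000500028000000000002000000000000000000000000000000000000000) := T_31 (nat_lit 226) (nat_lit 243) (nat_lit 7) (nat_lit 4) (nat_lit 10) L83051 (by decide +kernel)
theorem L83053 : W_31 (nat_lit 2) (nat_lit 0x600010006c00360002001000080000000000000000000000000000000) (nat_lit 0x0) (nat_lit 0x8000000000000000100008000000000000000000000000000000) := D_31 (nat_lit 140) (nat_lit 123) (nat_lit 207) (nat_lit 5) (nat_lit 4) (nat_lit 7) (nat_lit 5) (nat_lit 4) (nat_lit 8) (by decide +kernel)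
theorem L83054 : W_31 (nat_lit 3) (nat_lit 0x600010006800360002001000080000000000000000000000000000000) (nat_lit 0x0) (nat_lit 0x4000000008000400000000000100008000000000000000000000000000000) := T_31 (nat_lit 190) (nat_lit 242) (nat_lit 4) (nat_lit 4) (nat_lit 14) L83053 (by decide +kernel)
theorem L83055 : W_31 (nat_lit 4) (nat_lit 0x600010006800360000001000080000000000000000000000000000000) (nat_lit 0x0) (nat_lit 0x4000000028000400000002000100008000000000000000000000000000000) := T_31 (nat_lit 157) (nat_lit 209) (nat_lit 7) (nat_lit 4) (nat_lit 9) L83054 (by decide +kernel)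
theorem L83056 : W_31 (nat_lit 5) (nat_lit 0x200010006800360000001000080000000000000000000000000000000) (nat_lit 0x0) (nat_lit 0xc000400028000400000002000100008000000000000000000000000000000) := T_31 (nat_lit 226) (nat_lit 243) (nat_lit 7) (nat_lit 4) (nat_lit 10) L83055 (by decide +kernel)
theorem L83057 : W_31 (nat_lit 6) (nat_lit 0x200010006800340000001000080000000000000000000000000000000) (nat_lit 0x0) (nat_lit 0xc000400028000400020003000100008000000000000000000000000000000) := T_31 (nat_lit 173) (nat_lit 156) (nat_lit 4) (nat_lit 4) (nat_lit 13) L83056 (by decide +kernel)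
theorem L83058 : W_31 (nat_lit 7) (nat_lit 0x10006800340000001000080000000000000000000000000000000) (nat_lit 0x0) (nat_lit 0x4000e000700028000400020003000180008000000000000000000000000000000) := Q_31 (nat_lit 225) (C_31 L83042 (C_31 L83046 (C_31 L83049 (C_31 L83052 (C_31 L83057 N_31))))) (by decide +kernel)
theorem L83059 : W_31 (nat_lit 2) (nat_lit 0x700010006800340002001280080000000000000000000000000000000) (nat_lit 0x0) (nat_lit 0x100014000000000000000000000000000000) := D_31 (nat_lit 140) (nat_lit 122) (nat_lit 124) (nat_lit 4) (nat_lit 4) (nat_lit 11) (nat_lit 6) (nat_lit 4) (nat_lit 11) (by decide +kernel)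
theorem L83060 : W_31 (nat_lit 3) (nat_lit 0x700010006800340002001080080000000000000000000000000000000) (nat_lit 0x0) (nat_lit 0x4000300014000000000000000000000000000000) := T_31 (nat_lit 141) (nat_lit 158) (nat_lit 6) (nat_lit 4) (nat_lit 12) L83059 (by decide +kernel)
theorem L83061 : W_31 (nat_lit 4) (nat_lit 0x700010006800340002001000080000000000000000000000000000000) (nat_lit 0x0) (nat_lit 0x5000380014000000000000000000000000000000) := T_31 (nat_lit 139) (nat_lit 156) (nat_lit 4) (nat_lit 4) (nat_lit 12) L83060 (by decide +kernel)
theorem L83062 : W_31 (nat_lit 5) (nat_lit 0x700010006800340000001000080000000000000000000000000000000) (nat_lit 0x0) (nat_lit 0x8000000000007000380014000000000000000000000000000000) := T_31 (nat_lit 157) (nat_lit 207) (nat_lit 5) (nat_lit 4) (nat_lit 9) L83061 (by decide +kernel)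
theorem L83063 : W_31 (nat_lit 6) (nat_lit 0x600010006800340000001000080000000000000000000000000000000) (nat_lit 0x0) (nat_lit 0x2000100008000000000007000380014000000000000000000000000000000) := T_31 (nat_lit 224) (nat_lit 241) (nat_lit 5) (nat_lit 4) (nat_lit 10) L83062 (by decide +kernel)
theorem L83064 : W_31 (nat_lit 7) (nat_lit 0x200010006800340000001000080000000000000000000000000000000) (nat_lit 0x0) (nat_lit 0xa000500008000000000007000380014000000000000000000000000000000) := T_31 (nat_lit 226) (nat_lit 243) (nat_lit 7) (nat_lit 4) (nat_lit 10) L83063 (by decide +kernel)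
theorem L83065 : W_31 (nat_lit 2) (nat_lit 0x700018006800340000001000080000000000000000000000000000000) (nat_lit 0x0) (nat_lit 0x800006000000000000000000000000000000000000000000000000000) := D_31 (nat_lit 206) (nat_lit 205) (nat_lit 227) (nat_lit 3) (nat_lit 1) (nat_lit 12) (nat_lit 0) (nat_lit 6) (nat_lit 13) (by decide +kernel)
theorem L83066 : W_31 (nat_lit 3) (nat_lit 0x300018006800340000001000080000000000000000000000000000000) (nat_lit 0x0) (nat_lit 0x8000c00006000000000000000000000000000000000000000000000000000) := T_31 (nat_lit 226) (nat_lit 243) (nat_lit 7) (nat_lit 4) (nat_lit 10) L83065 (by decide +kernel)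
theorem L83067 : W_31 (nat_lit 4) (nat_lit 0x300010006800340000001000080000000000000000000000000000000) (nat_lit 0x0) (nat_lit 0x8000c0000e000000000002000000000000000000000000000000000000000) := T_31 (nat_lit 207) (nat_lit 157) (nat_lit 5) (nat_lit 4) (nat_lit 9) L83066 (by decide +kernel)
theorem L83068 : W_31 (nat_lit 5) (nat_lit 0x200010006800340000001000080000000000000000000000000000000) (nat_lit 0x0) (nat_lit 0xa000d0000e000000000002000000000000000000000000000000000000000) := T_31 (nat_lit 224) (nat_lit 241) (nat_lit 5) (nat_lit 4) (nat_lit 10) L83067 (by decide +kernel)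
theorem L83069 : W_31 (nat_lit 2) (nat_lit 0x8000200010006800360000001000080000000000000000000000000000000) (nat_lit 0x0) (nat_lit 0x100004000000000000400000000000000000000000000000000000000000000000) := D_31 (nat_lit 242) (nat_lit 260) (nat_lit 190) (nat_lit 7) (nat_lit 4) (nat_lit 11) (nat_lit 4) (nat_lit 4) (nat_lit 14) (by decide +kernel)
theorem L83070 : W_31 (nat_lit 3) (nat_lit 0x8000200010006800340000001000080000000000000000000000000000000) (nat_lit 0x0) (nat_lit 0x100004000000000000400020001000000000000000000000000000000000000000) := T_31 (nat_lit 173) (nat_lit 156) (nat_lit 4) (nat_lit 4) (nat_lit 13) L83069 (by decide +kernel)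
theorem L83071 : W_31 (nat_lit 4) (nat_lit 0x200010006800340000001000080000000000000000000000000000000) (nat_lit 0x0) (nat_lit 0x10000c000400000000400020001000000000000000000000000000000000000000) := T_31 (nat_lit 243) (nat_lit 226) (nat_lit 7) (nat_lit 4) (nat_lit 10) L83070 (by decide +kernel)
theorem L83072 : W_31 (nat_lit 8) (nat_lit 0x10006800340000001000080000000000000000000000000000000) (nat_lit 0x0) (nat_lit 0x14000e000f0000e000400020007000380014000000000000000000000000000000) := Q_31 (nat_lit 225) (C_31 L83049 (C_31 L83046 (C_31 L83064 (C_31 L83068 (C_31 L83071 N_31))))) (by decide +kernel)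
theorem L83073 : W_31 (nat_lit 2) (nat_lit 0x2000200010006800360000001000080000000000000000000000000000000) (nat_lit 0x0) (nat_lit 0x40004000000000000400000000000000000000000000000000000000000000000) := D_31 (nat_lit 242) (nat_lit 258) (nat_lit 190) (nat_lit 5) (nat_lit 4) (nat_lit 11) (nat_lit 4) (nat_lit 4) (nat_lit 14) (by decide +kernel)
theorem L83074 : W_31 (nat_lit 3) (nat_lit 0x2000200010006800340000001000080000000000000000000000000000000) (nat_lit 0x0) (nat_lit 0x40004000000000000400020001000000000000000000000000000000000000000) := T_31 (nat_lit 173) (nat_lit 156) (nat_lit 4) (nat_lit 4) (nat_lit 13) L83073 (by decide +kernel)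
theorem L83075 : W_31 (nat_lit 4) (nat_lit 0x200010006800340000001000080000000000000000000000000000000) (nat_lit 0x0) (nat_lit 0x40006000100000000400020001000000000000000000000000000000000000000) := T_31 (nat_lit 241) (nat_lit 224) (nat_lit 5) (nat_lit 4) (nat_lit 10) L83074 (by decide +kernel)
theorem L83076 : W_31 (nat_lit 2) (nat_lit 0xc00058006800340000001000080000000000000000000000000000000) (nat_lit 0x0) (nat_lit 0x20001200000000000000000000000000000000000000000000000000000000) := D_31 (nat_lit 228) (nat_lit 225) (nat_lit 245) (nat_lit 0) (nat_lit 7) (nat_lit 13) (nat_lit 7) (nat_lit 6) (nat_lit 10) (by decide +kernel)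
theorem L83077 : W_31 (nat_lit 3) (nat_lit 0x800058006800340000001000080000000000000000000000000000000) (nat_lit 0x0) (nat_lit 0x28001600000000000000000000000000000000000000000000000000000000) := T_31 (nat_lit 226) (nat_lit 243) (nat_lit 5) (nat_lit 6) (nat_lit 10) L83076 (by decide +kernel)
theorem L83078 : W_31 (nat_lit 4) (nat_lit 0x58006800340000001000080000000000000000000000000000000) (nat_lit 0x0) (nat_lit 0x38001e00000000000000000000000000000000000000000000000000000000) := T_31 (nat_lit 227) (nat_lit 244) (nat_lit 6) (nat_lit 6) (nat_lit 14) L83077 (by decide +kernel)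
theorem L83079 : W_31 (nat_lit 5) (nat_lit 0x50006800340000001000080000000000000000000000000000000) (nat_lit 0x0) (nat_lit 0x38001e00028000000000000000000000000000000000000000000000000000) := T_31 (nat_lit 207) (nat_lit 209) (nat_lit 2) (nat_lit 3) (nat_lit 12) L83078 (by decide +kernel)
theorem L83080 : W_31 (nat_lit 2) (nat_lit 0x100002000f0006800340000001000080000000000000000000000000000000) (nat_lit 0x0) (nat_lit 0x8000400100000000000000000000000000000000000000000000000000000) := D_31 (nat_lit 226) (nat_lit 212) (nat_lit 243) (nat_lit 1) (nat_lit 8) (nat_lit 12) (nat_lit 7) (nat_lit 4) (nat_lit 10) (by decide +kernel)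
theorem L83081 : W_31 (nat_lit 3) (nat_lit 0x100000000f0006800340000001000080000000000000000000000000000000) (nat_lit 0x0) (nat_lit 0x8000700100000000000000000000000000000000000000000000000000000) := T_31 (nat_lit 225) (nat_lit 224) (nat_lit 1) (nat_lit 7) (nat_lit 12) L83080 (by decide +kernel)
theorem L83082 : W_31 (nat_lit 4) (nat_lit 0x10000000070006800340000001000080000000000000000000000000000000) (nat_lit 0x0) (nat_lit 0x8000700180000400000000000000000000000000000000000000000000000) := T_31 (nat_lit 211) (nat_lit 190) (nat_lit 0) (nat_lit 7) (nat_lit 12) L83081 (by decide +kernel)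
theorem L83083 : W_31 (nat_lit 5) (nat_lit 0x10000000050006800340000001000080000000000000000000000000000000) (nat_lit 0x0) (nat_lit 0x80007001a8000400000000000000000000000000000000000000000000000) := T_31 (nat_lit 209) (nat_lit 207) (nat_lit 2) (nat_lit 3) (nat_lit 12) L83082 (by decide +kernel)
theorem L83084 : W_31 (nat_lit 6) (nat_lit 0x50006800340000001000080000000000000000000000000000000) (nat_lit 0x0) (nat_lit 0x18000f001a8000400000000000000000000000000000000000000000000000) := T_31 (nat_lit 244) (nat_lit 227) (nat_lit 6) (nat_lit 6) (nat_lit 14) L83083 (by decide +kernel)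
theorem L83085 : W_31 (nat_lit 2) (nat_lit 0x1e00050006800340000001000080000000000000000000000000000000) (nat_lit 0x0) (nat_lit 0x6000100000000000000000000000000000000000000000000000000000000) := D_31 (nat_lit 241) (nat_lit 242) (nat_lit 224) (nat_lit 1) (nat_lit 7) (nat_lit 13) (nat_lit 5) (nat_lit 4) (nat_lit 10) (by decide +kernel)
theorem L83086 : W_31 (nat_lit 3) (nat_lit 0x1c00050006800340000001000080000000000000000000000000000000) (nat_lit 0x0) (nat_lit 0x6000300008000000000000000000000000000000000000000000000000000) := T_31 (nat_lit 225) (nat_lit 207) (nat_lit 0) (nat_lit 7) (nat_lit 13) L83085 (by decide +kernel)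
theorem L83087 : W_31 (nat_lit 4) (nat_lit 0xc00050006800340000001000080000000000000000000000000000000) (nat_lit 0x0) (nat_lit 0x26001300008000000000000000000000000000000000000000000000000000) := T_31 (nat_lit 228) (nat_lit 245) (nat_lit 7) (nat_lit 6) (nat_lit 10) L83086 (by decide +kernel)
theorem L83088 : W_31 (nat_lit 5) (nat_lit 0x800050006800340000001000080000000000000000000000000000000) (nat_lit 0x0) (nat_lit 0x2e001700008000000000000000000000000000000000000000000000000000) := T_31 (nat_lit 226) (nat_lit 243) (nat_lit 5) (nat_lit 6) (nat_lit 10) L83087 (by decide +kernel)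
theorem L83089 : W_31 (nat_lit 6) (nat_lit 0x50006800340000001000080000000000000000000000000000000) (nat_lit 0x0) (nat_lit 0x3e001f00008000000000000000000000000000000000000000000000000000) := T_31 (nat_lit 227) (nat_lit 244) (nat_lit 6) (nat_lit 6) (nat_lit 14) L83088 (by decide +kernel)
theorem L83090 : W_31 (nat_lit 4) (nat_lit 0x50006800340000001000080000000000000000000000000000000) (nat_lit 0x0) (nat_lit 0x200030000a8000400000000000000000000000000000000000000000000000) := T_31 (nat_lit 209) (nat_lit 207) (nat_lit 2) (nat_lit 3) (nat_lit 12) L80268 (by decide +kernel)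
theorem L83091 : W_31 (nat_lit 2) (nat_lit 0x3c00050006800340000001000080000000000000000000000000000000) (nat_lit 0x0) (nat_lit 0xc0000000080000000000000000000000000000000000000000000000000000) := D_31 (nat_lit 246) (nat_lit 211) (nat_lit 247) (nat_lit 7) (nat_lit 7) (nat_lit 10) (nat_lit 3) (nat_lit 5) (nat_lit 13) (by decide +kernel)
theorem L83092 : W_31 (nat_lit 3) (nat_lit 0x1c00050006800340000001000080000000000000000000000000000000) (nat_lit 0x0) (nat_lit 0xc00020000a0000000000000000000000000000000000000000000000000000) := T_31 (nat_lit 229) (nat_lit 209) (nat_lit 0) (nat_lit 8) (nat_lit 13) L83091 (by decide +kernel)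
theorem L83093 : W_31 (nat_lit 4) (nat_lit 0xc00050006800340000001000080000000000000000000000000000000) (nat_lit 0x0) (nat_lit 0xe00030000a0000000000000000000000000000000000000000000000000000) := T_31 (nat_lit 228) (nat_lit 245) (nat_lit 7) (nat_lit 6) (nat_lit 10) L83092 (by decide +kernel)
theorem L83094 : W_31 (nat_lit 5) (nat_lit 0x800050006800340000001000080000000000000000000000000000000) (nat_lit 0x0) (nat_lit 0xe80034000a0000000000000000000000000000000000000000000000000000) := T_31 (nat_lit 226) (nat_lit 243) (nat_lit 5) (nat_lit 6) (nat_lit 10) L83093 (by decide +kernel)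
theorem L83095 : W_31 (nat_lit 6) (nat_lit 0x50006800340000001000080000000000000000000000000000000) (nat_lit 0x0) (nat_lit 0xf8003c000a0000000000000000000000000000000000000000000000000000) := T_31 (nat_lit 227) (nat_lit 244) (nat_lit 6) (nat_lit 6) (nat_lit 14) L83094 (by decide +kernel)
theorem L83096 : W_31 (nat_lit 7) (nat_lit 0x10006800340000001000080000000000000000000000000000000) (nat_lit 0x0) (nat_lit 0xfe003f001e8000400000000000000000000000000000000000000000000000) := Q_31 (nat_lit 210) (C_31 L83079 (C_31 L83084 (C_31 L83089 (C_31 L83090 (C_31 L83095 N_31))))) (by decide +kernel)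
theorem L83097 : W_31 (nat_lit 2) (nat_lit 0x38006800360003001100090000000000000000000000000000000) (nat_lit 0x0) (nat_lit 0x8000c00000000000000000000000000) := D_31 (nat_lit 123) (nat_lit 107) (nat_lit 106) (nat_lit 6) (nat_lit 4) (nat_lit 10) (nat_lit 5) (nat_lit 4) (nat_lit 6) (by decide +kernel)
theorem L83098 : W_31 (nat_lit 3) (nat_lit 0x38006800340003001100090000000000000000000000000000000) (nat_lit 0x0) (nat_lit 0x200000000000020000000000008000c00000000000000000000000000) := T_31 (nat_lit 173) (nat_lit 225) (nat_lit 4) (nat_lit 4) (nat_lit 13) L83097 (by decide +kernel)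
theorem L83099 : W_31 (nat_lit 4) (nat_lit 0x38006800340003001100080000000000000000000000000000000) (nat_lit 0x0) (nat_lit 0x200000000000020000000200018000c00000000000000000000000000) := T_31 (nat_lit 124) (nat_lit 141) (nat_lit 6) (nat_lit 4) (nat_lit 11) L83098 (by decide +kernel)
theorem L83100 : W_31 (nat_lit 5) (nat_lit 0x18006800340003001100080000000000000000000000000000000) (nat_lit 0x0) (nat_lit 0x200060000000020000000200018000c00000000000000000000000000) := T_31 (nat_lit 209) (nat_lit 210) (nat_lit 2) (nat_lit 3) (nat_lit 12) L83099 (by decide +kernel)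
theorem L83101 : W_31 (nat_lit 6) (nat_lit 0x18006800340003001000080000000000000000000000000000000) (nat_lit 0x0) (nat_lit 0x200060000400020000000300018000c00000000000000000000000000) := T_31 (nat_lit 140) (nat_lit 190) (nat_lit 5) (nat_lit 4) (nat_lit 8) L83100 (by decide +kernel)
theorem L83102 : W_31 (nat_lit 7) (nat_lit 0x10006800340003001000080000000000000000000000000000000) (nat_lit 0x0) (nat_lit 0x300068000400020000000300018000c00000000000000000000000000) := T_31 (nat_lit 207) (nat_lit 224) (nat_lit 5) (nat_lit 4) (nat_lit 9) L83101 (by decide +kernel)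
theorem L83103 : W_31 (nat_lit 8) (nat_lit 0x10006800340002001000080000000000000000000000000000000) (nat_lit 0x0) (nat_lit 0x300068000400020001000380018000c00000000000000000000000000) := T_31 (nat_lit 156) (nat_lit 139) (nat_lit 4) (nat_lit 4) (nat_lit 12) L83102 (by decide +kernel)
theorem L83104 : W_31 (nat_lit 2) (nat_lit 0x3e006c00360003a01000080000000000000000000000000000000) (nat_lit 0x0) (nat_lit 0x380000000000000000000000000000000000000000000000) := D_31 (nat_lit 188) (nat_lit 189) (nat_lit 187) (nat_lit 3) (nat_lit 1) (nat_lit 11) (nat_lit 0) (nat_lit 4) (nat_lit 12) (by decide +kernel)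
theorem L83105 : W_31 (nat_lit 3) (nat_lit 0x1e006c00360003a01000080000000000000000000000000000000) (nat_lit 0x0) (nat_lit 0x60000380000000000000000000000000000000000000000000000) := T_31 (nat_lit 209) (nat_lit 210) (nat_lit 2) (nat_lit 3) (nat_lit 12) L83104 (by decide +kernel)
theorem L83106 : W_31 (nat_lit 4) (nat_lit 0x1c006c00360003a01000080000000000000000000000000000000) (nat_lit 0x0) (nat_lit 0x63000380000000000000000000000000000000000000000000000) := T_31 (nat_lit 205) (nat_lit 204) (nat_lit 2) (nat_lit 0) (nat_lit 12) L83105 (by decide +kernel)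
theorem L83107 : W_31 (nat_lit 5) (nat_lit 0x18006c00360003a01000080000000000000000000000000000000) (nat_lit 0x0) (nat_lit 0x80067000380000000000000000000000000000000000000000000000) := T_31 (nat_lit 206) (nat_lit 223) (nat_lit 5) (nat_lit 3) (nat_lit 9) L83106 (by decide +kernel)
theorem L83108 : W_31 (nat_lit 6) (nat_lit 0x18006c00360003801000080000000000000000000000000000000) (nat_lit 0x0) (nat_lit 0x80067000380000000600000000000000000000000000000000000000) := T_31 (nat_lit 153) (nat_lit 154) (nat_lit 3) (nat_lit 0) (nat_lit 9) L83107 (by decide +kernel)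
theorem L83109 : W_31 (nat_lit 7) (nat_lit 0x18006c00360003001000080000000000000000000000000000000) (nat_lit 0x0) (nat_lit 0x80067000380000000e00040000000000000000000000000000000000) := T_31 (nat_lit 155) (nat_lit 138) (nat_lit 4) (nat_lit 3) (nat_lit 12) L83108 (by decide +kernel)
theorem L83110 : W_31 (nat_lit 8) (nat_lit 0x18006c00340003001000080000000000000000000000000000000) (nat_lit 0x0) (nat_lit 0x280067000380020000e00040000000000000000000000000000000000) := T_31 (nat_lit 173) (nat_lit 225) (nat_lit 7) (nat_lit 3) (nat_lit 9) L83109 (by decide +kernel)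
theorem L83111 : W_31 (nat_lit 9) (nat_lit 0x18006800340003001000080000000000000000000000000000000) (nat_lit 0x0) (nat_lit 0x280067000780020000e00140000000000000000000000000000000000) := T_31 (nat_lit 190) (nat_lit 140) (nat_lit 5) (nat_lit 4) (nat_lit 8) L83110 (by decide +kernel)
theorem L83112 : W_31 (nat_lit 10) (nat_lit 0x10006800340003001000080000000000000000000000000000000) (nat_lit 0x0) (nat_lit 0x38006f000780020000e00140000000000000000000000000000000000) := T_31 (nat_lit 207) (nat_lit 224) (nat_lit 5) (nat_lit 4) (nat_lit 9) L83111 (by decide +kernel)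
theorem L83113 : W_31 (nat_lit 11) (nat_lit 0x10006800340002001000080000000000000000000000000000000) (nat_lit 0x0) (nat_lit 0x38006f000780020001e001c0000000000000000000000000000000000) := T_31 (nat_lit 156) (nat_lit 139) (nat_lit 4) (nat_lit 4) (nat_lit 12) L83112 (by decide +kernel)
theorem L83114 : W_31 (nat_lit 2) (nat_lit 0x18006800340003001200080000000000000000000000000000000) (nat_lit 0x0) (nat_lit 0x400000000000100010000000000000000000000000000000) := D_31 (nat_lit 140) (nat_lit 190) (nat_lit 124) (nat_lit 5) (nat_lit 4) (nat_lit 8) (nat_lit 6) (nat_lit 4) (nat_lit 11) (by decide +kernel)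
theorem L83115 : W_31 (nat_lit 3) (nat_lit 0x10006800340003001200080000000000000000000000000000000) (nat_lit 0x0) (nat_lit 0x100008000400000000000100010000000000000000000000000000000) := T_31 (nat_lit 207) (nat_lit 224) (nat_lit 5) (nat_lit 4) (nat_lit 9) L83114 (by decide +kernel)
theorem L83116 : W_31 (nat_lit 4) (nat_lit 0x10006800340003001000080000000000000000000000000000000) (nat_lit 0x0) (nat_lit 0x100008000400000004000300010000000000000000000000000000000) := T_31 (nat_lit 141) (nat_lit 158) (nat_lit 6) (nat_lit 4) (nat_lit 12) L83115 (by decide +kernel)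
theorem L83117 : W_31 (nat_lit 5) (nat_lit 0x10006800340002001000080000000000000000000000000000000) (nat_lit 0x0) (nat_lit 0x100008000400000005000380010000000000000000000000000000000) := T_31 (nat_lit 156) (nat_lit 139) (nat_lit 4) (nat_lit 4) (nat_lit 12) L83116 (by decide +kernel)
theorem L83118 : W_31 (nat_lit 2) (nat_lit 0x18006800340002001100080000000000000000000000000000000) (nat_lit 0x0) (nat_lit 0x4000200010000000000000000000000000000000) := D_31 (nat_lit 141) (nat_lit 158) (nat_lit 124) (nat_lit 6) (nat_lit 4) (nat_lit 12) (nat_lit 6) (nat_lit 4) (nat_lit 11) (by decide +kernel)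
theorem L83119 : W_31 (nat_lit 3) (nat_lit 0x18006800340002001000080000000000000000000000000000000) (nat_lit 0x0) (nat_lit 0x400000004000300010000000000000000000000000000000) := T_31 (nat_lit 140) (nat_lit 190) (nat_lit 5) (nat_lit 4) (nat_lit 8) L83118 (by decide +kernel)
theorem L83120 : W_31 (nat_lit 4) (nat_lit 0x10006800340002001000080000000000000000000000000000000) (nat_lit 0x0) (nat_lit 0x100008000400000004000300010000000000000000000000000000000) := T_31 (nat_lit 207) (nat_lit 224) (nat_lit 5) (nat_lit 4) (nat_lit 9) L83119 (by decide +kernel)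
theorem L83121 : W_31 (nat_lit 2) (nat_lit 0x10006800360003401b00080000000000000000000000000000000) (nat_lit 0x0) (nat_lit 0x400000000000000008000400000000000000000000000000) := D_31 (nat_lit 123) (nat_lit 106) (nat_lit 190) (nat_lit 5) (nat_lit 4) (nat_lit 6) (nat_lit 5) (nat_lit 4) (nat_lit 7) (by decide +kernel)
theorem L83122 : W_31 (nat_lit 3) (nat_lit 0x10006800340003401b00080000000000000000000000000000000) (nat_lit 0x0) (nat_lit 0x200000000400020000000000008000400000000000000000000000000) := T_31 (nat_lit 173) (nat_lit 225) (nat_lit 4) (nat_lit 4) (nat_lit 13) L83121 (by decide +kernel)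
theorem L83123 : W_31 (nat_lit 4) (nat_lit 0x10006800340003401300080000000000000000000000000000000) (nat_lit 0x0) (nat_lit 0x200000000400020000000c00008000400000000000000000000000000) := T_31 (nat_lit 143) (nat_lit 142) (nat_lit 1) (nat_lit 7) (nat_lit 8) L83122 (by decide +kernel)
theorem L83124 : W_31 (nat_lit 5) (nat_lit 0x10006800340003001300080000000000000000000000000000000) (nat_lit 0x0) (nat_lit 0x200000000400020000c00c00008000400000000000000000000000000) := T_31 (nat_lit 154) (nat_lit 155) (nat_lit 2) (nat_lit 1) (nat_lit 9) L83123 (by decide +kernel)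
theorem L83125 : W_31 (nat_lit 6) (nat_lit 0x10006800340003001200080000000000000000000000000000000) (nat_lit 0x0) (nat_lit 0x200000000400020000c00d00018000400000000000000000000000000) := T_31 (nat_lit 140) (nat_lit 124) (nat_lit 6) (nat_lit 4) (nat_lit 11) L83124 (by decide +kernel)
theorem L83126 : W_31 (nat_lit 7) (nat_lit 0x10006800340002001200080000000000000000000000000000000) (nat_lit 0x0) (nat_lit 0x200000000400020001c00d80018000400000000000000000000000000) := T_31 (nat_lit 156) (nat_lit 139) (nat_lit 4) (nat_lit 4) (nat_lit 12) L83125 (by decide +kernel)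
theorem L83127 : W_31 (nat_lit 8) (nat_lit 0x10006800340002001000080000000000000000000000000000000) (nat_lit 0x0) (nat_lit 0x200000000400020005c00f80018000400000000000000000000000000) := T_31 (nat_lit 141) (nat_lit 158) (nat_lit 6) (nat_lit 4) (nat_lit 12) L83126 (by decide +kernel)
theorem L83128 : W_31 (nat_lit 12) (nat_lit 0x10006800340000001000080000000000000000000000000000000) (nat_lit 0x0) (nat_lit 0x200038006f000780020007e00fc0018000c00000000000000000000000000) := Q_31 (nat_lit 157) (C_31 L83031 (C_31 L83103 (C_31 L83113 (C_31 L83117 (C_31 L83120 (C_31 L83127 N_31)))))) (by decide +kernel)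
theorem L83129 : W_31 (nat_lit 6) (nat_lit 0x10006800340000001000080000000000000000000000000000000) (nat_lit 0x0) (nat_lit 0xa000700068000000020007000280000000000000000000000000000000000) := Q_31 (nat_lit 157) (C_31 L83037 (C_31 L83033 (C_31 L83031 N_31))) (by decide +kernel)
theorem L83130 : W_31 (nat_lit 2) (nat_lit 0x30006800340002001180080000000000000000000000000000000) (nat_lit 0x0) (nat_lit 0x4000200010000000000000000000000000000000) := D_31 (nat_lit 141) (nat_lit 158) (nat_lit 124) (nat_lit 6) (nat_lit 4) (nat_lit 12) (nat_lit 6) (nat_lit 4) (nat_lit 11) (by decide +kernel)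
theorem L83131 : W_31 (nat_lit 3) (nat_lit 0x30006800340002001080080000000000000000000000000000000) (nat_lit 0x0) (nat_lit 0x4000300014000000000000000000000000000000) := T_31 (nat_lit 140) (nat_lit 122) (nat_lit 4) (nat_lit 4) (nat_lit 11) L83130 (by decide +kernel)
theorem L83132 : W_31 (nat_lit 4) (nat_lit 0x10006800340002001080080000000000000000000000000000000) (nat_lit 0x0) (nat_lit 0x400020000000000004000300014000000000000000000000000000000) := T_31 (nat_lit 209) (nat_lit 226) (nat_lit 7) (nat_lit 4) (nat_lit 9) L83131 (by decide +kernel)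
theorem L83133 : W_31 (nat_lit 5) (nat_lit 0x10006800340002001000080000000000000000000000000000000) (nat_lit 0x0) (nat_lit 0x400020000000000005000380014000000000000000000000000000000) := T_31 (nat_lit 139) (nat_lit 156) (nat_lit 4) (nat_lit 4) (nat_lit 12) L83132 (by decide +kernel)
theorem L83134 : W_31 (nat_lit 6) (nat_lit 0x10006800340000001000080000000000000000000000000000000) (nat_lit 0x0) (nat_lit 0x500068000400000007000380014000000000000000000000000000000) := Q_31 (nat_lit 157) (C_31 L83120 (C_31 L83033 (C_31 L83133 N_31))) (by decide +kernel)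
theorem L83135 : W_31 (nat_lit 2) (nat_lit 0x700010006800360002001300088000000000000000000000000000000) (nat_lit 0x0) (nat_lit 0x80004000200000000000000000000000000) := D_31 (nat_lit 122) (nat_lit 105) (nat_lit 139) (nat_lit 4) (nat_lit 4) (nat_lit 10) (nat_lit 4) (nat_lit 4) (nat_lit 11) (by decide +kernel)
theorem L83136 : W_31 (nat_lit 3) (nat_lit 0x700010006800360002001300080000000000000000000000000000000) (nat_lit 0x0) (nat_lit 0x40000000000008000c000200000000000000000000000000) := T_31 (nat_lit 123) (nat_lit 190) (nat_lit 5) (nat_lit 4) (nat_lit 7) L83135 (by decide +kernel)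
theorem L83137 : W_31 (nat_lit 4) (nat_lit 0x700010006800360002001200080000000000000000000000000000000) (nat_lit 0x0) (nat_lit 0x40000000000018001c000200000000000000000000000000) := T_31 (nat_lit 140) (nat_lit 124) (nat_lit 6) (nat_lit 4) (nat_lit 11) L83136 (by decide +kernel)
theorem L83138 : W_31 (nat_lit 5) (nat_lit 0x600010006800360002001200080000000000000000000000000000000) (nat_lit 0x0) (nat_lit 0x200010000000040000000000018001c000200000000000000000000000000) := T_31 (nat_lit 224) (nat_lit 241) (nat_lit 5) (nat_lit 4) (nat_lit 10) L83137 (by decide +kernel)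
theorem L83139 : W_31 (nat_lit 6) (nat_lit 0x600010006800360002001000080000000000000000000000000000000) (nat_lit 0x0) (nat_lit 0x200010000000040000000400038001c000200000000000000000000000000) := T_31 (nat_lit 141) (nat_lit 158) (nat_lit 6) (nat_lit 4) (nat_lit 12) L83138 (by decide +kernel)
theorem L83140 : W_31 (nat_lit 7) (nat_lit 0x600010006800360000001000080000000000000000000000000000000) (nat_lit 0x0) (nat_lit 0x200010002000040000000600038001c000200000000000000000000000000) := T_31 (nat_lit 157) (nat_lit 209) (nat_lit 7) (nat_lit 4) (nat_lit 9) L83139 (by decide +kernel)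
theorem L83141 : W_31 (nat_lit 8) (nat_lit 0x200010006800360000001000080000000000000000000000000000000) (nat_lit 0x0) (nat_lit 0xa00050002000040000000600038001c000200000000000000000000000000) := T_31 (nat_lit 226) (nat_lit 243) (nat_lit 7) (nat_lit 4) (nat_lit 10) L83140 (by decide +kernel)
theorem L83142 : W_31 (nat_lit 9) (nat_lit 0x200010006800340000001000080000000000000000000000000000000) (nat_lit 0x0) (nat_lit 0xa00050002000040002000700038001c000200000000000000000000000000) := T_31 (nat_lit 173) (nat_lit 156) (nat_lit 4) (nat_lit 4) (nat_lit 13) L83141 (by decide +kernel)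
theorem L83143 : W_31 (nat_lit 5) (nat_lit 0x700010006800340000001000080000000000000000000000000000000) (nat_lit 0x0) (nat_lit 0x20000000000007000380014000000000000000000000000000000) := T_31 (nat_lit 157) (nat_lit 209) (nat_lit 7) (nat_lit 4) (nat_lit 9) L83061 (by decide +kernel)
theorem L83144 : W_31 (nat_lit 6) (nat_lit 0x300010006800340000001000080000000000000000000000000000000) (nat_lit 0x0) (nat_lit 0x8000400020000000000007000380014000000000000000000000000000000) := T_31 (nat_lit 226) (nat_lit 243) (nat_lit 7) (nat_lit 4) (nat_lit 10) L83143 (by decide +kernel)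
theorem L83145 : W_31 (nat_lit 7) (nat_lit 0x200010006800340000001000080000000000000000000000000000000) (nat_lit 0x0) (nat_lit 0xa000500020000000000007000380014000000000000000000000000000000) := T_31 (nat_lit 224) (nat_lit 241) (nat_lit 5) (nat_lit 4) (nat_lit 10) L83144 (by decide +kernel)
theorem L83146 : W_31 (nat_lit 2) (nat_lit 0x700030006800340000001000080000000000000000000000000000000) (nat_lit 0x0) (nat_lit 0xc0040000000000000000000000000000000000000000000000000000) := D_31 (nat_lit 223) (nat_lit 210) (nat_lit 222) (nat_lit 2) (nat_lit 2) (nat_lit 13) (nat_lit 2) (nat_lit 1) (nat_lit 13) (by decide +kernel)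
theorem L83147 : W_31 (nat_lit 3) (nat_lit 0x600030006800340000001000080000000000000000000000000000000) (nat_lit 0x0) (nat_lit 0x20001c0040000000000000000000000000000000000000000000000000000) := T_31 (nat_lit 224) (nat_lit 241) (nat_lit 5) (nat_lit 4) (nat_lit 10) L83146 (by decide +kernel)
theorem L83148 : W_31 (nat_lit 4) (nat_lit 0x600010006800340000001000080000000000000000000000000000000) (nat_lit 0x0) (nat_lit 0x20001c0060000000000002000000000000000000000000000000000000000) := T_31 (nat_lit 209) (nat_lit 157) (nat_lit 7) (nat_lit 4) (nat_lit 9) L83147 (by decide +kernel)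
theorem L83149 : W_31 (nat_lit 5) (nat_lit 0x200010006800340000001000080000000000000000000000000000000) (nat_lit 0x0) (nat_lit 0xa0005c0060000000000002000000000000000000000000000000000000000) := T_31 (nat_lit 226) (nat_lit 243) (nat_lit 7) (nat_lit 4) (nat_lit 10) L83148 (by decide +kernel)
theorem L83150 : W_31 (nat_lit 10) (nat_lit 0x10006800340000001000080000000000000000000000000000000) (nat_lit 0x0) (nat_lit 0x14000e0007c006000040002000700038001c000200000000000000000000000000) := Q_31 (nat_lit 225) (C_31 L83142 (C_31 L83075 (C_31 L83145 (C_31 L83149 (C_31 L83071 N_31))))) (by decide +kernel)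
theorem L83151 : W_31 (nat_lit 2) (nat_lit 0x38006800360003001100088000000000000000000000000000000) (nat_lit 0x0) (nat_lit 0x200010000800000000000000000000000000) := D_31 (nat_lit 124) (nat_lit 141) (nat_lit 107) (nat_lit 6) (nat_lit 4) (nat_lit 11) (nat_lit 6) (nat_lit 4) (nat_lit 10) (by decide +kernel)
theorem L83152 : W_31 (nat_lit 3) (nat_lit 0x38006800360003001100080000000000000000000000000000000) (nat_lit 0x0) (nat_lit 0x200018000c00000000000000000000000000) := T_31 (nat_lit 123) (nat_lit 106) (nat_lit 5) (nat_lit 4) (nat_lit 6) L83151 (by decide +kernel)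
theorem L83153 : W_31 (nat_lit 4) (nat_lit 0x38006800360003001000080000000000000000000000000000000) (nat_lit 0x0) (nat_lit 0x400000000000300018000c00000000000000000000000000) := T_31 (nat_lit 140) (nat_lit 190) (nat_lit 6) (nat_lit 3) (nat_lit 12) L83152 (by decide +kernel)
theorem L83154 : W_31 (nat_lit 5) (nat_lit 0x38006800340003001000080000000000000000000000000000000) (nat_lit 0x0) (nat_lit 0x200000000400020000000300018000c00000000000000000000000000) := T_31 (nat_lit 173) (nat_lit 225) (nat_lit 4) (nat_lit 4) (nat_lit 13) L83153 (by decide +kernel)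
theorem L83155 : W_31 (nat_lit 6) (nat_lit 0x30006800340003001000080000000000000000000000000000000) (nat_lit 0x0) (nat_lit 0x200048000400020000000300018000c00000000000000000000000000) := T_31 (nat_lit 207) (nat_lit 210) (nat_lit 2) (nat_lit 3) (nat_lit 12) L83154 (by decide +kernel)
theorem L83156 : W_31 (nat_lit 7) (nat_lit 0x10006800340003001000080000000000000000000000000000000) (nat_lit 0x0) (nat_lit 0x600068000400020000000300018000c00000000000000000000000000) := T_31 (nat_lit 209) (nat_lit 226) (nat_lit 7) (nat_lit 4) (nat_lit 9) L83155 (by decide +kernel)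
theorem L83157 : W_31 (nat_lit 8) (nat_lit 0x10006800340002001000080000000000000000000000000000000) (nat_lit 0x0) (nat_lit 0x600068000400020001000380018000c00000000000000000000000000) := T_31 (nat_lit 156) (nat_lit 139) (nat_lit 4) (nat_lit 4) (nat_lit 12) L83156 (by decide +kernel)
theorem L83158 : W_31 (nat_lit 2) (nat_lit 0x3c006d00360003a01000080000000000000000000000000000000) (nat_lit 0x0) (nat_lit 0x3000080000000000000000000000000000000000000000000000) := D_31 (nat_lit 205) (nat_lit 204) (nat_lit 187) (nat_lit 2) (nat_lit 0) (nat_lit 12) (nat_lit 0) (nat_lit 4) (nat_lit 12) (by decide +kernel)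
theorem L83159 : W_31 (nat_lit 3) (nat_lit 0x38006d00360003a01000080000000000000000000000000000000) (nat_lit 0x0) (nat_lit 0x80007000080000000000000000000000000000000000000000000000) := T_31 (nat_lit 206) (nat_lit 223) (nat_lit 5) (nat_lit 3) (nat_lit 9) L83158 (by decide +kernel)
theorem L83160 : W_31 (nat_lit 4) (nat_lit 0x38006c00360003a01000080000000000000000000000000000000) (nat_lit 0x0) (nat_lit 0x80007000380000000000000000000000000000000000000000000000) := T_31 (nat_lit 188) (nat_lit 189) (nat_lit 3) (nat_lit 1) (nat_lit 11) L83159 (by decide +kernel)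
theorem L83161 : W_31 (nat_lit 5) (nat_lit 0x38006c00360003801000080000000000000000000000000000000) (nat_lit 0x0) (nat_lit 0x80007000380000000600000000000000000000000000000000000000) := T_31 (nat_lit 153) (nat_lit 154) (nat_lit 3) (nat_lit 0) (nat_lit 9) L83160 (by decide +kernel)
theorem L83162 : W_31 (nat_lit 6) (nat_lit 0x38006c00360003001000080000000000000000000000000000000) (nat_lit 0x0) (nat_lit 0x80007000380000000e00040000000000000000000000000000000000) := T_31 (nat_lit 155) (nat_lit 138) (nat_lit 4) (nat_lit 3) (nat_lit 12) L83161 (by decide +kernel)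
theorem L83163 : W_31 (nat_lit 7) (nat_lit 0x38006800360003001000080000000000000000000000000000000) (nat_lit 0x0) (nat_lit 0x80007000780000000e00140000000000000000000000000000000000) := T_31 (nat_lit 190) (nat_lit 140) (nat_lit 6) (nat_lit 3) (nat_lit 12) L83162 (by decide +kernel)
theorem L83164 : W_31 (nat_lit 8) (nat_lit 0x38006800340003001000080000000000000000000000000000000) (nat_lit 0x0) (nat_lit 0x280007000780020000e00140000000000000000000000000000000000) := T_31 (nat_lit 173) (nat_lit 225) (nat_lit 4) (nat_lit 4) (nat_lit 13) L83163 (by decide +kernel)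
theorem L83165 : W_31 (nat_lit 9) (nat_lit 0x30006800340003001000080000000000000000000000000000000) (nat_lit 0x0) (nat_lit 0x28004f000780020000e00140000000000000000000000000000000000) := T_31 (nat_lit 207) (nat_lit 210) (nat_lit 2) (nat_lit 3) (nat_lit 12) L83164 (by decide +kernel)
theorem L83166 : W_31 (nat_lit 10) (nat_lit 0x10006800340003001000080000000000000000000000000000000) (nat_lit 0x0) (nat_lit 0x68006f000780020000e00140000000000000000000000000000000000) := T_31 (nat_lit 209) (nat_lit 226) (nat_lit 7) (nat_lit 4) (nat_lit 9) L83165 (by decide +kernel)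
theorem L83167 : W_31 (nat_lit 11) (nat_lit 0x10006800340002001000080000000000000000000000000000000) (nat_lit 0x0) (nat_lit 0x68006f000780020001e001c0000000000000000000000000000000000) := T_31 (nat_lit 156) (nat_lit 139) (nat_lit 4) (nat_lit 4) (nat_lit 12) L83166 (by decide +kernel)
theorem L83168 : W_31 (nat_lit 2) (nat_lit 0xf0006800340006001000080000000000000000000000000000000) (nat_lit 0x0) (nat_lit 0x20003000000000000000000000000000000000000000000000000000000000) := D_31 (nat_lit 228) (nat_lit 229) (nat_lit 245) (nat_lit 3) (nat_lit 4) (nat_lit 12) (nat_lit 4) (nat_lit 7) (nat_lit 14) (by decide +kernel)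
theorem L83169 : W_31 (nat_lit 3) (nat_lit 0x70006800340006001000080000000000000000000000000000000) (nat_lit 0x0) (nat_lit 0x20003000080000400000000000000000000000000000000000000000000000) := T_31 (nat_lit 211) (nat_lit 190) (nat_lit 0) (nat_lit 7) (nat_lit 12) L83168 (by decide +kernel)
theorem L83170 : W_31 (nat_lit 4) (nat_lit 0x30006800340006001000080000000000000000000000000000000) (nat_lit 0x0) (nat_lit 0x200030000c8000400000000000000000000000000000000000000000000000) := T_31 (nat_lit 210) (nat_lit 207) (nat_lit 2) (nat_lit 3) (nat_lit 12) L83169 (by decide +kernel)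
theorem L83171 : W_31 (nat_lit 5) (nat_lit 0x10006800340006001000080000000000000000000000000000000) (nat_lit 0x0) (nat_lit 0x200034000e8000400000000000000000000000000000000000000000000000) := T_31 (nat_lit 209) (nat_lit 226) (nat_lit 7) (nat_lit 4) (nat_lit 9) L83170 (by decide +kernel)
theorem L83172 : W_31 (nat_lit 6) (nat_lit 0x10006800340002001000080000000000000000000000000000000) (nat_lit 0x0) (nat_lit 0x200034000e8000400000004000200000000000000000000000000000000000) := T_31 (nat_lit 158) (nat_lit 141) (nat_lit 6) (nat_lit 4) (nat_lit 12) L83171 (by decide +kernel)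
theorem L83173 : W_31 (nat_lit 12) (nat_lit 0x10006800340000001000080000000000000000000000000000000) (nat_lit 0x0) (nat_lit 0x200036800ef000780020007e00fc001c000c00000000000000000000000000) := Q_31 (nat_lit 157) (C_31 L83133 (C_31 L83157 (C_31 L83127 (C_31 L83167 (C_31 L83172 N_31))))) (by decide +kernel)
theorem L83174 : W_31 (nat_lit 13) (nat_lit 0x6800340000001000080000000000000000000000000000000) (nat_lit 0x0) (nat_lit 0x1c00fe003fc01ff000780020007e00fc001c000e00000000000000000000000000) := Q_31 (nat_lit 208) (C_31 L83038 (C_31 L83058 (C_31 L83072 (C_31 L83096 (C_31 L83128 (C_31 L83129 (C_31 L83134 (C_31 L83150 (C_31 L83173 N_31))))))))) (by decide +kernel)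
theorem L83178 : W_31 (nat_lit 5) (nat_lit 0x6800340000001000080000000000000000000000000000000) (nat_lit 0x0) (nat_lit 0x10000400480007000200010000000000000000000000000000000) := T_31 (nat_lit 175) (nat_lit 190) (nat_lit 1) (nat_lit 7) (nat_lit 10) L83177 (by decide +kernel)
theorem L83179 : W_31 (nat_lit 5) (nat_lit 0x6800340000001000080000000000000000000000000000000) (nat_lit 0x0) (nat_lit 0x100000004a0007000200010000000000000000000000000000000) := T_31 (nat_lit 175) (nat_lit 173) (nat_lit 3) (nat_lit 3) (nat_lit 10) L83177 (by decide +kernel)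
theorem L83180 : W_31 (nat_lit 14) (nat_lit 0x6800300000001000080000000000000000000000000000000) (nat_lit 0x0) (nat_lit 0x1c00fe003fc01ff0007804e0007e00fc001c000e00000000000000000000000000) := Q_31 (nat_lit 174) (C_31 L83013 (C_31 L83174 (C_31 L83178 (C_31 L83179 N_31)))) (by decide +kernel)
theorem L83181 : W_31 (nat_lit 2) (nat_lit 0x3800090007800340000001000080000000000000000000000000000000) (nat_lit 0x0) (nat_lit 0x400060000000000000000000000000000000000000000000000000000) := D_31 (nat_lit 209) (nat_lit 210) (nat_lit 226) (nat_lit 3) (nat_lit 4) (nat_lit 12) (nat_lit 0) (nat_lit 8) (nat_lit 13) (by decide +kernel)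
theorem L83182 : W_31 (nat_lit 3) (nat_lit 0x1800090007800340000001000080000000000000000000000000000000) (nat_lit 0x0) (nat_lit 0x40002400060000000000000000000000000000000000000000000000000000) := T_31 (nat_lit 229) (nat_lit 246) (nat_lit 7) (nat_lit 7) (nat_lit 10) L83181 (by decide +kernel)
theorem L83183 : W_31 (nat_lit 4) (nat_lit 0x1000090007800340000001000080000000000000000000000000000000) (nat_lit 0x0) (nat_lit 0x50002c00060000000000000000000000000000000000000000000000000000) := T_31 (nat_lit 227) (nat_lit 244) (nat_lit 5) (nat_lit 7) (nat_lit 10) L83182 (by decide +kernel)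
theorem L83184 : W_31 (nat_lit 5) (nat_lit 0x90007800340000001000080000000000000000000000000000000) (nat_lit 0x0) (nat_lit 0x70003c00060000000000000000000000000000000000000000000000000000) := T_31 (nat_lit 228) (nat_lit 245) (nat_lit 4) (nat_lit 7) (nat_lit 14) L83183 (by decide +kernel)
theorem L83185 : W_31 (nat_lit 6) (nat_lit 0x90007800300000001000080000000000000000000000000000000) (nat_lit 0x0) (nat_lit 0x70003c00060000000060000000000000000000000000000000000000000000) := T_31 (nat_lit 174) (nat_lit 173) (nat_lit 0) (nat_lit 7) (nat_lit 11) L83184 (by decide +kernel)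
theorem L83186 : W_31 (nat_lit 7) (nat_lit 0x10007800300000001000080000000000000000000000000000000) (nat_lit 0x0) (nat_lit 0x70003c001e0000000060000000000000000000000000000000000000000000) := T_31 (nat_lit 211) (nat_lit 212) (nat_lit 3) (nat_lit 4) (nat_lit 11) L83185 (by decide +kernel)
theorem L83187 : W_31 (nat_lit 8) (nat_lit 0x7800300000001000080000000000000000000000000000000) (nat_lit 0x0) (nat_lit 0x70003c001f8000000060000000000000000000000000000000000000000000) := T_31 (nat_lit 208) (nat_lit 207) (nat_lit 1) (nat_lit 7) (nat_lit 11) L83186 (by decide +kernel)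
theorem L83188 : W_31 (nat_lit 9) (nat_lit 0x6800300000001000080000000000000000000000000000000) (nat_lit 0x0) (nat_lit 0x70003c001f8001400060000000000000000000000000000000000000000000) := T_31 (nat_lit 192) (nat_lit 190) (nat_lit 2) (nat_lit 3) (nat_lit 11) L83187 (by decide +kernel)
theorem L83189 : W_31 (nat_lit 2) (nat_lit 0x6800300000001000080000000000000000000000000000000) (nat_lit 0x0) (nat_lit 0x1400400000000000000000000000000000000000000000000) := D_31 (nat_lit 192) (nat_lit 190) (nat_lit 178) (nat_lit 2) (nat_lit 3) (nat_lit 11) (nat_lit 2) (nat_lit 4) (nat_lit 11) (by decide +kernel)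
theorem L83190 : W_31 (nat_lit 9) (nat_lit 0x6800300000001000080000000000000000000000000000000) (nat_lit 0x0) (nat_lit 0x70003c001f8001000460000000000000000000000000000000000000000000) := T_31 (nat_lit 192) (nat_lit 178) (nat_lit 2) (nat_lit 4) (nat_lit 11) L83187 (by decide +kernel)
theorem L83191 : W_31 (nat_lit 15) (nat_lit 0x6000300000001000080000000000000000000000000000000) (nat_lit 0x0) (nat_lit 0x1c00fe003fc01ff001f804e0007e00fc001c000e00000000000000000000000000) := Q_31 (nat_lit 191) (C_31 L83180 (C_31 L83188 (C_31 L83189 (C_31 L83190 N_31)))) (by decide +kernel)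
theorem L83193 : W_31 (nat_lit 2) (nat_lit 0x1000040007000300008001000080000000000000000000000000000000) (nat_lit 0x0) (nat_lit 0x30000800000000000000000000000000000000000000000000000000000000) := D_31 (nat_lit 227) (nat_lit 245) (nat_lit 244) (nat_lit 7) (nat_lit 6) (nat_lit 10) (nat_lit 6) (nat_lit 6) (nat_lit 14) (by decide +kernel)
theorem L83207 : W_31 (nat_lit 2) (nat_lit 0x800040007000b00008001000080000000000000000000000000000000) (nat_lit 0x0) (nat_lit 0x8000400020000000000000000000000000000000000000000000000000000) := D_31 (nat_lit 226) (nat_lit 209) (nat_lit 243) (nat_lit 5) (nat_lit 6) (nat_lit 9) (nat_lit 5) (nat_lit 6) (nat_lit 10) (by decide +kernel)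
theorem L83208 : W_31 (nat_lit 3) (nat_lit 0x40007000b00008001000080000000000000000000000000000000) (nat_lit 0x0) (nat_lit 0x18000c00020000000000000000000000000000000000000000000000000000) := T_31 (nat_lit 227) (nat_lit 244) (nat_lit 6) (nat_lit 6) (nat_lit 14) L83207 (by decide +kernel)
theorem L83209 : W_31 (nat_lit 2) (nat_lit 0x80006800300000001000080000000000000000000000000000000) (nat_lit 0x0) (nat_lit 0x1400400000000000000000000000000000000000000000000) := D_31 (nat_lit 192) (nat_lit 190) (nat_lit 178) (nat_lit 2) (nat_lit 3) (nat_lit 11) (nat_lit 2) (nat_lit 4) (nat_lit 11) (by decide +kernel)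
theorem L83210 : W_31 (nat_lit 2) (nat_lit 0x80006800300000001000080000000000000000000000000000000) (nat_lit 0x0) (nat_lit 0x100001400000000000000000000000000000000000000000000000) := D_31 (nat_lit 192) (nat_lit 190) (nat_lit 212) (nat_lit 2) (nat_lit 3) (nat_lit 11) (nat_lit 3) (nat_lit 4) (nat_lit 11) (by decide +kernel)
theorem L83213 : W_31 (nat_lit 4) (nat_lit 0x6000300008001000080000000000000000000000000000000) (nat_lit 0x0) (nat_lit 0x20001c00400000000400020000000000000000000000000000000) := T_31 (nat_lit 142) (nat_lit 125) (nat_lit 7) (nat_lit 6) (nat_lit 7) L83212 (by decide +kernel)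
theorem L83214 : W_31 (nat_lit 2) (nat_lit 0x7000300008001000080000000000000000000000000000000) (nat_lit 0x0) (nat_lit 0x800c00000000000000000000000000000000000000000000) := D_31 (nat_lit 178) (nat_lit 179) (nat_lit 191) (nat_lit 1) (nat_lit 9) (nat_lit 10) (nat_lit 2) (nat_lit 4) (nat_lit 11) (by decide +kernel)
theorem L83215 : W_31 (nat_lit 2) (nat_lit 0x80007000300008001000080000000000000000000000000000000) (nat_lit 0x0) (nat_lit 0x100000c00000000000000000000000000000000000000000000000) := D_31 (nat_lit 191) (nat_lit 190) (nat_lit 212) (nat_lit 2) (nat_lit 3) (nat_lit 11) (nat_lit 3) (nat_lit 4) (nat_lit 11) (by decide +kernel)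
theorem L83216 : W_31 (nat_lit 3) (nat_lit 0x7000300008001000080000000000000000000000000000000) (nat_lit 0x0) (nat_lit 0x1000180000c00000000000000000000000000000000000000000000000) := T_31 (nat_lit 211) (nat_lit 228) (nat_lit 4) (nat_lit 7) (nat_lit 13) L83215 (by decide +kernel)
theorem L83217 : W_31 (nat_lit 5) (nat_lit 0x70006000300008001000080000000000000000000000000000000) (nat_lit 0x0) (nat_lit 0x1300180001c00400000000000000000000000000000000000000000000) := T_31 (nat_lit 211) (nat_lit 228) (nat_lit 7) (nat_lit 6) (nat_lit 9) L15188 (by decide +kernel)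
theorem L83218 : W_31 (nat_lit 6) (nat_lit 0x60006000300008001000080000000000000000000000000000000) (nat_lit 0x0) (nat_lit 0x1300198001c00400000000000000000000000000000000000000000000) := T_31 (nat_lit 208) (nat_lit 207) (nat_lit 2) (nat_lit 3) (nat_lit 12) L83217 (by decide +kernel)
theorem L83219 : W_31 (nat_lit 7) (nat_lit 0x40006000300008001000080000000000000000000000000000000) (nat_lit 0x0) (nat_lit 0x17001b8001c00400000000000000000000000000000000000000000000) := T_31 (nat_lit 209) (nat_lit 226) (nat_lit 5) (nat_lit 6) (nat_lit 9) L83218 (by decide +kernel)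
theorem L83220 : W_31 (nat_lit 8) (nat_lit 0x6000300008001000080000000000000000000000000000000) (nat_lit 0x0) (nat_lit 0x38001f001f8001c00400000000000000000000000000000000000000000000) := Q_31 (nat_lit 210) (C_31 L14862 (C_31 L15183 (C_31 L83219 N_31))) (by decide +kernel)
theorem L83221 : W_31 (nat_lit 9) (nat_lit 0x6000300000001000080000000000000000000000000000000) (nat_lit 0x0) (nat_lit 0x38001f001f8001c00400008000400020000000000000000000000000000000) := Q_31 (nat_lit 159) (C_31 L15180 (C_31 L83213 (C_31 L83220 N_31))) (by decide +kernel)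
theorem L83222 : W_31 (nat_lit 4) (nat_lit 0x40007000300008001000080000000000000000000000000000000) (nat_lit 0x0) (nat_lit 0x18000c00020000000c00000000000000000000000000000000000000000000) := T_31 (nat_lit 179) (nat_lit 178) (nat_lit 1) (nat_lit 9) (nat_lit 10) L83208 (by decide +kernel)
theorem L83223 : W_31 (nat_lit 2) (nat_lit 0x1400038007000700030000d001000080000000000000000000000000000000) (nat_lit 0x0) (nat_lit 0x2a000000000000000000000000000000000000000000000000000000000000) := D_31 (nat_lit 243) (nat_lit 245) (nat_lit 241) (nat_lit 0) (nat_lit 7) (nat_lit 14) (nat_lit 0) (nat_lit 6) (nat_lit 14) (by decide +kernel)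
theorem L83224 : W_31 (nat_lit 3) (nat_lit 0x1400030007000700030000d001000080000000000000000000000000000000) (nat_lit 0x0) (nat_lit 0x2a0000c0000000000000000000000000000000000000000000000000000000) := T_31 (nat_lit 223) (nat_lit 222) (nat_lit 2) (nat_lit 1) (nat_lit 13) L83223 (by decide +kernel)
theorem L83225 : W_31 (nat_lit 4) (nat_lit 0x1000030007000700030000d001000080000000000000000000000000000000) (nat_lit 0x0) (nat_lit 0x8002e0000c0000000000000000000000000000000000000000000000000000000) := T_31 (nat_lit 242) (nat_lit 259) (nat_lit 6) (nat_lit 4) (nat_lit 15) L83224 (by decide +kernel)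
theorem L83226 : W_31 (nat_lit 5) (nat_lit 0x1000020007000700030000d001000080000000000000000000000000000000) (nat_lit 0x0) (nat_lit 0x8002e0001c0080000000000000000000000000000000000000000000000000000) := T_31 (nat_lit 224) (nat_lit 211) (nat_lit 1) (nat_lit 7) (nat_lit 12) L83225 (by decide +kernel)
theorem L83227 : W_31 (nat_lit 6) (nat_lit 0x1000000007000700030000d001000080000000000000000000000000000000) (nat_lit 0x0) (nat_lit 0x8002e0003c0080000000080000000000000000000000000000000000000000000) := T_31 (nat_lit 225) (nat_lit 175) (nat_lit 5) (nat_lit 5) (nat_lit 9) L83226 (by decide +kernel)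
theorem L83228 : W_31 (nat_lit 7) (nat_lit 0x1000000007000700030000c001000080000000000000000000000000000000) (nat_lit 0x0) (nat_lit 0x8002e0003c0080000000080003000000000000000000000000000000000000000) := T_31 (nat_lit 156) (nat_lit 157) (nat_lit 3) (nat_lit 3) (nat_lit 9) L83227 (by decide +kernel)
theorem L83229 : W_31 (nat_lit 8) (nat_lit 0x10000000070007000300008001000080000000000000000000000000000000) (nat_lit 0x0) (nat_lit 0x8002e0003c0080000000080007000200000000000000000000000000000000000) := T_31 (nat_lit 158) (nat_lit 141) (nat_lit 4) (nat_lit 6) (nat_lit 12) L83228 (by decide +kernel)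
theorem L83230 : W_31 (nat_lit 9) (nat_lit 0x10000000060007000300008001000080000000000000000000000000000000) (nat_lit 0x0) (nat_lit 0x8002e0003c0098000000080007000200000000000000000000000000000000000) := T_31 (nat_lit 208) (nat_lit 207) (nat_lit 2) (nat_lit 3) (nat_lit 12) L83229 (by decide +kernel)
theorem L83231 : W_31 (nat_lit 10) (nat_lit 0x10000000040007000300008001000080000000000000000000000000000000) (nat_lit 0x0) (nat_lit 0x8002e0007c00b8000000080007000200000000000000000000000000000000000) := T_31 (nat_lit 209) (nat_lit 226) (nat_lit 5) (nat_lit 6) (nat_lit 9) L83230 (by decide +kernel)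
theorem L83232 : W_31 (nat_lit 11) (nat_lit 0x40007000300008001000080000000000000000000000000000000) (nat_lit 0x0) (nat_lit 0x8003e000fc00b8000000080007000200000000000000000000000000000000000) := T_31 (nat_lit 244) (nat_lit 227) (nat_lit 6) (nat_lit 6) (nat_lit 14) L83231 (by decide +kernel)
theorem L83234 : W_31 (nat_lit 3) (nat_lit 0x40007000300008001000080000000000000000000000000000000) (nat_lit 0x0) (nat_lit 0x10000800000000000080004000200000000000000000000000000000000000) := T_31 (nat_lit 158) (nat_lit 141) (nat_lit 4) (nat_lit 6) (nat_lit 12) L83233 (by decide +kernel)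
theorem L83238 : W_31 (nat_lit 12) (nat_lit 0x7000300008001000080000000000000000000000000000000) (nat_lit 0x0) (nat_lit 0x8003e000fc00f8000000c80007000200000000000000000000000000000000000) := Q_31 (nat_lit 210) (C_31 L83222 (C_31 L83232 (C_31 L83234 (C_31 L83237 N_31)))) (by decide +kernel)
theorem L83239 : W_31 (nat_lit 2) (nat_lit 0x7000300008001000080000000000000000000000000000000) (nat_lit 0x0) (nat_lit 0x80000000000000000400020000000000000000000000000000000) := D_31 (nat_lit 142) (nat_lit 211) (nat_lit 125) (nat_lit 7) (nat_lit 6) (nat_lit 8) (nat_lit 7) (nat_lit 6) (nat_lit 7) (by decide +kernel)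
theorem L83240 : W_31 (nat_lit 13) (nat_lit 0x7000300000001000080000000000000000000000000000000) (nat_lit 0x0) (nat_lit 0x8003e000fc00f8000000c8000f000600020000000000000000000000000000000) := Q_31 (nat_lit 159) (C_31 L83192 (C_31 L83238 (C_31 L83239 N_31))) (by decide +kernel)
theorem L83241 : W_31 (nat_lit 2) (nat_lit 0x800040007400300008001000080000000000000000000000000000000) (nat_lit 0x0) (nat_lit 0x8000400020000000000000000000000000000000000000000000000000000) := D_31 (nat_lit 226) (nat_lit 209) (nat_lit 243) (nat_lit 5) (nat_lit 6) (nat_lit 9) (nat_lit 5) (nat_lit 6) (nat_lit 10) (by decide +kernel)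
theorem L83242 : W_31 (nat_lit 3) (nat_lit 0x40007400300008001000080000000000000000000000000000000) (nat_lit 0x0) (nat_lit 0x18000c00020000000000000000000000000000000000000000000000000000) := T_31 (nat_lit 227) (nat_lit 244) (nat_lit 6) (nat_lit 6) (nat_lit 14) L83241 (by decide +kernel)
theorem L83243 : W_31 (nat_lit 4) (nat_lit 0x40007000300008001000080000000000000000000000000000000) (nat_lit 0x0) (nat_lit 0x18000c00020000c00000000000000000000000000000000000000000000000) := T_31 (nat_lit 190) (nat_lit 191) (nat_lit 2) (nat_lit 3) (nat_lit 11) L83242 (by decide +kernel)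
theorem L83244 : W_31 (nat_lit 2) (nat_lit 0x7000740030000e001000080000000000000000000000000000000) (nat_lit 0x0) (nat_lit 0x200000000000080000000100000000000000000000000000000000000) := D_31 (nat_lit 175) (nat_lit 225) (nat_lit 140) (nat_lit 5) (nat_lit 5) (nat_lit 9) (nat_lit 4) (nat_lit 5) (nat_lit 12) (by decide +kernel)
theorem L83245 : W_31 (nat_lit 3) (nat_lit 0x7000740030000c001000080000000000000000000000000000000) (nat_lit 0x0) (nat_lit 0x200000000000080003000100000000000000000000000000000000000) := T_31 (nat_lit 157) (nat_lit 156) (nat_lit 3) (nat_lit 3) (nat_lit 9) L83244 (by decide +kernel)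
theorem L83246 : W_31 (nat_lit 4) (nat_lit 0x70007400300008001000080000000000000000000000000000000) (nat_lit 0x0) (nat_lit 0x200000000000080007000300000000000000000000000000000000000) := T_31 (nat_lit 158) (nat_lit 141) (nat_lit 4) (nat_lit 6) (nat_lit 12) L83245 (by decide +kernel)
theorem L83247 : W_31 (nat_lit 5) (nat_lit 0x60007400300008001000080000000000000000000000000000000) (nat_lit 0x0) (nat_lit 0x200018000000080007000300000000000000000000000000000000000) := T_31 (nat_lit 208) (nat_lit 207) (nat_lit 2) (nat_lit 3) (nat_lit 12) L83246 (by decide +kernel)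
theorem L83248 : W_31 (nat_lit 6) (nat_lit 0x40007400300008001000080000000000000000000000000000000) (nat_lit 0x0) (nat_lit 0x600038000000080007000300000000000000000000000000000000000) := T_31 (nat_lit 209) (nat_lit 226) (nat_lit 5) (nat_lit 6) (nat_lit 9) L83247 (by decide +kernel)
theorem L83249 : W_31 (nat_lit 7) (nat_lit 0x40007000300008001000080000000000000000000000000000000) (nat_lit 0x0) (nat_lit 0x600038000c00080007000300000000000000000000000000000000000) := T_31 (nat_lit 190) (nat_lit 191) (nat_lit 2) (nat_lit 3) (nat_lit 11) L83248 (by decide +kernel)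
theorem L83250 : W_31 (nat_lit 8) (nat_lit 0x7000300008001000080000000000000000000000000000000) (nat_lit 0x0) (nat_lit 0x18000e00078000c00080007000300000000000000000000000000000000000) := Q_31 (nat_lit 210) (C_31 L83243 (C_31 L83234 (C_31 L83249 N_31))) (by decide +kernel)
theorem L83251 : W_31 (nat_lit 9) (nat_lit 0x7000300000001000080000000000000000000000000000000) (nat_lit 0x0) (nat_lit 0x18000e000f8000c0008000f000700020000000000000000000000000000000) := Q_31 (nat_lit 159) (C_31 L83239 (C_31 L83192 (C_31 L83250 N_31))) (by decide +kernel)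
theorem L83252 : W_31 (nat_lit 14) (nat_lit 0x6000300000001000080000000000000000000000000000000) (nat_lit 0x0) (nat_lit 0x8003e000fc00f8001c00c8000f000700020000000000000000000000000000000) := Q_31 (nat_lit 192) (C_31 L83240 (C_31 L83251 (C_31 L12149 N_31))) (by decide +kernel)
theorem L83295 : W_31 (nat_lit 3) (nat_lit 0x40007000300008001000080000000000000000000000000000000) (nat_lit 0x0) (nat_lit 0x30001800080000000000000000000000000000000000000000000000000000) := T_31 (nat_lit 228) (nat_lit 211) (nat_lit 7) (nat_lit 6) (nat_lit 9) L83193 (by decide +kernel)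
theorem L83296 : W_31 (nat_lit 5) (nat_lit 0x7000300008001000080000000000000000000000000000000) (nat_lit 0x0) (nat_lit 0x300018000c0000000c80007000200000000000000000000000000000000000) := Q_31 (nat_lit 210) (C_31 L83237 (C_31 L83234 (C_31 L83295 N_31))) (by decide +kernel)
theorem L83297 : W_31 (nat_lit 2) (nat_lit 0x80006000700000001000080000000000000000000000000000000) (nat_lit 0x0) (nat_lit 0x20001000000000000000008000000000000000000000000000000000000000) := D_31 (nat_lit 228) (nat_lit 159) (nat_lit 245) (nat_lit 4) (nat_lit 7) (nat_lit 13) (nat_lit 4) (nat_lit 7) (nat_lit 14) (by decide +kernel)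
theorem L83298 : W_31 (nat_lit 5) (nat_lit 0xe0006001700000001000080000000000000000000000000000000) (nat_lit 0x0) (nat_lit 0x40001800000008000f000200000000000000000000000000000000000) := T_31 (nat_lit 159) (nat_lit 226) (nat_lit 5) (nat_lit 6) (nat_lit 9) L79275 (by decide +kernel)
theorem L83299 : W_31 (nat_lit 6) (nat_lit 0xe0006000700000001000080000000000000000000000000000000) (nat_lit 0x0) (nat_lit 0x40001800000188000f000200000000000000000000000000000000000) := T_31 (nat_lit 180) (nat_lit 179) (nat_lit 1) (nat_lit 10) (nat_lit 10) L83298 (by decide +kernel)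
theorem L83300 : W_31 (nat_lit 2) (nat_lit 0xe000600170000c001000080000000000000000000000000000000) (nat_lit 0x0) (nat_lit 0x80003000000000000000000000000000000000000000) := D_31 (nat_lit 157) (nat_lit 156) (nat_lit 175) (nat_lit 3) (nat_lit 3) (nat_lit 9) (nat_lit 0) (nat_lit 8) (nat_lit 10) (by decide +kernel)
theorem L83301 : W_31 (nat_lit 3) (nat_lit 0xe0006001700008001000080000000000000000000000000000000) (nat_lit 0x0) (nat_lit 0x80007000200000000000000000000000000000000000) := T_31 (nat_lit 158) (nat_lit 141) (nat_lit 4) (nat_lit 6) (nat_lit 12) L83300 (by decide +kernel)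
theorem L83302 : W_31 (nat_lit 4) (nat_lit 0xe0006001700000001000080000000000000000000000000000000) (nat_lit 0x0) (nat_lit 0x40000000000008000f000200000000000000000000000000000000000) := T_31 (nat_lit 159) (nat_lit 226) (nat_lit 5) (nat_lit 6) (nat_lit 9) L83301 (by decide +kernel)
theorem L83303 : W_31 (nat_lit 5) (nat_lit 0xe0006000700000001000080000000000000000000000000000000) (nat_lit 0x0) (nat_lit 0x40000000000188000f000200000000000000000000000000000000000) := T_31 (nat_lit 180) (nat_lit 179) (nat_lit 1) (nat_lit 10) (nat_lit 10) L83302 (by decide +kernel)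
theorem L83304 : W_31 (nat_lit 2) (nat_lit 0x2000f0016800f00044001000080000000000000000000000000000000) (nat_lit 0x0) (nat_lit 0xc0002000000000000000000000000000000000000000) := D_31 (nat_lit 175) (nat_lit 157) (nat_lit 174) (nat_lit 0) (nat_lit 8) (nat_lit 10) (nat_lit 6) (nat_lit 4) (nat_lit 13) (by decide +kernel)
theorem L83305 : W_31 (nat_lit 3) (nat_lit 0xf0016800f00044001000080000000000000000000000000000000) (nat_lit 0x0) (nat_lit 0x3000000000000c0002000000000000000000000000000000000000000) := T_31 (nat_lit 225) (nat_lit 224) (nat_lit 1) (nat_lit 7) (nat_lit 12) L83304 (by decide +kernel)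
theorem L83306 : W_31 (nat_lit 4) (nat_lit 0xf0016800f00040001000080000000000000000000000000000000) (nat_lit 0x0) (nat_lit 0x3000000000000c000e000000000000000000000000000000000000000) := T_31 (nat_lit 158) (nat_lit 159) (nat_lit 0) (nat_lit 9) (nat_lit 10) L83305 (by decide +kernel)
theorem L83307 : W_31 (nat_lit 5) (nat_lit 0xf0016800f00000001000080000000000000000000000000000000) (nat_lit 0x0) (nat_lit 0x3000000000000c00ce000000000000000000000000000000000000000) := T_31 (nat_lit 162) (nat_lit 163) (nat_lit 2) (nat_lit 6) (nat_lit 10) L83306 (by decide +kernel)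
theorem L83308 : W_31 (nat_lit 6) (nat_lit 0xf0006800f00000001000080000000000000000000000000000000) (nat_lit 0x0) (nat_lit 0x3000000300000c00ce000000000000000000000000000000000000000) := T_31 (nat_lit 196) (nat_lit 197) (nat_lit 3) (nat_lit 6) (nat_lit 10) L83307 (by decide +kernel)
theorem L83309 : W_31 (nat_lit 7) (nat_lit 0xf0006000f00000001000080000000000000000000000000000000) (nat_lit 0x0) (nat_lit 0x300000030c000c00ce000000000000000000000000000000000000000) := T_31 (nat_lit 191) (nat_lit 190) (nat_lit 0) (nat_lit 7) (nat_lit 12) L83308 (by decide +kernel)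
theorem L83310 : W_31 (nat_lit 8) (nat_lit 0xf0006000700000001000080000000000000000000000000000000) (nat_lit 0x0) (nat_lit 0x300000030c018c00ce000000000000000000000000000000000000000) := T_31 (nat_lit 179) (nat_lit 180) (nat_lit 1) (nat_lit 10) (nat_lit 10) L83309 (by decide +kernel)
theorem L83311 : W_31 (nat_lit 9) (nat_lit 0xe0006000700000001000080000000000000000000000000000000) (nat_lit 0x0) (nat_lit 0x300018030c018c00ce000000000000000000000000000000000000000) := T_31 (nat_lit 208) (nat_lit 207) (nat_lit 2) (nat_lit 3) (nat_lit 12) L83310 (by decide +kernel)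
theorem L83312 : W_31 (nat_lit 10) (nat_lit 0xc0006000700000001000080000000000000000000000000000000) (nat_lit 0x0) (nat_lit 0xe700738030c018c00cf000200000000000000000000000000000000000) := Q_31 (nat_lit 209) (C_31 L82970 (C_31 L83299 (C_31 L83303 (C_31 L83311 N_31)))) (by decide +kernel)
theorem L83313 : W_31 (nat_lit 2) (nat_lit 0x8000c0006000f00000001000080000000000000000000000000000000) (nat_lit 0x0) (nat_lit 0x8000c000000000000000000000000000000000000000) := D_31 (nat_lit 158) (nat_lit 159) (nat_lit 175) (nat_lit 0) (nat_lit 9) (nat_lit 10) (nat_lit 4) (nat_lit 6) (nat_lit 13) (by decide +kernel)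
theorem L83314 : W_31 (nat_lit 3) (nat_lit 0xc0006000f00000001000080000000000000000000000000000000) (nat_lit 0x0) (nat_lit 0x1000080000000000008000c000000000000000000000000000000000000000) := T_31 (nat_lit 227) (nat_lit 244) (nat_lit 6) (nat_lit 6) (nat_lit 14) L83313 (by decide +kernel)
theorem L83315 : W_31 (nat_lit 4) (nat_lit 0xc0006000700000001000080000000000000000000000000000000) (nat_lit 0x0) (nat_lit 0x1000080000000000188000c000000000000000000000000000000000000000) := T_31 (nat_lit 179) (nat_lit 180) (nat_lit 1) (nat_lit 10) (nat_lit 10) L83314 (by decide +kernel)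
theorem L83316 : W_31 (nat_lit 11) (nat_lit 0x80006000700000001000080000000000000000000000000000000) (nat_lit 0x0) (nat_lit 0x8001f800ef00778030c018e00cf000200000000000000000000000000000000000) := Q_31 (nat_lit 210) (C_31 L83002 (C_31 L83012 (C_31 L83011 (C_31 L83312 (C_31 L83315 N_31))))) (by decide +kernel)
theorem L83317 : W_31 (nat_lit 2) (nat_lit 0x80006000f00000001000080000000000000000000000000000000) (nat_lit 0x0) (nat_lit 0x100000000000000000c000000000000000000000000000000000000000) := D_31 (nat_lit 159) (nat_lit 228) (nat_lit 158) (nat_lit 4) (nat_lit 7) (nat_lit 13) (nat_lit 0) (nat_lit 9) (nat_lit 10) (by decide +kernel)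
theorem L83318 : W_31 (nat_lit 3) (nat_lit 0x80006000700000001000080000000000000000000000000000000) (nat_lit 0x0) (nat_lit 0x100000000000180000c000000000000000000000000000000000000000) := T_31 (nat_lit 179) (nat_lit 180) (nat_lit 1) (nat_lit 10) (nat_lit 10) L83317 (by decide +kernel)
theorem L83319 : W_31 (nat_lit 12) (nat_lit 0x6000700000001000080000000000000000000000000000000) (nat_lit 0x0) (nat_lit 0x8001f800ff007f8030c018e00cf000200000000000000000000000000000000000) := Q_31 (nat_lit 211) (C_31 L83297 (C_31 L83001 (C_31 L83316 (C_31 L83318 N_31)))) (by decide +kernel)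
theorem L83320 : W_31 (nat_lit 13) (nat_lit 0x6000300000001000080000000000000000000000000000000) (nat_lit 0x0) (nat_lit 0x8001f800ff007f8031c01ce00cf000200010000000000000000000000000000000) := Q_31 (nat_lit 178) (C_31 L8242 (C_31 L82963 (C_31 L83319 N_31))) (by decide +kernel)
theorem L83333 : W_31 (nat_lit 2) (nat_lit 0x80006800b0000e001200090000000000000000000000000000000) (nat_lit 0x0) (nat_lit 0x10000000040000000100000000000000000000000000000000000) := D_31 (nat_lit 174) (nat_lit 208) (nat_lit 140) (nat_lit 6) (nat_lit 4) (nat_lit 12) (nat_lit 6) (nat_lit 4) (nat_lit 11) (by decide +kernel)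
theorem L83334 : W_31 (nat_lit 3) (nat_lit 0x80006800b0000e001200080000000000000000000000000000000) (nat_lit 0x0) (nat_lit 0x10000000040000000100010000800000000000000000000000000) := T_31 (nat_lit 124) (nat_lit 107) (nat_lit 7) (nat_lit 5) (nat_lit 6) L83333 (by decide +kernel)
theorem L83335 : W_31 (nat_lit 4) (nat_lit 0x80006800b0000c001200080000000000000000000000000000000) (nat_lit 0x0) (nat_lit 0x10000000040003000100010000800000000000000000000000000) := T_31 (nat_lit 157) (nat_lit 156) (nat_lit 3) (nat_lit 3) (nat_lit 9) L83334 (by decide +kernel)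
theorem L83336 : W_31 (nat_lit 5) (nat_lit 0x80006800b0000c001000080000000000000000000000000000000) (nat_lit 0x0) (nat_lit 0x50000000040003000300010000800000000000000000000000000) := T_31 (nat_lit 141) (nat_lit 210) (nat_lit 4) (nat_lit 6) (nat_lit 12) L83335 (by decide +kernel)
theorem L83337 : W_31 (nat_lit 6) (nat_lit 0x8000680030000c001000080000000000000000000000000000000) (nat_lit 0x0) (nat_lit 0x50000000c40003000300010000800000000000000000000000000) := T_31 (nat_lit 179) (nat_lit 178) (nat_lit 0) (nat_lit 9) (nat_lit 10) L83336 (by decide +kernel)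
theorem L83338 : W_31 (nat_lit 2) (nat_lit 0xc000680030000d001000080000000000000000000000000000000) (nat_lit 0x0) (nat_lit 0x10000800000000000080000000000000000000000000000000000000000000) := D_31 (nat_lit 227) (nat_lit 175) (nat_lit 244) (nat_lit 4) (nat_lit 6) (nat_lit 13) (nat_lit 6) (nat_lit 6) (nat_lit 14) (by decide +kernel)
theorem L83339 : W_31 (nat_lit 3) (nat_lit 0x8000680030000d001000080000000000000000000000000000000) (nat_lit 0x0) (nat_lit 0x10000800040000000080000000200000000000000000000000000000000000) := T_31 (nat_lit 210) (nat_lit 141) (nat_lit 4) (nat_lit 6) (nat_lit 12) L83338 (by decide +kernel)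
theorem L83340 : W_31 (nat_lit 4) (nat_lit 0x8000680030000c001000080000000000000000000000000000000) (nat_lit 0x0) (nat_lit 0x10000800040000000080003000200000000000000000000000000000000000) := T_31 (nat_lit 156) (nat_lit 157) (nat_lit 3) (nat_lit 3) (nat_lit 9) L83339 (by decide +kernel)
theorem L83341 : W_31 (nat_lit 2) (nat_lit 0x8000680070000c001000080000000000000000000000000000000) (nat_lit 0x0) (nat_lit 0x80003000000000000000000000000000000000000000) := D_31 (nat_lit 157) (nat_lit 156) (nat_lit 175) (nat_lit 3) (nat_lit 3) (nat_lit 9) (nat_lit 0) (nat_lit 8) (nat_lit 10) (by decide +kernel)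
theorem L83342 : W_31 (nat_lit 3) (nat_lit 0x8000680030000c001000080000000000000000000000000000000) (nat_lit 0x0) (nat_lit 0xc80003000000000000000000000000000000000000000) := T_31 (nat_lit 178) (nat_lit 179) (nat_lit 0) (nat_lit 9) (nat_lit 10) L83341 (by decide +kernel)
theorem L83343 : W_31 (nat_lit 2) (nat_lit 0xc000680030000c001000080000000000000000000000000000000) (nat_lit 0x0) (nat_lit 0x10000800000000000080000000000000000000000000000000000000000000) := D_31 (nat_lit 227) (nat_lit 175) (nat_lit 244) (nat_lit 4) (nat_lit 6) (nat_lit 13) (nat_lit 6) (nat_lit 6) (nat_lit 14) (by decide +kernel)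
theorem L83344 : W_31 (nat_lit 3) (nat_lit 0x8000680030000c001000080000000000000000000000000000000) (nat_lit 0x0) (nat_lit 0x10000800040000000080000000200000000000000000000000000000000000) := T_31 (nat_lit 210) (nat_lit 141) (nat_lit 4) (nat_lit 6) (nat_lit 12) L83343 (by decide +kernel)
theorem L83345 : W_31 (nat_lit 7) (nat_lit 0x80006800300008001000080000000000000000000000000000000) (nat_lit 0x0) (nat_lit 0x10000800050000000cc0007000300010000800000000000000000000000000) := Q_31 (nat_lit 158) (C_31 L83337 (C_31 L83340 (C_31 L83342 (C_31 L83344 N_31)))) (by decide +kernel)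
theorem L83346 : W_31 (nat_lit 8) (nat_lit 0x80006800300000001000080000000000000000000000000000000) (nat_lit 0x0) (nat_lit 0x10000800050000000cc000f000700010000800000000000000000000000000) := T_31 (nat_lit 159) (nat_lit 142) (nat_lit 7) (nat_lit 6) (nat_lit 8) L83345 (by decide +kernel)
theorem L83347 : W_31 (nat_lit 9) (nat_lit 0x80006000300000001000080000000000000000000000000000000) (nat_lit 0x0) (nat_lit 0x10000800150001c00cc000f000700010000800000000000000000000000000) := Q_31 (nat_lit 191) (C_31 L83210 (C_31 L83209 (C_31 L83346 N_31))) (by decide +kernel)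
theorem L83348 : W_31 (nat_lit 10) (nat_lit 0x80006000300000001000080000000000000000000000000000000) (nat_lit 0x0) (nat_lit 0x16000f000740031c01ce00c7000200010000000000000000000000000000000) := T_31 (nat_lit 228) (nat_lit 245) (nat_lit 4) (nat_lit 7) (nat_lit 14) L78772 (by decide +kernel)
theorem L83349 : W_31 (nat_lit 11) (nat_lit 0x6000300000001000080000000000000000000000000000000) (nat_lit 0x0) (nat_lit 0x17000f8007d0031c01ce00cf000700010000800000000000000000000000000) := Q_31 (nat_lit 211) (C_31 L17691 (C_31 L83347 (C_31 L83348 N_31))) (by decide +kernel)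
theorem L83350 : W_31 (nat_lit 16) (nat_lit 0x4000300000001000080000000000000000000000000000000) (nat_lit 0x0) (nat_lit 0x9c01fe00ffc07ff033f81ce00cfe00fc013c000e00000000000000000000000000) := Q_31 (nat_lit 193) (C_31 L82735 (C_31 L83191 (C_31 L83221 (C_31 L83252 (C_31 L83283 (C_31 L83292 (C_31 L83320 (C_31 L83332 (C_31 L83349 N_31))))))))) (by decide +kernel)
theorem L83351 : W_31 (nat_lit 2) (nat_lit 0x40003e0006001000080000000000000000000000000000000) (nat_lit 0x0) (nat_lit 0x18008000000000000000000000000000000000000000) := D_31 (nat_lit 172) (nat_lit 159) (nat_lit 171) (nat_lit 2) (nat_lit 2) (nat_lit 10) (nat_lit 2) (nat_lit 1) (nat_lit 10) (by decide +kernel)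
theorem L83352 : W_31 (nat_lit 3) (nat_lit 0x40003c0006001000080000000000000000000000000000000) (nat_lit 0x0) (nat_lit 0x2000038008000000000000000000000000000000000000000) := T_31 (nat_lit 173) (nat_lit 193) (nat_lit 3) (nat_lit 3) (nat_lit 10) L83351 (by decide +kernel)
theorem L83353 : W_31 (nat_lit 4) (nat_lit 0x40003c0002001000080000000000000000000000000000000) (nat_lit 0x0) (nat_lit 0x200043800c000000000000000000000000000000000000000) := T_31 (nat_lit 158) (nat_lit 178) (nat_lit 0) (nat_lit 8) (nat_lit 10) L83352 (by decide +kernel)
theorem L83354 : W_31 (nat_lit 5) (nat_lit 0x4000380002001000080000000000000000000000000000000) (nat_lit 0x0) (nat_lit 0x200047800d000000000000000000000000000000000000000) := T_31 (nat_lit 174) (nat_lit 156) (nat_lit 0) (nat_lit 7) (nat_lit 10) L83353 (by decide +kernel)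
theorem L83355 : W_31 (nat_lit 2) (nat_lit 0x44003c0002001000080000000000000000000000000000000) (nat_lit 0x0) (nat_lit 0x2200020000000000000000000000000000000000000000000) := D_31 (nat_lit 173) (nat_lit 193) (nat_lit 189) (nat_lit 3) (nat_lit 3) (nat_lit 10) (nat_lit 1) (nat_lit 6) (nat_lit 10) (by decide +kernel)
theorem L83356 : W_31 (nat_lit 3) (nat_lit 0x40003c0002001000080000000000000000000000000000000) (nat_lit 0x0) (nat_lit 0x2e00020000000000000000000000000000000000000000000) := T_31 (nat_lit 190) (nat_lit 191) (nat_lit 1) (nat_lit 7) (nat_lit 10) L83355 (by decide +kernel)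
theorem L83357 : W_31 (nat_lit 4) (nat_lit 0x4000380002001000080000000000000000000000000000000) (nat_lit 0x0) (nat_lit 0x2e00060001000000000000000000000000000000000000000) := T_31 (nat_lit 174) (nat_lit 156) (nat_lit 0) (nat_lit 7) (nat_lit 10) L83356 (by decide +kernel)
theorem L83358 : W_31 (nat_lit 2) (nat_lit 0x40007c0002001000080000000000000000000000000000000) (nat_lit 0x0) (nat_lit 0x1c00000000000000000000000000000000000000000000000) := D_31 (nat_lit 191) (nat_lit 190) (nat_lit 192) (nat_lit 1) (nat_lit 7) (nat_lit 10) (nat_lit 1) (nat_lit 8) (nat_lit 10) (by decide +kernel)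
theorem L83359 : W_31 (nat_lit 3) (nat_lit 0x40003c0002001000080000000000000000000000000000000) (nat_lit 0x0) (nat_lit 0x1c00400004000000000000000000000000000000000000000) := T_31 (nat_lit 178) (nat_lit 158) (nat_lit 0) (nat_lit 8) (nat_lit 10) L83358 (by decide +kernel)
theorem L83360 : W_31 (nat_lit 4) (nat_lit 0x4000380002001000080000000000000000000000000000000) (nat_lit 0x0) (nat_lit 0x1c00440005000000000000000000000000000000000000000) := T_31 (nat_lit 174) (nat_lit 156) (nat_lit 0) (nat_lit 7) (nat_lit 10) L83359 (by decide +kernel)
theorem L83361 : W_31 (nat_lit 2) (nat_lit 0x4000380006001000080000000000000000000000000000000) (nat_lit 0x0) (nat_lit 0x9800000000000000000000000000000000000000) := D_31 (nat_lit 156) (nat_lit 155) (nat_lit 159) (nat_lit 3) (nat_lit 2) (nat_lit 9) (nat_lit 3) (nat_lit 3) (nat_lit 9) (by decide +kernel)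
theorem L83362 : W_31 (nat_lit 3) (nat_lit 0x4000380002001000080000000000000000000000000000000) (nat_lit 0x0) (nat_lit 0x40000d800000000000000000000000000000000000000) := T_31 (nat_lit 158) (nat_lit 178) (nat_lit 0) (nat_lit 8) (nat_lit 10) L83361 (by decide +kernel)
theorem L83363 : W_31 (nat_lit 2) (nat_lit 0x20005000380006001000080000000000000000000000000000000) (nat_lit 0x0) (nat_lit 0x400000000000040008000000000000000000000000000000000000000) := D_31 (nat_lit 226) (nat_lit 174) (nat_lit 159) (nat_lit 4) (nat_lit 5) (nat_lit 13) (nat_lit 6) (nat_lit 5) (nat_lit 13) (by decide +kernel)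
theorem L83364 : W_31 (nat_lit 3) (nat_lit 0x5000380006001000080000000000000000000000000000000) (nat_lit 0x0) (nat_lit 0x400020000000040008000100000000000000000000000000000000000) := T_31 (nat_lit 209) (nat_lit 140) (nat_lit 4) (nat_lit 5) (nat_lit 12) L83363 (by decide +kernel)
theorem L83365 : W_31 (nat_lit 4) (nat_lit 0x5000380002001000080000000000000000000000000000000) (nat_lit 0x0) (nat_lit 0x40002000000044000c000100000000000000000000000000000000000) := T_31 (nat_lit 158) (nat_lit 178) (nat_lit 0) (nat_lit 8) (nat_lit 10) L83364 (by decide +kernel)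
theorem L83366 : W_31 (nat_lit 2) (nat_lit 0x400020005000380006001000080000000000000000000000000000000) (nat_lit 0x0) (nat_lit 0x10000800040000000000000000000000000000000000000000000000000000) := D_31 (nat_lit 227) (nat_lit 210) (nat_lit 244) (nat_lit 7) (nat_lit 5) (nat_lit 9) (nat_lit 7) (nat_lit 5) (nat_lit 10) (by decide +kernel)
theorem L83367 : W_31 (nat_lit 3) (nat_lit 0x20005000380006001000080000000000000000000000000000000) (nat_lit 0x0) (nat_lit 0x10000c00040000000040000000000000000000000000000000000000000000) := T_31 (nat_lit 226) (nat_lit 174) (nat_lit 4) (nat_lit 5) (nat_lit 13) L83366 (by decide +kernel)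
theorem L83368 : W_31 (nat_lit 4) (nat_lit 0x20005000380002001000080000000000000000000000000000000) (nat_lit 0x0) (nat_lit 0x10000c00040000000040004000100000000000000000000000000000000000) := T_31 (nat_lit 158) (nat_lit 140) (nat_lit 4) (nat_lit 5) (nat_lit 12) L83367 (by decide +kernel)
theorem L83369 : W_31 (nat_lit 2) (nat_lit 0x20005000380002001000080000000000000000000000000000000) (nat_lit 0x0) (nat_lit 0x400000000000040008000000000000000000000000000000000000000) := D_31 (nat_lit 226) (nat_lit 174) (nat_lit 159) (nat_lit 4) (nat_lit 5) (nat_lit 13) (nat_lit 6) (nat_lit 5) (nat_lit 13) (by decide +kernel)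
theorem L83370 : W_31 (nat_lit 2) (nat_lit 0x20005000380006001000080000000000000000000000000000000) (nat_lit 0x0) (nat_lit 0x400000000000000008000400000000000000000000000000000000000) := D_31 (nat_lit 159) (nat_lit 226) (nat_lit 142) (nat_lit 6) (nat_lit 5) (nat_lit 13) (nat_lit 6) (nat_lit 5) (nat_lit 12) (by decide +kernel)
theorem L83371 : W_31 (nat_lit 3) (nat_lit 0x20005000380002001000080000000000000000000000000000000) (nat_lit 0x0) (nat_lit 0x40000000000000000c000500000000000000000000000000000000000) := T_31 (nat_lit 158) (nat_lit 140) (nat_lit 4) (nat_lit 5) (nat_lit 12) L83370 (by decide +kernel)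
theorem L83372 : W_31 (nat_lit 2) (nat_lit 0x30005000380006001200080000000000000000000000000000000) (nat_lit 0x0) (nat_lit 0x8000c00000000000000000000000000000000000) := D_31 (nat_lit 142) (nat_lit 143) (nat_lit 159) (nat_lit 1) (nat_lit 8) (nat_lit 8) (nat_lit 6) (nat_lit 5) (nat_lit 12) (by decide +kernel)
theorem L83373 : W_31 (nat_lit 3) (nat_lit 0x30005000380006001000080000000000000000000000000000000) (nat_lit 0x0) (nat_lit 0x800000008000e00000000000000000000000000000000000) := T_31 (nat_lit 141) (nat_lit 191) (nat_lit 5) (nat_lit 5) (nat_lit 8) L83372 (by decide +kernel)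
theorem L83374 : W_31 (nat_lit 4) (nat_lit 0x20005000380006001000080000000000000000000000000000000) (nat_lit 0x0) (nat_lit 0x200010000800000008000e00000000000000000000000000000000000) := T_31 (nat_lit 208) (nat_lit 225) (nat_lit 5) (nat_lit 5) (nat_lit 9) L83373 (by decide +kernel)
theorem L83375 : W_31 (nat_lit 5) (nat_lit 0x20005000380002001000080000000000000000000000000000000) (nat_lit 0x0) (nat_lit 0x20001000080000000c000f00000000000000000000000000000000000) := T_31 (nat_lit 158) (nat_lit 140) (nat_lit 4) (nat_lit 5) (nat_lit 12) L83374 (by decide +kernel)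
theorem L83376 : W_31 (nat_lit 6) (nat_lit 0x5000380002001000080000000000000000000000000000000) (nat_lit 0x0) (nat_lit 0x10000e0007000080004000c000f00000000000000000000000000000000000) := Q_31 (nat_lit 209) (C_31 L83368 (C_31 L83369 (C_31 L83371 (C_31 L83375 N_31)))) (by decide +kernel)
theorem L83377 : W_31 (nat_lit 2) (nat_lit 0x5000380002001000080000000000000000000000000000000) (nat_lit 0x0) (nat_lit 0x800400004000000000000000000000000000000000000000) := D_31 (nat_lit 178) (nat_lit 158) (nat_lit 191) (nat_lit 0) (nat_lit 8) (nat_lit 10) (nat_lit 1) (nat_lit 8) (nat_lit 10) (by decide +kernel)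
theorem L83378 : W_31 (nat_lit 2) (nat_lit 0x5800380002001000080000000000000000000000000000000) (nat_lit 0x0) (nat_lit 0x600040000000000000000000000000000000000000000000) := D_31 (nat_lit 190) (nat_lit 174) (nat_lit 189) (nat_lit 1) (nat_lit 7) (nat_lit 10) (nat_lit 2) (nat_lit 2) (nat_lit 11) (by decide +kernel)
theorem L83379 : W_31 (nat_lit 3) (nat_lit 0x5000380002001000080000000000000000000000000000000) (nat_lit 0x0) (nat_lit 0xe00440000000000000000000000000000000000000000000) := T_31 (nat_lit 191) (nat_lit 178) (nat_lit 1) (nat_lit 8) (nat_lit 10) L83378 (by decide +kernel)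
theorem L83380 : W_31 (nat_lit 7) (nat_lit 0x4000380002001000080000000000000000000000000000000) (nat_lit 0x0) (nat_lit 0x10000e00070001e0044000c000f00000000000000000000000000000000000) := Q_31 (nat_lit 192) (C_31 L83365 (C_31 L83376 (C_31 L83377 (C_31 L83379 N_31)))) (by decide +kernel)
theorem L83381 : W_31 (nat_lit 8) (nat_lit 0x4000380000001000080000000000000000000000000000000) (nat_lit 0x0) (nat_lit 0x10000e00070003e0047800f800f00000000000000000000000000000000000) := Q_31 (nat_lit 157) (C_31 L83354 (C_31 L83357 (C_31 L83360 (C_31 L83362 (C_31 L83380 N_31))))) (by decide +kernel)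
theorem L83382 : W_31 (nat_lit 2) (nat_lit 0xc000380000001000080000000000000000000000000000000) (nat_lit 0x0) (nat_lit 0x32000000000000000000000000000000000000000000000000) := D_31 (nat_lit 196) (nat_lit 193) (nat_lit 197) (nat_lit 0) (nat_lit 9) (nat_lit 11) (nat_lit 0) (nat_lit 10) (nat_lit 11) (by decide +kernel)
theorem L83383 : W_31 (nat_lit 2) (nat_lit 0x100000000d000380008001400080000000000000000000000000000000) (nat_lit 0x0) (nat_lit 0x400020002000000000000000000000000000000000000000000000000) := D_31 (nat_lit 209) (nat_lit 226) (nat_lit 193) (nat_lit 6) (nat_lit 5) (nat_lit 13) (nat_lit 5) (nat_lit 6) (nat_lit 8) (by decide +kernel)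
theorem L83384 : W_31 (nat_lit 3) (nat_lit 0x100000000d000380008001000080000000000000000000000000000000) (nat_lit 0x0) (nat_lit 0x400020002000000000000400020000000000000000000000000000000) := T_31 (nat_lit 142) (nat_lit 125) (nat_lit 7) (nat_lit 6) (nat_lit 7) L83383 (by decide +kernel)
theorem L83385 : W_31 (nat_lit 4) (nat_lit 0xd000380008001000080000000000000000000000000000000) (nat_lit 0x0) (nat_lit 0x14000a0002000000000000400020000000000000000000000000000000) := T_31 (nat_lit 228) (nat_lit 211) (nat_lit 4) (nat_lit 7) (nat_lit 13) L83384 (by decide +kernel)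
theorem L83386 : W_31 (nat_lit 2) (nat_lit 0x300012000f00078000c001000080000000000000000000000000000000) (nat_lit 0x0) (nat_lit 0x800040000000000000000200000000000000000000000000000000000) := D_31 (nat_lit 210) (nat_lit 227) (nat_lit 141) (nat_lit 7) (nat_lit 5) (nat_lit 9) (nat_lit 7) (nat_lit 5) (nat_lit 8) (by decide +kernel)
theorem L83387 : W_31 (nat_lit 3) (nat_lit 0x300012000f000780008001000080000000000000000000000000000000) (nat_lit 0x0) (nat_lit 0x800040000000000006000200000000000000000000000000000000000) := T_31 (nat_lit 158) (nat_lit 157) (nat_lit 0) (nat_lit 8) (nat_lit 10) L83386 (by decide +kernel)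
theorem L83388 : W_31 (nat_lit 4) (nat_lit 0x300012000f000380008001000080000000000000000000000000000000) (nat_lit 0x0) (nat_lit 0x20000800040000000400006000200000000000000000000000000000000000) := T_31 (nat_lit 178) (nat_lit 245) (nat_lit 5) (nat_lit 8) (nat_lit 10) L83387 (by decide +kernel)
theorem L83389 : W_31 (nat_lit 5) (nat_lit 0x100012000f000380008001000080000000000000000000000000000000) (nat_lit 0x0) (nat_lit 0x60002800040000000400006000200000000000000000000000000000000000) := T_31 (nat_lit 229) (nat_lit 246) (nat_lit 4) (nat_lit 8) (nat_lit 14) L83388 (by decide +kernel)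
theorem L83390 : W_31 (nat_lit 6) (nat_lit 0x100002000f000380008001000080000000000000000000000000000000) (nat_lit 0x0) (nat_lit 0x60002800340000000400006000200000000000000000000000000000000000) := T_31 (nat_lit 212) (nat_lit 213) (nat_lit 3) (nat_lit 5) (nat_lit 11) L83389 (by decide +kernel)
theorem L83391 : W_31 (nat_lit 7) (nat_lit 0x100002000d000380008001000080000000000000000000000000000000) (nat_lit 0x0) (nat_lit 0x60002800350002000400006000200000000000000000000000000000000000) := T_31 (nat_lit 193) (nat_lit 208) (nat_lit 1) (nat_lit 8) (nat_lit 11) L83390 (by decide +kernel)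
theorem L83392 : W_31 (nat_lit 8) (nat_lit 0x2000d000380008001000080000000000000000000000000000000) (nat_lit 0x0) (nat_lit 0x600038003d0002000400006000200000000000000000000000000000000000) := T_31 (nat_lit 228) (nat_lit 211) (nat_lit 4) (nat_lit 7) (nat_lit 13) L83391 (by decide +kernel)
theorem L83393 : W_31 (nat_lit 9) (nat_lit 0xd000380008001000080000000000000000000000000000000) (nat_lit 0x0) (nat_lit 0x60003c003f0002000400006000200000000000000000000000000000000000) := T_31 (nat_lit 209) (nat_lit 226) (nat_lit 6) (nat_lit 5) (nat_lit 13) L83392 (by decide +kernel)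
theorem L83394 : W_31 (nat_lit 2) (nat_lit 0x8000d000380008001000080000000000000000000000000000000) (nat_lit 0x0) (nat_lit 0x2000000000000400020000000000000000000000000000000) := D_31 (nat_lit 142) (nat_lit 125) (nat_lit 193) (nat_lit 7) (nat_lit 6) (nat_lit 7) (nat_lit 7) (nat_lit 6) (nat_lit 8) (by decide +kernel)
theorem L83395 : W_31 (nat_lit 3) (nat_lit 0xd000380008001000080000000000000000000000000000000) (nat_lit 0x0) (nat_lit 0x1000080002000000000000400020000000000000000000000000000000) := T_31 (nat_lit 211) (nat_lit 228) (nat_lit 4) (nat_lit 7) (nat_lit 13) L83394 (by decide +kernel)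
theorem L83396 : W_31 (nat_lit 10) (nat_lit 0xd000380000001000080000000000000000000000000000000) (nat_lit 0x0) (nat_lit 0x60003c003f000200040000e000600020000000000000000000000000000000) := Q_31 (nat_lit 159) (C_31 L82402 (C_31 L83385 (C_31 L83393 (C_31 L83395 N_31)))) (by decide +kernel)
theorem L83397 : W_31 (nat_lit 2) (nat_lit 0xd800380000001000080000000000000000000000000000000) (nat_lit 0x0) (nat_lit 0x2600000000000000000000000000000000000000000000000) := D_31 (nat_lit 190) (nat_lit 189) (nat_lit 193) (nat_lit 2) (nat_lit 2) (nat_lit 11) (nat_lit 2) (nat_lit 3) (nat_lit 11) (by decide +kernel)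
theorem L83398 : W_31 (nat_lit 3) (nat_lit 0xd000380000001000080000000000000000000000000000000) (nat_lit 0x0) (nat_lit 0x2e00400000000000000000000000000000000000000000000) := T_31 (nat_lit 191) (nat_lit 178) (nat_lit 1) (nat_lit 8) (nat_lit 10) L83397 (by decide +kernel)
theorem L83399 : W_31 (nat_lit 2) (nat_lit 0x2000f000380000001000080000000000000000000000000000000) (nat_lit 0x0) (nat_lit 0x400000000000000008000400000000000000000000000000000000000) := D_31 (nat_lit 159) (nat_lit 142) (nat_lit 226) (nat_lit 5) (nat_lit 6) (nat_lit 8) (nat_lit 6) (nat_lit 5) (nat_lit 13) (by decide +kernel)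
theorem L83400 : W_31 (nat_lit 3) (nat_lit 0xf000380000001000080000000000000000000000000000000) (nat_lit 0x0) (nat_lit 0x400030000000000008000400000000000000000000000000000000000) := T_31 (nat_lit 209) (nat_lit 208) (nat_lit 1) (nat_lit 8) (nat_lit 11) L83399 (by decide +kernel)
theorem L83401 : W_31 (nat_lit 4) (nat_lit 0xd000380000001000080000000000000000000000000000000) (nat_lit 0x0) (nat_lit 0x4003b0002c00000008000400000000000000000000000000000000000) := Q_31 (nat_lit 193) (C_31 L82847 (C_31 L83400 N_31)) (by decide +kernel)
theorem L83402 : W_31 (nat_lit 2) (nat_lit 0xd000380004001000080000000000000000000000000000000) (nat_lit 0x0) (nat_lit 0x800400002000000000000000000000000000000000000000) := D_31 (nat_lit 178) (nat_lit 157) (nat_lit 191) (nat_lit 0) (nat_lit 8) (nat_lit 10) (nat_lit 1) (nat_lit 8) (nat_lit 10) (by decide +kernel)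
theorem L83403 : W_31 (nat_lit 7) (nat_lit 0xd000380004001000080000000000000000000000000000000) (nat_lit 0x0) (nat_lit 0x14000e00070000000400003800100000000000000000000000000000000000) := T_31 (nat_lit 157) (nat_lit 178) (nat_lit 0) (nat_lit 8) (nat_lit 10) L82700 (by decide +kernel)
theorem L83404 : W_31 (nat_lit 2) (nat_lit 0xa000da0038000c0013400b0000000000000000000000000000000) (nat_lit 0x0) (nat_lit 0x800140000000000000000000000000000000000000000000000000000) := D_31 (nat_lit 210) (nat_lit 227) (nat_lit 212) (nat_lit 7) (nat_lit 5) (nat_lit 9) (nat_lit 0) (nat_lit 8) (nat_lit 12) (by decide +kernel)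
theorem L83405 : W_31 (nat_lit 3) (nat_lit 0x2000da0038000c0013400b0000000000000000000000000000000) (nat_lit 0x0) (nat_lit 0x18001c0000000000000000000000000000000000000000000000000000) := T_31 (nat_lit 211) (nat_lit 228) (nat_lit 4) (nat_lit 7) (nat_lit 13) L83404 (by decide +kernel)
theorem L83406 : W_31 (nat_lit 4) (nat_lit 0xda0038000c0013400b0000000000000000000000000000000) (nat_lit 0x0) (nat_lit 0x1c001e0000000000000000000000000000000000000000000000000000) := T_31 (nat_lit 209) (nat_lit 226) (nat_lit 6) (nat_lit 5) (nat_lit 13) L83405 (by decide +kernel)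
theorem L83407 : W_31 (nat_lit 5) (nat_lit 0xda003800040013400b0000000000000000000000000000000) (nat_lit 0x0) (nat_lit 0x1c001e0000000000008000000000000800000000000000000000000000) := T_31 (nat_lit 159) (nat_lit 107) (nat_lit 7) (nat_lit 5) (nat_lit 6) L83406 (by decide +kernel)
theorem L83408 : W_31 (nat_lit 6) (nat_lit 0xda003800040013000b0000000000000000000000000000000) (nat_lit 0x0) (nat_lit 0x1c001e00000000000080000c0000000800000000000000000000000000) := T_31 (nat_lit 138) (nat_lit 139) (nat_lit 2) (nat_lit 2) (nat_lit 8) L83407 (by decide +kernel)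
theorem L83409 : W_31 (nat_lit 7) (nat_lit 0xda003800040013000a0000000000000000000000000000000) (nat_lit 0x0) (nat_lit 0x1c001e00000000000080000c0010001800000000000000000000000000) := T_31 (nat_lit 124) (nat_lit 108) (nat_lit 6) (nat_lit 5) (nat_lit 10) L83408 (by decide +kernel)
theorem L83410 : W_31 (nat_lit 8) (nat_lit 0xda00380004001300080000000000000000000000000000000) (nat_lit 0x0) (nat_lit 0x1c001e00000000000080004c0030001800000000000000000000000000) := T_31 (nat_lit 125) (nat_lit 142) (nat_lit 6) (nat_lit 5) (nat_lit 11) L83409 (by decide +kernel)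
theorem L83411 : W_31 (nat_lit 9) (nat_lit 0xda00380004001200080000000000000000000000000000000) (nat_lit 0x0) (nat_lit 0x1c001e00000000000080005c0038001800000000000000000000000000) := T_31 (nat_lit 140) (nat_lit 123) (nat_lit 4) (nat_lit 5) (nat_lit 11) L83410 (by decide +kernel)
theorem L83412 : W_31 (nat_lit 10) (nat_lit 0xda00380004001000080000000000000000000000000000000) (nat_lit 0x0) (nat_lit 0x1c001f00000000000080007c0038001800000000000000000000000000) := T_31 (nat_lit 141) (nat_lit 208) (nat_lit 5) (nat_lit 5) (nat_lit 8) L83411 (by decide +kernel)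
theorem L83413 : W_31 (nat_lit 11) (nat_lit 0xd800380004001000080000000000000000000000000000000) (nat_lit 0x0) (nat_lit 0x1c001f00006000000080007c0038001800000000000000000000000000) := T_31 (nat_lit 189) (nat_lit 190) (nat_lit 2) (nat_lit 2) (nat_lit 11) L83412 (by decide +kernel)
theorem L83414 : W_31 (nat_lit 12) (nat_lit 0xd000380004001000080000000000000000000000000000000) (nat_lit 0x0) (nat_lit 0x1c001f0000e004000080007c0038001800000000000000000000000000) := T_31 (nat_lit 191) (nat_lit 178) (nat_lit 1) (nat_lit 8) (nat_lit 10) L83413 (by decide +kernel)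
theorem L83415 : W_31 (nat_lit 13) (nat_lit 0xd000380000001000080000000000000000000000000000000) (nat_lit 0x0) (nat_lit 0x14001e001f0000e0040000f8007c0038001800000000000000000000000000) := Q_31 (nat_lit 158) (C_31 L82696 (C_31 L83402 (C_31 L83403 (C_31 L83414 N_31)))) (by decide +kernel)
theorem L83416 : W_31 (nat_lit 14) (nat_lit 0xc000380000001000080000000000000000000000000000000) (nat_lit 0x0) (nat_lit 0x74003e003f0003e0040000f8007c0038001800000000000000000000000000) := Q_31 (nat_lit 192) (C_31 L83396 (C_31 L83398 (C_31 L83401 (C_31 L83415 N_31)))) (by decide +kernel)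
theorem L83417 : W_31 (nat_lit 15) (nat_lit 0x4000380000001000080000000000000000000000000000000) (nat_lit 0x0) (nat_lit 0x74003e003f003be0040000f8007c0038001800000000000000000000000000) := Q_31 (nat_lit 195) (C_31 L5376 (C_31 L83382 (C_31 L83416 N_31))) (by decide +kernel)
theorem L83418 : W_31 (nat_lit 16) (nat_lit 0x4000300000001000080000000000000000000000000000000) (nat_lit 0x0) (nat_lit 0x74003e003f003be004f800f800fc0038001800000000000000000000000000) := Q_31 (nat_lit 175) (C_31 L7397 (C_31 L16752 (C_31 L83381 (C_31 L83417 (C_31 L7418 N_31))))) (by decide +kernel)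
theorem L83419 : W_31 (nat_lit 9) (nat_lit 0xf000300000001000080000000000000000000000000000000) (nat_lit 0x0) (nat_lit 0xe8007c003f0000000c00000000000000000000000000000000000000000000) := T_31 (nat_lit 178) (nat_lit 179) (nat_lit 2) (nat_lit 5) (nat_lit 11) L77858 (by decide +kernel)
theorem L83420 : W_31 (nat_lit 10) (nat_lit 0xe000300000001000080000000000000000000000000000000) (nat_lit 0x0) (nat_lit 0xe8007c003f8001c00c00000000000000000000000000000000000000000000) := Q_31 (nat_lit 192) (C_31 L83419 (C_31 L82737 (C_31 L11585 N_31))) (by decide +kernel)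
theorem L83421 : W_31 (nat_lit 3) (nat_lit 0x180024001e000b00000001000080000000000000000000000000000000) (nat_lit 0x0) (nat_lit 0x8002400180000000000000000000000000000000000000000000000000000) := T_31 (nat_lit 226) (nat_lit 243) (nat_lit 5) (nat_lit 6) (nat_lit 10) L80224 (by decide +kernel)
theorem L83422 : W_31 (nat_lit 4) (nat_lit 0x80024001e000b00000001000080000000000000000000000000000000) (nat_lit 0x0) (nat_lit 0x28003400180000000000000000000000000000000000000000000000000000) := T_31 (nat_lit 228) (nat_lit 245) (nat_lit 7) (nat_lit 6) (nat_lit 10) L83421 (by decide +kernel)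
theorem L83423 : W_31 (nat_lit 5) (nat_lit 0x80024001e000300000001000080000000000000000000000000000000) (nat_lit 0x0) (nat_lit 0x28003400180000001800000000000000000000000000000000000000000000) := T_31 (nat_lit 179) (nat_lit 180) (nat_lit 2) (nat_lit 6) (nat_lit 11) L83422 (by decide +kernel)
theorem L83424 : W_31 (nat_lit 6) (nat_lit 0x24001e000300000001000080000000000000000000000000000000) (nat_lit 0x0) (nat_lit 0x38003c00180000001800000000000000000000000000000000000000000000) := T_31 (nat_lit 227) (nat_lit 244) (nat_lit 6) (nat_lit 6) (nat_lit 14) L83423 (by decide +kernel)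
theorem L83425 : W_31 (nat_lit 7) (nat_lit 0x4001e000300000001000080000000000000000000000000000000) (nat_lit 0x0) (nat_lit 0x38003c00780000001800000000000000000000000000000000000000000000) := T_31 (nat_lit 213) (nat_lit 214) (nat_lit 3) (nat_lit 6) (nat_lit 11) L83424 (by decide +kernel)
theorem L83426 : W_31 (nat_lit 8) (nat_lit 0x1e000300000001000080000000000000000000000000000000) (nat_lit 0x0) (nat_lit 0x38003c007e0000001800000000000000000000000000000000000000000000) := T_31 (nat_lit 210) (nat_lit 209) (nat_lit 1) (nat_lit 9) (nat_lit 11) L83425 (by decide +kernel)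
theorem L83427 : W_31 (nat_lit 9) (nat_lit 0xe000300000001000080000000000000000000000000000000) (nat_lit 0x0) (nat_lit 0x38003c007e0030001800000000000000000000000000000000000000000000) := T_31 (nat_lit 196) (nat_lit 197) (nat_lit 0) (nat_lit 10) (nat_lit 11) L83426 (by decide +kernel)
theorem L83428 : W_31 (nat_lit 2) (nat_lit 0x4000380004001e000f00040001000080000000000000000000000000000000) (nat_lit 0x0) (nat_lit 0x88000400000000000000000000000000000000000000000000000000000000) := D_31 (nat_lit 226) (nat_lit 243) (nat_lit 247) (nat_lit 5) (nat_lit 6) (nat_lit 10) (nat_lit 3) (nat_lit 5) (nat_lit 13) (by decide +kernel)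
theorem L83429 : W_31 (nat_lit 3) (nat_lit 0x380004001e000f00040001000080000000000000000000000000000000) (nat_lit 0x0) (nat_lit 0xc8000400080000000000000000000000000000000000000000000000000000) := T_31 (nat_lit 246) (nat_lit 211) (nat_lit 7) (nat_lit 7) (nat_lit 10) L83428 (by decide +kernel)
theorem L83430 : W_31 (nat_lit 4) (nat_lit 0x180004001e000f00040001000080000000000000000000000000000000) (nat_lit 0x0) (nat_lit 0xc8002400180000000000000000000000000000000000000000000000000000) := T_31 (nat_lit 229) (nat_lit 212) (nat_lit 6) (nat_lit 8) (nat_lit 13) L83429 (by decide +kernel)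
theorem L83431 : W_31 (nat_lit 5) (nat_lit 0x80004001e000f00040001000080000000000000000000000000000000) (nat_lit 0x0) (nat_lit 0xe8003400180000000000000000000000000000000000000000000000000000) := T_31 (nat_lit 228) (nat_lit 245) (nat_lit 7) (nat_lit 6) (nat_lit 10) L83430 (by decide +kernel)
theorem L83432 : W_31 (nat_lit 6) (nat_lit 0x80004001e000f00000001000080000000000000000000000000000000) (nat_lit 0x0) (nat_lit 0xe80034001800000000000c0000000000000000000000000000000000000000) := T_31 (nat_lit 162) (nat_lit 163) (nat_lit 2) (nat_lit 6) (nat_lit 10) L83431 (by decide +kernel)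
theorem L83433 : W_31 (nat_lit 7) (nat_lit 0x4001e000f00000001000080000000000000000000000000000000) (nat_lit 0x0) (nat_lit 0xf8003c001800000000000c0000000000000000000000000000000000000000) := T_31 (nat_lit 227) (nat_lit 244) (nat_lit 6) (nat_lit 6) (nat_lit 14) L83432 (by decide +kernel)
theorem L83434 : W_31 (nat_lit 8) (nat_lit 0x4001e000b00000001000080000000000000000000000000000000) (nat_lit 0x0) (nat_lit 0xf8003c001800010004000c0000000000000000000000000000000000000000) := T_31 (nat_lit 178) (nat_lit 192) (nat_lit 2) (nat_lit 5) (nat_lit 11) L83433 (by decide +kernel)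
theorem L83435 : W_31 (nat_lit 9) (nat_lit 0x4001e000300000001000080000000000000000000000000000000) (nat_lit 0x0) (nat_lit 0xf8003c00180001001c000c0000000000000000000000000000000000000000) := T_31 (nat_lit 179) (nat_lit 180) (nat_lit 2) (nat_lit 6) (nat_lit 11) L83434 (by decide +kernel)
theorem L83436 : W_31 (nat_lit 10) (nat_lit 0x1e000300000001000080000000000000000000000000000000) (nat_lit 0x0) (nat_lit 0xf8003c001e0001001c000c0000000000000000000000000000000000000000) := T_31 (nat_lit 210) (nat_lit 209) (nat_lit 1) (nat_lit 9) (nat_lit 11) L83435 (by decide +kernel)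
theorem L83437 : W_31 (nat_lit 11) (nat_lit 0xe000300000001000080000000000000000000000000000000) (nat_lit 0x0) (nat_lit 0xf8003c001e0031001c000c0000000000000000000000000000000000000000) := T_31 (nat_lit 196) (nat_lit 197) (nat_lit 0) (nat_lit 10) (nat_lit 11) L83436 (by decide +kernel)
theorem L83438 : W_31 (nat_lit 13) (nat_lit 0xc000300000001000080000000000000000000000000000000) (nat_lit 0x0) (nat_lit 0x1f800fc007f8033c01c000c0000000000000000000000000000000000000000) := Q_31 (nat_lit 193) (C_31 L82352 (C_31 L15638 (C_31 L11651 (C_31 L83420 (C_31 L83427 (C_31 L11663 (C_31 L83437 N_31))))))) (by decide +kernel)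
theorem L83448 : W_31 (nat_lit 4) (nat_lit 0x4000000010000f000380000001000080000000000000000000000000000000) (nat_lit 0x0) (nat_lit 0x800040000000c00006000200000000000000000000000000000000000) := T_31 (nat_lit 178) (nat_lit 179) (nat_lit 2) (nat_lit 5) (nat_lit 11) L10188 (by decide +kernel)
theorem L83449 : W_31 (nat_lit 5) (nat_lit 0x10000f000380000001000080000000000000000000000000000000) (nat_lit 0x0) (nat_lit 0x40002800040000000c00006000200000000000000000000000000000000000) := T_31 (nat_lit 246) (nat_lit 229) (nat_lit 4) (nat_lit 8) (nat_lit 14) L83448 (by decide +kernel)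
theorem L83450 : W_31 (nat_lit 6) (nat_lit 0x10000f000300000001000080000000000000000000000000000000) (nat_lit 0x0) (nat_lit 0x40002800040000000cc0006000200000000000000000000000000000000000) := T_31 (nat_lit 175) (nat_lit 174) (nat_lit 3) (nat_lit 4) (nat_lit 10) L83449 (by decide +kernel)
theorem L83451 : W_31 (nat_lit 7) (nat_lit 0xf000300000001000080000000000000000000000000000000) (nat_lit 0x0) (nat_lit 0x40002800340000000cc0006000200000000000000000000000000000000000) := T_31 (nat_lit 212) (nat_lit 213) (nat_lit 3) (nat_lit 5) (nat_lit 11) L83450 (by decide +kernel)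
theorem L83452 : W_31 (nat_lit 2) (nat_lit 0x40000e0012000f000380000001000080000000000000000000000000000000) (nat_lit 0x0) (nat_lit 0x20001000080000000000000000000000000000000000000000000000000000) := D_31 (nat_lit 228) (nat_lit 245) (nat_lit 211) (nat_lit 3) (nat_lit 4) (nat_lit 13) (nat_lit 2) (nat_lit 4) (nat_lit 13) (by decide +kernel)
theorem L83453 : W_31 (nat_lit 3) (nat_lit 0x40000c0012000f000380000001000080000000000000000000000000000000) (nat_lit 0x0) (nat_lit 0x24001200080000000000000000000000000000000000000000000000000000) := T_31 (nat_lit 225) (nat_lit 242) (nat_lit 5) (nat_lit 5) (nat_lit 10) L83452 (by decide +kernel)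
theorem L83454 : W_31 (nat_lit 4) (nat_lit 0xc0012000f000380000001000080000000000000000000000000000000) (nat_lit 0x0) (nat_lit 0x64003200080000000000000000000000000000000000000000000000000000) := T_31 (nat_lit 246) (nat_lit 229) (nat_lit 4) (nat_lit 8) (nat_lit 14) L83453 (by decide +kernel)
theorem L83455 : W_31 (nat_lit 5) (nat_lit 0x40012000f000380000001000080000000000000000000000000000000) (nat_lit 0x0) (nat_lit 0x74003a00080000000000000000000000000000000000000000000000000000) := T_31 (nat_lit 227) (nat_lit 244) (nat_lit 7) (nat_lit 5) (nat_lit 10) L83454 (by decide +kernel)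
theorem L83456 : W_31 (nat_lit 6) (nat_lit 0x40002000f000380000001000080000000000000000000000000000000) (nat_lit 0x0) (nat_lit 0x74003a00380000000000000000000000000000000000000000000000000000) := T_31 (nat_lit 212) (nat_lit 213) (nat_lit 3) (nat_lit 5) (nat_lit 11) L83455 (by decide +kernel)
theorem L83457 : W_31 (nat_lit 7) (nat_lit 0x2000f000380000001000080000000000000000000000000000000) (nat_lit 0x0) (nat_lit 0x7c003e00380000000000000000000000000000000000000000000000000000) := T_31 (nat_lit 226) (nat_lit 243) (nat_lit 6) (nat_lit 5) (nat_lit 14) L83456 (by decide +kernel)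
theorem L83458 : W_31 (nat_lit 8) (nat_lit 0x2000f000300000001000080000000000000000000000000000000) (nat_lit 0x0) (nat_lit 0x7c003e003800000000c0000000000000000000000000000000000000000000) := T_31 (nat_lit 175) (nat_lit 174) (nat_lit 3) (nat_lit 4) (nat_lit 10) L83457 (by decide +kernel)
theorem L83459 : W_31 (nat_lit 9) (nat_lit 0xf000300000001000080000000000000000000000000000000) (nat_lit 0x0) (nat_lit 0x7c003e003b00000000c0000000000000000000000000000000000000000000) := T_31 (nat_lit 209) (nat_lit 208) (nat_lit 1) (nat_lit 8) (nat_lit 11) L83458 (by decide +kernel)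
theorem L83460 : W_31 (nat_lit 2) (nat_lit 0x2000f000780004001000080000000000000000000000000000000) (nat_lit 0x0) (nat_lit 0x800040000000000000000200000000000000000000000000000000000) := D_31 (nat_lit 210) (nat_lit 227) (nat_lit 141) (nat_lit 7) (nat_lit 5) (nat_lit 9) (nat_lit 7) (nat_lit 5) (nat_lit 8) (by decide +kernel)
theorem L83461 : W_31 (nat_lit 3) (nat_lit 0x2000f000780000001000080000000000000000000000000000000) (nat_lit 0x0) (nat_lit 0x800040000000000006000200000000000000000000000000000000000) := T_31 (nat_lit 158) (nat_lit 157) (nat_lit 0) (nat_lit 8) (nat_lit 10) L83460 (by decide +kernel)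
theorem L83462 : W_31 (nat_lit 4) (nat_lit 0xf000780000001000080000000000000000000000000000000) (nat_lit 0x0) (nat_lit 0x800070000000000006000200000000000000000000000000000000000) := T_31 (nat_lit 209) (nat_lit 208) (nat_lit 1) (nat_lit 8) (nat_lit 11) L83461 (by decide +kernel)
theorem L83463 : W_31 (nat_lit 5) (nat_lit 0xf000700000001000080000000000000000000000000000000) (nat_lit 0x0) (nat_lit 0x8000700000000c0006000200000000000000000000000000000000000) := T_31 (nat_lit 175) (nat_lit 174) (nat_lit 3) (nat_lit 4) (nat_lit 10) L83462 (by decide +kernel)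
theorem L83464 : W_31 (nat_lit 6) (nat_lit 0xf000300000001000080000000000000000000000000000000) (nat_lit 0x0) (nat_lit 0x800070000000cc0006000200000000000000000000000000000000000) := T_31 (nat_lit 178) (nat_lit 179) (nat_lit 2) (nat_lit 5) (nat_lit 11) L83463 (by decide +kernel)
theorem L83465 : W_31 (nat_lit 2) (nat_lit 0x4800000012000f000780004001000080000000000000000000000000000000) (nat_lit 0x0) (nat_lit 0x40000000000000000200010000000000000000000000000000000) := D_31 (nat_lit 141) (nat_lit 210) (nat_lit 124) (nat_lit 7) (nat_lit 5) (nat_lit 8) (nat_lit 7) (nat_lit 5) (nat_lit 7) (by decide +kernel)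
theorem L83466 : W_31 (nat_lit 3) (nat_lit 0x4800000012000f000780000001000080000000000000000000000000000000) (nat_lit 0x0) (nat_lit 0x40000000000006000200010000000000000000000000000000000) := T_31 (nat_lit 158) (nat_lit 157) (nat_lit 0) (nat_lit 8) (nat_lit 10) L83465 (by decide +kernel)
theorem L83467 : W_31 (nat_lit 4) (nat_lit 0x4800000012000f000700000001000080000000000000000000000000000000) (nat_lit 0x0) (nat_lit 0x400000000c0006000200010000000000000000000000000000000) := T_31 (nat_lit 175) (nat_lit 174) (nat_lit 3) (nat_lit 4) (nat_lit 10) L83466 (by decide +kernel)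
theorem L83468 : W_31 (nat_lit 5) (nat_lit 0x4800000012000f000300000001000080000000000000000000000000000000) (nat_lit 0x0) (nat_lit 0x40000000cc0006000200010000000000000000000000000000000) := T_31 (nat_lit 178) (nat_lit 179) (nat_lit 2) (nat_lit 5) (nat_lit 11) L83467 (by decide +kernel)
theorem L83469 : W_31 (nat_lit 6) (nat_lit 0x800000012000f000300000001000080000000000000000000000000000000) (nat_lit 0x0) (nat_lit 0x40002000040000000cc0006000200010000000000000000000000000000000) := T_31 (nat_lit 246) (nat_lit 229) (nat_lit 4) (nat_lit 8) (nat_lit 14) L83468 (by decide +kernel)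
theorem L83470 : W_31 (nat_lit 7) (nat_lit 0x12000f000300000001000080000000000000000000000000000000) (nat_lit 0x0) (nat_lit 0x48002400040000000cc0006000200010000000000000000000000000000000) := T_31 (nat_lit 243) (nat_lit 226) (nat_lit 6) (nat_lit 5) (nat_lit 14) L83469 (by decide +kernel)
theorem L83471 : W_31 (nat_lit 8) (nat_lit 0x2000f000300000001000080000000000000000000000000000000) (nat_lit 0x0) (nat_lit 0x48002400340000000cc0006000200010000000000000000000000000000000) := T_31 (nat_lit 212) (nat_lit 213) (nat_lit 3) (nat_lit 5) (nat_lit 11) L83470 (by decide +kernel)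
theorem L83472 : W_31 (nat_lit 9) (nat_lit 0xf000300000001000080000000000000000000000000000000) (nat_lit 0x0) (nat_lit 0x48002400370000000cc0006000200010000000000000000000000000000000) := T_31 (nat_lit 209) (nat_lit 208) (nat_lit 1) (nat_lit 8) (nat_lit 11) L83471 (by decide +kernel)
theorem L83473 : W_31 (nat_lit 14) (nat_lit 0xe000300000001000080000000000000000000000000000000) (nat_lit 0x0) (nat_lit 0xfc007e003f0001000cc0007800300010000000000000000000000000000000) := Q_31 (nat_lit 192) (C_31 L83447 (C_31 L82749 (C_31 L83419 (C_31 L83451 (C_31 L83459 (C_31 L83464 (C_31 L83472 N_31))))))) (by decide +kernel)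
theorem L83474 : W_31 (nat_lit 10) (nat_lit 0xe000300000001000080000000000000000000000000000000) (nat_lit 0x0) (nat_lit 0x7c003e003b8001c00cc0000000000000000000000000000000000000000000) := Q_31 (nat_lit 192) (C_31 L83459 (C_31 L82737 (C_31 L11585 N_31))) (by decide +kernel)
theorem L83475 : W_31 (nat_lit 7) (nat_lit 0xe000300000001000080000000000000000000000000000000) (nat_lit 0x0) (nat_lit 0x800078001c00cc0006000200000000000000000000000000000000000) := Q_31 (nat_lit 192) (C_31 L83464 (C_31 L82737 (C_31 L11585 N_31))) (by decide +kernel)
theorem L83477 : W_31 (nat_lit 2) (nat_lit 0x6000e000300000001000080000000000000000000000000000000) (nat_lit 0x0) (nat_lit 0x98000000000000000000000000000000000000000000000000000) := D_31 (nat_lit 208) (nat_lit 207) (nat_lit 211) (nat_lit 2) (nat_lit 3) (nat_lit 12) (nat_lit 2) (nat_lit 4) (nat_lit 12) (by decide +kernel)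
theorem L83478 : W_31 (nat_lit 2) (nat_lit 0x800040007000e000340000001000080000000000000000000000000000000) (nat_lit 0x0) (nat_lit 0x200000000800000002000000000000000000000000000000000000000) := D_31 (nat_lit 191) (nat_lit 157) (nat_lit 225) (nat_lit 7) (nat_lit 4) (nat_lit 9) (nat_lit 7) (nat_lit 4) (nat_lit 10) (by decide +kernel)
theorem L83479 : W_31 (nat_lit 3) (nat_lit 0x800040006000e000340000001000080000000000000000000000000000000) (nat_lit 0x0) (nat_lit 0x200018000800000002000000000000000000000000000000000000000) := T_31 (nat_lit 208) (nat_lit 207) (nat_lit 2) (nat_lit 3) (nat_lit 12) L83478 (by decide +kernel)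
theorem L83480 : W_31 (nat_lit 4) (nat_lit 0x40006000e000340000001000080000000000000000000000000000000) (nat_lit 0x0) (nat_lit 0x100008000200018000800000002000000000000000000000000000000000000000) := T_31 (nat_lit 243) (nat_lit 260) (nat_lit 6) (nat_lit 5) (nat_lit 15) L83479 (by decide +kernel)
theorem L83481 : W_31 (nat_lit 10) (nat_lit 0xd000300000001000080000000000000000000000000000000) (nat_lit 0x0) (nat_lit 0xfc007e003f0002000cc0006000200010000000000000000000000000000000) := Q_31 (nat_lit 193) (C_31 L83459 (C_31 L83472 (C_31 L83419 (C_31 L83464 (C_31 L83451 N_31))))) (by decide +kernel)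
theorem L83482 : W_31 (nat_lit 10) (nat_lit 0xd000300000001000080000000000000000000000000000000) (nat_lit 0x0) (nat_lit 0x7c003e003b8002c000e0000000000000000000000000000000000000000000) := Q_31 (nat_lit 193) (C_31 L83459 (C_31 L82737 (C_31 L11603 N_31))) (by decide +kernel)
theorem L83483 : W_31 (nat_lit 2) (nat_lit 0x1000d800380004001000080000000000000000000000000000000) (nat_lit 0x0) (nat_lit 0x4000200020000000000000000000000000000000000000000000000000000) := D_31 (nat_lit 225) (nat_lit 209) (nat_lit 242) (nat_lit 5) (nat_lit 5) (nat_lit 9) (nat_lit 6) (nat_lit 4) (nat_lit 14) (by decide +kernel)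
theorem L83484 : W_31 (nat_lit 3) (nat_lit 0xd800380004001000080000000000000000000000000000000) (nat_lit 0x0) (nat_lit 0x4000200030000000000000000200000000000000000000000000000000000) := T_31 (nat_lit 208) (nat_lit 141) (nat_lit 5) (nat_lit 5) (nat_lit 8) L83483 (by decide +kernel)
theorem L83485 : W_31 (nat_lit 2) (nat_lit 0x78000c000d000780004001000080000000000000000000000000000000) (nat_lit 0x0) (nat_lit 0x180000000100000000000000000000000000000000000000000000000000000) := D_31 (nat_lit 247) (nat_lit 248) (nat_lit 212) (nat_lit 3) (nat_lit 6) (nat_lit 13) (nat_lit 7) (nat_lit 8) (nat_lit 10) (by decide +kernel)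
theorem L83486 : W_31 (nat_lit 3) (nat_lit 0x38000c000d000780004001000080000000000000000000000000000000) (nat_lit 0x0) (nat_lit 0x18000c000100000000000000000000000000000000000000000000000000000) := T_31 (nat_lit 230) (nat_lit 231) (nat_lit 0) (nat_lit 10) (nat_lit 13) L83485 (by decide +kernel)
theorem L83487 : W_31 (nat_lit 4) (nat_lit 0x380008000d000780004001000080000000000000000000000000000000) (nat_lit 0x0) (nat_lit 0x18000c000160000000000000000000000000000000000000000000000000000) := T_31 (nat_lit 210) (nat_lit 209) (nat_lit 7) (nat_lit 5) (nat_lit 9) L83486 (by decide +kernel)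
theorem L83488 : W_31 (nat_lit 2) (nat_lit 0x3000d000380004001f00080000000000000000000000000000000) (nat_lit 0x0) (nat_lit 0x8000c0000000000000000000000000000000000000000000000000000) := D_31 (nat_lit 210) (nat_lit 211) (nat_lit 227) (nat_lit 2) (nat_lit 4) (nat_lit 12) (nat_lit 7) (nat_lit 5) (nat_lit 9) (by decide +kernel)
theorem L83489 : W_31 (nat_lit 3) (nat_lit 0x1000d000380004001f00080000000000000000000000000000000) (nat_lit 0x0) (nat_lit 0xa000e0000000000000000000000000000000000000000000000000000) := T_31 (nat_lit 209) (nat_lit 225) (nat_lit 5) (nat_lit 5) (nat_lit 9) L83488 (by decide +kernel)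
theorem L83490 : W_31 (nat_lit 4) (nat_lit 0x1000d000380004001700080000000000000000000000000000000) (nat_lit 0x0) (nat_lit 0xa000e0000000000000000800100000000000000000000000000000000) := T_31 (nat_lit 143) (nat_lit 128) (nat_lit 2) (nat_lit 5) (nat_lit 8) L83489 (by decide +kernel)
theorem L83491 : W_31 (nat_lit 5) (nat_lit 0x1000d000380004001300080000000000000000000000000000000) (nat_lit 0x0) (nat_lit 0xa000e0000000000000000c00120000000000000000000000000000000) := T_31 (nat_lit 142) (nat_lit 125) (nat_lit 6) (nat_lit 5) (nat_lit 11) L83490 (by decide +kernel)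
theorem L83492 : W_31 (nat_lit 6) (nat_lit 0xd000380004001300080000000000000000000000000000000) (nat_lit 0x0) (nat_lit 0xa000f0000800000000000c00120000000000000000000000000000000) := T_31 (nat_lit 208) (nat_lit 191) (nat_lit 5) (nat_lit 5) (nat_lit 8) L83491 (by decide +kernel)
theorem L83493 : W_31 (nat_lit 7) (nat_lit 0xd000380004001200080000000000000000000000000000000) (nat_lit 0x0) (nat_lit 0xa000f0000800000000000d00128000000000000000000000000000000) := T_31 (nat_lit 140) (nat_lit 123) (nat_lit 4) (nat_lit 5) (nat_lit 11) L83492 (by decide +kernel)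
theorem L83494 : W_31 (nat_lit 8) (nat_lit 0xd000380004001000080000000000000000000000000000000) (nat_lit 0x0) (nat_lit 0xa000f0000800000002000f00128000000000000000000000000000000) := Q_31 (nat_lit 141) (C_31 L82698 (C_31 L83493 (C_31 L82694 N_31))) (by decide +kernel)
theorem L83495 : W_31 (nat_lit 4) (nat_lit 0xd000380004001000080000000000000000000000000000000) (nat_lit 0x0) (nat_lit 0x4000200030000800400000000200000000000000000000000000000000000) := T_31 (nat_lit 191) (nat_lit 178) (nat_lit 1) (nat_lit 8) (nat_lit 10) L83484 (by decide +kernel)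
theorem L83496 : W_31 (nat_lit 9) (nat_lit 0xd000380000001000080000000000000000000000000000000) (nat_lit 0x0) (nat_lit 0x14000e000f0000800400007800f00128000000000000000000000000000000) := Q_31 (nat_lit 158) (C_31 L83403 (C_31 L83494 (C_31 L83402 (C_31 L83495 N_31)))) (by decide +kernel)
theorem L83497 : W_31 (nat_lit 10) (nat_lit 0xd000300000001000080000000000000000000000000000000) (nat_lit 0x0) (nat_lit 0x14000e000f00008004c0007800f00128000000000000000000000000000000) := T_31 (nat_lit 175) (nat_lit 174) (nat_lit 3) (nat_lit 4) (nat_lit 10) L83496 (by decide +kernel)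
theorem L83498 : W_31 (nat_lit 10) (nat_lit 0xd000300000001000080000000000000000000000000000000) (nat_lit 0x0) (nat_lit 0xe8007c003f8002c00c00000000000000000000000000000000000000000000) := Q_31 (nat_lit 193) (C_31 L82737 (C_31 L11585 (C_31 L83419 N_31))) (by decide +kernel)
theorem L83499 : W_31 (nat_lit 4) (nat_lit 0xd000300000001000080000000000000000000000000000000) (nat_lit 0x0) (nat_lit 0x2e004c0000000000000000000000000000000000000000000) := T_31 (nat_lit 175) (nat_lit 174) (nat_lit 3) (nat_lit 4) (nat_lit 10) L83398 (by decide +kernel)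
theorem L83500 : W_31 (nat_lit 11) (nat_lit 0xc000300000001000080000000000000000000000000000000) (nat_lit 0x0) (nat_lit 0xfc007e003f8003e00ce0007800f00138000000000000000000000000000000) := Q_31 (nat_lit 192) (C_31 L83481 (C_31 L83482 (C_31 L83497 (C_31 L83498 (C_31 L83499 N_31))))) (by decide +kernel)
theorem L83501 : W_31 (nat_lit 14) (nat_lit 0x4000300000001000080000000000000000000000000000000) (nat_lit 0x0) (nat_lit 0x1fc00fe007f803be01ce00c7800f00138000000000000000000000000000000) := Q_31 (nat_lit 195) (C_31 L5377 (C_31 L82190 (C_31 L83438 (C_31 L83500 N_31)))) (by decide +kernel)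
theorem L83502 : W_31 (nat_lit 2) (nat_lit 0x44003c0001001000080000000000000000000000000000000) (nat_lit 0x0) (nat_lit 0x200020000800000000000000000000000000000000000000) := D_31 (nat_lit 173) (nat_lit 189) (nat_lit 155) (nat_lit 1) (nat_lit 6) (nat_lit 10) (nat_lit 0) (nat_lit 6) (nat_lit 10) (by decide +kernel)
theorem L83503 : W_31 (nat_lit 3) (nat_lit 0x44003c0000001000080000000000000000000000000000000) (nat_lit 0x0) (nat_lit 0x200020003800000000000000000000000000000000000000) := T_31 (nat_lit 156) (nat_lit 157) (nat_lit 0) (nat_lit 7) (nat_lit 10) L83502 (by decide +kernel)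
theorem L83504 : W_31 (nat_lit 4) (nat_lit 0x40003c0000001000080000000000000000000000000000000) (nat_lit 0x0) (nat_lit 0xe00020003800000000000000000000000000000000000000) := T_31 (nat_lit 190) (nat_lit 191) (nat_lit 1) (nat_lit 7) (nat_lit 10) L83503 (by decide +kernel)
theorem L83505 : W_31 (nat_lit 5) (nat_lit 0x4000380000001000080000000000000000000000000000000) (nat_lit 0x0) (nat_lit 0x8e00060003800000000000000000000000000000000000000) := T_31 (nat_lit 174) (nat_lit 195) (nat_lit 3) (nat_lit 4) (nat_lit 10) L83504 (by decide +kernel)
theorem L83506 : W_31 (nat_lit 2) (nat_lit 0x4000380003001000080000000000000000000000000000000) (nat_lit 0x0) (nat_lit 0xc800000000000000000000000000000000000000) := D_31 (nat_lit 158) (nat_lit 155) (nat_lit 159) (nat_lit 3) (nat_lit 2) (nat_lit 9) (nat_lit 3) (nat_lit 3) (nat_lit 9) (by decide +kernel)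
theorem L83507 : W_31 (nat_lit 3) (nat_lit 0x4000380002001000080000000000000000000000000000000) (nat_lit 0x0) (nat_lit 0x4000d800000000000000000000000000000000000000) := T_31 (nat_lit 156) (nat_lit 174) (nat_lit 0) (nat_lit 7) (nat_lit 10) L83506 (by decide +kernel)
theorem L83508 : W_31 (nat_lit 3) (nat_lit 0x48003c0002001000080000000000000000000000000000000) (nat_lit 0x0) (nat_lit 0x400020001000400000000100000000000000000000000000000000000) := T_31 (nat_lit 192) (nat_lit 178) (nat_lit 1) (nat_lit 8) (nat_lit 10) L7165 (by decide +kernel)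
theorem L83509 : W_31 (nat_lit 4) (nat_lit 0x40003c0002001000080000000000000000000000000000000) (nat_lit 0x0) (nat_lit 0x400020001c00400000000100000000000000000000000000000000000) := T_31 (nat_lit 191) (nat_lit 190) (nat_lit 1) (nat_lit 7) (nat_lit 10) L83508 (by decide +kernel)
theorem L83510 : W_31 (nat_lit 5) (nat_lit 0x4000380002001000080000000000000000000000000000000) (nat_lit 0x0) (nat_lit 0x400020001c00440001000100000000000000000000000000000000000) := T_31 (nat_lit 174) (nat_lit 156) (nat_lit 0) (nat_lit 7) (nat_lit 10) L83509 (by decide +kernel)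
theorem L83511 : W_31 (nat_lit 8) (nat_lit 0x4000380000001000080000000000000000000000000000000) (nat_lit 0x0) (nat_lit 0x10000e00070001e0044000f800f00000000000000000000000000000000000) := Q_31 (nat_lit 157) (C_31 L83362 (C_31 L83380 (C_31 L83507 (C_31 L83360 (C_31 L83510 N_31))))) (by decide +kernel)
theorem L83512 : W_31 (nat_lit 2) (nat_lit 0xc001f80004001000080000000000000000000000000000000) (nat_lit 0x0) (nat_lit 0x1c0000000000000000000000000000000000000000) := D_31 (nat_lit 163) (nat_lit 162) (nat_lit 164) (nat_lit 2) (nat_lit 6) (nat_lit 10) (nat_lit 2) (nat_lit 7) (nat_lit 10) (by decide +kernel)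
theorem L83513 : W_31 (nat_lit 3) (nat_lit 0xc000f80004001000080000000000000000000000000000000) (nat_lit 0x0) (nat_lit 0x30001c0000000000000000000000000000000000000000) := T_31 (nat_lit 180) (nat_lit 181) (nat_lit 1) (nat_lit 11) (nat_lit 10) L83512 (by decide +kernel)
theorem L83514 : W_31 (nat_lit 4) (nat_lit 0xc000780004001000080000000000000000000000000000000) (nat_lit 0x0) (nat_lit 0x38001c8000000000000000000000000000000000000000) := T_31 (nat_lit 179) (nat_lit 159) (nat_lit 0) (nat_lit 9) (nat_lit 10) L83513 (by decide +kernel)
theorem L83515 : W_31 (nat_lit 5) (nat_lit 0x4000780004001000080000000000000000000000000000000) (nat_lit 0x0) (nat_lit 0x180038001c8000000000000000000000000000000000000000) := T_31 (nat_lit 195) (nat_lit 196) (nat_lit 3) (nat_lit 5) (nat_lit 10) L83514 (by decide +kernel)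
theorem L83516 : W_31 (nat_lit 6) (nat_lit 0x4000780000001000080000000000000000000000000000000) (nat_lit 0x0) (nat_lit 0x180038001ce000000000000000000000000000000000000000) := T_31 (nat_lit 158) (nat_lit 157) (nat_lit 0) (nat_lit 8) (nat_lit 10) L83515 (by decide +kernel)
theorem L83521 : W_31 (nat_lit 6) (nat_lit 0x4000780004001000080000000000000000000000000000000) (nat_lit 0x0) (nat_lit 0x718018001c8000000000000000000000000000000000000000) := T_31 (nat_lit 192) (nat_lit 191) (nat_lit 1) (nat_lit 8) (nat_lit 10) L83520 (by decide +kernel)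
theorem L83522 : W_31 (nat_lit 7) (nat_lit 0x4000780000001000080000000000000000000000000000000) (nat_lit 0x0) (nat_lit 0x718018001ce000000000000000000000000000000000000000) := T_31 (nat_lit 158) (nat_lit 157) (nat_lit 0) (nat_lit 8) (nat_lit 10) L83521 (by decide +kernel)
theorem L83523 : W_31 (nat_lit 2) (nat_lit 0x1000080005000780000001000080000000000000000000000000000000) (nat_lit 0x0) (nat_lit 0x20000000000018000000000000000000000000000000000000000000000000) := D_31 (nat_lit 195) (nat_lit 196) (nat_lit 245) (nat_lit 3) (nat_lit 5) (nat_lit 10) (nat_lit 6) (nat_lit 7) (nat_lit 14) (by decide +kernel)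
theorem L83524 : W_31 (nat_lit 3) (nat_lit 0x80005000780000001000080000000000000000000000000000000) (nat_lit 0x0) (nat_lit 0x20001000000018000000008000000000000000000000000000000000000000) := T_31 (nat_lit 228) (nat_lit 159) (nat_lit 4) (nat_lit 7) (nat_lit 13) L83523 (by decide +kernel)
theorem L83525 : W_31 (nat_lit 4) (nat_lit 0x80004000780000001000080000000000000000000000000000000) (nat_lit 0x0) (nat_lit 0x20001000000019800000008000000000000000000000000000000000000000) := T_31 (nat_lit 192) (nat_lit 191) (nat_lit 1) (nat_lit 8) (nat_lit 10) L83524 (by decide +kernel)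
theorem L83526 : W_31 (nat_lit 2) (nat_lit 0x38000a0005000780004001000080000000000000000000000000000000) (nat_lit 0x0) (nat_lit 0x600010000000000000000000000000000000000000000000000000000) := D_31 (nat_lit 208) (nat_lit 225) (nat_lit 226) (nat_lit 5) (nat_lit 5) (nat_lit 9) (nat_lit 0) (nat_lit 8) (nat_lit 13) (by decide +kernel)
theorem L83527 : W_31 (nat_lit 3) (nat_lit 0x3800080005000780004001000080000000000000000000000000000000) (nat_lit 0x0) (nat_lit 0x600070000000000000000000000000000000000000000000000000000) := T_31 (nat_lit 209) (nat_lit 210) (nat_lit 7) (nat_lit 5) (nat_lit 9) L83526 (by decide +kernel)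
theorem L83528 : W_31 (nat_lit 4) (nat_lit 0x3000080005000780004001000080000000000000000000000000000000) (nat_lit 0x0) (nat_lit 0x10000e00070000000000000000000000000000000000000000000000000000) := T_31 (nat_lit 227) (nat_lit 244) (nat_lit 5) (nat_lit 7) (nat_lit 10) L83527 (by decide +kernel)
theorem L83529 : W_31 (nat_lit 5) (nat_lit 0x1000080005000780004001000080000000000000000000000000000000) (nat_lit 0x0) (nat_lit 0x50002e00070000000000000000000000000000000000000000000000000000) := T_31 (nat_lit 229) (nat_lit 246) (nat_lit 7) (nat_lit 7) (nat_lit 10) L83528 (by decide +kernel)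
theorem L83530 : W_31 (nat_lit 6) (nat_lit 0x1000080005000780000001000080000000000000000000000000000000) (nat_lit 0x0) (nat_lit 0x50002e00070000000000006000000000000000000000000000000000000000) := T_31 (nat_lit 158) (nat_lit 157) (nat_lit 0) (nat_lit 8) (nat_lit 10) L83529 (by decide +kernel)
theorem L83531 : W_31 (nat_lit 7) (nat_lit 0x80005000780000001000080000000000000000000000000000000) (nat_lit 0x0) (nat_lit 0x50003e0007000000000000e000000000000000000000000000000000000000) := T_31 (nat_lit 228) (nat_lit 159) (nat_lit 4) (nat_lit 7) (nat_lit 13) L83530 (by decide +kernel)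
theorem L83532 : W_31 (nat_lit 8) (nat_lit 0x80004000780000001000080000000000000000000000000000000) (nat_lit 0x0) (nat_lit 0x50003e0007000180000000e000000000000000000000000000000000000000) := T_31 (nat_lit 192) (nat_lit 191) (nat_lit 1) (nat_lit 8) (nat_lit 10) L83531 (by decide +kernel)
theorem L83533 : W_31 (nat_lit 5) (nat_lit 0x380008000d000780000001000080000000000000000000000000000000) (nat_lit 0x0) (nat_lit 0x18000c000160000000000006000000000000000000000000000000000000000) := T_31 (nat_lit 158) (nat_lit 157) (nat_lit 0) (nat_lit 8) (nat_lit 10) L83487 (by decide +kernel)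
theorem L83534 : W_31 (nat_lit 6) (nat_lit 0x300008000d000780000001000080000000000000000000000000000000) (nat_lit 0x0) (nat_lit 0x19000c800160000000000006000000000000000000000000000000000000000) := T_31 (nat_lit 227) (nat_lit 244) (nat_lit 5) (nat_lit 7) (nat_lit 10) L83533 (by decide +kernel)
theorem L83535 : W_31 (nat_lit 7) (nat_lit 0x100008000d000780000001000080000000000000000000000000000000) (nat_lit 0x0) (nat_lit 0x1d000e800160000000000006000000000000000000000000000000000000000) := T_31 (nat_lit 229) (nat_lit 246) (nat_lit 7) (nat_lit 7) (nat_lit 10) L83534 (by decide +kernel)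
theorem L83536 : W_31 (nat_lit 8) (nat_lit 0x100008000c000780000001000080000000000000000000000000000000) (nat_lit 0x0) (nat_lit 0x1d000e800160001800000006000000000000000000000000000000000000000) := T_31 (nat_lit 192) (nat_lit 191) (nat_lit 1) (nat_lit 8) (nat_lit 10) L83535 (by decide +kernel)
theorem L83537 : W_31 (nat_lit 9) (nat_lit 0x8000c000780000001000080000000000000000000000000000000) (nat_lit 0x0) (nat_lit 0x1f000f800160001800000006000000000000000000000000000000000000000) := T_31 (nat_lit 228) (nat_lit 245) (nat_lit 6) (nat_lit 7) (nat_lit 14) L83536 (by decide +kernel)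
theorem L83538 : W_31 (nat_lit 10) (nat_lit 0x80004000780000001000080000000000000000000000000000000) (nat_lit 0x0) (nat_lit 0x1f000f800160019800000006000000000000000000000000000000000000000) := T_31 (nat_lit 195) (nat_lit 196) (nat_lit 3) (nat_lit 5) (nat_lit 10) L83537 (by decide +kernel)
theorem L83539 : W_31 (nat_lit 2) (nat_lit 0x6000a0005000780004001000080000000000000000000000000000000) (nat_lit 0x0) (nat_lit 0x800140000000000000000000000000000000000000000000000000000) := D_31 (nat_lit 210) (nat_lit 212) (nat_lit 227) (nat_lit 1) (nat_lit 8) (nat_lit 12) (nat_lit 7) (nat_lit 5) (nat_lit 9) (by decide +kernel)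
theorem L83540 : W_31 (nat_lit 3) (nat_lit 0x6000a0005000780000001000080000000000000000000000000000000) (nat_lit 0x0) (nat_lit 0x800150000000000004000000000000000000000000000000000000000) := T_31 (nat_lit 158) (nat_lit 208) (nat_lit 5) (nat_lit 5) (nat_lit 9) L83539 (by decide +kernel)
theorem L83541 : W_31 (nat_lit 4) (nat_lit 0x4000a0005000780000001000080000000000000000000000000000000) (nat_lit 0x0) (nat_lit 0x4000a00150000000000004000000000000000000000000000000000000000) := T_31 (nat_lit 225) (nat_lit 242) (nat_lit 5) (nat_lit 5) (nat_lit 10) L83540 (by decide +kernel)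
theorem L83542 : W_31 (nat_lit 5) (nat_lit 0xa0005000780000001000080000000000000000000000000000000) (nat_lit 0x0) (nat_lit 0x4000e0015000000000000c000000000000000000000000000000000000000) := T_31 (nat_lit 226) (nat_lit 159) (nat_lit 6) (nat_lit 5) (nat_lit 13) L83541 (by decide +kernel)
theorem L83543 : W_31 (nat_lit 2) (nat_lit 0xa000d000780004001000080000000000000000000000000000000) (nat_lit 0x0) (nat_lit 0x200050000000000000000000000000000000000000000000000000000) := D_31 (nat_lit 208) (nat_lit 210) (nat_lit 225) (nat_lit 2) (nat_lit 4) (nat_lit 12) (nat_lit 5) (nat_lit 5) (nat_lit 9) (by decide +kernel)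
theorem L83544 : W_31 (nat_lit 3) (nat_lit 0xa0005000780004001000080000000000000000000000000000000) (nat_lit 0x0) (nat_lit 0x200050018000000000000000000000000000000000000000000000000) := T_31 (nat_lit 195) (nat_lit 196) (nat_lit 3) (nat_lit 5) (nat_lit 10) L83543 (by decide +kernel)
theorem L83545 : W_31 (nat_lit 4) (nat_lit 0xa0005000780000001000080000000000000000000000000000000) (nat_lit 0x0) (nat_lit 0x200050018000000006000000000000000000000000000000000000000) := T_31 (nat_lit 158) (nat_lit 157) (nat_lit 0) (nat_lit 8) (nat_lit 10) L83544 (by decide +kernel)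
theorem L83546 : W_31 (nat_lit 3) (nat_lit 0x100006001a000d000780000001000080000000000000000000000000000000) (nat_lit 0x0) (nat_lit 0x200068002000000000000000000000000000000000000000000000000000000000) := T_31 (nat_lit 246) (nat_lit 229) (nat_lit 4) (nat_lit 8) (nat_lit 14) L81944 (by decide +kernel)
theorem L83547 : W_31 (nat_lit 4) (nat_lit 0x100006001a0005000780000001000080000000000000000000000000000000) (nat_lit 0x0) (nat_lit 0x200068002000000018000000000000000000000000000000000000000000000000) := T_31 (nat_lit 195) (nat_lit 196) (nat_lit 3) (nat_lit 5) (nat_lit 10) L83546 (by decide +kernel)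
theorem L83548 : W_31 (nat_lit 5) (nat_lit 0x6001a0005000780000001000080000000000000000000000000000000) (nat_lit 0x0) (nat_lit 0x200078002800000018000000000000000000000000000000000000000000000000) := T_31 (nat_lit 244) (nat_lit 227) (nat_lit 7) (nat_lit 5) (nat_lit 10) L83547 (by decide +kernel)
theorem L83549 : W_31 (nat_lit 6) (nat_lit 0x6000a0005000780000001000080000000000000000000000000000000) (nat_lit 0x0) (nat_lit 0x200078002800140018000000000000000000000000000000000000000000000000) := T_31 (nat_lit 212) (nat_lit 210) (nat_lit 1) (nat_lit 8) (nat_lit 12) L83548 (by decide +kernel)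
theorem L83550 : W_31 (nat_lit 7) (nat_lit 0x4000a0005000780000001000080000000000000000000000000000000) (nat_lit 0x0) (nat_lit 0x20007c002a00140018000000000000000000000000000000000000000000000000) := T_31 (nat_lit 225) (nat_lit 242) (nat_lit 5) (nat_lit 5) (nat_lit 10) L83549 (by decide +kernel)
theorem L83551 : W_31 (nat_lit 8) (nat_lit 0xa0005000780000001000080000000000000000000000000000000) (nat_lit 0x0) (nat_lit 0x20007c002e00140018000000008000000000000000000000000000000000000000) := T_31 (nat_lit 226) (nat_lit 159) (nat_lit 6) (nat_lit 5) (nat_lit 13) L83550 (by decide +kernel)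
theorem L83552 : W_31 (nat_lit 2) (nat_lit 0xa000d000780004001000080000000000000000000000000000000) (nat_lit 0x0) (nat_lit 0x400000000000000008000400000000000000000000000000000000000) := D_31 (nat_lit 159) (nat_lit 226) (nat_lit 142) (nat_lit 6) (nat_lit 5) (nat_lit 13) (nat_lit 6) (nat_lit 5) (nat_lit 12) (by decide +kernel)
theorem L83553 : W_31 (nat_lit 3) (nat_lit 0xa000d000780000001000080000000000000000000000000000000) (nat_lit 0x0) (nat_lit 0x40000000000000000e000400000000000000000000000000000000000) := T_31 (nat_lit 158) (nat_lit 157) (nat_lit 0) (nat_lit 8) (nat_lit 10) L83552 (by decide +kernel)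
theorem L83554 : W_31 (nat_lit 4) (nat_lit 0xa0005000780000001000080000000000000000000000000000000) (nat_lit 0x0) (nat_lit 0x40000001800000000e000400000000000000000000000000000000000) := T_31 (nat_lit 195) (nat_lit 196) (nat_lit 3) (nat_lit 5) (nat_lit 10) L83553 (by decide +kernel)
theorem L83555 : W_31 (nat_lit 9) (nat_lit 0x80005000780000001000080000000000000000000000000000000) (nat_lit 0x0) (nat_lit 0x20007c002e0017001800000000e000400000000000000000000000000000000000) := Q_31 (nat_lit 209) (C_31 L83542 (C_31 L83545 (C_31 L83551 (C_31 L83554 N_31)))) (by decide +kernel)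
theorem L83556 : W_31 (nat_lit 10) (nat_lit 0x80004000780000001000080000000000000000000000000000000) (nat_lit 0x0) (nat_lit 0x20007c002e0017001980000000e000400000000000000000000000000000000000) := T_31 (nat_lit 192) (nat_lit 191) (nat_lit 1) (nat_lit 8) (nat_lit 10) L83555 (by decide +kernel)
theorem L83557 : W_31 (nat_lit 2) (nat_lit 0x8000c000780000001000080000000000000000000000000000000) (nat_lit 0x0) (nat_lit 0x20001000000000000000008000000000000000000000000000000000000000) := D_31 (nat_lit 228) (nat_lit 245) (nat_lit 159) (nat_lit 6) (nat_lit 7) (nat_lit 14) (nat_lit 4) (nat_lit 7) (nat_lit 13) (by decide +kernel)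
theorem L83558 : W_31 (nat_lit 3) (nat_lit 0x80004000780000001000080000000000000000000000000000000) (nat_lit 0x0) (nat_lit 0x20001000000018000000008000000000000000000000000000000000000000) := T_31 (nat_lit 195) (nat_lit 196) (nat_lit 3) (nat_lit 5) (nat_lit 10) L83557 (by decide +kernel)
theorem L83559 : W_31 (nat_lit 11) (nat_lit 0x4000780000001000080000000000000000000000000000000) (nat_lit 0x0) (nat_lit 0x2001fc00fe001f001980000000e000400000000000000000000000000000000000) := Q_31 (nat_lit 211) (C_31 L83525 (C_31 L83532 (C_31 L83538 (C_31 L83556 (C_31 L83558 N_31))))) (by decide +kernel)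
theorem L83560 : W_31 (nat_lit 2) (nat_lit 0x4000f80000001000080000000000000000000000000000000) (nat_lit 0x0) (nat_lit 0x38000000000000000000000000000000000000000000000000) := D_31 (nat_lit 196) (nat_lit 195) (nat_lit 197) (nat_lit 3) (nat_lit 5) (nat_lit 10) (nat_lit 3) (nat_lit 6) (nat_lit 10) (by decide +kernel)
theorem L83561 : W_31 (nat_lit 2) (nat_lit 0x24000f80080001000080000000000000000000000000000000) (nat_lit 0x0) (nat_lit 0x40001000100000000000000000000000000000000000000000) := D_31 (nat_lit 180) (nat_lit 198) (nat_lit 164) (nat_lit 3) (nat_lit 7) (nat_lit 10) (nat_lit 2) (nat_lit 7) (nat_lit 10) (by decide +kernel)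
theorem L83562 : W_31 (nat_lit 3) (nat_lit 0x24000f80000001000080000000000000000000000000000000) (nat_lit 0x0) (nat_lit 0x400010001c0000000000000000000000000000000000000000) := T_31 (nat_lit 163) (nat_lit 162) (nat_lit 2) (nat_lit 6) (nat_lit 10) L83561 (by decide +kernel)
theorem L83563 : W_31 (nat_lit 4) (nat_lit 0x4000f80000001000080000000000000000000000000000000) (nat_lit 0x0) (nat_lit 0x700010001c0000000000000000000000000000000000000000) := T_31 (nat_lit 197) (nat_lit 196) (nat_lit 3) (nat_lit 6) (nat_lit 10) L83562 (by decide +kernel)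
theorem L83564 : W_31 (nat_lit 2) (nat_lit 0x5003f80080001000080000000000000000000000000000000) (nat_lit 0x0) (nat_lit 0xe0000000000000000000000000000000000000000000000000) := D_31 (nat_lit 198) (nat_lit 197) (nat_lit 199) (nat_lit 3) (nat_lit 7) (nat_lit 10) (nat_lit 3) (nat_lit 8) (nat_lit 10) (by decide +kernel)
theorem L83565 : W_31 (nat_lit 3) (nat_lit 0x5001f80080001000080000000000000000000000000000000) (nat_lit 0x0) (nat_lit 0xe8002000000000000000000000000000000000000000000000) := T_31 (nat_lit 181) (nat_lit 195) (nat_lit 1) (nat_lit 11) (nat_lit 10) L83564 (by decide +kernel)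
theorem L83566 : W_31 (nat_lit 4) (nat_lit 0x5000f80080001000080000000000000000000000000000000) (nat_lit 0x0) (nat_lit 0xe8003000100000000000000000000000000000000000000000) := T_31 (nat_lit 180) (nat_lit 164) (nat_lit 2) (nat_lit 7) (nat_lit 10) L83565 (by decide +kernel)
theorem L83567 : W_31 (nat_lit 5) (nat_lit 0x4000f80080001000080000000000000000000000000000000) (nat_lit 0x0) (nat_lit 0xe9803000100000000000000000000000000000000000000000) := T_31 (nat_lit 192) (nat_lit 191) (nat_lit 1) (nat_lit 8) (nat_lit 10) L83566 (by decide +kernel)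
theorem L83568 : W_31 (nat_lit 6) (nat_lit 0x4000f80000001000080000000000000000000000000000000) (nat_lit 0x0) (nat_lit 0xe98030001c0000000000000000000000000000000000000000) := T_31 (nat_lit 163) (nat_lit 162) (nat_lit 2) (nat_lit 6) (nat_lit 10) L83567 (by decide +kernel)
theorem L83569 : W_31 (nat_lit 2) (nat_lit 0x4001f80084001000080000000000000000000000000000000) (nat_lit 0x0) (nat_lit 0x18002000000000000000000000000000000000000000000000) := D_31 (nat_lit 195) (nat_lit 181) (nat_lit 196) (nat_lit 1) (nat_lit 11) (nat_lit 10) (nat_lit 3) (nat_lit 5) (nat_lit 10) (by decide +kernel)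
theorem L83570 : W_31 (nat_lit 3) (nat_lit 0x4000f80084001000080000000000000000000000000000000) (nat_lit 0x0) (nat_lit 0x18003000100000000000000000000000000000000000000000) := T_31 (nat_lit 180) (nat_lit 164) (nat_lit 2) (nat_lit 7) (nat_lit 10) L83569 (by decide +kernel)
theorem L83571 : W_31 (nat_lit 4) (nat_lit 0x4000f80080001000080000000000000000000000000000000) (nat_lit 0x0) (nat_lit 0x18003000106000000000000000000000000000000000000000) := T_31 (nat_lit 158) (nat_lit 157) (nat_lit 0) (nat_lit 8) (nat_lit 10) L83570 (by decide +kernel)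
theorem L83572 : W_31 (nat_lit 5) (nat_lit 0x4000f80000001000080000000000000000000000000000000) (nat_lit 0x0) (nat_lit 0x180030001c6000000000000000000000000000000000000000) := T_31 (nat_lit 163) (nat_lit 162) (nat_lit 2) (nat_lit 6) (nat_lit 10) L83571 (by decide +kernel)
theorem L83573 : W_31 (nat_lit 7) (nat_lit 0x4000780000001000080000000000000000000000000000000) (nat_lit 0x0) (nat_lit 0xf98038001c6000000000000000000000000000000000000000) := Q_31 (nat_lit 179) (C_31 L83560 (C_31 L83563 (C_31 L83568 (C_31 L83572 N_31)))) (by decide +kernel)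
theorem L83574 : W_31 (nat_lit 3) (nat_lit 0x5000f80080001000080000000000000000000000000000000) (nat_lit 0x0) (nat_lit 0x18003000100000000000000000000000000000000000000000) := T_31 (nat_lit 195) (nat_lit 196) (nat_lit 3) (nat_lit 5) (nat_lit 10) L7658 (by decide +kernel)
theorem L83575 : W_31 (nat_lit 4) (nat_lit 0x5000f80000001000080000000000000000000000000000000) (nat_lit 0x0) (nat_lit 0x180030001c0000000000000000000000000000000000000000) := T_31 (nat_lit 163) (nat_lit 162) (nat_lit 2) (nat_lit 6) (nat_lit 10) L83574 (by decide +kernel)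
theorem L83576 : W_31 (nat_lit 5) (nat_lit 0x4000f80000001000080000000000000000000000000000000) (nat_lit 0x0) (nat_lit 0x198030001c0000000000000000000000000000000000000000) := T_31 (nat_lit 192) (nat_lit 191) (nat_lit 1) (nat_lit 8) (nat_lit 10) L83575 (by decide +kernel)
theorem L83577 : W_31 (nat_lit 7) (nat_lit 0x4000780000001000080000000000000000000000000000000) (nat_lit 0x0) (nat_lit 0xf98038001c0000000000000000000000000000000000000000) := Q_31 (nat_lit 179) (C_31 L83568 (C_31 L83563 (C_31 L83560 (C_31 L83576 N_31)))) (by decide +kernel)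
theorem L83583 : W_31 (nat_lit 7) (nat_lit 0x5000780000001000080000000000000000000000000000000) (nat_lit 0x0) (nat_lit 0xe80038001ce000000000000000000000000000000000000000) := T_31 (nat_lit 158) (nat_lit 157) (nat_lit 0) (nat_lit 8) (nat_lit 10) L83582 (by decide +kernel)
theorem L83584 : W_31 (nat_lit 8) (nat_lit 0x4000780000001000080000000000000000000000000000000) (nat_lit 0x0) (nat_lit 0xe98038001ce000000000000000000000000000000000000000) := T_31 (nat_lit 192) (nat_lit 191) (nat_lit 1) (nat_lit 8) (nat_lit 10) L83583 (by decide +kernel)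
theorem L83585 : W_31 (nat_lit 12) (nat_lit 0x4000380000001000080000000000000000000000000000000) (nat_lit 0x0) (nat_lit 0x2001fc00fe001f00f9803c001ce000400000000000000000000000000000000000) := Q_31 (nat_lit 178) (C_31 L83516 (C_31 L83522 (C_31 L83559 (C_31 L83573 (C_31 L83577 (C_31 L83584 N_31)))))) (by decide +kernel)
theorem L83586 : W_31 (nat_lit 13) (nat_lit 0x4000300000001000080000000000000000000000000000000) (nat_lit 0x0) (nat_lit 0x2001fc00fe001f00f9e03ce01cf800f00000000000000000000000000000000000) := Q_31 (nat_lit 175) (C_31 L83505 (C_31 L83511 (C_31 L83585 (C_31 L14148 N_31)))) (by decide +kernel)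
theorem L83587 : W_31 (nat_lit 9) (nat_lit 0x7000300000001000080000000000000000000000000000000) (nat_lit 0x0) (nat_lit 0x70003c001f8000c00060000000000000000000000000000000000000000000) := T_31 (nat_lit 191) (nat_lit 190) (nat_lit 2) (nat_lit 3) (nat_lit 11) L83187 (by decide +kernel)
theorem L83591 : W_31 (nat_lit 2) (nat_lit 0x10001f000300000001000080000000000000000000000000000000) (nat_lit 0x0) (nat_lit 0x1c00000000000000000000000000000000000000000000) := D_31 (nat_lit 179) (nat_lit 178) (nat_lit 180) (nat_lit 2) (nat_lit 5) (nat_lit 11) (nat_lit 2) (nat_lit 6) (nat_lit 11) (by decide +kernel)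
theorem L83592 : W_31 (nat_lit 3) (nat_lit 0x10000f000300000001000080000000000000000000000000000000) (nat_lit 0x0) (nat_lit 0x30001c00000000000000000000000000000000000000000000) := T_31 (nat_lit 196) (nat_lit 197) (nat_lit 0) (nat_lit 10) (nat_lit 11) L83591 (by decide +kernel)
theorem L83593 : W_31 (nat_lit 4) (nat_lit 0xf000300000001000080000000000000000000000000000000) (nat_lit 0x0) (nat_lit 0x300030001c00000000000000000000000000000000000000000000) := T_31 (nat_lit 212) (nat_lit 213) (nat_lit 3) (nat_lit 5) (nat_lit 11) L83592 (by decide +kernel)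
theorem L83596 : W_31 (nat_lit 10) (nat_lit 0x7000300000001000080000000000000000000000000000000) (nat_lit 0x0) (nat_lit 0xe8007c003f0038001c00000000000000000000000000000000000000000000) := Q_31 (nat_lit 195) (C_31 L83590 (C_31 L83419 (C_31 L83593 (C_31 L83595 N_31)))) (by decide +kernel)
theorem L83597 : W_31 (nat_lit 11) (nat_lit 0x6000300000001000080000000000000000000000000000000) (nat_lit 0x0) (nat_lit 0xf8007c003f8039c01c60000000000000000000000000000000000000000000) := Q_31 (nat_lit 192) (C_31 L12149 (C_31 L83587 (C_31 L83596 N_31))) (by decide +kernel)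
theorem L83598 : W_31 (nat_lit 2) (nat_lit 0x4000b0007800300000001400080000000000000000000000000000000) (nat_lit 0x0) (nat_lit 0x60002000000000000000000000000000000000000000) := D_31 (nat_lit 174) (nat_lit 173) (nat_lit 157) (nat_lit 0) (nat_lit 7) (nat_lit 11) (nat_lit 7) (nat_lit 4) (nat_lit 9) (by decide +kernel)
theorem L83599 : W_31 (nat_lit 3) (nat_lit 0xb0007800300000001400080000000000000000000000000000000) (nat_lit 0x0) (nat_lit 0x8000400000000000060002000000000000000000000000000000000000000) := T_31 (nat_lit 226) (nat_lit 243) (nat_lit 6) (nat_lit 5) (nat_lit 14) L83598 (by decide +kernel)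
theorem L83600 : W_31 (nat_lit 4) (nat_lit 0xb0007800300000001000080000000000000000000000000000000) (nat_lit 0x0) (nat_lit 0x800040000000000006000a000400000000000000000000000000000000000) := T_31 (nat_lit 142) (nat_lit 159) (nat_lit 7) (nat_lit 6) (nat_lit 8) L83599 (by decide +kernel)
theorem L83601 : W_31 (nat_lit 5) (nat_lit 0x90007800300000001000080000000000000000000000000000000) (nat_lit 0x0) (nat_lit 0x800040002000800006000a000400000000000000000000000000000000000) := T_31 (nat_lit 209) (nat_lit 195) (nat_lit 1) (nat_lit 8) (nat_lit 11) L83600 (by decide +kernel)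
theorem L83602 : W_31 (nat_lit 6) (nat_lit 0x10007800300000001000080000000000000000000000000000000) (nat_lit 0x0) (nat_lit 0x80004001a000800006000a000400000000000000000000000000000000000) := T_31 (nat_lit 211) (nat_lit 212) (nat_lit 3) (nat_lit 4) (nat_lit 11) L83601 (by decide +kernel)
theorem L83603 : W_31 (nat_lit 7) (nat_lit 0x7800300000001000080000000000000000000000000000000) (nat_lit 0x0) (nat_lit 0x80004001b800800006000a000400000000000000000000000000000000000) := T_31 (nat_lit 208) (nat_lit 207) (nat_lit 1) (nat_lit 7) (nat_lit 11) L83602 (by decide +kernel)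
theorem L83604 : W_31 (nat_lit 8) (nat_lit 0x7000300000001000080000000000000000000000000000000) (nat_lit 0x0) (nat_lit 0x80004001b8008c0006000a000400000000000000000000000000000000000) := T_31 (nat_lit 191) (nat_lit 190) (nat_lit 2) (nat_lit 3) (nat_lit 11) L83603 (by decide +kernel)
theorem L83606 : W_31 (nat_lit 9) (nat_lit 0x6000300000001000080000000000000000000000000000000) (nat_lit 0x0) (nat_lit 0x480024003f8039c01c6000a000400000000000000000000000000000000000) := Q_31 (nat_lit 192) (C_31 L12149 (C_31 L83604 (C_31 L83605 N_31))) (by decide +kernel)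
theorem L83607 : W_31 (nat_lit 2) (nat_lit 0x1001f800340000001000080000000000000000000000000000000) (nat_lit 0x0) (nat_lit 0x700000000000000000000000000000000000000000000000000000) := D_31 (nat_lit 213) (nat_lit 212) (nat_lit 214) (nat_lit 3) (nat_lit 5) (nat_lit 11) (nat_lit 3) (nat_lit 6) (nat_lit 11) (by decide +kernel)
theorem L83608 : W_31 (nat_lit 3) (nat_lit 0x1000f800340000001000080000000000000000000000000000000) (nat_lit 0x0) (nat_lit 0x700030000000000000000000000000000000000000000000000000) := T_31 (nat_lit 196) (nat_lit 197) (nat_lit 0) (nat_lit 10) (nat_lit 11) L83607 (by decide +kernel)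
theorem L83609 : W_31 (nat_lit 4) (nat_lit 0x10007800340000001000080000000000000000000000000000000) (nat_lit 0x0) (nat_lit 0x720038000000000000000000000000000000000000000000000000) := T_31 (nat_lit 195) (nat_lit 209) (nat_lit 1) (nat_lit 8) (nat_lit 11) L83608 (by decide +kernel)
theorem L83610 : W_31 (nat_lit 5) (nat_lit 0x10007800300000001000080000000000000000000000000000000) (nat_lit 0x0) (nat_lit 0x720038000060000000000000000000000000000000000000000000) := T_31 (nat_lit 174) (nat_lit 173) (nat_lit 0) (nat_lit 7) (nat_lit 11) L83609 (by decide +kernel)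
theorem L83611 : W_31 (nat_lit 6) (nat_lit 0x7800300000001000080000000000000000000000000000000) (nat_lit 0x0) (nat_lit 0x738038000060000000000000000000000000000000000000000000) := T_31 (nat_lit 208) (nat_lit 207) (nat_lit 1) (nat_lit 7) (nat_lit 11) L83610 (by decide +kernel)
theorem L83612 : W_31 (nat_lit 7) (nat_lit 0x7000300000001000080000000000000000000000000000000) (nat_lit 0x0) (nat_lit 0x738038c00060000000000000000000000000000000000000000000) := T_31 (nat_lit 191) (nat_lit 190) (nat_lit 2) (nat_lit 3) (nat_lit 11) L83611 (by decide +kernel)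
theorem L83613 : W_31 (nat_lit 9) (nat_lit 0x6000300000001000080000000000000000000000000000000) (nat_lit 0x0) (nat_lit 0x48002400778039c01c60008000400000000000000000000000000000000000) := Q_31 (nat_lit 192) (C_31 L83605 (C_31 L12149 (C_31 L83612 N_31))) (by decide +kernel)
theorem L83614 : W_31 (nat_lit 2) (nat_lit 0x3800300012002f000300008001000080000000000000000000000000000000) (nat_lit 0x0) (nat_lit 0xc800000000000000000000000000000000000000000000000000000000) := D_31 (nat_lit 230) (nat_lit 231) (nat_lit 227) (nat_lit 1) (nat_lit 10) (nat_lit 13) (nat_lit 1) (nat_lit 9) (nat_lit 13) (by decide +kernel)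
theorem L83615 : W_31 (nat_lit 3) (nat_lit 0x2800300012002f000300008001000080000000000000000000000000000000) (nat_lit 0x0) (nat_lit 0x1400c800000000000000000000000000000000000000000000000000000000) := T_31 (nat_lit 244) (nat_lit 242) (nat_lit 2) (nat_lit 4) (nat_lit 14) L83614 (by decide +kernel)
theorem L83616 : W_31 (nat_lit 4) (nat_lit 0x800300012002f000300008001000080000000000000000000000000000000) (nat_lit 0x0) (nat_lit 0x3400c800000000000400000000000000000000000000000000000000000000) := T_31 (nat_lit 245) (nat_lit 178) (nat_lit 5) (nat_lit 8) (nat_lit 10) L83615 (by decide +kernel)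
theorem L83617 : W_31 (nat_lit 5) (nat_lit 0x800200012002f000300008001000080000000000000000000000000000000) (nat_lit 0x0) (nat_lit 0x3400d800080000000400000000000000000000000000000000000000000000) := T_31 (nat_lit 228) (nat_lit 211) (nat_lit 4) (nat_lit 7) (nat_lit 13) L83616 (by decide +kernel)
theorem L83618 : W_31 (nat_lit 6) (nat_lit 0x800200012000f000300008001000080000000000000000000000000000000) (nat_lit 0x0) (nat_lit 0x3400d800080030000400000000000000000000000000000000000000000000) := T_31 (nat_lit 197) (nat_lit 196) (nat_lit 0) (nat_lit 10) (nat_lit 11) L83617 (by decide +kernel)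
theorem L83619 : W_31 (nat_lit 7) (nat_lit 0x800200012000f000300000001000080000000000000000000000000000000) (nat_lit 0x0) (nat_lit 0x3400d800080030000400008000400000000000000000000000000000000000) := T_31 (nat_lit 159) (nat_lit 142) (nat_lit 5) (nat_lit 6) (nat_lit 8) L83618 (by decide +kernel)
theorem L83620 : W_31 (nat_lit 8) (nat_lit 0x200012000f000300000001000080000000000000000000000000000000) (nat_lit 0x0) (nat_lit 0x3c00dc00080030000400008000400000000000000000000000000000000000) := T_31 (nat_lit 243) (nat_lit 226) (nat_lit 6) (nat_lit 5) (nat_lit 14) L83619 (by decide +kernel)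
theorem L83621 : W_31 (nat_lit 9) (nat_lit 0x12000f000300000001000080000000000000000000000000000000) (nat_lit 0x0) (nat_lit 0x7c00fc00080030000400008000400000000000000000000000000000000000) := T_31 (nat_lit 229) (nat_lit 246) (nat_lit 4) (nat_lit 8) (nat_lit 14) L83620 (by decide +kernel)
theorem L83622 : W_31 (nat_lit 10) (nat_lit 0x10000f000300000001000080000000000000000000000000000000) (nat_lit 0x0) (nat_lit 0x7c00fc000b0030000400008000400000000000000000000000000000000000) := T_31 (nat_lit 209) (nat_lit 208) (nat_lit 1) (nat_lit 8) (nat_lit 11) L83621 (by decide +kernel)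
theorem L83623 : W_31 (nat_lit 11) (nat_lit 0xf000300000001000080000000000000000000000000000000) (nat_lit 0x0) (nat_lit 0x7c00fc003b0030000400008000400000000000000000000000000000000000) := T_31 (nat_lit 212) (nat_lit 213) (nat_lit 3) (nat_lit 5) (nat_lit 11) L83622 (by decide +kernel)
theorem L83635 : W_31 (nat_lit 12) (nat_lit 0x7000300000001000080000000000000000000000000000000) (nat_lit 0x0) (nat_lit 0xfc00fc007b0038001c00008000400000000000000000000000000000000000) := Q_31 (nat_lit 195) (C_31 L83623 (C_31 L83626 (C_31 L83634 (C_31 L83595 N_31)))) (by decide +kernel)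
theorem L83636 : W_31 (nat_lit 13) (nat_lit 0x6000300000001000080000000000000000000000000000000) (nat_lit 0x0) (nat_lit 0xfc00fc007b8039c01c60008000400000000000000000000000000000000000) := Q_31 (nat_lit 192) (C_31 L83612 (C_31 L12149 (C_31 L83635 N_31))) (by decide +kernel)
theorem L83637 : W_31 (nat_lit 2) (nat_lit 0x1000070006000300008001000080000000000000000000000000000000) (nat_lit 0x0) (nat_lit 0x19000000000000000000000000000000000000000000000000) := D_31 (nat_lit 195) (nat_lit 196) (nat_lit 192) (nat_lit 1) (nat_lit 9) (nat_lit 11) (nat_lit 1) (nat_lit 8) (nat_lit 11) (by decide +kernel)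
theorem L83638 : W_31 (nat_lit 3) (nat_lit 0x1000060006000300008001000080000000000000000000000000000000) (nat_lit 0x0) (nat_lit 0x18019000000000000000000000000000000000000000000000000) := T_31 (nat_lit 208) (nat_lit 207) (nat_lit 2) (nat_lit 3) (nat_lit 12) L83637 (by decide +kernel)
theorem L83639 : W_31 (nat_lit 4) (nat_lit 0x1000040006000300008001000080000000000000000000000000000000) (nat_lit 0x0) (nat_lit 0x400038019000000000000000000000000000000000000000000000000) := T_31 (nat_lit 209) (nat_lit 226) (nat_lit 5) (nat_lit 6) (nat_lit 9) L83638 (by decide +kernel)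
theorem L83640 : W_31 (nat_lit 5) (nat_lit 0x40006000300008001000080000000000000000000000000000000) (nat_lit 0x0) (nat_lit 0x14000b8019000000000000000000000000000000000000000000000000) := T_31 (nat_lit 228) (nat_lit 211) (nat_lit 7) (nat_lit 6) (nat_lit 9) L83639 (by decide +kernel)
theorem L83641 : W_31 (nat_lit 6) (nat_lit 0x6000300008001000080000000000000000000000000000000) (nat_lit 0x0) (nat_lit 0x38001c000f8019000000000000000000000000000000000000000000000000) := Q_31 (nat_lit 210) (C_31 L15183 (C_31 L14862 (C_31 L83640 N_31))) (by decide +kernel)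
theorem L83642 : W_31 (nat_lit 7) (nat_lit 0x6000300000001000080000000000000000000000000000000) (nat_lit 0x0) (nat_lit 0x38001c000f8019c0040000e000e00130000000000000000000000000000000) := Q_31 (nat_lit 159) (C_31 L83213 (C_31 L83324 (C_31 L83641 N_31))) (by decide +kernel)
theorem L83651 : W_31 (nat_lit 2) (nat_lit 0x7a0018000f000700000001000080000000000000000000000000000000) (nat_lit 0x0) (nat_lit 0x18000040000000000000000000000000000000000000000000000000000) := D_31 (nat_lit 231) (nat_lit 232) (nat_lit 210) (nat_lit 0) (nat_lit 11) (nat_lit 13) (nat_lit 0) (nat_lit 10) (nat_lit 13) (by decide +kernel)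
theorem L83652 : W_31 (nat_lit 3) (nat_lit 0x3a0018000f000700000001000080000000000000000000000000000000) (nat_lit 0x0) (nat_lit 0x8001c000040000000000000000000000000000000000000000000000000000) := T_31 (nat_lit 230) (nat_lit 247) (nat_lit 7) (nat_lit 8) (nat_lit 10) L83651 (by decide +kernel)
theorem L83653 : W_31 (nat_lit 4) (nat_lit 0x380018000f000700000001000080000000000000000000000000000000) (nat_lit 0x0) (nat_lit 0x8001c600040000000000000000000000000000000000000000000000000000) := T_31 (nat_lit 225) (nat_lit 226) (nat_lit 2) (nat_lit 4) (nat_lit 13) L83652 (by decide +kernel)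
theorem L83654 : W_31 (nat_lit 5) (nat_lit 0x300018000f000700000001000080000000000000000000000000000000) (nat_lit 0x0) (nat_lit 0x9001ce00040000000000000000000000000000000000000000000000000000) := T_31 (nat_lit 227) (nat_lit 244) (nat_lit 5) (nat_lit 7) (nat_lit 10) L83653 (by decide +kernel)
theorem L83655 : W_31 (nat_lit 2) (nat_lit 0xf000b00008001000080000000000000000000000000000000) (nat_lit 0x0) (nat_lit 0x30001000000000000000000000000000000000000000000000) := D_31 (nat_lit 196) (nat_lit 180) (nat_lit 197) (nat_lit 2) (nat_lit 6) (nat_lit 11) (nat_lit 0) (nat_lit 10) (nat_lit 11) (by decide +kernel)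
theorem L83656 : W_31 (nat_lit 3) (nat_lit 0xf000300008001000080000000000000000000000000000000) (nat_lit 0x0) (nat_lit 0x30001c00000000000000000000000000000000000000000000) := T_31 (nat_lit 179) (nat_lit 178) (nat_lit 2) (nat_lit 5) (nat_lit 11) L83655 (by decide +kernel)
theorem L83657 : W_31 (nat_lit 2) (nat_lit 0x20000f000300008001000080000000000000000000000000000000) (nat_lit 0x0) (nat_lit 0x400030000000000000000000000000000000000000000000000000) := D_31 (nat_lit 196) (nat_lit 197) (nat_lit 214) (nat_lit 0) (nat_lit 10) (nat_lit 11) (nat_lit 3) (nat_lit 6) (nat_lit 11) (by decide +kernel)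
theorem L83658 : W_31 (nat_lit 3) (nat_lit 0xf000300008001000080000000000000000000000000000000) (nat_lit 0x0) (nat_lit 0x700030000000000000000000000000000000000000000000000000) := T_31 (nat_lit 213) (nat_lit 212) (nat_lit 3) (nat_lit 5) (nat_lit 11) L83657 (by decide +kernel)
theorem L83659 : W_31 (nat_lit 2) (nat_lit 0x100010000f000700008001000080000000000000000000000000000000) (nat_lit 0x0) (nat_lit 0x60002000000000000000000000000000000000000000000000000000000000) := D_31 (nat_lit 229) (nat_lit 246) (nat_lit 245) (nat_lit 4) (nat_lit 8) (nat_lit 14) (nat_lit 5) (nat_lit 8) (nat_lit 10) (by decide +kernel)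
theorem L83660 : W_31 (nat_lit 3) (nat_lit 0x10000f000700008001000080000000000000000000000000000000) (nat_lit 0x0) (nat_lit 0x60003000080000000000000000000000000000000000000000000000000000) := T_31 (nat_lit 228) (nat_lit 211) (nat_lit 4) (nat_lit 7) (nat_lit 13) L83659 (by decide +kernel)
theorem L83661 : W_31 (nat_lit 4) (nat_lit 0xf000700008001000080000000000000000000000000000000) (nat_lit 0x0) (nat_lit 0x60003000380000000000000000000000000000000000000000000000000000) := T_31 (nat_lit 212) (nat_lit 213) (nat_lit 3) (nat_lit 5) (nat_lit 11) L83660 (by decide +kernel)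
theorem L83662 : W_31 (nat_lit 5) (nat_lit 0xf000300008001000080000000000000000000000000000000) (nat_lit 0x0) (nat_lit 0x60003000380000000c00000000000000000000000000000000000000000000) := T_31 (nat_lit 178) (nat_lit 179) (nat_lit 2) (nat_lit 5) (nat_lit 11) L83661 (by decide +kernel)
theorem L83663 : W_31 (nat_lit 6) (nat_lit 0x7000300008001000080000000000000000000000000000000) (nat_lit 0x0) (nat_lit 0x60003000780038001c00000000000000000000000000000000000000000000) := Q_31 (nat_lit 195) (C_31 L83656 (C_31 L83658 (C_31 L83662 N_31))) (by decide +kernel)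
theorem L83664 : W_31 (nat_lit 7) (nat_lit 0x7000300000001000080000000000000000000000000000000) (nat_lit 0x0) (nat_lit 0x600030007c0038001c0000e000e00130000000000000000000000000000000) := Q_31 (nat_lit 159) (C_31 L83266 (C_31 L83239 (C_31 L83663 N_31))) (by decide +kernel)
theorem L83665 : W_31 (nat_lit 8) (nat_lit 0x6000300000001000080000000000000000000000000000000) (nat_lit 0x0) (nat_lit 0x600030007d8039c01c0000e000e00130000000000000000000000000000000) := Q_31 (nat_lit 192) (C_31 L12149 (C_31 L12174 (C_31 L83664 N_31))) (by decide +kernel)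
theorem L83669 : W_31 (nat_lit 8) (nat_lit 0x1000060006000300008001000080000000000000000000000000000000) (nat_lit 0x0) (nat_lit 0x60002000300019800c00007000200000000000000000000000000000000000) := T_31 (nat_lit 195) (nat_lit 196) (nat_lit 1) (nat_lit 9) (nat_lit 11) L12205 (by decide +kernel)
theorem L83670 : W_31 (nat_lit 9) (nat_lit 0x1000040006000300008001000080000000000000000000000000000000) (nat_lit 0x0) (nat_lit 0x60002400320019800c00007000200000000000000000000000000000000000) := T_31 (nat_lit 209) (nat_lit 226) (nat_lit 5) (nat_lit 6) (nat_lit 9) L83669 (by decide +kernel)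
theorem L83671 : W_31 (nat_lit 10) (nat_lit 0x40006000300008001000080000000000000000000000000000000) (nat_lit 0x0) (nat_lit 0x600034003a0019800c00007000200000000000000000000000000000000000) := T_31 (nat_lit 228) (nat_lit 211) (nat_lit 7) (nat_lit 6) (nat_lit 9) L83670 (by decide +kernel)
theorem L83672 : W_31 (nat_lit 11) (nat_lit 0x6000300008001000080000000000000000000000000000000) (nat_lit 0x0) (nat_lit 0x78003c003e0019800c00007000200000000000000000000000000000000000) := Q_31 (nat_lit 210) (C_31 L15183 (C_31 L14862 (C_31 L83671 N_31))) (by decide +kernel)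
theorem L83673 : W_31 (nat_lit 12) (nat_lit 0x6000300000001000080000000000000000000000000000000) (nat_lit 0x0) (nat_lit 0x78003c003e0019c00c0000f000e00130000000000000000000000000000000) := Q_31 (nat_lit 159) (C_31 L83324 (C_31 L83213 (C_31 L83672 N_31))) (by decide +kernel)
theorem L83674 : W_31 (nat_lit 14) (nat_lit 0x4000300000001000080000000000000000000000000000000) (nat_lit 0x0) (nat_lit 0xfc00ff007f803bc01c6000f000f00130000000000000000000000000000000) := Q_31 (nat_lit 193) (C_31 L82773 (C_31 L83221 (C_31 L83597 (C_31 L83606 (C_31 L83613 (C_31 L83636 (C_31 L83642 (C_31 L83650 (C_31 L83665 (C_31 L83673 N_31)))))))))) (by decide +kernel)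
theorem L83675 : W_31 (nat_lit 5) (nat_lit 0x40003800080010000a0000000000000000000000000000000) (nat_lit 0x0) (nat_lit 0x8e00060003800000000000000000000000000000000000000) := T_31 (nat_lit 174) (nat_lit 195) (nat_lit 3) (nat_lit 4) (nat_lit 10) L82911 (by decide +kernel)
theorem L83676 : W_31 (nat_lit 6) (nat_lit 0x4000380008001000080000000000000000000000000000000) (nat_lit 0x0) (nat_lit 0x8e00060003800400020000000000000000000000000000000) := T_31 (nat_lit 125) (nat_lit 142) (nat_lit 7) (nat_lit 6) (nat_lit 7) L83675 (by decide +kernel)
theorem L83677 : W_31 (nat_lit 8) (nat_lit 0x80004000380008001000080000000000000000000000000000000) (nat_lit 0x0) (nat_lit 0xe00170001e00440007000700030000000000000000000000000000000) := T_31 (nat_lit 125) (nat_lit 142) (nat_lit 7) (nat_lit 6) (nat_lit 7) L82932 (by decide +kernel)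
theorem L83678 : W_31 (nat_lit 9) (nat_lit 0x4000380008001000080000000000000000000000000000000) (nat_lit 0x0) (nat_lit 0x1e001f0001e00440007000700030000000000000000000000000000000) := T_31 (nat_lit 211) (nat_lit 228) (nat_lit 4) (nat_lit 7) (nat_lit 13) L83677 (by decide +kernel)
theorem L83679 : W_31 (nat_lit 7) (nat_lit 0x4000380008001000080000000000000000000000000000000) (nat_lit 0x0) (nat_lit 0x14000a0009c00440003000100000000000000000000000000000000000) := T_31 (nat_lit 174) (nat_lit 195) (nat_lit 3) (nat_lit 4) (nat_lit 10) L82914 (by decide +kernel)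
theorem L83680 : W_31 (nat_lit 2) (nat_lit 0x100000000400078000c001400080000000000000000000000000000000) (nat_lit 0x0) (nat_lit 0x20001800000000000000000000000000000000000000000000000) := D_31 (nat_lit 192) (nat_lit 191) (nat_lit 209) (nat_lit 1) (nat_lit 8) (nat_lit 10) (nat_lit 6) (nat_lit 5) (nat_lit 12) (by decide +kernel)
theorem L83681 : W_31 (nat_lit 3) (nat_lit 0x100000000400078000c001000080000000000000000000000000000000) (nat_lit 0x0) (nat_lit 0x20001800000000000400020000000000000000000000000000000) := T_31 (nat_lit 142) (nat_lit 125) (nat_lit 7) (nat_lit 6) (nat_lit 7) L83680 (by decide +kernel)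
theorem L83682 : W_31 (nat_lit 4) (nat_lit 0x100000000400038000c001000080000000000000000000000000000000) (nat_lit 0x0) (nat_lit 0x20001800c00000000400020000000000000000000000000000000) := T_31 (nat_lit 178) (nat_lit 179) (nat_lit 0) (nat_lit 9) (nat_lit 10) L83681 (by decide +kernel)
theorem L83683 : W_31 (nat_lit 5) (nat_lit 0x400038000c001000080000000000000000000000000000000) (nat_lit 0x0) (nat_lit 0x10000a0001800c00000000400020000000000000000000000000000000) := T_31 (nat_lit 228) (nat_lit 211) (nat_lit 4) (nat_lit 7) (nat_lit 13) L83682 (by decide +kernel)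
theorem L83684 : W_31 (nat_lit 9) (nat_lit 0x4000380008001000080000000000000000000000000000000) (nat_lit 0x0) (nat_lit 0x10000a0001800c00007000f00038000c00000000000000000000000000) := Q_31 (nat_lit 158) (C_31 L14940 (C_31 L14947 (C_31 L83683 N_31))) (by decide +kernel)
theorem L83685 : W_31 (nat_lit 2) (nat_lit 0x10000200044003e000e001600090000000000000000000000000000000) (nat_lit 0x0) (nat_lit 0x100008000400000000000000000000000000) := D_31 (nat_lit 123) (nat_lit 140) (nat_lit 106) (nat_lit 5) (nat_lit 4) (nat_lit 7) (nat_lit 4) (nat_lit 5) (nat_lit 10) (by decide +kernel)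
theorem L83686 : W_31 (nat_lit 3) (nat_lit 0x10000200044003e000e001600080000000000000000000000000000000) (nat_lit 0x0) (nat_lit 0x100018000c00000000000000000000000000) := T_31 (nat_lit 124) (nat_lit 107) (nat_lit 7) (nat_lit 5) (nat_lit 6) L83685 (by decide +kernel)
theorem L83687 : W_31 (nat_lit 4) (nat_lit 0x10000200040003e000e001600080000000000000000000000000000000) (nat_lit 0x0) (nat_lit 0x600000000000100018000c00000000000000000000000000) := T_31 (nat_lit 190) (nat_lit 189) (nat_lit 1) (nat_lit 6) (nat_lit 10) L83686 (by decide +kernel)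
theorem L83688 : W_31 (nat_lit 5) (nat_lit 0x10000200040003e000e001400080000000000000000000000000000000) (nat_lit 0x0) (nat_lit 0x600000000000b00018000c00000000000000000000000000) := T_31 (nat_lit 141) (nat_lit 143) (nat_lit 1) (nat_lit 8) (nat_lit 8) L83687 (by decide +kernel)
theorem L83689 : W_31 (nat_lit 6) (nat_lit 0x10000200040003c000e001400080000000000000000000000000000000) (nat_lit 0x0) (nat_lit 0x600030000000b00018000c00000000000000000000000000) := T_31 (nat_lit 173) (nat_lit 172) (nat_lit 2) (nat_lit 2) (nat_lit 10) L83688 (by decide +kernel)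
theorem L83690 : W_31 (nat_lit 7) (nat_lit 0x10000000040003c000e001400080000000000000000000000000000000) (nat_lit 0x0) (nat_lit 0x20001600030000000b00018000c00000000000000000000000000) := T_31 (nat_lit 209) (nat_lit 192) (nat_lit 6) (nat_lit 5) (nat_lit 12) L83689 (by decide +kernel)
theorem L83691 : W_31 (nat_lit 8) (nat_lit 0x10000000040003c000a001400080000000000000000000000000000000) (nat_lit 0x0) (nat_lit 0x20001600430004000b00018000c00000000000000000000000000) := T_31 (nat_lit 158) (nat_lit 178) (nat_lit 0) (nat_lit 8) (nat_lit 10) L83690 (by decide +kernel)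
theorem L83692 : W_31 (nat_lit 9) (nat_lit 0x10000000040003c000a001000080000000000000000000000000000000) (nat_lit 0x0) (nat_lit 0x20001600430004000f00038000c00000000000000000000000000) := T_31 (nat_lit 142) (nat_lit 125) (nat_lit 7) (nat_lit 6) (nat_lit 7) L83691 (by decide +kernel)
theorem L83693 : W_31 (nat_lit 10) (nat_lit 0x10000000040003c0008001000080000000000000000000000000000000) (nat_lit 0x0) (nat_lit 0x20001600430007000f00038000c00000000000000000000000000) := T_31 (nat_lit 157) (nat_lit 156) (nat_lit 0) (nat_lit 7) (nat_lit 10) L83692 (by decide +kernel)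
theorem L83694 : W_31 (nat_lit 11) (nat_lit 0x1000000004000380008001000080000000000000000000000000000000) (nat_lit 0x0) (nat_lit 0x20009600470007000f00038000c00000000000000000000000000) := T_31 (nat_lit 174) (nat_lit 195) (nat_lit 3) (nat_lit 4) (nat_lit 10) L83693 (by decide +kernel)
theorem L83695 : W_31 (nat_lit 12) (nat_lit 0x4000380008001000080000000000000000000000000000000) (nat_lit 0x0) (nat_lit 0x10000a0009600470007000f00038000c00000000000000000000000000) := T_31 (nat_lit 228) (nat_lit 211) (nat_lit 4) (nat_lit 7) (nat_lit 13) L83694 (by decide +kernel)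
theorem L83696 : W_31 (nat_lit 6) (nat_lit 0x10000000040003800080010000a0000000000000000000000000000000) (nat_lit 0x0) (nat_lit 0x8e00070005c00000000000000000000000000000000000000) := T_31 (nat_lit 174) (nat_lit 195) (nat_lit 3) (nat_lit 4) (nat_lit 10) L14929 (by decide +kernel)
theorem L83697 : W_31 (nat_lit 7) (nat_lit 0x40003800080010000a0000000000000000000000000000000) (nat_lit 0x0) (nat_lit 0x1000080008e00070005c00000000000000000000000000000000000000) := T_31 (nat_lit 228) (nat_lit 211) (nat_lit 4) (nat_lit 7) (nat_lit 13) L83696 (by decide +kernel)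
theorem L83698 : W_31 (nat_lit 8) (nat_lit 0x4000380008001000080000000000000000000000000000000) (nat_lit 0x0) (nat_lit 0x1000080008e00070005c00400020000000000000000000000000000000) := T_31 (nat_lit 125) (nat_lit 142) (nat_lit 7) (nat_lit 6) (nat_lit 7) L83697 (by decide +kernel)
theorem L83699 : W_31 (nat_lit 2) (nat_lit 0x48007c00080010000a0000000000000000000000000000000) (nat_lit 0x0) (nat_lit 0x800006000000000000000000000000000000000000000) := D_31 (nat_lit 158) (nat_lit 179) (nat_lit 157) (nat_lit 0) (nat_lit 9) (nat_lit 10) (nat_lit 0) (nat_lit 8) (nat_lit 10) (by decide +kernel)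
theorem L83700 : W_31 (nat_lit 3) (nat_lit 0x48003c00080010000a0000000000000000000000000000000) (nat_lit 0x0) (nat_lit 0x1000c00006000000000000000000000000000000000000000) := T_31 (nat_lit 178) (nat_lit 192) (nat_lit 1) (nat_lit 8) (nat_lit 10) L83699 (by decide +kernel)
theorem L83701 : W_31 (nat_lit 4) (nat_lit 0x48003c0008001000080000000000000000000000000000000) (nat_lit 0x0) (nat_lit 0x1000c00006000400020000000000000000000000000000000) := T_31 (nat_lit 125) (nat_lit 142) (nat_lit 7) (nat_lit 6) (nat_lit 7) L83700 (by decide +kernel)
theorem L83702 : W_31 (nat_lit 5) (nat_lit 0x40003c0008001000080000000000000000000000000000000) (nat_lit 0x0) (nat_lit 0x1c00c00006000400020000000000000000000000000000000) := T_31 (nat_lit 191) (nat_lit 190) (nat_lit 1) (nat_lit 7) (nat_lit 10) L83701 (by decide +kernel)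
theorem L83703 : W_31 (nat_lit 6) (nat_lit 0x4000380008001000080000000000000000000000000000000) (nat_lit 0x0) (nat_lit 0x9c00c40006000400020000000000000000000000000000000) := T_31 (nat_lit 174) (nat_lit 195) (nat_lit 3) (nat_lit 4) (nat_lit 10) L83702 (by decide +kernel)
theorem L83704 : W_31 (nat_lit 13) (nat_lit 0x4000300008001000080000000000000000000000000000000) (nat_lit 0x0) (nat_lit 0x1e001f0009e00cf0007c00f00038000c00000000000000000000000000) := Q_31 (nat_lit 175) (C_31 L83676 (C_31 L83678 (C_31 L83679 (C_31 L83684 (C_31 L83695 (C_31 L83698 (C_31 L83703 N_31))))))) (by decide +kernel)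
theorem L83705 : W_31 (nat_lit 5) (nat_lit 0x4000300008001400080000000000000000000000000000000) (nat_lit 0x0) (nat_lit 0xc0002000000006000a00110000000000000000000000000000000) := T_31 (nat_lit 193) (nat_lit 211) (nat_lit 7) (nat_lit 6) (nat_lit 8) L83323 (by decide +kernel)
theorem L83706 : W_31 (nat_lit 6) (nat_lit 0x4000300008001000080000000000000000000000000000000) (nat_lit 0x0) (nat_lit 0xc0002000000006000e00130000000000000000000000000000000) := T_31 (nat_lit 142) (nat_lit 125) (nat_lit 7) (nat_lit 6) (nat_lit 7) L83705 (by decide +kernel)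
theorem L83707 : W_31 (nat_lit 2) (nat_lit 0x4000b0000e001600080000000000000000000000000000000) (nat_lit 0x0) (nat_lit 0x2000000000000000010000800000000000000000000000000) := D_31 (nat_lit 124) (nat_lit 107) (nat_lit 193) (nat_lit 7) (nat_lit 5) (nat_lit 6) (nat_lit 4) (nat_lit 6) (nat_lit 11) (by decide +kernel)
theorem L83708 : W_31 (nat_lit 3) (nat_lit 0x4000b0000e001400080000000000000000000000000000000) (nat_lit 0x0) (nat_lit 0x2000000000000a00010000800000000000000000000000000) := T_31 (nat_lit 141) (nat_lit 143) (nat_lit 1) (nat_lit 8) (nat_lit 8) L83707 (by decide +kernel)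
theorem L83709 : W_31 (nat_lit 4) (nat_lit 0x400030000e001400080000000000000000000000000000000) (nat_lit 0x0) (nat_lit 0x2000c00000000a00010000800000000000000000000000000) := T_31 (nat_lit 179) (nat_lit 178) (nat_lit 0) (nat_lit 9) (nat_lit 10) L83708 (by decide +kernel)
theorem L83710 : W_31 (nat_lit 5) (nat_lit 0x400030000c001400080000000000000000000000000000000) (nat_lit 0x0) (nat_lit 0x2000c00003000a00010000800000000000000000000000000) := T_31 (nat_lit 157) (nat_lit 156) (nat_lit 3) (nat_lit 3) (nat_lit 9) L83709 (by decide +kernel)
theorem L83711 : W_31 (nat_lit 6) (nat_lit 0x400030000c001000080000000000000000000000000000000) (nat_lit 0x0) (nat_lit 0x2000c00003000e00030000800000000000000000000000000) := T_31 (nat_lit 142) (nat_lit 125) (nat_lit 7) (nat_lit 6) (nat_lit 7) L83710 (by decide +kernel)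
theorem L83712 : W_31 (nat_lit 2) (nat_lit 0x400030000e001600080000000000000000000000000000000) (nat_lit 0x0) (nat_lit 0x2000000000000000010000800000000000000000000000000) := D_31 (nat_lit 124) (nat_lit 107) (nat_lit 193) (nat_lit 7) (nat_lit 5) (nat_lit 6) (nat_lit 4) (nat_lit 6) (nat_lit 11) (by decide +kernel)
theorem L83713 : W_31 (nat_lit 3) (nat_lit 0x400030000e001400080000000000000000000000000000000) (nat_lit 0x0) (nat_lit 0x2000000000000a00010000800000000000000000000000000) := T_31 (nat_lit 141) (nat_lit 143) (nat_lit 1) (nat_lit 8) (nat_lit 8) L83712 (by decide +kernel)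
theorem L83714 : W_31 (nat_lit 4) (nat_lit 0x400030000c001400080000000000000000000000000000000) (nat_lit 0x0) (nat_lit 0x2000000003000a00010000800000000000000000000000000) := T_31 (nat_lit 157) (nat_lit 156) (nat_lit 3) (nat_lit 3) (nat_lit 9) L83713 (by decide +kernel)
theorem L83715 : W_31 (nat_lit 5) (nat_lit 0x400030000c001000080000000000000000000000000000000) (nat_lit 0x0) (nat_lit 0x2000000003000e00030000800000000000000000000000000) := T_31 (nat_lit 142) (nat_lit 125) (nat_lit 7) (nat_lit 6) (nat_lit 7) L83714 (by decide +kernel)
theorem L83716 : W_31 (nat_lit 2) (nat_lit 0x40006000b0000c001000080000000000000000000000000000000) (nat_lit 0x0) (nat_lit 0x10000800000000000080000000000000000000000000000000000000000000) := D_31 (nat_lit 227) (nat_lit 175) (nat_lit 244) (nat_lit 4) (nat_lit 6) (nat_lit 13) (nat_lit 6) (nat_lit 6) (nat_lit 14) (by decide +kernel)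
theorem L83717 : W_31 (nat_lit 3) (nat_lit 0x6000b0000c001000080000000000000000000000000000000) (nat_lit 0x0) (nat_lit 0x10000800040000000080000000200000000000000000000000000000000000) := T_31 (nat_lit 210) (nat_lit 141) (nat_lit 4) (nat_lit 6) (nat_lit 12) L83716 (by decide +kernel)
theorem L83718 : W_31 (nat_lit 4) (nat_lit 0x600030000c001000080000000000000000000000000000000) (nat_lit 0x0) (nat_lit 0x10000800040000000c80000000200000000000000000000000000000000000) := T_31 (nat_lit 179) (nat_lit 178) (nat_lit 0) (nat_lit 9) (nat_lit 10) L83717 (by decide +kernel)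
theorem L83719 : W_31 (nat_lit 2) (nat_lit 0x4000600030000c0010000a0000000000000000000000000000000) (nat_lit 0x0) (nat_lit 0x10000800000000000080000000000000000000000000000000000000000000) := D_31 (nat_lit 227) (nat_lit 175) (nat_lit 244) (nat_lit 4) (nat_lit 6) (nat_lit 13) (nat_lit 6) (nat_lit 6) (nat_lit 14) (by decide +kernel)
theorem L83720 : W_31 (nat_lit 3) (nat_lit 0x600030000c0010000a0000000000000000000000000000000) (nat_lit 0x0) (nat_lit 0x10000800040000000080000000200000000000000000000000000000000000) := T_31 (nat_lit 210) (nat_lit 141) (nat_lit 4) (nat_lit 6) (nat_lit 12) L83719 (by decide +kernel)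
theorem L83721 : W_31 (nat_lit 4) (nat_lit 0x600030000c001000080000000000000000000000000000000) (nat_lit 0x0) (nat_lit 0x10000800040000000080000000600020000000000000000000000000000000) := T_31 (nat_lit 125) (nat_lit 142) (nat_lit 7) (nat_lit 6) (nat_lit 7) L83720 (by decide +kernel)
theorem L83722 : W_31 (nat_lit 2) (nat_lit 0x10000000060006000b0000c001000080000000000000000000000000000000) (nat_lit 0x0) (nat_lit 0x1000000000000400020000000000000000000000000000000) := D_31 (nat_lit 142) (nat_lit 192) (nat_lit 125) (nat_lit 5) (nat_lit 6) (nat_lit 8) (nat_lit 7) (nat_lit 6) (nat_lit 7) (by decide +kernel)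
theorem L83723 : W_31 (nat_lit 3) (nat_lit 0x10000000040006000b0000c001000080000000000000000000000000000000) (nat_lit 0x0) (nat_lit 0x400020001000000000000400020000000000000000000000000000000) := T_31 (nat_lit 209) (nat_lit 226) (nat_lit 5) (nat_lit 6) (nat_lit 9) L83722 (by decide +kernel)
theorem L83724 : W_31 (nat_lit 4) (nat_lit 0x40006000b0000c001000080000000000000000000000000000000) (nat_lit 0x0) (nat_lit 0x10000c00020001000000000000400020000000000000000000000000000000) := T_31 (nat_lit 244) (nat_lit 227) (nat_lit 6) (nat_lit 6) (nat_lit 14) L83723 (by decide +kernel)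
theorem L83725 : W_31 (nat_lit 5) (nat_lit 0x4000600030000c001000080000000000000000000000000000000) (nat_lit 0x0) (nat_lit 0x10000c00020001000c00000000400020000000000000000000000000000000) := T_31 (nat_lit 179) (nat_lit 178) (nat_lit 0) (nat_lit 9) (nat_lit 10) L83724 (by decide +kernel)
theorem L83726 : W_31 (nat_lit 6) (nat_lit 0x600030000c001000080000000000000000000000000000000) (nat_lit 0x0) (nat_lit 0x10000c00060001000c00000000600020000000000000000000000000000000) := T_31 (nat_lit 210) (nat_lit 141) (nat_lit 4) (nat_lit 6) (nat_lit 12) L83725 (by decide +kernel)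
theorem L83727 : W_31 (nat_lit 2) (nat_lit 0x7800b0000c001e00080000000000000000000000000000000) (nat_lit 0x0) (nat_lit 0x18000000080000000000000000000000000000000000000000000) := D_31 (nat_lit 208) (nat_lit 207) (nat_lit 175) (nat_lit 1) (nat_lit 7) (nat_lit 11) (nat_lit 5) (nat_lit 5) (nat_lit 8) (by decide +kernel)
theorem L83728 : W_31 (nat_lit 3) (nat_lit 0x7000b0000c001e00080000000000000000000000000000000) (nat_lit 0x0) (nat_lit 0x18000c00080000000000000000000000000000000000000000000) := T_31 (nat_lit 191) (nat_lit 190) (nat_lit 2) (nat_lit 3) (nat_lit 11) L83727 (by decide +kernel)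
theorem L83729 : W_31 (nat_lit 4) (nat_lit 0x6000b0000c001e00080000000000000000000000000000000) (nat_lit 0x0) (nat_lit 0x38001c00080000000000000000000000000000000000000000000) := T_31 (nat_lit 192) (nat_lit 209) (nat_lit 5) (nat_lit 6) (nat_lit 8) L83728 (by decide +kernel)
theorem L83730 : W_31 (nat_lit 5) (nat_lit 0x6000b0000c001600080000000000000000000000000000000) (nat_lit 0x0) (nat_lit 0x38001c00080000000800100000000000000000000000000000000) := T_31 (nat_lit 143) (nat_lit 128) (nat_lit 2) (nat_lit 5) (nat_lit 8) L83729 (by decide +kernel)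
theorem L83731 : W_31 (nat_lit 6) (nat_lit 0x6000b0000c001400080000000000000000000000000000000) (nat_lit 0x0) (nat_lit 0x38001c00080000000a00110000000000000000000000000000000) := T_31 (nat_lit 141) (nat_lit 124) (nat_lit 4) (nat_lit 6) (nat_lit 11) L83730 (by decide +kernel)
theorem L83732 : W_31 (nat_lit 7) (nat_lit 0x600030000c001400080000000000000000000000000000000) (nat_lit 0x0) (nat_lit 0x38001c00c80000000a00110000000000000000000000000000000) := T_31 (nat_lit 179) (nat_lit 178) (nat_lit 0) (nat_lit 9) (nat_lit 10) L83731 (by decide +kernel)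
theorem L83733 : W_31 (nat_lit 8) (nat_lit 0x600030000c001000080000000000000000000000000000000) (nat_lit 0x0) (nat_lit 0x38001c00c80000000e00130000000000000000000000000000000) := T_31 (nat_lit 142) (nat_lit 125) (nat_lit 7) (nat_lit 6) (nat_lit 7) L83732 (by decide +kernel)
theorem L83734 : W_31 (nat_lit 2) (nat_lit 0x10007800b4000c001400080000000000000000000000000000000) (nat_lit 0x0) (nat_lit 0x200000008000080000000000000000000000000000000000000000000) := D_31 (nat_lit 175) (nat_lit 195) (nat_lit 225) (nat_lit 3) (nat_lit 4) (nat_lit 10) (nat_lit 6) (nat_lit 4) (nat_lit 13) (by decide +kernel)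
theorem L83735 : W_31 (nat_lit 3) (nat_lit 0x10007800b0000c001400080000000000000000000000000000000) (nat_lit 0x0) (nat_lit 0x2000000080000e0000000000000000000000000000000000000000000) := T_31 (nat_lit 174) (nat_lit 173) (nat_lit 0) (nat_lit 7) (nat_lit 11) L83734 (by decide +kernel)
theorem L83736 : W_31 (nat_lit 4) (nat_lit 0x7800b0000c001400080000000000000000000000000000000) (nat_lit 0x0) (nat_lit 0x2000180080000e0000000000000000000000000000000000000000000) := T_31 (nat_lit 208) (nat_lit 207) (nat_lit 1) (nat_lit 7) (nat_lit 11) L83735 (by decide +kernel)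
theorem L83737 : W_31 (nat_lit 5) (nat_lit 0x7000b0000c001400080000000000000000000000000000000) (nat_lit 0x0) (nat_lit 0x200018008c000e0000000000000000000000000000000000000000000) := T_31 (nat_lit 191) (nat_lit 190) (nat_lit 2) (nat_lit 3) (nat_lit 11) L83736 (by decide +kernel)
theorem L83738 : W_31 (nat_lit 6) (nat_lit 0x6000b0000c001400080000000000000000000000000000000) (nat_lit 0x0) (nat_lit 0x200038009c000e0000000000000000000000000000000000000000000) := T_31 (nat_lit 192) (nat_lit 209) (nat_lit 5) (nat_lit 6) (nat_lit 8) L83737 (by decide +kernel)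
theorem L83739 : W_31 (nat_lit 7) (nat_lit 0x6000b0000c001000080000000000000000000000000000000) (nat_lit 0x0) (nat_lit 0x200038009c000e0000000400020000000000000000000000000000000) := T_31 (nat_lit 142) (nat_lit 125) (nat_lit 7) (nat_lit 6) (nat_lit 7) L83738 (by decide +kernel)
theorem L83740 : W_31 (nat_lit 8) (nat_lit 0x600030000c001000080000000000000000000000000000000) (nat_lit 0x0) (nat_lit 0x200038009c00ce0000000400020000000000000000000000000000000) := T_31 (nat_lit 179) (nat_lit 178) (nat_lit 0) (nat_lit 9) (nat_lit 10) L83739 (by decide +kernel)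
theorem L83741 : W_31 (nat_lit 9) (nat_lit 0x400030000c001000080000000000000000000000000000000) (nat_lit 0x0) (nat_lit 0x10000e0007800bc00ce0000000e00130000000000000000000000000000000) := Q_31 (nat_lit 193) (C_31 L83718 (C_31 L83721 (C_31 L83726 (C_31 L83733 (C_31 L83740 N_31))))) (by decide +kernel)
theorem L83742 : W_31 (nat_lit 10) (nat_lit 0x4000300008001000080000000000000000000000000000000) (nat_lit 0x0) (nat_lit 0x10000e0007800bc00ce0007000e00130000800000000000000000000000000) := Q_31 (nat_lit 158) (C_31 L83711 (C_31 L83715 (C_31 L74546 (C_31 L83741 N_31)))) (by decide +kernel)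
theorem L83743 : W_31 (nat_lit 9) (nat_lit 0x6000300008001000080000000000000000000000000000000) (nat_lit 0x0) (nat_lit 0x18000e00078001c00c80007000300000000000000000000000000000000000) := Q_31 (nat_lit 192) (C_31 L83261 (C_31 L83250 (C_31 L83214 N_31))) (by decide +kernel)
theorem L83744 : W_31 (nat_lit 2) (nat_lit 0x7000380008001000080000000000000000000000000000000) (nat_lit 0x0) (nat_lit 0x8000060000000000000000000000000000000000000000000) := D_31 (nat_lit 174) (nat_lit 195) (nat_lit 173) (nat_lit 3) (nat_lit 4) (nat_lit 10) (nat_lit 3) (nat_lit 3) (nat_lit 10) (by decide +kernel)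
theorem L83745 : W_31 (nat_lit 2) (nat_lit 0x14000000070003c000a001000080000000000000000000000000000000) (nat_lit 0x0) (nat_lit 0xc00004000000000000000000000000000000000000000) := D_31 (nat_lit 178) (nat_lit 179) (nat_lit 158) (nat_lit 1) (nat_lit 9) (nat_lit 10) (nat_lit 0) (nat_lit 8) (nat_lit 10) (by decide +kernel)
theorem L83746 : W_31 (nat_lit 3) (nat_lit 0x14000000070003c0008001000080000000000000000000000000000000) (nat_lit 0x0) (nat_lit 0xc00007000000000000000000000000000000000000000) := T_31 (nat_lit 157) (nat_lit 156) (nat_lit 0) (nat_lit 7) (nat_lit 10) L83745 (by decide +kernel)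
theorem L83747 : W_31 (nat_lit 4) (nat_lit 0x10000000070003c0008001000080000000000000000000000000000000) (nat_lit 0x0) (nat_lit 0x400020000000c00007000000000000000000000000000000000000000) := T_31 (nat_lit 226) (nat_lit 209) (nat_lit 6) (nat_lit 5) (nat_lit 13) L83746 (by decide +kernel)
theorem L83748 : W_31 (nat_lit 5) (nat_lit 0x1000000007000380008001000080000000000000000000000000000000) (nat_lit 0x0) (nat_lit 0x400020000000c60007000000000000000000000000000000000000000) := T_31 (nat_lit 174) (nat_lit 173) (nat_lit 3) (nat_lit 3) (nat_lit 10) L83747 (by decide +kernel)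
theorem L83749 : W_31 (nat_lit 6) (nat_lit 0x7000380008001000080000000000000000000000000000000) (nat_lit 0x0) (nat_lit 0x14000a0000000c60007000000000000000000000000000000000000000) := T_31 (nat_lit 228) (nat_lit 211) (nat_lit 4) (nat_lit 7) (nat_lit 13) L83748 (by decide +kernel)
theorem L83750 : W_31 (nat_lit 2) (nat_lit 0x1000034007000b8000c001000080000000000000000000000000000000) (nat_lit 0x0) (nat_lit 0x3000100000000000000000000000000000000000) := D_31 (nat_lit 157) (nat_lit 140) (nat_lit 156) (nat_lit 4) (nat_lit 5) (nat_lit 12) (nat_lit 3) (nat_lit 3) (nat_lit 9) (by decide +kernel)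
theorem L83751 : W_31 (nat_lit 3) (nat_lit 0x1000034007000b80008001000080000000000000000000000000000000) (nat_lit 0x0) (nat_lit 0x200000000000000007000100000000000000000000000000000000000) := T_31 (nat_lit 158) (nat_lit 225) (nat_lit 5) (nat_lit 5) (nat_lit 9) L83750 (by decide +kernel)
theorem L83752 : W_31 (nat_lit 4) (nat_lit 0x1000030007000b80008001000080000000000000000000000000000000) (nat_lit 0x0) (nat_lit 0x20000c000000000007000100000000000000000000000000000000000) := T_31 (nat_lit 206) (nat_lit 207) (nat_lit 2) (nat_lit 2) (nat_lit 12) L83751 (by decide +kernel)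
theorem L83753 : W_31 (nat_lit 5) (nat_lit 0x1000020007000b80008001000080000000000000000000000000000000) (nat_lit 0x0) (nat_lit 0x20001c008000000007000100000000000000000000000000000000000) := T_31 (nat_lit 208) (nat_lit 195) (nat_lit 1) (nat_lit 8) (nat_lit 11) L83752 (by decide +kernel)
theorem L83754 : W_31 (nat_lit 6) (nat_lit 0x1000000007000b80008001000080000000000000000000000000000000) (nat_lit 0x0) (nat_lit 0x60003c008000000007000100000000000000000000000000000000000) := T_31 (nat_lit 209) (nat_lit 226) (nat_lit 6) (nat_lit 5) (nat_lit 13) L83753 (by decide +kernel)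
theorem L83755 : W_31 (nat_lit 7) (nat_lit 0x7000b80008001000080000000000000000000000000000000) (nat_lit 0x0) (nat_lit 0x16000bc008000000007000100000000000000000000000000000000000) := T_31 (nat_lit 228) (nat_lit 211) (nat_lit 4) (nat_lit 7) (nat_lit 13) L83754 (by decide +kernel)
theorem L83756 : W_31 (nat_lit 8) (nat_lit 0x7000380008001000080000000000000000000000000000000) (nat_lit 0x0) (nat_lit 0x16000bc008000c00007000100000000000000000000000000000000000) := T_31 (nat_lit 179) (nat_lit 178) (nat_lit 1) (nat_lit 9) (nat_lit 10) L83755 (by decide +kernel)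
theorem L83757 : W_31 (nat_lit 9) (nat_lit 0x7000300008001000080000000000000000000000000000000) (nat_lit 0x0) (nat_lit 0x16000bc008000ce0007000100000000000000000000000000000000000) := Q_31 (nat_lit 175) (C_31 L83744 (C_31 L83749 (C_31 L83756 N_31))) (by decide +kernel)
theorem L83758 : W_31 (nat_lit 10) (nat_lit 0x6000300008001000080000000000000000000000000000000) (nat_lit 0x0) (nat_lit 0x16001bc009c00ce0007000100000000000000000000000000000000000) := Q_31 (nat_lit 192) (C_31 L83216 (C_31 L83214 (C_31 L83757 N_31))) (by decide +kernel)
theorem L83759 : W_31 (nat_lit 6) (nat_lit 0x6000300008001000080000000000000000000000000000000) (nat_lit 0x0) (nat_lit 0x300018001c0001c00c80007000200000000000000000000000000000000000) := Q_31 (nat_lit 192) (C_31 L83296 (C_31 L83216 (C_31 L83214 N_31))) (by decide +kernel)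
theorem L83760 : W_31 (nat_lit 11) (nat_lit 0x4000300008001000080000000000000000000000000000000) (nat_lit 0x0) (nat_lit 0x38001e001fc00bc00ce0007000300000000000000000000000000000000000) := Q_31 (nat_lit 193) (C_31 L83649 (C_31 L83743 (C_31 L83758 (C_31 L83759 N_31)))) (by decide +kernel)
theorem L83761 : W_31 (nat_lit 14) (nat_lit 0x4000300000001000080000000000000000000000000000000) (nat_lit 0x0) (nat_lit 0x38001e001fc00be00cf000fc00f00138000c00000000000000000000000000) := Q_31 (nat_lit 159) (C_31 L83704 (C_31 L74560 (C_31 L83706 (C_31 L83742 (C_31 L83760 N_31))))) (by decide +kernel)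
theorem L83762 : W_31 (nat_lit 2) (nat_lit 0xe000300008001000080000000000000000000000000000000) (nat_lit 0x0) (nat_lit 0x80000000000000000400020000000000000000000000000000000) := D_31 (nat_lit 142) (nat_lit 125) (nat_lit 211) (nat_lit 7) (nat_lit 6) (nat_lit 7) (nat_lit 7) (nat_lit 6) (nat_lit 8) (by decide +kernel)
theorem L83763 : W_31 (nat_lit 2) (nat_lit 0xe000340008001e00080000000000000000000000000000000) (nat_lit 0x0) (nat_lit 0x40000000000006000000000000000000000000000000000000000) := D_31 (nat_lit 158) (nat_lit 157) (nat_lit 210) (nat_lit 1) (nat_lit 8) (nat_lit 8) (nat_lit 4) (nat_lit 6) (nat_lit 12) (by decide +kernel)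
theorem L83764 : W_31 (nat_lit 3) (nat_lit 0xe000340008001600080000000000000000000000000000000) (nat_lit 0x0) (nat_lit 0x40000000000006000800100000000000000000000000000000000) := T_31 (nat_lit 143) (nat_lit 128) (nat_lit 2) (nat_lit 5) (nat_lit 8) L83763 (by decide +kernel)
theorem L83765 : W_31 (nat_lit 4) (nat_lit 0xe000340008001400080000000000000000000000000000000) (nat_lit 0x0) (nat_lit 0x40000000000006000a00110000000000000000000000000000000) := T_31 (nat_lit 141) (nat_lit 124) (nat_lit 4) (nat_lit 6) (nat_lit 11) L83764 (by decide +kernel)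
theorem L83766 : W_31 (nat_lit 5) (nat_lit 0xe000340008001000080000000000000000000000000000000) (nat_lit 0x0) (nat_lit 0x40000000000006000e00130000000000000000000000000000000) := T_31 (nat_lit 142) (nat_lit 125) (nat_lit 7) (nat_lit 6) (nat_lit 7) L83765 (by decide +kernel)
theorem L83767 : W_31 (nat_lit 6) (nat_lit 0xe000300008001000080000000000000000000000000000000) (nat_lit 0x0) (nat_lit 0x400000000c0006000e00130000000000000000000000000000000) := T_31 (nat_lit 174) (nat_lit 175) (nat_lit 3) (nat_lit 4) (nat_lit 10) L83766 (by decide +kernel)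
theorem L83768 : W_31 (nat_lit 2) (nat_lit 0x1000000006000e00034000d001000080000000000000000000000000000000) (nat_lit 0x0) (nat_lit 0x98000000000000000000000000000000000000000000000000000) := D_31 (nat_lit 208) (nat_lit 211) (nat_lit 207) (nat_lit 2) (nat_lit 4) (nat_lit 12) (nat_lit 2) (nat_lit 3) (nat_lit 12) (by decide +kernel)
theorem L83769 : W_31 (nat_lit 3) (nat_lit 0x1000000004000e00034000d001000080000000000000000000000000000000) (nat_lit 0x0) (nat_lit 0x4000b8000000000000000000000000000000000000000000000000000) := T_31 (nat_lit 209) (nat_lit 226) (nat_lit 5) (nat_lit 6) (nat_lit 9) L83768 (by decide +kernel)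
theorem L83770 : W_31 (nat_lit 4) (nat_lit 0x4000e00034000d001000080000000000000000000000000000000) (nat_lit 0x0) (nat_lit 0x10000c000b8000000000000000000000000000000000000000000000000000) := T_31 (nat_lit 244) (nat_lit 227) (nat_lit 6) (nat_lit 6) (nat_lit 14) L83769 (by decide +kernel)
theorem L83771 : W_31 (nat_lit 5) (nat_lit 0x4000e00034000c001000080000000000000000000000000000000) (nat_lit 0x0) (nat_lit 0x10000c000b8000000000003000000000000000000000000000000000000000) := T_31 (nat_lit 156) (nat_lit 157) (nat_lit 3) (nat_lit 3) (nat_lit 9) L83770 (by decide +kernel)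
theorem L83772 : W_31 (nat_lit 6) (nat_lit 0xe00034000c001000080000000000000000000000000000000) (nat_lit 0x0) (nat_lit 0x10000c000f8000000000003000200000000000000000000000000000000000) := T_31 (nat_lit 210) (nat_lit 141) (nat_lit 4) (nat_lit 6) (nat_lit 12) L83771 (by decide +kernel)
theorem L83773 : W_31 (nat_lit 7) (nat_lit 0xe00030000c001000080000000000000000000000000000000) (nat_lit 0x0) (nat_lit 0x10000c000f80000000c0003000200000000000000000000000000000000000) := T_31 (nat_lit 174) (nat_lit 175) (nat_lit 3) (nat_lit 4) (nat_lit 10) L83772 (by decide +kernel)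
theorem L83774 : W_31 (nat_lit 2) (nat_lit 0x6000e000b8000d001000080000000000000000000000000000000) (nat_lit 0x0) (nat_lit 0x98000000000000000000000000000000000000000000000000000) := D_31 (nat_lit 208) (nat_lit 211) (nat_lit 207) (nat_lit 2) (nat_lit 4) (nat_lit 12) (nat_lit 2) (nat_lit 3) (nat_lit 12) (by decide +kernel)
theorem L83775 : W_31 (nat_lit 3) (nat_lit 0x4000e000b8000d001000080000000000000000000000000000000) (nat_lit 0x0) (nat_lit 0x4000b8000000000000000000000000000000000000000000000000000) := T_31 (nat_lit 209) (nat_lit 226) (nat_lit 5) (nat_lit 6) (nat_lit 9) L83774 (by decide +kernel)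
theorem L83776 : W_31 (nat_lit 4) (nat_lit 0xe000b8000d001000080000000000000000000000000000000) (nat_lit 0x0) (nat_lit 0xc000f8000000000000000000000000000000000000000000000000000) := T_31 (nat_lit 210) (nat_lit 227) (nat_lit 4) (nat_lit 6) (nat_lit 13) L83775 (by decide +kernel)
theorem L83777 : W_31 (nat_lit 5) (nat_lit 0xe000b0000d001000080000000000000000000000000000000) (nat_lit 0x0) (nat_lit 0xc000f80000000c0000000000000000000000000000000000000000000) := T_31 (nat_lit 175) (nat_lit 174) (nat_lit 3) (nat_lit 4) (nat_lit 10) L83776 (by decide +kernel)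
theorem L83778 : W_31 (nat_lit 6) (nat_lit 0xe000b0000c001000080000000000000000000000000000000) (nat_lit 0x0) (nat_lit 0xc000f80000000c0003000000000000000000000000000000000000000) := T_31 (nat_lit 156) (nat_lit 157) (nat_lit 3) (nat_lit 3) (nat_lit 9) L83777 (by decide +kernel)
theorem L83779 : W_31 (nat_lit 7) (nat_lit 0xe00030000c001000080000000000000000000000000000000) (nat_lit 0x0) (nat_lit 0xc000f8000000cc0003000000000000000000000000000000000000000) := T_31 (nat_lit 179) (nat_lit 178) (nat_lit 0) (nat_lit 9) (nat_lit 10) L83778 (by decide +kernel)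
theorem L83780 : W_31 (nat_lit 2) (nat_lit 0x1000000006000e000b0000c001000080000000000000000000000000000000) (nat_lit 0x0) (nat_lit 0x98000000000000000000000000000000000000000000000000000) := D_31 (nat_lit 208) (nat_lit 211) (nat_lit 207) (nat_lit 2) (nat_lit 4) (nat_lit 12) (nat_lit 2) (nat_lit 3) (nat_lit 12) (by decide +kernel)
theorem L83781 : W_31 (nat_lit 3) (nat_lit 0x1000000004000e000b0000c001000080000000000000000000000000000000) (nat_lit 0x0) (nat_lit 0x4000b8000000000000000000000000000000000000000000000000000) := T_31 (nat_lit 209) (nat_lit 226) (nat_lit 5) (nat_lit 6) (nat_lit 9) L83780 (by decide +kernel)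
theorem L83782 : W_31 (nat_lit 4) (nat_lit 0x4000e000b0000c001000080000000000000000000000000000000) (nat_lit 0x0) (nat_lit 0x10000c000b8000000000000000000000000000000000000000000000000000) := T_31 (nat_lit 244) (nat_lit 227) (nat_lit 6) (nat_lit 6) (nat_lit 14) L83781 (by decide +kernel)
theorem L83783 : W_31 (nat_lit 5) (nat_lit 0x4000e00030000c001000080000000000000000000000000000000) (nat_lit 0x0) (nat_lit 0x10000c000b8000000c00000000000000000000000000000000000000000000) := T_31 (nat_lit 179) (nat_lit 178) (nat_lit 0) (nat_lit 9) (nat_lit 10) L83782 (by decide +kernel)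
theorem L83784 : W_31 (nat_lit 6) (nat_lit 0xe00030000c001000080000000000000000000000000000000) (nat_lit 0x0) (nat_lit 0x10000c000f8000000c00000000200000000000000000000000000000000000) := T_31 (nat_lit 210) (nat_lit 141) (nat_lit 4) (nat_lit 6) (nat_lit 12) L83783 (by decide +kernel)
theorem L83785 : W_31 (nat_lit 2) (nat_lit 0x40004000e000b4000d001000080000000000000000000000000000000) (nat_lit 0x0) (nat_lit 0x18000800000000000000000000000000000000000000000000000000000000) := D_31 (nat_lit 227) (nat_lit 244) (nat_lit 243) (nat_lit 6) (nat_lit 6) (nat_lit 14) (nat_lit 5) (nat_lit 6) (nat_lit 10) (by decide +kernel)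
theorem L83786 : W_31 (nat_lit 3) (nat_lit 0x4000e000b4000d001000080000000000000000000000000000000) (nat_lit 0x0) (nat_lit 0x18000c00020000000000000000000000000000000000000000000000000000) := T_31 (nat_lit 226) (nat_lit 209) (nat_lit 5) (nat_lit 6) (nat_lit 9) L83785 (by decide +kernel)
theorem L83787 : W_31 (nat_lit 4) (nat_lit 0xe000b4000d001000080000000000000000000000000000000) (nat_lit 0x0) (nat_lit 0x18000c00060000000000000000200000000000000000000000000000000000) := T_31 (nat_lit 210) (nat_lit 141) (nat_lit 4) (nat_lit 6) (nat_lit 12) L83786 (by decide +kernel)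
theorem L83788 : W_31 (nat_lit 5) (nat_lit 0xe00034000d001000080000000000000000000000000000000) (nat_lit 0x0) (nat_lit 0x18000c00060000000c00000000200000000000000000000000000000000000) := T_31 (nat_lit 179) (nat_lit 178) (nat_lit 0) (nat_lit 9) (nat_lit 10) L83787 (by decide +kernel)
theorem L83789 : W_31 (nat_lit 6) (nat_lit 0xe00030000d001000080000000000000000000000000000000) (nat_lit 0x0) (nat_lit 0x18000c00060000000cc0000000200000000000000000000000000000000000) := T_31 (nat_lit 174) (nat_lit 175) (nat_lit 3) (nat_lit 4) (nat_lit 10) L83788 (by decide +kernel)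
theorem L83790 : W_31 (nat_lit 7) (nat_lit 0xe00030000c001000080000000000000000000000000000000) (nat_lit 0x0) (nat_lit 0x18000c00060000000cc0003000200000000000000000000000000000000000) := T_31 (nat_lit 156) (nat_lit 157) (nat_lit 3) (nat_lit 3) (nat_lit 9) L83789 (by decide +kernel)
theorem L83791 : W_31 (nat_lit 2) (nat_lit 0xe00030000e001000080000000000000000000000000000000) (nat_lit 0x0) (nat_lit 0x4c0000000000000000000000000000000000000000000) := D_31 (nat_lit 175) (nat_lit 174) (nat_lit 178) (nat_lit 3) (nat_lit 4) (nat_lit 10) (nat_lit 0) (nat_lit 8) (nat_lit 10) (by decide +kernel)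
theorem L83792 : W_31 (nat_lit 3) (nat_lit 0xe00030000c001000080000000000000000000000000000000) (nat_lit 0x0) (nat_lit 0x4c0003000000000000000000000000000000000000000) := T_31 (nat_lit 157) (nat_lit 156) (nat_lit 3) (nat_lit 3) (nat_lit 9) L83791 (by decide +kernel)
theorem L83793 : W_31 (nat_lit 8) (nat_lit 0xe000300008001000080000000000000000000000000000000) (nat_lit 0x0) (nat_lit 0x18000c000f8000000cc0007000200000000000000000000000000000000000) := Q_31 (nat_lit 158) (C_31 L83773 (C_31 L83779 (C_31 L83784 (C_31 L83790 (C_31 L83792 N_31))))) (by decide +kernel)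
theorem L83794 : W_31 (nat_lit 9) (nat_lit 0xe000300000001000080000000000000000000000000000000) (nat_lit 0x0) (nat_lit 0x18000c000f8000000cc000f000e00130000000000000000000000000000000) := Q_31 (nat_lit 159) (C_31 L83762 (C_31 L83767 (C_31 L83793 N_31))) (by decide +kernel)
theorem L83795 : W_31 (nat_lit 8) (nat_lit 0xe000300000001000080000000000000000000000000000000) (nat_lit 0x0) (nat_lit 0x40002800340001c00ce0006000200000000000000000000000000000000000) := Q_31 (nat_lit 192) (C_31 L83451 (C_31 L11585 (C_31 L11603 N_31))) (by decide +kernel)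
theorem L83796 : W_31 (nat_lit 10) (nat_lit 0xc000300000001000080000000000000000000000000000000) (nat_lit 0x0) (nat_lit 0x58002c003f8003c00ce000f000e00130000000000000000000000000000000) := Q_31 (nat_lit 193) (C_31 L82223 (C_31 L83475 (C_31 L82775 (C_31 L83794 (C_31 L83795 N_31))))) (by decide +kernel)
theorem L83797 : W_31 (nat_lit 2) (nat_lit 0x1000000024001e000f00008001000080000000000000000000000000000000) (nat_lit 0x0) (nat_lit 0x80000000000000000400020000000000000000000000000000000) := D_31 (nat_lit 142) (nat_lit 211) (nat_lit 125) (nat_lit 7) (nat_lit 6) (nat_lit 8) (nat_lit 7) (nat_lit 6) (nat_lit 7) (by decide +kernel)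
theorem L83798 : W_31 (nat_lit 3) (nat_lit 0x1000000024001e000f00000001000080000000000000000000000000000000) (nat_lit 0x0) (nat_lit 0x8000000000000c000400020000000000000000000000000000000) := T_31 (nat_lit 159) (nat_lit 158) (nat_lit 0) (nat_lit 9) (nat_lit 10) L83797 (by decide +kernel)
theorem L83799 : W_31 (nat_lit 4) (nat_lit 0x1000000024001e000b00000001000080000000000000000000000000000000) (nat_lit 0x0) (nat_lit 0x8000100040000c000400020000000000000000000000000000000) := T_31 (nat_lit 178) (nat_lit 192) (nat_lit 2) (nat_lit 5) (nat_lit 11) L83798 (by decide +kernel)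
theorem L83800 : W_31 (nat_lit 5) (nat_lit 0x1000000024001e000300000001000080000000000000000000000000000000) (nat_lit 0x0) (nat_lit 0x80001001c0000c000400020000000000000000000000000000000) := T_31 (nat_lit 179) (nat_lit 180) (nat_lit 2) (nat_lit 6) (nat_lit 11) L83799 (by decide +kernel)
theorem L83801 : W_31 (nat_lit 6) (nat_lit 0x24001e000300000001000080000000000000000000000000000000) (nat_lit 0x0) (nat_lit 0x10000800080001001c0000c000400020000000000000000000000000000000) := T_31 (nat_lit 244) (nat_lit 227) (nat_lit 6) (nat_lit 6) (nat_lit 14) L83800 (by decide +kernel)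
theorem L83802 : W_31 (nat_lit 7) (nat_lit 0x4001e000300000001000080000000000000000000000000000000) (nat_lit 0x0) (nat_lit 0x10000800680001001c0000c000400020000000000000000000000000000000) := T_31 (nat_lit 213) (nat_lit 214) (nat_lit 3) (nat_lit 6) (nat_lit 11) L83801 (by decide +kernel)
theorem L83803 : W_31 (nat_lit 8) (nat_lit 0x1e000300000001000080000000000000000000000000000000) (nat_lit 0x0) (nat_lit 0x100008006e0001001c0000c000400020000000000000000000000000000000) := T_31 (nat_lit 210) (nat_lit 209) (nat_lit 1) (nat_lit 9) (nat_lit 11) L83802 (by decide +kernel)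
theorem L83804 : W_31 (nat_lit 9) (nat_lit 0xe000300000001000080000000000000000000000000000000) (nat_lit 0x0) (nat_lit 0x100008006e0031001c0000c000400020000000000000000000000000000000) := T_31 (nat_lit 196) (nat_lit 197) (nat_lit 0) (nat_lit 10) (nat_lit 11) L83803 (by decide +kernel)
theorem L83808 : W_31 (nat_lit 5) (nat_lit 0x80024001e000300000001000080000000000000000000000000000000) (nat_lit 0x0) (nat_lit 0x48002400180000001800040000000000000000000000000000000000000000) := T_31 (nat_lit 179) (nat_lit 180) (nat_lit 2) (nat_lit 6) (nat_lit 11) L83807 (by decide +kernel)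
theorem L83809 : W_31 (nat_lit 6) (nat_lit 0x24001e000300000001000080000000000000000000000000000000) (nat_lit 0x0) (nat_lit 0x58002c00180000001800040000000000000000000000000000000000000000) := T_31 (nat_lit 227) (nat_lit 244) (nat_lit 6) (nat_lit 6) (nat_lit 14) L83808 (by decide +kernel)
theorem L83810 : W_31 (nat_lit 7) (nat_lit 0x4001e000300000001000080000000000000000000000000000000) (nat_lit 0x0) (nat_lit 0x58002c00780000001800040000000000000000000000000000000000000000) := T_31 (nat_lit 213) (nat_lit 214) (nat_lit 3) (nat_lit 6) (nat_lit 11) L83809 (by decide +kernel)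
theorem L83811 : W_31 (nat_lit 8) (nat_lit 0x1e000300000001000080000000000000000000000000000000) (nat_lit 0x0) (nat_lit 0x58002c007e0000001800040000000000000000000000000000000000000000) := T_31 (nat_lit 210) (nat_lit 209) (nat_lit 1) (nat_lit 9) (nat_lit 11) L83810 (by decide +kernel)
theorem L83812 : W_31 (nat_lit 9) (nat_lit 0xe000300000001000080000000000000000000000000000000) (nat_lit 0x0) (nat_lit 0x58002c007e0030001800040000000000000000000000000000000000000000) := T_31 (nat_lit 196) (nat_lit 197) (nat_lit 0) (nat_lit 10) (nat_lit 11) L83811 (by decide +kernel)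
theorem L83813 : W_31 (nat_lit 2) (nat_lit 0x4001e000f00008001000080000000000000000000000000000000) (nat_lit 0x0) (nat_lit 0x80000000000000000400020000000000000000000000000000000) := D_31 (nat_lit 142) (nat_lit 211) (nat_lit 125) (nat_lit 7) (nat_lit 6) (nat_lit 8) (nat_lit 7) (nat_lit 6) (nat_lit 7) (by decide +kernel)
theorem L83814 : W_31 (nat_lit 3) (nat_lit 0x4001e000f00000001000080000000000000000000000000000000) (nat_lit 0x0) (nat_lit 0x8000000000000c000400020000000000000000000000000000000) := T_31 (nat_lit 159) (nat_lit 158) (nat_lit 0) (nat_lit 9) (nat_lit 10) L83813 (by decide +kernel)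
theorem L83815 : W_31 (nat_lit 4) (nat_lit 0x4001e000b00000001000080000000000000000000000000000000) (nat_lit 0x0) (nat_lit 0x8000100040000c000400020000000000000000000000000000000) := T_31 (nat_lit 178) (nat_lit 192) (nat_lit 2) (nat_lit 5) (nat_lit 11) L83814 (by decide +kernel)
theorem L83816 : W_31 (nat_lit 5) (nat_lit 0x4001e000300000001000080000000000000000000000000000000) (nat_lit 0x0) (nat_lit 0x80001001c0000c000400020000000000000000000000000000000) := T_31 (nat_lit 179) (nat_lit 180) (nat_lit 2) (nat_lit 6) (nat_lit 11) L83815 (by decide +kernel)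
theorem L83817 : W_31 (nat_lit 6) (nat_lit 0x1e000300000001000080000000000000000000000000000000) (nat_lit 0x0) (nat_lit 0xe0001001c0000c000400020000000000000000000000000000000) := T_31 (nat_lit 210) (nat_lit 209) (nat_lit 1) (nat_lit 9) (nat_lit 11) L83816 (by decide +kernel)
theorem L83818 : W_31 (nat_lit 7) (nat_lit 0xe000300000001000080000000000000000000000000000000) (nat_lit 0x0) (nat_lit 0xe0031001c0000c000400020000000000000000000000000000000) := T_31 (nat_lit 196) (nat_lit 197) (nat_lit 0) (nat_lit 10) (nat_lit 11) L83817 (by decide +kernel)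
theorem L83819 : W_31 (nat_lit 10) (nat_lit 0xc000300000001000080000000000000000000000000000000) (nat_lit 0x0) (nat_lit 0x58002c007f8033c01c0004c000400020000000000000000000000000000000) := Q_31 (nat_lit 193) (C_31 L15638 (C_31 L11651 (C_31 L82223 (C_31 L83804 (C_31 L83812 (C_31 L11663 (C_31 L83818 N_31))))))) (by decide +kernel)
theorem L83820 : W_31 (nat_lit 11) (nat_lit 0x4000300000001000080000000000000000000000000000000) (nat_lit 0x0) (nat_lit 0x58002c007f803bc01ce004f000e00130000000000000000000000000000000) := Q_31 (nat_lit 195) (C_31 L5377 (C_31 L82190 (C_31 L83796 (C_31 L83819 N_31)))) (by decide +kernel)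
theorem L83821 : W_31 (nat_lit 4) (nat_lit 0x7000780000001000080000000000000000000000000000000) (nat_lit 0x0) (nat_lit 0x400030018000000008000400000000000000000000000000000000000) := T_31 (nat_lit 195) (nat_lit 196) (nat_lit 3) (nat_lit 5) (nat_lit 10) L14779 (by decide +kernel)
theorem L83822 : W_31 (nat_lit 5) (nat_lit 0x6000780000001000080000000000000000000000000000000) (nat_lit 0x0) (nat_lit 0x400030019800000008000400000000000000000000000000000000000) := T_31 (nat_lit 192) (nat_lit 191) (nat_lit 2) (nat_lit 4) (nat_lit 11) L83821 (by decide +kernel)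
theorem L83823 : W_31 (nat_lit 5) (nat_lit 0x6000780000001000080000000000000000000000000000000) (nat_lit 0x0) (nat_lit 0x80004001800000000e000200010000000000000000000000000000000) := T_31 (nat_lit 195) (nat_lit 196) (nat_lit 3) (nat_lit 5) (nat_lit 10) L16059 (by decide +kernel)
theorem L83824 : W_31 (nat_lit 6) (nat_lit 0x4000780000001000080000000000000000000000000000000) (nat_lit 0x0) (nat_lit 0xc0007001b80000000e000600010000000000000000000000000000000) := Q_31 (nat_lit 193) (C_31 L82962 (C_31 L83822 (C_31 L83823 N_31))) (by decide +kernel)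
theorem L83825 : W_31 (nat_lit 9) (nat_lit 0x4000380000001000080000000000000000000000000000000) (nat_lit 0x0) (nat_lit 0xc000700fb803c001ce000600010000000000000000000000000000000) := Q_31 (nat_lit 178) (C_31 L83584 (C_31 L83522 (C_31 L83824 (C_31 L83577 (C_31 L83516 N_31))))) (by decide +kernel)
theorem L83826 : W_31 (nat_lit 10) (nat_lit 0x4000300000001000080000000000000000000000000000000) (nat_lit 0x0) (nat_lit 0x10000e000700fbe03ce01cf800f00010000000000000000000000000000000) := Q_31 (nat_lit 175) (C_31 L14148 (C_31 L83505 (C_31 L83511 (C_31 L83825 N_31)))) (by decide +kernel)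
theorem L83837 : W_31 (nat_lit 2) (nat_lit 0x700050002c001f400880010000a0000000000000000000000000000000) (nat_lit 0x0) (nat_lit 0x18000800000000000000000000000000000000000000000000000000000) := D_31 (nat_lit 215) (nat_lit 231) (nat_lit 232) (nat_lit 2) (nat_lit 7) (nat_lit 13) (nat_lit 7) (nat_lit 10) (nat_lit 9) (by decide +kernel)
theorem L83838 : W_31 (nat_lit 3) (nat_lit 0x700010002c001f400880010000a0000000000000000000000000000000) (nat_lit 0x0) (nat_lit 0x18000e00000000000000000000000000000000000000000000000000000) := T_31 (nat_lit 214) (nat_lit 213) (nat_lit 5) (nat_lit 10) (nat_lit 9) L83837 (by decide +kernel)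
theorem L83841 : W_31 (nat_lit 2) (nat_lit 0x700050002c001f40088001400080000000000000000000000000000000) (nat_lit 0x0) (nat_lit 0x18000800000000000000000000000000000000000000000000000000000) := D_31 (nat_lit 215) (nat_lit 231) (nat_lit 232) (nat_lit 2) (nat_lit 7) (nat_lit 13) (nat_lit 7) (nat_lit 10) (nat_lit 9) (by decide +kernel)
theorem L83842 : W_31 (nat_lit 3) (nat_lit 0x700010002c001f40088001400080000000000000000000000000000000) (nat_lit 0x0) (nat_lit 0x18000e00000000000000000000000000000000000000000000000000000) := T_31 (nat_lit 214) (nat_lit 213) (nat_lit 5) (nat_lit 10) (nat_lit 9) L83841 (by decide +kernel)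
theorem L83843 : W_31 (nat_lit 4) (nat_lit 0x700010002c001f40008001400080000000000000000000000000000000) (nat_lit 0x0) (nat_lit 0x18000e00000000000180000000000000000000000000000000000000000) := T_31 (nat_lit 163) (nat_lit 164) (nat_lit 2) (nat_lit 7) (nat_lit 10) L83842 (by decide +kernel)
theorem L83844 : W_31 (nat_lit 5) (nat_lit 0x700010000c001f40008001400080000000000000000000000000000000) (nat_lit 0x0) (nat_lit 0x18000e00060000000180000000000000000000000000000000000000000) := T_31 (nat_lit 197) (nat_lit 198) (nat_lit 3) (nat_lit 7) (nat_lit 10) L83843 (by decide +kernel)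
theorem L83890 : W_31 (nat_lit 13) (nat_lit 0x4000300000001000080000000000000000000000000000000) (nat_lit 0x0) (nat_lit 0xfe007e007b803bc03ce01cf000f00038000c00000000000000000000000000) := Q_31 (nat_lit 195) (C_31 L5377 (C_31 L82190 (C_31 L83886 (C_31 L83889 N_31)))) (by decide +kernel)
theorem L83891 : W_31 (nat_lit 2) (nat_lit 0x4001e000e000340000001000080000000000000000000000000000000) (nat_lit 0x0) (nat_lit 0x40006000000000000000000000000000000000000000000000000000000000) := D_31 (nat_lit 229) (nat_lit 230) (nat_lit 246) (nat_lit 3) (nat_lit 5) (nat_lit 12) (nat_lit 4) (nat_lit 8) (nat_lit 14) (by decide +kernel)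
theorem L83892 : W_31 (nat_lit 3) (nat_lit 0x4000e000e000340000001000080000000000000000000000000000000) (nat_lit 0x0) (nat_lit 0x40006200100000000000000000000000000000000000000000000000000000) := T_31 (nat_lit 212) (nat_lit 225) (nat_lit 1) (nat_lit 8) (nat_lit 12) L83891 (by decide +kernel)
theorem L83893 : W_31 (nat_lit 4) (nat_lit 0xe000e000340000001000080000000000000000000000000000000) (nat_lit 0x0) (nat_lit 0x40006600100000000000008000000000000000000000000000000000000000) := T_31 (nat_lit 226) (nat_lit 159) (nat_lit 5) (nat_lit 6) (nat_lit 9) L83892 (by decide +kernel)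
theorem L83894 : W_31 (nat_lit 5) (nat_lit 0xc000e000340000001000080000000000000000000000000000000) (nat_lit 0x0) (nat_lit 0x40006600130000000000008000000000000000000000000000000000000000) := T_31 (nat_lit 209) (nat_lit 208) (nat_lit 2) (nat_lit 4) (nat_lit 12) L83893 (by decide +kernel)
theorem L83895 : W_31 (nat_lit 6) (nat_lit 0xc000e000300000001000080000000000000000000000000000000) (nat_lit 0x0) (nat_lit 0x400066001300000000c0008000000000000000000000000000000000000000) := T_31 (nat_lit 174) (nat_lit 175) (nat_lit 3) (nat_lit 4) (nat_lit 10) L83894 (by decide +kernel)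
theorem L83896 : W_31 (nat_lit 7) (nat_lit 0x8000e000300000001000080000000000000000000000000000000) (nat_lit 0x0) (nat_lit 0x58006f001700000000c000c000000000000000000000000000000000000000) := Q_31 (nat_lit 210) (C_31 L82281 (C_31 L80393 (C_31 L83895 N_31))) (by decide +kernel)
theorem L83897 : W_31 (nat_lit 10) (nat_lit 0xe000300000001000080000000000000000000000000000000) (nat_lit 0x0) (nat_lit 0x7800ff003f00000000c000c000000000000000000000000000000000000000) := Q_31 (nat_lit 211) (C_31 L82296 (C_31 L82857 (C_31 L83896 (C_31 L11830 N_31)))) (by decide +kernel)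
theorem L83898 : W_31 (nat_lit 11) (nat_lit 0xc000300000001000080000000000000000000000000000000) (nat_lit 0x0) (nat_lit 0xfc01ff003f8003c00ce000e000200000000000000000000000000000000000) := Q_31 (nat_lit 193) (C_31 L83897 (C_31 L83420 (C_31 L83795 (C_31 L83474 (C_31 L83475 (C_31 L82239 N_31)))))) (by decide +kernel)
theorem L83899 : W_31 (nat_lit 14) (nat_lit 0x4000300000001000080000000000000000000000000000000) (nat_lit 0x0) (nat_lit 0x1fc01ff007f803bc01ce00ce000200000000000000000000000000000000000) := Q_31 (nat_lit 195) (C_31 L5377 (C_31 L82190 (C_31 L83438 (C_31 L83898 N_31)))) (by decide +kernel)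
theorem L83900 : W_31 (nat_lit 3) (nat_lit 0xc00030000c001400080000000000000000000000000000000) (nat_lit 0x0) (nat_lit 0x4c0003000000000000000000000000000000000000000) := T_31 (nat_lit 175) (nat_lit 174) (nat_lit 3) (nat_lit 4) (nat_lit 10) L83845 (by decide +kernel)
theorem L83901 : W_31 (nat_lit 2) (nat_lit 0x7c002d000c000340000001000080000000000000000000000000000000) (nat_lit 0x0) (nat_lit 0xc000000000002000000000000000000000000000000000000000000000000) := D_31 (nat_lit 243) (nat_lit 193) (nat_lit 242) (nat_lit 5) (nat_lit 6) (nat_lit 10) (nat_lit 1) (nat_lit 8) (nat_lit 13) (by decide +kernel)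
theorem L83902 : W_31 (nat_lit 3) (nat_lit 0x78002d000c000340000001000080000000000000000000000000000000) (nat_lit 0x0) (nat_lit 0xc000400100002000000000000000000000000000000000000000000000000) := T_31 (nat_lit 226) (nat_lit 212) (nat_lit 2) (nat_lit 5) (nat_lit 13) L83901 (by decide +kernel)
theorem L83903 : W_31 (nat_lit 4) (nat_lit 0x78000d000c000340000001000080000000000000000000000000000000) (nat_lit 0x0) (nat_lit 0xc000400700002000000000000000000000000000000000000000000000000) := T_31 (nat_lit 213) (nat_lit 214) (nat_lit 2) (nat_lit 6) (nat_lit 13) L83902 (by decide +kernel)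
theorem L83904 : W_31 (nat_lit 5) (nat_lit 0x38000d000c000340000001000080000000000000000000000000000000) (nat_lit 0x0) (nat_lit 0xc00c400700002000000000000000000000000000000000000000000000000) := T_31 (nat_lit 230) (nat_lit 231) (nat_lit 0) (nat_lit 10) (nat_lit 13) L83903 (by decide +kernel)
theorem L83905 : W_31 (nat_lit 6) (nat_lit 0x18000d000c000340000001000080000000000000000000000000000000) (nat_lit 0x0) (nat_lit 0x4c00e400700002000000000000000000000000000000000000000000000000) := T_31 (nat_lit 229) (nat_lit 246) (nat_lit 7) (nat_lit 7) (nat_lit 10) L83904 (by decide +kernel)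
theorem L83906 : W_31 (nat_lit 7) (nat_lit 0x10000d000c000340000001000080000000000000000000000000000000) (nat_lit 0x0) (nat_lit 0x5c00ec00700002000000000000000000000000000000000000000000000000) := T_31 (nat_lit 227) (nat_lit 244) (nat_lit 5) (nat_lit 7) (nat_lit 10) L83905 (by decide +kernel)
theorem L83907 : W_31 (nat_lit 8) (nat_lit 0x10000c000c000340000001000080000000000000000000000000000000) (nat_lit 0x0) (nat_lit 0x5c00ec00730002000000000000000000000000000000000000000000000000) := T_31 (nat_lit 208) (nat_lit 209) (nat_lit 2) (nat_lit 4) (nat_lit 12) L83906 (by decide +kernel)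
theorem L83908 : W_31 (nat_lit 9) (nat_lit 0x10000c000c000300000001000080000000000000000000000000000000) (nat_lit 0x0) (nat_lit 0x5c00ec007300020000c0000000000000000000000000000000000000000000) := T_31 (nat_lit 174) (nat_lit 175) (nat_lit 3) (nat_lit 4) (nat_lit 10) L83907 (by decide +kernel)
theorem L83909 : W_31 (nat_lit 4) (nat_lit 0x10000c000c000300000001000080000000000000000000000000000000) (nat_lit 0x0) (nat_lit 0x4000e800030000000000000000000000000000000000000000000000000000) := T_31 (nat_lit 229) (nat_lit 246) (nat_lit 7) (nat_lit 7) (nat_lit 10) L82383 (by decide +kernel)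
theorem L83910 : W_31 (nat_lit 2) (nat_lit 0x800078002c000c000340000001000080000000000000000000000000000000) (nat_lit 0x0) (nat_lit 0x400100000000400000000000000000000000000000000000000000000) := D_31 (nat_lit 212) (nat_lit 226) (nat_lit 178) (nat_lit 2) (nat_lit 5) (nat_lit 13) (nat_lit 7) (nat_lit 8) (nat_lit 10) (by decide +kernel)
theorem L83911 : W_31 (nat_lit 3) (nat_lit 0x800078000c000c000340000001000080000000000000000000000000000000) (nat_lit 0x0) (nat_lit 0x400700000000400000000000000000000000000000000000000000000) := T_31 (nat_lit 213) (nat_lit 214) (nat_lit 2) (nat_lit 6) (nat_lit 13) L83910 (by decide +kernel)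
theorem L83912 : W_31 (nat_lit 4) (nat_lit 0x78000c000c000340000001000080000000000000000000000000000000) (nat_lit 0x0) (nat_lit 0x180000400700000000400000000000000000000000000000000000000000000) := T_31 (nat_lit 247) (nat_lit 248) (nat_lit 3) (nat_lit 6) (nat_lit 13) L83911 (by decide +kernel)
theorem L83913 : W_31 (nat_lit 5) (nat_lit 0x70000c000c000340000001000080000000000000000000000000000000) (nat_lit 0x0) (nat_lit 0x190000c00700000000400000000000000000000000000000000000000000000) := T_31 (nat_lit 227) (nat_lit 244) (nat_lit 5) (nat_lit 7) (nat_lit 10) L83912 (by decide +kernel)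
theorem L83914 : W_31 (nat_lit 6) (nat_lit 0x30000c000c000340000001000080000000000000000000000000000000) (nat_lit 0x0) (nat_lit 0x19000cc00700000000400000000000000000000000000000000000000000000) := T_31 (nat_lit 230) (nat_lit 231) (nat_lit 0) (nat_lit 10) (nat_lit 13) L83913 (by decide +kernel)
theorem L83915 : W_31 (nat_lit 7) (nat_lit 0x10000c000c000340000001000080000000000000000000000000000000) (nat_lit 0x0) (nat_lit 0x1d000ec00700000000400000000000000000000000000000000000000000000) := T_31 (nat_lit 229) (nat_lit 246) (nat_lit 7) (nat_lit 7) (nat_lit 10) L83914 (by decide +kernel)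
theorem L83916 : W_31 (nat_lit 8) (nat_lit 0x10000c000c000300000001000080000000000000000000000000000000) (nat_lit 0x0) (nat_lit 0x1d000ec007000000004c0000000000000000000000000000000000000000000) := T_31 (nat_lit 174) (nat_lit 175) (nat_lit 3) (nat_lit 4) (nat_lit 10) L83915 (by decide +kernel)
theorem L83917 : W_31 (nat_lit 2) (nat_lit 0x30000e000c000340000001000080000000000000000000000000000000) (nat_lit 0x0) (nat_lit 0xc000100000000000000000000000000000000000000000000000000000) := D_31 (nat_lit 230) (nat_lit 212) (nat_lit 231) (nat_lit 3) (nat_lit 5) (nat_lit 12) (nat_lit 0) (nat_lit 10) (nat_lit 13) (by decide +kernel)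
theorem L83918 : W_31 (nat_lit 3) (nat_lit 0x10000e000c000340000001000080000000000000000000000000000000) (nat_lit 0x0) (nat_lit 0x4000e000100000000000000000000000000000000000000000000000000000) := T_31 (nat_lit 229) (nat_lit 246) (nat_lit 7) (nat_lit 7) (nat_lit 10) L83917 (by decide +kernel)
theorem L83919 : W_31 (nat_lit 4) (nat_lit 0x10000e000c000300000001000080000000000000000000000000000000) (nat_lit 0x0) (nat_lit 0x4000e0001000000000c0000000000000000000000000000000000000000000) := T_31 (nat_lit 174) (nat_lit 175) (nat_lit 3) (nat_lit 4) (nat_lit 10) L83918 (by decide +kernel)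
theorem L83920 : W_31 (nat_lit 5) (nat_lit 0x10000c000c000300000001000080000000000000000000000000000000) (nat_lit 0x0) (nat_lit 0x4000e0001300000000c0000000000000000000000000000000000000000000) := T_31 (nat_lit 209) (nat_lit 208) (nat_lit 2) (nat_lit 4) (nat_lit 12) L83919 (by decide +kernel)
theorem L83922 : W_31 (nat_lit 5) (nat_lit 0x18000d000c000300000001000080000000000000000000000000000000) (nat_lit 0x0) (nat_lit 0x80006001080020000c0004000000000000000000000000000000000000000) := T_31 (nat_lit 175) (nat_lit 174) (nat_lit 3) (nat_lit 4) (nat_lit 10) L83921 (by decide +kernel)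
theorem L83923 : W_31 (nat_lit 6) (nat_lit 0x18000c000c000300000001000080000000000000000000000000000000) (nat_lit 0x0) (nat_lit 0x80006001380020000c0004000000000000000000000000000000000000000) := T_31 (nat_lit 208) (nat_lit 209) (nat_lit 2) (nat_lit 4) (nat_lit 12) L83922 (by decide +kernel)
theorem L83924 : W_31 (nat_lit 7) (nat_lit 0x10000c000c000300000001000080000000000000000000000000000000) (nat_lit 0x0) (nat_lit 0x18000e001380020000c0004000000000000000000000000000000000000000) := T_31 (nat_lit 227) (nat_lit 244) (nat_lit 5) (nat_lit 7) (nat_lit 10) L83923 (by decide +kernel)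
theorem L83925 : W_31 (nat_lit 10) (nat_lit 0x100008000c000300000001000080000000000000000000000000000000) (nat_lit 0x0) (nat_lit 0x1dc00ee007780020004c0004000000000000000000000000000000000000000) := Q_31 (nat_lit 210) (C_31 L83908 (C_31 L83909 (C_31 L83916 (C_31 L83920 (C_31 L83924 N_31))))) (by decide +kernel)
theorem L83942 : W_31 (nat_lit 2) (nat_lit 0x38000c000300000001000080000000000000000000000000000000) (nat_lit 0x0) (nat_lit 0xc00002000000000000000000000000000000000000000000000000) := D_31 (nat_lit 214) (nat_lit 215) (nat_lit 193) (nat_lit 0) (nat_lit 11) (nat_lit 12) (nat_lit 0) (nat_lit 10) (nat_lit 12) (by decide +kernel)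
theorem L83946 : W_31 (nat_lit 11) (nat_lit 0x100000000c000300000001000080000000000000000000000000000000) (nat_lit 0x0) (nat_lit 0xc001fc00ee007f80020004c0004000000000000000000000000000000000000000) := Q_31 (nat_lit 211) (C_31 L83925 (C_31 L15333 (C_31 L82372 N_31))) (by decide +kernel)
theorem L83947 : W_31 (nat_lit 3) (nat_lit 0x100000000c000300000001000080000000000000000000000000000000) (nat_lit 0x0) (nat_lit 0x20000000080002000400008000000000000000000000000000000000000000) := T_31 (nat_lit 211) (nat_lit 159) (nat_lit 4) (nat_lit 7) (nat_lit 13) L15333 (by decide +kernel)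
theorem L83948 : W_31 (nat_lit 2) (nat_lit 0x780004000c000340000001000080000000000000000000000000000000) (nat_lit 0x0) (nat_lit 0x18000000000002000000000000000000000000000000000000000000000000) := D_31 (nat_lit 244) (nat_lit 243) (nat_lit 193) (nat_lit 1) (nat_lit 9) (nat_lit 13) (nat_lit 6) (nat_lit 6) (nat_lit 14) (by decide +kernel)
theorem L83949 : W_31 (nat_lit 3) (nat_lit 0x780000000c000340000001000080000000000000000000000000000000) (nat_lit 0x0) (nat_lit 0x18000000060002000000000000000000000000000000000000000000000000) := T_31 (nat_lit 210) (nat_lit 209) (nat_lit 0) (nat_lit 9) (nat_lit 13) L83948 (by decide +kernel)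
theorem L83950 : W_31 (nat_lit 4) (nat_lit 0x780000000c000300000001000080000000000000000000000000000000) (nat_lit 0x0) (nat_lit 0x180000000600020000c0000000000000000000000000000000000000000000) := T_31 (nat_lit 174) (nat_lit 175) (nat_lit 3) (nat_lit 4) (nat_lit 10) L83949 (by decide +kernel)
theorem L83951 : W_31 (nat_lit 6) (nat_lit 0x380000000c000300000001000080000000000000000000000000000000) (nat_lit 0x0) (nat_lit 0x3c00c400f700020000c0000000000000000000000000000000000000000000) := Q_31 (nat_lit 230) (C_31 L82503 (C_31 L82420 (C_31 L83950 (C_31 L82483 N_31)))) (by decide +kernel)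
theorem L83952 : W_31 (nat_lit 11) (nat_lit 0x300000000c000300000001000080000000000000000000000000000000) (nat_lit 0x0) (nat_lit 0x10003fe03cf00f780028000c0000000000000000000000000000000000000000000) := Q_31 (nat_lit 227) (C_31 L82510 (C_31 L82459 (C_31 L82480 (C_31 L82455 (C_31 L83951 (C_31 L82504 N_31)))))) (by decide +kernel)
theorem L83953 : W_31 (nat_lit 2) (nat_lit 0x300010000c000f40000001000080000000000000000000000000000000) (nat_lit 0x0) (nat_lit 0x2003000000000000000000000000000000000000000000000) := D_31 (nat_lit 180) (nat_lit 181) (nat_lit 193) (nat_lit 1) (nat_lit 11) (nat_lit 10) (nat_lit 1) (nat_lit 10) (nat_lit 10) (by decide +kernel)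
theorem L83954 : W_31 (nat_lit 3) (nat_lit 0x300010000c000740000001000080000000000000000000000000000000) (nat_lit 0x0) (nat_lit 0x2003800040000000000000000000000000000000000000000) := T_31 (nat_lit 179) (nat_lit 162) (nat_lit 6) (nat_lit 8) (nat_lit 13) L83953 (by decide +kernel)
theorem L83955 : W_31 (nat_lit 4) (nat_lit 0x300010000c000340000001000080000000000000000000000000000000) (nat_lit 0x0) (nat_lit 0x20000000000002003c00040000000000000000000000000000000000000000) := T_31 (nat_lit 178) (nat_lit 245) (nat_lit 5) (nat_lit 8) (nat_lit 10) L83954 (by decide +kernel)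
theorem L83956 : W_31 (nat_lit 5) (nat_lit 0x300000000c000340000001000080000000000000000000000000000000) (nat_lit 0x0) (nat_lit 0x60000000100002003c00040000000000000000000000000000000000000000) := T_31 (nat_lit 212) (nat_lit 246) (nat_lit 4) (nat_lit 8) (nat_lit 14) L83955 (by decide +kernel)
theorem L83957 : W_31 (nat_lit 6) (nat_lit 0x300000000c000300000001000080000000000000000000000000000000) (nat_lit 0x0) (nat_lit 0x60000000100002003cc0040000000000000000000000000000000000000000) := T_31 (nat_lit 174) (nat_lit 175) (nat_lit 3) (nat_lit 4) (nat_lit 10) L83956 (by decide +kernel)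
theorem L83958 : W_31 (nat_lit 4) (nat_lit 0x300010002c001f400880010000a0000000000000000000000000000000) (nat_lit 0x0) (nat_lit 0x8001c000e00000000000000000000000000000000000000000000000000000) := T_31 (nat_lit 230) (nat_lit 247) (nat_lit 7) (nat_lit 8) (nat_lit 10) L83838 (by decide +kernel)
theorem L83959 : W_31 (nat_lit 5) (nat_lit 0x300010002c001f400080010000a0000000000000000000000000000000) (nat_lit 0x0) (nat_lit 0x8001c000e00000000000180000000000000000000000000000000000000000) := T_31 (nat_lit 163) (nat_lit 164) (nat_lit 2) (nat_lit 7) (nat_lit 10) L83958 (by decide +kernel)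
theorem L83960 : W_31 (nat_lit 6) (nat_lit 0x300010002c001f40008001000080000000000000000000000000000000) (nat_lit 0x0) (nat_lit 0x8001c000e00000000000180000400020000000000000000000000000000000) := T_31 (nat_lit 125) (nat_lit 142) (nat_lit 7) (nat_lit 6) (nat_lit 7) L83959 (by decide +kernel)
theorem L83961 : W_31 (nat_lit 7) (nat_lit 0x300010000c001f40008001000080000000000000000000000000000000) (nat_lit 0x0) (nat_lit 0x8001c000e00060000000180000400020000000000000000000000000000000) := T_31 (nat_lit 197) (nat_lit 198) (nat_lit 3) (nat_lit 7) (nat_lit 10) L83960 (by decide +kernel)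
theorem L83962 : W_31 (nat_lit 8) (nat_lit 0x300010000c001f40000001000080000000000000000000000000000000) (nat_lit 0x0) (nat_lit 0x8001c000e0006000000018c000400020000000000000000000000000000000) := T_31 (nat_lit 159) (nat_lit 158) (nat_lit 0) (nat_lit 9) (nat_lit 10) L83961 (by decide +kernel)
theorem L83963 : W_31 (nat_lit 9) (nat_lit 0x300010000c000f40000001000080000000000000000000000000000000) (nat_lit 0x0) (nat_lit 0x8001c000e0006000300018c000400020000000000000000000000000000000) := T_31 (nat_lit 180) (nat_lit 181) (nat_lit 1) (nat_lit 11) (nat_lit 10) L83962 (by decide +kernel)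
theorem L83964 : W_31 (nat_lit 10) (nat_lit 0x300010000c000740000001000080000000000000000000000000000000) (nat_lit 0x0) (nat_lit 0x8001c000e000600038001cc000400020000000000000000000000000000000) := T_31 (nat_lit 179) (nat_lit 162) (nat_lit 6) (nat_lit 8) (nat_lit 13) L83963 (by decide +kernel)
theorem L83965 : W_31 (nat_lit 11) (nat_lit 0x300010000c000340000001000080000000000000000000000000000000) (nat_lit 0x0) (nat_lit 0xa001c000e00060003c001cc000400020000000000000000000000000000000) := T_31 (nat_lit 178) (nat_lit 245) (nat_lit 5) (nat_lit 8) (nat_lit 10) L83964 (by decide +kernel)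
theorem L83966 : W_31 (nat_lit 12) (nat_lit 0x300010000c000300000001000080000000000000000000000000000000) (nat_lit 0x0) (nat_lit 0xa001c000e00060003cc01cc000400020000000000000000000000000000000) := T_31 (nat_lit 174) (nat_lit 175) (nat_lit 3) (nat_lit 4) (nat_lit 10) L83965 (by decide +kernel)
theorem L83967 : W_31 (nat_lit 13) (nat_lit 0x300000000c000300000001000080000000000000000000000000000000) (nat_lit 0x0) (nat_lit 0xe001c000f00060003cc01cc000400020000000000000000000000000000000) := T_31 (nat_lit 212) (nat_lit 246) (nat_lit 4) (nat_lit 8) (nat_lit 14) L83966 (by decide +kernel)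
theorem L83970 : W_31 (nat_lit 4) (nat_lit 0x300010000c000300000001000080000000000000000000000000000000) (nat_lit 0x0) (nat_lit 0x20000000000002003c00040000000000000000000000000000000000000000) := T_31 (nat_lit 178) (nat_lit 245) (nat_lit 5) (nat_lit 8) (nat_lit 10) L83969 (by decide +kernel)
theorem L83971 : W_31 (nat_lit 5) (nat_lit 0x300000000c000300000001000080000000000000000000000000000000) (nat_lit 0x0) (nat_lit 0x60000000100002003c00040000000000000000000000000000000000000000) := T_31 (nat_lit 212) (nat_lit 246) (nat_lit 4) (nat_lit 8) (nat_lit 14) L83970 (by decide +kernel)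
theorem L83972 : W_31 (nat_lit 6) (nat_lit 0x380000000c000300000001000080000000000000000000000000000000) (nat_lit 0x0) (nat_lit 0x1fc00c400e70000000000000000000000000000000000000000000000000000) := Q_31 (nat_lit 230) (C_31 L82503 (C_31 L82417 (C_31 L82427 N_31))) (by decide +kernel)
theorem L83973 : W_31 (nat_lit 2) (nat_lit 0x40003e0000000c000340000001000080000000000000000000000000000000) (nat_lit 0x0) (nat_lit 0xe000000000000000000000000000000000000000000000000000000000000) := D_31 (nat_lit 242) (nat_lit 241) (nat_lit 243) (nat_lit 1) (nat_lit 7) (nat_lit 13) (nat_lit 1) (nat_lit 8) (nat_lit 13) (by decide +kernel)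
theorem L83974 : W_31 (nat_lit 3) (nat_lit 0x40003c0000000c000340000001000080000000000000000000000000000000) (nat_lit 0x0) (nat_lit 0x2e000200000000000000000000000000000000000000000000000000000000) := T_31 (nat_lit 225) (nat_lit 245) (nat_lit 3) (nat_lit 4) (nat_lit 13) L83973 (by decide +kernel)
theorem L83975 : W_31 (nat_lit 4) (nat_lit 0x3c0000000c000340000001000080000000000000000000000000000000) (nat_lit 0x0) (nat_lit 0xee000200000000000000000000000000000000000000000000000000000000) := T_31 (nat_lit 246) (nat_lit 247) (nat_lit 3) (nat_lit 5) (nat_lit 13) L83974 (by decide +kernel)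
theorem L83976 : W_31 (nat_lit 5) (nat_lit 0x3c0000000c000300000001000080000000000000000000000000000000) (nat_lit 0x0) (nat_lit 0xee0002000000000000c0000000000000000000000000000000000000000000) := T_31 (nat_lit 174) (nat_lit 175) (nat_lit 3) (nat_lit 4) (nat_lit 10) L83975 (by decide +kernel)
theorem L83977 : W_31 (nat_lit 2) (nat_lit 0x48003e0000000c000300000001000080000000000000000000000000000000) (nat_lit 0x0) (nat_lit 0x38000000000000000000000000000000000000000000000000000) := D_31 (nat_lit 208) (nat_lit 207) (nat_lit 209) (nat_lit 0) (nat_lit 7) (nat_lit 13) (nat_lit 0) (nat_lit 8) (nat_lit 13) (by decide +kernel)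
theorem L83978 : W_31 (nat_lit 3) (nat_lit 0x48003c0000000c000300000001000080000000000000000000000000000000) (nat_lit 0x0) (nat_lit 0x20000200038000000000000000000000000000000000000000000000000000) := T_31 (nat_lit 225) (nat_lit 245) (nat_lit 3) (nat_lit 4) (nat_lit 13) L83977 (by decide +kernel)
theorem L83979 : W_31 (nat_lit 4) (nat_lit 0x8003c0000000c000300000001000080000000000000000000000000000000) (nat_lit 0x0) (nat_lit 0xe0000200038000000000000000000000000000000000000000000000000000) := T_31 (nat_lit 246) (nat_lit 247) (nat_lit 3) (nat_lit 5) (nat_lit 13) L83978 (by decide +kernel)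
theorem L83980 : W_31 (nat_lit 5) (nat_lit 0x3c0000000c000300000001000080000000000000000000000000000000) (nat_lit 0x0) (nat_lit 0xec000200038000000000000000000000000000000000000000000000000000) := T_31 (nat_lit 243) (nat_lit 242) (nat_lit 1) (nat_lit 8) (nat_lit 13) L83979 (by decide +kernel)
theorem L83981 : W_31 (nat_lit 2) (nat_lit 0x108007c0042000c000340000001000080000000000000000000000000000000) (nat_lit 0x0) (nat_lit 0x200008000800000000000000000000000000000000000000000000000000000) := D_31 (nat_lit 231) (nat_lit 249) (nat_lit 215) (nat_lit 3) (nat_lit 7) (nat_lit 13) (nat_lit 2) (nat_lit 7) (nat_lit 13) (by decide +kernel)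
theorem L83982 : W_31 (nat_lit 3) (nat_lit 0x108007c0002000c000340000001000080000000000000000000000000000000) (nat_lit 0x0) (nat_lit 0x200008000e00000000000000000000000000000000000000000000000000000) := T_31 (nat_lit 214) (nat_lit 213) (nat_lit 2) (nat_lit 6) (nat_lit 13) L83981 (by decide +kernel)
theorem L83983 : W_31 (nat_lit 4) (nat_lit 0x8007c0002000c000340000001000080000000000000000000000000000000) (nat_lit 0x0) (nat_lit 0x380008000e00000000000000000000000000000000000000000000000000000) := T_31 (nat_lit 248) (nat_lit 247) (nat_lit 3) (nat_lit 6) (nat_lit 13) L83982 (by decide +kernel)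
theorem L83984 : W_31 (nat_lit 5) (nat_lit 0x8007c0000000c000340000001000080000000000000000000000000000000) (nat_lit 0x0) (nat_lit 0x380008000e30000000000000000000000000000000000000000000000000000) := T_31 (nat_lit 209) (nat_lit 208) (nat_lit 0) (nat_lit 8) (nat_lit 13) L83983 (by decide +kernel)
theorem L83985 : W_31 (nat_lit 6) (nat_lit 0x8003c0000000c000340000001000080000000000000000000000000000000) (nat_lit 0x0) (nat_lit 0x39000c000e30000000000000000000000000000000000000000000000000000) := T_31 (nat_lit 230) (nat_lit 244) (nat_lit 1) (nat_lit 9) (nat_lit 13) L83984 (by decide +kernel)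
theorem L83986 : W_31 (nat_lit 7) (nat_lit 0x8003c0000000c000300000001000080000000000000000000000000000000) (nat_lit 0x0) (nat_lit 0x39000c000e300000000c0000000000000000000000000000000000000000000) := T_31 (nat_lit 174) (nat_lit 175) (nat_lit 3) (nat_lit 4) (nat_lit 10) L83985 (by decide +kernel)
theorem L83987 : W_31 (nat_lit 8) (nat_lit 0x3c0000000c000300000001000080000000000000000000000000000000) (nat_lit 0x0) (nat_lit 0x39c00c000e300000000c0000000000000000000000000000000000000000000) := T_31 (nat_lit 243) (nat_lit 242) (nat_lit 1) (nat_lit 8) (nat_lit 13) L83986 (by decide +kernel)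
theorem L83988 : W_31 (nat_lit 2) (nat_lit 0x42003f0002800c400360000001000080000000000000000000000000000000) (nat_lit 0x0) (nat_lit 0x200010000800000000000000000000000000000000000000) := D_31 (nat_lit 172) (nat_lit 155) (nat_lit 189) (nat_lit 4) (nat_lit 3) (nat_lit 13) (nat_lit 4) (nat_lit 3) (nat_lit 14) (by decide +kernel)
theorem L83989 : W_31 (nat_lit 3) (nat_lit 0x42003f0002800c400340000001000080000000000000000000000000000000) (nat_lit 0x0) (nat_lit 0x200030002800000000000000000000000000000000000000) := T_31 (nat_lit 173) (nat_lit 157) (nat_lit 6) (nat_lit 3) (nat_lit 13) L83988 (by decide +kernel)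
theorem L83990 : W_31 (nat_lit 4) (nat_lit 0x42003f0002800c000340000001000080000000000000000000000000000000) (nat_lit 0x0) (nat_lit 0xe00030002800000000000000000000000000000000000000) := T_31 (nat_lit 190) (nat_lit 191) (nat_lit 6) (nat_lit 3) (nat_lit 14) L83989 (by decide +kernel)
theorem L83991 : W_31 (nat_lit 5) (nat_lit 0x42003f0002000c000340000001000080000000000000000000000000000000) (nat_lit 0x0) (nat_lit 0xc000e00030002800000000000000000000000000000000000000) := T_31 (nat_lit 207) (nat_lit 206) (nat_lit 0) (nat_lit 6) (nat_lit 13) L83990 (by decide +kernel)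
theorem L83992 : W_31 (nat_lit 6) (nat_lit 0x42003e0002000c000340000001000080000000000000000000000000000000) (nat_lit 0x0) (nat_lit 0x100010000c000e00030002800000000000000000000000000000000000000) := T_31 (nat_lit 224) (nat_lit 240) (nat_lit 1) (nat_lit 6) (nat_lit 13) L83991 (by decide +kernel)
theorem L83993 : W_31 (nat_lit 7) (nat_lit 0x40003e0002000c000340000001000080000000000000000000000000000000) (nat_lit 0x0) (nat_lit 0x700010000c000e00030002800000000000000000000000000000000000000) := T_31 (nat_lit 241) (nat_lit 242) (nat_lit 1) (nat_lit 7) (nat_lit 13) L83992 (by decide +kernel)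
theorem L83994 : W_31 (nat_lit 8) (nat_lit 0x40003c0002000c000340000001000080000000000000000000000000000000) (nat_lit 0x0) (nat_lit 0x2700030000c000e00030002800000000000000000000000000000000000000) := T_31 (nat_lit 225) (nat_lit 245) (nat_lit 3) (nat_lit 4) (nat_lit 13) L83993 (by decide +kernel)
theorem L83995 : W_31 (nat_lit 9) (nat_lit 0x3c0002000c000340000001000080000000000000000000000000000000) (nat_lit 0x0) (nat_lit 0xe700030000c000e00030002800000000000000000000000000000000000000) := T_31 (nat_lit 246) (nat_lit 247) (nat_lit 3) (nat_lit 5) (nat_lit 13) L83994 (by decide +kernel)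
theorem L83996 : W_31 (nat_lit 10) (nat_lit 0x3c0002000c000300000001000080000000000000000000000000000000) (nat_lit 0x0) (nat_lit 0xe700030000c000e000f0002800000000000000000000000000000000000000) := T_31 (nat_lit 174) (nat_lit 175) (nat_lit 3) (nat_lit 4) (nat_lit 10) L83995 (by decide +kernel)
theorem L83997 : W_31 (nat_lit 11) (nat_lit 0x3c0000000c000300000001000080000000000000000000000000000000) (nat_lit 0x0) (nat_lit 0xe700030003c000e000f0002800000000000000000000000000000000000000) := T_31 (nat_lit 209) (nat_lit 208) (nat_lit 0) (nat_lit 8) (nat_lit 13) L83996 (by decide +kernel)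
theorem L83998 : W_31 (nat_lit 2) (nat_lit 0x8007e0001000c000300000001000080000000000000000000000000000000) (nat_lit 0x0) (nat_lit 0x8000c0000000000000000000000000000000000000000000) := D_31 (nat_lit 174) (nat_lit 175) (nat_lit 191) (nat_lit 3) (nat_lit 4) (nat_lit 10) (nat_lit 7) (nat_lit 4) (nat_lit 10) (by decide +kernel)
theorem L83999 : W_31 (nat_lit 3) (nat_lit 0x8007c0001000c000300000001000080000000000000000000000000000000) (nat_lit 0x0) (nat_lit 0x2000080008000c0000000000000000000000000000000000000000000) := T_31 (nat_lit 225) (nat_lit 207) (nat_lit 0) (nat_lit 7) (nat_lit 13) L83998 (by decide +kernel)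
theorem L84000 : W_31 (nat_lit 4) (nat_lit 0x8003c0001000c000300000001000080000000000000000000000000000000) (nat_lit 0x0) (nat_lit 0x100042000080008000c0000000000000000000000000000000000000000000) := T_31 (nat_lit 230) (nat_lit 244) (nat_lit 1) (nat_lit 9) (nat_lit 13) L83999 (by decide +kernel)
theorem L84001 : W_31 (nat_lit 5) (nat_lit 0x8003c0000000c000300000001000080000000000000000000000000000000) (nat_lit 0x0) (nat_lit 0x100042000380008000c0000000000000000000000000000000000000000000) := T_31 (nat_lit 208) (nat_lit 209) (nat_lit 0) (nat_lit 8) (nat_lit 13) L84000 (by decide +kernel)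
theorem L84002 : W_31 (nat_lit 6) (nat_lit 0x3c0000000c000300000001000080000000000000000000000000000000) (nat_lit 0x0) (nat_lit 0x1c0042000380008000c0000000000000000000000000000000000000000000) := T_31 (nat_lit 243) (nat_lit 242) (nat_lit 1) (nat_lit 8) (nat_lit 13) L84001 (by decide +kernel)
theorem L84003 : W_31 (nat_lit 4) (nat_lit 0x3c0000000c000300000001000080000000000000000000000000000000) (nat_lit 0x0) (nat_lit 0xe0000200038000000000000000000000000000000000000000000000000000) := T_31 (nat_lit 246) (nat_lit 247) (nat_lit 3) (nat_lit 5) (nat_lit 13) L82457 (by decide +kernel)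
theorem L84004 : W_31 (nat_lit 12) (nat_lit 0x380000000c000300000001000080000000000000000000000000000000) (nat_lit 0x0) (nat_lit 0x3ff00c700e3c000e000f0002800000000000000000000000000000000000000) := Q_31 (nat_lit 226) (C_31 L83976 (C_31 L83980 (C_31 L83987 (C_31 L83997 (C_31 L84002 (C_31 L84003 N_31)))))) (by decide +kernel)
theorem L84005 : W_31 (nat_lit 2) (nat_lit 0x9000780040000c000340000001000080000000000000000000000000000000) (nat_lit 0x0) (nat_lit 0x20008000800000000000000000000000000000000000000000000000000000) := D_31 (nat_lit 231) (nat_lit 215) (nat_lit 245) (nat_lit 2) (nat_lit 7) (nat_lit 13) (nat_lit 1) (nat_lit 10) (nat_lit 13) (by decide +kernel)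
theorem L84006 : W_31 (nat_lit 3) (nat_lit 0x8000780040000c000340000001000080000000000000000000000000000000) (nat_lit 0x0) (nat_lit 0x38008000800000000000000000000000000000000000000000000000000000) := T_31 (nat_lit 244) (nat_lit 243) (nat_lit 1) (nat_lit 9) (nat_lit 13) L84005 (by decide +kernel)
theorem L84007 : W_31 (nat_lit 4) (nat_lit 0x8000780000000c000340000001000080000000000000000000000000000000) (nat_lit 0x0) (nat_lit 0x38008000e00000000000000000000000000000000000000000000000000000) := T_31 (nat_lit 214) (nat_lit 213) (nat_lit 2) (nat_lit 6) (nat_lit 13) L84006 (by decide +kernel)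
theorem L84008 : W_31 (nat_lit 5) (nat_lit 0x780000000c000340000001000080000000000000000000000000000000) (nat_lit 0x0) (nat_lit 0x1b8008000e00000000000000000000000000000000000000000000000000000) := T_31 (nat_lit 247) (nat_lit 248) (nat_lit 3) (nat_lit 6) (nat_lit 13) L84007 (by decide +kernel)
theorem L84009 : W_31 (nat_lit 6) (nat_lit 0x780000000c000300000001000080000000000000000000000000000000) (nat_lit 0x0) (nat_lit 0x1b8008000e000000000c0000000000000000000000000000000000000000000) := T_31 (nat_lit 174) (nat_lit 175) (nat_lit 3) (nat_lit 4) (nat_lit 10) L84008 (by decide +kernel)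
theorem L84010 : W_31 (nat_lit 2) (nat_lit 0xc000f80040000c000300000001000080000000000000000000000000000000) (nat_lit 0x0) (nat_lit 0x20030000000000000000000000000000000000000000000000000000000000) := D_31 (nat_lit 232) (nat_lit 233) (nat_lit 245) (nat_lit 1) (nat_lit 12) (nat_lit 13) (nat_lit 1) (nat_lit 11) (nat_lit 13) (by decide +kernel)
theorem L84011 : W_31 (nat_lit 3) (nat_lit 0xc000780040000c000300000001000080000000000000000000000000000000) (nat_lit 0x0) (nat_lit 0x20038000800000000000000000000000000000000000000000000000000000) := T_31 (nat_lit 231) (nat_lit 215) (nat_lit 2) (nat_lit 7) (nat_lit 13) L84010 (by decide +kernel)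
theorem L84012 : W_31 (nat_lit 4) (nat_lit 0x8000780040000c000300000001000080000000000000000000000000000000) (nat_lit 0x0) (nat_lit 0x60038400800000000000000000000000000000000000000000000000000000) := T_31 (nat_lit 246) (nat_lit 226) (nat_lit 3) (nat_lit 5) (nat_lit 13) L84011 (by decide +kernel)
theorem L84013 : W_31 (nat_lit 5) (nat_lit 0x780040000c000300000001000080000000000000000000000000000000) (nat_lit 0x0) (nat_lit 0x1e0038400800000000000000000000000000000000000000000000000000000) := T_31 (nat_lit 247) (nat_lit 248) (nat_lit 3) (nat_lit 6) (nat_lit 13) L84012 (by decide +kernel)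
theorem L84014 : W_31 (nat_lit 6) (nat_lit 0x780000000c000300000001000080000000000000000000000000000000) (nat_lit 0x0) (nat_lit 0x1e0038400e00000000000000000000000000000000000000000000000000000) := T_31 (nat_lit 214) (nat_lit 213) (nat_lit 2) (nat_lit 6) (nat_lit 13) L84013 (by decide +kernel)
theorem L84015 : W_31 (nat_lit 2) (nat_lit 0x48007e0020000c000340000001000080000000000000000000000000000000) (nat_lit 0x0) (nat_lit 0x18000800000000000000000000000000000000000000000000000) := D_31 (nat_lit 208) (nat_lit 207) (nat_lit 191) (nat_lit 0) (nat_lit 7) (nat_lit 13) (nat_lit 7) (nat_lit 4) (nat_lit 10) (by decide +kernel)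
theorem L84016 : W_31 (nat_lit 3) (nat_lit 0x48007c0020000c000340000001000080000000000000000000000000000000) (nat_lit 0x0) (nat_lit 0x20000200018000800000000000000000000000000000000000000000000000) := T_31 (nat_lit 225) (nat_lit 245) (nat_lit 3) (nat_lit 4) (nat_lit 13) L84015 (by decide +kernel)
theorem L84017 : W_31 (nat_lit 4) (nat_lit 0x8007c0020000c000340000001000080000000000000000000000000000000) (nat_lit 0x0) (nat_lit 0xe0000200018000800000000000000000000000000000000000000000000000) := T_31 (nat_lit 246) (nat_lit 247) (nat_lit 3) (nat_lit 5) (nat_lit 13) L84016 (by decide +kernel)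
theorem L84018 : W_31 (nat_lit 5) (nat_lit 0x800780020000c000340000001000080000000000000000000000000000000) (nat_lit 0x0) (nat_lit 0xe4000600018000800000000000000000000000000000000000000000000000) := T_31 (nat_lit 226) (nat_lit 242) (nat_lit 1) (nat_lit 8) (nat_lit 13) L84017 (by decide +kernel)
theorem L84019 : W_31 (nat_lit 6) (nat_lit 0x800780020000c000300000001000080000000000000000000000000000000) (nat_lit 0x0) (nat_lit 0xe40006000180008000c0000000000000000000000000000000000000000000) := T_31 (nat_lit 174) (nat_lit 175) (nat_lit 3) (nat_lit 4) (nat_lit 10) L84018 (by decide +kernel)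
theorem L84020 : W_31 (nat_lit 7) (nat_lit 0x780020000c000300000001000080000000000000000000000000000000) (nat_lit 0x0) (nat_lit 0xfc0006000180008000c0000000000000000000000000000000000000000000) := T_31 (nat_lit 243) (nat_lit 244) (nat_lit 1) (nat_lit 9) (nat_lit 13) L84019 (by decide +kernel)
theorem L84021 : W_31 (nat_lit 8) (nat_lit 0x780000000c000300000001000080000000000000000000000000000000) (nat_lit 0x0) (nat_lit 0xfc0006006180008000c0000000000000000000000000000000000000000000) := T_31 (nat_lit 213) (nat_lit 214) (nat_lit 2) (nat_lit 6) (nat_lit 13) L84020 (by decide +kernel)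
theorem L84022 : W_31 (nat_lit 2) (nat_lit 0x1000780040000c000340000001000080000000000000000000000000000000) (nat_lit 0x0) (nat_lit 0x20008000800000000000000000000000000000000000000000000000000000) := D_31 (nat_lit 231) (nat_lit 215) (nat_lit 245) (nat_lit 2) (nat_lit 7) (nat_lit 13) (nat_lit 1) (nat_lit 10) (nat_lit 13) (by decide +kernel)
theorem L84023 : W_31 (nat_lit 3) (nat_lit 0x780040000c000340000001000080000000000000000000000000000000) (nat_lit 0x0) (nat_lit 0x38008000800000000000000000000000000000000000000000000000000000) := T_31 (nat_lit 244) (nat_lit 243) (nat_lit 1) (nat_lit 9) (nat_lit 13) L84022 (by decide +kernel)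
theorem L84024 : W_31 (nat_lit 4) (nat_lit 0x780000000c000340000001000080000000000000000000000000000000) (nat_lit 0x0) (nat_lit 0x38008000e00000000000000000000000000000000000000000000000000000) := T_31 (nat_lit 214) (nat_lit 213) (nat_lit 2) (nat_lit 6) (nat_lit 13) L84023 (by decide +kernel)
theorem L84025 : W_31 (nat_lit 5) (nat_lit 0x780000000c000300000001000080000000000000000000000000000000) (nat_lit 0x0) (nat_lit 0x38008000e000000000c0000000000000000000000000000000000000000000) := T_31 (nat_lit 174) (nat_lit 175) (nat_lit 3) (nat_lit 4) (nat_lit 10) L84024 (by decide +kernel)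
theorem L84026 : W_31 (nat_lit 9) (nat_lit 0x380000000c000300000001000080000000000000000000000000000000) (nat_lit 0x0) (nat_lit 0x1fc03c600e180008000c0000000000000000000000000000000000000000000) := Q_31 (nat_lit 230) (C_31 L82417 (C_31 L84009 (C_31 L84014 (C_31 L84021 (C_31 L84025 N_31))))) (by decide +kernel)
theorem L84027 : W_31 (nat_lit 5) (nat_lit 0x3c0000000c000340000001000080000000000000000000000000000000) (nat_lit 0x0) (nat_lit 0xdc004000070000000000000000000000000000000000000000000000000000) := T_31 (nat_lit 246) (nat_lit 247) (nat_lit 3) (nat_lit 5) (nat_lit 13) L82486 (by decide +kernel)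
theorem L84028 : W_31 (nat_lit 6) (nat_lit 0x3c0000000c000300000001000080000000000000000000000000000000) (nat_lit 0x0) (nat_lit 0xdc0040000700000000c0000000000000000000000000000000000000000000) := T_31 (nat_lit 174) (nat_lit 175) (nat_lit 3) (nat_lit 4) (nat_lit 10) L84027 (by decide +kernel)
theorem L84029 : W_31 (nat_lit 7) (nat_lit 0x380000000c000300000001000080000000000000000000000000000000) (nat_lit 0x0) (nat_lit 0xfe0046000780008000c0000000000000000000000000000000000000000000) := Q_31 (nat_lit 226) (C_31 L84003 (C_31 L83976 (C_31 L84002 (C_31 L84028 N_31)))) (by decide +kernel)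
theorem L84030 : W_31 (nat_lit 2) (nat_lit 0x8000780024000c000380000001000080000000000000000000000000000000) (nat_lit 0x0) (nat_lit 0x20000000000002000000004000000000000000000000000000000000000000) := D_31 (nat_lit 193) (nat_lit 158) (nat_lit 245) (nat_lit 4) (nat_lit 6) (nat_lit 13) (nat_lit 7) (nat_lit 6) (nat_lit 10) (by decide +kernel)
theorem L84031 : W_31 (nat_lit 3) (nat_lit 0x8000780020000c000380000001000080000000000000000000000000000000) (nat_lit 0x0) (nat_lit 0x20000000060002000000004000000000000000000000000000000000000000) := T_31 (nat_lit 210) (nat_lit 209) (nat_lit 0) (nat_lit 9) (nat_lit 13) L84030 (by decide +kernel)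
theorem L84032 : W_31 (nat_lit 4) (nat_lit 0x8000780000000c000380000001000080000000000000000000000000000000) (nat_lit 0x0) (nat_lit 0x20000000660002000000004000000000000000000000000000000000000000) := T_31 (nat_lit 213) (nat_lit 214) (nat_lit 2) (nat_lit 6) (nat_lit 13) L84031 (by decide +kernel)
theorem L84033 : W_31 (nat_lit 5) (nat_lit 0x8000780000000c000300000001000080000000000000000000000000000000) (nat_lit 0x0) (nat_lit 0x200000006600020000c0004000000000000000000000000000000000000000) := T_31 (nat_lit 175) (nat_lit 174) (nat_lit 3) (nat_lit 4) (nat_lit 10) L84032 (by decide +kernel)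
theorem L84034 : W_31 (nat_lit 6) (nat_lit 0x780000000c000300000001000080000000000000000000000000000000) (nat_lit 0x0) (nat_lit 0x1a00000006600020000c0004000000000000000000000000000000000000000) := T_31 (nat_lit 247) (nat_lit 248) (nat_lit 3) (nat_lit 6) (nat_lit 13) L84033 (by decide +kernel)
theorem L84035 : W_31 (nat_lit 7) (nat_lit 0x380000000c000300000001000080000000000000000000000000000000) (nat_lit 0x0) (nat_lit 0x1b800c000e600020000c0004000000000000000000000000000000000000000) := Q_31 (nat_lit 230) (C_31 L84025 (C_31 L82503 (C_31 L83950 (C_31 L84034 N_31)))) (by decide +kernel)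
theorem L84036 : W_31 (nat_lit 5) (nat_lit 0x380000000c000300000001000080000000000000000000000000000000) (nat_lit 0x0) (nat_lit 0x1dc0044000700020000c0000000000000000000000000000000000000000000) := Q_31 (nat_lit 230) (C_31 L83950 (C_31 L82427 (C_31 L82417 N_31))) (by decide +kernel)
theorem L84037 : W_31 (nat_lit 2) (nat_lit 0x8003c0002000c000340000001000080000000000000000000000000000000) (nat_lit 0x0) (nat_lit 0x4000040002000000000000000000000000000000000000000000000000) := D_31 (nat_lit 210) (nat_lit 193) (nat_lit 230) (nat_lit 5) (nat_lit 6) (nat_lit 10) (nat_lit 0) (nat_lit 9) (nat_lit 13) (by decide +kernel)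
theorem L84038 : W_31 (nat_lit 3) (nat_lit 0x8003c0000000c000340000001000080000000000000000000000000000000) (nat_lit 0x0) (nat_lit 0x4000070002000000000000000000000000000000000000000000000000) := T_31 (nat_lit 209) (nat_lit 208) (nat_lit 0) (nat_lit 8) (nat_lit 13) L84037 (by decide +kernel)
theorem L84039 : W_31 (nat_lit 4) (nat_lit 0x3c0000000c000340000001000080000000000000000000000000000000) (nat_lit 0x0) (nat_lit 0xc004000070002000000000000000000000000000000000000000000000000) := T_31 (nat_lit 243) (nat_lit 242) (nat_lit 1) (nat_lit 8) (nat_lit 13) L84038 (by decide +kernel)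
theorem L84040 : W_31 (nat_lit 5) (nat_lit 0x3c0000000c000300000001000080000000000000000000000000000000) (nat_lit 0x0) (nat_lit 0xc0040000700020000c0000000000000000000000000000000000000000000) := T_31 (nat_lit 174) (nat_lit 175) (nat_lit 3) (nat_lit 4) (nat_lit 10) L84039 (by decide +kernel)
theorem L84041 : W_31 (nat_lit 6) (nat_lit 0x380000000c000300000001000080000000000000000000000000000000) (nat_lit 0x0) (nat_lit 0xee0046000780020000c0000000000000000000000000000000000000000000) := Q_31 (nat_lit 226) (C_31 L84003 (C_31 L83976 (C_31 L84040 N_31))) (by decide +kernel)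
theorem L84042 : W_31 (nat_lit 2) (nat_lit 0x8003c0001000c000340000001000080000000000000000000000000000000) (nat_lit 0x0) (nat_lit 0x200008000800000000000000000000000000000000000000000000000) := D_31 (nat_lit 225) (nat_lit 207) (nat_lit 191) (nat_lit 0) (nat_lit 7) (nat_lit 13) (nat_lit 7) (nat_lit 4) (nat_lit 10) (by decide +kernel)
theorem L84043 : W_31 (nat_lit 3) (nat_lit 0x8003c0000000c000340000001000080000000000000000000000000000000) (nat_lit 0x0) (nat_lit 0x200038000800000000000000000000000000000000000000000000000) := T_31 (nat_lit 208) (nat_lit 209) (nat_lit 0) (nat_lit 8) (nat_lit 13) L84042 (by decide +kernel)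
theorem L84044 : W_31 (nat_lit 4) (nat_lit 0x3c0000000c000340000001000080000000000000000000000000000000) (nat_lit 0x0) (nat_lit 0xc000200038000800000000000000000000000000000000000000000000000) := T_31 (nat_lit 243) (nat_lit 242) (nat_lit 1) (nat_lit 8) (nat_lit 13) L84043 (by decide +kernel)
theorem L84045 : W_31 (nat_lit 5) (nat_lit 0x3c0000000c000300000001000080000000000000000000000000000000) (nat_lit 0x0) (nat_lit 0xc0002000380008000c0000000000000000000000000000000000000000000) := T_31 (nat_lit 174) (nat_lit 175) (nat_lit 3) (nat_lit 4) (nat_lit 10) L84044 (by decide +kernel)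
theorem L84046 : W_31 (nat_lit 2) (nat_lit 0x380048003c0006000c000340000001000080000000000000000000000000000000) (nat_lit 0x0) (nat_lit 0x400030000000000000000000000000000000000000000000000000000000000000) := D_31 (nat_lit 245) (nat_lit 262) (nat_lit 244) (nat_lit 2) (nat_lit 4) (nat_lit 15) (nat_lit 1) (nat_lit 8) (nat_lit 14) (by decide +kernel)
theorem L84047 : W_31 (nat_lit 3) (nat_lit 0x300048003c0006000c000340000001000080000000000000000000000000000000) (nat_lit 0x0) (nat_lit 0x1000480030000000000000000000000000000000000000000000000000000000000000) := T_31 (nat_lit 259) (nat_lit 276) (nat_lit 5) (nat_lit 5) (nat_lit 12) L84046 (by decide +kernel)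
theorem L84048 : W_31 (nat_lit 4) (nat_lit 0x100048003c0006000c000340000001000080000000000000000000000000000000) (nat_lit 0x0) (nat_lit 0x5000680030000000000000000000000000000000000000000000000000000000000000) := T_31 (nat_lit 261) (nat_lit 278) (nat_lit 7) (nat_lit 5) (nat_lit 12) L84047 (by decide +kernel)
theorem L84049 : W_31 (nat_lit 5) (nat_lit 0x100048003c0004000c000340000001000080000000000000000000000000000000) (nat_lit 0x0) (nat_lit 0x5000680030000000030000000000000000000000000000000000000000000000000000) := T_31 (nat_lit 209) (nat_lit 208) (nat_lit 0) (nat_lit 8) (nat_lit 13) L84048 (by decide +kernel)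
theorem L84050 : W_31 (nat_lit 6) (nat_lit 0x48003c0004000c000340000001000080000000000000000000000000000000) (nat_lit 0x0) (nat_lit 0x7000780030000000030000000000000000000000000000000000000000000000000000) := T_31 (nat_lit 260) (nat_lit 277) (nat_lit 6) (nat_lit 5) (nat_lit 16) L84049 (by decide +kernel)
theorem L84051 : W_31 (nat_lit 7) (nat_lit 0x48003c0004000c000300000001000080000000000000000000000000000000) (nat_lit 0x0) (nat_lit 0x70007800300000000300000000c0000000000000000000000000000000000000000000) := T_31 (nat_lit 174) (nat_lit 175) (nat_lit 3) (nat_lit 4) (nat_lit 10) L84050 (by decide +kernel)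
theorem L84052 : W_31 (nat_lit 8) (nat_lit 0x48003c0000000c000300000001000080000000000000000000000000000000) (nat_lit 0x0) (nat_lit 0x70007800300000000700020000c0000000000000000000000000000000000000000000) := T_31 (nat_lit 210) (nat_lit 193) (nat_lit 5) (nat_lit 6) (nat_lit 10) L84051 (by decide +kernel)
theorem L84053 : W_31 (nat_lit 9) (nat_lit 0x8003c0000000c000300000001000080000000000000000000000000000000) (nat_lit 0x0) (nat_lit 0x70007800f00000000700020000c0000000000000000000000000000000000000000000) := T_31 (nat_lit 246) (nat_lit 247) (nat_lit 3) (nat_lit 5) (nat_lit 13) L84052 (by decide +kernel)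
theorem L84054 : W_31 (nat_lit 10) (nat_lit 0x3c0000000c000300000001000080000000000000000000000000000000) (nat_lit 0x0) (nat_lit 0x70007800fc0000000700020000c0000000000000000000000000000000000000000000) := T_31 (nat_lit 243) (nat_lit 242) (nat_lit 1) (nat_lit 8) (nat_lit 13) L84053 (by decide +kernel)
theorem L84055 : W_31 (nat_lit 11) (nat_lit 0x380000000c000300000001000080000000000000000000000000000000) (nat_lit 0x0) (nat_lit 0x70007800fe0006000780028000c0000000000000000000000000000000000000000000) := Q_31 (nat_lit 226) (C_31 L84003 (C_31 L83976 (C_31 L84045 (C_31 L84054 N_31)))) (by decide +kernel)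
theorem L84056 : W_31 (nat_lit 2) (nat_lit 0x780024000c000340000001000080000000000000000000000000000000) (nat_lit 0x0) (nat_lit 0x30000000000002000000000000000000000000000000000000000000000000) := D_31 (nat_lit 193) (nat_lit 244) (nat_lit 245) (nat_lit 6) (nat_lit 6) (nat_lit 14) (nat_lit 7) (nat_lit 6) (nat_lit 10) (by decide +kernel)
theorem L84057 : W_31 (nat_lit 3) (nat_lit 0x780020000c000340000001000080000000000000000000000000000000) (nat_lit 0x0) (nat_lit 0x30000000060002000000000000000000000000000000000000000000000000) := T_31 (nat_lit 210) (nat_lit 209) (nat_lit 0) (nat_lit 9) (nat_lit 13) L84056 (by decide +kernel)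
theorem L84058 : W_31 (nat_lit 4) (nat_lit 0x780000000c000340000001000080000000000000000000000000000000) (nat_lit 0x0) (nat_lit 0x30000000660002000000000000000000000000000000000000000000000000) := T_31 (nat_lit 213) (nat_lit 214) (nat_lit 2) (nat_lit 6) (nat_lit 13) L84057 (by decide +kernel)
theorem L84059 : W_31 (nat_lit 5) (nat_lit 0x780000000c000300000001000080000000000000000000000000000000) (nat_lit 0x0) (nat_lit 0x300000006600020000c0000000000000000000000000000000000000000000) := T_31 (nat_lit 174) (nat_lit 175) (nat_lit 3) (nat_lit 4) (nat_lit 10) L84058 (by decide +kernel)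
theorem L84060 : W_31 (nat_lit 7) (nat_lit 0x380000000c000300000001000080000000000000000000000000000000) (nat_lit 0x0) (nat_lit 0x1f003c400e700020000c0004000000000000000000000000000000000000000) := Q_31 (nat_lit 230) (C_31 L84034 (C_31 L84014 (C_31 L82427 (C_31 L84059 N_31)))) (by decide +kernel)
theorem L84061 : W_31 (nat_lit 2) (nat_lit 0x380004000c000300000001000080000000000000000000000000000000) (nat_lit 0x0) (nat_lit 0x30000000000002000000000000000000000000000000000000000000000000) := D_31 (nat_lit 193) (nat_lit 244) (nat_lit 245) (nat_lit 6) (nat_lit 6) (nat_lit 14) (nat_lit 7) (nat_lit 6) (nat_lit 10) (by decide +kernel)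
theorem L84062 : W_31 (nat_lit 2) (nat_lit 0x1000780044000c000340000001000080000000000000000000000000000000) (nat_lit 0x0) (nat_lit 0x20008000800000000000000000000000000000000000000000000000000000) := D_31 (nat_lit 231) (nat_lit 245) (nat_lit 215) (nat_lit 1) (nat_lit 10) (nat_lit 13) (nat_lit 2) (nat_lit 7) (nat_lit 13) (by decide +kernel)
theorem L84063 : W_31 (nat_lit 3) (nat_lit 0x1000780004000c000340000001000080000000000000000000000000000000) (nat_lit 0x0) (nat_lit 0x20008000e00000000000000000000000000000000000000000000000000000) := T_31 (nat_lit 214) (nat_lit 213) (nat_lit 2) (nat_lit 6) (nat_lit 13) L84062 (by decide +kernel)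
theorem L84064 : W_31 (nat_lit 4) (nat_lit 0x780004000c000340000001000080000000000000000000000000000000) (nat_lit 0x0) (nat_lit 0x38008000e00000000000000000000000000000000000000000000000000000) := T_31 (nat_lit 244) (nat_lit 243) (nat_lit 1) (nat_lit 9) (nat_lit 13) L84063 (by decide +kernel)
theorem L84065 : W_31 (nat_lit 5) (nat_lit 0x380004000c000340000001000080000000000000000000000000000000) (nat_lit 0x0) (nat_lit 0x3800c000e20000000000000000000000000000000000000000000000000000) := T_31 (nat_lit 230) (nat_lit 209) (nat_lit 0) (nat_lit 9) (nat_lit 13) L84064 (by decide +kernel)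
theorem L84066 : W_31 (nat_lit 6) (nat_lit 0x380004000c000300000001000080000000000000000000000000000000) (nat_lit 0x0) (nat_lit 0x3800c000e200000000c0000000000000000000000000000000000000000000) := T_31 (nat_lit 174) (nat_lit 175) (nat_lit 3) (nat_lit 4) (nat_lit 10) L84065 (by decide +kernel)
theorem L84067 : W_31 (nat_lit 2) (nat_lit 0x780004000c000300000001000080000000000000000000000000000000) (nat_lit 0x0) (nat_lit 0x18000000000002000000000000000000000000000000000000000000000000) := D_31 (nat_lit 244) (nat_lit 193) (nat_lit 243) (nat_lit 6) (nat_lit 6) (nat_lit 14) (nat_lit 1) (nat_lit 9) (nat_lit 13) (by decide +kernel)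
theorem L84068 : W_31 (nat_lit 3) (nat_lit 0x380004000c000300000001000080000000000000000000000000000000) (nat_lit 0x0) (nat_lit 0x18004000020002000000000000000000000000000000000000000000000000) := T_31 (nat_lit 230) (nat_lit 209) (nat_lit 0) (nat_lit 9) (nat_lit 13) L84067 (by decide +kernel)
theorem L84069 : W_31 (nat_lit 2) (nat_lit 0x380004000e000300000001000080000000000000000000000000000000) (nat_lit 0x0) (nat_lit 0xc0004000000000000000000000000000000000000000) := D_31 (nat_lit 175) (nat_lit 174) (nat_lit 158) (nat_lit 3) (nat_lit 4) (nat_lit 10) (nat_lit 4) (nat_lit 6) (nat_lit 13) (by decide +kernel)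
theorem L84070 : W_31 (nat_lit 3) (nat_lit 0x380004000c000300000001000080000000000000000000000000000000) (nat_lit 0x0) (nat_lit 0x200000000000020000c0004000000000000000000000000000000000000000) := T_31 (nat_lit 193) (nat_lit 245) (nat_lit 7) (nat_lit 6) (nat_lit 10) L84069 (by decide +kernel)
theorem L84071 : W_31 (nat_lit 7) (nat_lit 0x380000000c000300000001000080000000000000000000000000000000) (nat_lit 0x0) (nat_lit 0x3800c000e600020000c0004000000000000000000000000000000000000000) := Q_31 (nat_lit 210) (C_31 L84061 (C_31 L84066 (C_31 L84068 (C_31 L84070 N_31)))) (by decide +kernel)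
theorem L84072 : W_31 (nat_lit 13) (nat_lit 0x300000000c000300000001000080000000000000000000000000000000) (nat_lit 0x0) (nat_lit 0x70007803ff03cf00e7c002e000f0006800000000000000000000000000000000000000) := Q_31 (nat_lit 227) (C_31 L82480 (C_31 L83972 (C_31 L84004 (C_31 L84026 (C_31 L84029 (C_31 L84035 (C_31 L84036 (C_31 L84041 (C_31 L84055 (C_31 L84060 (C_31 L84071 N_31))))))))))) (by decide +kernel)
theorem L84073 : W_31 (nat_lit 4) (nat_lit 0x300000000c000740000001000080000000000000000000000000000000) (nat_lit 0x0) (nat_lit 0x20000000100002003800040000000000000000000000000000000000000000) := T_31 (nat_lit 212) (nat_lit 245) (nat_lit 5) (nat_lit 8) (nat_lit 10) L83954 (by decide +kernel)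
theorem L84074 : W_31 (nat_lit 5) (nat_lit 0x300000000c000700000001000080000000000000000000000000000000) (nat_lit 0x0) (nat_lit 0x200000001000020038c0040000000000000000000000000000000000000000) := T_31 (nat_lit 174) (nat_lit 175) (nat_lit 3) (nat_lit 4) (nat_lit 10) L84073 (by decide +kernel)
theorem L84075 : W_31 (nat_lit 11) (nat_lit 0x300010000c000700000001000080000000000000000000000000000000) (nat_lit 0x0) (nat_lit 0x8001c000e000600038c01cc000400020000000000000000000000000000000) := T_31 (nat_lit 174) (nat_lit 175) (nat_lit 3) (nat_lit 4) (nat_lit 10) L83964 (by decide +kernel)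
theorem L84076 : W_31 (nat_lit 12) (nat_lit 0x300000000c000700000001000080000000000000000000000000000000) (nat_lit 0x0) (nat_lit 0xa001c000f000600038c01cc000400020000000000000000000000000000000) := T_31 (nat_lit 212) (nat_lit 245) (nat_lit 5) (nat_lit 8) (nat_lit 10) L84075 (by decide +kernel)
theorem L84077 : W_31 (nat_lit 2) (nat_lit 0x9000f80004000c000780004001000080000000000000000000000000000000) (nat_lit 0x0) (nat_lit 0xe00000000000000000000000000000000000000000000000000000) := D_31 (nat_lit 214) (nat_lit 213) (nat_lit 215) (nat_lit 2) (nat_lit 6) (nat_lit 13) (nat_lit 2) (nat_lit 7) (nat_lit 13) (by decide +kernel)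
theorem L84078 : W_31 (nat_lit 3) (nat_lit 0x9000780004000c000780004001000080000000000000000000000000000000) (nat_lit 0x0) (nat_lit 0x20008000e00000000000000000000000000000000000000000000000000000) := T_31 (nat_lit 231) (nat_lit 245) (nat_lit 1) (nat_lit 10) (nat_lit 13) L84077 (by decide +kernel)
theorem L84079 : W_31 (nat_lit 4) (nat_lit 0x1000780004000c000780004001000080000000000000000000000000000000) (nat_lit 0x0) (nat_lit 0x1a0008000e00000000000000000000000000000000000000000000000000000) := T_31 (nat_lit 247) (nat_lit 248) (nat_lit 3) (nat_lit 6) (nat_lit 13) L84078 (by decide +kernel)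
theorem L84080 : W_31 (nat_lit 5) (nat_lit 0x780004000c000780004001000080000000000000000000000000000000) (nat_lit 0x0) (nat_lit 0x1b8008000e00000000000000000000000000000000000000000000000000000) := T_31 (nat_lit 244) (nat_lit 243) (nat_lit 1) (nat_lit 9) (nat_lit 13) L84079 (by decide +kernel)
theorem L84081 : W_31 (nat_lit 6) (nat_lit 0x380004000c000780004001000080000000000000000000000000000000) (nat_lit 0x0) (nat_lit 0x1b800c000e20000000000000000000000000000000000000000000000000000) := T_31 (nat_lit 230) (nat_lit 209) (nat_lit 0) (nat_lit 9) (nat_lit 13) L84080 (by decide +kernel)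
theorem L84082 : W_31 (nat_lit 7) (nat_lit 0x380000000c000780004001000080000000000000000000000000000000) (nat_lit 0x0) (nat_lit 0x1b800c000e60002000000000000000000000000000000000000000000000000) := T_31 (nat_lit 210) (nat_lit 193) (nat_lit 4) (nat_lit 6) (nat_lit 13) L84081 (by decide +kernel)
theorem L84083 : W_31 (nat_lit 8) (nat_lit 0x380000000c000780000001000080000000000000000000000000000000) (nat_lit 0x0) (nat_lit 0x1b800c000e60002000000006000000000000000000000000000000000000000) := T_31 (nat_lit 158) (nat_lit 157) (nat_lit 0) (nat_lit 8) (nat_lit 10) L84082 (by decide +kernel)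
theorem L84084 : W_31 (nat_lit 9) (nat_lit 0x380000000c000700000001000080000000000000000000000000000000) (nat_lit 0x0) (nat_lit 0x1b800c000e600020000c0006000000000000000000000000000000000000000) := T_31 (nat_lit 175) (nat_lit 174) (nat_lit 3) (nat_lit 4) (nat_lit 10) L84083 (by decide +kernel)
theorem L84085 : W_31 (nat_lit 2) (nat_lit 0x8003c0010000c000740000001000080000000000000000000000000000000) (nat_lit 0x0) (nat_lit 0x90004000000000000000000000000000000000000000000000000000000000) := D_31 (nat_lit 230) (nat_lit 247) (nat_lit 244) (nat_lit 7) (nat_lit 8) (nat_lit 10) (nat_lit 1) (nat_lit 9) (nat_lit 13) (by decide +kernel)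
theorem L84086 : W_31 (nat_lit 3) (nat_lit 0x3c0010000c000740000001000080000000000000000000000000000000) (nat_lit 0x0) (nat_lit 0x9c004000000000000000000000000000000000000000000000000000000000) := T_31 (nat_lit 243) (nat_lit 242) (nat_lit 1) (nat_lit 8) (nat_lit 13) L84085 (by decide +kernel)
theorem L84087 : W_31 (nat_lit 4) (nat_lit 0x380010000c000740000001000080000000000000000000000000000000) (nat_lit 0x0) (nat_lit 0x9c004400200000000000000000000000000000000000000000000000000000) := T_31 (nat_lit 226) (nat_lit 213) (nat_lit 2) (nat_lit 5) (nat_lit 13) L84086 (by decide +kernel)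
theorem L84088 : W_31 (nat_lit 5) (nat_lit 0x380000000c000740000001000080000000000000000000000000000000) (nat_lit 0x0) (nat_lit 0xbc004400300000000000000000000000000000000000000000000000000000) := T_31 (nat_lit 212) (nat_lit 245) (nat_lit 5) (nat_lit 8) (nat_lit 10) L84087 (by decide +kernel)
theorem L84089 : W_31 (nat_lit 6) (nat_lit 0x380000000c000700000001000080000000000000000000000000000000) (nat_lit 0x0) (nat_lit 0xbc0044003000000000c0000000000000000000000000000000000000000000) := T_31 (nat_lit 174) (nat_lit 175) (nat_lit 3) (nat_lit 4) (nat_lit 10) L84088 (by decide +kernel)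
theorem L84090 : W_31 (nat_lit 2) (nat_lit 0x8003c0010000c000700000001000080000000000000000000000000000000) (nat_lit 0x0) (nat_lit 0x90004000000000000000000000000000000000000000000000000000000000) := D_31 (nat_lit 230) (nat_lit 247) (nat_lit 244) (nat_lit 7) (nat_lit 8) (nat_lit 10) (nat_lit 1) (nat_lit 9) (nat_lit 13) (by decide +kernel)
theorem L84091 : W_31 (nat_lit 3) (nat_lit 0x3c0010000c000700000001000080000000000000000000000000000000) (nat_lit 0x0) (nat_lit 0x9c004000000000000000000000000000000000000000000000000000000000) := T_31 (nat_lit 243) (nat_lit 242) (nat_lit 1) (nat_lit 8) (nat_lit 13) L84090 (by decide +kernel)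
theorem L84092 : W_31 (nat_lit 4) (nat_lit 0x380010000c000700000001000080000000000000000000000000000000) (nat_lit 0x0) (nat_lit 0x9c004400200000000000000000000000000000000000000000000000000000) := T_31 (nat_lit 226) (nat_lit 213) (nat_lit 2) (nat_lit 5) (nat_lit 13) L84091 (by decide +kernel)
theorem L84093 : W_31 (nat_lit 5) (nat_lit 0x380000000c000700000001000080000000000000000000000000000000) (nat_lit 0x0) (nat_lit 0xbc004400300000000000000000000000000000000000000000000000000000) := T_31 (nat_lit 212) (nat_lit 245) (nat_lit 5) (nat_lit 8) (nat_lit 10) L84092 (by decide +kernel)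
theorem L84094 : W_31 (nat_lit 2) (nat_lit 0x1000780010000c000740000001000080000000000000000000000000000000) (nat_lit 0x0) (nat_lit 0x60002000000000000000000000000000000000000000000000000) := D_31 (nat_lit 210) (nat_lit 209) (nat_lit 193) (nat_lit 0) (nat_lit 9) (nat_lit 13) (nat_lit 6) (nat_lit 6) (nat_lit 14) (by decide +kernel)
theorem L84095 : W_31 (nat_lit 3) (nat_lit 0x780010000c000740000001000080000000000000000000000000000000) (nat_lit 0x0) (nat_lit 0x18000000060002000000000000000000000000000000000000000000000000) := T_31 (nat_lit 244) (nat_lit 243) (nat_lit 1) (nat_lit 9) (nat_lit 13) L84094 (by decide +kernel)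
theorem L84096 : W_31 (nat_lit 4) (nat_lit 0x380010000c000740000001000080000000000000000000000000000000) (nat_lit 0x0) (nat_lit 0x98004000060002000000000000000000000000000000000000000000000000) := T_31 (nat_lit 230) (nat_lit 247) (nat_lit 7) (nat_lit 8) (nat_lit 10) L84095 (by decide +kernel)
theorem L84097 : W_31 (nat_lit 5) (nat_lit 0x380010000c000700000001000080000000000000000000000000000000) (nat_lit 0x0) (nat_lit 0x980040000600020000c0000000000000000000000000000000000000000000) := T_31 (nat_lit 174) (nat_lit 175) (nat_lit 3) (nat_lit 4) (nat_lit 10) L84096 (by decide +kernel)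
theorem L84098 : W_31 (nat_lit 6) (nat_lit 0x380000000c000700000001000080000000000000000000000000000000) (nat_lit 0x0) (nat_lit 0xb80040001600020000c0000000000000000000000000000000000000000000) := T_31 (nat_lit 212) (nat_lit 245) (nat_lit 5) (nat_lit 8) (nat_lit 10) L84097 (by decide +kernel)
theorem L84099 : W_31 (nat_lit 2) (nat_lit 0x780004000c000780004001000080000000000000000000000000000000) (nat_lit 0x0) (nat_lit 0x180000000100000000000000000000000000000000000000000000000000000) := D_31 (nat_lit 247) (nat_lit 248) (nat_lit 212) (nat_lit 3) (nat_lit 6) (nat_lit 13) (nat_lit 7) (nat_lit 8) (nat_lit 10) (by decide +kernel)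
theorem L84100 : W_31 (nat_lit 3) (nat_lit 0x380004000c000780004001000080000000000000000000000000000000) (nat_lit 0x0) (nat_lit 0x180004000120000000000000000000000000000000000000000000000000000) := T_31 (nat_lit 230) (nat_lit 209) (nat_lit 0) (nat_lit 9) (nat_lit 13) L84099 (by decide +kernel)
theorem L84101 : W_31 (nat_lit 4) (nat_lit 0x380000000c000780004001000080000000000000000000000000000000) (nat_lit 0x0) (nat_lit 0x180004000160002000000000000000000000000000000000000000000000000) := T_31 (nat_lit 210) (nat_lit 193) (nat_lit 4) (nat_lit 6) (nat_lit 13) L84100 (by decide +kernel)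
theorem L84102 : W_31 (nat_lit 5) (nat_lit 0x380000000c000780000001000080000000000000000000000000000000) (nat_lit 0x0) (nat_lit 0x180004000160002000000006000000000000000000000000000000000000000) := T_31 (nat_lit 158) (nat_lit 157) (nat_lit 0) (nat_lit 8) (nat_lit 10) L84101 (by decide +kernel)
theorem L84103 : W_31 (nat_lit 6) (nat_lit 0x380000000c000700000001000080000000000000000000000000000000) (nat_lit 0x0) (nat_lit 0x1800040001600020000c0006000000000000000000000000000000000000000) := T_31 (nat_lit 175) (nat_lit 174) (nat_lit 3) (nat_lit 4) (nat_lit 10) L84102 (by decide +kernel)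
theorem L84104 : W_31 (nat_lit 2) (nat_lit 0x8003c0011000c000740000001000080000000000000000000000000000000) (nat_lit 0x0) (nat_lit 0x200008000800000000000000000000000000000000000000000000000) := D_31 (nat_lit 225) (nat_lit 207) (nat_lit 191) (nat_lit 0) (nat_lit 7) (nat_lit 13) (nat_lit 7) (nat_lit 4) (nat_lit 10) (by decide +kernel)
theorem L84105 : W_31 (nat_lit 3) (nat_lit 0x8003c0010000c000740000001000080000000000000000000000000000000) (nat_lit 0x0) (nat_lit 0x200038000800000000000000000000000000000000000000000000000) := T_31 (nat_lit 208) (nat_lit 209) (nat_lit 0) (nat_lit 8) (nat_lit 13) L84104 (by decide +kernel)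
theorem L84106 : W_31 (nat_lit 4) (nat_lit 0x3c0010000c000740000001000080000000000000000000000000000000) (nat_lit 0x0) (nat_lit 0xc000200038000800000000000000000000000000000000000000000000000) := T_31 (nat_lit 243) (nat_lit 242) (nat_lit 1) (nat_lit 8) (nat_lit 13) L84105 (by decide +kernel)
theorem L84107 : W_31 (nat_lit 5) (nat_lit 0x380010000c000740000001000080000000000000000000000000000000) (nat_lit 0x0) (nat_lit 0xc000600238000800000000000000000000000000000000000000000000000) := T_31 (nat_lit 226) (nat_lit 213) (nat_lit 2) (nat_lit 5) (nat_lit 13) L84106 (by decide +kernel)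
theorem L84108 : W_31 (nat_lit 6) (nat_lit 0x380000000c000740000001000080000000000000000000000000000000) (nat_lit 0x0) (nat_lit 0x2c000600338000800000000000000000000000000000000000000000000000) := T_31 (nat_lit 212) (nat_lit 245) (nat_lit 5) (nat_lit 8) (nat_lit 10) L84107 (by decide +kernel)
theorem L84109 : W_31 (nat_lit 7) (nat_lit 0x380000000c000700000001000080000000000000000000000000000000) (nat_lit 0x0) (nat_lit 0x2c0006003380008000c0000000000000000000000000000000000000000000) := T_31 (nat_lit 174) (nat_lit 175) (nat_lit 3) (nat_lit 4) (nat_lit 10) L84108 (by decide +kernel)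
theorem L84110 : W_31 (nat_lit 10) (nat_lit 0x300000000c000700000001000080000000000000000000000000000000) (nat_lit 0x0) (nat_lit 0x1bc00ce00f780028000c0006000000000000000000000000000000000000000) := Q_31 (nat_lit 227) (C_31 L84084 (C_31 L84089 (C_31 L84093 (C_31 L84098 (C_31 L84103 (C_31 L84109 N_31)))))) (by decide +kernel)
theorem L84111 : W_31 (nat_lit 4) (nat_lit 0x300000000c000700000001000080000000000000000000000000000000) (nat_lit 0x0) (nat_lit 0x20000000100002003800040000000000000000000000000000000000000000) := T_31 (nat_lit 212) (nat_lit 245) (nat_lit 5) (nat_lit 8) (nat_lit 10) L83969 (by decide +kernel)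
theorem L84112 : W_31 (nat_lit 2) (nat_lit 0x300000000c000f80004001000080000000000000000000000000000000) (nat_lit 0x0) (nat_lit 0x2003000000000000000000000000000000000000000000000) := D_31 (nat_lit 180) (nat_lit 193) (nat_lit 181) (nat_lit 1) (nat_lit 10) (nat_lit 10) (nat_lit 1) (nat_lit 11) (nat_lit 10) (by decide +kernel)
theorem L84113 : W_31 (nat_lit 3) (nat_lit 0x300000000c000780004001000080000000000000000000000000000000) (nat_lit 0x0) (nat_lit 0x2003800008000000000000000000000000000000000000000) := T_31 (nat_lit 179) (nat_lit 159) (nat_lit 0) (nat_lit 9) (nat_lit 10) L84112 (by decide +kernel)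
theorem L84114 : W_31 (nat_lit 4) (nat_lit 0x300000000c000780000001000080000000000000000000000000000000) (nat_lit 0x0) (nat_lit 0x200380000e000000000000000000000000000000000000000) := T_31 (nat_lit 158) (nat_lit 157) (nat_lit 0) (nat_lit 8) (nat_lit 10) L84113 (by decide +kernel)
theorem L84115 : W_31 (nat_lit 5) (nat_lit 0x300000000c000700000001000080000000000000000000000000000000) (nat_lit 0x0) (nat_lit 0x20038c000e000000000000000000000000000000000000000) := T_31 (nat_lit 175) (nat_lit 174) (nat_lit 3) (nat_lit 4) (nat_lit 10) L84114 (by decide +kernel)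
theorem L84116 : W_31 (nat_lit 13) (nat_lit 0x300000000c000300000001000080000000000000000000000000000000) (nat_lit 0x0) (nat_lit 0x1bc01ce00f78062803cc01ce000400020000000000000000000000000000000) := Q_31 (nat_lit 178) (C_31 L84074 (C_31 L84076 (C_31 L84110 (C_31 L84111 (C_31 L84115 N_31))))) (by decide +kernel)
theorem L84117 : W_31 (nat_lit 2) (nat_lit 0x48003c0002000c000300000001000080000000000000000000000000000000) (nat_lit 0x0) (nat_lit 0x4000040002000000000000000000000000000000000000000000000000) := D_31 (nat_lit 210) (nat_lit 193) (nat_lit 230) (nat_lit 5) (nat_lit 6) (nat_lit 10) (nat_lit 0) (nat_lit 9) (nat_lit 13) (by decide +kernel)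
theorem L84118 : W_31 (nat_lit 3) (nat_lit 0x48003c0000000c000300000001000080000000000000000000000000000000) (nat_lit 0x0) (nat_lit 0x4000070002000000000000000000000000000000000000000000000000) := T_31 (nat_lit 209) (nat_lit 208) (nat_lit 0) (nat_lit 8) (nat_lit 13) L84117 (by decide +kernel)
theorem L84119 : W_31 (nat_lit 4) (nat_lit 0x40003c0000000c000300000001000080000000000000000000000000000000) (nat_lit 0x0) (nat_lit 0xc004000070002000000000000000000000000000000000000000000000000) := T_31 (nat_lit 243) (nat_lit 242) (nat_lit 1) (nat_lit 8) (nat_lit 13) L84118 (by decide +kernel)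
theorem L84120 : W_31 (nat_lit 5) (nat_lit 0x4000380000000c000300000001000080000000000000000000000000000000) (nat_lit 0x0) (nat_lit 0x8c004400070002000000000000000000000000000000000000000000000000) := T_31 (nat_lit 226) (nat_lit 247) (nat_lit 3) (nat_lit 5) (nat_lit 13) L84119 (by decide +kernel)
theorem L84121 : W_31 (nat_lit 6) (nat_lit 0x380000000c000300000001000080000000000000000000000000000000) (nat_lit 0x0) (nat_lit 0xcc004400170002000000000000000000000000000000000000000000000000) := T_31 (nat_lit 246) (nat_lit 212) (nat_lit 4) (nat_lit 8) (nat_lit 14) L84120 (by decide +kernel)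
theorem L84122 : W_31 (nat_lit 2) (nat_lit 0x48007e0001000c000300000001000080000000000000000000000000000000) (nat_lit 0x0) (nat_lit 0x8000c0000000000000000000000000000000000000000000) := D_31 (nat_lit 174) (nat_lit 175) (nat_lit 191) (nat_lit 3) (nat_lit 4) (nat_lit 10) (nat_lit 7) (nat_lit 4) (nat_lit 10) (by decide +kernel)
theorem L84123 : W_31 (nat_lit 3) (nat_lit 0x48007c0001000c000300000001000080000000000000000000000000000000) (nat_lit 0x0) (nat_lit 0x2000080008000c0000000000000000000000000000000000000000000) := T_31 (nat_lit 225) (nat_lit 207) (nat_lit 0) (nat_lit 7) (nat_lit 13) L84122 (by decide +kernel)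
theorem L84124 : W_31 (nat_lit 4) (nat_lit 0x48003c0001000c000300000001000080000000000000000000000000000000) (nat_lit 0x0) (nat_lit 0x100042000080008000c0000000000000000000000000000000000000000000) := T_31 (nat_lit 230) (nat_lit 244) (nat_lit 1) (nat_lit 9) (nat_lit 13) L84123 (by decide +kernel)
theorem L84125 : W_31 (nat_lit 5) (nat_lit 0x48003c0000000c000300000001000080000000000000000000000000000000) (nat_lit 0x0) (nat_lit 0x100042000380008000c0000000000000000000000000000000000000000000) := T_31 (nat_lit 208) (nat_lit 209) (nat_lit 0) (nat_lit 8) (nat_lit 13) L84124 (by decide +kernel)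
theorem L84126 : W_31 (nat_lit 6) (nat_lit 0x40003c0000000c000300000001000080000000000000000000000000000000) (nat_lit 0x0) (nat_lit 0x1c0042000380008000c0000000000000000000000000000000000000000000) := T_31 (nat_lit 243) (nat_lit 242) (nat_lit 1) (nat_lit 8) (nat_lit 13) L84125 (by decide +kernel)
theorem L84127 : W_31 (nat_lit 7) (nat_lit 0x4000380000000c000300000001000080000000000000000000000000000000) (nat_lit 0x0) (nat_lit 0x9c0046000380008000c0000000000000000000000000000000000000000000) := T_31 (nat_lit 226) (nat_lit 247) (nat_lit 3) (nat_lit 5) (nat_lit 13) L84126 (by decide +kernel)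
theorem L84128 : W_31 (nat_lit 8) (nat_lit 0x380000000c000300000001000080000000000000000000000000000000) (nat_lit 0x0) (nat_lit 0xdc0046001380008000c0000000000000000000000000000000000000000000) := T_31 (nat_lit 246) (nat_lit 212) (nat_lit 4) (nat_lit 8) (nat_lit 14) L84127 (by decide +kernel)
theorem L84129 : W_31 (nat_lit 2) (nat_lit 0xc000380000000c000340000001000080000000000000000000000000000000) (nat_lit 0x0) (nat_lit 0x300004000000000000000000000000000000000000000000000000000000000) := D_31 (nat_lit 248) (nat_lit 249) (nat_lit 230) (nat_lit 0) (nat_lit 11) (nat_lit 14) (nat_lit 3) (nat_lit 6) (nat_lit 13) (by decide +kernel)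
theorem L84130 : W_31 (nat_lit 3) (nat_lit 0x4000380000000c000340000001000080000000000000000000000000000000) (nat_lit 0x0) (nat_lit 0x380004400000000000000000000000000000000000000000000000000000000) := T_31 (nat_lit 247) (nat_lit 226) (nat_lit 3) (nat_lit 5) (nat_lit 13) L84129 (by decide +kernel)
theorem L84131 : W_31 (nat_lit 4) (nat_lit 0x380000000c000340000001000080000000000000000000000000000000) (nat_lit 0x0) (nat_lit 0x3c0004400100000000000000000000000000000000000000000000000000000) := T_31 (nat_lit 246) (nat_lit 212) (nat_lit 4) (nat_lit 8) (nat_lit 14) L84130 (by decide +kernel)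
theorem L84132 : W_31 (nat_lit 5) (nat_lit 0x380000000c000300000001000080000000000000000000000000000000) (nat_lit 0x0) (nat_lit 0x3c00044001000000000c0000000000000000000000000000000000000000000) := T_31 (nat_lit 174) (nat_lit 175) (nat_lit 3) (nat_lit 4) (nat_lit 10) L84131 (by decide +kernel)
theorem L84133 : W_31 (nat_lit 5) (nat_lit 0x380000000c000300000001000080000000000000000000000000000000) (nat_lit 0x0) (nat_lit 0x1c0044007700020000c0000000000000000000000000000000000000000000) := Q_31 (nat_lit 230) (C_31 L83950 (C_31 L82483 (C_31 L82420 N_31))) (by decide +kernel)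
theorem L84134 : W_31 (nat_lit 2) (nat_lit 0x780030000c000340000001000080000000000000000000000000000000) (nat_lit 0x0) (nat_lit 0x1000180000000000000000000000000000000000000000000000000000000000000) := D_31 (nat_lit 247) (nat_lit 248) (nat_lit 264) (nat_lit 3) (nat_lit 6) (nat_lit 13) (nat_lit 4) (nat_lit 9) (nat_lit 15) (by decide +kernel)
theorem L84135 : W_31 (nat_lit 3) (nat_lit 0x780020000c000340000001000080000000000000000000000000000000) (nat_lit 0x0) (nat_lit 0x10001c0000000100000000000000000000000000000000000000000000000000000) := T_31 (nat_lit 212) (nat_lit 246) (nat_lit 4) (nat_lit 8) (nat_lit 14) L84134 (by decide +kernel)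
theorem L84136 : W_31 (nat_lit 4) (nat_lit 0x780000000c000340000001000080000000000000000000000000000000) (nat_lit 0x0) (nat_lit 0x10001c0000000700000000000000000000000000000000000000000000000000000) := T_31 (nat_lit 213) (nat_lit 214) (nat_lit 2) (nat_lit 6) (nat_lit 13) L84135 (by decide +kernel)
theorem L84137 : W_31 (nat_lit 5) (nat_lit 0x780000000c000300000001000080000000000000000000000000000000) (nat_lit 0x0) (nat_lit 0x10001c00000007000000000c0000000000000000000000000000000000000000000) := T_31 (nat_lit 174) (nat_lit 175) (nat_lit 3) (nat_lit 4) (nat_lit 10) L84136 (by decide +kernel)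
theorem L84138 : W_31 (nat_lit 6) (nat_lit 0x380000000c000300000001000080000000000000000000000000000000) (nat_lit 0x0) (nat_lit 0x10001d80040007600020000c0000000000000000000000000000000000000000000) := Q_31 (nat_lit 230) (C_31 L83950 (C_31 L82424 (C_31 L84137 N_31))) (by decide +kernel)
theorem L84139 : W_31 (nat_lit 2) (nat_lit 0x48003e0001000e000300000001000080000000000000000000000000000000) (nat_lit 0x0) (nat_lit 0x8000c0000000000000000000000000000000000000000000) := D_31 (nat_lit 174) (nat_lit 175) (nat_lit 191) (nat_lit 3) (nat_lit 4) (nat_lit 10) (nat_lit 7) (nat_lit 4) (nat_lit 10) (by decide +kernel)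
theorem L84140 : W_31 (nat_lit 3) (nat_lit 0x48003c0001000e000300000001000080000000000000000000000000000000) (nat_lit 0x0) (nat_lit 0x2000080008000c0000000000000000000000000000000000000000000) := T_31 (nat_lit 225) (nat_lit 207) (nat_lit 0) (nat_lit 7) (nat_lit 13) L84139 (by decide +kernel)
theorem L84141 : W_31 (nat_lit 4) (nat_lit 0x48003c0001000c000300000001000080000000000000000000000000000000) (nat_lit 0x0) (nat_lit 0x2000480028000c0000000000000000000000000000000000000000000) := T_31 (nat_lit 193) (nat_lit 210) (nat_lit 5) (nat_lit 6) (nat_lit 10) L84140 (by decide +kernel)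
theorem L84142 : W_31 (nat_lit 5) (nat_lit 0x48003c0000000c000300000001000080000000000000000000000000000000) (nat_lit 0x0) (nat_lit 0x2000780028000c0000000000000000000000000000000000000000000) := T_31 (nat_lit 208) (nat_lit 209) (nat_lit 0) (nat_lit 8) (nat_lit 13) L84141 (by decide +kernel)
theorem L84143 : W_31 (nat_lit 6) (nat_lit 0x40003c0000000c000300000001000080000000000000000000000000000000) (nat_lit 0x0) (nat_lit 0xc0002000780028000c0000000000000000000000000000000000000000000) := T_31 (nat_lit 243) (nat_lit 242) (nat_lit 1) (nat_lit 8) (nat_lit 13) L84142 (by decide +kernel)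
theorem L84144 : W_31 (nat_lit 7) (nat_lit 0x4000380000000c000300000001000080000000000000000000000000000000) (nat_lit 0x0) (nat_lit 0x8c0006000780028000c0000000000000000000000000000000000000000000) := T_31 (nat_lit 226) (nat_lit 247) (nat_lit 3) (nat_lit 5) (nat_lit 13) L84143 (by decide +kernel)
theorem L84145 : W_31 (nat_lit 8) (nat_lit 0x380000000c000300000001000080000000000000000000000000000000) (nat_lit 0x0) (nat_lit 0xcc0006001780028000c0000000000000000000000000000000000000000000) := T_31 (nat_lit 246) (nat_lit 212) (nat_lit 4) (nat_lit 8) (nat_lit 14) L84144 (by decide +kernel)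
theorem L84146 : W_31 (nat_lit 9) (nat_lit 0x300000000c000300000001000080000000000000000000000000000000) (nat_lit 0x0) (nat_lit 0x10003dc004e007780028000c0000000000000000000000000000000000000000000) := Q_31 (nat_lit 227) (C_31 L84036 (C_31 L82510 (C_31 L84121 (C_31 L84128 (C_31 L84132 (C_31 L84133 (C_31 L84138 (C_31 L84145 N_31)))))))) (by decide +kernel)
theorem L84147 : W_31 (nat_lit 14) (nat_lit 0x100000000c000300000001000080000000000000000000000000000000) (nat_lit 0x0) (nat_lit 0x70017803ff03ef00f7c062e03cf01ce800400020000000000000000000000000000000) := Q_31 (nat_lit 229) (C_31 L83952 (C_31 L83957 (C_31 L83967 (C_31 L83971 (C_31 L84072 (C_31 L84116 (C_31 L84146 N_31))))))) (by decide +kernel)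
theorem L84148 : W_31 (nat_lit 11) (nat_lit 0x100000000c000300000001000080000000000000000000000000000000) (nat_lit 0x0) (nat_lit 0x1dc00ee007f80020004c000c000000000000000000000000000000000000000) := T_31 (nat_lit 211) (nat_lit 159) (nat_lit 4) (nat_lit 7) (nat_lit 13) L83925 (by decide +kernel)
theorem L84149 : W_31 (nat_lit 15) (nat_lit 0xc000300000001000080000000000000000000000000000000) (nat_lit 0x0) (nat_lit 0x7001f803ff03ff00ffc062e03cf01ce800400020000000000000000000000000000000) := Q_31 (nat_lit 228) (C_31 L82414 (C_31 L83946 (C_31 L83947 (C_31 L84147 (C_31 L84148 N_31))))) (by decide +kernel)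
theorem L84152 : W_31 (nat_lit 2) (nat_lit 0x400004003e000c000300000001000080000000000000000000000000000000) (nat_lit 0x0) (nat_lit 0xc00002000000000000000000000000000000000000000000000000) := D_31 (nat_lit 214) (nat_lit 215) (nat_lit 193) (nat_lit 0) (nat_lit 11) (nat_lit 12) (nat_lit 0) (nat_lit 10) (nat_lit 12) (by decide +kernel)
theorem L84153 : W_31 (nat_lit 3) (nat_lit 0x400004001e000c000300000001000080000000000000000000000000000000) (nat_lit 0x0) (nat_lit 0x800e00002000000000000000000000000000000000000000000000000) := T_31 (nat_lit 213) (nat_lit 227) (nat_lit 1) (nat_lit 9) (nat_lit 12) L84152 (by decide +kernel)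
theorem L84154 : W_31 (nat_lit 4) (nat_lit 0x400000001e000c000300000001000080000000000000000000000000000000) (nat_lit 0x0) (nat_lit 0xe00e00002000000000000000000000000000000000000000000000000) := T_31 (nat_lit 226) (nat_lit 225) (nat_lit 1) (nat_lit 8) (nat_lit 12) L84153 (by decide +kernel)
theorem L84155 : W_31 (nat_lit 5) (nat_lit 0x400000001c000c000300000001000080000000000000000000000000000000) (nat_lit 0x0) (nat_lit 0xe00e30002000000000000000000000000000000000000000000000000) := T_31 (nat_lit 209) (nat_lit 208) (nat_lit 2) (nat_lit 4) (nat_lit 12) L84154 (by decide +kernel)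
theorem L84156 : W_31 (nat_lit 6) (nat_lit 0x1c000c000300000001000080000000000000000000000000000000) (nat_lit 0x0) (nat_lit 0x40002e00e30002000000000000000000000000000000000000000000000000) := T_31 (nat_lit 246) (nat_lit 229) (nat_lit 4) (nat_lit 8) (nat_lit 14) L84155 (by decide +kernel)
theorem L84157 : W_31 (nat_lit 7) (nat_lit 0xc000c000300000001000080000000000000000000000000000000) (nat_lit 0x0) (nat_lit 0x20005001ee00f30002000000000000000000000000000000000000000000000000) := Q_31 (nat_lit 212) (C_31 L84151 (C_31 L81946 (C_31 L84156 N_31))) (by decide +kernel)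
theorem L84158 : W_31 (nat_lit 2) (nat_lit 0xe000c000300000001000080000000000000000000000000000000) (nat_lit 0x0) (nat_lit 0x32000000000000000000000000000000000000000000000000) := D_31 (nat_lit 196) (nat_lit 197) (nat_lit 193) (nat_lit 1) (nat_lit 10) (nat_lit 11) (nat_lit 1) (nat_lit 9) (nat_lit 11) (by decide +kernel)
theorem L84159 : W_31 (nat_lit 3) (nat_lit 0xc000c000300000001000080000000000000000000000000000000) (nat_lit 0x0) (nat_lit 0x30032000000000000000000000000000000000000000000000000) := T_31 (nat_lit 209) (nat_lit 208) (nat_lit 2) (nat_lit 4) (nat_lit 12) L84158 (by decide +kernel)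
theorem L84175 : W_31 (nat_lit 8) (nat_lit 0x8000c000300000001000080000000000000000000000000000000) (nat_lit 0x0) (nat_lit 0x1a000d001ee00f70072001c0000c000600000000000000000000000000000000000) := Q_31 (nat_lit 210) (C_31 L82386 (C_31 L84157 (C_31 L84159 (C_31 L84174 N_31)))) (by decide +kernel)
theorem L84176 : W_31 (nat_lit 2) (nat_lit 0x800078002c002c000300000001000080000000000000000000000000000000) (nat_lit 0x0) (nat_lit 0x400100000000400000000000000000000000000000000000000000000) := D_31 (nat_lit 212) (nat_lit 226) (nat_lit 178) (nat_lit 2) (nat_lit 5) (nat_lit 13) (nat_lit 7) (nat_lit 8) (nat_lit 10) (by decide +kernel)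
theorem L84177 : W_31 (nat_lit 3) (nat_lit 0x800078000c002c000300000001000080000000000000000000000000000000) (nat_lit 0x0) (nat_lit 0x400700000000400000000000000000000000000000000000000000000) := T_31 (nat_lit 213) (nat_lit 214) (nat_lit 2) (nat_lit 6) (nat_lit 13) L84176 (by decide +kernel)
theorem L84178 : W_31 (nat_lit 4) (nat_lit 0x78000c002c000300000001000080000000000000000000000000000000) (nat_lit 0x0) (nat_lit 0x180000400700000000400000000000000000000000000000000000000000000) := T_31 (nat_lit 247) (nat_lit 248) (nat_lit 3) (nat_lit 6) (nat_lit 13) L84177 (by decide +kernel)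
theorem L84179 : W_31 (nat_lit 5) (nat_lit 0x70000c002c000300000001000080000000000000000000000000000000) (nat_lit 0x0) (nat_lit 0x190000c00700000000400000000000000000000000000000000000000000000) := T_31 (nat_lit 227) (nat_lit 244) (nat_lit 5) (nat_lit 7) (nat_lit 10) L84178 (by decide +kernel)
theorem L84180 : W_31 (nat_lit 6) (nat_lit 0x70000c000c000300000001000080000000000000000000000000000000) (nat_lit 0x0) (nat_lit 0x190000c00700030000400000000000000000000000000000000000000000000) := T_31 (nat_lit 197) (nat_lit 196) (nat_lit 1) (nat_lit 10) (nat_lit 11) L84179 (by decide +kernel)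
theorem L84181 : W_31 (nat_lit 7) (nat_lit 0x30000c000c000300000001000080000000000000000000000000000000) (nat_lit 0x0) (nat_lit 0x19000cc00700030000400000000000000000000000000000000000000000000) := T_31 (nat_lit 230) (nat_lit 231) (nat_lit 0) (nat_lit 10) (nat_lit 13) L84180 (by decide +kernel)
theorem L84182 : W_31 (nat_lit 8) (nat_lit 0x10000c000c000300000001000080000000000000000000000000000000) (nat_lit 0x0) (nat_lit 0x1d000ec00700030000400000000000000000000000000000000000000000000) := T_31 (nat_lit 229) (nat_lit 246) (nat_lit 7) (nat_lit 7) (nat_lit 10) L84181 (by decide +kernel)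
theorem L84183 : W_31 (nat_lit 9) (nat_lit 0x100008000c000300000001000080000000000000000000000000000000) (nat_lit 0x0) (nat_lit 0x1d000ec00770030000400000000000000000000000000000000000000000000) := Q_31 (nat_lit 210) (C_31 L83909 (C_31 L84182 (C_31 L82378 N_31))) (by decide +kernel)
theorem L84184 : W_31 (nat_lit 10) (nat_lit 0x8000c000300000001000080000000000000000000000000000000) (nat_lit 0x0) (nat_lit 0xa001f000fc00770032000400000000000000000000000000000000000000000000) := Q_31 (nat_lit 228) (C_31 L15333 (C_31 L82376 (C_31 L84183 N_31))) (by decide +kernel)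
theorem L84185 : W_31 (nat_lit 11) (nat_lit 0xc000300000001000080000000000000000000000000000000) (nat_lit 0x0) (nat_lit 0x1a001f001fe00ff0072001c0000c000600000000000000000000000000000000000) := Q_31 (nat_lit 211) (C_31 L84175 (C_31 L82384 (C_31 L84184 (C_31 L15334 N_31)))) (by decide +kernel)
theorem L84188 : W_31 (nat_lit 16) (nat_lit 0x4000300000001000080000000000000000000000000000000) (nat_lit 0x0) (nat_lit 0x7001f803ff03ff00ffc07ae03cf01ce800600020000000000000000000000000000000) := Q_31 (nat_lit 195) (C_31 L5377 (C_31 L82190 (C_31 L84149 (C_31 L84185 (C_31 L84187 N_31))))) (by decide +kernel)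
theorem L84192 : W_31 (nat_lit 11) (nat_lit 0x6000300000001000080000000000000000000000000000000) (nat_lit 0x0) (nat_lit 0xe8007c003f8039c01c80000000000000000000000000000000000000000000) := Q_31 (nat_lit 192) (C_31 L15199 (C_31 L12149 (C_31 L83596 N_31))) (by decide +kernel)
theorem L84197 : W_31 (nat_lit 9) (nat_lit 0x6000300000001000080000000000000000000000000000000) (nat_lit 0x0) (nat_lit 0x58002c00378039c01c8000f000e00130000000000000000000000000000000) := Q_31 (nat_lit 192) (C_31 L84196 (C_31 L83267 (C_31 L83605 (C_31 L12149 N_31)))) (by decide +kernel)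
theorem L84198 : W_31 (nat_lit 13) (nat_lit 0x6000300000001000080000000000000000000000000000000) (nat_lit 0x0) (nat_lit 0xfc00fc007b8039c01c80008000400000000000000000000000000000000000) := Q_31 (nat_lit 192) (C_31 L84196 (C_31 L12174 (C_31 L83635 (C_31 L12149 N_31)))) (by decide +kernel)
theorem L84199 : W_31 (nat_lit 15) (nat_lit 0x4000300000001000080000000000000000000000000000000) (nat_lit 0x0) (nat_lit 0x800fe00ffc07f803bc01c8000f000f00130000000000000000000000000000000) := Q_31 (nat_lit 193) (C_31 L83650 (C_31 L83673 (C_31 L83252 (C_31 L84192 (C_31 L84197 (C_31 L84198 (C_31 L83665 N_31))))))) (by decide +kernel)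
theorem L84200 : W_31 (nat_lit 6) (nat_lit 0x300010000f000700000001000080000000000000000000000000000000) (nat_lit 0x0) (nat_lit 0x9001ce000c0000000000008000000000000000000000000000000000000000) := T_31 (nat_lit 211) (nat_lit 159) (nat_lit 4) (nat_lit 7) (nat_lit 13) L83654 (by decide +kernel)
theorem L84201 : W_31 (nat_lit 7) (nat_lit 0x200010000f000700000001000080000000000000000000000000000000) (nat_lit 0x0) (nat_lit 0xb001de000c0000000000008000000000000000000000000000000000000000) := T_31 (nat_lit 228) (nat_lit 245) (nat_lit 5) (nat_lit 8) (nat_lit 10) L84200 (by decide +kernel)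
theorem L84202 : W_31 (nat_lit 8) (nat_lit 0x10000f000700000001000080000000000000000000000000000000) (nat_lit 0x0) (nat_lit 0xf001fe000c0000000000008000000000000000000000000000000000000000) := T_31 (nat_lit 229) (nat_lit 246) (nat_lit 4) (nat_lit 8) (nat_lit 14) L84201 (by decide +kernel)
theorem L84203 : W_31 (nat_lit 9) (nat_lit 0x10000f000300000001000080000000000000000000000000000000) (nat_lit 0x0) (nat_lit 0xf001fe000c0000000c00008000000000000000000000000000000000000000) := T_31 (nat_lit 178) (nat_lit 179) (nat_lit 2) (nat_lit 5) (nat_lit 11) L84202 (by decide +kernel)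
theorem L84204 : W_31 (nat_lit 10) (nat_lit 0xf000300000001000080000000000000000000000000000000) (nat_lit 0x0) (nat_lit 0xf001fe003c0000000c00008000000000000000000000000000000000000000) := T_31 (nat_lit 212) (nat_lit 213) (nat_lit 3) (nat_lit 5) (nat_lit 11) L84203 (by decide +kernel)
theorem L84205 : W_31 (nat_lit 11) (nat_lit 0xe000300000001000080000000000000000000000000000000) (nat_lit 0x0) (nat_lit 0xf001fe003c0001c00c00008000000000000000000000000000000000000000) := Q_31 (nat_lit 192) (C_31 L11587 (C_31 L11585 (C_31 L84204 N_31))) (by decide +kernel)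
theorem L84206 : W_31 (nat_lit 10) (nat_lit 0xe000300000001000080000000000000000000000000000000) (nat_lit 0x0) (nat_lit 0xf0007c00780030001c000cc000400000000000000000000000000000000000) := Q_31 (nat_lit 211) (C_31 L11830 (C_31 L83647 (C_31 L16348 N_31))) (by decide +kernel)
theorem L84207 : W_31 (nat_lit 12) (nat_lit 0xc000300000001000080000000000000000000000000000000) (nat_lit 0x0) (nat_lit 0xf001fe007c0033c01c000cc000400000000000000000000000000000000000) := Q_31 (nat_lit 193) (C_31 L16341 (C_31 L15642 (C_31 L84205 (C_31 L16356 (C_31 L84206 N_31))))) (by decide +kernel)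
theorem L84208 : W_31 (nat_lit 11) (nat_lit 0xe000300000001000080000000000000000000000000000000) (nat_lit 0x0) (nat_lit 0x7800fe003c8001c000e000f000f0013c000000000000000000000000000000) := Q_31 (nat_lit 211) (C_31 L82857 (C_31 L82886 (C_31 L11830 N_31))) (by decide +kernel)
theorem L84209 : W_31 (nat_lit 2) (nat_lit 0x100000000e000700000001000080000000000000000000000000000000) (nat_lit 0x0) (nat_lit 0x20000000080000000000008000000000000000000000000000000000000000) := D_31 (nat_lit 211) (nat_lit 159) (nat_lit 245) (nat_lit 4) (nat_lit 7) (nat_lit 13) (nat_lit 6) (nat_lit 7) (nat_lit 14) (by decide +kernel)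
theorem L84210 : W_31 (nat_lit 2) (nat_lit 0x2000100010000e000740000001000080000000000000000000000000000000) (nat_lit 0x0) (nat_lit 0x200001800000000000000000000000000000000000000000000000) := D_31 (nat_lit 192) (nat_lit 213) (nat_lit 191) (nat_lit 3) (nat_lit 5) (nat_lit 11) (nat_lit 2) (nat_lit 4) (nat_lit 11) (by decide +kernel)
theorem L84211 : W_31 (nat_lit 3) (nat_lit 0x2000100000000e000740000001000080000000000000000000000000000000) (nat_lit 0x0) (nat_lit 0x2000300001800000000000000000000000000000000000000000000000) := T_31 (nat_lit 212) (nat_lit 229) (nat_lit 5) (nat_lit 8) (nat_lit 10) L84210 (by decide +kernel)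
theorem L84212 : W_31 (nat_lit 4) (nat_lit 0x100000000e000740000001000080000000000000000000000000000000) (nat_lit 0x0) (nat_lit 0x20002000380001800000000000000000000000000000000000000000000000) := T_31 (nat_lit 245) (nat_lit 211) (nat_lit 6) (nat_lit 7) (nat_lit 14) L84211 (by decide +kernel)
theorem L84213 : W_31 (nat_lit 5) (nat_lit 0x100000000e000700000001000080000000000000000000000000000000) (nat_lit 0x0) (nat_lit 0x200020003800018000c0000000000000000000000000000000000000000000) := T_31 (nat_lit 174) (nat_lit 175) (nat_lit 3) (nat_lit 4) (nat_lit 10) L84212 (by decide +kernel)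
theorem L84214 : W_31 (nat_lit 4) (nat_lit 0x100000000e000700000001000080000000000000000000000000000000) (nat_lit 0x0) (nat_lit 0x60002000300001800000000000000000000000000000000000000000000000) := T_31 (nat_lit 192) (nat_lit 191) (nat_lit 2) (nat_lit 4) (nat_lit 11) L77253 (by decide +kernel)
theorem L84215 : W_31 (nat_lit 2) (nat_lit 0x100000000e80074000a001f00080000000000000000000000000000000) (nat_lit 0x0) (nat_lit 0x8000c000000000000000000000000000000) := D_31 (nat_lit 122) (nat_lit 123) (nat_lit 139) (nat_lit 0) (nat_lit 7) (nat_lit 8) (nat_lit 4) (nat_lit 4) (nat_lit 11) (by decide +kernel)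
theorem L84216 : W_31 (nat_lit 3) (nat_lit 0x100000000e80074000a001e00080000000000000000000000000000000) (nat_lit 0x0) (nat_lit 0x100018000c000000000000000000000000000000) := T_31 (nat_lit 140) (nat_lit 156) (nat_lit 1) (nat_lit 7) (nat_lit 8) L84215 (by decide +kernel)
theorem L84217 : W_31 (nat_lit 4) (nat_lit 0x100000000e800740008001e00080000000000000000000000000000000) (nat_lit 0x0) (nat_lit 0x700018000c000000000000000000000000000000) := T_31 (nat_lit 157) (nat_lit 158) (nat_lit 1) (nat_lit 8) (nat_lit 8) L84216 (by decide +kernel)
theorem L84218 : W_31 (nat_lit 5) (nat_lit 0x100000000e800740008001600080000000000000000000000000000000) (nat_lit 0x0) (nat_lit 0x700098010c000000000000000000000000000000) := T_31 (nat_lit 143) (nat_lit 128) (nat_lit 2) (nat_lit 5) (nat_lit 8) L84217 (by decide +kernel)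
theorem L84219 : W_31 (nat_lit 6) (nat_lit 0x100000000e800740008001400080000000000000000000000000000000) (nat_lit 0x0) (nat_lit 0x7000b8011c000000000000000000000000000000) := T_31 (nat_lit 141) (nat_lit 124) (nat_lit 4) (nat_lit 6) (nat_lit 11) L84218 (by decide +kernel)
theorem L84220 : W_31 (nat_lit 7) (nat_lit 0x100000000e800740008001000080000000000000000000000000000000) (nat_lit 0x0) (nat_lit 0x7000f8013c000000000000000000000000000000) := T_31 (nat_lit 142) (nat_lit 125) (nat_lit 7) (nat_lit 6) (nat_lit 7) L84219 (by decide +kernel)
theorem L84221 : W_31 (nat_lit 8) (nat_lit 0x100000000e000740008001000080000000000000000000000000000000) (nat_lit 0x0) (nat_lit 0x1800000007000f8013c000000000000000000000000000000) := T_31 (nat_lit 191) (nat_lit 192) (nat_lit 2) (nat_lit 4) (nat_lit 11) L84220 (by decide +kernel)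
theorem L84222 : W_31 (nat_lit 9) (nat_lit 0x100000000e000740000001000080000000000000000000000000000000) (nat_lit 0x0) (nat_lit 0x8000180000000f000f8013c000000000000000000000000000000) := T_31 (nat_lit 159) (nat_lit 211) (nat_lit 4) (nat_lit 7) (nat_lit 13) L84221 (by decide +kernel)
theorem L84223 : W_31 (nat_lit 10) (nat_lit 0x100000000e000700000001000080000000000000000000000000000000) (nat_lit 0x0) (nat_lit 0x800018000c000f000f8013c000000000000000000000000000000) := T_31 (nat_lit 174) (nat_lit 175) (nat_lit 3) (nat_lit 4) (nat_lit 10) L84222 (by decide +kernel)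
theorem L84224 : W_31 (nat_lit 11) (nat_lit 0xe000700000001000080000000000000000000000000000000) (nat_lit 0x0) (nat_lit 0x600030003800018000c000f000f8013c000000000000000000000000000000) := Q_31 (nat_lit 228) (C_31 L84209 (C_31 L84213 (C_31 L84214 (C_31 L84223 N_31)))) (by decide +kernel)
theorem L84225 : W_31 (nat_lit 2) (nat_lit 0xe000f40008001000080000000000000000000000000000000) (nat_lit 0x0) (nat_lit 0x1000080000000000000000400000000000000000000000000000000000) := D_31 (nat_lit 211) (nat_lit 228) (nat_lit 142) (nat_lit 4) (nat_lit 7) (nat_lit 13) (nat_lit 7) (nat_lit 6) (nat_lit 8) (by decide +kernel)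
theorem L84226 : W_31 (nat_lit 3) (nat_lit 0xe000f40000001000080000000000000000000000000000000) (nat_lit 0x0) (nat_lit 0x100008000000000000c000400000000000000000000000000000000000) := T_31 (nat_lit 159) (nat_lit 158) (nat_lit 0) (nat_lit 9) (nat_lit 10) L84225 (by decide +kernel)
theorem L84227 : W_31 (nat_lit 4) (nat_lit 0xe000740000001000080000000000000000000000000000000) (nat_lit 0x0) (nat_lit 0x100008000000180000c000400000000000000000000000000000000000) := T_31 (nat_lit 179) (nat_lit 180) (nat_lit 1) (nat_lit 10) (nat_lit 10) L84226 (by decide +kernel)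
theorem L84228 : W_31 (nat_lit 5) (nat_lit 0xe000700000001000080000000000000000000000000000000) (nat_lit 0x0) (nat_lit 0x10000800000018c000c000400000000000000000000000000000000000) := T_31 (nat_lit 174) (nat_lit 175) (nat_lit 3) (nat_lit 4) (nat_lit 10) L84227 (by decide +kernel)
theorem L84229 : W_31 (nat_lit 12) (nat_lit 0xe000300000001000080000000000000000000000000000000) (nat_lit 0x0) (nat_lit 0x60003000380001801cc000f000f8013c000000000000000000000000000000) := Q_31 (nat_lit 178) (C_31 L16058 (C_31 L84224 (C_31 L84228 N_31))) (by decide +kernel)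
theorem L84232 : W_31 (nat_lit 6) (nat_lit 0xe000300000001000080000000000000000000000000000000) (nat_lit 0x0) (nat_lit 0x800040001c00ce0006000200000000000000000000000000000000000) := Q_31 (nat_lit 192) (C_31 L84231 (C_31 L11603 (C_31 L11585 N_31))) (by decide +kernel)
theorem L84233 : W_31 (nat_lit 2) (nat_lit 0x100004000e00034000d001000080000000000000000000000000000000) (nat_lit 0x0) (nat_lit 0x30000800000000000000000000000000000000000000000000000000000000) := D_31 (nat_lit 227) (nat_lit 245) (nat_lit 244) (nat_lit 7) (nat_lit 6) (nat_lit 10) (nat_lit 6) (nat_lit 6) (nat_lit 14) (by decide +kernel)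
theorem L84234 : W_31 (nat_lit 3) (nat_lit 0x4000e00034000d001000080000000000000000000000000000000) (nat_lit 0x0) (nat_lit 0x30001800080000000000000000000000000000000000000000000000000000) := T_31 (nat_lit 228) (nat_lit 211) (nat_lit 7) (nat_lit 6) (nat_lit 9) L84233 (by decide +kernel)
theorem L84235 : W_31 (nat_lit 4) (nat_lit 0xe00034000d001000080000000000000000000000000000000) (nat_lit 0x0) (nat_lit 0x300018000c0000000000000000200000000000000000000000000000000000) := T_31 (nat_lit 210) (nat_lit 141) (nat_lit 4) (nat_lit 6) (nat_lit 12) L84234 (by decide +kernel)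
theorem L84236 : W_31 (nat_lit 5) (nat_lit 0xe00034000c001000080000000000000000000000000000000) (nat_lit 0x0) (nat_lit 0x300018000c0000000000003000200000000000000000000000000000000000) := T_31 (nat_lit 156) (nat_lit 157) (nat_lit 3) (nat_lit 3) (nat_lit 9) L84235 (by decide +kernel)
theorem L84237 : W_31 (nat_lit 6) (nat_lit 0xe00030000c001000080000000000000000000000000000000) (nat_lit 0x0) (nat_lit 0x300018000c00000000c0003000200000000000000000000000000000000000) := T_31 (nat_lit 174) (nat_lit 175) (nat_lit 3) (nat_lit 4) (nat_lit 10) L84236 (by decide +kernel)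
theorem L84238 : W_31 (nat_lit 2) (nat_lit 0x100004000e000b0000d001000080000000000000000000000000000000) (nat_lit 0x0) (nat_lit 0x30000800000000000000000000000000000000000000000000000000000000) := D_31 (nat_lit 227) (nat_lit 244) (nat_lit 245) (nat_lit 6) (nat_lit 6) (nat_lit 14) (nat_lit 7) (nat_lit 6) (nat_lit 10) (by decide +kernel)
theorem L84239 : W_31 (nat_lit 3) (nat_lit 0x100000000e000b0000d001000080000000000000000000000000000000) (nat_lit 0x0) (nat_lit 0x30000800040000000000000000200000000000000000000000000000000000) := T_31 (nat_lit 210) (nat_lit 141) (nat_lit 4) (nat_lit 6) (nat_lit 12) L84238 (by decide +kernel)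
theorem L84240 : W_31 (nat_lit 4) (nat_lit 0x100000000e000b0000c001000080000000000000000000000000000000) (nat_lit 0x0) (nat_lit 0x30000800040000000000003000200000000000000000000000000000000000) := T_31 (nat_lit 156) (nat_lit 157) (nat_lit 3) (nat_lit 3) (nat_lit 9) L84239 (by decide +kernel)
theorem L84241 : W_31 (nat_lit 5) (nat_lit 0x100000000e00030000c001000080000000000000000000000000000000) (nat_lit 0x0) (nat_lit 0x30000800040000000c00003000200000000000000000000000000000000000) := T_31 (nat_lit 179) (nat_lit 178) (nat_lit 0) (nat_lit 9) (nat_lit 10) L84240 (by decide +kernel)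
theorem L84242 : W_31 (nat_lit 6) (nat_lit 0xe00030000c001000080000000000000000000000000000000) (nat_lit 0x0) (nat_lit 0x300018000c0000000c00003000200000000000000000000000000000000000) := T_31 (nat_lit 228) (nat_lit 211) (nat_lit 4) (nat_lit 7) (nat_lit 13) L84241 (by decide +kernel)
theorem L84243 : W_31 (nat_lit 2) (nat_lit 0x4000e00030000c001000080000000000000000000000000000000) (nat_lit 0x0) (nat_lit 0x8000000000000c0000000000000000000000000000000000000000000) := D_31 (nat_lit 175) (nat_lit 174) (nat_lit 227) (nat_lit 3) (nat_lit 4) (nat_lit 10) (nat_lit 4) (nat_lit 6) (nat_lit 13) (by decide +kernel)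
theorem L84244 : W_31 (nat_lit 3) (nat_lit 0xe00030000c001000080000000000000000000000000000000) (nat_lit 0x0) (nat_lit 0x8000400000000c0000000200000000000000000000000000000000000) := T_31 (nat_lit 210) (nat_lit 141) (nat_lit 4) (nat_lit 6) (nat_lit 12) L84243 (by decide +kernel)
theorem L84245 : W_31 (nat_lit 7) (nat_lit 0xe000300008001000080000000000000000000000000000000) (nat_lit 0x0) (nat_lit 0x300018000c0000000cc0007000200000000000000000000000000000000000) := Q_31 (nat_lit 158) (C_31 L83792 (C_31 L84237 (C_31 L84242 (C_31 L84244 N_31)))) (by decide +kernel)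
theorem L84246 : W_31 (nat_lit 8) (nat_lit 0xe000300000001000080000000000000000000000000000000) (nat_lit 0x0) (nat_lit 0x300018000c0000000cc000f000e00130000000000000000000000000000000) := Q_31 (nat_lit 159) (C_31 L83767 (C_31 L83762 (C_31 L84245 N_31))) (by decide +kernel)
theorem L84247 : W_31 (nat_lit 13) (nat_lit 0xc000300000001000080000000000000000000000000000000) (nat_lit 0x0) (nat_lit 0xf801fe003c8003c01ce000f000f8013c000000000000000000000000000000) := Q_31 (nat_lit 193) (C_31 L84208 (C_31 L84205 (C_31 L83795 (C_31 L84229 (C_31 L84232 (C_31 L84246 N_31)))))) (by decide +kernel)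
theorem L84248 : W_31 (nat_lit 14) (nat_lit 0x4000300000001000080000000000000000000000000000000) (nat_lit 0x0) (nat_lit 0xf801fe007c803bc01ce00cf000f8013c000000000000000000000000000000) := Q_31 (nat_lit 195) (C_31 L5377 (C_31 L82190 (C_31 L84187 (C_31 L84207 (C_31 L84247 N_31))))) (by decide +kernel)
theorem L84249 : W_31 (nat_lit 2) (nat_lit 0xb0002c001e000b00040001000080000000000000000000000000000000) (nat_lit 0x0) (nat_lit 0x400080004000000000000000000000000000000000000) := D_31 (nat_lit 163) (nat_lit 178) (nat_lit 146) (nat_lit 2) (nat_lit 6) (nat_lit 10) (nat_lit 6) (nat_lit 9) (nat_lit 12) (by decide +kernel)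
theorem L84250 : W_31 (nat_lit 3) (nat_lit 0xb0002c001e000b00000001000080000000000000000000000000000000) (nat_lit 0x0) (nat_lit 0x1000000004000c0004000000000000000000000000000000000000) := T_31 (nat_lit 162) (nat_lit 212) (nat_lit 5) (nat_lit 9) (nat_lit 9) L84249 (by decide +kernel)
theorem L84251 : W_31 (nat_lit 4) (nat_lit 0xb0002c001e000300000001000080000000000000000000000000000000) (nat_lit 0x0) (nat_lit 0x100000001c000c0004000000000000000000000000000000000000) := T_31 (nat_lit 179) (nat_lit 180) (nat_lit 2) (nat_lit 6) (nat_lit 11) L84250 (by decide +kernel)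
theorem L84252 : W_31 (nat_lit 5) (nat_lit 0xb0000c001e000300000001000080000000000000000000000000000000) (nat_lit 0x0) (nat_lit 0x700000001c000c0004000000000000000000000000000000000000) := T_31 (nat_lit 213) (nat_lit 214) (nat_lit 3) (nat_lit 6) (nat_lit 11) L84251 (by decide +kernel)
theorem L84253 : W_31 (nat_lit 6) (nat_lit 0x30000c001e000300000001000080000000000000000000000000000000) (nat_lit 0x0) (nat_lit 0xc000700000001c000c0004000000000000000000000000000000000000) := T_31 (nat_lit 231) (nat_lit 230) (nat_lit 0) (nat_lit 10) (nat_lit 13) L84252 (by decide +kernel)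
theorem L84254 : W_31 (nat_lit 7) (nat_lit 0x10000c001e000300000001000080000000000000000000000000000000) (nat_lit 0x0) (nat_lit 0x4000e000700000001c000c0004000000000000000000000000000000000000) := T_31 (nat_lit 229) (nat_lit 246) (nat_lit 7) (nat_lit 7) (nat_lit 10) L84253 (by decide +kernel)
theorem L84255 : W_31 (nat_lit 8) (nat_lit 0x100008001e000300000001000080000000000000000000000000000000) (nat_lit 0x0) (nat_lit 0x4000e000760000001c000c0004000000000000000000000000000000000000) := T_31 (nat_lit 210) (nat_lit 209) (nat_lit 1) (nat_lit 9) (nat_lit 11) L84254 (by decide +kernel)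
theorem L84256 : W_31 (nat_lit 9) (nat_lit 0x8001e000300000001000080000000000000000000000000000000) (nat_lit 0x0) (nat_lit 0x6000f000760000001c000c0004000000000000000000000000000000000000) := T_31 (nat_lit 228) (nat_lit 245) (nat_lit 4) (nat_lit 7) (nat_lit 14) L84255 (by decide +kernel)
theorem L84257 : W_31 (nat_lit 10) (nat_lit 0x8000e000300000001000080000000000000000000000000000000) (nat_lit 0x0) (nat_lit 0x6000f000760030001c000c0004000000000000000000000000000000000000) := T_31 (nat_lit 196) (nat_lit 197) (nat_lit 0) (nat_lit 10) (nat_lit 11) L84256 (by decide +kernel)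
theorem L84258 : W_31 (nat_lit 11) (nat_lit 0xe000300000001000080000000000000000000000000000000) (nat_lit 0x0) (nat_lit 0xe000f0007e0030001c000cc004400000000000000000000000000000000000) := Q_31 (nat_lit 211) (C_31 L83647 (C_31 L11830 (C_31 L84257 N_31))) (by decide +kernel)
theorem L84259 : W_31 (nat_lit 12) (nat_lit 0xc000300000001000080000000000000000000000000000000) (nat_lit 0x0) (nat_lit 0xe800f4007f8033c01c000cc004400000000000000000000000000000000000) := Q_31 (nat_lit 193) (C_31 L16341 (C_31 L15642 (C_31 L16356 (C_31 L83888 (C_31 L84258 N_31))))) (by decide +kernel)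
theorem L84260 : W_31 (nat_lit 13) (nat_lit 0x4000300000001000080000000000000000000000000000000) (nat_lit 0x0) (nat_lit 0xe800f6007f803bc03ce01cf004f00038000c00000000000000000000000000) := Q_31 (nat_lit 195) (C_31 L5377 (C_31 L82190 (C_31 L84187 (C_31 L84259 (C_31 L83886 N_31))))) (by decide +kernel)
theorem L84261 : W_31 (nat_lit 2) (nat_lit 0x4000000010000f000700008001e00080000000000000000000000000000000) (nat_lit 0x0) (nat_lit 0x40000000000006000000000000000000000000000000000000000) := D_31 (nat_lit 158) (nat_lit 157) (nat_lit 210) (nat_lit 1) (nat_lit 8) (nat_lit 8) (nat_lit 4) (nat_lit 6) (nat_lit 12) (by decide +kernel)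
theorem L84262 : W_31 (nat_lit 3) (nat_lit 0x4000000010000f000700008001600080000000000000000000000000000000) (nat_lit 0x0) (nat_lit 0x40000000000006000800100000000000000000000000000000000) := T_31 (nat_lit 143) (nat_lit 128) (nat_lit 2) (nat_lit 5) (nat_lit 8) L84261 (by decide +kernel)
theorem L84263 : W_31 (nat_lit 4) (nat_lit 0x4000000010000f000700008001400080000000000000000000000000000000) (nat_lit 0x0) (nat_lit 0x40000000000006000a00110000000000000000000000000000000) := T_31 (nat_lit 141) (nat_lit 124) (nat_lit 4) (nat_lit 6) (nat_lit 11) L84262 (by decide +kernel)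
theorem L84264 : W_31 (nat_lit 5) (nat_lit 0x10000f000700008001400080000000000000000000000000000000) (nat_lit 0x0) (nat_lit 0x40002000040000000000006000a00110000000000000000000000000000000) := T_31 (nat_lit 246) (nat_lit 229) (nat_lit 4) (nat_lit 8) (nat_lit 14) L84263 (by decide +kernel)
theorem L84265 : W_31 (nat_lit 6) (nat_lit 0x10000f000300008001400080000000000000000000000000000000) (nat_lit 0x0) (nat_lit 0x40002000040000000c00006000a00110000000000000000000000000000000) := T_31 (nat_lit 178) (nat_lit 179) (nat_lit 2) (nat_lit 5) (nat_lit 11) L84264 (by decide +kernel)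
theorem L84266 : W_31 (nat_lit 7) (nat_lit 0xf000300008001400080000000000000000000000000000000) (nat_lit 0x0) (nat_lit 0x40002000340000000c00006000a00110000000000000000000000000000000) := T_31 (nat_lit 212) (nat_lit 213) (nat_lit 3) (nat_lit 5) (nat_lit 11) L84265 (by decide +kernel)
theorem L84267 : W_31 (nat_lit 8) (nat_lit 0xe000300008001400080000000000000000000000000000000) (nat_lit 0x0) (nat_lit 0x40002000360001000c00006000a00110000000000000000000000000000000) := T_31 (nat_lit 192) (nat_lit 209) (nat_lit 5) (nat_lit 6) (nat_lit 8) L84266 (by decide +kernel)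
theorem L84268 : W_31 (nat_lit 9) (nat_lit 0xe000300008001000080000000000000000000000000000000) (nat_lit 0x0) (nat_lit 0x40002000360001000c00006000e00130000000000000000000000000000000) := T_31 (nat_lit 142) (nat_lit 125) (nat_lit 7) (nat_lit 6) (nat_lit 7) L84267 (by decide +kernel)
theorem L84269 : W_31 (nat_lit 2) (nat_lit 0x100004000e000300008001000080000000000000000000000000000000) (nat_lit 0x0) (nat_lit 0x30000800000000000000000000000000000000000000000000000000000000) := D_31 (nat_lit 227) (nat_lit 245) (nat_lit 244) (nat_lit 7) (nat_lit 6) (nat_lit 10) (nat_lit 6) (nat_lit 6) (nat_lit 14) (by decide +kernel)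
theorem L84270 : W_31 (nat_lit 3) (nat_lit 0x4000e000300008001000080000000000000000000000000000000) (nat_lit 0x0) (nat_lit 0x30001800080000000000000000000000000000000000000000000000000000) := T_31 (nat_lit 228) (nat_lit 211) (nat_lit 7) (nat_lit 6) (nat_lit 9) L84269 (by decide +kernel)
theorem L84271 : W_31 (nat_lit 2) (nat_lit 0x1000000006000e000300008001000080000000000000000000000000000000) (nat_lit 0x0) (nat_lit 0x90001000000000000000000000000000000000000000000000000) := D_31 (nat_lit 208) (nat_lit 211) (nat_lit 192) (nat_lit 2) (nat_lit 4) (nat_lit 12) (nat_lit 1) (nat_lit 8) (nat_lit 11) (by decide +kernel)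
theorem L84272 : W_31 (nat_lit 3) (nat_lit 0x1000000004000e000300008001000080000000000000000000000000000000) (nat_lit 0x0) (nat_lit 0x4000b0001000000000000000000000000000000000000000000000000) := T_31 (nat_lit 209) (nat_lit 226) (nat_lit 5) (nat_lit 6) (nat_lit 9) L84271 (by decide +kernel)
theorem L84273 : W_31 (nat_lit 4) (nat_lit 0x4000e000300008001000080000000000000000000000000000000) (nat_lit 0x0) (nat_lit 0x10000c000b0001000000000000000000000000000000000000000000000000) := T_31 (nat_lit 244) (nat_lit 227) (nat_lit 6) (nat_lit 6) (nat_lit 14) L84272 (by decide +kernel)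
theorem L84274 : W_31 (nat_lit 2) (nat_lit 0x1000000006000e000b0000d001000080000000000000000000000000000000) (nat_lit 0x0) (nat_lit 0x18001000000000000000000000000000000000000000000000000) := D_31 (nat_lit 208) (nat_lit 207) (nat_lit 192) (nat_lit 2) (nat_lit 3) (nat_lit 12) (nat_lit 1) (nat_lit 8) (nat_lit 11) (by decide +kernel)
theorem L84275 : W_31 (nat_lit 3) (nat_lit 0x1000000004000e000b0000d001000080000000000000000000000000000000) (nat_lit 0x0) (nat_lit 0x400038001000000000000000000000000000000000000000000000000) := T_31 (nat_lit 209) (nat_lit 226) (nat_lit 5) (nat_lit 6) (nat_lit 9) L84274 (by decide +kernel)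
theorem L84276 : W_31 (nat_lit 4) (nat_lit 0x4000e000b0000d001000080000000000000000000000000000000) (nat_lit 0x0) (nat_lit 0x10000c00038001000000000000000000000000000000000000000000000000) := T_31 (nat_lit 244) (nat_lit 227) (nat_lit 6) (nat_lit 6) (nat_lit 14) L84275 (by decide +kernel)
theorem L84277 : W_31 (nat_lit 5) (nat_lit 0x4000e00030000d001000080000000000000000000000000000000) (nat_lit 0x0) (nat_lit 0x10000c00038001000c00000000000000000000000000000000000000000000) := T_31 (nat_lit 179) (nat_lit 178) (nat_lit 0) (nat_lit 9) (nat_lit 10) L84276 (by decide +kernel)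
theorem L84278 : W_31 (nat_lit 6) (nat_lit 0x4000e00030000c001000080000000000000000000000000000000) (nat_lit 0x0) (nat_lit 0x10000c00038001000c00003000000000000000000000000000000000000000) := T_31 (nat_lit 156) (nat_lit 157) (nat_lit 3) (nat_lit 3) (nat_lit 9) L84277 (by decide +kernel)
theorem L84279 : W_31 (nat_lit 7) (nat_lit 0x4000e000300008001000080000000000000000000000000000000) (nat_lit 0x0) (nat_lit 0x10000c00038001000c00007000200000000000000000000000000000000000) := T_31 (nat_lit 158) (nat_lit 141) (nat_lit 4) (nat_lit 6) (nat_lit 12) L84278 (by decide +kernel)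
theorem L84280 : W_31 (nat_lit 2) (nat_lit 0x6000e000300008001000080000000000000000000000000000000) (nat_lit 0x0) (nat_lit 0x90001000000000000000000000000000000000000000000000000) := D_31 (nat_lit 208) (nat_lit 211) (nat_lit 192) (nat_lit 2) (nat_lit 4) (nat_lit 12) (nat_lit 1) (nat_lit 8) (nat_lit 11) (by decide +kernel)
theorem L84281 : W_31 (nat_lit 3) (nat_lit 0x4000e000300008001000080000000000000000000000000000000) (nat_lit 0x0) (nat_lit 0x4000b0001000000000000000000000000000000000000000000000000) := T_31 (nat_lit 209) (nat_lit 226) (nat_lit 5) (nat_lit 6) (nat_lit 9) L84280 (by decide +kernel)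
theorem L84282 : W_31 (nat_lit 8) (nat_lit 0xe000300008001000080000000000000000000000000000000) (nat_lit 0x0) (nat_lit 0x30001c000f8001000c00007000200000000000000000000000000000000000) := Q_31 (nat_lit 210) (C_31 L84270 (C_31 L84273 (C_31 L84279 (C_31 L84281 N_31)))) (by decide +kernel)
theorem L84283 : W_31 (nat_lit 10) (nat_lit 0xe000300000001000080000000000000000000000000000000) (nat_lit 0x0) (nat_lit 0x70003c003f8001000c0000f000e00130000000000000000000000000000000) := Q_31 (nat_lit 159) (C_31 L83762 (C_31 L84268 (C_31 L84282 N_31))) (by decide +kernel)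
theorem L84284 : W_31 (nat_lit 8) (nat_lit 0xe000300000001000080000000000000000000000000000000) (nat_lit 0x0) (nat_lit 0x48002c00370001000cc000e000600000000000000000000000000000000000) := Q_31 (nat_lit 192) (C_31 L84231 (C_31 L82205 (C_31 L82222 N_31))) (by decide +kernel)
theorem L84285 : W_31 (nat_lit 2) (nat_lit 0x2000160012000f000780004001000090000000000000000000000000000000) (nat_lit 0x0) (nat_lit 0x50000800000000000000000000000000000000000000000000000000000000) := D_31 (nat_lit 227) (nat_lit 246) (nat_lit 244) (nat_lit 3) (nat_lit 4) (nat_lit 13) (nat_lit 7) (nat_lit 5) (nat_lit 10) (by decide +kernel)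
theorem L84286 : W_31 (nat_lit 3) (nat_lit 0x2000140012000f000780004001000090000000000000000000000000000000) (nat_lit 0x0) (nat_lit 0x54000a00000000000000000000000000000000000000000000000000000000) := T_31 (nat_lit 225) (nat_lit 242) (nat_lit 5) (nat_lit 5) (nat_lit 10) L84285 (by decide +kernel)
theorem L84287 : W_31 (nat_lit 4) (nat_lit 0x2000100012000f000780004001000090000000000000000000000000000000) (nat_lit 0x0) (nat_lit 0x5c000e00000000000000000000000000000000000000000000000000000000) := T_31 (nat_lit 226) (nat_lit 243) (nat_lit 6) (nat_lit 5) (nat_lit 14) L84286 (by decide +kernel)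
theorem L84288 : W_31 (nat_lit 5) (nat_lit 0x2000100012000f000780004001000080000000000000000000000000000000) (nat_lit 0x0) (nat_lit 0x5c000e00000000000000000000200010000000000000000000000000000000) := T_31 (nat_lit 124) (nat_lit 141) (nat_lit 7) (nat_lit 5) (nat_lit 7) L84287 (by decide +kernel)
theorem L84289 : W_31 (nat_lit 6) (nat_lit 0x2000100010000f000780004001000080000000000000000000000000000000) (nat_lit 0x0) (nat_lit 0x5c000e00030000000000000000200010000000000000000000000000000000) := T_31 (nat_lit 209) (nat_lit 208) (nat_lit 1) (nat_lit 8) (nat_lit 11) L84288 (by decide +kernel)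
theorem L84290 : W_31 (nat_lit 7) (nat_lit 0x2000100010000e000780004001000080000000000000000000000000000000) (nat_lit 0x0) (nat_lit 0x5c000e00230001000000000000200010000000000000000000000000000000) := T_31 (nat_lit 192) (nat_lit 213) (nat_lit 3) (nat_lit 5) (nat_lit 11) L84289 (by decide +kernel)
theorem L84291 : W_31 (nat_lit 8) (nat_lit 0x2000100000000e000780004001000080000000000000000000000000000000) (nat_lit 0x0) (nat_lit 0x5c002e00330001000000000000200010000000000000000000000000000000) := T_31 (nat_lit 212) (nat_lit 229) (nat_lit 5) (nat_lit 8) (nat_lit 10) L84290 (by decide +kernel)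
theorem L84292 : W_31 (nat_lit 9) (nat_lit 0x2000100000000e000780000001000080000000000000000000000000000000) (nat_lit 0x0) (nat_lit 0x5c002e00330001000000006000200010000000000000000000000000000000) := T_31 (nat_lit 158) (nat_lit 157) (nat_lit 0) (nat_lit 8) (nat_lit 10) L84291 (by decide +kernel)
theorem L84293 : W_31 (nat_lit 10) (nat_lit 0x100000000e000780000001000080000000000000000000000000000000) (nat_lit 0x0) (nat_lit 0x7c002e003b0001000000006000200010000000000000000000000000000000) := T_31 (nat_lit 245) (nat_lit 211) (nat_lit 6) (nat_lit 7) (nat_lit 14) L84292 (by decide +kernel)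
theorem L84294 : W_31 (nat_lit 11) (nat_lit 0x100000000e000700000001000080000000000000000000000000000000) (nat_lit 0x0) (nat_lit 0x7c002e003b00010000c0006000200010000000000000000000000000000000) := T_31 (nat_lit 175) (nat_lit 174) (nat_lit 3) (nat_lit 4) (nat_lit 10) L84293 (by decide +kernel)
theorem L84295 : W_31 (nat_lit 2) (nat_lit 0x100010000e000700000001000080000000000000000000000000000000) (nat_lit 0x0) (nat_lit 0x60002000000000000000000000000000000000000000000000000000000000) := D_31 (nat_lit 229) (nat_lit 245) (nat_lit 246) (nat_lit 5) (nat_lit 8) (nat_lit 10) (nat_lit 4) (nat_lit 8) (nat_lit 14) (by decide +kernel)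
theorem L84296 : W_31 (nat_lit 2) (nat_lit 0x380030000e000740000001000080000000000000000000000000000000) (nat_lit 0x0) (nat_lit 0x80004000400000000000000000000000000000000000000000000000000000) := D_31 (nat_lit 230) (nat_lit 247) (nat_lit 214) (nat_lit 7) (nat_lit 8) (nat_lit 10) (nat_lit 2) (nat_lit 6) (nat_lit 13) (by decide +kernel)
theorem L84297 : W_31 (nat_lit 3) (nat_lit 0x300030000e000740000001000080000000000000000000000000000000) (nat_lit 0x0) (nat_lit 0x80004c00400000000000000000000000000000000000000000000000000000) := T_31 (nat_lit 227) (nat_lit 226) (nat_lit 2) (nat_lit 5) (nat_lit 13) L84296 (by decide +kernel)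
theorem L84298 : W_31 (nat_lit 4) (nat_lit 0x100030000e000740000001000080000000000000000000000000000000) (nat_lit 0x0) (nat_lit 0xa0006c00400000000000000000000000000000000000000000000000000000) := T_31 (nat_lit 229) (nat_lit 245) (nat_lit 5) (nat_lit 8) (nat_lit 10) L84297 (by decide +kernel)
theorem L84299 : W_31 (nat_lit 5) (nat_lit 0x100010000e000740000001000080000000000000000000000000000000) (nat_lit 0x0) (nat_lit 0xa0006c00600001000000000000000000000000000000000000000000000000) := T_31 (nat_lit 213) (nat_lit 192) (nat_lit 3) (nat_lit 5) (nat_lit 11) L84298 (by decide +kernel)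
theorem L84300 : W_31 (nat_lit 6) (nat_lit 0x100010000e000700000001000080000000000000000000000000000000) (nat_lit 0x0) (nat_lit 0xa0006c006000010000c0000000000000000000000000000000000000000000) := T_31 (nat_lit 174) (nat_lit 175) (nat_lit 3) (nat_lit 4) (nat_lit 10) L84299 (by decide +kernel)
theorem L84301 : W_31 (nat_lit 2) (nat_lit 0x100012000f000780000001000080000000000000000000000000000000) (nat_lit 0x0) (nat_lit 0x400000000000000008000400000000000000000000000000000000000) := D_31 (nat_lit 159) (nat_lit 142) (nat_lit 226) (nat_lit 5) (nat_lit 6) (nat_lit 8) (nat_lit 6) (nat_lit 5) (nat_lit 13) (by decide +kernel)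
theorem L84302 : W_31 (nat_lit 3) (nat_lit 0x100010000f000780000001000080000000000000000000000000000000) (nat_lit 0x0) (nat_lit 0x400030000000000008000400000000000000000000000000000000000) := T_31 (nat_lit 209) (nat_lit 208) (nat_lit 1) (nat_lit 8) (nat_lit 11) L84301 (by decide +kernel)
theorem L84303 : W_31 (nat_lit 4) (nat_lit 0x100010000e000780000001000080000000000000000000000000000000) (nat_lit 0x0) (nat_lit 0x400230001000000008000400000000000000000000000000000000000) := T_31 (nat_lit 192) (nat_lit 213) (nat_lit 3) (nat_lit 5) (nat_lit 11) L84302 (by decide +kernel)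
theorem L84304 : W_31 (nat_lit 5) (nat_lit 0x100010000e000700000001000080000000000000000000000000000000) (nat_lit 0x0) (nat_lit 0x4002300010000c0008000400000000000000000000000000000000000) := T_31 (nat_lit 175) (nat_lit 174) (nat_lit 3) (nat_lit 4) (nat_lit 10) L84303 (by decide +kernel)
theorem L84305 : W_31 (nat_lit 7) (nat_lit 0x100000000e000700000001000080000000000000000000000000000000) (nat_lit 0x0) (nat_lit 0xe0006c007300010000c0008000400000000000000000000000000000000000) := Q_31 (nat_lit 212) (C_31 L84295 (C_31 L84300 (C_31 L84304 N_31))) (by decide +kernel)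
theorem L84306 : W_31 (nat_lit 2) (nat_lit 0x7a0058000e000740000001000080000000000000000000000000000000) (nat_lit 0x0) (nat_lit 0x18000800000000000000000000000000000000000000000000000000000) := D_31 (nat_lit 231) (nat_lit 215) (nat_lit 232) (nat_lit 2) (nat_lit 7) (nat_lit 13) (nat_lit 0) (nat_lit 11) (nat_lit 13) (by decide +kernel)
theorem L84307 : W_31 (nat_lit 3) (nat_lit 0x3a0058000e000740000001000080000000000000000000000000000000) (nat_lit 0x0) (nat_lit 0x8001c000800000000000000000000000000000000000000000000000000000) := T_31 (nat_lit 230) (nat_lit 247) (nat_lit 7) (nat_lit 8) (nat_lit 10) L84306 (by decide +kernel)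
theorem L84308 : W_31 (nat_lit 4) (nat_lit 0x380058000e000740000001000080000000000000000000000000000000) (nat_lit 0x0) (nat_lit 0x8001c600800000000000000000000000000000000000000000000000000000) := T_31 (nat_lit 225) (nat_lit 226) (nat_lit 2) (nat_lit 4) (nat_lit 13) L84307 (by decide +kernel)
theorem L84309 : W_31 (nat_lit 5) (nat_lit 0x300058000e000740000001000080000000000000000000000000000000) (nat_lit 0x0) (nat_lit 0x9001ce00800000000000000000000000000000000000000000000000000000) := T_31 (nat_lit 227) (nat_lit 244) (nat_lit 5) (nat_lit 7) (nat_lit 10) L84308 (by decide +kernel)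
theorem L84310 : W_31 (nat_lit 6) (nat_lit 0x300018000e000740000001000080000000000000000000000000000000) (nat_lit 0x0) (nat_lit 0x9001ce00e00000000000000000000000000000000000000000000000000000) := T_31 (nat_lit 214) (nat_lit 213) (nat_lit 0) (nat_lit 10) (nat_lit 12) L84309 (by decide +kernel)
theorem L84311 : W_31 (nat_lit 7) (nat_lit 0x300010000e000740000001000080000000000000000000000000000000) (nat_lit 0x0) (nat_lit 0x9001ce00e80000000000008000000000000000000000000000000000000000) := T_31 (nat_lit 211) (nat_lit 159) (nat_lit 4) (nat_lit 7) (nat_lit 13) L84310 (by decide +kernel)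
theorem L84312 : W_31 (nat_lit 8) (nat_lit 0x100010000e000740000001000080000000000000000000000000000000) (nat_lit 0x0) (nat_lit 0xd001ee00e80000000000008000000000000000000000000000000000000000) := T_31 (nat_lit 229) (nat_lit 246) (nat_lit 4) (nat_lit 8) (nat_lit 14) L84311 (by decide +kernel)
theorem L84313 : W_31 (nat_lit 9) (nat_lit 0x100010000e000700000001000080000000000000000000000000000000) (nat_lit 0x0) (nat_lit 0xd001ee00e800000000c0008000000000000000000000000000000000000000) := T_31 (nat_lit 174) (nat_lit 175) (nat_lit 3) (nat_lit 4) (nat_lit 10) L84312 (by decide +kernel)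
theorem L84314 : W_31 (nat_lit 2) (nat_lit 0x4000100030000e000740000001000080000000000000000000000000000000) (nat_lit 0x0) (nat_lit 0xc80000000000000000000000000000000000000000000000000000) := D_31 (nat_lit 214) (nat_lit 215) (nat_lit 211) (nat_lit 0) (nat_lit 11) (nat_lit 12) (nat_lit 0) (nat_lit 10) (nat_lit 12) (by decide +kernel)
theorem L84315 : W_31 (nat_lit 3) (nat_lit 0x4000100010000e000740000001000080000000000000000000000000000000) (nat_lit 0x0) (nat_lit 0xe80001000000000000000000000000000000000000000000000000) := T_31 (nat_lit 213) (nat_lit 192) (nat_lit 3) (nat_lit 5) (nat_lit 11) L84314 (by decide +kernel)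
theorem L84316 : W_31 (nat_lit 4) (nat_lit 0x4000100010000e000700000001000080000000000000000000000000000000) (nat_lit 0x0) (nat_lit 0xe800010000c0000000000000000000000000000000000000000000) := T_31 (nat_lit 174) (nat_lit 175) (nat_lit 3) (nat_lit 4) (nat_lit 10) L84315 (by decide +kernel)
theorem L84317 : W_31 (nat_lit 5) (nat_lit 0x100010000e000700000001000080000000000000000000000000000000) (nat_lit 0x0) (nat_lit 0x40002000e800010000c0000000000000000000000000000000000000000000) := T_31 (nat_lit 246) (nat_lit 229) (nat_lit 4) (nat_lit 8) (nat_lit 14) L84316 (by decide +kernel)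
theorem L84318 : W_31 (nat_lit 2) (nat_lit 0x100012000f000700000001000080000000000000000000000000000000) (nat_lit 0x0) (nat_lit 0x80000000000008000400000000000000000000000000000000000) := D_31 (nat_lit 159) (nat_lit 211) (nat_lit 142) (nat_lit 4) (nat_lit 7) (nat_lit 13) (nat_lit 5) (nat_lit 6) (nat_lit 8) (by decide +kernel)
theorem L84319 : W_31 (nat_lit 3) (nat_lit 0x100010000f000700000001000080000000000000000000000000000000) (nat_lit 0x0) (nat_lit 0xb0000000000008000400000000000000000000000000000000000) := T_31 (nat_lit 209) (nat_lit 208) (nat_lit 1) (nat_lit 8) (nat_lit 11) L84318 (by decide +kernel)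
theorem L84320 : W_31 (nat_lit 4) (nat_lit 0x100010000e000700000001000080000000000000000000000000000000) (nat_lit 0x0) (nat_lit 0x2b0001000000008000400000000000000000000000000000000000) := T_31 (nat_lit 192) (nat_lit 213) (nat_lit 3) (nat_lit 5) (nat_lit 11) L84319 (by decide +kernel)
theorem L84321 : W_31 (nat_lit 2) (nat_lit 0x17c001a000e000740000001000080000000000000000000000000000000) (nat_lit 0x0) (nat_lit 0xc000000000001000000000000000000000000000000000000000000000000) := D_31 (nat_lit 243) (nat_lit 242) (nat_lit 192) (nat_lit 1) (nat_lit 8) (nat_lit 13) (nat_lit 6) (nat_lit 5) (nat_lit 14) (by decide +kernel)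
theorem L84322 : W_31 (nat_lit 3) (nat_lit 0x17c0018000e000740000001000080000000000000000000000000000000) (nat_lit 0x0) (nat_lit 0xc000000030001000000000000000000000000000000000000000000000000) := T_31 (nat_lit 209) (nat_lit 208) (nat_lit 0) (nat_lit 8) (nat_lit 13) L84321 (by decide +kernel)
theorem L84323 : W_31 (nat_lit 4) (nat_lit 0x17c0018000e000700000001000080000000000000000000000000000000) (nat_lit 0x0) (nat_lit 0xc0000000300010000c0000000000000000000000000000000000000000000) := T_31 (nat_lit 174) (nat_lit 175) (nat_lit 3) (nat_lit 4) (nat_lit 10) L84322 (by decide +kernel)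
theorem L84324 : W_31 (nat_lit 5) (nat_lit 0x1780018000e000700000001000080000000000000000000000000000000) (nat_lit 0x0) (nat_lit 0xc0006000300010000c0000000000000000000000000000000000000000000) := T_31 (nat_lit 226) (nat_lit 225) (nat_lit 2) (nat_lit 4) (nat_lit 13) L84323 (by decide +kernel)
theorem L84325 : W_31 (nat_lit 6) (nat_lit 0x1700018000e000700000001000080000000000000000000000000000000) (nat_lit 0x0) (nat_lit 0x1c000e000300010000c0000000000000000000000000000000000000000000) := T_31 (nat_lit 227) (nat_lit 244) (nat_lit 5) (nat_lit 7) (nat_lit 10) L84324 (by decide +kernel)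
theorem L84326 : W_31 (nat_lit 7) (nat_lit 0x700018000e000700000001000080000000000000000000000000000000) (nat_lit 0x0) (nat_lit 0x1c018e000300010000c0000000000000000000000000000000000000000000) := T_31 (nat_lit 232) (nat_lit 231) (nat_lit 0) (nat_lit 11) (nat_lit 13) L84325 (by decide +kernel)
theorem L84327 : W_31 (nat_lit 8) (nat_lit 0x300018000e000700000001000080000000000000000000000000000000) (nat_lit 0x0) (nat_lit 0x9c01ce000300010000c0000000000000000000000000000000000000000000) := T_31 (nat_lit 230) (nat_lit 247) (nat_lit 7) (nat_lit 8) (nat_lit 10) L84326 (by decide +kernel)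
theorem L84328 : W_31 (nat_lit 9) (nat_lit 0x300010000e000700000001000080000000000000000000000000000000) (nat_lit 0x0) (nat_lit 0x9c01ce000b00010000c0008000000000000000000000000000000000000000) := T_31 (nat_lit 211) (nat_lit 159) (nat_lit 4) (nat_lit 7) (nat_lit 13) L84327 (by decide +kernel)
theorem L84329 : W_31 (nat_lit 10) (nat_lit 0x100010000e000700000001000080000000000000000000000000000000) (nat_lit 0x0) (nat_lit 0xdc01ee000b00010000c0008000000000000000000000000000000000000000) := T_31 (nat_lit 229) (nat_lit 246) (nat_lit 4) (nat_lit 8) (nat_lit 14) L84328 (by decide +kernel)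
theorem L84330 : W_31 (nat_lit 11) (nat_lit 0x100000000e000700000001000080000000000000000000000000000000) (nat_lit 0x0) (nat_lit 0xdc01ee00fb00010000c0008000400000000000000000000000000000000000) := Q_31 (nat_lit 212) (C_31 L84313 (C_31 L84317 (C_31 L84320 (C_31 L84304 (C_31 L84329 N_31))))) (by decide +kernel)
theorem L84331 : W_31 (nat_lit 12) (nat_lit 0xe000700000001000080000000000000000000000000000000) (nat_lit 0x0) (nat_lit 0xfc01fe00fb00010000c000e000600010000000000000000000000000000000) := Q_31 (nat_lit 228) (C_31 L84209 (C_31 L84294 (C_31 L84305 (C_31 L84330 N_31)))) (by decide +kernel)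
theorem L84332 : W_31 (nat_lit 13) (nat_lit 0xe000300000001000080000000000000000000000000000000) (nat_lit 0x0) (nat_lit 0xfc01fe00fb0001001cc000e000600010000000000000000000000000000000) := Q_31 (nat_lit 178) (C_31 L84228 (C_31 L16058 (C_31 L84331 N_31))) (by decide +kernel)
theorem L84333 : W_31 (nat_lit 10) (nat_lit 0xe000300000001000080000000000000000000000000000000) (nat_lit 0x0) (nat_lit 0xe801f4003f0001000cc000e000600010000000000000000000000000000000) := Q_31 (nat_lit 192) (C_31 L82238 (C_31 L83472 (C_31 L83634 (C_31 L82205 (C_31 L82194 N_31))))) (by decide +kernel)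
theorem L84334 : W_31 (nat_lit 15) (nat_lit 0xc000300000001000080000000000000000000000000000000) (nat_lit 0x0) (nat_lit 0x10001fc01ff00ff8003001cc000f800f00130000000000000000000000000000000) := Q_31 (nat_lit 193) (C_31 L83897 (C_31 L84246 (C_31 L83473 (C_31 L82333 (C_31 L84283 (C_31 L83794 (C_31 L84284 (C_31 L84332 (C_31 L84333 N_31))))))))) (by decide +kernel)
theorem L84335 : W_31 (nat_lit 16) (nat_lit 0x4000300000001000080000000000000000000000000000000) (nat_lit 0x0) (nat_lit 0x1a001fc01ff00ff807b001cc000f800f00130000000000000000000000000000000) := Q_31 (nat_lit 195) (C_31 L5377 (C_31 L82190 (C_31 L84187 (C_31 L84185 (C_31 L84334 N_31))))) (by decide +kernel)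
theorem L84336 : W_31 (nat_lit 2) (nat_lit 0x700012000f000700000001400080000000000000000000000000000000) (nat_lit 0x0) (nat_lit 0x8000c0000000000000000000000000000000000000000000000000000) := D_31 (nat_lit 210) (nat_lit 211) (nat_lit 227) (nat_lit 3) (nat_lit 5) (nat_lit 12) (nat_lit 0) (nat_lit 9) (nat_lit 13) (by decide +kernel)
theorem L84337 : W_31 (nat_lit 3) (nat_lit 0x300012000f000700000001400080000000000000000000000000000000) (nat_lit 0x0) (nat_lit 0x800048000c0000000000000000000000000000000000000000000000000000) := T_31 (nat_lit 230) (nat_lit 247) (nat_lit 7) (nat_lit 8) (nat_lit 10) L84336 (by decide +kernel)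
theorem L84338 : W_31 (nat_lit 4) (nat_lit 0x200012000f000700000001400080000000000000000000000000000000) (nat_lit 0x0) (nat_lit 0xa00058000c0000000000000000000000000000000000000000000000000000) := T_31 (nat_lit 228) (nat_lit 245) (nat_lit 5) (nat_lit 8) (nat_lit 10) L84337 (by decide +kernel)
theorem L84339 : W_31 (nat_lit 5) (nat_lit 0x12000f000700000001400080000000000000000000000000000000) (nat_lit 0x0) (nat_lit 0xe00078000c0000000000000000000000000000000000000000000000000000) := T_31 (nat_lit 229) (nat_lit 246) (nat_lit 4) (nat_lit 8) (nat_lit 14) L84338 (by decide +kernel)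
theorem L84340 : W_31 (nat_lit 6) (nat_lit 0x12000f000700000001000080000000000000000000000000000000) (nat_lit 0x0) (nat_lit 0xe00078000c0000000000008000400000000000000000000000000000000000) := T_31 (nat_lit 142) (nat_lit 159) (nat_lit 5) (nat_lit 6) (nat_lit 8) L84339 (by decide +kernel)
theorem L84341 : W_31 (nat_lit 7) (nat_lit 0x2000f000700000001000080000000000000000000000000000000) (nat_lit 0x0) (nat_lit 0xe00078003c0000000000008000400000000000000000000000000000000000) := T_31 (nat_lit 212) (nat_lit 213) (nat_lit 3) (nat_lit 5) (nat_lit 11) L84340 (by decide +kernel)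
theorem L84342 : W_31 (nat_lit 8) (nat_lit 0xf000700000001000080000000000000000000000000000000) (nat_lit 0x0) (nat_lit 0xe00078003f0000000000008000400000000000000000000000000000000000) := T_31 (nat_lit 209) (nat_lit 208) (nat_lit 1) (nat_lit 8) (nat_lit 11) L84341 (by decide +kernel)
theorem L84343 : W_31 (nat_lit 9) (nat_lit 0xf000300000001000080000000000000000000000000000000) (nat_lit 0x0) (nat_lit 0xe00078003f0000000c00008000400000000000000000000000000000000000) := T_31 (nat_lit 178) (nat_lit 179) (nat_lit 2) (nat_lit 5) (nat_lit 11) L84342 (by decide +kernel)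
theorem L84344 : W_31 (nat_lit 10) (nat_lit 0xe000300000001000080000000000000000000000000000000) (nat_lit 0x0) (nat_lit 0xe00078003f8001c00c00008000400000000000000000000000000000000000) := Q_31 (nat_lit 192) (C_31 L11587 (C_31 L82737 (C_31 L84343 N_31))) (by decide +kernel)
theorem L84345 : W_31 (nat_lit 12) (nat_lit 0xc000300000001000080000000000000000000000000000000) (nat_lit 0x0) (nat_lit 0xe000f8007f8033c01c000cc004400000000000000000000000000000000000) := Q_31 (nat_lit 193) (C_31 L16341 (C_31 L84258 (C_31 L15642 (C_31 L84344 (C_31 L16356 N_31))))) (by decide +kernel)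
theorem L84346 : W_31 (nat_lit 13) (nat_lit 0xc000300000001000080000000000000000000000000000000) (nat_lit 0x0) (nat_lit 0xf00078003f8003c01ce000f000f8013c000000000000000000000000000000) := Q_31 (nat_lit 193) (C_31 L82900 (C_31 L84344 (C_31 L84232 (C_31 L84229 (C_31 L84246 N_31))))) (by decide +kernel)
theorem L84347 : W_31 (nat_lit 14) (nat_lit 0x4000300000001000080000000000000000000000000000000) (nat_lit 0x0) (nat_lit 0xf000f8007f803bc01ce00cf004f8013c000000000000000000000000000000) := Q_31 (nat_lit 195) (C_31 L5377 (C_31 L82190 (C_31 L84187 (C_31 L84345 (C_31 L84346 N_31))))) (by decide +kernel)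
theorem L84348 : W_31 (nat_lit 17) (nat_lit 0x4000200000001000080000000000000000000000000000000) (nat_lit 0x0) (nat_lit 0x7001fc03ff03ffc0fff0fbf83df81cfe04fc013c001e00000000000000000000000000) := Q_31 (nat_lit 176) (C_31 L82272 (C_31 L82365 (C_31 L82902 (C_31 L83350 (C_31 L83418 (C_31 L83501 (C_31 L83586 (C_31 L83674 (C_31 L83761 (C_31 L83820 (C_31 L83826 (C_31 L83890 (C_31 L83899 (C_31 L84188 (C_31 L84199 (C_31 L84248 (C_31 L84260 (C_31 L84335 (C_31 L84347 N_31))))))))))))))))))) (by decide +kernel)
theorem L84484 : W_31 (nat_lit 2) (nat_lit 0x6800600030000e001000080000000000000000000000000000000) (nat_lit 0x0) (nat_lit 0x400010000800000000000000000000000000000000000) := D_31 (nat_lit 160) (nat_lit 143) (nat_lit 178) (nat_lit 2) (nat_lit 4) (nat_lit 9) (nat_lit 3) (nat_lit 4) (nat_lit 9) (by decide +kernel)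
theorem L84485 : W_31 (nat_lit 3) (nat_lit 0x6800600030000c001000080000000000000000000000000000000) (nat_lit 0x0) (nat_lit 0x400013000800000000000000000000000000000000000) := T_31 (nat_lit 157) (nat_lit 156) (nat_lit 3) (nat_lit 3) (nat_lit 9) L84484 (by decide +kernel)
theorem L84486 : W_31 (nat_lit 4) (nat_lit 0x68006000300008001000080000000000000000000000000000000) (nat_lit 0x0) (nat_lit 0x400017000a00000000000000000000000000000000000) := T_31 (nat_lit 158) (nat_lit 141) (nat_lit 4) (nat_lit 6) (nat_lit 12) L84485 (by decide +kernel)
theorem L84487 : W_31 (nat_lit 5) (nat_lit 0x68006000200008001000080000000000000000000000000000000) (nat_lit 0x0) (nat_lit 0x400000000000500017000a00000000000000000000000000000000000) := T_31 (nat_lit 176) (nat_lit 226) (nat_lit 5) (nat_lit 6) (nat_lit 9) L84486 (by decide +kernel)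
theorem L84488 : W_31 (nat_lit 6) (nat_lit 0x60006000200008001000080000000000000000000000000000000) (nat_lit 0x0) (nat_lit 0x400018000000500017000a00000000000000000000000000000000000) := T_31 (nat_lit 207) (nat_lit 208) (nat_lit 2) (nat_lit 3) (nat_lit 12) L84487 (by decide +kernel)
theorem L84489 : W_31 (nat_lit 2) (nat_lit 0x60006000300008001000080000000000000000000000000000000) (nat_lit 0x0) (nat_lit 0x80000000000000000400020000000000000000000000000000000) := D_31 (nat_lit 142) (nat_lit 125) (nat_lit 211) (nat_lit 7) (nat_lit 6) (nat_lit 7) (nat_lit 7) (nat_lit 6) (nat_lit 8) (by decide +kernel)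
theorem L84490 : W_31 (nat_lit 3) (nat_lit 0x60006000200008001000080000000000000000000000000000000) (nat_lit 0x0) (nat_lit 0x400080000000100000000400020000000000000000000000000000000) := T_31 (nat_lit 176) (nat_lit 226) (nat_lit 5) (nat_lit 6) (nat_lit 9) L84489 (by decide +kernel)
theorem L84491 : W_31 (nat_lit 2) (nat_lit 0x68006000200018001400080000000000000000000000000000000) (nat_lit 0x0) (nat_lit 0x100000000000020001000000000000000000000000000) := D_31 (nat_lit 125) (nat_lit 108) (nat_lit 176) (nat_lit 7) (nat_lit 6) (nat_lit 6) (nat_lit 7) (nat_lit 6) (nat_lit 7) (by decide +kernel)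
theorem L84492 : W_31 (nat_lit 3) (nat_lit 0x68006000200018001000080000000000000000000000000000000) (nat_lit 0x0) (nat_lit 0x80000000100000000400020001000000000000000000000000000) := T_31 (nat_lit 142) (nat_lit 211) (nat_lit 4) (nat_lit 7) (nat_lit 12) L84491 (by decide +kernel)
theorem L84493 : W_31 (nat_lit 4) (nat_lit 0x68006000200008001000080000000000000000000000000000000) (nat_lit 0x0) (nat_lit 0x80000000100010000c00020001000000000000000000000000000) := T_31 (nat_lit 160) (nat_lit 143) (nat_lit 6) (nat_lit 7) (nat_lit 11) L84492 (by decide +kernel)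
theorem L84494 : W_31 (nat_lit 5) (nat_lit 0x60006000200008001000080000000000000000000000000000000) (nat_lit 0x0) (nat_lit 0x98000000100010000c00020001000000000000000000000000000) := T_31 (nat_lit 207) (nat_lit 208) (nat_lit 2) (nat_lit 3) (nat_lit 12) L84493 (by decide +kernel)
theorem L84498 : W_31 (nat_lit 2) (nat_lit 0x4000e000300000001000080000000000000000000000000000000) (nat_lit 0x0) (nat_lit 0x20030000000000000000000000000000000000000000000000000) := D_31 (nat_lit 196) (nat_lit 209) (nat_lit 197) (nat_lit 1) (nat_lit 9) (nat_lit 11) (nat_lit 0) (nat_lit 10) (nat_lit 11) (by decide +kernel)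
theorem L84506 : W_31 (nat_lit 6) (nat_lit 0x40006000300000001000080000000000000000000000000000000) (nat_lit 0x0) (nat_lit 0x4000b80380000c000c000600030000000000000000000000000000000) := Q_31 (nat_lit 195) (C_31 L84498 (C_31 L84476 (C_31 L84497 N_31))) (by decide +kernel)
theorem L84568 : W_31 (nat_lit 2) (nat_lit 0x1000000044001e001200000001800080000000000000000000000000000000) (nat_lit 0x0) (nat_lit 0x800020002000000000000000000000000000000000000000000000) := D_31 (nat_lit 197) (nat_lit 215) (nat_lit 181) (nat_lit 3) (nat_lit 7) (nat_lit 11) (nat_lit 2) (nat_lit 7) (nat_lit 11) (by decide +kernel)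
theorem L84569 : W_31 (nat_lit 3) (nat_lit 0x1000000044001e000200000001800080000000000000000000000000000000) (nat_lit 0x0) (nat_lit 0x800020003800000000000000000000000000000000000000000000) := T_31 (nat_lit 180) (nat_lit 179) (nat_lit 2) (nat_lit 6) (nat_lit 11) L84568 (by decide +kernel)
theorem L84570 : W_31 (nat_lit 4) (nat_lit 0x1000000004001e000200000001800080000000000000000000000000000000) (nat_lit 0x0) (nat_lit 0xe00020003800000000000000000000000000000000000000000000) := T_31 (nat_lit 214) (nat_lit 213) (nat_lit 3) (nat_lit 6) (nat_lit 11) L84569 (by decide +kernel)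
theorem L84571 : W_31 (nat_lit 5) (nat_lit 0x4001e000200000001800080000000000000000000000000000000) (nat_lit 0x0) (nat_lit 0x10000800e00020003800000000000000000000000000000000000000000000) := T_31 (nat_lit 244) (nat_lit 227) (nat_lit 6) (nat_lit 6) (nat_lit 14) L84570 (by decide +kernel)
theorem L84572 : W_31 (nat_lit 6) (nat_lit 0x4000e000200000001800080000000000000000000000000000000) (nat_lit 0x0) (nat_lit 0x10000800e20030003800000000000000000000000000000000000000000000) := T_31 (nat_lit 196) (nat_lit 209) (nat_lit 1) (nat_lit 9) (nat_lit 11) L84571 (by decide +kernel)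
theorem L84573 : W_31 (nat_lit 7) (nat_lit 0x4000e000200000001000080000000000000000000000000000000) (nat_lit 0x0) (nat_lit 0x10000800e20030003800010000800000000000000000000000000000000000) := T_31 (nat_lit 143) (nat_lit 160) (nat_lit 6) (nat_lit 7) (nat_lit 11) L84572 (by decide +kernel)
theorem L84581 : W_31 (nat_lit 2) (nat_lit 0x4000f800200000001000080000000000000000000000000000000) (nat_lit 0x0) (nat_lit 0x38000000000000000000000000000000000000000000000000000) := D_31 (nat_lit 208) (nat_lit 209) (nat_lit 207) (nat_lit 1) (nat_lit 8) (nat_lit 11) (nat_lit 1) (nat_lit 7) (nat_lit 11) (by decide +kernel)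
theorem L84582 : W_31 (nat_lit 2) (nat_lit 0x5000000014400fc00220000001800080000000000000000000000000000000) (nat_lit 0x0) (nat_lit 0x22000200000000000000000000000000000000000000000000000) := D_31 (nat_lit 189) (nat_lit 209) (nat_lit 205) (nat_lit 3) (nat_lit 2) (nat_lit 11) (nat_lit 1) (nat_lit 5) (nat_lit 11) (by decide +kernel)
theorem L84583 : W_31 (nat_lit 3) (nat_lit 0x5000000014000fc00220000001800080000000000000000000000000000000) (nat_lit 0x0) (nat_lit 0x2e000200000000000000000000000000000000000000000000000) := T_31 (nat_lit 206) (nat_lit 207) (nat_lit 1) (nat_lit 6) (nat_lit 11) L84582 (by decide +kernel)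
theorem L84584 : W_31 (nat_lit 4) (nat_lit 0x5000000014000f800220000001800080000000000000000000000000000000) (nat_lit 0x0) (nat_lit 0x2e000600010000000000000000000000000000000000000000000) := T_31 (nat_lit 190) (nat_lit 172) (nat_lit 0) (nat_lit 6) (nat_lit 11) L84583 (by decide +kernel)
theorem L84585 : W_31 (nat_lit 5) (nat_lit 0x1000000014000f800220000001800080000000000000000000000000000000) (nat_lit 0x0) (nat_lit 0x4000200002e000600010000000000000000000000000000000000000000000) := T_31 (nat_lit 246) (nat_lit 229) (nat_lit 4) (nat_lit 8) (nat_lit 14) L84584 (by decide +kernel)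
theorem L84586 : W_31 (nat_lit 6) (nat_lit 0x1000000014000f800200000001800080000000000000000000000000000000) (nat_lit 0x0) (nat_lit 0x4000200002e000600070000000000000000000000000000000000000000000) := T_31 (nat_lit 173) (nat_lit 174) (nat_lit 0) (nat_lit 7) (nat_lit 11) L84585 (by decide +kernel)
theorem L84587 : W_31 (nat_lit 7) (nat_lit 0x1000000004000f800200000001800080000000000000000000000000000000) (nat_lit 0x0) (nat_lit 0x4000200032e000600070000000000000000000000000000000000000000000) := T_31 (nat_lit 212) (nat_lit 213) (nat_lit 3) (nat_lit 5) (nat_lit 11) L84586 (by decide +kernel)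
theorem L84588 : W_31 (nat_lit 8) (nat_lit 0x4000f800200000001800080000000000000000000000000000000) (nat_lit 0x0) (nat_lit 0x5000280032e000600070000000000000000000000000000000000000000000) := T_31 (nat_lit 244) (nat_lit 227) (nat_lit 6) (nat_lit 6) (nat_lit 14) L84587 (by decide +kernel)
theorem L84589 : W_31 (nat_lit 9) (nat_lit 0x4000f800200000001000080000000000000000000000000000000) (nat_lit 0x0) (nat_lit 0x5000280032e000600070010000800000000000000000000000000000000000) := T_31 (nat_lit 143) (nat_lit 160) (nat_lit 6) (nat_lit 7) (nat_lit 11) L84588 (by decide +kernel)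
theorem L84590 : W_31 (nat_lit 2) (nat_lit 0x14800fc00200000001800080000000000000000000000000000000) (nat_lit 0x0) (nat_lit 0x70000000000000000000000000000000000000000000) := D_31 (nat_lit 173) (nat_lit 172) (nat_lit 174) (nat_lit 0) (nat_lit 6) (nat_lit 11) (nat_lit 0) (nat_lit 7) (nat_lit 11) (by decide +kernel)
theorem L84591 : W_31 (nat_lit 3) (nat_lit 0x14800f800200000001800080000000000000000000000000000000) (nat_lit 0x0) (nat_lit 0x4000400070000000000000000000000000000000000000000000) := T_31 (nat_lit 190) (nat_lit 206) (nat_lit 1) (nat_lit 6) (nat_lit 11) L84590 (by decide +kernel)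
theorem L84592 : W_31 (nat_lit 4) (nat_lit 0x14800f800200000001000080000000000000000000000000000000) (nat_lit 0x0) (nat_lit 0x4000400070010000800000000000000000000000000000000000) := T_31 (nat_lit 143) (nat_lit 160) (nat_lit 7) (nat_lit 7) (nat_lit 8) L84591 (by decide +kernel)
theorem L84593 : W_31 (nat_lit 5) (nat_lit 0x14000f800200000001000080000000000000000000000000000000) (nat_lit 0x0) (nat_lit 0x1c000400070010000800000000000000000000000000000000000) := T_31 (nat_lit 207) (nat_lit 208) (nat_lit 1) (nat_lit 7) (nat_lit 11) L84592 (by decide +kernel)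
theorem L84594 : W_31 (nat_lit 6) (nat_lit 0x4000f800200000001000080000000000000000000000000000000) (nat_lit 0x0) (nat_lit 0x31c000400070010000800000000000000000000000000000000000) := T_31 (nat_lit 212) (nat_lit 213) (nat_lit 3) (nat_lit 5) (nat_lit 11) L84593 (by decide +kernel)
theorem L84595 : W_31 (nat_lit 2) (nat_lit 0x5000000016000fc00200010001000080000000000000000000000000000000) (nat_lit 0x0) (nat_lit 0x70000000000000000000000000000000000000000000) := D_31 (nat_lit 173) (nat_lit 174) (nat_lit 172) (nat_lit 0) (nat_lit 7) (nat_lit 11) (nat_lit 0) (nat_lit 6) (nat_lit 11) (by decide +kernel)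
theorem L84596 : W_31 (nat_lit 3) (nat_lit 0x5000000016000f800200010001000080000000000000000000000000000000) (nat_lit 0x0) (nat_lit 0x600070000000000000000000000000000000000000000000) := T_31 (nat_lit 190) (nat_lit 189) (nat_lit 3) (nat_lit 2) (nat_lit 11) L84595 (by decide +kernel)
theorem L84597 : W_31 (nat_lit 4) (nat_lit 0x4000000016000f800200010001000080000000000000000000000000000000) (nat_lit 0x0) (nat_lit 0x10000800000000600070000000000000000000000000000000000000000000) := T_31 (nat_lit 244) (nat_lit 227) (nat_lit 6) (nat_lit 6) (nat_lit 14) L84596 (by decide +kernel)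
theorem L84598 : W_31 (nat_lit 5) (nat_lit 0x4000000014000f800200010001000080000000000000000000000000000000) (nat_lit 0x0) (nat_lit 0x10000800030000600070000000000000000000000000000000000000000000) := T_31 (nat_lit 209) (nat_lit 208) (nat_lit 1) (nat_lit 8) (nat_lit 11) L84597 (by decide +kernel)
theorem L84599 : W_31 (nat_lit 6) (nat_lit 0x14000f800200010001000080000000000000000000000000000000) (nat_lit 0x0) (nat_lit 0x50002800030000600070000000000000000000000000000000000000000000) := T_31 (nat_lit 246) (nat_lit 229) (nat_lit 4) (nat_lit 8) (nat_lit 14) L84598 (by decide +kernel)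
theorem L84600 : W_31 (nat_lit 7) (nat_lit 0x14000f800200000001000080000000000000000000000000000000) (nat_lit 0x0) (nat_lit 0x50002800030000600070010000800000000000000000000000000000000000) := T_31 (nat_lit 160) (nat_lit 143) (nat_lit 7) (nat_lit 7) (nat_lit 8) L84599 (by decide +kernel)
theorem L84601 : W_31 (nat_lit 8) (nat_lit 0x4000f800200000001000080000000000000000000000000000000) (nat_lit 0x0) (nat_lit 0x50002800330000600070010000800000000000000000000000000000000000) := T_31 (nat_lit 212) (nat_lit 213) (nat_lit 3) (nat_lit 5) (nat_lit 11) L84600 (by decide +kernel)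
theorem L84602 : W_31 (nat_lit 10) (nat_lit 0x4000f000200000001000080000000000000000000000000000000) (nat_lit 0x0) (nat_lit 0x5000280033e000e00070010000800000000000000000000000000000000000) := Q_31 (nat_lit 191) (C_31 L84581 (C_31 L84589 (C_31 L84594 (C_31 L84601 N_31)))) (by decide +kernel)
theorem L84995 : W_31 (nat_lit 6) (nat_lit 0x6000e00000001800080000000000000000000000000000000) (nat_lit 0x0) (nat_lit 0x3100010000c000600130000000000000000000000000000000) := T_31 (nat_lit 176) (nat_lit 192) (nat_lit 1) (nat_lit 9) (nat_lit 10) L84994 (by decide +kernel)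
theorem L84996 : W_31 (nat_lit 7) (nat_lit 0x6000600000001800080000000000000000000000000000000) (nat_lit 0x0) (nat_lit 0x3100190000c000600130000000000000000000000000000000) := T_31 (nat_lit 179) (nat_lit 180) (nat_lit 1) (nat_lit 10) (nat_lit 10) L84995 (by decide +kernel)
theorem L84997 : W_31 (nat_lit 8) (nat_lit 0x6000600000001000080000000000000000000000000000000) (nat_lit 0x0) (nat_lit 0x3100190001c000e00130000000000000000000000000000000) := T_31 (nat_lit 143) (nat_lit 160) (nat_lit 6) (nat_lit 7) (nat_lit 11) L84996 (by decide +kernel)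
theorem L85133 : W_31 (nat_lit 2) (nat_lit 0x60006000700008001c00080000000000000000000000000000000) (nat_lit 0x0) (nat_lit 0x200110000000000000000000000000000000) := D_31 (nat_lit 141) (nat_lit 124) (nat_lit 128) (nat_lit 4) (nat_lit 6) (nat_lit 11) (nat_lit 2) (nat_lit 5) (nat_lit 8) (by decide +kernel)
theorem L85134 : W_31 (nat_lit 3) (nat_lit 0x60006000700008001800080000000000000000000000000000000) (nat_lit 0x0) (nat_lit 0x600130000000000000000000000000000000) := T_31 (nat_lit 142) (nat_lit 125) (nat_lit 7) (nat_lit 6) (nat_lit 7) L85133 (by decide +kernel)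
theorem L85135 : W_31 (nat_lit 4) (nat_lit 0x60006000700008001000080000000000000000000000000000000) (nat_lit 0x0) (nat_lit 0x10000e00130000000000000000000000000000000) := T_31 (nat_lit 143) (nat_lit 160) (nat_lit 6) (nat_lit 7) (nat_lit 11) L85134 (by decide +kernel)
theorem L85305 : W_31 (nat_lit 11) (nat_lit 0x4000e000200000001000080000000000000000000000000000000) (nat_lit 0x0) (nat_lit 0x5000280033e001e00c70010000800000000000000000000000000000000000) := Q_31 (nat_lit 192) (C_31 L85274 (C_31 L84602 (C_31 L10064 N_31))) (by decide +kernel)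
theorem L85306 : W_31 (nat_lit 2) (nat_lit 0x4000e000600000001000080000000000000000000000000000000) (nat_lit 0x0) (nat_lit 0x1001800000000000000000000000000000000000000000000) := D_31 (nat_lit 179) (nat_lit 180) (nat_lit 192) (nat_lit 1) (nat_lit 10) (nat_lit 10) (nat_lit 2) (nat_lit 5) (nat_lit 11) (by decide +kernel)
theorem L85307 : W_31 (nat_lit 2) (nat_lit 0x4000f000600010001000080000000000000000000000000000000) (nat_lit 0x0) (nat_lit 0x2000300000000000000000000000000000000000000000000000000000) := D_31 (nat_lit 212) (nat_lit 229) (nat_lit 213) (nat_lit 4) (nat_lit 8) (nat_lit 13) (nat_lit 3) (nat_lit 5) (nat_lit 11) (by decide +kernel)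
theorem L85308 : W_31 (nat_lit 3) (nat_lit 0x4000e000600010001000080000000000000000000000000000000) (nat_lit 0x0) (nat_lit 0x2000300001800000000000000000000000000000000000000000000000) := T_31 (nat_lit 192) (nat_lit 191) (nat_lit 2) (nat_lit 4) (nat_lit 11) L85307 (by decide +kernel)
theorem L85309 : W_31 (nat_lit 4) (nat_lit 0x4000e000600000001000080000000000000000000000000000000) (nat_lit 0x0) (nat_lit 0x2000300001800000010000800000000000000000000000000000000000) := T_31 (nat_lit 160) (nat_lit 143) (nat_lit 6) (nat_lit 7) (nat_lit 11) L85308 (by decide +kernel)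
theorem L85310 : W_31 (nat_lit 2) (nat_lit 0x680034005e000e00000001800080000000000000000000000000000000) (nat_lit 0x0) (nat_lit 0x20001400000000000000000000000000000000000000000000000000000000) := D_31 (nat_lit 228) (nat_lit 226) (nat_lit 245) (nat_lit 2) (nat_lit 5) (nat_lit 13) (nat_lit 5) (nat_lit 8) (nat_lit 10) (by decide +kernel)
theorem L85311 : W_31 (nat_lit 3) (nat_lit 0x680024005e000e00000001800080000000000000000000000000000000) (nat_lit 0x0) (nat_lit 0x20001400100000000000040000000000000000000000000000000000000000) := T_31 (nat_lit 212) (nat_lit 162) (nat_lit 6) (nat_lit 8) (nat_lit 13) L85310 (by decide +kernel)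
theorem L85312 : W_31 (nat_lit 4) (nat_lit 0x480024005e000e00000001800080000000000000000000000000000000) (nat_lit 0x0) (nat_lit 0x60003400100000000000040000000000000000000000000000000000000000) := T_31 (nat_lit 229) (nat_lit 246) (nat_lit 5) (nat_lit 9) (nat_lit 10) L85311 (by decide +kernel)
theorem L85313 : W_31 (nat_lit 5) (nat_lit 0x400024005e000e00000001800080000000000000000000000000000000) (nat_lit 0x0) (nat_lit 0x70003c00100000000000040000000000000000000000000000000000000000) := T_31 (nat_lit 227) (nat_lit 244) (nat_lit 6) (nat_lit 6) (nat_lit 14) L85312 (by decide +kernel)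
theorem L85314 : W_31 (nat_lit 6) (nat_lit 0x400024005e000600000001800080000000000000000000000000000000) (nat_lit 0x0) (nat_lit 0x70003c00100000001800040000000000000000000000000000000000000000) := T_31 (nat_lit 179) (nat_lit 180) (nat_lit 2) (nat_lit 6) (nat_lit 11) L85313 (by decide +kernel)
theorem L85315 : W_31 (nat_lit 7) (nat_lit 0x24005e000600000001800080000000000000000000000000000000) (nat_lit 0x0) (nat_lit 0xf0007c00100000001800040000000000000000000000000000000000000000) := T_31 (nat_lit 230) (nat_lit 247) (nat_lit 4) (nat_lit 9) (nat_lit 14) L85314 (by decide +kernel)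
theorem L85316 : W_31 (nat_lit 8) (nat_lit 0x24001e000600000001800080000000000000000000000000000000) (nat_lit 0x0) (nat_lit 0xf0007c00100060001800040000000000000000000000000000000000000000) := T_31 (nat_lit 198) (nat_lit 197) (nat_lit 0) (nat_lit 11) (nat_lit 11) L85315 (by decide +kernel)
theorem L85317 : W_31 (nat_lit 9) (nat_lit 0x4001e000600000001800080000000000000000000000000000000) (nat_lit 0x0) (nat_lit 0xf0007c00700060001800040000000000000000000000000000000000000000) := T_31 (nat_lit 213) (nat_lit 214) (nat_lit 3) (nat_lit 6) (nat_lit 11) L85316 (by decide +kernel)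
theorem L85318 : W_31 (nat_lit 10) (nat_lit 0x4001e000600000001000080000000000000000000000000000000) (nat_lit 0x0) (nat_lit 0xf0007c00700060001800050000800000000000000000000000000000000000) := T_31 (nat_lit 143) (nat_lit 160) (nat_lit 6) (nat_lit 7) (nat_lit 11) L85317 (by decide +kernel)
theorem L85319 : W_31 (nat_lit 2) (nat_lit 0x1000e00024005e000e00000001000080000000000000000000000000000000) (nat_lit 0x0) (nat_lit 0x100000000000050000000000000000000000000000000000000000) := D_31 (nat_lit 212) (nat_lit 162) (nat_lit 160) (nat_lit 6) (nat_lit 8) (nat_lit 13) (nat_lit 4) (nat_lit 8) (nat_lit 13) (by decide +kernel)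
theorem L85320 : W_31 (nat_lit 3) (nat_lit 0x1000c00024005e000e00000001000080000000000000000000000000000000) (nat_lit 0x0) (nat_lit 0x40002000100000000000050000000000000000000000000000000000000000) := T_31 (nat_lit 229) (nat_lit 246) (nat_lit 5) (nat_lit 9) (nat_lit 10) L85319 (by decide +kernel)
theorem L85321 : W_31 (nat_lit 4) (nat_lit 0x1000400024005e000e00000001000080000000000000000000000000000000) (nat_lit 0x0) (nat_lit 0x14000a000100000000000050000000000000000000000000000000000000000) := T_31 (nat_lit 231) (nat_lit 248) (nat_lit 7) (nat_lit 9) (nat_lit 10) L85320 (by decide +kernel)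
theorem L85322 : W_31 (nat_lit 5) (nat_lit 0x1000400024001e000e00000001000080000000000000000000000000000000) (nat_lit 0x0) (nat_lit 0x14000a000100060000000050000000000000000000000000000000000000000) := T_31 (nat_lit 198) (nat_lit 197) (nat_lit 0) (nat_lit 11) (nat_lit 11) L85321 (by decide +kernel)
theorem L85323 : W_31 (nat_lit 6) (nat_lit 0x1000000024001e000e00000001000080000000000000000000000000000000) (nat_lit 0x0) (nat_lit 0x1c000e000100060000000050000000000000000000000000000000000000000) := T_31 (nat_lit 230) (nat_lit 247) (nat_lit 4) (nat_lit 9) (nat_lit 14) L85322 (by decide +kernel)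
theorem L85324 : W_31 (nat_lit 7) (nat_lit 0x24001e000e00000001000080000000000000000000000000000000) (nat_lit 0x0) (nat_lit 0x1d000e800100060000000050000000000000000000000000000000000000000) := T_31 (nat_lit 244) (nat_lit 227) (nat_lit 6) (nat_lit 6) (nat_lit 14) L85323 (by decide +kernel)
theorem L85325 : W_31 (nat_lit 8) (nat_lit 0x4001e000e00000001000080000000000000000000000000000000) (nat_lit 0x0) (nat_lit 0x1d000e800700060000000050000000000000000000000000000000000000000) := T_31 (nat_lit 213) (nat_lit 214) (nat_lit 3) (nat_lit 6) (nat_lit 11) L85324 (by decide +kernel)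
theorem L85326 : W_31 (nat_lit 9) (nat_lit 0x4001e000600000001000080000000000000000000000000000000) (nat_lit 0x0) (nat_lit 0x1d000e800700060001800050000000000000000000000000000000000000000) := T_31 (nat_lit 179) (nat_lit 180) (nat_lit 2) (nat_lit 6) (nat_lit 11) L85325 (by decide +kernel)
theorem L85327 : W_31 (nat_lit 2) (nat_lit 0x44001e000600000001000080000000000000000000000000000000) (nat_lit 0x0) (nat_lit 0x800060000000000000000000000000000000000000000000000000) := D_31 (nat_lit 197) (nat_lit 198) (nat_lit 215) (nat_lit 0) (nat_lit 11) (nat_lit 11) (nat_lit 3) (nat_lit 7) (nat_lit 11) (by decide +kernel)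
theorem L85328 : W_31 (nat_lit 3) (nat_lit 0x4001e000600000001000080000000000000000000000000000000) (nat_lit 0x0) (nat_lit 0xe00060000000000000000000000000000000000000000000000000) := T_31 (nat_lit 214) (nat_lit 213) (nat_lit 3) (nat_lit 6) (nat_lit 11) L85327 (by decide +kernel)
theorem L85329 : W_31 (nat_lit 2) (nat_lit 0x4003e000600000001000080000000000000000000000000000000) (nat_lit 0x0) (nat_lit 0x3800000000000000000000000000000000000000000000) := D_31 (nat_lit 180) (nat_lit 179) (nat_lit 181) (nat_lit 2) (nat_lit 6) (nat_lit 11) (nat_lit 2) (nat_lit 7) (nat_lit 11) (by decide +kernel)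
theorem L85330 : W_31 (nat_lit 3) (nat_lit 0x4001e000600000001000080000000000000000000000000000000) (nat_lit 0x0) (nat_lit 0x60003800000000000000000000000000000000000000000000) := T_31 (nat_lit 197) (nat_lit 198) (nat_lit 0) (nat_lit 11) (nat_lit 11) L85329 (by decide +kernel)
theorem L85331 : W_31 (nat_lit 2) (nat_lit 0x1000200024001e000e00010001000080000000000000000000000000000000) (nat_lit 0x0) (nat_lit 0xc0004000000000000000000000000000000000000000000000000000000000) := D_31 (nat_lit 230) (nat_lit 247) (nat_lit 246) (nat_lit 4) (nat_lit 9) (nat_lit 14) (nat_lit 5) (nat_lit 9) (nat_lit 10) (by decide +kernel)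
theorem L85332 : W_31 (nat_lit 3) (nat_lit 0x1000000024001e000e00010001000080000000000000000000000000000000) (nat_lit 0x0) (nat_lit 0xc0006000100000000000000000000000000000000000000000000000000000) := T_31 (nat_lit 229) (nat_lit 212) (nat_lit 4) (nat_lit 8) (nat_lit 13) L85331 (by decide +kernel)
theorem L85333 : W_31 (nat_lit 4) (nat_lit 0x1000000004001e000e00010001000080000000000000000000000000000000) (nat_lit 0x0) (nat_lit 0xc0006000700000000000000000000000000000000000000000000000000000) := T_31 (nat_lit 213) (nat_lit 214) (nat_lit 3) (nat_lit 6) (nat_lit 11) L85332 (by decide +kernel)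
theorem L85334 : W_31 (nat_lit 5) (nat_lit 0x1000000004001e000e00000001000080000000000000000000000000000000) (nat_lit 0x0) (nat_lit 0xc0006000700000000000010000800000000000000000000000000000000000) := T_31 (nat_lit 160) (nat_lit 143) (nat_lit 6) (nat_lit 7) (nat_lit 11) L85333 (by decide +kernel)
theorem L85335 : W_31 (nat_lit 6) (nat_lit 0x4001e000e00000001000080000000000000000000000000000000) (nat_lit 0x0) (nat_lit 0xd0006800700000000000010000800000000000000000000000000000000000) := T_31 (nat_lit 244) (nat_lit 227) (nat_lit 6) (nat_lit 6) (nat_lit 14) L85334 (by decide +kernel)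
theorem L85336 : W_31 (nat_lit 7) (nat_lit 0x4001e000600000001000080000000000000000000000000000000) (nat_lit 0x0) (nat_lit 0xd0006800700000001800010000800000000000000000000000000000000000) := T_31 (nat_lit 179) (nat_lit 180) (nat_lit 2) (nat_lit 6) (nat_lit 11) L85335 (by decide +kernel)
theorem L85337 : W_31 (nat_lit 11) (nat_lit 0x4000e000600000001000080000000000000000000000000000000) (nat_lit 0x0) (nat_lit 0x1f000fc00f00070003800050000800000000000000000000000000000000000) := Q_31 (nat_lit 196) (C_31 L85318 (C_31 L85326 (C_31 L85328 (C_31 L85330 (C_31 L85336 N_31))))) (by decide +kernel)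
theorem L85338 : W_31 (nat_lit 12) (nat_lit 0x4000e000200000001000080000000000000000000000000000000) (nat_lit 0x0) (nat_lit 0x1f000fc00f00071803c00050000800000000000000000000000000000000000) := Q_31 (nat_lit 178) (C_31 L85306 (C_31 L85309 (C_31 L85337 N_31))) (by decide +kernel)
theorem L85339 : W_31 (nat_lit 13) (nat_lit 0x40006000200000001000080000000000000000000000000000000) (nat_lit 0x0) (nat_lit 0x1f000fc00f3e079e03c70050000800000000000000000000000000000000000) := Q_31 (nat_lit 195) (C_31 L84575 (C_31 L85305 (C_31 L84573 (C_31 L85338 N_31)))) (by decide +kernel)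
theorem L85366 : W_31 (nat_lit 2) (nat_lit 0x68016000f00000001000080000000000000000000000000000000) (nat_lit 0x0) (nat_lit 0x40000000000000000c000000000000000000000000000000000000000) := D_31 (nat_lit 159) (nat_lit 158) (nat_lit 226) (nat_lit 0) (nat_lit 9) (nat_lit 10) (nat_lit 5) (nat_lit 6) (nat_lit 9) (by decide +kernel)
theorem L85367 : W_31 (nat_lit 3) (nat_lit 0x68016000e00000001000080000000000000000000000000000000) (nat_lit 0x0) (nat_lit 0x40000002000010000c000000000000000000000000000000000000000) := T_31 (nat_lit 176) (nat_lit 197) (nat_lit 3) (nat_lit 6) (nat_lit 10) L85366 (by decide +kernel)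
theorem L85398 : W_31 (nat_lit 8) (nat_lit 0x4000e000200000001000080000000000000000000000000000000) (nat_lit 0x0) (nat_lit 0x40002000338001c00d70010000800000000000000000000000000000000000) := Q_31 (nat_lit 192) (C_31 L85274 (C_31 L85397 (C_31 L10064 N_31))) (by decide +kernel)
theorem L85402 : W_31 (nat_lit 2) (nat_lit 0x200024001e000e00010001000080000000000000000000000000000000) (nat_lit 0x0) (nat_lit 0xc0004000000000000000000000000000000000000000000000000000000000) := D_31 (nat_lit 230) (nat_lit 247) (nat_lit 246) (nat_lit 4) (nat_lit 9) (nat_lit 14) (nat_lit 5) (nat_lit 9) (nat_lit 10) (by decide +kernel)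
theorem L85403 : W_31 (nat_lit 3) (nat_lit 0x24001e000e00010001000080000000000000000000000000000000) (nat_lit 0x0) (nat_lit 0xc0006000100000000000000000000000000000000000000000000000000000) := T_31 (nat_lit 229) (nat_lit 212) (nat_lit 4) (nat_lit 8) (nat_lit 13) L85402 (by decide +kernel)
theorem L85404 : W_31 (nat_lit 4) (nat_lit 0x4001e000e00010001000080000000000000000000000000000000) (nat_lit 0x0) (nat_lit 0xc0006000700000000000000000000000000000000000000000000000000000) := T_31 (nat_lit 213) (nat_lit 214) (nat_lit 3) (nat_lit 6) (nat_lit 11) L85403 (by decide +kernel)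
theorem L85405 : W_31 (nat_lit 5) (nat_lit 0x4001e000600010001000080000000000000000000000000000000) (nat_lit 0x0) (nat_lit 0xc0006000700000001800000000000000000000000000000000000000000000) := T_31 (nat_lit 179) (nat_lit 180) (nat_lit 2) (nat_lit 6) (nat_lit 11) L85404 (by decide +kernel)
theorem L85406 : W_31 (nat_lit 6) (nat_lit 0x4001e000600000001000080000000000000000000000000000000) (nat_lit 0x0) (nat_lit 0xc0006000700000001800010000800000000000000000000000000000000000) := T_31 (nat_lit 160) (nat_lit 143) (nat_lit 6) (nat_lit 7) (nat_lit 11) L85405 (by decide +kernel)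
theorem L85407 : W_31 (nat_lit 7) (nat_lit 0x4000e000600000001000080000000000000000000000000000000) (nat_lit 0x0) (nat_lit 0xc0006000f00070003800010000800000000000000000000000000000000000) := Q_31 (nat_lit 196) (C_31 L85330 (C_31 L85328 (C_31 L85406 N_31))) (by decide +kernel)
theorem L85408 : W_31 (nat_lit 8) (nat_lit 0x4000e000200000001000080000000000000000000000000000000) (nat_lit 0x0) (nat_lit 0xc0006000f00071803c00010000800000000000000000000000000000000000) := Q_31 (nat_lit 178) (C_31 L85309 (C_31 L85306 (C_31 L85407 N_31))) (by decide +kernel)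
theorem L85409 : W_31 (nat_lit 9) (nat_lit 0x40006000200000001000080000000000000000000000000000000) (nat_lit 0x0) (nat_lit 0xc0006000f38079c03d70010000800000000000000000000000000000000000) := Q_31 (nat_lit 195) (C_31 L84575 (C_31 L85398 (C_31 L85401 (C_31 L85408 N_31)))) (by decide +kernel)
theorem L85410 : W_31 (nat_lit 14) (nat_lit 0x6000200000001000080000000000000000000000000000000) (nat_lit 0x0) (nat_lit 0x3001fc00fc00f7e079e03d70058000800000000000000000000000000000000000) := Q_31 (nat_lit 210) (C_31 L79564 (C_31 L85339 (C_31 L85341 (C_31 L85391 (C_31 L85409 N_31))))) (by decide +kernel)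
theorem L85429 : W_31 (nat_lit 12) (nat_lit 0x6000200000001000080000000000000000000000000000000) (nat_lit 0x0) (nat_lit 0xf8007c00778079c03df0000000000000000000000000000000000000000000) := Q_31 (nat_lit 192) (C_31 L85298 (C_31 L84923 (C_31 L10037 (C_31 L85428 N_31)))) (by decide +kernel)
theorem L85436 : W_31 (nat_lit 9) (nat_lit 0x6000200000001000080000000000000000000000000000000) (nat_lit 0x0) (nat_lit 0x4000200073c039c01df0010000800000000000000000000000000000000000) := Q_31 (nat_lit 192) (C_31 L85298 (C_31 L85435 (C_31 L23864 (C_31 L80497 N_31)))) (by decide +kernel)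
theorem L85484 : W_31 (nat_lit 4) (nat_lit 0xc00040006000300000001000080000000000000000000000000000000) (nat_lit 0x0) (nat_lit 0x200010000000080000e0004000000000000000000000000000000000000000) := T_31 (nat_lit 228) (nat_lit 245) (nat_lit 7) (nat_lit 6) (nat_lit 10) L10207 (by decide +kernel)
theorem L85485 : W_31 (nat_lit 5) (nat_lit 0x800040006000300000001000080000000000000000000000000000000) (nat_lit 0x0) (nat_lit 0x280014000000080000e0004000000000000000000000000000000000000000) := T_31 (nat_lit 226) (nat_lit 243) (nat_lit 5) (nat_lit 6) (nat_lit 10) L85484 (by decide +kernel)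
theorem L85486 : W_31 (nat_lit 6) (nat_lit 0x40006000300000001000080000000000000000000000000000000) (nat_lit 0x0) (nat_lit 0x38001c000000080000e0004000000000000000000000000000000000000000) := T_31 (nat_lit 227) (nat_lit 244) (nat_lit 6) (nat_lit 6) (nat_lit 14) L85485 (by decide +kernel)
theorem L85497 : W_31 (nat_lit 2) (nat_lit 0x30001e000b0000c001c00080000000000000000000000000000000) (nat_lit 0x0) (nat_lit 0x3000200000000000000000000000000000000000) := D_31 (nat_lit 157) (nat_lit 156) (nat_lit 141) (nat_lit 3) (nat_lit 3) (nat_lit 9) (nat_lit 1) (nat_lit 8) (nat_lit 8) (by decide +kernel)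
theorem L85498 : W_31 (nat_lit 3) (nat_lit 0x30001e000b0000c001400080000000000000000000000000000000) (nat_lit 0x0) (nat_lit 0x13000a00000000000000000000000000000000000) := T_31 (nat_lit 143) (nat_lit 160) (nat_lit 7) (nat_lit 7) (nat_lit 8) L85497 (by decide +kernel)
theorem L85499 : W_31 (nat_lit 4) (nat_lit 0x30001e000b00008001400080000000000000000000000000000000) (nat_lit 0x0) (nat_lit 0x400017000a00000000000000000000000000000000000) := T_31 (nat_lit 158) (nat_lit 178) (nat_lit 0) (nat_lit 9) (nat_lit 10) L85498 (by decide +kernel)
theorem L85500 : W_31 (nat_lit 5) (nat_lit 0x10001e000b00008001400080000000000000000000000000000000) (nat_lit 0x0) (nat_lit 0x600000000400017000a00000000000000000000000000000000000) := T_31 (nat_lit 213) (nat_lit 214) (nat_lit 3) (nat_lit 6) (nat_lit 11) L85499 (by decide +kernel)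
theorem L85501 : W_31 (nat_lit 6) (nat_lit 0x10001e000b00000001400080000000000000000000000000000000) (nat_lit 0x0) (nat_lit 0x60000000040001f000a00020000000000000000000000000000000) := T_31 (nat_lit 159) (nat_lit 125) (nat_lit 7) (nat_lit 6) (nat_lit 7) L85500 (by decide +kernel)
theorem L85502 : W_31 (nat_lit 7) (nat_lit 0x10001e000300000001400080000000000000000000000000000000) (nat_lit 0x0) (nat_lit 0x600000001c0001f000a00020000000000000000000000000000000) := T_31 (nat_lit 179) (nat_lit 180) (nat_lit 2) (nat_lit 6) (nat_lit 11) L85501 (by decide +kernel)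
theorem L85503 : W_31 (nat_lit 8) (nat_lit 0x10001e000200000001400080000000000000000000000000000000) (nat_lit 0x0) (nat_lit 0x600000001d8001f000a00020000000000000000000000000000000) := T_31 (nat_lit 176) (nat_lit 175) (nat_lit 0) (nat_lit 9) (nat_lit 11) L85502 (by decide +kernel)
theorem L85525 : W_31 (nat_lit 2) (nat_lit 0x10000c0003800140016000a0000000000000000000000000000000) (nat_lit 0x0) (nat_lit 0x10001000080000000000000000000000) := D_31 (nat_lit 108) (nat_lit 124) (nat_lit 91) (nat_lit 6) (nat_lit 5) (nat_lit 10) (nat_lit 5) (nat_lit 6) (nat_lit 5) (by decide +kernel)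
theorem L85526 : W_31 (nat_lit 3) (nat_lit 0x10000c0003800140014000a0000000000000000000000000000000) (nat_lit 0x0) (nat_lit 0x1000000000000200010001000080000000000000000000000) := T_31 (nat_lit 141) (nat_lit 192) (nat_lit 6) (nat_lit 5) (nat_lit 11) L85525 (by decide +kernel)
theorem L85527 : W_31 (nat_lit 4) (nat_lit 0x10000c0003000140014000a0000000000000000000000000000000) (nat_lit 0x0) (nat_lit 0x10000c0000000200010001000080000000000000000000000) := T_31 (nat_lit 175) (nat_lit 174) (nat_lit 3) (nat_lit 4) (nat_lit 10) L85526 (by decide +kernel)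
theorem L85528 : W_31 (nat_lit 5) (nat_lit 0x10000c0003000040014000a0000000000000000000000000000000) (nat_lit 0x0) (nat_lit 0x10000c0010000a00010001000080000000000000000000000) := T_31 (nat_lit 160) (nat_lit 143) (nat_lit 7) (nat_lit 7) (nat_lit 8) L85527 (by decide +kernel)
theorem L85529 : W_31 (nat_lit 6) (nat_lit 0x10000c000300004001400080000000000000000000000000000000) (nat_lit 0x0) (nat_lit 0x10000c0018000a00030001000080000000000000000000000) := T_31 (nat_lit 125) (nat_lit 159) (nat_lit 7) (nat_lit 6) (nat_lit 7) L85528 (by decide +kernel)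
theorem L85530 : W_31 (nat_lit 2) (nat_lit 0x10000c00034001c001400080000000000000000000000000000000) (nat_lit 0x0) (nat_lit 0x20003000000000000000000000000000000000000000) := D_31 (nat_lit 157) (nat_lit 156) (nat_lit 173) (nat_lit 3) (nat_lit 3) (nat_lit 9) (nat_lit 1) (nat_lit 7) (nat_lit 9) (by decide +kernel)
theorem L85531 : W_31 (nat_lit 3) (nat_lit 0x10000c000340014001400080000000000000000000000000000000) (nat_lit 0x0) (nat_lit 0x2000b000000020000000000000000000000000000000) := T_31 (nat_lit 159) (nat_lit 125) (nat_lit 7) (nat_lit 6) (nat_lit 7) L85530 (by decide +kernel)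
theorem L85532 : W_31 (nat_lit 4) (nat_lit 0x10000c000300014001400080000000000000000000000000000000) (nat_lit 0x0) (nat_lit 0xe000b000000020000000000000000000000000000000) := T_31 (nat_lit 174) (nat_lit 175) (nat_lit 3) (nat_lit 4) (nat_lit 10) L85531 (by decide +kernel)
theorem L85533 : W_31 (nat_lit 5) (nat_lit 0x10000c000300004001400080000000000000000000000000000000) (nat_lit 0x0) (nat_lit 0xe001b000800020000000000000000000000000000000) := T_31 (nat_lit 160) (nat_lit 143) (nat_lit 7) (nat_lit 7) (nat_lit 8) L85532 (by decide +kernel)
theorem L85547 : W_31 (nat_lit 2) (nat_lit 0x1000d000380004001700080000000000000000000000000000000) (nat_lit 0x0) (nat_lit 0x200020000000000002000000000000000000000000000000000000000) := D_31 (nat_lit 209) (nat_lit 225) (nat_lit 157) (nat_lit 5) (nat_lit 5) (nat_lit 9) (nat_lit 4) (nat_lit 5) (nat_lit 12) (by decide +kernel)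
theorem L85548 : W_31 (nat_lit 3) (nat_lit 0x1000d000380004001600080000000000000000000000000000000) (nat_lit 0x0) (nat_lit 0x200020000000000002000100008000000000000000000000000000000) := T_31 (nat_lit 140) (nat_lit 123) (nat_lit 4) (nat_lit 5) (nat_lit 11) L85547 (by decide +kernel)
theorem L85549 : W_31 (nat_lit 4) (nat_lit 0xd000380004001600080000000000000000000000000000000) (nat_lit 0x0) (nat_lit 0x200030000800000002000100008000000000000000000000000000000) := T_31 (nat_lit 208) (nat_lit 191) (nat_lit 5) (nat_lit 5) (nat_lit 8) L85548 (by decide +kernel)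
theorem L85550 : W_31 (nat_lit 5) (nat_lit 0xd000380004001400080000000000000000000000000000000) (nat_lit 0x0) (nat_lit 0x200030000800000002000300028000000000000000000000000000000) := T_31 (nat_lit 141) (nat_lit 125) (nat_lit 6) (nat_lit 5) (nat_lit 11) L85549 (by decide +kernel)
theorem L85588 : W_31 (nat_lit 2) (nat_lit 0xc00034001c001400080000000000000000000000000000000) (nat_lit 0x0) (nat_lit 0x20003000000000000000000000000000000000000000) := D_31 (nat_lit 157) (nat_lit 173) (nat_lit 156) (nat_lit 1) (nat_lit 7) (nat_lit 9) (nat_lit 3) (nat_lit 3) (nat_lit 9) (by decide +kernel)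
theorem L85591 : W_31 (nat_lit 5) (nat_lit 0x6000e000340000001000080000000000000000000000000000000) (nat_lit 0x0) (nat_lit 0x10000800060001800080000000a000000000000000000000000000000000000000) := T_31 (nat_lit 226) (nat_lit 159) (nat_lit 5) (nat_lit 6) (nat_lit 9) L83480 (by decide +kernel)
theorem L85592 : W_31 (nat_lit 6) (nat_lit 0x6000e000300000001000080000000000000000000000000000000) (nat_lit 0x0) (nat_lit 0x1000080006000180008000c000a000000000000000000000000000000000000000) := T_31 (nat_lit 174) (nat_lit 175) (nat_lit 3) (nat_lit 4) (nat_lit 10) L85591 (by decide +kernel)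
theorem L85605 : W_31 (nat_lit 2) (nat_lit 0x4000000030000e000200000001000080000000000000000000000000000000) (nat_lit 0x0) (nat_lit 0xc00010000000000000000000000000000000000000000000000000) := D_31 (nat_lit 214) (nat_lit 215) (nat_lit 196) (nat_lit 0) (nat_lit 11) (nat_lit 12) (nat_lit 3) (nat_lit 6) (nat_lit 11) (by decide +kernel)
theorem L85606 : W_31 (nat_lit 3) (nat_lit 0x4000000030000c000200000001000080000000000000000000000000000000) (nat_lit 0x0) (nat_lit 0xc00013000000000000000000000000000000000000000000000000) := T_31 (nat_lit 193) (nat_lit 192) (nat_lit 3) (nat_lit 5) (nat_lit 11) L85605 (by decide +kernel)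
theorem L85607 : W_31 (nat_lit 4) (nat_lit 0x30000c000200000001000080000000000000000000000000000000) (nat_lit 0x0) (nat_lit 0x40002000c00013000000000000000000000000000000000000000000000000) := T_31 (nat_lit 246) (nat_lit 229) (nat_lit 4) (nat_lit 8) (nat_lit 14) L85606 (by decide +kernel)
theorem L85620 : W_31 (nat_lit 2) (nat_lit 0x50001c000200000001000080000000000000000000000000000000) (nat_lit 0x0) (nat_lit 0xa00020000000000000000000000000000000000000000000000000) := D_31 (nat_lit 215) (nat_lit 213) (nat_lit 197) (nat_lit 0) (nat_lit 11) (nat_lit 12) (nat_lit 3) (nat_lit 7) (nat_lit 11) (by decide +kernel)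
theorem L85632 : W_31 (nat_lit 2) (nat_lit 0x30003c002200000001800080000000000000000000000000000000) (nat_lit 0x0) (nat_lit 0xc0004000000000000000000000000000000000000000000000) := D_31 (nat_lit 198) (nat_lit 199) (nat_lit 182) (nat_lit 1) (nat_lit 12) (nat_lit 11) (nat_lit 2) (nat_lit 8) (nat_lit 11) (by decide +kernel)
theorem L85633 : W_31 (nat_lit 3) (nat_lit 0x30003c000200000001800080000000000000000000000000000000) (nat_lit 0x0) (nat_lit 0xc0007000000000000000000000000000000000000000000000) := T_31 (nat_lit 181) (nat_lit 180) (nat_lit 2) (nat_lit 7) (nat_lit 11) L85632 (by decide +kernel)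
theorem L85637 : W_31 (nat_lit 2) (nat_lit 0x4000400030001c000200000001000080000000000000000000000000000000) (nat_lit 0x0) (nat_lit 0x1800080000000000000000000000000000000000000000000000000000000000000) := D_31 (nat_lit 247) (nat_lit 264) (nat_lit 263) (nat_lit 4) (nat_lit 9) (nat_lit 15) (nat_lit 5) (nat_lit 9) (nat_lit 11) (by decide +kernel)
theorem L85638 : W_31 (nat_lit 3) (nat_lit 0x400030001c000200000001000080000000000000000000000000000000) (nat_lit 0x0) (nat_lit 0x18000c0002000000000000000000000000000000000000000000000000000000000) := T_31 (nat_lit 246) (nat_lit 229) (nat_lit 4) (nat_lit 8) (nat_lit 14) L85637 (by decide +kernel)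
theorem L85639 : W_31 (nat_lit 2) (nat_lit 0x4000000030003c002200000001000080000000000000000000000000000000) (nat_lit 0x0) (nat_lit 0xc0004000000000000000000000000000000000000000000000) := D_31 (nat_lit 198) (nat_lit 199) (nat_lit 182) (nat_lit 1) (nat_lit 12) (nat_lit 11) (nat_lit 2) (nat_lit 8) (nat_lit 11) (by decide +kernel)
theorem L85640 : W_31 (nat_lit 3) (nat_lit 0x4000000030003c000200000001000080000000000000000000000000000000) (nat_lit 0x0) (nat_lit 0xc0007000000000000000000000000000000000000000000000) := T_31 (nat_lit 181) (nat_lit 180) (nat_lit 2) (nat_lit 7) (nat_lit 11) L85639 (by decide +kernel)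
theorem L85641 : W_31 (nat_lit 2) (nat_lit 0x30003c002200010001000080000000000000000000000000000000) (nat_lit 0x0) (nat_lit 0xc0004000000000000000000000000000000000000000000000) := D_31 (nat_lit 198) (nat_lit 199) (nat_lit 182) (nat_lit 1) (nat_lit 12) (nat_lit 11) (nat_lit 2) (nat_lit 8) (nat_lit 11) (by decide +kernel)
theorem L85642 : W_31 (nat_lit 3) (nat_lit 0x30003c000200010001000080000000000000000000000000000000) (nat_lit 0x0) (nat_lit 0xc0007000000000000000000000000000000000000000000000) := T_31 (nat_lit 181) (nat_lit 180) (nat_lit 2) (nat_lit 7) (nat_lit 11) L85641 (by decide +kernel)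
theorem L85735 : W_31 (nat_lit 2) (nat_lit 0x70003c001200000001800080000000000000000000000000000000) (nat_lit 0x0) (nat_lit 0x4000000000000000080004000000000000000000000000000000000000) := D_31 (nat_lit 163) (nat_lit 146) (nat_lit 230) (nat_lit 5) (nat_lit 10) (nat_lit 8) (nat_lit 5) (nat_lit 10) (nat_lit 9) (by decide +kernel)
theorem L85736 : W_31 (nat_lit 3) (nat_lit 0x70003c000200000001800080000000000000000000000000000000) (nat_lit 0x0) (nat_lit 0x4000000000003000080004000000000000000000000000000000000000) := T_31 (nat_lit 180) (nat_lit 181) (nat_lit 2) (nat_lit 7) (nat_lit 11) L85735 (by decide +kernel)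
theorem L85737 : W_31 (nat_lit 4) (nat_lit 0x30003c000200000001800080000000000000000000000000000000) (nat_lit 0x0) (nat_lit 0x4000c00000003000080004000000000000000000000000000000000000) := T_31 (nat_lit 214) (nat_lit 215) (nat_lit 3) (nat_lit 7) (nat_lit 11) L85736 (by decide +kernel)
theorem L85797 : W_31 (nat_lit 2) (nat_lit 0x1c000c00030001d000200000001800080000000000000000000000000000000) (nat_lit 0x0) (nat_lit 0x30010000000000000000000000000000000000000000000000000000000000) := D_31 (nat_lit 245) (nat_lit 232) (nat_lit 244) (nat_lit 2) (nat_lit 7) (nat_lit 14) (nat_lit 2) (nat_lit 6) (nat_lit 14) (by decide +kernel)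
theorem L85798 : W_31 (nat_lit 3) (nat_lit 0x1c000400030001d000200000001800080000000000000000000000000000000) (nat_lit 0x0) (nat_lit 0x30018000000000000800000000000000000000000000000000000000000000) := T_31 (nat_lit 231) (nat_lit 179) (nat_lit 7) (nat_lit 9) (nat_lit 10) L85797 (by decide +kernel)
theorem L85799 : W_31 (nat_lit 4) (nat_lit 0xc000400030001d000200000001800080000000000000000000000000000000) (nat_lit 0x0) (nat_lit 0x2000130018000000000000800000000000000000000000000000000000000000000) := T_31 (nat_lit 248) (nat_lit 265) (nat_lit 7) (nat_lit 9) (nat_lit 11) L85798 (by decide +kernel)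
theorem L85800 : W_31 (nat_lit 5) (nat_lit 0x8000400030001d000200000001800080000000000000000000000000000000) (nat_lit 0x0) (nat_lit 0x2800170018000000000000800000000000000000000000000000000000000000000) := T_31 (nat_lit 246) (nat_lit 263) (nat_lit 5) (nat_lit 9) (nat_lit 11) L85799 (by decide +kernel)
theorem L85801 : W_31 (nat_lit 6) (nat_lit 0x8000000030001d000200000001800080000000000000000000000000000000) (nat_lit 0x0) (nat_lit 0x380017001c000000000000800000000000000000000000000000000000000000000) := T_31 (nat_lit 230) (nat_lit 264) (nat_lit 4) (nat_lit 9) (nat_lit 15) L85800 (by decide +kernel)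
theorem L85802 : W_31 (nat_lit 7) (nat_lit 0x8000000030001c000200000001800080000000000000000000000000000000) (nat_lit 0x0) (nat_lit 0x380017001c000000003000800000000000000000000000000000000000000000000) := T_31 (nat_lit 192) (nat_lit 193) (nat_lit 3) (nat_lit 5) (nat_lit 11) L85801 (by decide +kernel)
theorem L85803 : W_31 (nat_lit 8) (nat_lit 0x8000000030001c000200000001000080000000000000000000000000000000) (nat_lit 0x0) (nat_lit 0x380017001c000000003000800010000800000000000000000000000000000000000) := T_31 (nat_lit 143) (nat_lit 160) (nat_lit 7) (nat_lit 7) (nat_lit 8) L85802 (by decide +kernel)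
theorem L85838 : W_31 (nat_lit 2) (nat_lit 0xb0003c000200000001800080000000000000000000000000000000) (nat_lit 0x0) (nat_lit 0x10000c0000000000000000000000000000000000000000000000000) := D_31 (nat_lit 198) (nat_lit 216) (nat_lit 199) (nat_lit 3) (nat_lit 8) (nat_lit 11) (nat_lit 1) (nat_lit 12) (nat_lit 11) (by decide +kernel)
theorem L85839 : W_31 (nat_lit 3) (nat_lit 0x30003c000200000001800080000000000000000000000000000000) (nat_lit 0x0) (nat_lit 0x1c000c0000000000000000000000000000000000000000000000000) := T_31 (nat_lit 215) (nat_lit 214) (nat_lit 3) (nat_lit 7) (nat_lit 11) L85838 (by decide +kernel)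
theorem L85840 : W_31 (nat_lit 5) (nat_lit 0x30001c000200000001800080000000000000000000000000000000) (nat_lit 0x0) (nat_lit 0x4001c000e0007000080004000000000000000000000000000000000000) := Q_31 (nat_lit 197) (C_31 L85737 (C_31 L85839 (C_31 L85633 N_31))) (by decide +kernel)
theorem L85841 : W_31 (nat_lit 2) (nat_lit 0x50003c001a00000001800080000000000000000000000000000000) (nat_lit 0x0) (nat_lit 0x100008000000000000000040000000000000000000000000000000000000000) := D_31 (nat_lit 231) (nat_lit 162) (nat_lit 248) (nat_lit 4) (nat_lit 10) (nat_lit 13) (nat_lit 4) (nat_lit 10) (nat_lit 14) (by decide +kernel)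
theorem L85950 : W_31 (nat_lit 2) (nat_lit 0x10003c001e00090001000080000000000000000000000000000000) (nat_lit 0x0) (nat_lit 0x200000000000000004000200000000000000000000000000000000) := D_31 (nat_lit 146) (nat_lit 129) (nat_lit 213) (nat_lit 5) (nat_lit 10) (nat_lit 7) (nat_lit 5) (nat_lit 10) (nat_lit 8) (by decide +kernel)
theorem L85951 : W_31 (nat_lit 3) (nat_lit 0x10003c001e00010001000080000000000000000000000000000000) (nat_lit 0x0) (nat_lit 0x200000000000180004000200000000000000000000000000000000) := T_31 (nat_lit 163) (nat_lit 164) (nat_lit 2) (nat_lit 7) (nat_lit 10) L85950 (by decide +kernel)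
theorem L85953 : W_31 (nat_lit 7) (nat_lit 0x200000000c000200000001000080000000000000000000000000000000) (nat_lit 0x0) (nat_lit 0xe0005000100003001c00050000000000000000000000000000000000000000) := T_31 (nat_lit 212) (nat_lit 246) (nat_lit 4) (nat_lit 8) (nat_lit 14) L85952 (by decide +kernel)
theorem L85954 : W_31 (nat_lit 2) (nat_lit 0x2001f00040000c000200010001000080000000000000000000000000000000) (nat_lit 0x0) (nat_lit 0x700000000000000000000000000000000000000000000000000000000000000) := D_31 (nat_lit 249) (nat_lit 248) (nat_lit 250) (nat_lit 3) (nat_lit 7) (nat_lit 13) (nat_lit 3) (nat_lit 8) (nat_lit 13) (by decide +kernel)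
theorem L85955 : W_31 (nat_lit 3) (nat_lit 0x2000f00040000c000200010001000080000000000000000000000000000000) (nat_lit 0x0) (nat_lit 0x740010000000000000000000000000000000000000000000000000000000000) := T_31 (nat_lit 232) (nat_lit 246) (nat_lit 1) (nat_lit 11) (nat_lit 13) L85954 (by decide +kernel)
theorem L85956 : W_31 (nat_lit 4) (nat_lit 0x2000f00000000c000200010001000080000000000000000000000000000000) (nat_lit 0x0) (nat_lit 0x740010000c00000000000000000000000000000000000000000000000000000) := T_31 (nat_lit 214) (nat_lit 215) (nat_lit 2) (nat_lit 7) (nat_lit 13) L85955 (by decide +kernel)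
theorem L85957 : W_31 (nat_lit 5) (nat_lit 0xf00000000c000200010001000080000000000000000000000000000000) (nat_lit 0x0) (nat_lit 0x770010000c00000000000000000000000000000000000000000000000000000) := T_31 (nat_lit 245) (nat_lit 244) (nat_lit 1) (nat_lit 10) (nat_lit 13) L85956 (by decide +kernel)
theorem L85958 : W_31 (nat_lit 2) (nat_lit 0x10000f80000000c000200010001000080000000000000000000000000000000) (nat_lit 0x0) (nat_lit 0x38000000000000000000000000000000000000000000000000000000000000) := D_31 (nat_lit 244) (nat_lit 243) (nat_lit 245) (nat_lit 1) (nat_lit 9) (nat_lit 13) (nat_lit 1) (nat_lit 10) (nat_lit 13) (by decide +kernel)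
theorem L85959 : W_31 (nat_lit 3) (nat_lit 0x10000f00000000c000200010001000080000000000000000000000000000000) (nat_lit 0x0) (nat_lit 0xb8000800000000000000000000000000000000000000000000000000000000) := T_31 (nat_lit 227) (nat_lit 247) (nat_lit 3) (nat_lit 6) (nat_lit 13) L85958 (by decide +kernel)
theorem L85960 : W_31 (nat_lit 4) (nat_lit 0xf00000000c000200010001000080000000000000000000000000000000) (nat_lit 0x0) (nat_lit 0x3b8000800000000000000000000000000000000000000000000000000000000) := T_31 (nat_lit 248) (nat_lit 249) (nat_lit 3) (nat_lit 7) (nat_lit 13) L85959 (by decide +kernel)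
theorem L85961 : W_31 (nat_lit 2) (nat_lit 0xf80040000c000200010001000080000000000000000000000000000000) (nat_lit 0x0) (nat_lit 0x380000000000000000000000000000000000000000000000000000000000000) := D_31 (nat_lit 248) (nat_lit 249) (nat_lit 247) (nat_lit 3) (nat_lit 7) (nat_lit 13) (nat_lit 3) (nat_lit 6) (nat_lit 13) (by decide +kernel)
theorem L85962 : W_31 (nat_lit 3) (nat_lit 0xf00040000c000200010001000080000000000000000000000000000000) (nat_lit 0x0) (nat_lit 0x380000800200000000000000000000000000000000000000000000000000000) := T_31 (nat_lit 227) (nat_lit 213) (nat_lit 2) (nat_lit 6) (nat_lit 13) L85961 (by decide +kernel)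
theorem L85963 : W_31 (nat_lit 4) (nat_lit 0xf00000000c000200010001000080000000000000000000000000000000) (nat_lit 0x0) (nat_lit 0x380000800e00000000000000000000000000000000000000000000000000000) := T_31 (nat_lit 214) (nat_lit 215) (nat_lit 2) (nat_lit 7) (nat_lit 13) L85962 (by decide +kernel)
theorem L85964 : W_31 (nat_lit 2) (nat_lit 0x6000f80040000c000200010001000080000000000000000000000000000000) (nat_lit 0x0) (nat_lit 0x80000600000000000000000000000000000000000000000000000000000000) := D_31 (nat_lit 226) (nat_lit 225) (nat_lit 247) (nat_lit 3) (nat_lit 4) (nat_lit 13) (nat_lit 3) (nat_lit 5) (nat_lit 13) (by decide +kernel)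
theorem L85965 : W_31 (nat_lit 3) (nat_lit 0x2000f80040000c000200010001000080000000000000000000000000000000) (nat_lit 0x0) (nat_lit 0xc0010600000000000000000000000000000000000000000000000000000000) := T_31 (nat_lit 246) (nat_lit 232) (nat_lit 1) (nat_lit 11) (nat_lit 13) L85964 (by decide +kernel)
theorem L85966 : W_31 (nat_lit 4) (nat_lit 0x2000f00040000c000200010001000080000000000000000000000000000000) (nat_lit 0x0) (nat_lit 0xc0010e00200000000000000000000000000000000000000000000000000000) := T_31 (nat_lit 227) (nat_lit 213) (nat_lit 2) (nat_lit 6) (nat_lit 13) L85965 (by decide +kernel)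
theorem L85967 : W_31 (nat_lit 5) (nat_lit 0x2000f00000000c000200010001000080000000000000000000000000000000) (nat_lit 0x0) (nat_lit 0xc0010e00e00000000000000000000000000000000000000000000000000000) := T_31 (nat_lit 214) (nat_lit 215) (nat_lit 2) (nat_lit 7) (nat_lit 13) L85966 (by decide +kernel)
theorem L85968 : W_31 (nat_lit 6) (nat_lit 0xf00000000c000200010001000080000000000000000000000000000000) (nat_lit 0x0) (nat_lit 0xf0010e00e00000000000000000000000000000000000000000000000000000) := T_31 (nat_lit 245) (nat_lit 244) (nat_lit 1) (nat_lit 10) (nat_lit 13) L85967 (by decide +kernel)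
theorem L85969 : W_31 (nat_lit 7) (nat_lit 0x700000000c000200010001000080000000000000000000000000000000) (nat_lit 0x0) (nat_lit 0x7f8018e00e00000000000000000000000000000000000000000000000000000) := Q_31 (nat_lit 231) (C_31 L85963 (C_31 L85960 (C_31 L85957 (C_31 L85968 N_31)))) (by decide +kernel)
theorem L85970 : W_31 (nat_lit 2) (nat_lit 0x18000f00040000c000200010001000080000000000000000000000000000000) (nat_lit 0x0) (nat_lit 0x1000000000000000020001000000000000000000000000000000000000000000000) := D_31 (nat_lit 197) (nat_lit 180) (nat_lit 264) (nat_lit 5) (nat_lit 10) (nat_lit 10) (nat_lit 5) (nat_lit 10) (nat_lit 11) (by decide +kernel)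
theorem L85971 : W_31 (nat_lit 3) (nat_lit 0x10000f00040000c000200010001000080000000000000000000000000000000) (nat_lit 0x0) (nat_lit 0x1000080000800000020001000000000000000000000000000000000000000000000) := T_31 (nat_lit 247) (nat_lit 227) (nat_lit 3) (nat_lit 6) (nat_lit 13) L85970 (by decide +kernel)
theorem L85972 : W_31 (nat_lit 4) (nat_lit 0xf00040000c000200010001000080000000000000000000000000000000) (nat_lit 0x0) (nat_lit 0x1000380000800000020001000000000000000000000000000000000000000000000) := T_31 (nat_lit 248) (nat_lit 249) (nat_lit 3) (nat_lit 7) (nat_lit 13) L85971 (by decide +kernel)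
theorem L85973 : W_31 (nat_lit 5) (nat_lit 0xf00000000c000200010001000080000000000000000000000000000000) (nat_lit 0x0) (nat_lit 0x1000380000800c00020001000000000000000000000000000000000000000000000) := T_31 (nat_lit 214) (nat_lit 215) (nat_lit 2) (nat_lit 7) (nat_lit 13) L85972 (by decide +kernel)
theorem L85974 : W_31 (nat_lit 2) (nat_lit 0x7000e0000c000200010001000080000000000000000000000000000000) (nat_lit 0x0) (nat_lit 0x32000000000000000000000000000000000000000000000000) := D_31 (nat_lit 196) (nat_lit 197) (nat_lit 193) (nat_lit 3) (nat_lit 7) (nat_lit 11) (nat_lit 3) (nat_lit 6) (nat_lit 11) (by decide +kernel)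
theorem L85975 : W_31 (nat_lit 3) (nat_lit 0x7000c0000c000200010001000080000000000000000000000000000000) (nat_lit 0x0) (nat_lit 0x1200032000000000000000000000000000000000000000000000000) := T_31 (nat_lit 213) (nat_lit 216) (nat_lit 1) (nat_lit 12) (nat_lit 12) L85974 (by decide +kernel)
theorem L85976 : W_31 (nat_lit 4) (nat_lit 0x700040000c000200010001000080000000000000000000000000000000) (nat_lit 0x0) (nat_lit 0x8001a00032000000000000000000000000000000000000000000000000) := T_31 (nat_lit 215) (nat_lit 231) (nat_lit 2) (nat_lit 7) (nat_lit 13) L85975 (by decide +kernel)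
theorem L85977 : W_31 (nat_lit 5) (nat_lit 0x700040000c000200010001000080000000000000000000000000000000) (nat_lit 0x0) (nat_lit 0x1000380008800800020001000000000000000000000000000000000000000000000) := T_31 (nat_lit 231) (nat_lit 215) (nat_lit 2) (nat_lit 7) (nat_lit 13) L85972 (by decide +kernel)
theorem L85981 : W_31 (nat_lit 2) (nat_lit 0x40003e0000000c000200010001000080000000000000000000000000000000) (nat_lit 0x0) (nat_lit 0x38000000000000000000000000000000000000000000000000000) := D_31 (nat_lit 208) (nat_lit 209) (nat_lit 207) (nat_lit 0) (nat_lit 8) (nat_lit 13) (nat_lit 0) (nat_lit 7) (nat_lit 13) (by decide +kernel)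
theorem L85982 : W_31 (nat_lit 3) (nat_lit 0x40003c0000000c000200010001000080000000000000000000000000000000) (nat_lit 0x0) (nat_lit 0x20000200038000000000000000000000000000000000000000000000000000) := T_31 (nat_lit 225) (nat_lit 245) (nat_lit 3) (nat_lit 4) (nat_lit 13) L85981 (by decide +kernel)
theorem L85983 : W_31 (nat_lit 2) (nat_lit 0x40003e0000000c000200000001000080000000000000000000000000000000) (nat_lit 0x0) (nat_lit 0x38000000000000000000000000000000000000000000000000000) := D_31 (nat_lit 208) (nat_lit 209) (nat_lit 207) (nat_lit 0) (nat_lit 8) (nat_lit 13) (nat_lit 0) (nat_lit 7) (nat_lit 13) (by decide +kernel)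
theorem L85984 : W_31 (nat_lit 3) (nat_lit 0x40003c0000000c000200000001000080000000000000000000000000000000) (nat_lit 0x0) (nat_lit 0x20000200038000000000000000000000000000000000000000000000000000) := T_31 (nat_lit 225) (nat_lit 245) (nat_lit 3) (nat_lit 4) (nat_lit 13) L85983 (by decide +kernel)
theorem L85985 : W_31 (nat_lit 4) (nat_lit 0x4000380000000c000200000001000080000000000000000000000000000000) (nat_lit 0x0) (nat_lit 0xa0000600038000000000000000000000000000000000000000000000000000) := T_31 (nat_lit 226) (nat_lit 247) (nat_lit 3) (nat_lit 5) (nat_lit 13) L85984 (by decide +kernel)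
theorem L86004 : W_31 (nat_lit 2) (nat_lit 0xc001f80004001400080000000000000000000000000000000) (nat_lit 0x0) (nat_lit 0x1c0000000000000000000000000000000000000000) := D_31 (nat_lit 163) (nat_lit 162) (nat_lit 164) (nat_lit 2) (nat_lit 6) (nat_lit 10) (nat_lit 2) (nat_lit 7) (nat_lit 10) (by decide +kernel)
theorem L86005 : W_31 (nat_lit 3) (nat_lit 0xc000f80004001400080000000000000000000000000000000) (nat_lit 0x0) (nat_lit 0x30001c0000000000000000000000000000000000000000) := T_31 (nat_lit 180) (nat_lit 181) (nat_lit 1) (nat_lit 11) (nat_lit 10) L86004 (by decide +kernel)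
theorem L86056 : W_31 (nat_lit 2) (nat_lit 0x30001c000300000001000080000000000000000000000000000000) (nat_lit 0x0) (nat_lit 0xc00002000000000000000000000000000000000000000000000000) := D_31 (nat_lit 214) (nat_lit 215) (nat_lit 193) (nat_lit 0) (nat_lit 11) (nat_lit 12) (nat_lit 3) (nat_lit 6) (nat_lit 11) (by decide +kernel)
theorem L86057 : W_31 (nat_lit 3) (nat_lit 0x30000c000300000001000080000000000000000000000000000000) (nat_lit 0x0) (nat_lit 0xc00032000000000000000000000000000000000000000000000000) := T_31 (nat_lit 196) (nat_lit 197) (nat_lit 0) (nat_lit 10) (nat_lit 11) L86056 (by decide +kernel)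
theorem L86081 : W_31 (nat_lit 2) (nat_lit 0x6000e000380000001000080000000000000000000000000000000) (nat_lit 0x0) (nat_lit 0x18001000000000000000000000000000000000000000000000000) := D_31 (nat_lit 208) (nat_lit 207) (nat_lit 192) (nat_lit 2) (nat_lit 3) (nat_lit 12) (nat_lit 1) (nat_lit 8) (nat_lit 11) (by decide +kernel)
theorem L86084 : W_31 (nat_lit 2) (nat_lit 0x6800e000380008001c00080000000000000000000000000000000) (nat_lit 0x0) (nat_lit 0x200110000000000000000000000000000000) := D_31 (nat_lit 141) (nat_lit 124) (nat_lit 128) (nat_lit 4) (nat_lit 6) (nat_lit 11) (nat_lit 2) (nat_lit 5) (nat_lit 8) (by decide +kernel)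
theorem L86085 : W_31 (nat_lit 3) (nat_lit 0x6800e000380008001800080000000000000000000000000000000) (nat_lit 0x0) (nat_lit 0x600130000000000000000000000000000000) := T_31 (nat_lit 142) (nat_lit 125) (nat_lit 7) (nat_lit 6) (nat_lit 7) L86084 (by decide +kernel)
theorem L86087 : W_31 (nat_lit 4) (nat_lit 0x6800e000380000001800080000000000000000000000000000000) (nat_lit 0x0) (nat_lit 0x400000000000000008000600130000000000000000000000000000000) := T_31 (nat_lit 159) (nat_lit 226) (nat_lit 5) (nat_lit 6) (nat_lit 9) L86085 (by decide +kernel)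
theorem L86088 : W_31 (nat_lit 5) (nat_lit 0x6000e000380000001800080000000000000000000000000000000) (nat_lit 0x0) (nat_lit 0x400018000000000008000600130000000000000000000000000000000) := T_31 (nat_lit 207) (nat_lit 208) (nat_lit 2) (nat_lit 3) (nat_lit 12) L86087 (by decide +kernel)
theorem L86089 : W_31 (nat_lit 6) (nat_lit 0x6000e000380000001000080000000000000000000000000000000) (nat_lit 0x0) (nat_lit 0x400018000000000018000e00130000000000000000000000000000000) := T_31 (nat_lit 143) (nat_lit 160) (nat_lit 6) (nat_lit 7) (nat_lit 11) L86088 (by decide +kernel)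
theorem L86090 : W_31 (nat_lit 2) (nat_lit 0x6000e000380008001000080000000000000000000000000000000) (nat_lit 0x0) (nat_lit 0x1000000000000400020000000000000000000000000000000) := D_31 (nat_lit 142) (nat_lit 192) (nat_lit 125) (nat_lit 5) (nat_lit 6) (nat_lit 8) (nat_lit 7) (nat_lit 6) (nat_lit 7) (by decide +kernel)
theorem L86091 : W_31 (nat_lit 3) (nat_lit 0x6000e000380000001000080000000000000000000000000000000) (nat_lit 0x0) (nat_lit 0x400000001000000008000400020000000000000000000000000000000) := T_31 (nat_lit 159) (nat_lit 226) (nat_lit 5) (nat_lit 6) (nat_lit 9) L86090 (by decide +kernel)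
theorem L86092 : W_31 (nat_lit 7) (nat_lit 0x4000e000380000001000080000000000000000000000000000000) (nat_lit 0x0) (nat_lit 0x400038001000000018000e00130000000000000000000000000000000) := Q_31 (nat_lit 209) (C_31 L86081 (C_31 L86089 (C_31 L86091 N_31))) (by decide +kernel)
theorem L86231 : W_31 (nat_lit 2) (nat_lit 0xe000340008001c00080000000000000000000000000000000) (nat_lit 0x0) (nat_lit 0x200110000000000000000000000000000000) := D_31 (nat_lit 141) (nat_lit 124) (nat_lit 128) (nat_lit 4) (nat_lit 6) (nat_lit 11) (nat_lit 2) (nat_lit 5) (nat_lit 8) (by decide +kernel)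
theorem L86232 : W_31 (nat_lit 3) (nat_lit 0xe000340000001c00080000000000000000000000000000000) (nat_lit 0x0) (nat_lit 0x8000200130000000000000000000000000000000) := T_31 (nat_lit 159) (nat_lit 125) (nat_lit 7) (nat_lit 6) (nat_lit 7) L86231 (by decide +kernel)
theorem L86233 : W_31 (nat_lit 2) (nat_lit 0x7c0010000d000780008001400080000000000000000000000000000000) (nat_lit 0x0) (nat_lit 0x1c000000000000000000000000000000000000000000000000000000000000) := D_31 (nat_lit 243) (nat_lit 244) (nat_lit 242) (nat_lit 1) (nat_lit 9) (nat_lit 13) (nat_lit 1) (nat_lit 8) (nat_lit 13) (by decide +kernel)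
theorem L86234 : W_31 (nat_lit 3) (nat_lit 0x740010000d000780008001400080000000000000000000000000000000) (nat_lit 0x0) (nat_lit 0x1c000800200000000000000000000000000000000000000000000000000000) := T_31 (nat_lit 227) (nat_lit 213) (nat_lit 2) (nat_lit 5) (nat_lit 13) L86233 (by decide +kernel)
theorem L86235 : W_31 (nat_lit 4) (nat_lit 0x700010000d000780008001400080000000000000000000000000000000) (nat_lit 0x0) (nat_lit 0x1c000c00220000000000000000000000000000000000000000000000000000) := T_31 (nat_lit 226) (nat_lit 209) (nat_lit 6) (nat_lit 5) (nat_lit 13) L86234 (by decide +kernel)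
theorem L86236 : W_31 (nat_lit 5) (nat_lit 0x700010000c000780008001400080000000000000000000000000000000) (nat_lit 0x0) (nat_lit 0x1c000c00220001800000000000000000000000000000000000000000000000) := T_31 (nat_lit 192) (nat_lit 191) (nat_lit 1) (nat_lit 8) (nat_lit 10) L86235 (by decide +kernel)
theorem L86237 : W_31 (nat_lit 6) (nat_lit 0x700010000c000700008001400080000000000000000000000000000000) (nat_lit 0x0) (nat_lit 0x1c000c002200018000c0000000000000000000000000000000000000000000) := T_31 (nat_lit 175) (nat_lit 174) (nat_lit 3) (nat_lit 4) (nat_lit 10) L86236 (by decide +kernel)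
theorem L86238 : W_31 (nat_lit 7) (nat_lit 0x600010000c000700008001400080000000000000000000000000000000) (nat_lit 0x0) (nat_lit 0x3c001c002200018000c0000000000000000000000000000000000000000000) := T_31 (nat_lit 228) (nat_lit 245) (nat_lit 5) (nat_lit 8) (nat_lit 10) L86237 (by decide +kernel)
theorem L86239 : W_31 (nat_lit 8) (nat_lit 0x200010000c000700008001400080000000000000000000000000000000) (nat_lit 0x0) (nat_lit 0xbc005c002200018000c0000000000000000000000000000000000000000000) := T_31 (nat_lit 230) (nat_lit 247) (nat_lit 7) (nat_lit 8) (nat_lit 10) L86238 (by decide +kernel)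
theorem L86240 : W_31 (nat_lit 9) (nat_lit 0x200010000c000700000001400080000000000000000000000000000000) (nat_lit 0x0) (nat_lit 0xbc005c002200018000c0008000000020000000000000000000000000000000) := T_31 (nat_lit 159) (nat_lit 125) (nat_lit 7) (nat_lit 6) (nat_lit 7) L86239 (by decide +kernel)
theorem L86241 : W_31 (nat_lit 10) (nat_lit 0x10000c000700000001400080000000000000000000000000000000) (nat_lit 0x0) (nat_lit 0xfc007c002200018000c0008000000020000000000000000000000000000000) := T_31 (nat_lit 229) (nat_lit 246) (nat_lit 4) (nat_lit 8) (nat_lit 14) L86240 (by decide +kernel)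
theorem L86242 : W_31 (nat_lit 2) (nat_lit 0x700050002c001f000800014000a0000000000000000000000000000000) (nat_lit 0x0) (nat_lit 0x18000800000000000000000000000000000000000000000000000000000) := D_31 (nat_lit 215) (nat_lit 231) (nat_lit 232) (nat_lit 2) (nat_lit 7) (nat_lit 13) (nat_lit 7) (nat_lit 10) (nat_lit 9) (by decide +kernel)
theorem L86243 : W_31 (nat_lit 3) (nat_lit 0x700010002c001f000800014000a0000000000000000000000000000000) (nat_lit 0x0) (nat_lit 0x18000e00000000000000000000000000000000000000000000000000000) := T_31 (nat_lit 214) (nat_lit 213) (nat_lit 5) (nat_lit 10) (nat_lit 9) L86242 (by decide +kernel)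
theorem L86244 : W_31 (nat_lit 4) (nat_lit 0x700010002c001f000000014000a0000000000000000000000000000000) (nat_lit 0x0) (nat_lit 0x18000e00000000000180000000000000000000000000000000000000000) := T_31 (nat_lit 163) (nat_lit 164) (nat_lit 2) (nat_lit 7) (nat_lit 10) L86243 (by decide +kernel)
theorem L86245 : W_31 (nat_lit 5) (nat_lit 0x700010000c001f000000014000a0000000000000000000000000000000) (nat_lit 0x0) (nat_lit 0x18000e00060000000180000000000000000000000000000000000000000) := T_31 (nat_lit 197) (nat_lit 198) (nat_lit 3) (nat_lit 7) (nat_lit 10) L86244 (by decide +kernel)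
theorem L86246 : W_31 (nat_lit 6) (nat_lit 0x600010000c001f000000014000a0000000000000000000000000000000) (nat_lit 0x0) (nat_lit 0x20019000e00060000000180000000000000000000000000000000000000000) := T_31 (nat_lit 228) (nat_lit 245) (nat_lit 5) (nat_lit 8) (nat_lit 10) L86245 (by decide +kernel)
theorem L86247 : W_31 (nat_lit 7) (nat_lit 0x600010000c000f000000014000a0000000000000000000000000000000) (nat_lit 0x0) (nat_lit 0x20019000e00060003000180000000000000000000000000000000000000000) := T_31 (nat_lit 180) (nat_lit 181) (nat_lit 1) (nat_lit 11) (nat_lit 10) L86246 (by decide +kernel)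
theorem L86248 : W_31 (nat_lit 8) (nat_lit 0x600010000c0007000000014000a0000000000000000000000000000000) (nat_lit 0x0) (nat_lit 0x20019000e000600038001c0000000000000000000000000000000000000000) := T_31 (nat_lit 179) (nat_lit 162) (nat_lit 6) (nat_lit 8) (nat_lit 13) L86247 (by decide +kernel)
theorem L86249 : W_31 (nat_lit 9) (nat_lit 0x200010000c0007000000014000a0000000000000000000000000000000) (nat_lit 0x0) (nat_lit 0xa001d000e000600038001c0000000000000000000000000000000000000000) := T_31 (nat_lit 230) (nat_lit 247) (nat_lit 7) (nat_lit 8) (nat_lit 10) L86248 (by decide +kernel)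
theorem L86250 : W_31 (nat_lit 2) (nat_lit 0x10000c000340010001400080000000000000000000000000000000) (nat_lit 0x0) (nat_lit 0x40002000000000000400000000000000000000000000000000000000000000) := D_31 (nat_lit 229) (nat_lit 246) (nat_lit 178) (nat_lit 4) (nat_lit 8) (nat_lit 14) (nat_lit 4) (nat_lit 8) (nat_lit 13) (by decide +kernel)
theorem L86251 : W_31 (nat_lit 3) (nat_lit 0x10000c000340000001400080000000000000000000000000000000) (nat_lit 0x0) (nat_lit 0x40002000000000000400010000800000000000000000000000000000000000) := T_31 (nat_lit 160) (nat_lit 143) (nat_lit 7) (nat_lit 7) (nat_lit 8) L86250 (by decide +kernel)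
theorem L86252 : W_31 (nat_lit 4) (nat_lit 0x10000c000300000001400080000000000000000000000000000000) (nat_lit 0x0) (nat_lit 0x400020000000000004c0010000800000000000000000000000000000000000) := T_31 (nat_lit 174) (nat_lit 175) (nat_lit 3) (nat_lit 4) (nat_lit 10) L86251 (by decide +kernel)
theorem L86253 : W_31 (nat_lit 2) (nat_lit 0x10000c0003000100014000a0000000000000000000000000000000) (nat_lit 0x0) (nat_lit 0x40002000000000000400000000000000000000000000000000000000000000) := D_31 (nat_lit 229) (nat_lit 178) (nat_lit 246) (nat_lit 4) (nat_lit 8) (nat_lit 13) (nat_lit 4) (nat_lit 8) (nat_lit 14) (by decide +kernel)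
theorem L86254 : W_31 (nat_lit 3) (nat_lit 0x10000c0003000000014000a0000000000000000000000000000000) (nat_lit 0x0) (nat_lit 0x40002000000000000400010000800000000000000000000000000000000000) := T_31 (nat_lit 160) (nat_lit 143) (nat_lit 7) (nat_lit 7) (nat_lit 8) L86253 (by decide +kernel)
theorem L86255 : W_31 (nat_lit 4) (nat_lit 0x10000c000300000001400080000000000000000000000000000000) (nat_lit 0x0) (nat_lit 0x40002000000000000400018000800020000000000000000000000000000000) := T_31 (nat_lit 125) (nat_lit 159) (nat_lit 7) (nat_lit 6) (nat_lit 7) L86254 (by decide +kernel)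
theorem L86256 : W_31 (nat_lit 2) (nat_lit 0x700050002c001f400800014000a0000000000000000000000000000000) (nat_lit 0x0) (nat_lit 0x18000800000000000000000000000000000000000000000000000000000) := D_31 (nat_lit 215) (nat_lit 231) (nat_lit 232) (nat_lit 2) (nat_lit 7) (nat_lit 13) (nat_lit 7) (nat_lit 10) (nat_lit 9) (by decide +kernel)
theorem L86257 : W_31 (nat_lit 3) (nat_lit 0x700010002c001f400800014000a0000000000000000000000000000000) (nat_lit 0x0) (nat_lit 0x18000e00000000000000000000000000000000000000000000000000000) := T_31 (nat_lit 214) (nat_lit 213) (nat_lit 5) (nat_lit 10) (nat_lit 9) L86256 (by decide +kernel)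
theorem L86258 : W_31 (nat_lit 4) (nat_lit 0x700010000c001f400800014000a0000000000000000000000000000000) (nat_lit 0x0) (nat_lit 0x18000e00060000000000000000000000000000000000000000000000000) := T_31 (nat_lit 197) (nat_lit 198) (nat_lit 3) (nat_lit 7) (nat_lit 10) L86257 (by decide +kernel)
theorem L86259 : W_31 (nat_lit 5) (nat_lit 0x700010000c001f400000014000a0000000000000000000000000000000) (nat_lit 0x0) (nat_lit 0x18000e00060000000180000000000000000000000000000000000000000) := T_31 (nat_lit 163) (nat_lit 164) (nat_lit 2) (nat_lit 7) (nat_lit 10) L86258 (by decide +kernel)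
theorem L86260 : W_31 (nat_lit 6) (nat_lit 0x700010000c000f400000014000a0000000000000000000000000000000) (nat_lit 0x0) (nat_lit 0x18000e00060003000180000000000000000000000000000000000000000) := T_31 (nat_lit 180) (nat_lit 181) (nat_lit 1) (nat_lit 11) (nat_lit 10) L86259 (by decide +kernel)
theorem L86261 : W_31 (nat_lit 7) (nat_lit 0x700010000c0007400000014000a0000000000000000000000000000000) (nat_lit 0x0) (nat_lit 0x18000e000600038001c0000000000000000000000000000000000000000) := T_31 (nat_lit 179) (nat_lit 162) (nat_lit 6) (nat_lit 8) (nat_lit 13) L86260 (by decide +kernel)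
theorem L86262 : W_31 (nat_lit 8) (nat_lit 0x300010000c0007400000014000a0000000000000000000000000000000) (nat_lit 0x0) (nat_lit 0x8001c000e000600038001c0000000000000000000000000000000000000000) := T_31 (nat_lit 230) (nat_lit 247) (nat_lit 7) (nat_lit 8) (nat_lit 10) L86261 (by decide +kernel)
theorem L86263 : W_31 (nat_lit 9) (nat_lit 0x200010000c0007400000014000a0000000000000000000000000000000) (nat_lit 0x0) (nat_lit 0xa001d000e000600038001c0000000000000000000000000000000000000000) := T_31 (nat_lit 228) (nat_lit 245) (nat_lit 5) (nat_lit 8) (nat_lit 10) L86262 (by decide +kernel)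
theorem L86264 : W_31 (nat_lit 10) (nat_lit 0x200010000c0003400000014000a0000000000000000000000000000000) (nat_lit 0x0) (nat_lit 0xa001d000e00060003c001d0000000000000000000000000000000000000000) := T_31 (nat_lit 178) (nat_lit 160) (nat_lit 4) (nat_lit 8) (nat_lit 13) L86263 (by decide +kernel)
theorem L86276 : W_31 (nat_lit 10) (nat_lit 0xc000300000001c00080000000000000000000000000000000) (nat_lit 0x0) (nat_lit 0x500038001c000c000b00038013e000000000000000000000000000000) := T_31 (nat_lit 141) (nat_lit 128) (nat_lit 2) (nat_lit 5) (nat_lit 8) L86275 (by decide +kernel)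
theorem L86277 : W_31 (nat_lit 11) (nat_lit 0xc000300000001400080000000000000000000000000000000) (nat_lit 0x0) (nat_lit 0x500038001c000c001b000b8013e000000000000000000000000000000) := T_31 (nat_lit 143) (nat_lit 160) (nat_lit 6) (nat_lit 7) (nat_lit 11) L86276 (by decide +kernel)
theorem L86278 : W_31 (nat_lit 10) (nat_lit 0x10000c0007000000014000a0000000000000000000000000000000) (nat_lit 0x0) (nat_lit 0xe001f000e000600038001c0000000000000000000000000000000000000000) := T_31 (nat_lit 229) (nat_lit 246) (nat_lit 4) (nat_lit 8) (nat_lit 14) L86249 (by decide +kernel)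
theorem L86279 : W_31 (nat_lit 4) (nat_lit 0xe000340000001c00080000000000000000000000000000000) (nat_lit 0x0) (nat_lit 0x20001c00020008000000020000000000000000000000000000000) := T_31 (nat_lit 159) (nat_lit 125) (nat_lit 7) (nat_lit 6) (nat_lit 7) L15323 (by decide +kernel)
theorem L86280 : W_31 (nat_lit 2) (nat_lit 0x200010000c000300000001000080000000000000000000000000000000) (nat_lit 0x0) (nat_lit 0x400010000800000000000000000000000000000000000) := D_31 (nat_lit 160) (nat_lit 143) (nat_lit 178) (nat_lit 7) (nat_lit 7) (nat_lit 8) (nat_lit 4) (nat_lit 8) (nat_lit 13) (by decide +kernel)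
theorem L86281 : W_31 (nat_lit 3) (nat_lit 0x200000000c000300000001000080000000000000000000000000000000) (nat_lit 0x0) (nat_lit 0x40000000100000000400010000800000000000000000000000000000000000) := T_31 (nat_lit 212) (nat_lit 246) (nat_lit 4) (nat_lit 8) (nat_lit 14) L86280 (by decide +kernel)
theorem L86282 : W_31 (nat_lit 2) (nat_lit 0x4000e800340001001f800b0000000000000000000000000000000) (nat_lit 0x0) (nat_lit 0x20000000000006000000000000000000000000000000) := D_31 (nat_lit 122) (nat_lit 121) (nat_lit 173) (nat_lit 0) (nat_lit 6) (nat_lit 8) (nat_lit 7) (nat_lit 3) (nat_lit 7) (by decide +kernel)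
theorem L86283 : W_31 (nat_lit 3) (nat_lit 0x4000e800340000001f800b0000000000000000000000000000000) (nat_lit 0x0) (nat_lit 0x20001800000006000000000000000000000000000000) := T_31 (nat_lit 156) (nat_lit 155) (nat_lit 1) (nat_lit 6) (nat_lit 8) L86282 (by decide +kernel)
theorem L86284 : W_31 (nat_lit 4) (nat_lit 0x4000e800340000001f000b0000000000000000000000000000000) (nat_lit 0x0) (nat_lit 0x200018000c0006000000000000000000000000000000) := T_31 (nat_lit 139) (nat_lit 138) (nat_lit 2) (nat_lit 2) (nat_lit 8) L86283 (by decide +kernel)
theorem L86285 : W_31 (nat_lit 5) (nat_lit 0x4000e800340000001e000b0000000000000000000000000000000) (nat_lit 0x0) (nat_lit 0x200038001c0006000000000000000000000000000000) := T_31 (nat_lit 140) (nat_lit 157) (nat_lit 6) (nat_lit 4) (nat_lit 11) L86284 (by decide +kernel)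
theorem L86286 : W_31 (nat_lit 6) (nat_lit 0x4000e800340000001e000a0000000000000000000000000000000) (nat_lit 0x0) (nat_lit 0x200038001c001e000000000000000000000000000000) := T_31 (nat_lit 124) (nat_lit 123) (nat_lit 0) (nat_lit 8) (nat_lit 8) L86285 (by decide +kernel)
theorem L86287 : W_31 (nat_lit 7) (nat_lit 0x4000e800340000001c000a0000000000000000000000000000000) (nat_lit 0x0) (nat_lit 0x200038003c011e000000000000000000000000000000) := T_31 (nat_lit 141) (nat_lit 128) (nat_lit 2) (nat_lit 5) (nat_lit 8) L86286 (by decide +kernel)
theorem L86288 : W_31 (nat_lit 8) (nat_lit 0x4000e8003400000014000a0000000000000000000000000000000) (nat_lit 0x0) (nat_lit 0x20013800bc011e000000000000000000000000000000) := T_31 (nat_lit 143) (nat_lit 160) (nat_lit 6) (nat_lit 7) (nat_lit 11) L86287 (by decide +kernel)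
theorem L86289 : W_31 (nat_lit 9) (nat_lit 0x4000e800340000001400080000000000000000000000000000000) (nat_lit 0x0) (nat_lit 0x2001b800bc013e000000000000000000000000000000) := T_31 (nat_lit 125) (nat_lit 159) (nat_lit 7) (nat_lit 6) (nat_lit 7) L86288 (by decide +kernel)
theorem L86290 : W_31 (nat_lit 10) (nat_lit 0x4000e800300000001400080000000000000000000000000000000) (nat_lit 0x0) (nat_lit 0xe001b800bc013e000000000000000000000000000000) := T_31 (nat_lit 174) (nat_lit 175) (nat_lit 3) (nat_lit 4) (nat_lit 10) L86289 (by decide +kernel)
theorem L86294 : W_31 (nat_lit 2) (nat_lit 0xe400340002001f00088000000000000000000000000000000) (nat_lit 0x0) (nat_lit 0x8001800000000000000000000000000000000000000000000000) := D_31 (nat_lit 191) (nat_lit 192) (nat_lit 207) (nat_lit 2) (nat_lit 3) (nat_lit 11) (nat_lit 5) (nat_lit 4) (nat_lit 8) (by decide +kernel)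
theorem L86295 : W_31 (nat_lit 3) (nat_lit 0xe000340002001f00088000000000000000000000000000000) (nat_lit 0x0) (nat_lit 0x8001c00020000000000000000000000000000000000000000000) := T_31 (nat_lit 190) (nat_lit 173) (nat_lit 5) (nat_lit 4) (nat_lit 7) L86294 (by decide +kernel)
theorem L86296 : W_31 (nat_lit 4) (nat_lit 0xe000340000001f00088000000000000000000000000000000) (nat_lit 0x0) (nat_lit 0x8001c00020003000000000000000000000000000000000000000) := T_31 (nat_lit 157) (nat_lit 156) (nat_lit 1) (nat_lit 7) (nat_lit 8) L86295 (by decide +kernel)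
theorem L86297 : W_31 (nat_lit 5) (nat_lit 0xe000340000001e00088000000000000000000000000000000) (nat_lit 0x0) (nat_lit 0x8001c00020003000100004000000000000000000000000000000) := T_31 (nat_lit 140) (nat_lit 122) (nat_lit 0) (nat_lit 7) (nat_lit 8) L86296 (by decide +kernel)
theorem L86298 : W_31 (nat_lit 6) (nat_lit 0xe000340000001e00080000000000000000000000000000000) (nat_lit 0x0) (nat_lit 0x8001c0002000300010001c000000000000000000000000000000) := T_31 (nat_lit 123) (nat_lit 124) (nat_lit 0) (nat_lit 8) (nat_lit 8) L86297 (by decide +kernel)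
theorem L86299 : W_31 (nat_lit 7) (nat_lit 0xe000340000001c00080000000000000000000000000000000) (nat_lit 0x0) (nat_lit 0x8001c0002000300030011c000000000000000000000000000000) := T_31 (nat_lit 141) (nat_lit 128) (nat_lit 2) (nat_lit 5) (nat_lit 8) L86298 (by decide +kernel)
theorem L86300 : W_31 (nat_lit 8) (nat_lit 0xe000340000001800080000000000000000000000000000000) (nat_lit 0x0) (nat_lit 0x28001c0002000b00070013c000000000000000000000000000000) := Q_31 (nat_lit 142) (C_31 L86232 (C_31 L86279 (C_31 L86299 N_31))) (by decide +kernel)
theorem L86308 : W_31 (nat_lit 6) (nat_lit 0x4000000010000c000300004001400080000000000000000000000000000000) (nat_lit 0x0) (nat_lit 0x10000c0012000a00038001000000000000000000000000000) := T_31 (nat_lit 143) (nat_lit 160) (nat_lit 7) (nat_lit 7) (nat_lit 8) L82672 (by decide +kernel)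
theorem L86309 : W_31 (nat_lit 7) (nat_lit 0x10000c000300004001400080000000000000000000000000000000) (nat_lit 0x0) (nat_lit 0x400020000000010000c0012000a00038001000000000000000000000000000) := T_31 (nat_lit 246) (nat_lit 229) (nat_lit 4) (nat_lit 8) (nat_lit 14) L86308 (by decide +kernel)
theorem L86310 : W_31 (nat_lit 2) (nat_lit 0x4000000010000c00030000e001400080000000000000000000000000000000) (nat_lit 0x0) (nat_lit 0x10000a00000000000000000000000000000000000) := D_31 (nat_lit 143) (nat_lit 160) (nat_lit 141) (nat_lit 2) (nat_lit 4) (nat_lit 9) (nat_lit 1) (nat_lit 8) (nat_lit 8) (by decide +kernel)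
theorem L86311 : W_31 (nat_lit 3) (nat_lit 0x4000000010000c00030000c001400080000000000000000000000000000000) (nat_lit 0x0) (nat_lit 0x13000a00000000000000000000000000000000000) := T_31 (nat_lit 157) (nat_lit 156) (nat_lit 3) (nat_lit 3) (nat_lit 9) L86310 (by decide +kernel)
theorem L86312 : W_31 (nat_lit 4) (nat_lit 0x10000c00030000c001400080000000000000000000000000000000) (nat_lit 0x0) (nat_lit 0x40002000000000000000013000a00000000000000000000000000000000000) := T_31 (nat_lit 246) (nat_lit 229) (nat_lit 4) (nat_lit 8) (nat_lit 14) L86311 (by decide +kernel)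
theorem L86313 : W_31 (nat_lit 5) (nat_lit 0x10000c000300004001400080000000000000000000000000000000) (nat_lit 0x0) (nat_lit 0x4000200000000000000001b000a00020000000000000000000000000000000) := T_31 (nat_lit 159) (nat_lit 125) (nat_lit 7) (nat_lit 6) (nat_lit 7) L86312 (by decide +kernel)
theorem L86314 : W_31 (nat_lit 2) (nat_lit 0x4000000010000c000340004001e000900008000a0000000000000000000000) (nat_lit 0x0) (nat_lit 0x40005000000000000000000) := D_31 (nat_lit 90) (nat_lit 74) (nat_lit 72) (nat_lit 6) (nat_lit 5) (nat_lit 8) (nat_lit 4) (nat_lit 5) (nat_lit 8) (by decide +kernel)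
theorem L86315 : W_31 (nat_lit 3) (nat_lit 0x4000000010000c000340004001e00090000800080000000000000000000000) (nat_lit 0x0) (nat_lit 0x400060005000000000000000000) := T_31 (nat_lit 89) (nat_lit 106) (nat_lit 4) (nat_lit 5) (nat_lit 9) L86314 (by decide +kernel)
theorem L86316 : W_31 (nat_lit 4) (nat_lit 0x4000000010000c000340004001e00090000800000000000000000000000000) (nat_lit 0x0) (nat_lit 0x14000e0005000000000000000000) := T_31 (nat_lit 91) (nat_lit 108) (nat_lit 6) (nat_lit 5) (nat_lit 9) L86315 (by decide +kernel)
theorem L86317 : W_31 (nat_lit 5) (nat_lit 0x4000000010000c000340004001e00090000000000000000000000000000000) (nat_lit 0x0) (nat_lit 0x8000000000001c000e0005000000000000000000) := T_31 (nat_lit 107) (nat_lit 159) (nat_lit 7) (nat_lit 5) (nat_lit 6) L86316 (by decide +kernel)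
theorem L86318 : W_31 (nat_lit 6) (nat_lit 0x10000c000340004001e00090000000000000000000000000000000) (nat_lit 0x0) (nat_lit 0x40002000000000000000008000000000001c000e0005000000000000000000) := T_31 (nat_lit 246) (nat_lit 229) (nat_lit 4) (nat_lit 8) (nat_lit 14) L86317 (by decide +kernel)
theorem L86319 : W_31 (nat_lit 7) (nat_lit 0x10000c000340004001e00080000000000000000000000000000000) (nat_lit 0x0) (nat_lit 0x40002000000000000000008000000018001c000e0005000000000000000000) := T_31 (nat_lit 124) (nat_lit 123) (nat_lit 0) (nat_lit 8) (nat_lit 8) L86318 (by decide +kernel)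
theorem L86320 : W_31 (nat_lit 8) (nat_lit 0x10000c000340004001c00080000000000000000000000000000000) (nat_lit 0x0) (nat_lit 0x4000200000000000000000a000200018001c000e0005000000000000000000) := T_31 (nat_lit 141) (nat_lit 157) (nat_lit 1) (nat_lit 8) (nat_lit 8) L86319 (by decide +kernel)
theorem L86321 : W_31 (nat_lit 9) (nat_lit 0x10000c000300004001c00080000000000000000000000000000000) (nat_lit 0x0) (nat_lit 0x400020000000000000c000a000200018001c000e0005000000000000000000) := T_31 (nat_lit 174) (nat_lit 175) (nat_lit 3) (nat_lit 4) (nat_lit 10) L86320 (by decide +kernel)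
theorem L86322 : W_31 (nat_lit 10) (nat_lit 0x10000c000300004001400080000000000000000000000000000000) (nat_lit 0x0) (nat_lit 0x400020000000000000c001a000a00018001c000e0005000000000000000000) := T_31 (nat_lit 143) (nat_lit 160) (nat_lit 7) (nat_lit 7) (nat_lit 8) L86321 (by decide +kernel)
theorem L86323 : W_31 (nat_lit 11) (nat_lit 0x10000c000300000001400080000000000000000000000000000000) (nat_lit 0x0) (nat_lit 0x400020000000010000e001f000a00038001c000e0005000000000000000000) := Q_31 (nat_lit 158) (C_31 L82523 (C_31 L85533 (C_31 L86309 (C_31 L86313 (C_31 L86322 N_31))))) (by decide +kernel)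
theorem L86329 : W_31 (nat_lit 11) (nat_lit 0x10000c0003400000014000a0000000000000000000000000000000) (nat_lit 0x0) (nat_lit 0xe001f000e00060003c001d0000000000000000000000000000000000000000) := T_31 (nat_lit 229) (nat_lit 246) (nat_lit 4) (nat_lit 8) (nat_lit 14) L86264 (by decide +kernel)
theorem L86330 : W_31 (nat_lit 12) (nat_lit 0x10000c000340000001400080000000000000000000000000000000) (nat_lit 0x0) (nat_lit 0xe001f000e00060003c001d8000000020000000000000000000000000000000) := T_31 (nat_lit 125) (nat_lit 159) (nat_lit 7) (nat_lit 6) (nat_lit 7) L86329 (by decide +kernel)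
theorem L86331 : W_31 (nat_lit 13) (nat_lit 0x10000c000300000001400080000000000000000000000000000000) (nat_lit 0x0) (nat_lit 0xe001f000e00060003cc01d8000000020000000000000000000000000000000) := T_31 (nat_lit 174) (nat_lit 175) (nat_lit 3) (nat_lit 4) (nat_lit 10) L86330 (by decide +kernel)
theorem L86332 : W_31 (nat_lit 2) (nat_lit 0x4000000010000c001f40008001400080000000000000000000000000000000) (nat_lit 0x0) (nat_lit 0x1c0000000000000000000000000000000000000000) := D_31 (nat_lit 163) (nat_lit 162) (nat_lit 164) (nat_lit 2) (nat_lit 6) (nat_lit 10) (nat_lit 2) (nat_lit 7) (nat_lit 10) (by decide +kernel)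
theorem L86333 : W_31 (nat_lit 3) (nat_lit 0x4000000010000c000f40008001400080000000000000000000000000000000) (nat_lit 0x0) (nat_lit 0x30001c0000000000000000000000000000000000000000) := T_31 (nat_lit 180) (nat_lit 181) (nat_lit 1) (nat_lit 11) (nat_lit 10) L86332 (by decide +kernel)
theorem L86334 : W_31 (nat_lit 4) (nat_lit 0x4000000010000c000740008001400080000000000000000000000000000000) (nat_lit 0x0) (nat_lit 0x38001c4000000000000000000000000000000000000000) := T_31 (nat_lit 179) (nat_lit 158) (nat_lit 0) (nat_lit 9) (nat_lit 10) L86333 (by decide +kernel)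
theorem L86335 : W_31 (nat_lit 5) (nat_lit 0x10000c000740008001400080000000000000000000000000000000) (nat_lit 0x0) (nat_lit 0x400020000000000038001c4000000000000000000000000000000000000000) := T_31 (nat_lit 246) (nat_lit 229) (nat_lit 4) (nat_lit 8) (nat_lit 14) L86334 (by decide +kernel)
theorem L86336 : W_31 (nat_lit 6) (nat_lit 0x10000c000740000001400080000000000000000000000000000000) (nat_lit 0x0) (nat_lit 0x400020000000000038001cc000000020000000000000000000000000000000) := T_31 (nat_lit 159) (nat_lit 125) (nat_lit 7) (nat_lit 6) (nat_lit 7) L86335 (by decide +kernel)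
theorem L86337 : W_31 (nat_lit 7) (nat_lit 0x10000c000700000001400080000000000000000000000000000000) (nat_lit 0x0) (nat_lit 0x400020000000000038c01cc000000020000000000000000000000000000000) := T_31 (nat_lit 174) (nat_lit 175) (nat_lit 3) (nat_lit 4) (nat_lit 10) L86336 (by decide +kernel)
theorem L86338 : W_31 (nat_lit 2) (nat_lit 0x4000000010000d000780004001600088000000000000000000000000000000) (nat_lit 0x0) (nat_lit 0x800010000400000000000000000000000000) := D_31 (nat_lit 124) (nat_lit 106) (nat_lit 143) (nat_lit 4) (nat_lit 5) (nat_lit 10) (nat_lit 0) (nat_lit 8) (nat_lit 8) (by decide +kernel)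
theorem L86339 : W_31 (nat_lit 3) (nat_lit 0x4000000010000d000780004001600080000000000000000000000000000000) (nat_lit 0x0) (nat_lit 0x900018000400000000000000000000000000) := T_31 (nat_lit 123) (nat_lit 140) (nat_lit 4) (nat_lit 5) (nat_lit 11) L86338 (by decide +kernel)
theorem L86340 : W_31 (nat_lit 4) (nat_lit 0x4000000010000d000780004001400080000000000000000000000000000000) (nat_lit 0x0) (nat_lit 0xb00038000400000000000000000000000000) := T_31 (nat_lit 141) (nat_lit 125) (nat_lit 6) (nat_lit 5) (nat_lit 11) L86339 (by decide +kernel)
theorem L86341 : W_31 (nat_lit 5) (nat_lit 0x4000000010000d000780000001400080000000000000000000000000000000) (nat_lit 0x0) (nat_lit 0x6000b00038000400000000000000000000000000) := T_31 (nat_lit 158) (nat_lit 157) (nat_lit 0) (nat_lit 8) (nat_lit 10) L86340 (by decide +kernel)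
theorem L86342 : W_31 (nat_lit 6) (nat_lit 0x4000000010000c000780000001400080000000000000000000000000000000) (nat_lit 0x0) (nat_lit 0x1800000006000b00038000400000000000000000000000000) := T_31 (nat_lit 192) (nat_lit 191) (nat_lit 1) (nat_lit 8) (nat_lit 10) L86341 (by decide +kernel)
theorem L86343 : W_31 (nat_lit 7) (nat_lit 0x4000000010000c000700000001400080000000000000000000000000000000) (nat_lit 0x0) (nat_lit 0x18000c0006000b00038000400000000000000000000000000) := T_31 (nat_lit 175) (nat_lit 174) (nat_lit 3) (nat_lit 4) (nat_lit 10) L86342 (by decide +kernel)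
theorem L86344 : W_31 (nat_lit 8) (nat_lit 0x10000c000700000001400080000000000000000000000000000000) (nat_lit 0x0) (nat_lit 0x400020000000018000c0006000b00038000400000000000000000000000000) := T_31 (nat_lit 246) (nat_lit 229) (nat_lit 4) (nat_lit 8) (nat_lit 14) L86343 (by decide +kernel)
theorem L86345 : W_31 (nat_lit 11) (nat_lit 0x10000c000700000001400080000000000000000000000000000000) (nat_lit 0x0) (nat_lit 0xe001f000e000600038001c8000000020000000000000000000000000000000) := T_31 (nat_lit 125) (nat_lit 159) (nat_lit 7) (nat_lit 6) (nat_lit 7) L86278 (by decide +kernel)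
theorem L86346 : W_31 (nat_lit 2) (nat_lit 0x10000c000f40008001400080000000000000000000000000000000) (nat_lit 0x0) (nat_lit 0x20000000000000000c0000000000000000000000000000000000000000) := D_31 (nat_lit 162) (nat_lit 163) (nat_lit 229) (nat_lit 2) (nat_lit 6) (nat_lit 10) (nat_lit 6) (nat_lit 8) (nat_lit 13) (by decide +kernel)
theorem L86347 : W_31 (nat_lit 3) (nat_lit 0x10000c000740008001400080000000000000000000000000000000) (nat_lit 0x0) (nat_lit 0x20000000000008000c4000000000000000000000000000000000000000) := T_31 (nat_lit 179) (nat_lit 158) (nat_lit 0) (nat_lit 9) (nat_lit 10) L86346 (by decide +kernel)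
theorem L86348 : W_31 (nat_lit 4) (nat_lit 0x10000c000740000001400080000000000000000000000000000000) (nat_lit 0x0) (nat_lit 0x20000000000008000cc000000020000000000000000000000000000000) := T_31 (nat_lit 159) (nat_lit 125) (nat_lit 7) (nat_lit 6) (nat_lit 7) L86347 (by decide +kernel)
theorem L86349 : W_31 (nat_lit 5) (nat_lit 0x10000c000700000001400080000000000000000000000000000000) (nat_lit 0x0) (nat_lit 0x20000000000008c00cc000000020000000000000000000000000000000) := T_31 (nat_lit 174) (nat_lit 175) (nat_lit 3) (nat_lit 4) (nat_lit 10) L86348 (by decide +kernel)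
theorem L86350 : W_31 (nat_lit 2) (nat_lit 0x10000d0007800000014000a0000000000000000000000000000000) (nat_lit 0x0) (nat_lit 0x6000200000000000000000000000000000000000) := D_31 (nat_lit 158) (nat_lit 157) (nat_lit 141) (nat_lit 0) (nat_lit 8) (nat_lit 10) (nat_lit 6) (nat_lit 5) (nat_lit 11) (by decide +kernel)
theorem L86351 : W_31 (nat_lit 3) (nat_lit 0x10000c0007800000014000a0000000000000000000000000000000) (nat_lit 0x0) (nat_lit 0x1800000006000200000000000000000000000000000000000) := T_31 (nat_lit 192) (nat_lit 191) (nat_lit 1) (nat_lit 8) (nat_lit 10) L86350 (by decide +kernel)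
theorem L86352 : W_31 (nat_lit 4) (nat_lit 0x10000c0007000000014000a0000000000000000000000000000000) (nat_lit 0x0) (nat_lit 0x18000c0006000200000000000000000000000000000000000) := T_31 (nat_lit 175) (nat_lit 174) (nat_lit 3) (nat_lit 4) (nat_lit 10) L86351 (by decide +kernel)
theorem L86353 : W_31 (nat_lit 5) (nat_lit 0x10000c000700000001400080000000000000000000000000000000) (nat_lit 0x0) (nat_lit 0x18000c000e000200020000000000000000000000000000000) := T_31 (nat_lit 125) (nat_lit 159) (nat_lit 7) (nat_lit 6) (nat_lit 7) L86352 (by decide +kernel)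
theorem L86354 : W_31 (nat_lit 6) (nat_lit 0x700010000c001f40000001400080000000000000000000000000000000) (nat_lit 0x0) (nat_lit 0x18000e0006000000018c000000000000000000000000000000000000000) := T_31 (nat_lit 159) (nat_lit 158) (nat_lit 0) (nat_lit 9) (nat_lit 10) L83844 (by decide +kernel)
theorem L86355 : W_31 (nat_lit 7) (nat_lit 0x700010000c000f40000001400080000000000000000000000000000000) (nat_lit 0x0) (nat_lit 0x18000e0006000300018c000000000000000000000000000000000000000) := T_31 (nat_lit 180) (nat_lit 181) (nat_lit 1) (nat_lit 11) (nat_lit 10) L86354 (by decide +kernel)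
theorem L86356 : W_31 (nat_lit 8) (nat_lit 0x700010000c000740000001400080000000000000000000000000000000) (nat_lit 0x0) (nat_lit 0x18000e000600038001cc000000000000000000000000000000000000000) := T_31 (nat_lit 179) (nat_lit 162) (nat_lit 6) (nat_lit 8) (nat_lit 13) L86355 (by decide +kernel)
theorem L86357 : W_31 (nat_lit 9) (nat_lit 0x300010000c000740000001400080000000000000000000000000000000) (nat_lit 0x0) (nat_lit 0x8001c000e000600038001cc000000000000000000000000000000000000000) := T_31 (nat_lit 230) (nat_lit 247) (nat_lit 7) (nat_lit 8) (nat_lit 10) L86356 (by decide +kernel)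
theorem L86358 : W_31 (nat_lit 10) (nat_lit 0x200010000c000740000001400080000000000000000000000000000000) (nat_lit 0x0) (nat_lit 0xa001d000e000600038001cc000000000000000000000000000000000000000) := T_31 (nat_lit 228) (nat_lit 245) (nat_lit 5) (nat_lit 8) (nat_lit 10) L86357 (by decide +kernel)
theorem L86359 : W_31 (nat_lit 11) (nat_lit 0x10000c000740000001400080000000000000000000000000000000) (nat_lit 0x0) (nat_lit 0xe001f000e000600038001cc000000000000000000000000000000000000000) := T_31 (nat_lit 229) (nat_lit 246) (nat_lit 4) (nat_lit 8) (nat_lit 14) L86358 (by decide +kernel)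
theorem L86360 : W_31 (nat_lit 12) (nat_lit 0x10000c000700000001400080000000000000000000000000000000) (nat_lit 0x0) (nat_lit 0xe001f000e000600038c01cc000000000000000000000000000000000000000) := T_31 (nat_lit 174) (nat_lit 175) (nat_lit 3) (nat_lit 4) (nat_lit 10) L86359 (by decide +kernel)
theorem L86361 : W_31 (nat_lit 13) (nat_lit 0x10000c000300000001400080000000000000000000000000000000) (nat_lit 0x0) (nat_lit 0xfc01fc00e20061803cc01ce000b00038000400000000000000000000000000) := Q_31 (nat_lit 178) (C_31 L86241 (C_31 L86337 (C_31 L86344 (C_31 L86345 (C_31 L86349 (C_31 L86353 (C_31 L86360 N_31))))))) (by decide +kernel)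
theorem L86362 : W_31 (nat_lit 2) (nat_lit 0x10000d0007800100014000a0000000000000000000000000000000) (nat_lit 0x0) (nat_lit 0x6000200000000000000000000000000000000000) := D_31 (nat_lit 158) (nat_lit 157) (nat_lit 141) (nat_lit 0) (nat_lit 8) (nat_lit 10) (nat_lit 6) (nat_lit 5) (nat_lit 11) (by decide +kernel)
theorem L86363 : W_31 (nat_lit 3) (nat_lit 0x10000c0007800100014000a0000000000000000000000000000000) (nat_lit 0x0) (nat_lit 0x1800000006000200000000000000000000000000000000000) := T_31 (nat_lit 192) (nat_lit 191) (nat_lit 1) (nat_lit 8) (nat_lit 10) L86362 (by decide +kernel)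
theorem L86364 : W_31 (nat_lit 4) (nat_lit 0x10000c0007000100014000a0000000000000000000000000000000) (nat_lit 0x0) (nat_lit 0x18000c0006000200000000000000000000000000000000000) := T_31 (nat_lit 175) (nat_lit 174) (nat_lit 3) (nat_lit 4) (nat_lit 10) L86363 (by decide +kernel)
theorem L86365 : W_31 (nat_lit 5) (nat_lit 0x10000c0003000100014000a0000000000000000000000000000000) (nat_lit 0x0) (nat_lit 0x20000000018004c0006000200000000000000000000000000000000000) := T_31 (nat_lit 178) (nat_lit 229) (nat_lit 4) (nat_lit 8) (nat_lit 13) L86364 (by decide +kernel)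
theorem L86366 : W_31 (nat_lit 6) (nat_lit 0x10000c000300010001400080000000000000000000000000000000) (nat_lit 0x0) (nat_lit 0x20000000018004c000e000200020000000000000000000000000000000) := T_31 (nat_lit 125) (nat_lit 159) (nat_lit 7) (nat_lit 6) (nat_lit 7) L86365 (by decide +kernel)
theorem L86367 : W_31 (nat_lit 7) (nat_lit 0x10000c000300000001400080000000000000000000000000000000) (nat_lit 0x0) (nat_lit 0x20000000018004c001e000a00020000000000000000000000000000000) := T_31 (nat_lit 160) (nat_lit 143) (nat_lit 7) (nat_lit 7) (nat_lit 8) L86366 (by decide +kernel)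
theorem L86368 : W_31 (nat_lit 2) (nat_lit 0x10000c0007800040014000a0000000000000000000000000000000) (nat_lit 0x0) (nat_lit 0x1800000000000200000000000000000000000000000000000) := D_31 (nat_lit 192) (nat_lit 141) (nat_lit 191) (nat_lit 6) (nat_lit 5) (nat_lit 11) (nat_lit 1) (nat_lit 8) (nat_lit 10) (by decide +kernel)
theorem L86369 : W_31 (nat_lit 3) (nat_lit 0x10000c0003800040014000a0000000000000000000000000000000) (nat_lit 0x0) (nat_lit 0x1800400002000200000000000000000000000000000000000) := T_31 (nat_lit 178) (nat_lit 157) (nat_lit 0) (nat_lit 8) (nat_lit 10) L86368 (by decide +kernel)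
theorem L86370 : W_31 (nat_lit 4) (nat_lit 0x10000c0003000040014000a0000000000000000000000000000000) (nat_lit 0x0) (nat_lit 0x18004c0002000200000000000000000000000000000000000) := T_31 (nat_lit 175) (nat_lit 174) (nat_lit 3) (nat_lit 4) (nat_lit 10) L86369 (by decide +kernel)
theorem L86371 : W_31 (nat_lit 5) (nat_lit 0x10000c000300004001400080000000000000000000000000000000) (nat_lit 0x0) (nat_lit 0x18004c000a000200020000000000000000000000000000000) := T_31 (nat_lit 125) (nat_lit 159) (nat_lit 7) (nat_lit 6) (nat_lit 7) L86370 (by decide +kernel)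
theorem L86372 : W_31 (nat_lit 2) (nat_lit 0x10000c000380004001c00080000000000000000000000000000000) (nat_lit 0x0) (nat_lit 0x400002000200000000000000000000000000000000000) := D_31 (nat_lit 157) (nat_lit 178) (nat_lit 141) (nat_lit 0) (nat_lit 8) (nat_lit 10) (nat_lit 1) (nat_lit 8) (nat_lit 8) (by decide +kernel)
theorem L86373 : W_31 (nat_lit 3) (nat_lit 0x10000c000380004001400080000000000000000000000000000000) (nat_lit 0x0) (nat_lit 0x400012000a00000000000000000000000000000000000) := T_31 (nat_lit 143) (nat_lit 160) (nat_lit 7) (nat_lit 7) (nat_lit 8) L86372 (by decide +kernel)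
theorem L86374 : W_31 (nat_lit 4) (nat_lit 0x10000c000300004001400080000000000000000000000000000000) (nat_lit 0x0) (nat_lit 0x4c0012000a00000000000000000000000000000000000) := T_31 (nat_lit 175) (nat_lit 174) (nat_lit 3) (nat_lit 4) (nat_lit 10) L86373 (by decide +kernel)
theorem L86375 : W_31 (nat_lit 4) (nat_lit 0x10000c000300004001400080000000000000000000000000000000) (nat_lit 0x0) (nat_lit 0x1b000a00020000000000000000000000000000000) := T_31 (nat_lit 143) (nat_lit 160) (nat_lit 7) (nat_lit 7) (nat_lit 8) L82525 (by decide +kernel)
theorem L86376 : W_31 (nat_lit 7) (nat_lit 0x10000c000300000001400080000000000000000000000000000000) (nat_lit 0x0) (nat_lit 0x18004e001f000a00030001000080000000000000000000000) := Q_31 (nat_lit 158) (C_31 L85533 (C_31 L86371 (C_31 L86374 (C_31 L86375 (C_31 L85529 N_31))))) (by decide +kernel)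
theorem L86377 : W_31 (nat_lit 14) (nat_lit 0xc000300000001400080000000000000000000000000000000) (nat_lit 0x0) (nat_lit 0xfc01fc00f20061803ce01df000b00038001c000e0005000000000000000000) := Q_31 (nat_lit 212) (C_31 L86331 (C_31 L86252 (C_31 L86323 (C_31 L86255 (C_31 L86361 (C_31 L86367 (C_31 L86376 N_31))))))) (by decide +kernel)
theorem L86378 : W_31 (nat_lit 5) (nat_lit 0xc000300004001400080000000000000000000000000000000) (nat_lit 0x0) (nat_lit 0x10000c0008000200030001000080000000000000000000000) := T_31 (nat_lit 175) (nat_lit 174) (nat_lit 3) (nat_lit 4) (nat_lit 10) L82675 (by decide +kernel)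
theorem L86379 : W_31 (nat_lit 2) (nat_lit 0xd000380004001400080000000000000000000000000000000) (nat_lit 0x0) (nat_lit 0x800400002000000000000000000000000000000000000000) := D_31 (nat_lit 178) (nat_lit 191) (nat_lit 157) (nat_lit 1) (nat_lit 8) (nat_lit 10) (nat_lit 0) (nat_lit 8) (nat_lit 10) (by decide +kernel)
theorem L86380 : W_31 (nat_lit 2) (nat_lit 0xd000380004001700080000000000000000000000000000000) (nat_lit 0x0) (nat_lit 0x20000000400002000000000000000000000000000000000000000) := D_31 (nat_lit 157) (nat_lit 178) (nat_lit 209) (nat_lit 0) (nat_lit 8) (nat_lit 10) (nat_lit 4) (nat_lit 5) (nat_lit 12) (by decide +kernel)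
theorem L86381 : W_31 (nat_lit 3) (nat_lit 0xd000380004001600080000000000000000000000000000000) (nat_lit 0x0) (nat_lit 0x20000000400002000100008000000000000000000000000000000) := T_31 (nat_lit 140) (nat_lit 123) (nat_lit 4) (nat_lit 5) (nat_lit 11) L86380 (by decide +kernel)
theorem L86382 : W_31 (nat_lit 4) (nat_lit 0xd000380004001400080000000000000000000000000000000) (nat_lit 0x0) (nat_lit 0x20000000400002000300028000000000000000000000000000000) := T_31 (nat_lit 141) (nat_lit 125) (nat_lit 6) (nat_lit 5) (nat_lit 11) L86381 (by decide +kernel)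
theorem L86383 : W_31 (nat_lit 2) (nat_lit 0xd800380004001400080000000000000000000000000000000) (nat_lit 0x0) (nat_lit 0x10000000000000000200020000000000000000000000000000000) := D_31 (nat_lit 141) (nat_lit 125) (nat_lit 208) (nat_lit 6) (nat_lit 5) (nat_lit 11) (nat_lit 5) (nat_lit 5) (nat_lit 8) (by decide +kernel)
theorem L86384 : W_31 (nat_lit 3) (nat_lit 0xd000380004001400080000000000000000000000000000000) (nat_lit 0x0) (nat_lit 0x10000800400000000200020000000000000000000000000000000) := T_31 (nat_lit 191) (nat_lit 178) (nat_lit 1) (nat_lit 8) (nat_lit 10) L86383 (by decide +kernel)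
theorem L86385 : W_31 (nat_lit 6) (nat_lit 0xc000380004001400080000000000000000000000000000000) (nat_lit 0x0) (nat_lit 0x200030001800400002000300028000000000000000000000000000000) := Q_31 (nat_lit 192) (C_31 L85550 (C_31 L86379 (C_31 L86382 (C_31 L86384 N_31)))) (by decide +kernel)
theorem L86386 : W_31 (nat_lit 7) (nat_lit 0xc000300004001400080000000000000000000000000000000) (nat_lit 0x0) (nat_lit 0x2000300018004c0002000300028000000000000000000000000000000) := T_31 (nat_lit 175) (nat_lit 174) (nat_lit 3) (nat_lit 4) (nat_lit 10) L86385 (by decide +kernel)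
theorem L86387 : W_31 (nat_lit 2) (nat_lit 0xc00030000e001400080000000000000000000000000000000) (nat_lit 0x0) (nat_lit 0xc00010000000000000000000000000000000000000000) := D_31 (nat_lit 178) (nat_lit 179) (nat_lit 160) (nat_lit 0) (nat_lit 9) (nat_lit 10) (nat_lit 3) (nat_lit 4) (nat_lit 9) (by decide +kernel)
theorem L86388 : W_31 (nat_lit 3) (nat_lit 0xc00030000c001400080000000000000000000000000000000) (nat_lit 0x0) (nat_lit 0xc00013000000000000000000000000000000000000000) := T_31 (nat_lit 157) (nat_lit 156) (nat_lit 3) (nat_lit 3) (nat_lit 9) L86387 (by decide +kernel)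
theorem L86389 : W_31 (nat_lit 4) (nat_lit 0xc000300004001400080000000000000000000000000000000) (nat_lit 0x0) (nat_lit 0xc0001b000000020000000000000000000000000000000) := T_31 (nat_lit 159) (nat_lit 125) (nat_lit 7) (nat_lit 6) (nat_lit 7) L86388 (by decide +kernel)
theorem L86390 : W_31 (nat_lit 4) (nat_lit 0xc000780004001400080000000000000000000000000000000) (nat_lit 0x0) (nat_lit 0x38001c8000000000000000000000000000000000000000) := T_31 (nat_lit 179) (nat_lit 159) (nat_lit 0) (nat_lit 9) (nat_lit 10) L86005 (by decide +kernel)
theorem L86391 : W_31 (nat_lit 5) (nat_lit 0xc000380004001400080000000000000000000000000000000) (nat_lit 0x0) (nat_lit 0x3c001ca000000000000000000000000000000000000000) := T_31 (nat_lit 178) (nat_lit 157) (nat_lit 0) (nat_lit 8) (nat_lit 10) L86390 (by decide +kernel)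
theorem L86392 : W_31 (nat_lit 6) (nat_lit 0xc000300004001400080000000000000000000000000000000) (nat_lit 0x0) (nat_lit 0x3cc01ca000000000000000000000000000000000000000) := T_31 (nat_lit 175) (nat_lit 174) (nat_lit 3) (nat_lit 4) (nat_lit 10) L86391 (by decide +kernel)
theorem L86393 : W_31 (nat_lit 8) (nat_lit 0xc000300000001400080000000000000000000000000000000) (nat_lit 0x0) (nat_lit 0x200030001803cc01df000300038001000080000000000000000000000) := Q_31 (nat_lit 158) (C_31 L86378 (C_31 L86386 (C_31 L86389 (C_31 L86392 N_31)))) (by decide +kernel)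
theorem L86400 : W_31 (nat_lit 3) (nat_lit 0xc00034000c001400080000000000000000000000000000000) (nat_lit 0x0) (nat_lit 0x20013000800000000000000000000000000000000000) := T_31 (nat_lit 160) (nat_lit 143) (nat_lit 6) (nat_lit 7) (nat_lit 11) L85588 (by decide +kernel)
theorem L86401 : W_31 (nat_lit 4) (nat_lit 0xc00030000c001400080000000000000000000000000000000) (nat_lit 0x0) (nat_lit 0xe0013000800000000000000000000000000000000000) := T_31 (nat_lit 174) (nat_lit 175) (nat_lit 3) (nat_lit 4) (nat_lit 10) L86400 (by decide +kernel)
theorem L86402 : W_31 (nat_lit 2) (nat_lit 0xc00078001c001400080000000000000000000000000000000) (nat_lit 0x0) (nat_lit 0x20001800000000000000000000000000000000000000000000000) := D_31 (nat_lit 192) (nat_lit 209) (nat_lit 191) (nat_lit 6) (nat_lit 5) (nat_lit 12) (nat_lit 1) (nat_lit 8) (nat_lit 10) (by decide +kernel)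
theorem L86403 : W_31 (nat_lit 3) (nat_lit 0xc00038001c001400080000000000000000000000000000000) (nat_lit 0x0) (nat_lit 0x20001800c00000000000000000000000000000000000000000000) := T_31 (nat_lit 178) (nat_lit 179) (nat_lit 0) (nat_lit 9) (nat_lit 10) L86402 (by decide +kernel)
theorem L86404 : W_31 (nat_lit 4) (nat_lit 0xc00030001c001400080000000000000000000000000000000) (nat_lit 0x0) (nat_lit 0x20001800cc0000000000000000000000000000000000000000000) := T_31 (nat_lit 175) (nat_lit 174) (nat_lit 3) (nat_lit 4) (nat_lit 10) L86403 (by decide +kernel)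
theorem L86405 : W_31 (nat_lit 5) (nat_lit 0xc00030000c001400080000000000000000000000000000000) (nat_lit 0x0) (nat_lit 0x20001800cc0010000800000000000000000000000000000000000) := T_31 (nat_lit 160) (nat_lit 143) (nat_lit 6) (nat_lit 7) (nat_lit 11) L86404 (by decide +kernel)
theorem L86406 : W_31 (nat_lit 6) (nat_lit 0xc000300008001400080000000000000000000000000000000) (nat_lit 0x0) (nat_lit 0x20001800ce0017000800000000000000000000000000000000000) := Q_31 (nat_lit 158) (C_31 L86401 (C_31 L86388 (C_31 L83900 (C_31 L86405 N_31)))) (by decide +kernel)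
theorem L86407 : W_31 (nat_lit 7) (nat_lit 0xc000300000001400080000000000000000000000000000000) (nat_lit 0x0) (nat_lit 0x20001800ce001f000800020000000000000000000000000000000) := T_31 (nat_lit 159) (nat_lit 125) (nat_lit 7) (nat_lit 6) (nat_lit 7) L86406 (by decide +kernel)
theorem L86414 : W_31 (nat_lit 15) (nat_lit 0xc000300000001000080000000000000000000000000000000) (nat_lit 0x0) (nat_lit 0xfc01ff00f38061c03ce01df000f8013e001c000e0005000000000000000000) := Q_31 (nat_lit 142) (C_31 L86277 (C_31 L86377 (C_31 L86393 (C_31 L85524 (C_31 L86397 (C_31 L86399 (C_31 L86407 (C_31 L86413 N_31)))))))) (by decide +kernel)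
theorem L86415 : W_31 (nat_lit 2) (nat_lit 0x68006000700008001000080000000000000000000000000000000) (nat_lit 0x0) (nat_lit 0x1800004000000000000000000000000000000000000000) := D_31 (nat_lit 179) (nat_lit 158) (nat_lit 180) (nat_lit 0) (nat_lit 9) (nat_lit 10) (nat_lit 1) (nat_lit 10) (nat_lit 10) (by decide +kernel)
theorem L86416 : W_31 (nat_lit 3) (nat_lit 0x68006000700000001000080000000000000000000000000000000) (nat_lit 0x0) (nat_lit 0x40000000000180000c000000000000000000000000000000000000000) := T_31 (nat_lit 159) (nat_lit 226) (nat_lit 5) (nat_lit 6) (nat_lit 9) L86415 (by decide +kernel)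
theorem L86417 : W_31 (nat_lit 4) (nat_lit 0x60006000700000001000080000000000000000000000000000000) (nat_lit 0x0) (nat_lit 0x40001800000180000c000000000000000000000000000000000000000) := T_31 (nat_lit 207) (nat_lit 208) (nat_lit 2) (nat_lit 3) (nat_lit 12) L86416 (by decide +kernel)
theorem L86465 : W_31 (nat_lit 2) (nat_lit 0x6000e00000001000080000000000000000000000000000000) (nat_lit 0x0) (nat_lit 0x9800000000000000000000000000000000000000000000000) := D_31 (nat_lit 192) (nat_lit 195) (nat_lit 191) (nat_lit 2) (nat_lit 5) (nat_lit 11) (nat_lit 2) (nat_lit 4) (nat_lit 11) (by decide +kernel)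
theorem L86466 : W_31 (nat_lit 3) (nat_lit 0x6000600000001000080000000000000000000000000000000) (nat_lit 0x0) (nat_lit 0x9801800000000000000000000000000000000000000000000) := T_31 (nat_lit 179) (nat_lit 180) (nat_lit 1) (nat_lit 10) (nat_lit 10) L86465 (by decide +kernel)
theorem L86994 : W_31 (nat_lit 13) (nat_lit 0xc000200000001000080000000000000000000000000000000) (nat_lit 0x0) (nat_lit 0xfe007e007b8033c03de01cf000f00038000c00000000000000000000000000) := Q_31 (nat_lit 176) (C_31 L84187 (C_31 L82190 (C_31 L5377 (C_31 L83886 (C_31 L83889 N_31))))) (by decide +kernel)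
theorem L87002 : W_31 (nat_lit 2) (nat_lit 0x4000000010001f000a00000001000080000000000000000000000000000000) (nat_lit 0x0) (nat_lit 0x1c0000000000000000000000000000000000000000000) := D_31 (nat_lit 175) (nat_lit 176) (nat_lit 174) (nat_lit 0) (nat_lit 9) (nat_lit 11) (nat_lit 0) (nat_lit 8) (nat_lit 11) (by decide +kernel)
theorem L87003 : W_31 (nat_lit 3) (nat_lit 0x4000000010001e000a00000001000080000000000000000000000000000000) (nat_lit 0x0) (nat_lit 0x10005c0000000000000000000000000000000000000000000) := T_31 (nat_lit 192) (nat_lit 178) (nat_lit 2) (nat_lit 5) (nat_lit 11) L87002 (by decide +kernel)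
theorem L87004 : W_31 (nat_lit 4) (nat_lit 0x4000000010001e000200000001000080000000000000000000000000000000) (nat_lit 0x0) (nat_lit 0x1001dc0000000000000000000000000000000000000000000) := T_31 (nat_lit 179) (nat_lit 180) (nat_lit 2) (nat_lit 6) (nat_lit 11) L87003 (by decide +kernel)
theorem L87005 : W_31 (nat_lit 5) (nat_lit 0x10001e000200000001000080000000000000000000000000000000) (nat_lit 0x0) (nat_lit 0x40002000000001001dc0000000000000000000000000000000000000000000) := T_31 (nat_lit 246) (nat_lit 229) (nat_lit 4) (nat_lit 8) (nat_lit 14) L87004 (by decide +kernel)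
theorem L87006 : W_31 (nat_lit 6) (nat_lit 0x10001c000200000001000080000000000000000000000000000000) (nat_lit 0x0) (nat_lit 0x40002000600003001dc0040000000000000000000000000000000000000000) := Q_31 (nat_lit 193) (C_31 L85645 (C_31 L80283 (C_31 L87005 N_31))) (by decide +kernel)
theorem L87007 : W_31 (nat_lit 9) (nat_lit 0x10000c000200000001000080000000000000000000000000000000) (nat_lit 0x0) (nat_lit 0xc0006001e800f3007dc00c0004000000000000000000000000000000000000) := Q_31 (nat_lit 196) (C_31 L85631 (C_31 L86999 (C_31 L87001 (C_31 L87006 N_31)))) (by decide +kernel)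
theorem L87011 : W_31 (nat_lit 3) (nat_lit 0x10000e000200000001000080000000000000000000000000000000) (nat_lit 0x0) (nat_lit 0x280001800400000000000000000000000000000000000000000000) := T_31 (nat_lit 192) (nat_lit 213) (nat_lit 3) (nat_lit 5) (nat_lit 11) L5290 (by decide +kernel)
theorem L87024 : W_31 (nat_lit 2) (nat_lit 0x30003e001200010001000080000000000000000000000000000000) (nat_lit 0x0) (nat_lit 0xc0000400000000000000000000000000000000000000000000) := D_31 (nat_lit 198) (nat_lit 199) (nat_lit 178) (nat_lit 1) (nat_lit 12) (nat_lit 11) (nat_lit 0) (nat_lit 11) (nat_lit 11) (by decide +kernel)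
theorem L87025 : W_31 (nat_lit 3) (nat_lit 0x30001e001200010001000080000000000000000000000000000000) (nat_lit 0x0) (nat_lit 0xe0002400000000000000000000000000000000000000000000) := T_31 (nat_lit 197) (nat_lit 181) (nat_lit 2) (nat_lit 7) (nat_lit 11) L87024 (by decide +kernel)
theorem L87026 : W_31 (nat_lit 4) (nat_lit 0x30001e000200010001000080000000000000000000000000000000) (nat_lit 0x0) (nat_lit 0xe0003c00000000000000000000000000000000000000000000) := T_31 (nat_lit 180) (nat_lit 179) (nat_lit 2) (nat_lit 6) (nat_lit 11) L87025 (by decide +kernel)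
theorem L87032 : W_31 (nat_lit 2) (nat_lit 0x30000e000280000001000080000000000000000000000000000000) (nat_lit 0x0) (nat_lit 0xc80000000000000000000000000000000000000000000000000000) := D_31 (nat_lit 214) (nat_lit 211) (nat_lit 215) (nat_lit 0) (nat_lit 10) (nat_lit 12) (nat_lit 0) (nat_lit 11) (nat_lit 12) (by decide +kernel)
theorem L87033 : W_31 (nat_lit 2) (nat_lit 0x10000c000380010001000080000000000000000000000000000000) (nat_lit 0x0) (nat_lit 0x32000000000000000000000000000000000000000000000000) := D_31 (nat_lit 196) (nat_lit 197) (nat_lit 193) (nat_lit 0) (nat_lit 10) (nat_lit 11) (nat_lit 0) (nat_lit 9) (nat_lit 11) (by decide +kernel)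
theorem L87034 : W_31 (nat_lit 3) (nat_lit 0x10000c000300010001000080000000000000000000000000000000) (nat_lit 0x0) (nat_lit 0x320000c0000000000000000000000000000000000000000000) := T_31 (nat_lit 175) (nat_lit 174) (nat_lit 3) (nat_lit 4) (nat_lit 10) L87033 (by decide +kernel)
theorem L87035 : W_31 (nat_lit 4) (nat_lit 0x10000c000300000001000080000000000000000000000000000000) (nat_lit 0x0) (nat_lit 0x320000c0010000800000000000000000000000000000000000) := T_31 (nat_lit 160) (nat_lit 143) (nat_lit 7) (nat_lit 7) (nat_lit 8) L87034 (by decide +kernel)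
theorem L87036 : W_31 (nat_lit 2) (nat_lit 0x100018000c000300000001000080000000000000000000000000000000) (nat_lit 0x0) (nat_lit 0x400020000000000000000400000000000000000000000000000000000000000000) := D_31 (nat_lit 245) (nat_lit 262) (nat_lit 178) (nat_lit 6) (nat_lit 7) (nat_lit 15) (nat_lit 6) (nat_lit 7) (nat_lit 14) (by decide +kernel)
theorem L87037 : W_31 (nat_lit 2) (nat_lit 0x78002c000300010001000080000000000000000000000000000000) (nat_lit 0x0) (nat_lit 0x1800000000000000008000000000000000000000000000000000000000) := D_31 (nat_lit 228) (nat_lit 227) (nat_lit 159) (nat_lit 1) (nat_lit 10) (nat_lit 12) (nat_lit 4) (nat_lit 7) (nat_lit 13) (by decide +kernel)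
theorem L87038 : W_31 (nat_lit 3) (nat_lit 0x70002c000300010001000080000000000000000000000000000000) (nat_lit 0x0) (nat_lit 0x1800080040000000008000000000000000000000000000000000000000) := T_31 (nat_lit 211) (nat_lit 198) (nat_lit 2) (nat_lit 7) (nat_lit 12) L87037 (by decide +kernel)
theorem L87039 : W_31 (nat_lit 4) (nat_lit 0x70002c000300000001000080000000000000000000000000000000) (nat_lit 0x0) (nat_lit 0x1800080040000000018000800000000000000000000000000000000000) := T_31 (nat_lit 160) (nat_lit 143) (nat_lit 7) (nat_lit 7) (nat_lit 8) L87038 (by decide +kernel)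
theorem L87040 : W_31 (nat_lit 5) (nat_lit 0x30002c000300000001000080000000000000000000000000000000) (nat_lit 0x0) (nat_lit 0x1800c80040000000018000800000000000000000000000000000000000) := T_31 (nat_lit 214) (nat_lit 215) (nat_lit 0) (nat_lit 11) (nat_lit 12) L87039 (by decide +kernel)
theorem L87041 : W_31 (nat_lit 6) (nat_lit 0x30000c000300000001000080000000000000000000000000000000) (nat_lit 0x0) (nat_lit 0x1800c80070000000018000800000000000000000000000000000000000) := T_31 (nat_lit 197) (nat_lit 196) (nat_lit 0) (nat_lit 10) (nat_lit 11) L87040 (by decide +kernel)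
theorem L87042 : W_31 (nat_lit 2) (nat_lit 0x70000c000300000001000080000000000000000000000000000000) (nat_lit 0x0) (nat_lit 0x80003000000000000000000000000000000000000000000000000) := D_31 (nat_lit 193) (nat_lit 192) (nat_lit 211) (nat_lit 3) (nat_lit 5) (nat_lit 11) (nat_lit 0) (nat_lit 10) (nat_lit 12) (by decide +kernel)
theorem L87043 : W_31 (nat_lit 3) (nat_lit 0x30000c000300000001000080000000000000000000000000000000) (nat_lit 0x0) (nat_lit 0xc80003000000000000000000000000000000000000000000000000) := T_31 (nat_lit 214) (nat_lit 215) (nat_lit 0) (nat_lit 11) (nat_lit 12) L87042 (by decide +kernel)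
theorem L87044 : W_31 (nat_lit 2) (nat_lit 0x30000d000300008001400080000000000000000000000000000000) (nat_lit 0x0) (nat_lit 0x80000000000010000800000000000000000000000000000000000) := D_31 (nat_lit 160) (nat_lit 143) (nat_lit 211) (nat_lit 7) (nat_lit 7) (nat_lit 8) (nat_lit 4) (nat_lit 7) (nat_lit 12) (by decide +kernel)
theorem L87045 : W_31 (nat_lit 3) (nat_lit 0x30000d000300000001400080000000000000000000000000000000) (nat_lit 0x0) (nat_lit 0x80000000000018000800020000000000000000000000000000000) := T_31 (nat_lit 159) (nat_lit 125) (nat_lit 7) (nat_lit 6) (nat_lit 7) L87044 (by decide +kernel)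
theorem L87046 : W_31 (nat_lit 4) (nat_lit 0x30000c000300000001400080000000000000000000000000000000) (nat_lit 0x0) (nat_lit 0x80003000000018000800020000000000000000000000000000000) := T_31 (nat_lit 192) (nat_lit 193) (nat_lit 3) (nat_lit 5) (nat_lit 11) L87045 (by decide +kernel)
theorem L87047 : W_31 (nat_lit 2) (nat_lit 0x30002c000300008001400080000000000000000000000000000000) (nat_lit 0x0) (nat_lit 0x80003000000000000000000000000000000000000000000000000) := D_31 (nat_lit 193) (nat_lit 192) (nat_lit 211) (nat_lit 3) (nat_lit 5) (nat_lit 11) (nat_lit 7) (nat_lit 6) (nat_lit 8) (by decide +kernel)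
theorem L87048 : W_31 (nat_lit 3) (nat_lit 0x30002c000300000001400080000000000000000000000000000000) (nat_lit 0x0) (nat_lit 0x80003000000008000000020000000000000000000000000000000) := T_31 (nat_lit 159) (nat_lit 125) (nat_lit 7) (nat_lit 6) (nat_lit 7) L87047 (by decide +kernel)
theorem L87049 : W_31 (nat_lit 4) (nat_lit 0x30000c000300000001400080000000000000000000000000000000) (nat_lit 0x0) (nat_lit 0x80033000000008000000020000000000000000000000000000000) := T_31 (nat_lit 197) (nat_lit 196) (nat_lit 0) (nat_lit 10) (nat_lit 11) L87048 (by decide +kernel)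
theorem L87050 : W_31 (nat_lit 2) (nat_lit 0x100038000d000300000001000080000000000000000000000000000000) (nat_lit 0x0) (nat_lit 0x400020000000000000000400000000000000000000000000000000000000000000) := D_31 (nat_lit 245) (nat_lit 178) (nat_lit 262) (nat_lit 6) (nat_lit 7) (nat_lit 14) (nat_lit 6) (nat_lit 7) (nat_lit 15) (by decide +kernel)
theorem L87051 : W_31 (nat_lit 3) (nat_lit 0x100030000d000300000001000080000000000000000000000000000000) (nat_lit 0x0) (nat_lit 0x400020000000080000000400008000000000000000000000000000000000000000) := T_31 (nat_lit 211) (nat_lit 159) (nat_lit 4) (nat_lit 7) (nat_lit 13) L87050 (by decide +kernel)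
theorem L87052 : W_31 (nat_lit 4) (nat_lit 0x100030000c000300000001000080000000000000000000000000000000) (nat_lit 0x0) (nat_lit 0x400020000000080003000400008000000000000000000000000000000000000000) := T_31 (nat_lit 192) (nat_lit 193) (nat_lit 3) (nat_lit 5) (nat_lit 11) L87051 (by decide +kernel)
theorem L87053 : W_31 (nat_lit 2) (nat_lit 0x500030001c000300000001000080000000000000000000000000000000) (nat_lit 0x0) (nat_lit 0x1000080000000000000000400000000000000000000000000000000000000000000) := D_31 (nat_lit 247) (nat_lit 264) (nat_lit 178) (nat_lit 4) (nat_lit 9) (nat_lit 15) (nat_lit 4) (nat_lit 9) (nat_lit 14) (by decide +kernel)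
theorem L87054 : W_31 (nat_lit 3) (nat_lit 0x500030000c000300000001000080000000000000000000000000000000) (nat_lit 0x0) (nat_lit 0x1000080000000000030000400000000000000000000000000000000000000000000) := T_31 (nat_lit 196) (nat_lit 197) (nat_lit 0) (nat_lit 10) (nat_lit 11) L87053 (by decide +kernel)
theorem L87059 : W_31 (nat_lit 2) (nat_lit 0x10001f000b00010001000080000000000000000000000000000000) (nat_lit 0x0) (nat_lit 0x80000c00000000000000000000000000000000000000000000000) := D_31 (nat_lit 191) (nat_lit 211) (nat_lit 190) (nat_lit 3) (nat_lit 4) (nat_lit 11) (nat_lit 2) (nat_lit 3) (nat_lit 11) (by decide +kernel)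
theorem L87060 : W_31 (nat_lit 3) (nat_lit 0x10001e000b00010001000080000000000000000000000000000000) (nat_lit 0x0) (nat_lit 0x80001c00400000000000000000000000000000000000000000000) := T_31 (nat_lit 192) (nat_lit 178) (nat_lit 2) (nat_lit 5) (nat_lit 11) L87059 (by decide +kernel)
theorem L87063 : W_31 (nat_lit 8) (nat_lit 0x10001c000200000001000080000000000000000000000000000000) (nat_lit 0x0) (nat_lit 0x4007e801e201fc00090004800000000000000000000000000000000000) := Q_31 (nat_lit 197) (C_31 L87000 (C_31 L85773 (C_31 L85659 N_31))) (by decide +kernel)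
theorem L87065 : W_31 (nat_lit 8) (nat_lit 0x400030001c000200000001000080000000000000000000000000000000) (nat_lit 0x0) (nat_lit 0x38001f0018000c00000000800010000800000000000000000000000000000000000) := T_31 (nat_lit 160) (nat_lit 143) (nat_lit 7) (nat_lit 7) (nat_lit 8) L85824 (by decide +kernel)
theorem L87066 : W_31 (nat_lit 2) (nat_lit 0xc00030001c000a00010001000080000000000000000000000000000000) (nat_lit 0x0) (nat_lit 0xc00000000000040000000000000000000000000000000000000000) := D_31 (nat_lit 214) (nat_lit 162) (nat_lit 215) (nat_lit 7) (nat_lit 9) (nat_lit 9) (nat_lit 0) (nat_lit 11) (nat_lit 12) (by decide +kernel)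
theorem L87067 : W_31 (nat_lit 3) (nat_lit 0xc00030001c000200010001000080000000000000000000000000000000) (nat_lit 0x0) (nat_lit 0x100000000c00000000800040000000000000000000000000000000000000000) := T_31 (nat_lit 179) (nat_lit 248) (nat_lit 7) (nat_lit 9) (nat_lit 10) L87066 (by decide +kernel)
theorem L87068 : W_31 (nat_lit 4) (nat_lit 0xc00030001c000200000001000080000000000000000000000000000000) (nat_lit 0x0) (nat_lit 0x100000000c00000000800050000800000000000000000000000000000000000) := T_31 (nat_lit 160) (nat_lit 143) (nat_lit 7) (nat_lit 7) (nat_lit 8) L87067 (by decide +kernel)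
theorem L87075 : W_31 (nat_lit 2) (nat_lit 0x2c00030001c001a00010001000080000000000000000000000000000000) (nat_lit 0x0) (nat_lit 0x6400000000000000000000000000000000000000000000) := D_31 (nat_lit 181) (nat_lit 182) (nat_lit 178) (nat_lit 1) (nat_lit 12) (nat_lit 10) (nat_lit 1) (nat_lit 11) (nat_lit 10) (by decide +kernel)
theorem L87076 : W_31 (nat_lit 3) (nat_lit 0x2c00030001c000a00010001000080000000000000000000000000000000) (nat_lit 0x0) (nat_lit 0x7400080000000000000000000000000000000000000000) := T_31 (nat_lit 180) (nat_lit 163) (nat_lit 6) (nat_lit 9) (nat_lit 13) L87075 (by decide +kernel)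
theorem L87077 : W_31 (nat_lit 4) (nat_lit 0x2c00030001c000200010001000080000000000000000000000000000000) (nat_lit 0x0) (nat_lit 0x100000000000000007c00080000000000000000000000000000000000000000) := T_31 (nat_lit 179) (nat_lit 248) (nat_lit 7) (nat_lit 9) (nat_lit 10) L87076 (by decide +kernel)
theorem L87078 : W_31 (nat_lit 5) (nat_lit 0xc00030001c000200010001000080000000000000000000000000000000) (nat_lit 0x0) (nat_lit 0x100030000000000007c00080000000000000000000000000000000000000000) := T_31 (nat_lit 233) (nat_lit 232) (nat_lit 0) (nat_lit 12) (nat_lit 13) L87077 (by decide +kernel)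
theorem L87079 : W_31 (nat_lit 6) (nat_lit 0xc00030001c000200000001000080000000000000000000000000000000) (nat_lit 0x0) (nat_lit 0x100030000000000007c00090000800000000000000000000000000000000000) := T_31 (nat_lit 160) (nat_lit 143) (nat_lit 7) (nat_lit 7) (nat_lit 8) L87078 (by decide +kernel)
theorem L87080 : W_31 (nat_lit 7) (nat_lit 0x400030001c000200000001000080000000000000000000000000000000) (nat_lit 0x0) (nat_lit 0x100038000c80000007c000d0000800000000000000000000000000000000000) := Q_31 (nat_lit 231) (C_31 L87068 (C_31 L87072 (C_31 L87074 (C_31 L87079 N_31)))) (by decide +kernel)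
theorem L87081 : W_31 (nat_lit 9) (nat_lit 0x30001c000200000001000080000000000000000000000000000000) (nat_lit 0x0) (nat_lit 0x38001f003c000c80000007c000d0000800000000000000000000000000000000000) := Q_31 (nat_lit 230) (C_31 L87064 (C_31 L87065 (C_31 L87080 N_31))) (by decide +kernel)
theorem L87083 : W_31 (nat_lit 2) (nat_lit 0x8000000030001c000200000001000080000000000000000000000000000000) (nat_lit 0x0) (nat_lit 0x1000000004000000000000400000000000000000000000000000000000000000000) := D_31 (nat_lit 230) (nat_lit 178) (nat_lit 264) (nat_lit 4) (nat_lit 9) (nat_lit 14) (nat_lit 4) (nat_lit 9) (nat_lit 15) (by decide +kernel)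
theorem L87084 : W_31 (nat_lit 2) (nat_lit 0x8000000030001d400240002001f00088000000000000000000000000000000) (nat_lit 0x0) (nat_lit 0x28000800000000000000000000000000000000000000000000000) := D_31 (nat_lit 191) (nat_lit 209) (nat_lit 207) (nat_lit 7) (nat_lit 4) (nat_lit 8) (nat_lit 5) (nat_lit 4) (nat_lit 8) (by decide +kernel)
theorem L87085 : W_31 (nat_lit 3) (nat_lit 0x8000000030001d000240002001f00088000000000000000000000000000000) (nat_lit 0x0) (nat_lit 0x28000c00020000000000000000000000000000000000000000000) := T_31 (nat_lit 190) (nat_lit 173) (nat_lit 5) (nat_lit 4) (nat_lit 7) L87084 (by decide +kernel)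
theorem L87086 : W_31 (nat_lit 4) (nat_lit 0x8000000030001d000200002001f00088000000000000000000000000000000) (nat_lit 0x0) (nat_lit 0x28000c000e0000000000000000000000000000000000000000000) := T_31 (nat_lit 174) (nat_lit 175) (nat_lit 7) (nat_lit 4) (nat_lit 7) L87085 (by decide +kernel)
theorem L87087 : W_31 (nat_lit 5) (nat_lit 0x8000000030001d000200000001f00088000000000000000000000000000000) (nat_lit 0x0) (nat_lit 0x28000c000e0003000000000000000000000000000000000000000) := T_31 (nat_lit 157) (nat_lit 156) (nat_lit 1) (nat_lit 7) (nat_lit 8) L87086 (by decide +kernel)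
theorem L87088 : W_31 (nat_lit 6) (nat_lit 0x8000000030001d000200000001e00088000000000000000000000000000000) (nat_lit 0x0) (nat_lit 0x28000c000e0003000100004000000000000000000000000000000) := T_31 (nat_lit 140) (nat_lit 122) (nat_lit 0) (nat_lit 7) (nat_lit 8) L87087 (by decide +kernel)
theorem L87089 : W_31 (nat_lit 7) (nat_lit 0x8000000030001d000200000001e00080000000000000000000000000000000) (nat_lit 0x0) (nat_lit 0x28000c000e000300010001c000000000000000000000000000000) := T_31 (nat_lit 123) (nat_lit 124) (nat_lit 0) (nat_lit 8) (nat_lit 8) L87088 (by decide +kernel)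
theorem L87090 : W_31 (nat_lit 8) (nat_lit 0x8000000030001d000200000001c00080000000000000000000000000000000) (nat_lit 0x0) (nat_lit 0x28000c000e000300030011c000000000000000000000000000000) := T_31 (nat_lit 141) (nat_lit 128) (nat_lit 2) (nat_lit 5) (nat_lit 8) L87089 (by decide +kernel)
theorem L87091 : W_31 (nat_lit 9) (nat_lit 0x8000000030001c000200000001c00080000000000000000000000000000000) (nat_lit 0x0) (nat_lit 0x28003c000e000300030011c000000000000000000000000000000) := T_31 (nat_lit 192) (nat_lit 193) (nat_lit 3) (nat_lit 5) (nat_lit 11) L87090 (by decide +kernel)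
theorem L87092 : W_31 (nat_lit 10) (nat_lit 0x8000000030001c000200000001400080000000000000000000000000000000) (nat_lit 0x0) (nat_lit 0x28003c000e0013000b0011c000000000000000000000000000000) := T_31 (nat_lit 143) (nat_lit 160) (nat_lit 7) (nat_lit 7) (nat_lit 8) L87091 (by decide +kernel)
theorem L87093 : W_31 (nat_lit 2) (nat_lit 0x8000000030001c000200018001400080000000000000000000000000000000) (nat_lit 0x0) (nat_lit 0x100000000000020001000000000000000000000000000) := D_31 (nat_lit 125) (nat_lit 108) (nat_lit 176) (nat_lit 7) (nat_lit 6) (nat_lit 6) (nat_lit 7) (nat_lit 6) (nat_lit 7) (by decide +kernel)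
theorem L87094 : W_31 (nat_lit 3) (nat_lit 0x8000000030001c000200010001400080000000000000000000000000000000) (nat_lit 0x0) (nat_lit 0x80000000100008000000020001000000000000000000000000000) := T_31 (nat_lit 159) (nat_lit 211) (nat_lit 4) (nat_lit 7) (nat_lit 12) L87093 (by decide +kernel)
theorem L87095 : W_31 (nat_lit 4) (nat_lit 0x8000000030001c000200000001400080000000000000000000000000000000) (nat_lit 0x0) (nat_lit 0x80000000100018000800020001000000000000000000000000000) := T_31 (nat_lit 160) (nat_lit 143) (nat_lit 7) (nat_lit 7) (nat_lit 8) L87094 (by decide +kernel)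
theorem L87096 : W_31 (nat_lit 2) (nat_lit 0x8000000030001e000b00000001400080000000000000000000000000000000) (nat_lit 0x0) (nat_lit 0x80000000000008000000020000000000000000000000000000000) := D_31 (nat_lit 159) (nat_lit 211) (nat_lit 125) (nat_lit 7) (nat_lit 6) (nat_lit 8) (nat_lit 7) (nat_lit 6) (nat_lit 7) (by decide +kernel)
theorem L87097 : W_31 (nat_lit 3) (nat_lit 0x8000000030001e000a00000001400080000000000000000000000000000000) (nat_lit 0x0) (nat_lit 0x80000000180008000000020000000000000000000000000000000) := T_31 (nat_lit 176) (nat_lit 175) (nat_lit 0) (nat_lit 9) (nat_lit 11) L87096 (by decide +kernel)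
theorem L87098 : W_31 (nat_lit 4) (nat_lit 0x8000000030001e000200000001400080000000000000000000000000000000) (nat_lit 0x0) (nat_lit 0x80000001980008000000020000000000000000000000000000000) := T_31 (nat_lit 179) (nat_lit 180) (nat_lit 2) (nat_lit 6) (nat_lit 11) L87097 (by decide +kernel)
theorem L87099 : W_31 (nat_lit 5) (nat_lit 0x8000000030001c000200000001400080000000000000000000000000000000) (nat_lit 0x0) (nat_lit 0x80003001980008000000020000000000000000000000000000000) := T_31 (nat_lit 193) (nat_lit 192) (nat_lit 3) (nat_lit 5) (nat_lit 11) L87098 (by decide +kernel)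
theorem L87100 : W_31 (nat_lit 11) (nat_lit 0x8000000030001c000200000001000080000000000000000000000000000000) (nat_lit 0x0) (nat_lit 0xa8003c019e001b000f0013c001000000000000000000000000000) := Q_31 (nat_lit 142) (C_31 L87092 (C_31 L87095 (C_31 L87099 N_31))) (by decide +kernel)
theorem L87101 : W_31 (nat_lit 12) (nat_lit 0x30001c000200000001000080000000000000000000000000000000) (nat_lit 0x0) (nat_lit 0x38001f001c0000a8003c01de001b000f0013c001000000000000000000000000000) := Q_31 (nat_lit 247) (C_31 L85803 (C_31 L87083 (C_31 L87100 N_31))) (by decide +kernel)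
theorem L87102 : W_31 (nat_lit 13) (nat_lit 0x10001c000200000001000080000000000000000000000000000000) (nat_lit 0x0) (nat_lit 0x38001f003c000ea8003c07de00db000f0013c001000000000000000000000000000) := Q_31 (nat_lit 213) (C_31 L85608 (C_31 L87081 (C_31 L87101 N_31))) (by decide +kernel)
theorem L87103 : W_31 (nat_lit 14) (nat_lit 0x10000c000200000001000080000000000000000000000000000000) (nat_lit 0x0) (nat_lit 0x38001f003c007ea81f3c1fde00db004f0013c001000000000000000000000000000) := Q_31 (nat_lit 196) (C_31 L87001 (C_31 L87062 (C_31 L87063 (C_31 L87102 N_31)))) (by decide +kernel)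
theorem L87104 : W_31 (nat_lit 15) (nat_lit 0xc000200000001000080000000000000000000000000000000) (nat_lit 0x0) (nat_lit 0x38001f003f007fa81f3c1fde00db004f0013c001000000000000000000000000000) := Q_31 (nat_lit 212) (C_31 L85604 (C_31 L86996 (C_31 L86997 (C_31 L87007 (C_31 L87009 (C_31 L87103 N_31)))))) (by decide +kernel)
theorem L87106 : W_31 (nat_lit 2) (nat_lit 0x400000001a0058000c000380000001000080000000000000000000000000000000) (nat_lit 0x0) (nat_lit 0x32000000000000000000000000000000000000000000000000) := D_31 (nat_lit 196) (nat_lit 197) (nat_lit 193) (nat_lit 0) (nat_lit 10) (nat_lit 11) (nat_lit 0) (nat_lit 9) (nat_lit 11) (by decide +kernel)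
theorem L87107 : W_31 (nat_lit 3) (nat_lit 0x400000001a0058000c000300000001000080000000000000000000000000000000) (nat_lit 0x0) (nat_lit 0x320000c0000000000000000000000000000000000000000000) := T_31 (nat_lit 175) (nat_lit 174) (nat_lit 3) (nat_lit 4) (nat_lit 10) L87106 (by decide +kernel)
theorem L87108 : W_31 (nat_lit 4) (nat_lit 0x400000001a0058000c000200000001000080000000000000000000000000000000) (nat_lit 0x0) (nat_lit 0x320001c0008000000000000000000000000000000000000000) := T_31 (nat_lit 176) (nat_lit 159) (nat_lit 4) (nat_lit 7) (nat_lit 13) L87107 (by decide +kernel)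
theorem L87109 : W_31 (nat_lit 5) (nat_lit 0x400000001a0018000c000200000001000080000000000000000000000000000000) (nat_lit 0x0) (nat_lit 0x6000320001c0008000000000000000000000000000000000000000) := T_31 (nat_lit 214) (nat_lit 213) (nat_lit 1) (nat_lit 10) (nat_lit 12) L87108 (by decide +kernel)
theorem L87110 : W_31 (nat_lit 6) (nat_lit 0x40000000180018000c000200000001000080000000000000000000000000000000) (nat_lit 0x0) (nat_lit 0x6006000320001c0008000000000000000000000000000000000000000) := T_31 (nat_lit 225) (nat_lit 226) (nat_lit 2) (nat_lit 4) (nat_lit 13) L87109 (by decide +kernel)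
theorem L87111 : W_31 (nat_lit 7) (nat_lit 0x40000000100018000c000200000001000080000000000000000000000000000000) (nat_lit 0x0) (nat_lit 0x10000e006000320001c0008000000000000000000000000000000000000000) := T_31 (nat_lit 227) (nat_lit 244) (nat_lit 5) (nat_lit 7) (nat_lit 10) L87110 (by decide +kernel)
theorem L87112 : W_31 (nat_lit 8) (nat_lit 0x100018000c000200000001000080000000000000000000000000000000) (nat_lit 0x0) (nat_lit 0x400030000e006000320001c0008000000000000000000000000000000000000000) := T_31 (nat_lit 262) (nat_lit 245) (nat_lit 6) (nat_lit 7) (nat_lit 15) L87111 (by decide +kernel)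
theorem L87113 : W_31 (nat_lit 5) (nat_lit 0x100018000c000200000001000080000000000000000000000000000000) (nat_lit 0x0) (nat_lit 0x10002e00600000000100008000000000000000000000000000000000000000) := T_31 (nat_lit 176) (nat_lit 159) (nat_lit 4) (nat_lit 7) (nat_lit 13) L82381 (by decide +kernel)
theorem L87114 : W_31 (nat_lit 9) (nat_lit 0x18000c000200000001000080000000000000000000000000000000) (nat_lit 0x0) (nat_lit 0xc00070003e006000320001c0008000000000000000000000000000000000000000) := Q_31 (nat_lit 228) (C_31 L18270 (C_31 L87112 (C_31 L87113 N_31))) (by decide +kernel)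
theorem L87115 : W_31 (nat_lit 2) (nat_lit 0x1000100018000c000200018001000080000000000000000000000000000000) (nat_lit 0x0) (nat_lit 0x600020000000000000000000000000000000000000000000000000000000000000) := D_31 (nat_lit 245) (nat_lit 262) (nat_lit 261) (nat_lit 6) (nat_lit 7) (nat_lit 15) (nat_lit 5) (nat_lit 7) (nat_lit 11) (by decide +kernel)
theorem L87116 : W_31 (nat_lit 3) (nat_lit 0x100018000c000200018001000080000000000000000000000000000000) (nat_lit 0x0) (nat_lit 0x600030000800000000000000000000000000000000000000000000000000000000) := T_31 (nat_lit 244) (nat_lit 227) (nat_lit 5) (nat_lit 7) (nat_lit 10) L87115 (by decide +kernel)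
theorem L87117 : W_31 (nat_lit 4) (nat_lit 0x18000c000200018001000080000000000000000000000000000000) (nat_lit 0x0) (nat_lit 0x600030001800000000000100000000000000000000000000000000000000000000) := T_31 (nat_lit 228) (nat_lit 176) (nat_lit 4) (nat_lit 7) (nat_lit 13) L87116 (by decide +kernel)
theorem L87118 : W_31 (nat_lit 5) (nat_lit 0x18000c000200010001000080000000000000000000000000000000) (nat_lit 0x0) (nat_lit 0x600030001800000000000100008000400000000000000000000000000000000000) := T_31 (nat_lit 159) (nat_lit 142) (nat_lit 4) (nat_lit 7) (nat_lit 12) L87117 (by decide +kernel)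
theorem L87119 : W_31 (nat_lit 6) (nat_lit 0x18000c000200000001000080000000000000000000000000000000) (nat_lit 0x0) (nat_lit 0x600030003800000000000100018000400000000000000000000000000000000000) := T_31 (nat_lit 160) (nat_lit 229) (nat_lit 7) (nat_lit 7) (nat_lit 9) L87118 (by decide +kernel)
theorem L87125 : W_31 (nat_lit 10) (nat_lit 0x10000c000200000001000080000000000000000000000000000000) (nat_lit 0x0) (nat_lit 0xe00070003e006b00738039c0018000400000000000000000000000000000000000) := Q_31 (nat_lit 211) (C_31 L87105 (C_31 L87114 (C_31 L87119 (C_31 L87124 N_31)))) (by decide +kernel)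
theorem L87129 : W_31 (nat_lit 2) (nat_lit 0xb0003c000200000001000080000000000000000000000000000000) (nat_lit 0x0) (nat_lit 0x800c0000000000000000000000000000000000000000000000000) := D_31 (nat_lit 198) (nat_lit 211) (nat_lit 199) (nat_lit 1) (nat_lit 11) (nat_lit 11) (nat_lit 1) (nat_lit 12) (nat_lit 11) (by decide +kernel)
theorem L87130 : W_31 (nat_lit 3) (nat_lit 0xb0001c000200000001000080000000000000000000000000000000) (nat_lit 0x0) (nat_lit 0x800e0000100000000000000000000000000000000000000000000) := T_31 (nat_lit 197) (nat_lit 176) (nat_lit 0) (nat_lit 10) (nat_lit 11) L87129 (by decide +kernel)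
theorem L87131 : W_31 (nat_lit 4) (nat_lit 0x30001c000200000001000080000000000000000000000000000000) (nat_lit 0x0) (nat_lit 0xc800e0000100000000000000000000000000000000000000000000) := T_31 (nat_lit 215) (nat_lit 214) (nat_lit 0) (nat_lit 11) (nat_lit 12) L87130 (by decide +kernel)
theorem L87136 : W_31 (nat_lit 2) (nat_lit 0x4002c000b0001c005a00000001000080000000000000000000000000000000) (nat_lit 0x0) (nat_lit 0x1800080000000000000000000000000000000000000000000000000000000000000) := D_31 (nat_lit 247) (nat_lit 264) (nat_lit 263) (nat_lit 4) (nat_lit 9) (nat_lit 15) (nat_lit 5) (nat_lit 9) (nat_lit 11) (by decide +kernel)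
theorem L87137 : W_31 (nat_lit 3) (nat_lit 0x2c000b0001c005a00000001000080000000000000000000000000000000) (nat_lit 0x0) (nat_lit 0x18000c0002000000000000000000000000000000000000000000000000000000000) := T_31 (nat_lit 246) (nat_lit 229) (nat_lit 6) (nat_lit 8) (nat_lit 14) L87136 (by decide +kernel)
theorem L87138 : W_31 (nat_lit 4) (nat_lit 0x2c000b0001c001a00000001000080000000000000000000000000000000) (nat_lit 0x0) (nat_lit 0x18000c0002000000000006000000000000000000000000000000000000000000000) := T_31 (nat_lit 182) (nat_lit 181) (nat_lit 1) (nat_lit 12) (nat_lit 10) L87137 (by decide +kernel)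
theorem L87139 : W_31 (nat_lit 5) (nat_lit 0x2c000b0001c000a00000001000080000000000000000000000000000000) (nat_lit 0x0) (nat_lit 0x18000c0002000000000007000080000000000000000000000000000000000000000) := T_31 (nat_lit 180) (nat_lit 163) (nat_lit 6) (nat_lit 9) (nat_lit 13) L87138 (by decide +kernel)
theorem L87140 : W_31 (nat_lit 6) (nat_lit 0xc000b0001c000a00000001000080000000000000000000000000000000) (nat_lit 0x0) (nat_lit 0x18000c0032000000000007000080000000000000000000000000000000000000000) := T_31 (nat_lit 233) (nat_lit 232) (nat_lit 0) (nat_lit 12) (nat_lit 13) L87139 (by decide +kernel)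
theorem L87141 : W_31 (nat_lit 7) (nat_lit 0x4000b0001c000a00000001000080000000000000000000000000000000) (nat_lit 0x0) (nat_lit 0x18001c003a000000000007000080000000000000000000000000000000000000000) := T_31 (nat_lit 231) (nat_lit 248) (nat_lit 7) (nat_lit 9) (nat_lit 10) L87140 (by decide +kernel)
theorem L87142 : W_31 (nat_lit 8) (nat_lit 0x400030001c000a00000001000080000000000000000000000000000000) (nat_lit 0x0) (nat_lit 0x18001c003a000c00000007000080000000000000000000000000000000000000000) := T_31 (nat_lit 215) (nat_lit 214) (nat_lit 0) (nat_lit 11) (nat_lit 12) L87141 (by decide +kernel)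
theorem L87143 : W_31 (nat_lit 2) (nat_lit 0x100002002f00070001c000a00000001000080000000000000000000000000000000) (nat_lit 0x0) (nat_lit 0x8000400000000000080000000000000000000000000000000000000000000000000000) := D_31 (nat_lit 262) (nat_lit 211) (nat_lit 279) (nat_lit 6) (nat_lit 7) (nat_lit 15) (nat_lit 6) (nat_lit 7) (nat_lit 16) (by decide +kernel)
theorem L87144 : W_31 (nat_lit 3) (nat_lit 0x100000002f00070001c000a00000001000080000000000000000000000000000000) (nat_lit 0x0) (nat_lit 0x8000400030000000080000000000000000000000000000000000000000000000000000) := T_31 (nat_lit 245) (nat_lit 244) (nat_lit 1) (nat_lit 10) (nat_lit 13) L87143 (by decide +kernel)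
theorem L87145 : W_31 (nat_lit 4) (nat_lit 0x100000002e00070001c000a00000001000080000000000000000000000000000000) (nat_lit 0x0) (nat_lit 0x8000400030001800080000000000000000000000000000000000000000000000000000) := T_31 (nat_lit 228) (nat_lit 227) (nat_lit 2) (nat_lit 6) (nat_lit 13) L87144 (by decide +kernel)
theorem L87146 : W_31 (nat_lit 5) (nat_lit 0x100000002c00070001c000a00000001000080000000000000000000000000000000) (nat_lit 0x0) (nat_lit 0x8000400070003800080000000000000000000000000000000000000000000000000000) := T_31 (nat_lit 229) (nat_lit 246) (nat_lit 6) (nat_lit 8) (nat_lit 14) L87145 (by decide +kernel)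
theorem L87147 : W_31 (nat_lit 6) (nat_lit 0x100000002c00030001c000a00000001000080000000000000000000000000000000) (nat_lit 0x0) (nat_lit 0x8000400070003800c80000000000000000000000000000000000000000000000000000) := T_31 (nat_lit 214) (nat_lit 215) (nat_lit 0) (nat_lit 11) (nat_lit 12) L87146 (by decide +kernel)
theorem L87148 : W_31 (nat_lit 7) (nat_lit 0x100000000c00030001c000a00000001000080000000000000000000000000000000) (nat_lit 0x0) (nat_lit 0x8000400070033800c80000000000000000000000000000000000000000000000000000) := T_31 (nat_lit 233) (nat_lit 232) (nat_lit 0) (nat_lit 12) (nat_lit 13) L87147 (by decide +kernel)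
theorem L87149 : W_31 (nat_lit 8) (nat_lit 0x100000000400030001c000a00000001000080000000000000000000000000000000) (nat_lit 0x0) (nat_lit 0x800040017003b800c80000000000000000000000000000000000000000000000000000) := T_31 (nat_lit 231) (nat_lit 248) (nat_lit 7) (nat_lit 9) (nat_lit 10) L87148 (by decide +kernel)
theorem L87150 : W_31 (nat_lit 9) (nat_lit 0x400030001c000a00000001000080000000000000000000000000000000) (nat_lit 0x0) (nat_lit 0x80014001f003b800c80000000000000000000000000000000000000000000000000000) := T_31 (nat_lit 264) (nat_lit 247) (nat_lit 4) (nat_lit 9) (nat_lit 15) L87149 (by decide +kernel)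
theorem L87152 : W_31 (nat_lit 10) (nat_lit 0x30001c000a00000001000080000000000000000000000000000000) (nat_lit 0x0) (nat_lit 0x8001c001f003f800c80000007000080000000000000000000000000000000000000000) := Q_31 (nat_lit 230) (C_31 L87142 (C_31 L87150 (C_31 L87151 (C_31 L19062 N_31)))) (by decide +kernel)
theorem L87153 : W_31 (nat_lit 11) (nat_lit 0x30001c000200000001000080000000000000000000000000000000) (nat_lit 0x0) (nat_lit 0x8003c001f003f800c800000078000c0000000000000000000000000000000000000000) := Q_31 (nat_lit 179) (C_31 L85795 (C_31 L87132 (C_31 L87135 (C_31 L87152 N_31)))) (by decide +kernel)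
theorem L87154 : W_31 (nat_lit 4) (nat_lit 0x4000000030001c000200000001000080000000000000000000000000000000) (nat_lit 0x0) (nat_lit 0xe0007100000000000000000000000000000000000000000000) := T_31 (nat_lit 197) (nat_lit 176) (nat_lit 0) (nat_lit 10) (nat_lit 11) L85640 (by decide +kernel)
theorem L87155 : W_31 (nat_lit 5) (nat_lit 0x30001c000200000001000080000000000000000000000000000000) (nat_lit 0x0) (nat_lit 0x400020000000e0007100000000000000000000000000000000000000000000) := T_31 (nat_lit 246) (nat_lit 229) (nat_lit 4) (nat_lit 8) (nat_lit 14) L87154 (by decide +kernel)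
theorem L87156 : W_31 (nat_lit 12) (nat_lit 0x30000c000200000001000080000000000000000000000000000000) (nat_lit 0x0) (nat_lit 0x8003c001f003f801c800f00079000c0004000000000000000000000000000000000000) := Q_31 (nat_lit 196) (C_31 L85627 (C_31 L87131 (C_31 L87153 (C_31 L87155 N_31)))) (by decide +kernel)
theorem L87159 : W_31 (nat_lit 2) (nat_lit 0x30003d000200000001000080000000000000000000000000000000) (nat_lit 0x0) (nat_lit 0x800c0000000000000000000000000000000000000000000000000) := D_31 (nat_lit 198) (nat_lit 211) (nat_lit 199) (nat_lit 1) (nat_lit 11) (nat_lit 11) (nat_lit 1) (nat_lit 12) (nat_lit 11) (by decide +kernel)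
theorem L87160 : W_31 (nat_lit 3) (nat_lit 0x30001d000200000001000080000000000000000000000000000000) (nat_lit 0x0) (nat_lit 0x800e0000100000000000000000000000000000000000000000000) := T_31 (nat_lit 197) (nat_lit 176) (nat_lit 0) (nat_lit 10) (nat_lit 11) L87159 (by decide +kernel)
theorem L87161 : W_31 (nat_lit 4) (nat_lit 0x30001c000200000001000080000000000000000000000000000000) (nat_lit 0x0) (nat_lit 0x800e3000100000000000000000000000000000000000000000000) := T_31 (nat_lit 192) (nat_lit 193) (nat_lit 3) (nat_lit 5) (nat_lit 11) L87160 (by decide +kernel)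
theorem L87162 : W_31 (nat_lit 6) (nat_lit 0x30000c000200000001000080000000000000000000000000000000) (nat_lit 0x0) (nat_lit 0x400020000800f3007900040000000000000000000000000000000000000000) := Q_31 (nat_lit 196) (C_31 L87155 (C_31 L85630 (C_31 L87161 N_31))) (by decide +kernel)
theorem L87163 : W_31 (nat_lit 13) (nat_lit 0x10000c000200000001000080000000000000000000000000000000) (nat_lit 0x0) (nat_lit 0x8003c001f003f801e800f30079000c0004000000000000000000000000000000000000) := Q_31 (nat_lit 213) (C_31 L85607 (C_31 L87128 (C_31 L87156 (C_31 L87158 (C_31 L87162 N_31))))) (by decide +kernel)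
theorem L87175 : W_31 (nat_lit 6) (nat_lit 0x10000c000200010001000080000000000000000000000000000000) (nat_lit 0x0) (nat_lit 0x600030003800080000000100008000400000000000000000000000000000000000) := T_31 (nat_lit 211) (nat_lit 229) (nat_lit 7) (nat_lit 7) (nat_lit 9) L87118 (by decide +kernel)
theorem L87176 : W_31 (nat_lit 7) (nat_lit 0x10000c000200000001000080000000000000000000000000000000) (nat_lit 0x0) (nat_lit 0x600030003800080000000100018000c00000000000000000000000000000000000) := T_31 (nat_lit 160) (nat_lit 143) (nat_lit 7) (nat_lit 7) (nat_lit 8) L87175 (by decide +kernel)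
theorem L87177 : W_31 (nat_lit 6) (nat_lit 0x30001c000200000001000080000000000000000000000000000000) (nat_lit 0x0) (nat_lit 0x4001c000e0007000090004800000000000000000000000000000000000) := T_31 (nat_lit 143) (nat_lit 160) (nat_lit 7) (nat_lit 7) (nat_lit 8) L85840 (by decide +kernel)
theorem L87184 : W_31 (nat_lit 2) (nat_lit 0x1c000c00030001c000200010001000080000000000000000000000000000000) (nat_lit 0x0) (nat_lit 0x30010000000000000000000000000000000000000000000000000000000000) := D_31 (nat_lit 245) (nat_lit 232) (nat_lit 244) (nat_lit 2) (nat_lit 7) (nat_lit 14) (nat_lit 2) (nat_lit 6) (nat_lit 14) (by decide +kernel)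
theorem L87185 : W_31 (nat_lit 3) (nat_lit 0x18000c00030001c000200010001000080000000000000000000000000000000) (nat_lit 0x0) (nat_lit 0x800070010000000000000000000000000000000000000000000000000000000000) := T_31 (nat_lit 246) (nat_lit 263) (nat_lit 5) (nat_lit 9) (nat_lit 11) L87184 (by decide +kernel)
theorem L87186 : W_31 (nat_lit 4) (nat_lit 0x18000400030001c000200010001000080000000000000000000000000000000) (nat_lit 0x0) (nat_lit 0x800070018000000000000800000000000000000000000000000000000000000000) := T_31 (nat_lit 231) (nat_lit 179) (nat_lit 7) (nat_lit 9) (nat_lit 10) L87185 (by decide +kernel)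
theorem L87187 : W_31 (nat_lit 5) (nat_lit 0x8000400030001c000200010001000080000000000000000000000000000000) (nat_lit 0x0) (nat_lit 0x2800170018000000000000800000000000000000000000000000000000000000000) := T_31 (nat_lit 248) (nat_lit 265) (nat_lit 7) (nat_lit 9) (nat_lit 11) L87186 (by decide +kernel)
theorem L87188 : W_31 (nat_lit 6) (nat_lit 0x8000400030001c000200000001000080000000000000000000000000000000) (nat_lit 0x0) (nat_lit 0x2800170018000000000000800010000800000000000000000000000000000000000) := T_31 (nat_lit 160) (nat_lit 143) (nat_lit 7) (nat_lit 7) (nat_lit 8) L87187 (by decide +kernel)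
theorem L87189 : W_31 (nat_lit 7) (nat_lit 0x400030001c000200000001000080000000000000000000000000000000) (nat_lit 0x0) (nat_lit 0x38001f0018000000000000800010000800000000000000000000000000000000000) := T_31 (nat_lit 247) (nat_lit 264) (nat_lit 4) (nat_lit 9) (nat_lit 15) L87188 (by decide +kernel)
theorem L87190 : W_31 (nat_lit 2) (nat_lit 0x10001000b8001c000200018001000080000000000000000000000000000000) (nat_lit 0x0) (nat_lit 0x600020000000000000000000000000000000000000000000000000000000000000) := D_31 (nat_lit 245) (nat_lit 262) (nat_lit 261) (nat_lit 6) (nat_lit 7) (nat_lit 15) (nat_lit 5) (nat_lit 7) (nat_lit 11) (by decide +kernel)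
theorem L87191 : W_31 (nat_lit 3) (nat_lit 0x1000b8001c000200018001000080000000000000000000000000000000) (nat_lit 0x0) (nat_lit 0x600030000800000000000000000000000000000000000000000000000000000000) := T_31 (nat_lit 244) (nat_lit 227) (nat_lit 5) (nat_lit 7) (nat_lit 10) L87190 (by decide +kernel)
theorem L87192 : W_31 (nat_lit 4) (nat_lit 0xb8001c000200018001000080000000000000000000000000000000) (nat_lit 0x0) (nat_lit 0x600030001800000000000100000000000000000000000000000000000000000000) := T_31 (nat_lit 228) (nat_lit 176) (nat_lit 4) (nat_lit 7) (nat_lit 13) L87191 (by decide +kernel)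
theorem L87193 : W_31 (nat_lit 5) (nat_lit 0xb8001c000200010001000080000000000000000000000000000000) (nat_lit 0x0) (nat_lit 0x600030001800000000000100008000400000000000000000000000000000000000) := T_31 (nat_lit 159) (nat_lit 142) (nat_lit 4) (nat_lit 7) (nat_lit 12) L87192 (by decide +kernel)
theorem L87194 : W_31 (nat_lit 6) (nat_lit 0xb8001c000200000001000080000000000000000000000000000000) (nat_lit 0x0) (nat_lit 0x600030001800000000000100018000c00000000000000000000000000000000000) := T_31 (nat_lit 160) (nat_lit 143) (nat_lit 7) (nat_lit 7) (nat_lit 8) L87193 (by decide +kernel)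
theorem L87195 : W_31 (nat_lit 7) (nat_lit 0x38001c000200000001000080000000000000000000000000000000) (nat_lit 0x0) (nat_lit 0x600030001800c00000000100018000c00000000000000000000000000000000000) := T_31 (nat_lit 215) (nat_lit 214) (nat_lit 0) (nat_lit 11) (nat_lit 12) L87194 (by decide +kernel)
theorem L87196 : W_31 (nat_lit 2) (nat_lit 0xf000900078001c000340040001000080000000000000000000000000000000) (nat_lit 0x0) (nat_lit 0x3000100000000000000000000000000000000000000000000000000000000000000) := D_31 (nat_lit 265) (nat_lit 248) (nat_lit 264) (nat_lit 4) (nat_lit 10) (nat_lit 15) (nat_lit 3) (nat_lit 6) (nat_lit 14) (by decide +kernel)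
theorem L87197 : W_31 (nat_lit 3) (nat_lit 0x7000900078001c000340040001000080000000000000000000000000000000) (nat_lit 0x0) (nat_lit 0x3000180004000000000000000000000000000000000000000000000000000000000) := T_31 (nat_lit 247) (nat_lit 230) (nat_lit 2) (nat_lit 6) (nat_lit 14) L87196 (by decide +kernel)
theorem L87198 : W_31 (nat_lit 4) (nat_lit 0x6000900078001c000340040001000080000000000000000000000000000000) (nat_lit 0x0) (nat_lit 0x3200190004000000000000000000000000000000000000000000000000000000000) := T_31 (nat_lit 244) (nat_lit 261) (nat_lit 5) (nat_lit 7) (nat_lit 11) L87197 (by decide +kernel)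
theorem L87199 : W_31 (nat_lit 5) (nat_lit 0x2000900078001c000340040001000080000000000000000000000000000000) (nat_lit 0x0) (nat_lit 0x3a001d0004000000000000000000000000000000000000000000000000000000000) := T_31 (nat_lit 246) (nat_lit 263) (nat_lit 7) (nat_lit 7) (nat_lit 11) L87198 (by decide +kernel)
theorem L87200 : W_31 (nat_lit 6) (nat_lit 0x2000900078001c000300040001000080000000000000000000000000000000) (nat_lit 0x0) (nat_lit 0x3a001d00040000000000000c0000000000000000000000000000000000000000000) := T_31 (nat_lit 174) (nat_lit 175) (nat_lit 3) (nat_lit 4) (nat_lit 10) L87199 (by decide +kernel)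
theorem L87201 : W_31 (nat_lit 7) (nat_lit 0x2000900078001c000200040001000080000000000000000000000000000000) (nat_lit 0x0) (nat_lit 0x3a001d00040000000000001c0008000000000000000000000000000000000000000) := T_31 (nat_lit 176) (nat_lit 159) (nat_lit 4) (nat_lit 7) (nat_lit 13) L87200 (by decide +kernel)
theorem L87202 : W_31 (nat_lit 8) (nat_lit 0x900078001c000200040001000080000000000000000000000000000000) (nat_lit 0x0) (nat_lit 0x3e001f00040000000000001c0008000000000000000000000000000000000000000) := T_31 (nat_lit 245) (nat_lit 262) (nat_lit 6) (nat_lit 7) (nat_lit 15) L87201 (by decide +kernel)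
theorem L87203 : W_31 (nat_lit 9) (nat_lit 0x900078001c000200000001000080000000000000000000000000000000) (nat_lit 0x0) (nat_lit 0x3e001f00040000000000009c0048000000000000000000000000000000000000000) := T_31 (nat_lit 162) (nat_lit 179) (nat_lit 7) (nat_lit 9) (nat_lit 9) L87202 (by decide +kernel)
theorem L87204 : W_31 (nat_lit 10) (nat_lit 0x800078001c000200000001000080000000000000000000000000000000) (nat_lit 0x0) (nat_lit 0x3e001f00058000000000009c0048000000000000000000000000000000000000000) := T_31 (nat_lit 228) (nat_lit 227) (nat_lit 1) (nat_lit 10) (nat_lit 12) L87203 (by decide +kernel)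
theorem L87205 : W_31 (nat_lit 11) (nat_lit 0x78001c000200000001000080000000000000000000000000000000) (nat_lit 0x0) (nat_lit 0x3e001f001d8000000000009c0048000000000000000000000000000000000000000) := T_31 (nat_lit 231) (nat_lit 232) (nat_lit 3) (nat_lit 7) (nat_lit 12) L87204 (by decide +kernel)
theorem L87206 : W_31 (nat_lit 12) (nat_lit 0x38001c000200000001000080000000000000000000000000000000) (nat_lit 0x0) (nat_lit 0x3e001f001d800c000000009c0048000000000000000000000000000000000000000) := T_31 (nat_lit 214) (nat_lit 215) (nat_lit 0) (nat_lit 11) (nat_lit 12) L87205 (by decide +kernel)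
theorem L87207 : W_31 (nat_lit 2) (nat_lit 0x40000000900078001c000a00010001000080000000000000000000000000000000) (nat_lit 0x0) (nat_lit 0x2000100004000000000000000000000000000000000000000000000000000000000) := D_31 (nat_lit 248) (nat_lit 265) (nat_lit 230) (nat_lit 4) (nat_lit 10) (nat_lit 15) (nat_lit 7) (nat_lit 9) (nat_lit 10) (by decide +kernel)
theorem L87208 : W_31 (nat_lit 3) (nat_lit 0x40000000900078001c000200010001000080000000000000000000000000000000) (nat_lit 0x0) (nat_lit 0x2000100004000000000000800040000000000000000000000000000000000000000) := T_31 (nat_lit 179) (nat_lit 162) (nat_lit 7) (nat_lit 9) (nat_lit 9) L87207 (by decide +kernel)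
theorem L87209 : W_31 (nat_lit 4) (nat_lit 0x900078001c000200010001000080000000000000000000000000000000) (nat_lit 0x0) (nat_lit 0x2400120004000000000000800040000000000000000000000000000000000000000) := T_31 (nat_lit 262) (nat_lit 245) (nat_lit 6) (nat_lit 7) (nat_lit 15) L87208 (by decide +kernel)
theorem L87210 : W_31 (nat_lit 5) (nat_lit 0x100078001c000200010001000080000000000000000000000000000000) (nat_lit 0x0) (nat_lit 0x240012001c000000000000800040000000000000000000000000000000000000000) := T_31 (nat_lit 231) (nat_lit 232) (nat_lit 3) (nat_lit 7) (nat_lit 12) L87209 (by decide +kernel)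
theorem L87211 : W_31 (nat_lit 6) (nat_lit 0x78001c000200010001000080000000000000000000000000000000) (nat_lit 0x0) (nat_lit 0x240012001d800000000000800040000000000000000000000000000000000000000) := T_31 (nat_lit 228) (nat_lit 227) (nat_lit 1) (nat_lit 10) (nat_lit 12) L87210 (by decide +kernel)
theorem L87212 : W_31 (nat_lit 7) (nat_lit 0x78001c000200000001000080000000000000000000000000000000) (nat_lit 0x0) (nat_lit 0x240012001d800000000000800050000800000000000000000000000000000000000) := T_31 (nat_lit 160) (nat_lit 143) (nat_lit 7) (nat_lit 7) (nat_lit 8) L87211 (by decide +kernel)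
theorem L87213 : W_31 (nat_lit 8) (nat_lit 0x38001c000200000001000080000000000000000000000000000000) (nat_lit 0x0) (nat_lit 0x240012001d800c00000000800050000800000000000000000000000000000000000) := T_31 (nat_lit 214) (nat_lit 215) (nat_lit 0) (nat_lit 11) (nat_lit 12) L87212 (by decide +kernel)
theorem L87214 : W_31 (nat_lit 2) (nat_lit 0x10000800078001c000200000001800080000000000000000000000000000000) (nat_lit 0x0) (nat_lit 0x4000000000000800040000000000000000000000000000000000000000) := D_31 (nat_lit 179) (nat_lit 162) (nat_lit 230) (nat_lit 7) (nat_lit 9) (nat_lit 9) (nat_lit 7) (nat_lit 9) (nat_lit 10) (by decide +kernel)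
theorem L87215 : W_31 (nat_lit 3) (nat_lit 0x800078001c000200000001800080000000000000000000000000000000) (nat_lit 0x0) (nat_lit 0x2000100004000000000000800040000000000000000000000000000000000000000) := T_31 (nat_lit 248) (nat_lit 265) (nat_lit 4) (nat_lit 10) (nat_lit 15) L87214 (by decide +kernel)
theorem L87216 : W_31 (nat_lit 4) (nat_lit 0x78001c000200000001800080000000000000000000000000000000) (nat_lit 0x0) (nat_lit 0x200010001c000000000000800040000000000000000000000000000000000000000) := T_31 (nat_lit 231) (nat_lit 232) (nat_lit 3) (nat_lit 7) (nat_lit 12) L87215 (by decide +kernel)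
theorem L87217 : W_31 (nat_lit 5) (nat_lit 0x38001c000200000001800080000000000000000000000000000000) (nat_lit 0x0) (nat_lit 0x200010001c000c00000000800040000000000000000000000000000000000000000) := T_31 (nat_lit 214) (nat_lit 215) (nat_lit 0) (nat_lit 11) (nat_lit 12) L87216 (by decide +kernel)
theorem L87218 : W_31 (nat_lit 6) (nat_lit 0x38001c000200000001000080000000000000000000000000000000) (nat_lit 0x0) (nat_lit 0x200010001c000c00000000800050000800000000000000000000000000000000000) := T_31 (nat_lit 143) (nat_lit 160) (nat_lit 7) (nat_lit 7) (nat_lit 8) L87217 (by decide +kernel)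
theorem L87219 : W_31 (nat_lit 2) (nat_lit 0x1000100038001c000200018001000080000000000000000000000000000000) (nat_lit 0x0) (nat_lit 0x600020000000000000000000000000000000000000000000000000000000000000) := D_31 (nat_lit 245) (nat_lit 262) (nat_lit 261) (nat_lit 6) (nat_lit 7) (nat_lit 15) (nat_lit 5) (nat_lit 7) (nat_lit 11) (by decide +kernel)
theorem L87220 : W_31 (nat_lit 3) (nat_lit 0x100038001c000200018001000080000000000000000000000000000000) (nat_lit 0x0) (nat_lit 0x600030000800000000000000000000000000000000000000000000000000000000) := T_31 (nat_lit 244) (nat_lit 227) (nat_lit 5) (nat_lit 7) (nat_lit 10) L87219 (by decide +kernel)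
theorem L87221 : W_31 (nat_lit 4) (nat_lit 0x38001c000200018001000080000000000000000000000000000000) (nat_lit 0x0) (nat_lit 0x600030001800000000000100000000000000000000000000000000000000000000) := T_31 (nat_lit 228) (nat_lit 176) (nat_lit 4) (nat_lit 7) (nat_lit 13) L87220 (by decide +kernel)
theorem L87222 : W_31 (nat_lit 5) (nat_lit 0x38001c000200010001000080000000000000000000000000000000) (nat_lit 0x0) (nat_lit 0x600030001800000000000100008000400000000000000000000000000000000000) := T_31 (nat_lit 159) (nat_lit 142) (nat_lit 4) (nat_lit 7) (nat_lit 12) L87221 (by decide +kernel)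
theorem L87223 : W_31 (nat_lit 6) (nat_lit 0x38001c000200000001000080000000000000000000000000000000) (nat_lit 0x0) (nat_lit 0x600030001800000000000100018000c00000000000000000000000000000000000) := T_31 (nat_lit 160) (nat_lit 143) (nat_lit 7) (nat_lit 7) (nat_lit 8) L87222 (by decide +kernel)
theorem L87224 : W_31 (nat_lit 13) (nat_lit 0x30001c000200000001000080000000000000000000000000000000) (nat_lit 0x0) (nat_lit 0x3e001f001d800c800000009c0058000c00000000000000000000000000000000000) := Q_31 (nat_lit 211) (C_31 L87195 (C_31 L87206 (C_31 L87213 (C_31 L87218 (C_31 L87223 N_31))))) (by decide +kernel)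
theorem L87225 : W_31 (nat_lit 4) (nat_lit 0x30001c000200010001000080000000000000000000000000000000) (nat_lit 0x0) (nat_lit 0xe0007100000000000000000000000000000000000000000000) := T_31 (nat_lit 197) (nat_lit 176) (nat_lit 0) (nat_lit 10) (nat_lit 11) L85642 (by decide +kernel)
theorem L87226 : W_31 (nat_lit 5) (nat_lit 0x30001c000200000001000080000000000000000000000000000000) (nat_lit 0x0) (nat_lit 0xe0007100010000800000000000000000000000000000000000) := T_31 (nat_lit 160) (nat_lit 143) (nat_lit 7) (nat_lit 7) (nat_lit 8) L87225 (by decide +kernel)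
theorem L87227 : W_31 (nat_lit 14) (nat_lit 0x30000c000200000001000080000000000000000000000000000000) (nat_lit 0x0) (nat_lit 0x3e001f001d801c800f00079c00d8004c00000000000000000000000000000000000) := Q_31 (nat_lit 196) (C_31 L87131 (C_31 L87177 (C_31 L87224 (C_31 L87226 N_31)))) (by decide +kernel)
theorem L87228 : W_31 (nat_lit 2) (nat_lit 0x30001c000300000001000080000000000000000000000000000000) (nat_lit 0x0) (nat_lit 0x20000c0000000000000000000000000000000000000000000) := D_31 (nat_lit 175) (nat_lit 174) (nat_lit 193) (nat_lit 3) (nat_lit 4) (nat_lit 10) (nat_lit 0) (nat_lit 9) (nat_lit 11) (by decide +kernel)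
theorem L87229 : W_31 (nat_lit 3) (nat_lit 0x30000c000300000001000080000000000000000000000000000000) (nat_lit 0x0) (nat_lit 0x320000c0000000000000000000000000000000000000000000) := T_31 (nat_lit 196) (nat_lit 197) (nat_lit 0) (nat_lit 10) (nat_lit 11) L87228 (by decide +kernel)
theorem L87230 : W_31 (nat_lit 2) (nat_lit 0x30003e001200000001800080000000000000000000000000000000) (nat_lit 0x0) (nat_lit 0x800c0000000000000000000000000000000000000000000000000) := D_31 (nat_lit 198) (nat_lit 199) (nat_lit 211) (nat_lit 1) (nat_lit 12) (nat_lit 11) (nat_lit 1) (nat_lit 11) (nat_lit 11) (by decide +kernel)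
theorem L87231 : W_31 (nat_lit 3) (nat_lit 0x30001e001200000001800080000000000000000000000000000000) (nat_lit 0x0) (nat_lit 0x800e0002000000000000000000000000000000000000000000000) := T_31 (nat_lit 197) (nat_lit 181) (nat_lit 2) (nat_lit 7) (nat_lit 11) L87230 (by decide +kernel)
theorem L87232 : W_31 (nat_lit 4) (nat_lit 0x30001e000200000001800080000000000000000000000000000000) (nat_lit 0x0) (nat_lit 0x800e0003800000000000000000000000000000000000000000000) := T_31 (nat_lit 180) (nat_lit 179) (nat_lit 2) (nat_lit 6) (nat_lit 11) L87231 (by decide +kernel)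
theorem L87233 : W_31 (nat_lit 5) (nat_lit 0x30001c000200000001800080000000000000000000000000000000) (nat_lit 0x0) (nat_lit 0x800e3003800000000000000000000000000000000000000000000) := T_31 (nat_lit 193) (nat_lit 192) (nat_lit 3) (nat_lit 5) (nat_lit 11) L87232 (by decide +kernel)
theorem L87234 : W_31 (nat_lit 6) (nat_lit 0x30001c000200000001000080000000000000000000000000000000) (nat_lit 0x0) (nat_lit 0x800e3003800010000800000000000000000000000000000000000) := T_31 (nat_lit 143) (nat_lit 160) (nat_lit 7) (nat_lit 7) (nat_lit 8) L87233 (by decide +kernel)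
theorem L87235 : W_31 (nat_lit 2) (nat_lit 0x1c000c00030001d000200000001000080000000000000000000000000000000) (nat_lit 0x0) (nat_lit 0x30010000000000000000000000000000000000000000000000000000000000) := D_31 (nat_lit 245) (nat_lit 232) (nat_lit 244) (nat_lit 2) (nat_lit 7) (nat_lit 14) (nat_lit 2) (nat_lit 6) (nat_lit 14) (by decide +kernel)
theorem L87236 : W_31 (nat_lit 3) (nat_lit 0x18000c00030001d000200000001000080000000000000000000000000000000) (nat_lit 0x0) (nat_lit 0x800070010000000000000000000000000000000000000000000000000000000000) := T_31 (nat_lit 246) (nat_lit 263) (nat_lit 5) (nat_lit 9) (nat_lit 11) L87235 (by decide +kernel)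
theorem L87237 : W_31 (nat_lit 4) (nat_lit 0x18000400030001d000200000001000080000000000000000000000000000000) (nat_lit 0x0) (nat_lit 0x800070018000000000000800000000000000000000000000000000000000000000) := T_31 (nat_lit 231) (nat_lit 179) (nat_lit 7) (nat_lit 9) (nat_lit 10) L87236 (by decide +kernel)
theorem L87238 : W_31 (nat_lit 5) (nat_lit 0x8000400030001d000200000001000080000000000000000000000000000000) (nat_lit 0x0) (nat_lit 0x2800170018000000000000800000000000000000000000000000000000000000000) := T_31 (nat_lit 248) (nat_lit 265) (nat_lit 7) (nat_lit 9) (nat_lit 11) L87237 (by decide +kernel)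
theorem L87239 : W_31 (nat_lit 6) (nat_lit 0x8000400030001c000200000001000080000000000000000000000000000000) (nat_lit 0x0) (nat_lit 0x2800170018000000003000800000000000000000000000000000000000000000000) := T_31 (nat_lit 192) (nat_lit 193) (nat_lit 3) (nat_lit 5) (nat_lit 11) L87238 (by decide +kernel)
theorem L87240 : W_31 (nat_lit 7) (nat_lit 0x400030001c000200000001000080000000000000000000000000000000) (nat_lit 0x0) (nat_lit 0x38001f0018000000003000800000000000000000000000000000000000000000000) := T_31 (nat_lit 247) (nat_lit 264) (nat_lit 4) (nat_lit 9) (nat_lit 15) L87239 (by decide +kernel)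
theorem L87241 : W_31 (nat_lit 2) (nat_lit 0x400030001c000200018001400080000000000000000000000000000000) (nat_lit 0x0) (nat_lit 0x100000000000020001000000000000000000000000000) := D_31 (nat_lit 125) (nat_lit 108) (nat_lit 176) (nat_lit 7) (nat_lit 6) (nat_lit 6) (nat_lit 7) (nat_lit 6) (nat_lit 7) (by decide +kernel)
theorem L87242 : W_31 (nat_lit 3) (nat_lit 0x400030001c000200010001400080000000000000000000000000000000) (nat_lit 0x0) (nat_lit 0x80000000100008000000020001000000000000000000000000000) := T_31 (nat_lit 159) (nat_lit 211) (nat_lit 4) (nat_lit 7) (nat_lit 12) L87241 (by decide +kernel)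
theorem L87243 : W_31 (nat_lit 4) (nat_lit 0x400030001c000200000001400080000000000000000000000000000000) (nat_lit 0x0) (nat_lit 0x80000000100018000800020001000000000000000000000000000) := T_31 (nat_lit 160) (nat_lit 143) (nat_lit 7) (nat_lit 7) (nat_lit 8) L87242 (by decide +kernel)
theorem L87244 : W_31 (nat_lit 2) (nat_lit 0x100000000400030001e000300000001400080000000000000000000000000000000) (nat_lit 0x0) (nat_lit 0x80000000000008000000020000000000000000000000000000000) := D_31 (nat_lit 159) (nat_lit 211) (nat_lit 125) (nat_lit 7) (nat_lit 6) (nat_lit 8) (nat_lit 7) (nat_lit 6) (nat_lit 7) (by decide +kernel)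
theorem L87245 : W_31 (nat_lit 3) (nat_lit 0x100000000400030001e000200000001400080000000000000000000000000000000) (nat_lit 0x0) (nat_lit 0x80000000180008000000020000000000000000000000000000000) := T_31 (nat_lit 176) (nat_lit 175) (nat_lit 0) (nat_lit 9) (nat_lit 11) L87244 (by decide +kernel)
theorem L87246 : W_31 (nat_lit 4) (nat_lit 0x400030001e000200000001400080000000000000000000000000000000) (nat_lit 0x0) (nat_lit 0x1000080000000080000000180008000000020000000000000000000000000000000) := T_31 (nat_lit 264) (nat_lit 247) (nat_lit 4) (nat_lit 9) (nat_lit 15) L87245 (by decide +kernel)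
theorem L87247 : W_31 (nat_lit 5) (nat_lit 0x400030001c000200000001400080000000000000000000000000000000) (nat_lit 0x0) (nat_lit 0x1000080000000080003000180008000000020000000000000000000000000000000) := T_31 (nat_lit 193) (nat_lit 192) (nat_lit 3) (nat_lit 5) (nat_lit 11) L87246 (by decide +kernel)
theorem L87248 : W_31 (nat_lit 2) (nat_lit 0x100000000400030001d000280004001e00090000000000000000000000000000000) (nat_lit 0x0) (nat_lit 0x10000800040000000000000000000000000000000000000000000) := D_31 (nat_lit 191) (nat_lit 208) (nat_lit 174) (nat_lit 5) (nat_lit 5) (nat_lit 8) (nat_lit 5) (nat_lit 5) (nat_lit 7) (by decide +kernel)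
theorem L87249 : W_31 (nat_lit 3) (nat_lit 0x100000000400030001d000200004001e00090000000000000000000000000000000) (nat_lit 0x0) (nat_lit 0x100008000c0000000000020000000000000000000000000000000) := T_31 (nat_lit 175) (nat_lit 125) (nat_lit 6) (nat_lit 5) (nat_lit 11) L87248 (by decide +kernel)
theorem L87250 : W_31 (nat_lit 4) (nat_lit 0x100000000400030001c000200004001e00090000000000000000000000000000000) (nat_lit 0x0) (nat_lit 0x100038000c0000000000020000000000000000000000000000000) := T_31 (nat_lit 192) (nat_lit 193) (nat_lit 3) (nat_lit 5) (nat_lit 11) L87249 (by decide +kernel)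
theorem L87251 : W_31 (nat_lit 5) (nat_lit 0x100000000400030001c000200004001e00080000000000000000000000000000000) (nat_lit 0x0) (nat_lit 0x100038000c0000000000038000000000000000000000000000000) := T_31 (nat_lit 124) (nat_lit 123) (nat_lit 0) (nat_lit 8) (nat_lit 8) L87250 (by decide +kernel)
theorem L87252 : W_31 (nat_lit 6) (nat_lit 0x100000000400030001c000200000001e00080000000000000000000000000000000) (nat_lit 0x0) (nat_lit 0x100038000c0006000000038000000000000000000000000000000) := T_31 (nat_lit 158) (nat_lit 157) (nat_lit 1) (nat_lit 8) (nat_lit 8) L87251 (by decide +kernel)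
theorem L87253 : W_31 (nat_lit 7) (nat_lit 0x100000000400030001c000200000001c00080000000000000000000000000000000) (nat_lit 0x0) (nat_lit 0x100038000c0006000200138000000000000000000000000000000) := T_31 (nat_lit 141) (nat_lit 128) (nat_lit 2) (nat_lit 5) (nat_lit 8) L87252 (by decide +kernel)
theorem L87254 : W_31 (nat_lit 8) (nat_lit 0x100000000400030001c000200000001400080000000000000000000000000000000) (nat_lit 0x0) (nat_lit 0x100038000c0016000a00138000000000000000000000000000000) := T_31 (nat_lit 143) (nat_lit 160) (nat_lit 7) (nat_lit 7) (nat_lit 8) L87253 (by decide +kernel)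
theorem L87255 : W_31 (nat_lit 9) (nat_lit 0x400030001c000200000001400080000000000000000000000000000000) (nat_lit 0x0) (nat_lit 0x10000800000000100038000c0016000a00138000000000000000000000000000000) := T_31 (nat_lit 264) (nat_lit 247) (nat_lit 4) (nat_lit 9) (nat_lit 15) L87254 (by decide +kernel)
theorem L87256 : W_31 (nat_lit 2) (nat_lit 0x100000000400030001d000200004001e00088000000000000000000000000000000) (nat_lit 0x0) (nat_lit 0x80000000100004000000000000000000000000000000) := D_31 (nat_lit 140) (nat_lit 122) (nat_lit 175) (nat_lit 0) (nat_lit 7) (nat_lit 8) (nat_lit 4) (nat_lit 5) (nat_lit 11) (by decide +kernel)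
theorem L87257 : W_31 (nat_lit 3) (nat_lit 0x100000000400030001d000200004001e00080000000000000000000000000000000) (nat_lit 0x0) (nat_lit 0x8000000010001c000000000000000000000000000000) := T_31 (nat_lit 123) (nat_lit 124) (nat_lit 0) (nat_lit 8) (nat_lit 8) L87256 (by decide +kernel)
theorem L87258 : W_31 (nat_lit 4) (nat_lit 0x100000000400030001d000200000001e00080000000000000000000000000000000) (nat_lit 0x0) (nat_lit 0x8000600010001c000000000000000000000000000000) := T_31 (nat_lit 158) (nat_lit 157) (nat_lit 1) (nat_lit 8) (nat_lit 8) L87257 (by decide +kernel)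
theorem L87259 : W_31 (nat_lit 5) (nat_lit 0x100000000400030001d000200000001c00080000000000000000000000000000000) (nat_lit 0x0) (nat_lit 0x8000600030011c000000000000000000000000000000) := T_31 (nat_lit 141) (nat_lit 128) (nat_lit 2) (nat_lit 5) (nat_lit 8) L87258 (by decide +kernel)
theorem L87260 : W_31 (nat_lit 6) (nat_lit 0x100000000400030001d000200000001400080000000000000000000000000000000) (nat_lit 0x0) (nat_lit 0x80016000b0011c000000000000000000000000000000) := T_31 (nat_lit 143) (nat_lit 160) (nat_lit 7) (nat_lit 7) (nat_lit 8) L87259 (by decide +kernel)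
theorem L87261 : W_31 (nat_lit 7) (nat_lit 0x400030001d000200000001400080000000000000000000000000000000) (nat_lit 0x0) (nat_lit 0x1000080000000000000000080016000b0011c000000000000000000000000000000) := T_31 (nat_lit 264) (nat_lit 247) (nat_lit 4) (nat_lit 9) (nat_lit 15) L87260 (by decide +kernel)
theorem L87262 : W_31 (nat_lit 8) (nat_lit 0x400030001c000200000001400080000000000000000000000000000000) (nat_lit 0x0) (nat_lit 0x1000080000000000003000080016000b0011c000000000000000000000000000000) := T_31 (nat_lit 192) (nat_lit 193) (nat_lit 3) (nat_lit 5) (nat_lit 11) L87261 (by decide +kernel)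
theorem L87263 : W_31 (nat_lit 10) (nat_lit 0x400030001c000200000001000080000000000000000000000000000000) (nat_lit 0x0) (nat_lit 0x10000800000000900038001c001e000f0013c001000000000000000000000000000) := Q_31 (nat_lit 142) (C_31 L87243 (C_31 L87247 (C_31 L87255 (C_31 L87262 N_31)))) (by decide +kernel)
theorem L87264 : W_31 (nat_lit 2) (nat_lit 0x400030001e000b00000001400080000000000000000000000000000000) (nat_lit 0x0) (nat_lit 0x80000000000008000000020000000000000000000000000000000) := D_31 (nat_lit 159) (nat_lit 211) (nat_lit 125) (nat_lit 7) (nat_lit 6) (nat_lit 8) (nat_lit 7) (nat_lit 6) (nat_lit 7) (by decide +kernel)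
theorem L87265 : W_31 (nat_lit 3) (nat_lit 0x400030001e000a00000001400080000000000000000000000000000000) (nat_lit 0x0) (nat_lit 0x80000000180008000000020000000000000000000000000000000) := T_31 (nat_lit 176) (nat_lit 175) (nat_lit 0) (nat_lit 9) (nat_lit 11) L87264 (by decide +kernel)
theorem L87266 : W_31 (nat_lit 4) (nat_lit 0x400030001e000200000001400080000000000000000000000000000000) (nat_lit 0x0) (nat_lit 0x80000001980008000000020000000000000000000000000000000) := T_31 (nat_lit 179) (nat_lit 180) (nat_lit 2) (nat_lit 6) (nat_lit 11) L87265 (by decide +kernel)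
theorem L87267 : W_31 (nat_lit 5) (nat_lit 0x400030001c000200000001400080000000000000000000000000000000) (nat_lit 0x0) (nat_lit 0x80003001980008000000020000000000000000000000000000000) := T_31 (nat_lit 193) (nat_lit 192) (nat_lit 3) (nat_lit 5) (nat_lit 11) L87266 (by decide +kernel)
theorem L87268 : W_31 (nat_lit 2) (nat_lit 0x400030001d000280004001e00090000000000000000000000000000000) (nat_lit 0x0) (nat_lit 0x10000800040000000000000000000000000000000000000000000) := D_31 (nat_lit 191) (nat_lit 208) (nat_lit 174) (nat_lit 5) (nat_lit 5) (nat_lit 8) (nat_lit 5) (nat_lit 5) (nat_lit 7) (by decide +kernel)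
theorem L87269 : W_31 (nat_lit 3) (nat_lit 0x400030001d000200004001e00090000000000000000000000000000000) (nat_lit 0x0) (nat_lit 0x100008000c0000000000020000000000000000000000000000000) := T_31 (nat_lit 175) (nat_lit 125) (nat_lit 6) (nat_lit 5) (nat_lit 11) L87268 (by decide +kernel)
theorem L87270 : W_31 (nat_lit 4) (nat_lit 0x400030001d000200004001e00080000000000000000000000000000000) (nat_lit 0x0) (nat_lit 0x100008000c0000000000038000000000000000000000000000000) := T_31 (nat_lit 124) (nat_lit 123) (nat_lit 0) (nat_lit 8) (nat_lit 8) L87269 (by decide +kernel)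
theorem L87271 : W_31 (nat_lit 5) (nat_lit 0x400030001d000200000001e00080000000000000000000000000000000) (nat_lit 0x0) (nat_lit 0x100008000c0006000000038000000000000000000000000000000) := T_31 (nat_lit 158) (nat_lit 157) (nat_lit 1) (nat_lit 8) (nat_lit 8) L87270 (by decide +kernel)
theorem L87272 : W_31 (nat_lit 6) (nat_lit 0x400030001d000200000001c00080000000000000000000000000000000) (nat_lit 0x0) (nat_lit 0x100008000c0006000200138000000000000000000000000000000) := T_31 (nat_lit 141) (nat_lit 128) (nat_lit 2) (nat_lit 5) (nat_lit 8) L87271 (by decide +kernel)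
theorem L87273 : W_31 (nat_lit 7) (nat_lit 0x400030001d000200000001400080000000000000000000000000000000) (nat_lit 0x0) (nat_lit 0x100008000c0016000a00138000000000000000000000000000000) := T_31 (nat_lit 143) (nat_lit 160) (nat_lit 7) (nat_lit 7) (nat_lit 8) L87272 (by decide +kernel)
theorem L87274 : W_31 (nat_lit 8) (nat_lit 0x400030001c000200000001400080000000000000000000000000000000) (nat_lit 0x0) (nat_lit 0x100038000c0016000a00138000000000000000000000000000000) := T_31 (nat_lit 192) (nat_lit 193) (nat_lit 3) (nat_lit 5) (nat_lit 11) L87273 (by decide +kernel)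
theorem L87275 : W_31 (nat_lit 2) (nat_lit 0x400030001d000200004001e00088000000000000000000000000000000) (nat_lit 0x0) (nat_lit 0x80000000100004000000000000000000000000000000) := D_31 (nat_lit 140) (nat_lit 122) (nat_lit 175) (nat_lit 0) (nat_lit 7) (nat_lit 8) (nat_lit 4) (nat_lit 5) (nat_lit 11) (by decide +kernel)
theorem L87276 : W_31 (nat_lit 3) (nat_lit 0x400030001d000200004001e00080000000000000000000000000000000) (nat_lit 0x0) (nat_lit 0x8000000010001c000000000000000000000000000000) := T_31 (nat_lit 123) (nat_lit 124) (nat_lit 0) (nat_lit 8) (nat_lit 8) L87275 (by decide +kernel)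
theorem L87277 : W_31 (nat_lit 4) (nat_lit 0x400030001d000200000001e00080000000000000000000000000000000) (nat_lit 0x0) (nat_lit 0x8000600010001c000000000000000000000000000000) := T_31 (nat_lit 158) (nat_lit 157) (nat_lit 1) (nat_lit 8) (nat_lit 8) L87276 (by decide +kernel)
theorem L87278 : W_31 (nat_lit 5) (nat_lit 0x400030001d000200000001c00080000000000000000000000000000000) (nat_lit 0x0) (nat_lit 0x8000600030011c000000000000000000000000000000) := T_31 (nat_lit 141) (nat_lit 128) (nat_lit 2) (nat_lit 5) (nat_lit 8) L87277 (by decide +kernel)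
theorem L87279 : W_31 (nat_lit 6) (nat_lit 0x400030001c000200000001c00080000000000000000000000000000000) (nat_lit 0x0) (nat_lit 0x300008000600030011c000000000000000000000000000000) := T_31 (nat_lit 192) (nat_lit 193) (nat_lit 3) (nat_lit 5) (nat_lit 11) L87278 (by decide +kernel)
theorem L87280 : W_31 (nat_lit 7) (nat_lit 0x400030001c000200000001400080000000000000000000000000000000) (nat_lit 0x0) (nat_lit 0x3000080016000b0011c000000000000000000000000000000) := T_31 (nat_lit 143) (nat_lit 160) (nat_lit 7) (nat_lit 7) (nat_lit 8) L87279 (by decide +kernel)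
theorem L87281 : W_31 (nat_lit 9) (nat_lit 0x400030001c000200000001000080000000000000000000000000000000) (nat_lit 0x0) (nat_lit 0x900038019c001e000f0013c001000000000000000000000000000) := Q_31 (nat_lit 142) (C_31 L87243 (C_31 L87267 (C_31 L87274 (C_31 L87280 N_31)))) (by decide +kernel)
theorem L87282 : W_31 (nat_lit 11) (nat_lit 0x30001c000200000001000080000000000000000000000000000000) (nat_lit 0x0) (nat_lit 0x38001f001c0000900038019c001e000f0013c001000000000000000000000000000) := Q_31 (nat_lit 230) (C_31 L87189 (C_31 L87240 (C_31 L87263 (C_31 L87281 N_31)))) (by decide +kernel)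
theorem L87283 : W_31 (nat_lit 12) (nat_lit 0x30000c000200000001000080000000000000000000000000000000) (nat_lit 0x0) (nat_lit 0x38001f001c0000900f38079c001e000f0013c001000000000000000000000000000) := Q_31 (nat_lit 196) (C_31 L87226 (C_31 L87161 (C_31 L87234 (C_31 L87282 N_31)))) (by decide +kernel)
theorem L87284 : W_31 (nat_lit 15) (nat_lit 0x10000c000200000001000080000000000000000000000000000000) (nat_lit 0x0) (nat_lit 0x3e001f001d801e900f38079c00de004f0013c001000000000000000000000000000) := Q_31 (nat_lit 213) (C_31 L87158 (C_31 L87227 (C_31 L19093 (C_31 L87283 N_31)))) (by decide +kernel)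
theorem L87285 : W_31 (nat_lit 16) (nat_lit 0xc000200000001000080000000000000000000000000000000) (nat_lit 0x0) (nat_lit 0x8003e007f003fe07fb01f381f9c01de00cf0073c021000000000000000000000000000) := Q_31 (nat_lit 212) (C_31 L86996 (C_31 L87125 (C_31 L87163 (C_31 L87174 (C_31 L87176 (C_31 L87284 N_31)))))) (by decide +kernel)
theorem L87287 : W_31 (nat_lit 15) (nat_lit 0xc000200000001000080000000000000000000000000000000) (nat_lit 0x0) (nat_lit 0xfe007e007b8033e03df81df8007c003c001e00030000000000000000000000) := Q_31 (nat_lit 176) (C_31 L84187 (C_31 L82190 (C_31 L5377 (C_31 L87286 (C_31 L83889 N_31))))) (by decide +kernel)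
theorem L87292 : W_31 (nat_lit 2) (nat_lit 0xf00078001c000700000001000080000000000000000000000000000000) (nat_lit 0x0) (nat_lit 0x2000300000000000000000000000000000000000000000000000000000000000000) := D_31 (nat_lit 248) (nat_lit 265) (nat_lit 249) (nat_lit 4) (nat_lit 10) (nat_lit 15) (nat_lit 3) (nat_lit 7) (nat_lit 13) (by decide +kernel)
theorem L87293 : W_31 (nat_lit 3) (nat_lit 0x700078001c000700000001000080000000000000000000000000000000) (nat_lit 0x0) (nat_lit 0x2000300018000000000000000000000000000000000000000000000000000000000) := T_31 (nat_lit 231) (nat_lit 232) (nat_lit 3) (nat_lit 7) (nat_lit 12) L87292 (by decide +kernel)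
theorem L87294 : W_31 (nat_lit 4) (nat_lit 0x700070001c000700000001000080000000000000000000000000000000) (nat_lit 0x0) (nat_lit 0x2000300018000080000000000008000000000000000000000000000000000000000) := T_31 (nat_lit 211) (nat_lit 159) (nat_lit 4) (nat_lit 7) (nat_lit 13) L87293 (by decide +kernel)
theorem L87295 : W_31 (nat_lit 5) (nat_lit 0x700070001c000600000001000080000000000000000000000000000000) (nat_lit 0x0) (nat_lit 0x2000300018000080000000180008000000000000000000000000000000000000000) := T_31 (nat_lit 176) (nat_lit 175) (nat_lit 3) (nat_lit 5) (nat_lit 10) L87294 (by decide +kernel)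
theorem L87296 : W_31 (nat_lit 6) (nat_lit 0x700070001c000200000001000080000000000000000000000000000000) (nat_lit 0x0) (nat_lit 0x2000320018000080000000580008000000000000000000000000000000000000000) := T_31 (nat_lit 178) (nat_lit 245) (nat_lit 5) (nat_lit 8) (nat_lit 10) L87295 (by decide +kernel)
theorem L87297 : W_31 (nat_lit 7) (nat_lit 0x600070001c000200000001000080000000000000000000000000000000) (nat_lit 0x0) (nat_lit 0x2000320019800080000000580008000000000000000000000000000000000000000) := T_31 (nat_lit 228) (nat_lit 227) (nat_lit 2) (nat_lit 6) (nat_lit 13) L87296 (by decide +kernel)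
theorem L87298 : W_31 (nat_lit 8) (nat_lit 0x600030001c000200000001000080000000000000000000000000000000) (nat_lit 0x0) (nat_lit 0x2000320019800c80000000580008000000000000000000000000000000000000000) := T_31 (nat_lit 214) (nat_lit 215) (nat_lit 0) (nat_lit 11) (nat_lit 12) L87297 (by decide +kernel)
theorem L87299 : W_31 (nat_lit 9) (nat_lit 0x400030001c000200000001000080000000000000000000000000000000) (nat_lit 0x0) (nat_lit 0x200036001b800c80000000580008000000000000000000000000000000000000000) := T_31 (nat_lit 229) (nat_lit 246) (nat_lit 4) (nat_lit 8) (nat_lit 14) L87298 (by decide +kernel)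
theorem L87300 : W_31 (nat_lit 10) (nat_lit 0x30001c000200000001000080000000000000000000000000000000) (nat_lit 0x0) (nat_lit 0x38003e001f800c80000000580008000000000000000000000000000000000000000) := Q_31 (nat_lit 230) (C_31 L87064 (C_31 L85638 (C_31 L87299 N_31))) (by decide +kernel)
theorem L87301 : W_31 (nat_lit 11) (nat_lit 0x30000c000200000001000080000000000000000000000000000000) (nat_lit 0x0) (nat_lit 0x38003e001f801c800f0007580088004000000000000000000000000000000000000) := Q_31 (nat_lit 196) (C_31 L87155 (C_31 L87291 (C_31 L87131 (C_31 L87300 N_31)))) (by decide +kernel)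
theorem L87302 : W_31 (nat_lit 2) (nat_lit 0x30000c000380000001000080000000000000000000000000000000) (nat_lit 0x0) (nat_lit 0x30000400000000000000000000000000000000000000000000) := D_31 (nat_lit 196) (nat_lit 197) (nat_lit 178) (nat_lit 0) (nat_lit 10) (nat_lit 11) (nat_lit 3) (nat_lit 5) (nat_lit 10) (by decide +kernel)
theorem L87303 : W_31 (nat_lit 3) (nat_lit 0x30000c000300000001000080000000000000000000000000000000) (nat_lit 0x0) (nat_lit 0x300004c0000000000000000000000000000000000000000000) := T_31 (nat_lit 175) (nat_lit 174) (nat_lit 3) (nat_lit 4) (nat_lit 10) L87302 (by decide +kernel)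
theorem L87304 : W_31 (nat_lit 2) (nat_lit 0x700038000d000780004001000080000000000000000000000000000000) (nat_lit 0x0) (nat_lit 0x10000c00000000000000000000000000000000000000000000000000000000) := D_31 (nat_lit 227) (nat_lit 226) (nat_lit 244) (nat_lit 2) (nat_lit 5) (nat_lit 13) (nat_lit 5) (nat_lit 7) (nat_lit 10) (by decide +kernel)
theorem L87305 : W_31 (nat_lit 3) (nat_lit 0x700030000d000780004001000080000000000000000000000000000000) (nat_lit 0x0) (nat_lit 0x10000c00080000000000008000000000000000000000000000000000000000) := T_31 (nat_lit 211) (nat_lit 159) (nat_lit 4) (nat_lit 7) (nat_lit 13) L87304 (by decide +kernel)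
theorem L87306 : W_31 (nat_lit 4) (nat_lit 0x600030000d000780004001000080000000000000000000000000000000) (nat_lit 0x0) (nat_lit 0x30001c00080000000000008000000000000000000000000000000000000000) := T_31 (nat_lit 228) (nat_lit 245) (nat_lit 5) (nat_lit 8) (nat_lit 10) L87305 (by decide +kernel)
theorem L87307 : W_31 (nat_lit 5) (nat_lit 0x200030000d000780004001000080000000000000000000000000000000) (nat_lit 0x0) (nat_lit 0xb0005c00080000000000008000000000000000000000000000000000000000) := T_31 (nat_lit 230) (nat_lit 247) (nat_lit 7) (nat_lit 8) (nat_lit 10) L87306 (by decide +kernel)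
theorem L87308 : W_31 (nat_lit 6) (nat_lit 0x200030000d000780000001000080000000000000000000000000000000) (nat_lit 0x0) (nat_lit 0xb0005c0008000000000000e000000000000000000000000000000000000000) := T_31 (nat_lit 158) (nat_lit 157) (nat_lit 0) (nat_lit 8) (nat_lit 10) L87307 (by decide +kernel)
theorem L87309 : W_31 (nat_lit 7) (nat_lit 0x200030000d000380000001000080000000000000000000000000000000) (nat_lit 0x0) (nat_lit 0xb0005c0008000080040000e000000000000000000000000000000000000000) := T_31 (nat_lit 178) (nat_lit 191) (nat_lit 1) (nat_lit 8) (nat_lit 10) L87308 (by decide +kernel)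
theorem L87310 : W_31 (nat_lit 8) (nat_lit 0x30000d000380000001000080000000000000000000000000000000) (nat_lit 0x0) (nat_lit 0xf0007c0008000080040000e000000000000000000000000000000000000000) := T_31 (nat_lit 229) (nat_lit 246) (nat_lit 4) (nat_lit 8) (nat_lit 14) L87309 (by decide +kernel)
theorem L87311 : W_31 (nat_lit 9) (nat_lit 0x30000d000300000001000080000000000000000000000000000000) (nat_lit 0x0) (nat_lit 0xf0007c000800008004c000e000000000000000000000000000000000000000) := T_31 (nat_lit 175) (nat_lit 174) (nat_lit 3) (nat_lit 4) (nat_lit 10) L87310 (by decide +kernel)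
theorem L87312 : W_31 (nat_lit 10) (nat_lit 0x30000c000300000001000080000000000000000000000000000000) (nat_lit 0x0) (nat_lit 0xf0007c000800038004c000e000000000000000000000000000000000000000) := T_31 (nat_lit 192) (nat_lit 193) (nat_lit 3) (nat_lit 5) (nat_lit 11) L87311 (by decide +kernel)
theorem L87313 : W_31 (nat_lit 2) (nat_lit 0x100038002c000300000001000080000000000000000000000000000000) (nat_lit 0x0) (nat_lit 0x400020000000000000000400000000000000000000000000000000000000000000) := D_31 (nat_lit 245) (nat_lit 178) (nat_lit 262) (nat_lit 6) (nat_lit 7) (nat_lit 14) (nat_lit 6) (nat_lit 7) (nat_lit 15) (by decide +kernel)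
theorem L87314 : W_31 (nat_lit 3) (nat_lit 0x100030002c000300000001000080000000000000000000000000000000) (nat_lit 0x0) (nat_lit 0x400020000000080000000400008000000000000000000000000000000000000000) := T_31 (nat_lit 211) (nat_lit 159) (nat_lit 4) (nat_lit 7) (nat_lit 13) L87313 (by decide +kernel)
theorem L87315 : W_31 (nat_lit 4) (nat_lit 0x100030000c000300000001000080000000000000000000000000000000) (nat_lit 0x0) (nat_lit 0x400020000000080030000400008000000000000000000000000000000000000000) := T_31 (nat_lit 197) (nat_lit 196) (nat_lit 0) (nat_lit 10) (nat_lit 11) L87314 (by decide +kernel)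
theorem L87316 : W_31 (nat_lit 2) (nat_lit 0x4000100038002d000300000001000080000000000000000000000000000000) (nat_lit 0x0) (nat_lit 0xc00020000000000000000000000000000000000000000000000000000000000000) := D_31 (nat_lit 245) (nat_lit 262) (nat_lit 263) (nat_lit 6) (nat_lit 7) (nat_lit 15) (nat_lit 7) (nat_lit 7) (nat_lit 11) (by decide +kernel)
theorem L87317 : W_31 (nat_lit 3) (nat_lit 0x4000100030002d000300000001000080000000000000000000000000000000) (nat_lit 0x0) (nat_lit 0xc00020000000080000000000008000000000000000000000000000000000000000) := T_31 (nat_lit 211) (nat_lit 159) (nat_lit 4) (nat_lit 7) (nat_lit 13) L87316 (by decide +kernel)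
theorem L87318 : W_31 (nat_lit 4) (nat_lit 0x4000100030000d000300000001000080000000000000000000000000000000) (nat_lit 0x0) (nat_lit 0xc00020000000080030000000008000000000000000000000000000000000000000) := T_31 (nat_lit 197) (nat_lit 196) (nat_lit 0) (nat_lit 10) (nat_lit 11) L87317 (by decide +kernel)
theorem L87319 : W_31 (nat_lit 5) (nat_lit 0x4000100030000c000300000001000080000000000000000000000000000000) (nat_lit 0x0) (nat_lit 0xc00020000000080033000000008000000000000000000000000000000000000000) := T_31 (nat_lit 192) (nat_lit 193) (nat_lit 3) (nat_lit 5) (nat_lit 11) L87318 (by decide +kernel)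
theorem L87320 : W_31 (nat_lit 6) (nat_lit 0x100030000c000300000001000080000000000000000000000000000000) (nat_lit 0x0) (nat_lit 0xc00060002000080033000000008000000000000000000000000000000000000000) := T_31 (nat_lit 246) (nat_lit 229) (nat_lit 4) (nat_lit 8) (nat_lit 14) L87319 (by decide +kernel)
theorem L87321 : W_31 (nat_lit 2) (nat_lit 0x1000380030002d000700000001000080000000000000000000000000000000) (nat_lit 0x0) (nat_lit 0x88004000000000000000000000000000000000000000000000000000000000) := D_31 (nat_lit 230) (nat_lit 247) (nat_lit 243) (nat_lit 7) (nat_lit 8) (nat_lit 10) (nat_lit 1) (nat_lit 9) (nat_lit 13) (by decide +kernel)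
theorem L87322 : W_31 (nat_lit 3) (nat_lit 0x380030002d000700000001000080000000000000000000000000000000) (nat_lit 0x0) (nat_lit 0x98004000080000000000000000000000000000000000000000000000000000) := T_31 (nat_lit 244) (nat_lit 211) (nat_lit 5) (nat_lit 7) (nat_lit 10) L87321 (by decide +kernel)
theorem L87323 : W_31 (nat_lit 4) (nat_lit 0x380030000d000700000001000080000000000000000000000000000000) (nat_lit 0x0) (nat_lit 0x98004000080030000000000000000000000000000000000000000000000000) := T_31 (nat_lit 197) (nat_lit 196) (nat_lit 0) (nat_lit 10) (nat_lit 11) L87322 (by decide +kernel)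
theorem L87324 : W_31 (nat_lit 5) (nat_lit 0x300030000d000700000001000080000000000000000000000000000000) (nat_lit 0x0) (nat_lit 0x98004c00080030000000000000000000000000000000000000000000000000) := T_31 (nat_lit 227) (nat_lit 226) (nat_lit 2) (nat_lit 5) (nat_lit 13) L87323 (by decide +kernel)
theorem L87325 : W_31 (nat_lit 6) (nat_lit 0x300030000d000300000001000080000000000000000000000000000000) (nat_lit 0x0) (nat_lit 0xb8004c00080030000400000000000000000000000000000000000000000000) := T_31 (nat_lit 178) (nat_lit 245) (nat_lit 5) (nat_lit 8) (nat_lit 10) L87324 (by decide +kernel)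
theorem L87326 : W_31 (nat_lit 7) (nat_lit 0x300030000c000300000001000080000000000000000000000000000000) (nat_lit 0x0) (nat_lit 0xb8004c00080033000400000000000000000000000000000000000000000000) := T_31 (nat_lit 192) (nat_lit 193) (nat_lit 3) (nat_lit 5) (nat_lit 11) L87325 (by decide +kernel)
theorem L87327 : W_31 (nat_lit 8) (nat_lit 0x100030000c000300000001000080000000000000000000000000000000) (nat_lit 0x0) (nat_lit 0xf8006c00080033000400000000000000000000000000000000000000000000) := T_31 (nat_lit 229) (nat_lit 246) (nat_lit 4) (nat_lit 8) (nat_lit 14) L87326 (by decide +kernel)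
theorem L87328 : W_31 (nat_lit 2) (nat_lit 0x4000500030001d000300000001000080000000000000000000000000000000) (nat_lit 0x0) (nat_lit 0x1800080000000000000000000000000000000000000000000000000000000000000) := D_31 (nat_lit 247) (nat_lit 264) (nat_lit 263) (nat_lit 4) (nat_lit 9) (nat_lit 15) (nat_lit 5) (nat_lit 9) (nat_lit 11) (by decide +kernel)
theorem L87329 : W_31 (nat_lit 3) (nat_lit 0x4000500030000d000300000001000080000000000000000000000000000000) (nat_lit 0x0) (nat_lit 0x1800080000000000030000000000000000000000000000000000000000000000000) := T_31 (nat_lit 196) (nat_lit 197) (nat_lit 0) (nat_lit 10) (nat_lit 11) L87328 (by decide +kernel)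
theorem L87330 : W_31 (nat_lit 4) (nat_lit 0x4000500030000c000300000001000080000000000000000000000000000000) (nat_lit 0x0) (nat_lit 0x1800080000000000033000000000000000000000000000000000000000000000000) := T_31 (nat_lit 192) (nat_lit 193) (nat_lit 3) (nat_lit 5) (nat_lit 11) L87329 (by decide +kernel)
theorem L87331 : W_31 (nat_lit 5) (nat_lit 0x500030000c000300000001000080000000000000000000000000000000) (nat_lit 0x0) (nat_lit 0x18000c0002000000033000000000000000000000000000000000000000000000000) := T_31 (nat_lit 246) (nat_lit 229) (nat_lit 4) (nat_lit 8) (nat_lit 14) L87330 (by decide +kernel)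
theorem L87332 : W_31 (nat_lit 2) (nat_lit 0x100002001f40030000d000300000001000080000000000000000000000000000000) (nat_lit 0x0) (nat_lit 0x700000000000000000000000000000000000000000000000000000000000000) := D_31 (nat_lit 249) (nat_lit 248) (nat_lit 250) (nat_lit 3) (nat_lit 7) (nat_lit 13) (nat_lit 3) (nat_lit 8) (nat_lit 13) (by decide +kernel)
theorem L87333 : W_31 (nat_lit 3) (nat_lit 0x100002000f40030000d000300000001000080000000000000000000000000000000) (nat_lit 0x0) (nat_lit 0x700030000000000000000000000000000000000000000000000000000000000) := T_31 (nat_lit 232) (nat_lit 233) (nat_lit 0) (nat_lit 12) (nat_lit 13) L87332 (by decide +kernel)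
theorem L87334 : W_31 (nat_lit 4) (nat_lit 0x100002000740030000d000300000001000080000000000000000000000000000000) (nat_lit 0x0) (nat_lit 0x710038000000000000000000000000000000000000000000000000000000000) := T_31 (nat_lit 231) (nat_lit 244) (nat_lit 1) (nat_lit 10) (nat_lit 13) L87333 (by decide +kernel)
theorem L87335 : W_31 (nat_lit 5) (nat_lit 0x100000000740030000d000300000001000080000000000000000000000000000000) (nat_lit 0x0) (nat_lit 0x730038000000000000400000000000000000000000000000000000000000000) := T_31 (nat_lit 245) (nat_lit 178) (nat_lit 5) (nat_lit 8) (nat_lit 10) L87334 (by decide +kernel)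
theorem L87336 : W_31 (nat_lit 6) (nat_lit 0x100000000700030000d000300000001000080000000000000000000000000000000) (nat_lit 0x0) (nat_lit 0x730038c00000000000400000000000000000000000000000000000000000000) := T_31 (nat_lit 226) (nat_lit 227) (nat_lit 2) (nat_lit 5) (nat_lit 13) L87335 (by decide +kernel)
theorem L87337 : W_31 (nat_lit 7) (nat_lit 0x100000000500030000d000300000001000080000000000000000000000000000000) (nat_lit 0x0) (nat_lit 0x77003ac00000000000400000000000000000000000000000000000000000000) := T_31 (nat_lit 229) (nat_lit 246) (nat_lit 4) (nat_lit 8) (nat_lit 14) L87336 (by decide +kernel)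
theorem L87338 : W_31 (nat_lit 8) (nat_lit 0x100000000500030000c000300000001000080000000000000000000000000000000) (nat_lit 0x0) (nat_lit 0x77003ac00000003000400000000000000000000000000000000000000000000) := T_31 (nat_lit 192) (nat_lit 193) (nat_lit 3) (nat_lit 5) (nat_lit 11) L87337 (by decide +kernel)
theorem L87339 : W_31 (nat_lit 9) (nat_lit 0x500030000c000300000001000080000000000000000000000000000000) (nat_lit 0x0) (nat_lit 0x10007f003ac00000003000400000000000000000000000000000000000000000000) := T_31 (nat_lit 264) (nat_lit 247) (nat_lit 4) (nat_lit 9) (nat_lit 15) L87338 (by decide +kernel)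
theorem L87340 : W_31 (nat_lit 2) (nat_lit 0x800000002001f40030002c000300000001000080000000000000000000000000000000) (nat_lit 0x0) (nat_lit 0x700000000000000000000000000000000000000000000000000000000000000) := D_31 (nat_lit 249) (nat_lit 248) (nat_lit 250) (nat_lit 3) (nat_lit 7) (nat_lit 13) (nat_lit 3) (nat_lit 8) (nat_lit 13) (by decide +kernel)
theorem L87341 : W_31 (nat_lit 3) (nat_lit 0x800000002000f40030002c000300000001000080000000000000000000000000000000) (nat_lit 0x0) (nat_lit 0x700030000000000000000000000000000000000000000000000000000000000) := T_31 (nat_lit 232) (nat_lit 233) (nat_lit 0) (nat_lit 12) (nat_lit 13) L87340 (by decide +kernel)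
theorem L87342 : W_31 (nat_lit 4) (nat_lit 0x800000002000740030002c000300000001000080000000000000000000000000000000) (nat_lit 0x0) (nat_lit 0x710038000000000000000000000000000000000000000000000000000000000) := T_31 (nat_lit 231) (nat_lit 244) (nat_lit 1) (nat_lit 10) (nat_lit 13) L87341 (by decide +kernel)
theorem L87343 : W_31 (nat_lit 5) (nat_lit 0x2000740030002c000300000001000080000000000000000000000000000000) (nat_lit 0x0) (nat_lit 0x8000400710038000000000000000000000000000000000000000000000000000000000) := T_31 (nat_lit 279) (nat_lit 262) (nat_lit 6) (nat_lit 7) (nat_lit 16) L87342 (by decide +kernel)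
theorem L87344 : W_31 (nat_lit 6) (nat_lit 0x2000700030002c000300000001000080000000000000000000000000000000) (nat_lit 0x0) (nat_lit 0x8000400710038c00000000000000000000000000000000000000000000000000000000) := T_31 (nat_lit 226) (nat_lit 227) (nat_lit 2) (nat_lit 5) (nat_lit 13) L87343 (by decide +kernel)
theorem L87345 : W_31 (nat_lit 7) (nat_lit 0x700030002c000300000001000080000000000000000000000000000000) (nat_lit 0x0) (nat_lit 0x8000400730038c00000000000400000000000000000000000000000000000000000000) := T_31 (nat_lit 245) (nat_lit 178) (nat_lit 5) (nat_lit 8) (nat_lit 10) L87344 (by decide +kernel)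
theorem L87346 : W_31 (nat_lit 8) (nat_lit 0x700030000c000300000001000080000000000000000000000000000000) (nat_lit 0x0) (nat_lit 0x8000400730038c00000030000400000000000000000000000000000000000000000000) := T_31 (nat_lit 197) (nat_lit 196) (nat_lit 0) (nat_lit 10) (nat_lit 11) L87345 (by decide +kernel)
theorem L87347 : W_31 (nat_lit 9) (nat_lit 0x500030000c000300000001000080000000000000000000000000000000) (nat_lit 0x0) (nat_lit 0x800040077003ac00000030000400000000000000000000000000000000000000000000) := T_31 (nat_lit 229) (nat_lit 246) (nat_lit 4) (nat_lit 8) (nat_lit 14) L87346 (by decide +kernel)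
theorem L87348 : W_31 (nat_lit 10) (nat_lit 0x100030000c000300000001000080000000000000000000000000000000) (nat_lit 0x0) (nat_lit 0x8001c007f003ec00000033000400000000000000000000000000000000000000000000) := Q_31 (nat_lit 230) (C_31 L87054 (C_31 L87331 (C_31 L87339 (C_31 L87347 N_31)))) (by decide +kernel)
theorem L87349 : W_31 (nat_lit 2) (nat_lit 0x300038002c000300000001000080000000000000000000000000000000) (nat_lit 0x0) (nat_lit 0x10000c00000000000000000000000000000000000000000000000000000000) := D_31 (nat_lit 227) (nat_lit 244) (nat_lit 226) (nat_lit 5) (nat_lit 7) (nat_lit 10) (nat_lit 2) (nat_lit 5) (nat_lit 13) (by decide +kernel)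
theorem L87350 : W_31 (nat_lit 3) (nat_lit 0x100038002c000300000001000080000000000000000000000000000000) (nat_lit 0x0) (nat_lit 0x50002c00000000000000000000000000000000000000000000000000000000) := T_31 (nat_lit 229) (nat_lit 246) (nat_lit 7) (nat_lit 7) (nat_lit 10) L87349 (by decide +kernel)
theorem L87351 : W_31 (nat_lit 4) (nat_lit 0x100030002c000300000001000080000000000000000000000000000000) (nat_lit 0x0) (nat_lit 0x50002c00080000000000008000000000000000000000000000000000000000) := T_31 (nat_lit 211) (nat_lit 159) (nat_lit 4) (nat_lit 7) (nat_lit 13) L87350 (by decide +kernel)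
theorem L87352 : W_31 (nat_lit 5) (nat_lit 0x100030000c000300000001000080000000000000000000000000000000) (nat_lit 0x0) (nat_lit 0x50002c00080030000000008000000000000000000000000000000000000000) := T_31 (nat_lit 197) (nat_lit 196) (nat_lit 0) (nat_lit 10) (nat_lit 11) L87351 (by decide +kernel)
theorem L87353 : W_31 (nat_lit 11) (nat_lit 0x30000c000300000001000080000000000000000000000000000000) (nat_lit 0x0) (nat_lit 0x8001c007f803fc00080033000400008000000000000000000000000000000000000000) := Q_31 (nat_lit 228) (C_31 L87315 (C_31 L87320 (C_31 L87327 (C_31 L87052 (C_31 L87348 (C_31 L87352 N_31)))))) (by decide +kernel)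
theorem L87354 : W_31 (nat_lit 12) (nat_lit 0x30000c000200000001000080000000000000000000000000000000) (nat_lit 0x0) (nat_lit 0x8001c007f803fc000800338005c000e000000000000000000000000000000000000000) := Q_31 (nat_lit 176) (C_31 L87303 (C_31 L87229 (C_31 L87312 (C_31 L87353 N_31)))) (by decide +kernel)
theorem L87355 : W_31 (nat_lit 13) (nat_lit 0x10000c000200000001000080000000000000000000000000000000) (nat_lit 0x0) (nat_lit 0x8003c007f803fc01e800f38075c008e004000000000000000000000000000000000000) := Q_31 (nat_lit 213) (C_31 L87158 (C_31 L19093 (C_31 L87301 (C_31 L87354 N_31)))) (by decide +kernel)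
theorem L87357 : W_31 (nat_lit 8) (nat_lit 0x10000c000300000001000080000000000000000000000000000000) (nat_lit 0x0) (nat_lit 0x280003c004e001f000f0013c000000000000000000000000000000) := Q_31 (nat_lit 193) (C_31 L86222 (C_31 L85602 (C_31 L87356 N_31))) (by decide +kernel)
theorem L87360 : W_31 (nat_lit 2) (nat_lit 0x30002c000300002001f00080000000000000000000000000000000) (nat_lit 0x0) (nat_lit 0x1c000000000000000000000000000000) := D_31 (nat_lit 123) (nat_lit 122) (nat_lit 124) (nat_lit 0) (nat_lit 7) (nat_lit 8) (nat_lit 0) (nat_lit 8) (nat_lit 8) (by decide +kernel)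
theorem L87361 : W_31 (nat_lit 3) (nat_lit 0x30002c000300002001e00080000000000000000000000000000000) (nat_lit 0x0) (nat_lit 0x100010001c000000000000000000000000000000) := T_31 (nat_lit 140) (nat_lit 156) (nat_lit 1) (nat_lit 7) (nat_lit 8) L87360 (by decide +kernel)
theorem L87362 : W_31 (nat_lit 4) (nat_lit 0x30000c000300002001e00080000000000000000000000000000000) (nat_lit 0x0) (nat_lit 0x3000000000100010001c000000000000000000000000000000) := T_31 (nat_lit 197) (nat_lit 196) (nat_lit 0) (nat_lit 10) (nat_lit 11) L87361 (by decide +kernel)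
theorem L87363 : W_31 (nat_lit 5) (nat_lit 0x30000c000300000001e00080000000000000000000000000000000) (nat_lit 0x0) (nat_lit 0x3000000000700010001c000000000000000000000000000000) := T_31 (nat_lit 157) (nat_lit 158) (nat_lit 1) (nat_lit 8) (nat_lit 8) L87362 (by decide +kernel)
theorem L87364 : W_31 (nat_lit 6) (nat_lit 0x30000c000300000001c00080000000000000000000000000000000) (nat_lit 0x0) (nat_lit 0x3000000000700030011c000000000000000000000000000000) := T_31 (nat_lit 141) (nat_lit 128) (nat_lit 2) (nat_lit 5) (nat_lit 8) L87363 (by decide +kernel)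
theorem L87365 : W_31 (nat_lit 7) (nat_lit 0x30000c000300000001400080000000000000000000000000000000) (nat_lit 0x0) (nat_lit 0x30000000017000b0011c000000000000000000000000000000) := T_31 (nat_lit 143) (nat_lit 160) (nat_lit 7) (nat_lit 7) (nat_lit 8) L87364 (by decide +kernel)
theorem L87366 : W_31 (nat_lit 8) (nat_lit 0x30000c000300000001000080000000000000000000000000000000) (nat_lit 0x0) (nat_lit 0x8003300000001f000f0013c000000000000000000000000000000) := Q_31 (nat_lit 142) (C_31 L87365 (C_31 L87049 (C_31 L87046 N_31))) (by decide +kernel)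
theorem L87367 : W_31 (nat_lit 9) (nat_lit 0x10000c000300000001000080000000000000000000000000000000) (nat_lit 0x0) (nat_lit 0x1800e8007300000001f000f0013c000000000000000000000000000000) := Q_31 (nat_lit 213) (C_31 L87043 (C_31 L87041 (C_31 L86057 (C_31 L87366 N_31)))) (by decide +kernel)
theorem L87368 : W_31 (nat_lit 2) (nat_lit 0x10000c000380000001000080000000000000000000000000000000) (nat_lit 0x0) (nat_lit 0x32000000000000000000000000000000000000000000000000) := D_31 (nat_lit 196) (nat_lit 197) (nat_lit 193) (nat_lit 0) (nat_lit 10) (nat_lit 11) (nat_lit 0) (nat_lit 9) (nat_lit 11) (by decide +kernel)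
theorem L87369 : W_31 (nat_lit 3) (nat_lit 0x10000c000300000001000080000000000000000000000000000000) (nat_lit 0x0) (nat_lit 0x320000c0000000000000000000000000000000000000000000) := T_31 (nat_lit 175) (nat_lit 174) (nat_lit 3) (nat_lit 4) (nat_lit 10) L87368 (by decide +kernel)
theorem L87372 : W_31 (nat_lit 10) (nat_lit 0x10000c000200000001000080000000000000000000000000000000) (nat_lit 0x0) (nat_lit 0x1800e80073c005e001f000f0013c000000000000000000000000000000) := Q_31 (nat_lit 176) (C_31 L87357 (C_31 L87367 (C_31 L87035 (C_31 L87369 (C_31 L87371 N_31))))) (by decide +kernel)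
theorem L87373 : W_31 (nat_lit 14) (nat_lit 0xc000200000001000080000000000000000000000000000000) (nat_lit 0x0) (nat_lit 0x8003e007f803fc01f800f3c075e009f004f0013c000000000000000000000000000000) := Q_31 (nat_lit 212) (C_31 L87176 (C_31 L87289 (C_31 L87355 (C_31 L85604 (C_31 L87372 N_31))))) (by decide +kernel)
theorem L87374 : W_31 (nat_lit 2) (nat_lit 0x10000e000280002001e00088000000000000000000000000000000) (nat_lit 0x0) (nat_lit 0x1000100004000000000000000000000000000000) := D_31 (nat_lit 140) (nat_lit 156) (nat_lit 122) (nat_lit 1) (nat_lit 7) (nat_lit 8) (nat_lit 0) (nat_lit 7) (nat_lit 8) (by decide +kernel)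
theorem L87375 : W_31 (nat_lit 3) (nat_lit 0x10000e000280002001e00080000000000000000000000000000000) (nat_lit 0x0) (nat_lit 0x100010001c000000000000000000000000000000) := T_31 (nat_lit 123) (nat_lit 124) (nat_lit 0) (nat_lit 8) (nat_lit 8) L87374 (by decide +kernel)
theorem L87376 : W_31 (nat_lit 4) (nat_lit 0x10000e000280000001e00080000000000000000000000000000000) (nat_lit 0x0) (nat_lit 0x700010001c000000000000000000000000000000) := T_31 (nat_lit 157) (nat_lit 158) (nat_lit 1) (nat_lit 8) (nat_lit 8) L87375 (by decide +kernel)
theorem L87377 : W_31 (nat_lit 2) (nat_lit 0x900078001c000200050001000080000000000000000000000000000000) (nat_lit 0x0) (nat_lit 0x400020000000000000000400000000000000000000000000000000000000000000) := D_31 (nat_lit 245) (nat_lit 262) (nat_lit 178) (nat_lit 6) (nat_lit 7) (nat_lit 15) (nat_lit 6) (nat_lit 7) (nat_lit 14) (by decide +kernel)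
theorem L87378 : W_31 (nat_lit 3) (nat_lit 0x800078001c000200050001000080000000000000000000000000000000) (nat_lit 0x0) (nat_lit 0x400020001800000000000400000000000000000000000000000000000000000000) := T_31 (nat_lit 228) (nat_lit 227) (nat_lit 1) (nat_lit 10) (nat_lit 12) L87377 (by decide +kernel)
theorem L87379 : W_31 (nat_lit 4) (nat_lit 0x800070001c000200050001000080000000000000000000000000000000) (nat_lit 0x0) (nat_lit 0x400020011800080000000400000000000000000000000000000000000000000000) := T_31 (nat_lit 211) (nat_lit 232) (nat_lit 3) (nat_lit 7) (nat_lit 12) L87378 (by decide +kernel)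
theorem L87380 : W_31 (nat_lit 5) (nat_lit 0x800070001c000200010001000080000000000000000000000000000000) (nat_lit 0x0) (nat_lit 0x400020011800080000000c00040000000000000000000000000000000000000000) := T_31 (nat_lit 162) (nat_lit 179) (nat_lit 7) (nat_lit 9) (nat_lit 9) L87379 (by decide +kernel)
theorem L87381 : W_31 (nat_lit 6) (nat_lit 0x800070001c000200000001000080000000000000000000000000000000) (nat_lit 0x0) (nat_lit 0x400020011800080000000c00050000800000000000000000000000000000000000) := T_31 (nat_lit 160) (nat_lit 143) (nat_lit 7) (nat_lit 7) (nat_lit 8) L87380 (by decide +kernel)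
theorem L87382 : W_31 (nat_lit 2) (nat_lit 0x200007000900078001c000200040001800080000000000000000000000000000000) (nat_lit 0x0) (nat_lit 0x1000080004000000000000000000000000000000000000000000000000000000000) := D_31 (nat_lit 247) (nat_lit 264) (nat_lit 230) (nat_lit 3) (nat_lit 6) (nat_lit 14) (nat_lit 2) (nat_lit 6) (nat_lit 14) (by decide +kernel)
theorem L87383 : W_31 (nat_lit 3) (nat_lit 0x200003000900078001c000200040001800080000000000000000000000000000000) (nat_lit 0x0) (nat_lit 0x18000c0004000000000000000000000000000000000000000000000000000000000) := T_31 (nat_lit 246) (nat_lit 263) (nat_lit 7) (nat_lit 7) (nat_lit 11) L87382 (by decide +kernel)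
theorem L87384 : W_31 (nat_lit 4) (nat_lit 0x200002000900078001c000200040001800080000000000000000000000000000000) (nat_lit 0x0) (nat_lit 0x1a000d0004000000000000000000000000000000000000000000000000000000000) := T_31 (nat_lit 244) (nat_lit 261) (nat_lit 5) (nat_lit 7) (nat_lit 11) L87383 (by decide +kernel)
theorem L87385 : W_31 (nat_lit 5) (nat_lit 0x200000000900078001c000200040001800080000000000000000000000000000000) (nat_lit 0x0) (nat_lit 0x1e000f0004000000000000000000000000000000000000000000000000000000000) := T_31 (nat_lit 245) (nat_lit 262) (nat_lit 6) (nat_lit 7) (nat_lit 15) L87384 (by decide +kernel)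
theorem L87386 : W_31 (nat_lit 6) (nat_lit 0x200000000800078001c000200040001800080000000000000000000000000000000) (nat_lit 0x0) (nat_lit 0x1e000f0005800000000000000000000000000000000000000000000000000000000) := T_31 (nat_lit 228) (nat_lit 227) (nat_lit 1) (nat_lit 10) (nat_lit 12) L87385 (by decide +kernel)
theorem L87387 : W_31 (nat_lit 7) (nat_lit 0x200000000800070001c000200040001800080000000000000000000000000000000) (nat_lit 0x0) (nat_lit 0x1e000f0015800080000000000000000000000000000000000000000000000000000) := T_31 (nat_lit 211) (nat_lit 232) (nat_lit 3) (nat_lit 7) (nat_lit 12) L87386 (by decide +kernel)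
theorem L87388 : W_31 (nat_lit 8) (nat_lit 0x200000000800070001c000200000001800080000000000000000000000000000000) (nat_lit 0x0) (nat_lit 0x1e000f0015800080000000800040000000000000000000000000000000000000000) := T_31 (nat_lit 162) (nat_lit 179) (nat_lit 7) (nat_lit 9) (nat_lit 9) L87387 (by decide +kernel)
theorem L87389 : W_31 (nat_lit 9) (nat_lit 0x200000000800070001c000200000001000080000000000000000000000000000000) (nat_lit 0x0) (nat_lit 0x1e000f0015800080000000800050000800000000000000000000000000000000000) := T_31 (nat_lit 143) (nat_lit 160) (nat_lit 7) (nat_lit 7) (nat_lit 8) L87388 (by decide +kernel)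
theorem L87390 : W_31 (nat_lit 10) (nat_lit 0x800070001c000200000001000080000000000000000000000000000000) (nat_lit 0x0) (nat_lit 0x3e001f0015800080000000800050000800000000000000000000000000000000000) := T_31 (nat_lit 265) (nat_lit 248) (nat_lit 4) (nat_lit 10) (nat_lit 15) L87389 (by decide +kernel)
theorem L87391 : W_31 (nat_lit 2) (nat_lit 0x900078001c000200000001000080000000000000000000000000000000) (nat_lit 0x0) (nat_lit 0x400020000000000000000400000000000000000000000000000000000000000000) := D_31 (nat_lit 245) (nat_lit 262) (nat_lit 178) (nat_lit 6) (nat_lit 7) (nat_lit 15) (nat_lit 6) (nat_lit 7) (nat_lit 14) (by decide +kernel)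
theorem L87392 : W_31 (nat_lit 3) (nat_lit 0x800078001c000200000001000080000000000000000000000000000000) (nat_lit 0x0) (nat_lit 0x400020001800000000000400000000000000000000000000000000000000000000) := T_31 (nat_lit 228) (nat_lit 227) (nat_lit 1) (nat_lit 10) (nat_lit 12) L87391 (by decide +kernel)
theorem L87393 : W_31 (nat_lit 4) (nat_lit 0x800070001c000200000001000080000000000000000000000000000000) (nat_lit 0x0) (nat_lit 0x400020011800080000000400000000000000000000000000000000000000000000) := T_31 (nat_lit 211) (nat_lit 232) (nat_lit 3) (nat_lit 7) (nat_lit 12) L87392 (by decide +kernel)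
theorem L87394 : W_31 (nat_lit 2) (nat_lit 0x200000001800070001c000200000001800080000000000000000000000000000000) (nat_lit 0x0) (nat_lit 0x64000000000000000000000000000000000000000000000000000000000) := D_31 (nat_lit 233) (nat_lit 234) (nat_lit 230) (nat_lit 0) (nat_lit 13) (nat_lit 13) (nat_lit 0) (nat_lit 12) (nat_lit 13) (by decide +kernel)
theorem L87395 : W_31 (nat_lit 3) (nat_lit 0x200000000800070001c000200000001800080000000000000000000000000000000) (nat_lit 0x0) (nat_lit 0x74000080000000000000000000000000000000000000000000000000000) := T_31 (nat_lit 232) (nat_lit 211) (nat_lit 3) (nat_lit 7) (nat_lit 12) L87394 (by decide +kernel)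
theorem L87396 : W_31 (nat_lit 4) (nat_lit 0x200000000800070001c000200000001000080000000000000000000000000000000) (nat_lit 0x0) (nat_lit 0x74000080000000000010000800000000000000000000000000000000000) := T_31 (nat_lit 143) (nat_lit 160) (nat_lit 7) (nat_lit 7) (nat_lit 8) L87395 (by decide +kernel)
theorem L87397 : W_31 (nat_lit 5) (nat_lit 0x800070001c000200000001000080000000000000000000000000000000) (nat_lit 0x0) (nat_lit 0x2000100074000080000000000010000800000000000000000000000000000000000) := T_31 (nat_lit 265) (nat_lit 248) (nat_lit 4) (nat_lit 10) (nat_lit 15) L87396 (by decide +kernel)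
theorem L87398 : W_31 (nat_lit 3) (nat_lit 0x800070001c000200000001000080000000000000000000000000000000) (nat_lit 0x0) (nat_lit 0x2000100004000000000000800040000000000000000000000000000000000000000) := T_31 (nat_lit 179) (nat_lit 162) (nat_lit 7) (nat_lit 9) (nat_lit 9) L87133 (by decide +kernel)
theorem L87399 : W_31 (nat_lit 11) (nat_lit 0x70001c000200000001000080000000000000000000000000000000) (nat_lit 0x0) (nat_lit 0x3e001f007d800080000000c00050000800000000000000000000000000000000000) := Q_31 (nat_lit 231) (C_31 L87381 (C_31 L87390 (C_31 L87393 (C_31 L87397 (C_31 L87398 N_31))))) (by decide +kernel)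
theorem L87400 : W_31 (nat_lit 12) (nat_lit 0x50001c000200000001000080000000000000000000000000000000) (nat_lit 0x0) (nat_lit 0x3e001f007d800a80000000c00050000800000000000000000000000000000000000) := T_31 (nat_lit 213) (nat_lit 215) (nat_lit 0) (nat_lit 11) (nat_lit 12) L87399 (by decide +kernel)
theorem L87402 : W_31 (nat_lit 5) (nat_lit 0x30001c000200010001000080000000000000000000000000000000) (nat_lit 0x0) (nat_lit 0xe3003c00000000000000000000000000000000000000000000) := T_31 (nat_lit 193) (nat_lit 192) (nat_lit 3) (nat_lit 5) (nat_lit 11) L87026 (by decide +kernel)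
theorem L87403 : W_31 (nat_lit 2) (nat_lit 0x10000c000380000001800080000000000000000000000000000000) (nat_lit 0x0) (nat_lit 0x12000400000000000000000000000000000000000000000000) := D_31 (nat_lit 196) (nat_lit 193) (nat_lit 178) (nat_lit 0) (nat_lit 9) (nat_lit 11) (nat_lit 3) (nat_lit 5) (nat_lit 10) (by decide +kernel)
theorem L87404 : W_31 (nat_lit 3) (nat_lit 0x10000c000300000001800080000000000000000000000000000000) (nat_lit 0x0) (nat_lit 0x120004c0000000000000000000000000000000000000000000) := T_31 (nat_lit 175) (nat_lit 174) (nat_lit 3) (nat_lit 4) (nat_lit 10) L87403 (by decide +kernel)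
theorem L87405 : W_31 (nat_lit 4) (nat_lit 0x10000c000300000001000080000000000000000000000000000000) (nat_lit 0x0) (nat_lit 0x120004c0010000800000000000000000000000000000000000) := T_31 (nat_lit 143) (nat_lit 160) (nat_lit 7) (nat_lit 7) (nat_lit 8) L87404 (by decide +kernel)
theorem L87452 : W_31 (nat_lit 2) (nat_lit 0x8001800040013000d000280016001000080000000000000000000000000000000) (nat_lit 0x0) (nat_lit 0x1000100000000000000000800000000000000000000000000000000000000000000000) := D_31 (nat_lit 260) (nat_lit 191) (nat_lit 276) (nat_lit 4) (nat_lit 5) (nat_lit 15) (nat_lit 5) (nat_lit 5) (nat_lit 12) (by decide +kernel)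
theorem L87453 : W_31 (nat_lit 3) (nat_lit 0x1800040013000d000280016001000080000000000000000000000000000000) (nat_lit 0x0) (nat_lit 0x1000180004000000000000800000000000000000000000000000000000000000000000) := T_31 (nat_lit 259) (nat_lit 242) (nat_lit 5) (nat_lit 5) (nat_lit 11) L87452 (by decide +kernel)
theorem L87454 : W_31 (nat_lit 4) (nat_lit 0x1000040013000d000280016001000080000000000000000000000000000000) (nat_lit 0x0) (nat_lit 0x100038000c000000000000800000000000000000000000000000000000000000000000) := T_31 (nat_lit 243) (nat_lit 261) (nat_lit 7) (nat_lit 5) (nat_lit 11) L87453 (by decide +kernel)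
theorem L87455 : W_31 (nat_lit 5) (nat_lit 0x40013000d000280016001000080000000000000000000000000000000) (nat_lit 0x0) (nat_lit 0x100038001c000800000000800000000000000000000000000000000000000000000000) := T_31 (nat_lit 244) (nat_lit 227) (nat_lit 7) (nat_lit 5) (nat_lit 10) L87454 (by decide +kernel)
theorem L87456 : W_31 (nat_lit 6) (nat_lit 0x13000d000280016001000080000000000000000000000000000000) (nat_lit 0x0) (nat_lit 0x100038001c000c00000000800040000000000000000000000000000000000000000000) := T_31 (nat_lit 226) (nat_lit 174) (nat_lit 4) (nat_lit 5) (nat_lit 13) L87455 (by decide +kernel)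
theorem L87457 : W_31 (nat_lit 7) (nat_lit 0x12000d000280016001000080000000000000000000000000000000) (nat_lit 0x0) (nat_lit 0x100038001c000e00010000800040000000000000000000000000000000000000000000) := T_31 (nat_lit 208) (nat_lit 225) (nat_lit 5) (nat_lit 5) (nat_lit 9) L87456 (by decide +kernel)
theorem L87463 : W_31 (nat_lit 2) (nat_lit 0xc00040012000d000280010001000080000000000000000000000000000000) (nat_lit 0x0) (nat_lit 0x200010000800000000000000000000000000000000000000000000000000000000) := D_31 (nat_lit 244) (nat_lit 227) (nat_lit 261) (nat_lit 7) (nat_lit 5) (nat_lit 10) (nat_lit 7) (nat_lit 5) (nat_lit 11) (by decide +kernel)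
theorem L87464 : W_31 (nat_lit 3) (nat_lit 0x400040012000d000280010001000080000000000000000000000000000000) (nat_lit 0x0) (nat_lit 0x280018000800000000000000000000000000000000000000000000000000000000) := T_31 (nat_lit 243) (nat_lit 259) (nat_lit 5) (nat_lit 5) (nat_lit 11) L87463 (by decide +kernel)
theorem L87465 : W_31 (nat_lit 4) (nat_lit 0x400040012000d000280000001000080000000000000000000000000000000) (nat_lit 0x0) (nat_lit 0x280018000800000000000000010000800000000000000000000000000000000000) := T_31 (nat_lit 160) (nat_lit 143) (nat_lit 7) (nat_lit 7) (nat_lit 8) L87464 (by decide +kernel)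
theorem L87466 : W_31 (nat_lit 5) (nat_lit 0x40012000d000280000001000080000000000000000000000000000000) (nat_lit 0x0) (nat_lit 0x28001c000a00000000000000010000800000000000000000000000000000000000) := T_31 (nat_lit 242) (nat_lit 225) (nat_lit 5) (nat_lit 5) (nat_lit 10) L87465 (by decide +kernel)
theorem L87519 : W_31 (nat_lit 2) (nat_lit 0x50003c000200010001000080000000000000000000000000000000) (nat_lit 0x0) (nat_lit 0x80040000400000000000000000000000000000000000000000000) := D_31 (nat_lit 198) (nat_lit 178) (nat_lit 211) (nat_lit 0) (nat_lit 11) (nat_lit 11) (nat_lit 1) (nat_lit 11) (nat_lit 11) (by decide +kernel)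
theorem L87520 : W_31 (nat_lit 3) (nat_lit 0x50001c000200010001000080000000000000000000000000000000) (nat_lit 0x0) (nat_lit 0x880060000400000000000000000000000000000000000000000000) := T_31 (nat_lit 197) (nat_lit 215) (nat_lit 3) (nat_lit 7) (nat_lit 11) L87519 (by decide +kernel)
theorem L87521 : W_31 (nat_lit 4) (nat_lit 0x50001c000200000001000080000000000000000000000000000000) (nat_lit 0x0) (nat_lit 0x880060000400010000800000000000000000000000000000000000) := T_31 (nat_lit 160) (nat_lit 143) (nat_lit 7) (nat_lit 7) (nat_lit 8) L87520 (by decide +kernel)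
theorem L87522 : W_31 (nat_lit 2) (nat_lit 0x10000d000280000001000080000000000000000000000000000000) (nat_lit 0x0) (nat_lit 0x2000140000000000000000000000000000000000000000000) := D_31 (nat_lit 174) (nat_lit 176) (nat_lit 193) (nat_lit 3) (nat_lit 4) (nat_lit 10) (nat_lit 0) (nat_lit 8) (nat_lit 11) (by decide +kernel)
theorem L87524 : W_31 (nat_lit 2) (nat_lit 0x10000f000280000001000080000000000000000000000000000000) (nat_lit 0x0) (nat_lit 0x80000800400000000000000000000000000000000000000000000) := D_31 (nat_lit 191) (nat_lit 211) (nat_lit 178) (nat_lit 3) (nat_lit 4) (nat_lit 11) (nat_lit 2) (nat_lit 4) (nat_lit 11) (by decide +kernel)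
theorem L87525 : W_31 (nat_lit 3) (nat_lit 0x10000d000280000001000080000000000000000000000000000000) (nat_lit 0x0) (nat_lit 0x280002800400000000000000000000000000000000000000000000) := T_31 (nat_lit 193) (nat_lit 213) (nat_lit 3) (nat_lit 5) (nat_lit 11) L87524 (by decide +kernel)
theorem L87526 : W_31 (nat_lit 10) (nat_lit 0x10000c000280000001000080000000000000000000000000000000) (nat_lit 0x0) (nat_lit 0x2002b0003800540016000f0013c001c00080000000000000000000000) := Q_31 (nat_lit 192) (C_31 L87483 (C_31 L87522 (C_31 L87523 (C_31 L87525 N_31)))) (by decide +kernel)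
theorem L87527 : W_31 (nat_lit 2) (nat_lit 0x10000e000280000001000080000000000000000000000000000000) (nat_lit 0x0) (nat_lit 0x200001000040000000000000000000000000000000000000000000) := D_31 (nat_lit 192) (nat_lit 174) (nat_lit 213) (nat_lit 0) (nat_lit 8) (nat_lit 11) (nat_lit 3) (nat_lit 5) (nat_lit 11) (by decide +kernel)
theorem L87528 : W_31 (nat_lit 2) (nat_lit 0x10000c0002c0004001e00080000000000000000000000000000000) (nat_lit 0x0) (nat_lit 0x800000000000000018000000000000000000000000000000) := D_31 (nat_lit 124) (nat_lit 123) (nat_lit 191) (nat_lit 0) (nat_lit 8) (nat_lit 8) (nat_lit 5) (nat_lit 5) (nat_lit 7) (by decide +kernel)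
theorem L87529 : W_31 (nat_lit 3) (nat_lit 0x10000c0002c0000001e00080000000000000000000000000000000) (nat_lit 0x0) (nat_lit 0x800000006000000018000000000000000000000000000000) := T_31 (nat_lit 158) (nat_lit 157) (nat_lit 1) (nat_lit 8) (nat_lit 8) L87528 (by decide +kernel)
theorem L87530 : W_31 (nat_lit 2) (nat_lit 0x10000c000280002001e00088000000000000000000000000000000) (nat_lit 0x0) (nat_lit 0x1000100004000000000000000000000000000000) := D_31 (nat_lit 140) (nat_lit 156) (nat_lit 122) (nat_lit 1) (nat_lit 7) (nat_lit 8) (nat_lit 0) (nat_lit 7) (nat_lit 8) (by decide +kernel)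
theorem L87531 : W_31 (nat_lit 3) (nat_lit 0x10000c000280002001e00080000000000000000000000000000000) (nat_lit 0x0) (nat_lit 0x100010001c000000000000000000000000000000) := T_31 (nat_lit 123) (nat_lit 124) (nat_lit 0) (nat_lit 8) (nat_lit 8) L87530 (by decide +kernel)
theorem L87532 : W_31 (nat_lit 4) (nat_lit 0x10000c000280000001e00080000000000000000000000000000000) (nat_lit 0x0) (nat_lit 0x700010001c000000000000000000000000000000) := T_31 (nat_lit 157) (nat_lit 158) (nat_lit 1) (nat_lit 8) (nat_lit 8) L87531 (by decide +kernel)
theorem L87533 : W_31 (nat_lit 2) (nat_lit 0x10000f000280002001f00088000000000000000000000000000000) (nat_lit 0x0) (nat_lit 0x80000800400000000000000000000000000000000000000000000) := D_31 (nat_lit 191) (nat_lit 211) (nat_lit 178) (nat_lit 3) (nat_lit 4) (nat_lit 11) (nat_lit 2) (nat_lit 4) (nat_lit 11) (by decide +kernel)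
theorem L87534 : W_31 (nat_lit 3) (nat_lit 0x10000d000280002001f00088000000000000000000000000000000) (nat_lit 0x0) (nat_lit 0x280002800400000000000000000000000000000000000000000000) := T_31 (nat_lit 193) (nat_lit 213) (nat_lit 3) (nat_lit 5) (nat_lit 11) L87533 (by decide +kernel)
theorem L87535 : W_31 (nat_lit 4) (nat_lit 0x10000c000280002001f00088000000000000000000000000000000) (nat_lit 0x0) (nat_lit 0x280003800440000000000000000000000000000000000000000000) := T_31 (nat_lit 192) (nat_lit 174) (nat_lit 7) (nat_lit 4) (nat_lit 7) L87534 (by decide +kernel)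
theorem L87536 : W_31 (nat_lit 5) (nat_lit 0x10000c000280000001f00088000000000000000000000000000000) (nat_lit 0x0) (nat_lit 0x280003800440003000000000000000000000000000000000000000) := T_31 (nat_lit 157) (nat_lit 156) (nat_lit 1) (nat_lit 7) (nat_lit 8) L87535 (by decide +kernel)
theorem L87537 : W_31 (nat_lit 6) (nat_lit 0x10000c000280000001e00088000000000000000000000000000000) (nat_lit 0x0) (nat_lit 0x280003800440003000100004000000000000000000000000000000) := T_31 (nat_lit 140) (nat_lit 122) (nat_lit 0) (nat_lit 7) (nat_lit 8) L87536 (by decide +kernel)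
theorem L87538 : W_31 (nat_lit 7) (nat_lit 0x10000c000280000001e00080000000000000000000000000000000) (nat_lit 0x0) (nat_lit 0x28000380044000300010001c000000000000000000000000000000) := T_31 (nat_lit 123) (nat_lit 124) (nat_lit 0) (nat_lit 8) (nat_lit 8) L87537 (by decide +kernel)
theorem L87539 : W_31 (nat_lit 4) (nat_lit 0x10000c0002c0000001c00080000000000000000000000000000000) (nat_lit 0x0) (nat_lit 0x800000006000200118000000000000000000000000000000) := T_31 (nat_lit 141) (nat_lit 128) (nat_lit 2) (nat_lit 5) (nat_lit 8) L87529 (by decide +kernel)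
theorem L87540 : W_31 (nat_lit 4) (nat_lit 0x10000d0002c0000001c00080000000000000000000000000000000) (nat_lit 0x0) (nat_lit 0x200030011c000000000000000000000000000000) := T_31 (nat_lit 141) (nat_lit 128) (nat_lit 2) (nat_lit 5) (nat_lit 8) L87473 (by decide +kernel)
theorem L87541 : W_31 (nat_lit 5) (nat_lit 0x10000c000280000001c00080000000000000000000000000000000) (nat_lit 0x0) (nat_lit 0x700030011c000000000000000000000000000000) := T_31 (nat_lit 141) (nat_lit 128) (nat_lit 2) (nat_lit 5) (nat_lit 8) L87532 (by decide +kernel)
theorem L87551 : W_31 (nat_lit 2) (nat_lit 0x2000100018000c000300000001000080000000000000000000000000000000) (nat_lit 0x0) (nat_lit 0x200010000800000000000000000000000000000000000000000000000000000000) := D_31 (nat_lit 244) (nat_lit 227) (nat_lit 261) (nat_lit 5) (nat_lit 7) (nat_lit 10) (nat_lit 5) (nat_lit 7) (nat_lit 11) (by decide +kernel)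
theorem L87552 : W_31 (nat_lit 3) (nat_lit 0x100018000c000300000001000080000000000000000000000000000000) (nat_lit 0x0) (nat_lit 0x600030000800000000000000000000000000000000000000000000000000000000) := T_31 (nat_lit 245) (nat_lit 262) (nat_lit 6) (nat_lit 7) (nat_lit 15) L87551 (by decide +kernel)
theorem L87558 : W_31 (nat_lit 2) (nat_lit 0x10002c000300010001000080000000000000000000000000000000) (nat_lit 0x0) (nat_lit 0x2000080000000400000000000000000000000000000000000000000000) := D_31 (nat_lit 229) (nat_lit 178) (nat_lit 211) (nat_lit 4) (nat_lit 8) (nat_lit 13) (nat_lit 7) (nat_lit 7) (nat_lit 9) (by decide +kernel)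
theorem L87559 : W_31 (nat_lit 3) (nat_lit 0x10002c000300000001000080000000000000000000000000000000) (nat_lit 0x0) (nat_lit 0x2000080000000400010000800000000000000000000000000000000000) := T_31 (nat_lit 160) (nat_lit 143) (nat_lit 7) (nat_lit 7) (nat_lit 8) L87558 (by decide +kernel)
theorem L87560 : W_31 (nat_lit 4) (nat_lit 0x10000c000300000001000080000000000000000000000000000000) (nat_lit 0x0) (nat_lit 0x2000080030000400010000800000000000000000000000000000000000) := T_31 (nat_lit 197) (nat_lit 196) (nat_lit 0) (nat_lit 10) (nat_lit 11) L87559 (by decide +kernel)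
theorem L87561 : W_31 (nat_lit 2) (nat_lit 0x300000000c000300000001000080000000000000000000000000000000) (nat_lit 0x0) (nat_lit 0x40000000080000000000008000000000000000000000000000000000000000) := D_31 (nat_lit 211) (nat_lit 246) (nat_lit 159) (nat_lit 7) (nat_lit 7) (nat_lit 10) (nat_lit 4) (nat_lit 7) (nat_lit 13) (by decide +kernel)
theorem L87562 : W_31 (nat_lit 2) (nat_lit 0x300000000c000300000001000080000000000000000000000000000000) (nat_lit 0x0) (nat_lit 0x40000000180000000000000000000000000000000000000000000000000000) := D_31 (nat_lit 246) (nat_lit 211) (nat_lit 212) (nat_lit 7) (nat_lit 7) (nat_lit 10) (nat_lit 4) (nat_lit 8) (nat_lit 14) (by decide +kernel)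
theorem L87563 : W_31 (nat_lit 6) (nat_lit 0x300000000c000300000001000080000000000000000000000000000000) (nat_lit 0x0) (nat_lit 0x60000000100070003c00040000000000000000000000000000000000000000) := T_31 (nat_lit 212) (nat_lit 246) (nat_lit 4) (nat_lit 8) (nat_lit 14) L11932 (by decide +kernel)
theorem L87564 : W_31 (nat_lit 2) (nat_lit 0x2000380018002c000300000001000080000000000000000000000000000000) (nat_lit 0x0) (nat_lit 0x600200000000000000000000000000000000000000000000000000000) := D_31 (nat_lit 226) (nat_lit 213) (nat_lit 225) (nat_lit 2) (nat_lit 5) (nat_lit 13) (nat_lit 2) (nat_lit 4) (nat_lit 13) (by decide +kernel)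
theorem L87565 : W_31 (nat_lit 3) (nat_lit 0x2000380008002c000300000001000080000000000000000000000000000000) (nat_lit 0x0) (nat_lit 0x400000000600300000000000000000000000000000000000000000000000000000) := T_31 (nat_lit 212) (nat_lit 262) (nat_lit 6) (nat_lit 7) (nat_lit 15) L87564 (by decide +kernel)
theorem L87566 : W_31 (nat_lit 4) (nat_lit 0x380008002c000300000001000080000000000000000000000000000000) (nat_lit 0x0) (nat_lit 0x400020000600300000000400000000000000000000000000000000000000000000) := T_31 (nat_lit 245) (nat_lit 178) (nat_lit 6) (nat_lit 7) (nat_lit 14) L87565 (by decide +kernel)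
theorem L87567 : W_31 (nat_lit 5) (nat_lit 0x300008002c000300000001000080000000000000000000000000000000) (nat_lit 0x0) (nat_lit 0x400030000e00300000000400000000000000000000000000000000000000000000) := T_31 (nat_lit 227) (nat_lit 244) (nat_lit 5) (nat_lit 7) (nat_lit 10) L87566 (by decide +kernel)
theorem L87568 : W_31 (nat_lit 6) (nat_lit 0x300000002c000300000001000080000000000000000000000000000000) (nat_lit 0x0) (nat_lit 0x400030000e00380000000400008000000000000000000000000000000000000000) := T_31 (nat_lit 211) (nat_lit 159) (nat_lit 4) (nat_lit 7) (nat_lit 13) L87567 (by decide +kernel)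
theorem L87569 : W_31 (nat_lit 7) (nat_lit 0x300000000c000300000001000080000000000000000000000000000000) (nat_lit 0x0) (nat_lit 0x400030000e00380030000400008000000000000000000000000000000000000000) := T_31 (nat_lit 197) (nat_lit 196) (nat_lit 0) (nat_lit 10) (nat_lit 11) L87568 (by decide +kernel)
theorem L87570 : W_31 (nat_lit 8) (nat_lit 0x200000000c000300000001000080000000000000000000000000000000) (nat_lit 0x0) (nat_lit 0x400070001e00380070003c00048000000000000000000000000000000000000000) := Q_31 (nat_lit 228) (C_31 L87561 (C_31 L87562 (C_31 L87563 (C_31 L87569 N_31)))) (by decide +kernel)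
theorem L87571 : W_31 (nat_lit 3) (nat_lit 0x200000000c000300000001000080000000000000000000000000000000) (nat_lit 0x0) (nat_lit 0x40000000180000000000010000800000000000000000000000000000000000) := T_31 (nat_lit 212) (nat_lit 246) (nat_lit 4) (nat_lit 8) (nat_lit 14) L87549 (by decide +kernel)
theorem L87572 : W_31 (nat_lit 4) (nat_lit 0x300000002c000300000001000080000000000000000000000000000000) (nat_lit 0x0) (nat_lit 0x200070000800080000000400000000000000000000000000000000000000000000) := T_31 (nat_lit 211) (nat_lit 246) (nat_lit 7) (nat_lit 7) (nat_lit 10) L7972 (by decide +kernel)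
theorem L87573 : W_31 (nat_lit 5) (nat_lit 0x300000000c000300000001000080000000000000000000000000000000) (nat_lit 0x0) (nat_lit 0x200070000800080030000400000000000000000000000000000000000000000000) := T_31 (nat_lit 197) (nat_lit 196) (nat_lit 0) (nat_lit 10) (nat_lit 11) L87572 (by decide +kernel)
theorem L87574 : W_31 (nat_lit 2) (nat_lit 0xf80040000c000300010001000080000000000000000000000000000000) (nat_lit 0x0) (nat_lit 0x380000000000000000000000000000000000000000000000000000000000000) := D_31 (nat_lit 248) (nat_lit 249) (nat_lit 247) (nat_lit 3) (nat_lit 7) (nat_lit 13) (nat_lit 3) (nat_lit 6) (nat_lit 13) (by decide +kernel)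
theorem L87575 : W_31 (nat_lit 3) (nat_lit 0xf00040000c000300010001000080000000000000000000000000000000) (nat_lit 0x0) (nat_lit 0x380000800200000000000000000000000000000000000000000000000000000) := T_31 (nat_lit 227) (nat_lit 213) (nat_lit 2) (nat_lit 6) (nat_lit 13) L87574 (by decide +kernel)
theorem L87576 : W_31 (nat_lit 4) (nat_lit 0xf00000000c000300010001000080000000000000000000000000000000) (nat_lit 0x0) (nat_lit 0x380000800e00000000000000000000000000000000000000000000000000000) := T_31 (nat_lit 214) (nat_lit 215) (nat_lit 2) (nat_lit 7) (nat_lit 13) L87575 (by decide +kernel)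
theorem L87577 : W_31 (nat_lit 5) (nat_lit 0xf00000000c000300000001000080000000000000000000000000000000) (nat_lit 0x0) (nat_lit 0x380000800e00000000000010000800000000000000000000000000000000000) := T_31 (nat_lit 160) (nat_lit 143) (nat_lit 6) (nat_lit 7) (nat_lit 11) L87576 (by decide +kernel)
theorem L87578 : W_31 (nat_lit 6) (nat_lit 0x700000000c000300000001000080000000000000000000000000000000) (nat_lit 0x0) (nat_lit 0x3f8018801e00000000000010000800000000000000000000000000000000000) := Q_31 (nat_lit 231) (C_31 L82529 (C_31 L82514 (C_31 L87577 (C_31 L82451 N_31)))) (by decide +kernel)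
theorem L87579 : W_31 (nat_lit 6) (nat_lit 0x700000000c000300000001000080000000000000000000000000000000) (nat_lit 0x0) (nat_lit 0x10007f0018001c00030001000000000000000000000000000000000000000000000) := Q_31 (nat_lit 231) (C_31 L82518 (C_31 L82514 (C_31 L82443 (C_31 L82447 N_31)))) (by decide +kernel)
theorem L87580 : W_31 (nat_lit 6) (nat_lit 0x700000000c000300000001000080000000000000000000000000000000) (nat_lit 0x0) (nat_lit 0x10003b8008800e00030001000010000800000000000000000000000000000000000) := Q_31 (nat_lit 231) (C_31 L87577 (C_31 L82529 (C_31 L82443 (C_31 L82451 N_31)))) (by decide +kernel)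
theorem L87581 : W_31 (nat_lit 2) (nat_lit 0x18000f00000001c000300010001000080000000000000000000000000000000) (nat_lit 0x0) (nat_lit 0x200000000c00000000000000000000000000000000000000000000) := D_31 (nat_lit 213) (nat_lit 178) (nat_lit 179) (nat_lit 4) (nat_lit 9) (nat_lit 14) (nat_lit 7) (nat_lit 9) (nat_lit 10) (by decide +kernel)
theorem L87582 : W_31 (nat_lit 3) (nat_lit 0x18000f00000000c000300010001000080000000000000000000000000000000) (nat_lit 0x0) (nat_lit 0x200030000c00000000000000000000000000000000000000000000) := T_31 (nat_lit 196) (nat_lit 197) (nat_lit 0) (nat_lit 10) (nat_lit 11) L87581 (by decide +kernel)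
theorem L87583 : W_31 (nat_lit 4) (nat_lit 0x10000f00000000c000300010001000080000000000000000000000000000000) (nat_lit 0x0) (nat_lit 0x80000800200030000c00000000000000000000000000000000000000000000) := T_31 (nat_lit 247) (nat_lit 227) (nat_lit 3) (nat_lit 6) (nat_lit 13) L87582 (by decide +kernel)
theorem L87584 : W_31 (nat_lit 5) (nat_lit 0xf00000000c000300010001000080000000000000000000000000000000) (nat_lit 0x0) (nat_lit 0x380000800200030000c00000000000000000000000000000000000000000000) := T_31 (nat_lit 248) (nat_lit 249) (nat_lit 3) (nat_lit 7) (nat_lit 13) L87583 (by decide +kernel)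
theorem L87585 : W_31 (nat_lit 6) (nat_lit 0xf00000000c000300000001000080000000000000000000000000000000) (nat_lit 0x0) (nat_lit 0x380000800200030000c00010000800000000000000000000000000000000000) := T_31 (nat_lit 160) (nat_lit 143) (nat_lit 6) (nat_lit 7) (nat_lit 11) L87584 (by decide +kernel)
theorem L87586 : W_31 (nat_lit 2) (nat_lit 0x42001f00100002c000300010001000080000000000000000000000000000000) (nat_lit 0x0) (nat_lit 0x800020002000000000000000000000000000000000000000000000000000000) := D_31 (nat_lit 233) (nat_lit 217) (nat_lit 251) (nat_lit 2) (nat_lit 9) (nat_lit 13) (nat_lit 3) (nat_lit 9) (nat_lit 13) (by decide +kernel)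
theorem L87587 : W_31 (nat_lit 3) (nat_lit 0x2001f00100002c000300010001000080000000000000000000000000000000) (nat_lit 0x0) (nat_lit 0xe00020002000000000000000000000000000000000000000000000000000000) := T_31 (nat_lit 250) (nat_lit 249) (nat_lit 3) (nat_lit 8) (nat_lit 13) L87586 (by decide +kernel)
theorem L87588 : W_31 (nat_lit 4) (nat_lit 0x2001f00000002c000300010001000080000000000000000000000000000000) (nat_lit 0x0) (nat_lit 0xe00020003800000000000000000000000000000000000000000000000000000) := T_31 (nat_lit 216) (nat_lit 215) (nat_lit 2) (nat_lit 8) (nat_lit 13) L87587 (by decide +kernel)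
theorem L87589 : W_31 (nat_lit 5) (nat_lit 0x2000f00000002c000300010001000080000000000000000000000000000000) (nat_lit 0x0) (nat_lit 0xe40030003800000000000000000000000000000000000000000000000000000) := T_31 (nat_lit 232) (nat_lit 246) (nat_lit 1) (nat_lit 11) (nat_lit 13) L87588 (by decide +kernel)
theorem L87590 : W_31 (nat_lit 6) (nat_lit 0xf00000002c000300010001000080000000000000000000000000000000) (nat_lit 0x0) (nat_lit 0xe70030003800000000000000000000000000000000000000000000000000000) := T_31 (nat_lit 245) (nat_lit 244) (nat_lit 1) (nat_lit 10) (nat_lit 13) L87589 (by decide +kernel)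
theorem L87591 : W_31 (nat_lit 7) (nat_lit 0xf00000002c000300000001000080000000000000000000000000000000) (nat_lit 0x0) (nat_lit 0xe70030003800000000000010000800000000000000000000000000000000000) := T_31 (nat_lit 160) (nat_lit 143) (nat_lit 6) (nat_lit 7) (nat_lit 11) L87590 (by decide +kernel)
theorem L87592 : W_31 (nat_lit 8) (nat_lit 0xf00000000c000300000001000080000000000000000000000000000000) (nat_lit 0x0) (nat_lit 0xe70030003800030000000010000800000000000000000000000000000000000) := T_31 (nat_lit 197) (nat_lit 196) (nat_lit 0) (nat_lit 10) (nat_lit 11) L87591 (by decide +kernel)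
theorem L87593 : W_31 (nat_lit 2) (nat_lit 0x6000f00020001c000300010001000080000000000000000000000000000000) (nat_lit 0x0) (nat_lit 0x800080000000000000000400000000000000000000000000000000000000000000) := D_31 (nat_lit 247) (nat_lit 178) (nat_lit 263) (nat_lit 4) (nat_lit 9) (nat_lit 14) (nat_lit 5) (nat_lit 9) (nat_lit 11) (by decide +kernel)
theorem L87594 : W_31 (nat_lit 3) (nat_lit 0x6000f00000001c000300010001000080000000000000000000000000000000) (nat_lit 0x0) (nat_lit 0x800080000000200000000c00000000000000000000000000000000000000000000) := T_31 (nat_lit 213) (nat_lit 179) (nat_lit 5) (nat_lit 9) (nat_lit 10) L87593 (by decide +kernel)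
theorem L87595 : W_31 (nat_lit 4) (nat_lit 0x6000f00000001c000300000001000080000000000000000000000000000000) (nat_lit 0x0) (nat_lit 0x800080000000200000000c00010000800000000000000000000000000000000000) := T_31 (nat_lit 160) (nat_lit 143) (nat_lit 6) (nat_lit 7) (nat_lit 11) L87594 (by decide +kernel)
theorem L87596 : W_31 (nat_lit 5) (nat_lit 0x2000f00000001c000300000001000080000000000000000000000000000000) (nat_lit 0x0) (nat_lit 0x8000c0010000200000000c00010000800000000000000000000000000000000000) := T_31 (nat_lit 246) (nat_lit 232) (nat_lit 1) (nat_lit 11) (nat_lit 13) L87595 (by decide +kernel)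
theorem L87597 : W_31 (nat_lit 6) (nat_lit 0x2000f00000000c000300000001000080000000000000000000000000000000) (nat_lit 0x0) (nat_lit 0x8000c0010000200030000c00010000800000000000000000000000000000000000) := T_31 (nat_lit 196) (nat_lit 197) (nat_lit 0) (nat_lit 10) (nat_lit 11) L87596 (by decide +kernel)
theorem L87598 : W_31 (nat_lit 7) (nat_lit 0xf00000000c000300000001000080000000000000000000000000000000) (nat_lit 0x0) (nat_lit 0x8000f0010000200030000c00010000800000000000000000000000000000000000) := T_31 (nat_lit 245) (nat_lit 244) (nat_lit 1) (nat_lit 10) (nat_lit 13) L87597 (by decide +kernel)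
theorem L87599 : W_31 (nat_lit 9) (nat_lit 0x700000000c000300000001000080000000000000000000000000000000) (nat_lit 0x0) (nat_lit 0x800ff8038803a00030000c00010000800000000000000000000000000000000000) := Q_31 (nat_lit 231) (C_31 L82529 (C_31 L82518 (C_31 L87585 (C_31 L87592 (C_31 L87598 N_31))))) (by decide +kernel)
theorem L87600 : W_31 (nat_lit 2) (nat_lit 0x1000f80040002c001b00000001000080000000000000000000000000000000) (nat_lit 0x0) (nat_lit 0x40002400000000000000000000000000000000000000000000) := D_31 (nat_lit 178) (nat_lit 198) (nat_lit 181) (nat_lit 3) (nat_lit 7) (nat_lit 10) (nat_lit 1) (nat_lit 11) (nat_lit 10) (by decide +kernel)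
theorem L87601 : W_31 (nat_lit 3) (nat_lit 0x1000f80040002c001300000001000080000000000000000000000000000000) (nat_lit 0x0) (nat_lit 0x40002c00040000000000000000000000000000000000000000) := T_31 (nat_lit 179) (nat_lit 162) (nat_lit 4) (nat_lit 10) (nat_lit 13) L87600 (by decide +kernel)
theorem L87602 : W_31 (nat_lit 4) (nat_lit 0x1000f80040002c000300000001000080000000000000000000000000000000) (nat_lit 0x0) (nat_lit 0x80000000000040003c00040000000000000000000000000000000000000000) := T_31 (nat_lit 180) (nat_lit 247) (nat_lit 5) (nat_lit 10) (nat_lit 10) L87601 (by decide +kernel)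
theorem L87603 : W_31 (nat_lit 5) (nat_lit 0xf80040002c000300000001000080000000000000000000000000000000) (nat_lit 0x0) (nat_lit 0x98000000000040003c00040000000000000000000000000000000000000000) := T_31 (nat_lit 244) (nat_lit 243) (nat_lit 1) (nat_lit 9) (nat_lit 13) L87602 (by decide +kernel)
theorem L87604 : W_31 (nat_lit 6) (nat_lit 0xf00040002c000300000001000080000000000000000000000000000000) (nat_lit 0x0) (nat_lit 0x98000800200040003c00040000000000000000000000000000000000000000) := T_31 (nat_lit 227) (nat_lit 213) (nat_lit 2) (nat_lit 6) (nat_lit 13) L87603 (by decide +kernel)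
theorem L87605 : W_31 (nat_lit 7) (nat_lit 0xf00000002c000300000001000080000000000000000000000000000000) (nat_lit 0x0) (nat_lit 0x98000800e00040003c00040000000000000000000000000000000000000000) := T_31 (nat_lit 214) (nat_lit 215) (nat_lit 2) (nat_lit 7) (nat_lit 13) L87604 (by decide +kernel)
theorem L87606 : W_31 (nat_lit 8) (nat_lit 0xf00000000c000300000001000080000000000000000000000000000000) (nat_lit 0x0) (nat_lit 0x98000800e00070003c00040000000000000000000000000000000000000000) := T_31 (nat_lit 197) (nat_lit 196) (nat_lit 0) (nat_lit 10) (nat_lit 11) L87605 (by decide +kernel)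
theorem L87607 : W_31 (nat_lit 2) (nat_lit 0x11000f80040002c003300010001000080000000000000000000000000000000) (nat_lit 0x0) (nat_lit 0xc00040000000000000000000000000000000000000000) := D_31 (nat_lit 179) (nat_lit 162) (nat_lit 178) (nat_lit 4) (nat_lit 10) (nat_lit 13) (nat_lit 1) (nat_lit 11) (nat_lit 10) (by decide +kernel)
theorem L87608 : W_31 (nat_lit 3) (nat_lit 0x11000f80040002c002300010001000080000000000000000000000000000000) (nat_lit 0x0) (nat_lit 0x1c00140000000000000000000000000000000000000000) := T_31 (nat_lit 180) (nat_lit 164) (nat_lit 6) (nat_lit 10) (nat_lit 13) L87607 (by decide +kernel)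
theorem L87609 : W_31 (nat_lit 4) (nat_lit 0x11000f80040002c000300010001000080000000000000000000000000000000) (nat_lit 0x0) (nat_lit 0x40003c00140000000000000000000000000000000000000000) := T_31 (nat_lit 181) (nat_lit 198) (nat_lit 6) (nat_lit 10) (nat_lit 14) L87608 (by decide +kernel)
theorem L87610 : W_31 (nat_lit 5) (nat_lit 0x11000f80040002c000300000001000080000000000000000000000000000000) (nat_lit 0x0) (nat_lit 0x40003c00150000800000000000000000000000000000000000) := T_31 (nat_lit 160) (nat_lit 143) (nat_lit 6) (nat_lit 7) (nat_lit 11) L87609 (by decide +kernel)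
theorem L87611 : W_31 (nat_lit 6) (nat_lit 0x11000f80040000c000300000001000080000000000000000000000000000000) (nat_lit 0x0) (nat_lit 0x70003c00150000800000000000000000000000000000000000) := T_31 (nat_lit 197) (nat_lit 196) (nat_lit 0) (nat_lit 10) (nat_lit 11) L87610 (by decide +kernel)
theorem L87612 : W_31 (nat_lit 7) (nat_lit 0x1000f80040000c000300000001000080000000000000000000000000000000) (nat_lit 0x0) (nat_lit 0x300000000000070003c00150000800000000000000000000000000000000000) := T_31 (nat_lit 248) (nat_lit 249) (nat_lit 3) (nat_lit 7) (nat_lit 13) L87611 (by decide +kernel)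
theorem L87613 : W_31 (nat_lit 8) (nat_lit 0xf80040000c000300000001000080000000000000000000000000000000) (nat_lit 0x0) (nat_lit 0x318000000000070003c00150000800000000000000000000000000000000000) := T_31 (nat_lit 244) (nat_lit 243) (nat_lit 1) (nat_lit 9) (nat_lit 13) L87612 (by decide +kernel)
theorem L87614 : W_31 (nat_lit 9) (nat_lit 0xf00040000c000300000001000080000000000000000000000000000000) (nat_lit 0x0) (nat_lit 0x318000800200070003c00150000800000000000000000000000000000000000) := T_31 (nat_lit 227) (nat_lit 213) (nat_lit 2) (nat_lit 6) (nat_lit 13) L87613 (by decide +kernel)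
theorem L87615 : W_31 (nat_lit 10) (nat_lit 0xf00000000c000300000001000080000000000000000000000000000000) (nat_lit 0x0) (nat_lit 0x318000800e00070003c00150000800000000000000000000000000000000000) := T_31 (nat_lit 214) (nat_lit 215) (nat_lit 2) (nat_lit 7) (nat_lit 13) L87614 (by decide +kernel)
theorem L87616 : W_31 (nat_lit 11) (nat_lit 0x700000000c000300000001000080000000000000000000000000000000) (nat_lit 0x0) (nat_lit 0x1000398008800e00070003c00150000800000000000000000000000000000000000) := Q_31 (nat_lit 231) (C_31 L87577 (C_31 L87585 (C_31 L82443 (C_31 L87606 (C_31 L87615 N_31))))) (by decide +kernel)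
theorem L87617 : W_31 (nat_lit 2) (nat_lit 0x780020001c000300010001000080000000000000000000000000000000) (nat_lit 0x0) (nat_lit 0x180000000000000000400000000000000000000000000000000000000000000) := D_31 (nat_lit 247) (nat_lit 248) (nat_lit 178) (nat_lit 3) (nat_lit 6) (nat_lit 13) (nat_lit 4) (nat_lit 9) (nat_lit 14) (by decide +kernel)
theorem L87618 : W_31 (nat_lit 3) (nat_lit 0x780000001c000300010001000080000000000000000000000000000000) (nat_lit 0x0) (nat_lit 0x180000000600000000400000000000000000000000000000000000000000000) := T_31 (nat_lit 213) (nat_lit 214) (nat_lit 2) (nat_lit 6) (nat_lit 13) L87617 (by decide +kernel)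
theorem L87619 : W_31 (nat_lit 4) (nat_lit 0x780000001c000300000001000080000000000000000000000000000000) (nat_lit 0x0) (nat_lit 0x180000000600000000400010000800000000000000000000000000000000000) := T_31 (nat_lit 160) (nat_lit 143) (nat_lit 6) (nat_lit 7) (nat_lit 11) L87618 (by decide +kernel)
theorem L87620 : W_31 (nat_lit 5) (nat_lit 0x780000000c000300000001000080000000000000000000000000000000) (nat_lit 0x0) (nat_lit 0x180000000600030000400010000800000000000000000000000000000000000) := T_31 (nat_lit 196) (nat_lit 197) (nat_lit 0) (nat_lit 10) (nat_lit 11) L87619 (by decide +kernel)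
theorem L87621 : W_31 (nat_lit 2) (nat_lit 0x48007c0021002c000300010001000080000000000000000000000000000000) (nat_lit 0x0) (nat_lit 0x20000200008000000000000000000000000000000000000000000000000000) := D_31 (nat_lit 225) (nat_lit 245) (nat_lit 207) (nat_lit 3) (nat_lit 4) (nat_lit 13) (nat_lit 0) (nat_lit 7) (nat_lit 13) (by decide +kernel)
theorem L87622 : W_31 (nat_lit 3) (nat_lit 0x8007c0021002c000300010001000080000000000000000000000000000000) (nat_lit 0x0) (nat_lit 0xe0000200008000000000000000000000000000000000000000000000000000) := T_31 (nat_lit 246) (nat_lit 247) (nat_lit 3) (nat_lit 5) (nat_lit 13) L87621 (by decide +kernel)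
theorem L87623 : W_31 (nat_lit 4) (nat_lit 0x8007c0020002c000300010001000080000000000000000000000000000000) (nat_lit 0x0) (nat_lit 0xe0000200038000000000000000000000000000000000000000000000000000) := T_31 (nat_lit 208) (nat_lit 209) (nat_lit 0) (nat_lit 8) (nat_lit 13) L87622 (by decide +kernel)
theorem L87624 : W_31 (nat_lit 5) (nat_lit 0x800780020002c000300010001000080000000000000000000000000000000) (nat_lit 0x0) (nat_lit 0xe4000600038000000000000000000000000000000000000000000000000000) := T_31 (nat_lit 226) (nat_lit 242) (nat_lit 1) (nat_lit 8) (nat_lit 13) L87623 (by decide +kernel)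
theorem L87625 : W_31 (nat_lit 6) (nat_lit 0x780020002c000300010001000080000000000000000000000000000000) (nat_lit 0x0) (nat_lit 0xfc000600038000000000000000000000000000000000000000000000000000) := T_31 (nat_lit 243) (nat_lit 244) (nat_lit 1) (nat_lit 9) (nat_lit 13) L87624 (by decide +kernel)
theorem L87626 : W_31 (nat_lit 7) (nat_lit 0x780000002c000300010001000080000000000000000000000000000000) (nat_lit 0x0) (nat_lit 0xfc000600638000000000000000000000000000000000000000000000000000) := T_31 (nat_lit 213) (nat_lit 214) (nat_lit 2) (nat_lit 6) (nat_lit 13) L87625 (by decide +kernel)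
theorem L87627 : W_31 (nat_lit 8) (nat_lit 0x780000002c000300000001000080000000000000000000000000000000) (nat_lit 0x0) (nat_lit 0xfc000600638000000000010000800000000000000000000000000000000000) := T_31 (nat_lit 160) (nat_lit 143) (nat_lit 6) (nat_lit 7) (nat_lit 11) L87626 (by decide +kernel)
theorem L87628 : W_31 (nat_lit 9) (nat_lit 0x780000000c000300000001000080000000000000000000000000000000) (nat_lit 0x0) (nat_lit 0xfc000600638030000000010000800000000000000000000000000000000000) := T_31 (nat_lit 197) (nat_lit 196) (nat_lit 0) (nat_lit 10) (nat_lit 11) L87627 (by decide +kernel)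
theorem L87629 : W_31 (nat_lit 2) (nat_lit 0x1000780020001c001b00010001000080000000000000000000000000000000) (nat_lit 0x0) (nat_lit 0x6400000000000000000000000000000000000000000000) := D_31 (nat_lit 181) (nat_lit 182) (nat_lit 178) (nat_lit 1) (nat_lit 12) (nat_lit 10) (nat_lit 1) (nat_lit 11) (nat_lit 10) (by decide +kernel)
theorem L87630 : W_31 (nat_lit 3) (nat_lit 0x1000780020001c000b00010001000080000000000000000000000000000000) (nat_lit 0x0) (nat_lit 0x7400080000000000000000000000000000000000000000) := T_31 (nat_lit 180) (nat_lit 163) (nat_lit 6) (nat_lit 9) (nat_lit 13) L87629 (by decide +kernel)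
theorem L87631 : W_31 (nat_lit 4) (nat_lit 0x1000780020001c000300010001000080000000000000000000000000000000) (nat_lit 0x0) (nat_lit 0x40000000000000007c00080000000000000000000000000000000000000000) := T_31 (nat_lit 179) (nat_lit 246) (nat_lit 5) (nat_lit 9) (nat_lit 10) L87630 (by decide +kernel)
theorem L87632 : W_31 (nat_lit 5) (nat_lit 0x1000780000001c000300010001000080000000000000000000000000000000) (nat_lit 0x0) (nat_lit 0x40000000600000007c00080000000000000000000000000000000000000000) := T_31 (nat_lit 213) (nat_lit 214) (nat_lit 2) (nat_lit 6) (nat_lit 13) L87631 (by decide +kernel)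
theorem L87633 : W_31 (nat_lit 6) (nat_lit 0x1000780000001c000300000001000080000000000000000000000000000000) (nat_lit 0x0) (nat_lit 0x40000000600000007c00090000800000000000000000000000000000000000) := T_31 (nat_lit 160) (nat_lit 143) (nat_lit 6) (nat_lit 7) (nat_lit 11) L87632 (by decide +kernel)
theorem L87634 : W_31 (nat_lit 7) (nat_lit 0x1000780000000c000300000001000080000000000000000000000000000000) (nat_lit 0x0) (nat_lit 0x40000000600030007c00090000800000000000000000000000000000000000) := T_31 (nat_lit 196) (nat_lit 197) (nat_lit 0) (nat_lit 10) (nat_lit 11) L87633 (by decide +kernel)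
theorem L87635 : W_31 (nat_lit 8) (nat_lit 0x780000000c000300000001000080000000000000000000000000000000) (nat_lit 0x0) (nat_lit 0x58000000600030007c00090000800000000000000000000000000000000000) := T_31 (nat_lit 244) (nat_lit 243) (nat_lit 1) (nat_lit 9) (nat_lit 13) L87634 (by decide +kernel)
theorem L87636 : W_31 (nat_lit 10) (nat_lit 0x700000000c000300000001000080000000000000000000000000000000) (nat_lit 0x0) (nat_lit 0x1fc000e00638030007c00090000800000000000000000000000000000000000) := Q_31 (nat_lit 227) (C_31 L82417 (C_31 L87620 (C_31 L87628 (C_31 L87635 N_31)))) (by decide +kernel)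
theorem L87637 : W_31 (nat_lit 2) (nat_lit 0xf80040002c001b00000001000080000000000000000000000000000000) (nat_lit 0x0) (nat_lit 0x40002400000000000000000000000000000000000000000000) := D_31 (nat_lit 178) (nat_lit 198) (nat_lit 181) (nat_lit 3) (nat_lit 7) (nat_lit 10) (nat_lit 1) (nat_lit 11) (nat_lit 10) (by decide +kernel)
theorem L87638 : W_31 (nat_lit 3) (nat_lit 0xf80040002c001300000001000080000000000000000000000000000000) (nat_lit 0x0) (nat_lit 0x40002c00040000000000000000000000000000000000000000) := T_31 (nat_lit 179) (nat_lit 162) (nat_lit 4) (nat_lit 10) (nat_lit 13) L87637 (by decide +kernel)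
theorem L87639 : W_31 (nat_lit 4) (nat_lit 0xf80040002c000300000001000080000000000000000000000000000000) (nat_lit 0x0) (nat_lit 0x80000000000040003c00040000000000000000000000000000000000000000) := T_31 (nat_lit 180) (nat_lit 247) (nat_lit 5) (nat_lit 10) (nat_lit 10) L87638 (by decide +kernel)
theorem L87640 : W_31 (nat_lit 5) (nat_lit 0xf00040002c000300000001000080000000000000000000000000000000) (nat_lit 0x0) (nat_lit 0x80000800200040003c00040000000000000000000000000000000000000000) := T_31 (nat_lit 227) (nat_lit 213) (nat_lit 2) (nat_lit 6) (nat_lit 13) L87639 (by decide +kernel)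
theorem L87641 : W_31 (nat_lit 6) (nat_lit 0xf00000002c000300000001000080000000000000000000000000000000) (nat_lit 0x0) (nat_lit 0x80000800e00040003c00040000000000000000000000000000000000000000) := T_31 (nat_lit 214) (nat_lit 215) (nat_lit 2) (nat_lit 7) (nat_lit 13) L87640 (by decide +kernel)
theorem L87642 : W_31 (nat_lit 7) (nat_lit 0xf00000000c000300000001000080000000000000000000000000000000) (nat_lit 0x0) (nat_lit 0x80000800e00070003c00040000000000000000000000000000000000000000) := T_31 (nat_lit 197) (nat_lit 196) (nat_lit 0) (nat_lit 10) (nat_lit 11) L87641 (by decide +kernel)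
theorem L87643 : W_31 (nat_lit 2) (nat_lit 0x10000f80040002c003300010001000080000000000000000000000000000000) (nat_lit 0x0) (nat_lit 0xc00040000000000000000000000000000000000000000) := D_31 (nat_lit 179) (nat_lit 162) (nat_lit 178) (nat_lit 4) (nat_lit 10) (nat_lit 13) (nat_lit 1) (nat_lit 11) (nat_lit 10) (by decide +kernel)
theorem L87644 : W_31 (nat_lit 3) (nat_lit 0x10000f80040002c002300010001000080000000000000000000000000000000) (nat_lit 0x0) (nat_lit 0x1c00140000000000000000000000000000000000000000) := T_31 (nat_lit 180) (nat_lit 164) (nat_lit 6) (nat_lit 10) (nat_lit 13) L87643 (by decide +kernel)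
theorem L87645 : W_31 (nat_lit 4) (nat_lit 0x10000f80040002c000300010001000080000000000000000000000000000000) (nat_lit 0x0) (nat_lit 0x40003c00140000000000000000000000000000000000000000) := T_31 (nat_lit 181) (nat_lit 198) (nat_lit 6) (nat_lit 10) (nat_lit 14) L87644 (by decide +kernel)
theorem L87646 : W_31 (nat_lit 5) (nat_lit 0x10000f80040002c000300000001000080000000000000000000000000000000) (nat_lit 0x0) (nat_lit 0x40003c00150000800000000000000000000000000000000000) := T_31 (nat_lit 160) (nat_lit 143) (nat_lit 6) (nat_lit 7) (nat_lit 11) L87645 (by decide +kernel)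
theorem L87647 : W_31 (nat_lit 6) (nat_lit 0x10000f80040000c000300000001000080000000000000000000000000000000) (nat_lit 0x0) (nat_lit 0x70003c00150000800000000000000000000000000000000000) := T_31 (nat_lit 197) (nat_lit 196) (nat_lit 0) (nat_lit 10) (nat_lit 11) L87646 (by decide +kernel)
theorem L87648 : W_31 (nat_lit 7) (nat_lit 0xf80040000c000300000001000080000000000000000000000000000000) (nat_lit 0x0) (nat_lit 0x300000000000070003c00150000800000000000000000000000000000000000) := T_31 (nat_lit 248) (nat_lit 249) (nat_lit 3) (nat_lit 7) (nat_lit 13) L87647 (by decide +kernel)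
theorem L87649 : W_31 (nat_lit 8) (nat_lit 0xf00040000c000300000001000080000000000000000000000000000000) (nat_lit 0x0) (nat_lit 0x300000800200070003c00150000800000000000000000000000000000000000) := T_31 (nat_lit 227) (nat_lit 213) (nat_lit 2) (nat_lit 6) (nat_lit 13) L87648 (by decide +kernel)
theorem L87650 : W_31 (nat_lit 9) (nat_lit 0xf00000000c000300000001000080000000000000000000000000000000) (nat_lit 0x0) (nat_lit 0x300000800e00070003c00150000800000000000000000000000000000000000) := T_31 (nat_lit 214) (nat_lit 215) (nat_lit 2) (nat_lit 7) (nat_lit 13) L87649 (by decide +kernel)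
theorem L87651 : W_31 (nat_lit 10) (nat_lit 0x700000000c000300000001000080000000000000000000000000000000) (nat_lit 0x0) (nat_lit 0x1000380008800e00070003c00150000800000000000000000000000000000000000) := Q_31 (nat_lit 231) (C_31 L87577 (C_31 L87585 (C_31 L82443 (C_31 L87642 (C_31 L87650 N_31))))) (by decide +kernel)
theorem L87652 : W_31 (nat_lit 9) (nat_lit 0x700000000c000300000001000080000000000000000000000000000000) (nat_lit 0x0) (nat_lit 0x800ef8038803e00070003c00050000800000000000000000000000000000000000) := Q_31 (nat_lit 231) (C_31 L87592 (C_31 L87642 (C_31 L82451 (C_31 L87598 N_31)))) (by decide +kernel)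
theorem L87653 : W_31 (nat_lit 10) (nat_lit 0x700000000c000300000001000080000000000000000000000000000000) (nat_lit 0x0) (nat_lit 0xf78038803e00070003c00150000800000000000000000000000000000000000) := Q_31 (nat_lit 231) (C_31 L87592 (C_31 L87650 (C_31 L82518 (C_31 L82514 (C_31 L82451 N_31))))) (by decide +kernel)
theorem L87654 : W_31 (nat_lit 12) (nat_lit 0x300000000c000300000001000080000000000000000000000000000000) (nat_lit 0x0) (nat_lit 0x1800ffc03ce03e38070007c001d0000800000000000000000000000000000000000) := Q_31 (nat_lit 230) (C_31 L82448 (C_31 L87578 (C_31 L87579 (C_31 L87580 (C_31 L87599 (C_31 L87616 (C_31 L87636 (C_31 L87651 (C_31 L87652 (C_31 L87653 N_31)))))))))) (by decide +kernel)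
theorem L87655 : W_31 (nat_lit 2) (nat_lit 0x2000300008000c000300010001000080000000000000000000000000000000) (nat_lit 0x0) (nat_lit 0x200010000800000000000000000000000000000000000000000000000000000000) := D_31 (nat_lit 244) (nat_lit 261) (nat_lit 227) (nat_lit 5) (nat_lit 7) (nat_lit 11) (nat_lit 5) (nat_lit 7) (nat_lit 10) (by decide +kernel)
theorem L87656 : W_31 (nat_lit 3) (nat_lit 0x300008000c000300010001000080000000000000000000000000000000) (nat_lit 0x0) (nat_lit 0x200030000800000000000400000000000000000000000000000000000000000000) := T_31 (nat_lit 245) (nat_lit 178) (nat_lit 6) (nat_lit 7) (nat_lit 14) L87655 (by decide +kernel)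
theorem L87657 : W_31 (nat_lit 4) (nat_lit 0x300000000c000300010001000080000000000000000000000000000000) (nat_lit 0x0) (nat_lit 0x200030000800080000000400008000000000000000000000000000000000000000) := T_31 (nat_lit 211) (nat_lit 159) (nat_lit 4) (nat_lit 7) (nat_lit 13) L87656 (by decide +kernel)
theorem L87658 : W_31 (nat_lit 5) (nat_lit 0x300000000c000300000001000080000000000000000000000000000000) (nat_lit 0x0) (nat_lit 0x200030000800080000000400018000800000000000000000000000000000000000) := T_31 (nat_lit 160) (nat_lit 143) (nat_lit 6) (nat_lit 7) (nat_lit 11) L87657 (by decide +kernel)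
theorem L87659 : W_31 (nat_lit 13) (nat_lit 0x200000000c000300000001000080000000000000000000000000000000) (nat_lit 0x0) (nat_lit 0x1a00ffc03de03eb8070007c001d8000800000000000000000000000000000000000) := Q_31 (nat_lit 228) (C_31 L87561 (C_31 L87573 (C_31 L87654 (C_31 L87658 N_31)))) (by decide +kernel)
theorem L87660 : W_31 (nat_lit 2) (nat_lit 0x200000000c000300010001000080000000000000000000000000000000) (nat_lit 0x0) (nat_lit 0x180000000400000000000000000000000000000000000000000000) := D_31 (nat_lit 212) (nat_lit 178) (nat_lit 211) (nat_lit 4) (nat_lit 8) (nat_lit 13) (nat_lit 7) (nat_lit 7) (nat_lit 9) (by decide +kernel)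
theorem L87661 : W_31 (nat_lit 3) (nat_lit 0x200000000c000300000001000080000000000000000000000000000000) (nat_lit 0x0) (nat_lit 0x180000000400010000800000000000000000000000000000000000) := T_31 (nat_lit 160) (nat_lit 143) (nat_lit 6) (nat_lit 7) (nat_lit 11) L87660 (by decide +kernel)
theorem L87662 : W_31 (nat_lit 14) (nat_lit 0xc000300000001000080000000000000000000000000000000) (nat_lit 0x0) (nat_lit 0x1e00ffc03fe03fb8070007c001d8000800000000000000000000000000000000000) := Q_31 (nat_lit 229) (C_31 L86281 (C_31 L87570 (C_31 L87571 (C_31 L87659 (C_31 L87661 N_31))))) (by decide +kernel)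
theorem L87666 : W_31 (nat_lit 16) (nat_lit 0xc000200000001000080000000000000000000000000000000) (nat_lit 0x0) (nat_lit 0x1e00ffc03ff03fb8071c07de01dfc00ff013f001e000f0005000000000000000000) := Q_31 (nat_lit 176) (C_31 L5377 (C_31 L86414 (C_31 L87557 (C_31 L87662 (C_31 L87665 N_31))))) (by decide +kernel)
theorem L87672 : W_31 (nat_lit 4) (nat_lit 0x18000c000300000001000080000000000000000000000000000000) (nat_lit 0x0) (nat_lit 0x600030001800000000000000008000000000000000000000000000000000000000) := T_31 (nat_lit 228) (nat_lit 159) (nat_lit 4) (nat_lit 7) (nat_lit 13) L87552 (by decide +kernel)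
theorem L87720 : W_31 (nat_lit 6) (nat_lit 0x10000c000280000001400080000000000000000000000000000000) (nat_lit 0x0) (nat_lit 0x17000b0011c000000000000000000000000000000) := T_31 (nat_lit 143) (nat_lit 160) (nat_lit 7) (nat_lit 7) (nat_lit 8) L87541 (by decide +kernel)
theorem L87721 : W_31 (nat_lit 5) (nat_lit 0x10000c0002c0000001400080000000000000000000000000000000) (nat_lit 0x0) (nat_lit 0x800000016000a00118000000000000000000000000000000) := T_31 (nat_lit 143) (nat_lit 160) (nat_lit 7) (nat_lit 7) (nat_lit 8) L87539 (by decide +kernel)
theorem L87722 : W_31 (nat_lit 6) (nat_lit 0x10000c000280000001400080000000000000000000000000000000) (nat_lit 0x0) (nat_lit 0x800140016000a00118000000000000000000000000000000) := T_31 (nat_lit 174) (nat_lit 176) (nat_lit 3) (nat_lit 4) (nat_lit 10) L87721 (by decide +kernel)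
theorem L87723 : W_31 (nat_lit 2) (nat_lit 0x10000c000280018001400080000000000000000000000000000000) (nat_lit 0x0) (nat_lit 0x140000000000020000000000000000000000000000000) := D_31 (nat_lit 176) (nat_lit 174) (nat_lit 125) (nat_lit 3) (nat_lit 4) (nat_lit 10) (nat_lit 7) (nat_lit 6) (nat_lit 7) (by decide +kernel)
theorem L87724 : W_31 (nat_lit 3) (nat_lit 0x10000c000280010001400080000000000000000000000000000000) (nat_lit 0x0) (nat_lit 0x80000000140008000000020000000000000000000000000000000) := T_31 (nat_lit 159) (nat_lit 211) (nat_lit 4) (nat_lit 7) (nat_lit 12) L87723 (by decide +kernel)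
theorem L87725 : W_31 (nat_lit 4) (nat_lit 0x10000c000280000001400080000000000000000000000000000000) (nat_lit 0x0) (nat_lit 0x80000000140018000800020000000000000000000000000000000) := T_31 (nat_lit 160) (nat_lit 143) (nat_lit 7) (nat_lit 7) (nat_lit 8) L87724 (by decide +kernel)
theorem L87726 : W_31 (nat_lit 2) (nat_lit 0x10000c000380008001400080000000000000000000000000000000) (nat_lit 0x0) (nat_lit 0x1000080000000000010000000000000000000000000000000000000000) := D_31 (nat_lit 211) (nat_lit 228) (nat_lit 160) (nat_lit 4) (nat_lit 7) (nat_lit 13) (nat_lit 4) (nat_lit 7) (nat_lit 12) (by decide +kernel)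
theorem L87727 : W_31 (nat_lit 3) (nat_lit 0x10000c000380000001400080000000000000000000000000000000) (nat_lit 0x0) (nat_lit 0x1000080000000000018000000020000000000000000000000000000000) := T_31 (nat_lit 159) (nat_lit 125) (nat_lit 7) (nat_lit 6) (nat_lit 7) L87726 (by decide +kernel)
theorem L87728 : W_31 (nat_lit 4) (nat_lit 0x10000c000280000001400080000000000000000000000000000000) (nat_lit 0x0) (nat_lit 0x1000080000000140018000000020000000000000000000000000000000) := T_31 (nat_lit 176) (nat_lit 174) (nat_lit 3) (nat_lit 4) (nat_lit 10) L87727 (by decide +kernel)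
theorem L87729 : W_31 (nat_lit 8) (nat_lit 0x10000c000280000001400080000000000000000000000000000000) (nat_lit 0x0) (nat_lit 0x1803d401ce000b00138001000080000000000000000000000) := T_31 (nat_lit 176) (nat_lit 174) (nat_lit 3) (nat_lit 4) (nat_lit 10) L87692 (by decide +kernel)
theorem L87730 : W_31 (nat_lit 9) (nat_lit 0x10000c000280000001000080000000000000000000000000000000) (nat_lit 0x0) (nat_lit 0x1000080001803d401df000f0013c001000080000000000000000000000) := Q_31 (nat_lit 142) (C_31 L87720 (C_31 L87722 (C_31 L87725 (C_31 L87728 (C_31 L87729 N_31))))) (by decide +kernel)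
theorem L87731 : W_31 (nat_lit 2) (nat_lit 0x10000d000f80094001000080000000000000000000000000000000) (nat_lit 0x0) (nat_lit 0x3000100000000000000000000000000000000000000000) := D_31 (nat_lit 180) (nat_lit 181) (nat_lit 164) (nat_lit 1) (nat_lit 11) (nat_lit 10) (nat_lit 2) (nat_lit 7) (nat_lit 10) (by decide +kernel)
theorem L87732 : W_31 (nat_lit 3) (nat_lit 0x10000d000f80014001000080000000000000000000000000000000) (nat_lit 0x0) (nat_lit 0x30001c0000000000000000000000000000000000000000) := T_31 (nat_lit 163) (nat_lit 162) (nat_lit 2) (nat_lit 6) (nat_lit 10) L87731 (by decide +kernel)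
theorem L87733 : W_31 (nat_lit 4) (nat_lit 0x10000d000780014001000080000000000000000000000000000000) (nat_lit 0x0) (nat_lit 0x38001c8000000000000000000000000000000000000000) := T_31 (nat_lit 179) (nat_lit 159) (nat_lit 0) (nat_lit 9) (nat_lit 10) L87732 (by decide +kernel)
theorem L87734 : W_31 (nat_lit 5) (nat_lit 0x10000d000780010001000080000000000000000000000000000000) (nat_lit 0x0) (nat_lit 0x38001ce000000000000000000000000000000000000000) := T_31 (nat_lit 158) (nat_lit 157) (nat_lit 0) (nat_lit 8) (nat_lit 10) L87733 (by decide +kernel)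
theorem L87735 : W_31 (nat_lit 6) (nat_lit 0x10000d000380010001000080000000000000000000000000000000) (nat_lit 0x0) (nat_lit 0x803c001ce000000000000000000000000000000000000000) := T_31 (nat_lit 178) (nat_lit 191) (nat_lit 1) (nat_lit 8) (nat_lit 10) L87734 (by decide +kernel)
theorem L87736 : W_31 (nat_lit 7) (nat_lit 0x10000d000380000001000080000000000000000000000000000000) (nat_lit 0x0) (nat_lit 0x803c001de000800000000000000000000000000000000000) := T_31 (nat_lit 160) (nat_lit 143) (nat_lit 7) (nat_lit 7) (nat_lit 8) L87735 (by decide +kernel)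
theorem L87737 : W_31 (nat_lit 8) (nat_lit 0x10000d000280000001000080000000000000000000000000000000) (nat_lit 0x0) (nat_lit 0x803d401de000800000000000000000000000000000000000) := T_31 (nat_lit 176) (nat_lit 174) (nat_lit 3) (nat_lit 4) (nat_lit 10) L87736 (by decide +kernel)
theorem L87738 : W_31 (nat_lit 9) (nat_lit 0x10000c000280000001000080000000000000000000000000000000) (nat_lit 0x0) (nat_lit 0x280003803d401de000800000000000000000000000000000000000) := Q_31 (nat_lit 192) (C_31 L87525 (C_31 L87523 (C_31 L87737 N_31))) (by decide +kernel)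
theorem L87739 : W_31 (nat_lit 2) (nat_lit 0x10000c000380008001400080000000000000000000000000000000) (nat_lit 0x0) (nat_lit 0x1000080002000000000000000000000000000000000000000000000000) := D_31 (nat_lit 211) (nat_lit 193) (nat_lit 228) (nat_lit 7) (nat_lit 6) (nat_lit 8) (nat_lit 4) (nat_lit 7) (nat_lit 13) (by decide +kernel)
theorem L87740 : W_31 (nat_lit 3) (nat_lit 0x10000c000380000001400080000000000000000000000000000000) (nat_lit 0x0) (nat_lit 0x1000080002000000008000000020000000000000000000000000000000) := T_31 (nat_lit 159) (nat_lit 125) (nat_lit 7) (nat_lit 6) (nat_lit 7) L87739 (by decide +kernel)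
theorem L87741 : W_31 (nat_lit 4) (nat_lit 0x10000c000280000001400080000000000000000000000000000000) (nat_lit 0x0) (nat_lit 0x1000080002000140008000000020000000000000000000000000000000) := T_31 (nat_lit 176) (nat_lit 174) (nat_lit 3) (nat_lit 4) (nat_lit 10) L87740 (by decide +kernel)
theorem L87742 : W_31 (nat_lit 7) (nat_lit 0x10000c000280000001000080000000000000000000000000000000) (nat_lit 0x0) (nat_lit 0x100008000280014001f000f0013c000000000000000000000000000000) := Q_31 (nat_lit 142) (C_31 L87725 (C_31 L87728 (C_31 L87722 (C_31 L87720 (C_31 L87741 N_31))))) (by decide +kernel)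
theorem L87749 : W_31 (nat_lit 8) (nat_lit 0x10000c000280000001000080000000000000000000000000000000) (nat_lit 0x0) (nat_lit 0x280003803d401ce000000000000000000000000000000000000000) := Q_31 (nat_lit 192) (C_31 L87525 (C_31 L87523 (C_31 L87748 N_31))) (by decide +kernel)
theorem L87750 : W_31 (nat_lit 5) (nat_lit 0x10000d0002c0000001400080000000000000000000000000000000) (nat_lit 0x0) (nat_lit 0x12000b0011c000000000000000000000000000000) := T_31 (nat_lit 143) (nat_lit 160) (nat_lit 7) (nat_lit 7) (nat_lit 8) L87540 (by decide +kernel)
theorem L87759 : W_31 (nat_lit 8) (nat_lit 0x10000c000280000001c00080000000000000000000000000000000) (nat_lit 0x0) (nat_lit 0x28000380044000300030011c000000000000000000000000000000) := T_31 (nat_lit 141) (nat_lit 128) (nat_lit 2) (nat_lit 5) (nat_lit 8) L87538 (by decide +kernel)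
theorem L87760 : W_31 (nat_lit 9) (nat_lit 0x10000c000280000001400080000000000000000000000000000000) (nat_lit 0x0) (nat_lit 0x280003800440013000b0011c000000000000000000000000000000) := T_31 (nat_lit 143) (nat_lit 160) (nat_lit 7) (nat_lit 7) (nat_lit 8) L87759 (by decide +kernel)
theorem L87761 : W_31 (nat_lit 6) (nat_lit 0x10000c0002c0000001400080000000000000000000000000000000) (nat_lit 0x0) (nat_lit 0x3000000012000b0011c000000000000000000000000000000) := T_31 (nat_lit 192) (nat_lit 193) (nat_lit 0) (nat_lit 8) (nat_lit 11) L87750 (by decide +kernel)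
theorem L87762 : W_31 (nat_lit 7) (nat_lit 0x10000c000280000001400080000000000000000000000000000000) (nat_lit 0x0) (nat_lit 0x3000140012000b0011c000000000000000000000000000000) := T_31 (nat_lit 174) (nat_lit 176) (nat_lit 3) (nat_lit 4) (nat_lit 10) L87761 (by decide +kernel)
theorem L87763 : W_31 (nat_lit 2) (nat_lit 0x10000c000280018001400080000000000000000000000000000000) (nat_lit 0x0) (nat_lit 0x100000000000020001000000000000000000000000000) := D_31 (nat_lit 125) (nat_lit 108) (nat_lit 176) (nat_lit 7) (nat_lit 6) (nat_lit 6) (nat_lit 7) (nat_lit 6) (nat_lit 7) (by decide +kernel)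
theorem L87764 : W_31 (nat_lit 3) (nat_lit 0x10000c000280010001400080000000000000000000000000000000) (nat_lit 0x0) (nat_lit 0x80000000100008000000020001000000000000000000000000000) := T_31 (nat_lit 159) (nat_lit 211) (nat_lit 4) (nat_lit 7) (nat_lit 12) L87763 (by decide +kernel)
theorem L87765 : W_31 (nat_lit 4) (nat_lit 0x10000c000280000001400080000000000000000000000000000000) (nat_lit 0x0) (nat_lit 0x80000000100018000800020001000000000000000000000000000) := T_31 (nat_lit 160) (nat_lit 143) (nat_lit 7) (nat_lit 7) (nat_lit 8) L87764 (by decide +kernel)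
theorem L87766 : W_31 (nat_lit 10) (nat_lit 0x10000c000280000001000080000000000000000000000000000000) (nat_lit 0x0) (nat_lit 0x100028000380054001b000f0013c001000000000000000000000000000) := Q_31 (nat_lit 142) (C_31 L87728 (C_31 L87760 (C_31 L87741 (C_31 L87762 (C_31 L87765 N_31))))) (by decide +kernel)
theorem L87785 : W_31 (nat_lit 8) (nat_lit 0x10000d000280004001000080000000000000000000000000000000) (nat_lit 0x0) (nat_lit 0x10000800040012000f00038001c000a0000000000000000000000) := Q_31 (nat_lit 141) (C_31 L87773 (C_31 L87502 (C_31 L87490 (C_31 L87517 (C_31 L87441 N_31))))) (by decide +kernel)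
theorem L87786 : W_31 (nat_lit 2) (nat_lit 0x12000d00028000e001000080000000000000000000000000000000) (nat_lit 0x0) (nat_lit 0x400010000800000000000000000000000000000000000) := D_31 (nat_lit 160) (nat_lit 178) (nat_lit 143) (nat_lit 3) (nat_lit 4) (nat_lit 9) (nat_lit 2) (nat_lit 4) (nat_lit 9) (by decide +kernel)
theorem L87787 : W_31 (nat_lit 3) (nat_lit 0x12000d00028000c001000080000000000000000000000000000000) (nat_lit 0x0) (nat_lit 0x400012000900000000000000000000000000000000000) := T_31 (nat_lit 157) (nat_lit 140) (nat_lit 4) (nat_lit 5) (nat_lit 12) L87786 (by decide +kernel)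
theorem L87788 : W_31 (nat_lit 4) (nat_lit 0x12000d000280004001000080000000000000000000000000000000) (nat_lit 0x0) (nat_lit 0x40001a000d00000000000000000000000000000000000) := T_31 (nat_lit 159) (nat_lit 142) (nat_lit 6) (nat_lit 5) (nat_lit 12) L87787 (by decide +kernel)
theorem L87792 : W_31 (nat_lit 8) (nat_lit 0x10000d000280016001000080000000000000000000000000000000) (nat_lit 0x0) (nat_lit 0x100038001c000e00030000800040000000100000000000000000000000000000000000) := T_31 (nat_lit 209) (nat_lit 140) (nat_lit 4) (nat_lit 5) (nat_lit 12) L87457 (by decide +kernel)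
theorem L87793 : W_31 (nat_lit 9) (nat_lit 0x10000d000280006001000080000000000000000000000000000000) (nat_lit 0x0) (nat_lit 0x100038001c000e00030000800040010000900000000000000000000000000000000000) := T_31 (nat_lit 160) (nat_lit 143) (nat_lit 7) (nat_lit 7) (nat_lit 8) L87792 (by decide +kernel)
theorem L87801 : W_31 (nat_lit 10) (nat_lit 0x10000d000280004001000080000000000000000000000000000000) (nat_lit 0x0) (nat_lit 0x100038001c000e000b000080046001a000d80008000000000000000000000000000000) := Q_31 (nat_lit 157) (C_31 L87791 (C_31 L87793 (C_31 L87796 (C_31 L87800 N_31)))) (by decide +kernel)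
theorem L87806 : W_31 (nat_lit 2) (nat_lit 0x12000d00028001e001000080000000000000000000000000000000) (nat_lit 0x0) (nat_lit 0x400000000000060000000000000000000000000000000000000000000) := D_31 (nat_lit 174) (nat_lit 173) (nat_lit 226) (nat_lit 1) (nat_lit 7) (nat_lit 9) (nat_lit 4) (nat_lit 5) (nat_lit 13) (by decide +kernel)
theorem L87807 : W_31 (nat_lit 3) (nat_lit 0x12000d00028000e001000080000000000000000000000000000000) (nat_lit 0x0) (nat_lit 0x400000000000460010000000000000000000000000000000000000000) := T_31 (nat_lit 160) (nat_lit 178) (nat_lit 3) (nat_lit 4) (nat_lit 9) L87806 (by decide +kernel)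
theorem L87808 : W_31 (nat_lit 4) (nat_lit 0x12000d00028000c001000080000000000000000000000000000000) (nat_lit 0x0) (nat_lit 0x400000000000460012000100000000000000000000000000000000000) := T_31 (nat_lit 157) (nat_lit 140) (nat_lit 4) (nat_lit 5) (nat_lit 12) L87807 (by decide +kernel)
theorem L87809 : W_31 (nat_lit 5) (nat_lit 0x12000d000280004001000080000000000000000000000000000000) (nat_lit 0x0) (nat_lit 0x40000000000046001a000500000000000000000000000000000000000) := T_31 (nat_lit 159) (nat_lit 142) (nat_lit 6) (nat_lit 5) (nat_lit 12) L87808 (by decide +kernel)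
theorem L87810 : W_31 (nat_lit 4) (nat_lit 0x12000d000280004001000080000000000000000000000000000000) (nat_lit 0x0) (nat_lit 0x4000600010000000040002000100000000000000000000000000000000000) := T_31 (nat_lit 157) (nat_lit 140) (nat_lit 4) (nat_lit 5) (nat_lit 12) L87795 (by decide +kernel)
theorem L87811 : W_31 (nat_lit 6) (nat_lit 0x10000d000280004001000080000000000000000000000000000000) (nat_lit 0x0) (nat_lit 0x400060003000000046001a000f00128000000000000000000000000000000) := Q_31 (nat_lit 209) (C_31 L87805 (C_31 L87788 (C_31 L87809 (C_31 L87487 (C_31 L87810 N_31))))) (by decide +kernel)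
theorem L87814 : W_31 (nat_lit 6) (nat_lit 0x10000d000280004001000080000000000000000000000000000000) (nat_lit 0x0) (nat_lit 0x400060003000000046001a000f00120000000000000000000000000000000) := Q_31 (nat_lit 209) (C_31 L87805 (C_31 L87810 (C_31 L87809 N_31))) (by decide +kernel)
theorem L87816 : W_31 (nat_lit 13) (nat_lit 0x10000d000280000001000080000000000000000000000000000000) (nat_lit 0x0) (nat_lit 0x100038001c000e000b8000c0046001fc00fe013f001c000e0000000000000000000000) := Q_31 (nat_lit 158) (C_31 L87767 (C_31 L87784 (C_31 L87785 (C_31 L87437 (C_31 L87801 (C_31 L87811 (C_31 L87812 (C_31 L87813 (C_31 L87814 (C_31 L87815 N_31)))))))))) (by decide +kernel)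
theorem L87817 : W_31 (nat_lit 14) (nat_lit 0x10000c000280000001000080000000000000000000000000000000) (nat_lit 0x0) (nat_lit 0x100038001c000e002b8003c0046001fc00fe013f001c000e0000000000000000000000) := Q_31 (nat_lit 192) (C_31 L87816 (C_31 L87525 (C_31 L87523 N_31))) (by decide +kernel)
theorem L87818 : W_31 (nat_lit 2) (nat_lit 0x10000f000280010001000080000000000000000000000000000000) (nat_lit 0x0) (nat_lit 0x800c00000000000000000000000000000000000000000000) := D_31 (nat_lit 178) (nat_lit 179) (nat_lit 191) (nat_lit 2) (nat_lit 5) (nat_lit 11) (nat_lit 2) (nat_lit 4) (nat_lit 11) (by decide +kernel)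
theorem L87819 : W_31 (nat_lit 3) (nat_lit 0x10000d000280010001000080000000000000000000000000000000) (nat_lit 0x0) (nat_lit 0x200002800c00000000000000000000000000000000000000000000) := T_31 (nat_lit 193) (nat_lit 213) (nat_lit 3) (nat_lit 5) (nat_lit 11) L87818 (by decide +kernel)
theorem L87820 : W_31 (nat_lit 4) (nat_lit 0x10000d000280000001000080000000000000000000000000000000) (nat_lit 0x0) (nat_lit 0x200002800c00010000800000000000000000000000000000000000) := T_31 (nat_lit 160) (nat_lit 143) (nat_lit 7) (nat_lit 7) (nat_lit 8) L87819 (by decide +kernel)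
theorem L87821 : W_31 (nat_lit 8) (nat_lit 0x10000c000280000001000080000000000000000000000000000000) (nat_lit 0x0) (nat_lit 0x200003803d401de000800000000000000000000000000000000000) := Q_31 (nat_lit 192) (C_31 L87748 (C_31 L87523 (C_31 L87820 N_31))) (by decide +kernel)
theorem L87832 : W_31 (nat_lit 2) (nat_lit 0x1400040012000da00380004001300080000000000000000000000000000000) (nat_lit 0x0) (nat_lit 0x280008000000000000000000000000000000000000000000000000000000000000) := D_31 (nat_lit 243) (nat_lit 259) (nat_lit 261) (nat_lit 5) (nat_lit 5) (nat_lit 11) (nat_lit 7) (nat_lit 5) (nat_lit 11) (by decide +kernel)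
theorem L87833 : W_31 (nat_lit 3) (nat_lit 0x400040012000da00380004001300080000000000000000000000000000000) (nat_lit 0x0) (nat_lit 0x280018000800000000000000000000000000000000000000000000000000000000) := T_31 (nat_lit 244) (nat_lit 227) (nat_lit 7) (nat_lit 5) (nat_lit 10) L87832 (by decide +kernel)
theorem L87834 : W_31 (nat_lit 4) (nat_lit 0x40012000da00380004001300080000000000000000000000000000000) (nat_lit 0x0) (nat_lit 0x28001c000a00000000000000000000000000000000000000000000000000000000) := T_31 (nat_lit 242) (nat_lit 225) (nat_lit 5) (nat_lit 5) (nat_lit 10) L87833 (by decide +kernel)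
theorem L87835 : W_31 (nat_lit 5) (nat_lit 0x12000da00380004001300080000000000000000000000000000000) (nat_lit 0x0) (nat_lit 0x28001c000e00000000000000008000000000000000000000000000000000000000) := T_31 (nat_lit 226) (nat_lit 159) (nat_lit 6) (nat_lit 5) (nat_lit 13) L87834 (by decide +kernel)
theorem L87836 : W_31 (nat_lit 6) (nat_lit 0x12000d800380004001300080000000000000000000000000000000) (nat_lit 0x0) (nat_lit 0x28001c000e00000000600000008000000000000000000000000000000000000000) := T_31 (nat_lit 189) (nat_lit 190) (nat_lit 2) (nat_lit 2) (nat_lit 11) L87835 (by decide +kernel)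
theorem L87837 : W_31 (nat_lit 7) (nat_lit 0x10000d800380004001300080000000000000000000000000000000) (nat_lit 0x0) (nat_lit 0x28001c000e0002000060000000a000000000000000000000000000000000000000) := T_31 (nat_lit 209) (nat_lit 157) (nat_lit 4) (nat_lit 5) (nat_lit 12) L87836 (by decide +kernel)
theorem L87838 : W_31 (nat_lit 8) (nat_lit 0x10000d800280004001300080000000000000000000000000000000) (nat_lit 0x0) (nat_lit 0x28001c000e0002000060050000a000000000000000000000000000000000000000) := T_31 (nat_lit 176) (nat_lit 178) (nat_lit 1) (nat_lit 8) (nat_lit 10) L87837 (by decide +kernel)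
theorem L87839 : W_31 (nat_lit 9) (nat_lit 0x10000d000280004001300080000000000000000000000000000000) (nat_lit 0x0) (nat_lit 0x28001c000e00030000e0050000a000000000000000000000000000000000000000) := T_31 (nat_lit 191) (nat_lit 208) (nat_lit 5) (nat_lit 5) (nat_lit 8) L87838 (by decide +kernel)
theorem L87840 : W_31 (nat_lit 10) (nat_lit 0x10000d000280004001200080000000000000000000000000000000) (nat_lit 0x0) (nat_lit 0x28001c000e00030000e0050000a000100008000000000000000000000000000000) := T_31 (nat_lit 140) (nat_lit 123) (nat_lit 4) (nat_lit 5) (nat_lit 11) L87839 (by decide +kernel)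
theorem L87841 : W_31 (nat_lit 2) (nat_lit 0x10000d80068000c001700080000000000000000000000000000000) (nat_lit 0x0) (nat_lit 0x80000000000010000080000000000000000000000000000000000) := D_31 (nat_lit 160) (nat_lit 211) (nat_lit 139) (nat_lit 4) (nat_lit 7) (nat_lit 12) (nat_lit 3) (nat_lit 3) (nat_lit 8) (by decide +kernel)
theorem L87842 : W_31 (nat_lit 3) (nat_lit 0x10000d800680004001700080000000000000000000000000000000) (nat_lit 0x0) (nat_lit 0xa0000000000018000080000000000000000000000000000000000) := T_31 (nat_lit 159) (nat_lit 209) (nat_lit 6) (nat_lit 5) (nat_lit 12) L87841 (by decide +kernel)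
theorem L87843 : W_31 (nat_lit 4) (nat_lit 0x10000d800280004001700080000000000000000000000000000000) (nat_lit 0x0) (nat_lit 0xa0000000500018000080000000000000000000000000000000000) := T_31 (nat_lit 178) (nat_lit 176) (nat_lit 1) (nat_lit 8) (nat_lit 10) L87842 (by decide +kernel)
theorem L87844 : W_31 (nat_lit 5) (nat_lit 0x10000d000280004001700080000000000000000000000000000000) (nat_lit 0x0) (nat_lit 0xb0000800500018000080000000000000000000000000000000000) := T_31 (nat_lit 191) (nat_lit 208) (nat_lit 5) (nat_lit 5) (nat_lit 8) L87843 (by decide +kernel)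
theorem L87845 : W_31 (nat_lit 6) (nat_lit 0x10000d000280004001300080000000000000000000000000000000) (nat_lit 0x0) (nat_lit 0xb0000800500018000480020000000000000000000000000000000) := T_31 (nat_lit 142) (nat_lit 125) (nat_lit 6) (nat_lit 5) (nat_lit 11) L87844 (by decide +kernel)
theorem L87846 : W_31 (nat_lit 7) (nat_lit 0x10000d000280004001200080000000000000000000000000000000) (nat_lit 0x0) (nat_lit 0xb0000800500018000580028000000000000000000000000000000) := T_31 (nat_lit 140) (nat_lit 123) (nat_lit 4) (nat_lit 5) (nat_lit 11) L87845 (by decide +kernel)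
theorem L87847 : W_31 (nat_lit 2) (nat_lit 0x10000d80038000c00160009a000000000000000000000000000000) (nat_lit 0x0) (nat_lit 0x1000080000000000010000000000000000000000000000000000000000) := D_31 (nat_lit 211) (nat_lit 228) (nat_lit 160) (nat_lit 4) (nat_lit 7) (nat_lit 13) (nat_lit 4) (nat_lit 7) (nat_lit 12) (by decide +kernel)
theorem L87848 : W_31 (nat_lit 3) (nat_lit 0x10000d80038000400160009a000000000000000000000000000000) (nat_lit 0x0) (nat_lit 0x1000080000000000018000000000000800000000000000000000000000) := T_31 (nat_lit 159) (nat_lit 107) (nat_lit 7) (nat_lit 5) (nat_lit 6) L87847 (by decide +kernel)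
theorem L87849 : W_31 (nat_lit 4) (nat_lit 0x10000d800380004001600098000000000000000000000000000000) (nat_lit 0x0) (nat_lit 0x1000080000000000018000000006000800000000000000000000000000) := T_31 (nat_lit 121) (nat_lit 122) (nat_lit 3) (nat_lit 2) (nat_lit 7) L87848 (by decide +kernel)
theorem L87850 : W_31 (nat_lit 5) (nat_lit 0x10000d800380004001600088000000000000000000000000000000) (nat_lit 0x0) (nat_lit 0x1000080000000000018000000016000c00000000000000000000000000) := T_31 (nat_lit 124) (nat_lit 106) (nat_lit 4) (nat_lit 5) (nat_lit 10) L87849 (by decide +kernel)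
theorem L87851 : W_31 (nat_lit 6) (nat_lit 0x10000d800280004001600088000000000000000000000000000000) (nat_lit 0x0) (nat_lit 0x1000080000000500018000000016000c00000000000000000000000000) := T_31 (nat_lit 176) (nat_lit 178) (nat_lit 1) (nat_lit 8) (nat_lit 10) L87850 (by decide +kernel)
theorem L87852 : W_31 (nat_lit 7) (nat_lit 0x10000d000280004001600088000000000000000000000000000000) (nat_lit 0x0) (nat_lit 0x1000090000800500018000000016000c00000000000000000000000000) := T_31 (nat_lit 191) (nat_lit 208) (nat_lit 5) (nat_lit 5) (nat_lit 8) L87851 (by decide +kernel)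
theorem L87853 : W_31 (nat_lit 8) (nat_lit 0x10000d000280004001600080000000000000000000000000000000) (nat_lit 0x0) (nat_lit 0x100009000080050001800010001e000c00000000000000000000000000) := T_31 (nat_lit 123) (nat_lit 140) (nat_lit 4) (nat_lit 5) (nat_lit 11) L87852 (by decide +kernel)
theorem L87854 : W_31 (nat_lit 9) (nat_lit 0x10000d000280004001200080000000000000000000000000000000) (nat_lit 0x0) (nat_lit 0x100009000080050001800050003e000c00000000000000000000000000) := T_31 (nat_lit 142) (nat_lit 125) (nat_lit 6) (nat_lit 5) (nat_lit 11) L87853 (by decide +kernel)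
theorem L87855 : W_31 (nat_lit 2) (nat_lit 0x10000d000280004001700080000000000000000000000000000000) (nat_lit 0x0) (nat_lit 0x2000000000000a000000000000000000000000000000000000000) := D_31 (nat_lit 209) (nat_lit 159) (nat_lit 157) (nat_lit 6) (nat_lit 5) (nat_lit 12) (nat_lit 4) (nat_lit 5) (nat_lit 12) (by decide +kernel)
theorem L87856 : W_31 (nat_lit 3) (nat_lit 0x10000d000280004001600080000000000000000000000000000000) (nat_lit 0x0) (nat_lit 0x2000000000000a000100008000000000000000000000000000000) := T_31 (nat_lit 140) (nat_lit 123) (nat_lit 4) (nat_lit 5) (nat_lit 11) L87855 (by decide +kernel)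
theorem L87857 : W_31 (nat_lit 4) (nat_lit 0x10000d000280004001200080000000000000000000000000000000) (nat_lit 0x0) (nat_lit 0x2000000000000a000500028000000000000000000000000000000) := T_31 (nat_lit 142) (nat_lit 125) (nat_lit 6) (nat_lit 5) (nat_lit 11) L87856 (by decide +kernel)
theorem L87858 : W_31 (nat_lit 2) (nat_lit 0x10000d80068000c001600080000000000000000000000000000000) (nat_lit 0x0) (nat_lit 0x80000000000012000000000000000000000000000000000000000) := D_31 (nat_lit 160) (nat_lit 211) (nat_lit 157) (nat_lit 4) (nat_lit 7) (nat_lit 12) (nat_lit 3) (nat_lit 4) (nat_lit 9) (by decide +kernel)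
theorem L87859 : W_31 (nat_lit 3) (nat_lit 0x10000d800680004001600080000000000000000000000000000000) (nat_lit 0x0) (nat_lit 0xa000000000001a000000000000000000000000000000000000000) := T_31 (nat_lit 159) (nat_lit 209) (nat_lit 6) (nat_lit 5) (nat_lit 12) L87858 (by decide +kernel)
theorem L87860 : W_31 (nat_lit 4) (nat_lit 0x10000d800280004001600080000000000000000000000000000000) (nat_lit 0x0) (nat_lit 0xa000000050001a000000000000000000000000000000000000000) := T_31 (nat_lit 178) (nat_lit 176) (nat_lit 1) (nat_lit 8) (nat_lit 10) L87859 (by decide +kernel)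
theorem L87861 : W_31 (nat_lit 5) (nat_lit 0x10000d000280004001600080000000000000000000000000000000) (nat_lit 0x0) (nat_lit 0xb000080050001a000000000000000000000000000000000000000) := T_31 (nat_lit 191) (nat_lit 208) (nat_lit 5) (nat_lit 5) (nat_lit 8) L87860 (by decide +kernel)
theorem L87862 : W_31 (nat_lit 6) (nat_lit 0x10000d000280004001200080000000000000000000000000000000) (nat_lit 0x0) (nat_lit 0xb000080050001a000400020000000000000000000000000000000) := T_31 (nat_lit 142) (nat_lit 125) (nat_lit 6) (nat_lit 5) (nat_lit 11) L87861 (by decide +kernel)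
theorem L87863 : W_31 (nat_lit 11) (nat_lit 0x10000d000280004001000080000000000000000000000000000000) (nat_lit 0x0) (nat_lit 0x28001c001e000b0000e0050001a00078003e000c00000000000000000000000000) := Q_31 (nat_lit 141) (C_31 L87840 (C_31 L87846 (C_31 L87427 (C_31 L87854 (C_31 L87857 (C_31 L87862 N_31)))))) (by decide +kernel)
theorem L87866 : W_31 (nat_lit 4) (nat_lit 0x10000d000280004001700080000000000000000000000000000000) (nat_lit 0x0) (nat_lit 0x200030000800000008000800100000000000000000000000000000000) := T_31 (nat_lit 143) (nat_lit 128) (nat_lit 2) (nat_lit 5) (nat_lit 8) L87865 (by decide +kernel)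
theorem L87867 : W_31 (nat_lit 5) (nat_lit 0x10000d000280004001300080000000000000000000000000000000) (nat_lit 0x0) (nat_lit 0x200030000800000008000c00120000000000000000000000000000000) := T_31 (nat_lit 142) (nat_lit 125) (nat_lit 6) (nat_lit 5) (nat_lit 11) L87866 (by decide +kernel)
theorem L87868 : W_31 (nat_lit 6) (nat_lit 0x10000d000280004001200080000000000000000000000000000000) (nat_lit 0x0) (nat_lit 0x200030000800000008000d00128000000000000000000000000000000) := T_31 (nat_lit 140) (nat_lit 123) (nat_lit 4) (nat_lit 5) (nat_lit 11) L87867 (by decide +kernel)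
theorem L87874 : W_31 (nat_lit 11) (nat_lit 0x10000d000280004001000080000000000000000000000000000000) (nat_lit 0x0) (nat_lit 0x28001c000e00030000e0050000a000f00138001400000000000000000000000000) := Q_31 (nat_lit 141) (C_31 L87840 (C_31 L87868 (C_31 L87427 (C_31 L87869 (C_31 L87857 (C_31 L87873 N_31)))))) (by decide +kernel)
theorem L87891 : W_31 (nat_lit 2) (nat_lit 0x8001800040013000d00028001e001000080000000000000000000000000000000) (nat_lit 0x0) (nat_lit 0x1000100000000000000000800000000000000000000000000000000000000000000000) := D_31 (nat_lit 260) (nat_lit 191) (nat_lit 276) (nat_lit 4) (nat_lit 5) (nat_lit 15) (nat_lit 5) (nat_lit 5) (nat_lit 12) (by decide +kernel)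
theorem L87892 : W_31 (nat_lit 3) (nat_lit 0x1800040013000d00028001e001000080000000000000000000000000000000) (nat_lit 0x0) (nat_lit 0x1000180004000000000000800000000000000000000000000000000000000000000000) := T_31 (nat_lit 259) (nat_lit 242) (nat_lit 5) (nat_lit 5) (nat_lit 11) L87891 (by decide +kernel)
theorem L87893 : W_31 (nat_lit 4) (nat_lit 0x1000040013000d00028001e001000080000000000000000000000000000000) (nat_lit 0x0) (nat_lit 0x100038000c000000000000800000000000000000000000000000000000000000000000) := T_31 (nat_lit 243) (nat_lit 261) (nat_lit 7) (nat_lit 5) (nat_lit 11) L87892 (by decide +kernel)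
theorem L87894 : W_31 (nat_lit 5) (nat_lit 0x40013000d00028001e001000080000000000000000000000000000000) (nat_lit 0x0) (nat_lit 0x100038001c000800000000800000000000000000000000000000000000000000000000) := T_31 (nat_lit 244) (nat_lit 227) (nat_lit 7) (nat_lit 5) (nat_lit 10) L87893 (by decide +kernel)
theorem L87895 : W_31 (nat_lit 6) (nat_lit 0x40013000d00028000e001000080000000000000000000000000000000) (nat_lit 0x0) (nat_lit 0x100038001c000800000000800400010000000000000000000000000000000000000000) := T_31 (nat_lit 160) (nat_lit 178) (nat_lit 3) (nat_lit 4) (nat_lit 9) L87894 (by decide +kernel)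
theorem L87896 : W_31 (nat_lit 7) (nat_lit 0x40013000d00028000c001000080000000000000000000000000000000) (nat_lit 0x0) (nat_lit 0x100038001c000800000000800400012000100000000000000000000000000000000000) := T_31 (nat_lit 157) (nat_lit 140) (nat_lit 4) (nat_lit 5) (nat_lit 12) L87895 (by decide +kernel)
theorem L87897 : W_31 (nat_lit 8) (nat_lit 0x13000d00028000c001000080000000000000000000000000000000) (nat_lit 0x0) (nat_lit 0x100038001c000c00000000800500012000100000000000000000000000000000000000) := T_31 (nat_lit 226) (nat_lit 176) (nat_lit 6) (nat_lit 5) (nat_lit 13) L87896 (by decide +kernel)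
theorem L87898 : W_31 (nat_lit 9) (nat_lit 0x12000d00028000c001000080000000000000000000000000000000) (nat_lit 0x0) (nat_lit 0x100038001c000e00010000800500012000100000000000000000000000000000000000) := T_31 (nat_lit 208) (nat_lit 225) (nat_lit 5) (nat_lit 5) (nat_lit 9) L87897 (by decide +kernel)
theorem L87901 : W_31 (nat_lit 10) (nat_lit 0x10000d00028000c001000080000000000000000000000000000000) (nat_lit 0x0) (nat_lit 0x100038001c000e00030000800500012000500000000000000000000000000000000000) := T_31 (nat_lit 209) (nat_lit 142) (nat_lit 6) (nat_lit 5) (nat_lit 12) L87898 (by decide +kernel)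
theorem L87902 : W_31 (nat_lit 2) (nat_lit 0x8001800040013000d00028000e001000080000000000000000000000000000000) (nat_lit 0x0) (nat_lit 0x1000100000000000000000800000000000000000000000000000000000000000000000) := D_31 (nat_lit 260) (nat_lit 191) (nat_lit 276) (nat_lit 4) (nat_lit 5) (nat_lit 15) (nat_lit 5) (nat_lit 5) (nat_lit 12) (by decide +kernel)
theorem L87903 : W_31 (nat_lit 3) (nat_lit 0x1800040013000d00028000e001000080000000000000000000000000000000) (nat_lit 0x0) (nat_lit 0x1000180004000000000000800000000000000000000000000000000000000000000000) := T_31 (nat_lit 259) (nat_lit 242) (nat_lit 5) (nat_lit 5) (nat_lit 11) L87902 (by decide +kernel)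
theorem L87904 : W_31 (nat_lit 4) (nat_lit 0x1000040013000d00028000e001000080000000000000000000000000000000) (nat_lit 0x0) (nat_lit 0x100038000c000000000000800000000000000000000000000000000000000000000000) := T_31 (nat_lit 243) (nat_lit 261) (nat_lit 7) (nat_lit 5) (nat_lit 11) L87903 (by decide +kernel)
theorem L87905 : W_31 (nat_lit 5) (nat_lit 0x40013000d00028000e001000080000000000000000000000000000000) (nat_lit 0x0) (nat_lit 0x100038001c000800000000800000000000000000000000000000000000000000000000) := T_31 (nat_lit 244) (nat_lit 227) (nat_lit 7) (nat_lit 5) (nat_lit 10) L87904 (by decide +kernel)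
theorem L87906 : W_31 (nat_lit 6) (nat_lit 0x40013000d00028000c001000080000000000000000000000000000000) (nat_lit 0x0) (nat_lit 0x100038001c000800000000800000002000100000000000000000000000000000000000) := T_31 (nat_lit 157) (nat_lit 140) (nat_lit 4) (nat_lit 5) (nat_lit 12) L87905 (by decide +kernel)
theorem L87907 : W_31 (nat_lit 7) (nat_lit 0x13000d00028000c001000080000000000000000000000000000000) (nat_lit 0x0) (nat_lit 0x100038001c000c00000000800100002000100000000000000000000000000000000000) := T_31 (nat_lit 226) (nat_lit 176) (nat_lit 6) (nat_lit 5) (nat_lit 13) L87906 (by decide +kernel)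
theorem L87908 : W_31 (nat_lit 8) (nat_lit 0x12000d00028000c001000080000000000000000000000000000000) (nat_lit 0x0) (nat_lit 0x100038001c000e00010000800100002000100000000000000000000000000000000000) := T_31 (nat_lit 208) (nat_lit 225) (nat_lit 5) (nat_lit 5) (nat_lit 9) L87907 (by decide +kernel)
theorem L87909 : W_31 (nat_lit 9) (nat_lit 0x10000d00028000c001000080000000000000000000000000000000) (nat_lit 0x0) (nat_lit 0x100038001c000e00030000800100002000500000000000000000000000000000000000) := T_31 (nat_lit 209) (nat_lit 142) (nat_lit 6) (nat_lit 5) (nat_lit 12) L87908 (by decide +kernel)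
theorem L87917 : W_31 (nat_lit 11) (nat_lit 0x10000d000280004001000080000000000000000000000000000000) (nat_lit 0x0) (nat_lit 0x100038001c001e000b000080050001b000d80000000000000000000000000000000000) := Q_31 (nat_lit 159) (C_31 L87900 (C_31 L87901 (C_31 L87909 (C_31 L87912 (C_31 L87916 N_31))))) (by decide +kernel)
theorem L87933 : W_31 (nat_lit 12) (nat_lit 0x10000d000280000001000080000000000000000000000000000000) (nat_lit 0x0) (nat_lit 0x100038001c001e000b0000e0050001f000f8013e001c00080000000000000000000000) := Q_31 (nat_lit 158) (C_31 L87437 (C_31 L87831 (C_31 L87863 (C_31 L87874 (C_31 L87877 (C_31 L87886 (C_31 L87917 (C_31 L87924 (C_31 L87932 N_31))))))))) (by decide +kernel)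
theorem L87934 : W_31 (nat_lit 2) (nat_lit 0x10000f800280000001800080000000000000000000000000000000) (nat_lit 0x0) (nat_lit 0x38000000000000000000000000000000000000000000000000000) := D_31 (nat_lit 208) (nat_lit 209) (nat_lit 207) (nat_lit 1) (nat_lit 8) (nat_lit 11) (nat_lit 1) (nat_lit 7) (nat_lit 11) (by decide +kernel)
theorem L87935 : W_31 (nat_lit 3) (nat_lit 0x10000f000280000001800080000000000000000000000000000000) (nat_lit 0x0) (nat_lit 0xb8000800000000000000000000000000000000000000000000000) := T_31 (nat_lit 191) (nat_lit 211) (nat_lit 3) (nat_lit 4) (nat_lit 11) L87934 (by decide +kernel)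
theorem L87936 : W_31 (nat_lit 4) (nat_lit 0x10000d000280000001800080000000000000000000000000000000) (nat_lit 0x0) (nat_lit 0x2b8002800000000000000000000000000000000000000000000000) := T_31 (nat_lit 193) (nat_lit 213) (nat_lit 3) (nat_lit 5) (nat_lit 11) L87935 (by decide +kernel)
theorem L87937 : W_31 (nat_lit 5) (nat_lit 0x10000d000280000001000080000000000000000000000000000000) (nat_lit 0x0) (nat_lit 0x2b8002800000010000800000000000000000000000000000000000) := T_31 (nat_lit 143) (nat_lit 160) (nat_lit 7) (nat_lit 7) (nat_lit 8) L87936 (by decide +kernel)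
theorem L87946 : W_31 (nat_lit 2) (nat_lit 0x1e0012000f000280000001000080000000000000000000000000000000) (nat_lit 0x0) (nat_lit 0x8000000000000000100008000000000000000000000000000000000000000) := D_31 (nat_lit 176) (nat_lit 159) (nat_lit 243) (nat_lit 6) (nat_lit 5) (nat_lit 13) (nat_lit 6) (nat_lit 5) (nat_lit 14) (by decide +kernel)
theorem L87947 : W_31 (nat_lit 3) (nat_lit 0x1e0012000d000280000001000080000000000000000000000000000000) (nat_lit 0x0) (nat_lit 0x8000000200002000100008000000000000000000000000000000000000000) := T_31 (nat_lit 193) (nat_lit 213) (nat_lit 3) (nat_lit 5) (nat_lit 11) L87946 (by decide +kernel)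
theorem L87948 : W_31 (nat_lit 4) (nat_lit 0xe0012000d000280000001000080000000000000000000000000000000) (nat_lit 0x0) (nat_lit 0x8001000280002000100008000000000000000000000000000000000000000) := T_31 (nat_lit 228) (nat_lit 211) (nat_lit 2) (nat_lit 4) (nat_lit 13) L87947 (by decide +kernel)
theorem L87949 : W_31 (nat_lit 5) (nat_lit 0xc0012000d000280000001000080000000000000000000000000000000) (nat_lit 0x0) (nat_lit 0xc001200280002000100008000000000000000000000000000000000000000) := T_31 (nat_lit 225) (nat_lit 242) (nat_lit 5) (nat_lit 5) (nat_lit 10) L87948 (by decide +kernel)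
theorem L87950 : W_31 (nat_lit 6) (nat_lit 0x40012000d000280000001000080000000000000000000000000000000) (nat_lit 0x0) (nat_lit 0x1c001a00280002000100008000000000000000000000000000000000000000) := T_31 (nat_lit 227) (nat_lit 244) (nat_lit 7) (nat_lit 5) (nat_lit 10) L87949 (by decide +kernel)
theorem L87951 : W_31 (nat_lit 2) (nat_lit 0x40012000f000280000001000080000000000000000000000000000000) (nat_lit 0x0) (nat_lit 0x8000000000000000100008000000000000000000000000000000000000000) := D_31 (nat_lit 176) (nat_lit 159) (nat_lit 243) (nat_lit 6) (nat_lit 5) (nat_lit 13) (nat_lit 6) (nat_lit 5) (nat_lit 14) (by decide +kernel)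
theorem L87952 : W_31 (nat_lit 3) (nat_lit 0x40012000d000280000001000080000000000000000000000000000000) (nat_lit 0x0) (nat_lit 0x8000000200002000100008000000000000000000000000000000000000000) := T_31 (nat_lit 193) (nat_lit 213) (nat_lit 3) (nat_lit 5) (nat_lit 11) L87951 (by decide +kernel)
theorem L87953 : W_31 (nat_lit 2) (nat_lit 0x1e0012000f000680018001000080000000000000000000000000000000) (nat_lit 0x0) (nat_lit 0x6000400000000000000000000000000000000000) := D_31 (nat_lit 158) (nat_lit 142) (nat_lit 157) (nat_lit 6) (nat_lit 5) (nat_lit 12) (nat_lit 3) (nat_lit 4) (nat_lit 9) (by decide +kernel)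
theorem L87954 : W_31 (nat_lit 3) (nat_lit 0x1e0012000f000680010001000080000000000000000000000000000000) (nat_lit 0x0) (nat_lit 0x10000e000400000000000000000000000000000000000) := T_31 (nat_lit 159) (nat_lit 176) (nat_lit 6) (nat_lit 5) (nat_lit 13) L87953 (by decide +kernel)
theorem L87955 : W_31 (nat_lit 4) (nat_lit 0xe0012000f000680010001000080000000000000000000000000000000) (nat_lit 0x0) (nat_lit 0x100008000000010000e000400000000000000000000000000000000000) := T_31 (nat_lit 228) (nat_lit 211) (nat_lit 2) (nat_lit 4) (nat_lit 13) L87954 (by decide +kernel)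
theorem L87956 : W_31 (nat_lit 5) (nat_lit 0xc0012000f000680010001000080000000000000000000000000000000) (nat_lit 0x0) (nat_lit 0x400120008000000010000e000400000000000000000000000000000000000) := T_31 (nat_lit 225) (nat_lit 242) (nat_lit 5) (nat_lit 5) (nat_lit 10) L87955 (by decide +kernel)
theorem L87957 : W_31 (nat_lit 6) (nat_lit 0xc0012000f000680000001000080000000000000000000000000000000) (nat_lit 0x0) (nat_lit 0x400120008000000010001e000c00000000000000000000000000000000000) := T_31 (nat_lit 160) (nat_lit 143) (nat_lit 7) (nat_lit 7) (nat_lit 8) L87956 (by decide +kernel)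
theorem L87958 : W_31 (nat_lit 7) (nat_lit 0x40012000f000680000001000080000000000000000000000000000000) (nat_lit 0x0) (nat_lit 0x14001a0008000000010001e000c00000000000000000000000000000000000) := T_31 (nat_lit 227) (nat_lit 244) (nat_lit 7) (nat_lit 5) (nat_lit 10) L87957 (by decide +kernel)
theorem L87959 : W_31 (nat_lit 8) (nat_lit 0x40012000f000280000001000080000000000000000000000000000000) (nat_lit 0x0) (nat_lit 0x14001a00080000000d0001e000c00000000000000000000000000000000000) := T_31 (nat_lit 178) (nat_lit 179) (nat_lit 2) (nat_lit 5) (nat_lit 11) L87958 (by decide +kernel)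
theorem L87960 : W_31 (nat_lit 9) (nat_lit 0x40012000d000280000001000080000000000000000000000000000000) (nat_lit 0x0) (nat_lit 0x14001a00280002000d0001e000c00000000000000000000000000000000000) := T_31 (nat_lit 193) (nat_lit 213) (nat_lit 3) (nat_lit 5) (nat_lit 11) L87959 (by decide +kernel)
theorem L87961 : W_31 (nat_lit 10) (nat_lit 0x12000d000280000001000080000000000000000000000000000000) (nat_lit 0x0) (nat_lit 0x28001c001e00280002000d0001e000c00000000000000000000000000000000000) := Q_31 (nat_lit 226) (C_31 L87466 (C_31 L87950 (C_31 L87952 (C_31 L87960 N_31)))) (by decide +kernel)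
theorem L87962 : W_31 (nat_lit 11) (nat_lit 0x10000d000280000001000080000000000000000000000000000000) (nat_lit 0x0) (nat_lit 0x28001c001e002b0002000d0001f000f00128000000000000000000000000000000) := Q_31 (nat_lit 209) (C_31 L87938 (C_31 L87945 (C_31 L87961 N_31))) (by decide +kernel)
theorem L87963 : W_31 (nat_lit 13) (nat_lit 0x10000c000280000001000080000000000000000000000000000000) (nat_lit 0x0) (nat_lit 0x100038001c001e002b8003e00d0001f000f8013e001c00080000000000000000000000) := Q_31 (nat_lit 192) (C_31 L87933 (C_31 L87820 (C_31 L87937 (C_31 L87525 (C_31 L87962 N_31))))) (by decide +kernel)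
theorem L87964 : W_31 (nat_lit 2) (nat_lit 0x10000e0002c0002001e00088000000000000000000000000000000) (nat_lit 0x0) (nat_lit 0x1000100004000000000000000000000000000000) := D_31 (nat_lit 140) (nat_lit 156) (nat_lit 122) (nat_lit 1) (nat_lit 7) (nat_lit 8) (nat_lit 0) (nat_lit 7) (nat_lit 8) (by decide +kernel)
theorem L87965 : W_31 (nat_lit 3) (nat_lit 0x10000e0002c0002001e00080000000000000000000000000000000) (nat_lit 0x0) (nat_lit 0x100010001c000000000000000000000000000000) := T_31 (nat_lit 123) (nat_lit 124) (nat_lit 0) (nat_lit 8) (nat_lit 8) L87964 (by decide +kernel)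
theorem L87966 : W_31 (nat_lit 4) (nat_lit 0x10000e0002c0000001e00080000000000000000000000000000000) (nat_lit 0x0) (nat_lit 0x700010001c000000000000000000000000000000) := T_31 (nat_lit 157) (nat_lit 158) (nat_lit 1) (nat_lit 8) (nat_lit 8) L87965 (by decide +kernel)
theorem L87967 : W_31 (nat_lit 5) (nat_lit 0x10000e0002c0000001c00080000000000000000000000000000000) (nat_lit 0x0) (nat_lit 0x700030011c000000000000000000000000000000) := T_31 (nat_lit 141) (nat_lit 128) (nat_lit 2) (nat_lit 5) (nat_lit 8) L87966 (by decide +kernel)
theorem L87968 : W_31 (nat_lit 6) (nat_lit 0x10000e000280000001c00080000000000000000000000000000000) (nat_lit 0x0) (nat_lit 0x14000700030011c000000000000000000000000000000) := T_31 (nat_lit 174) (nat_lit 176) (nat_lit 3) (nat_lit 4) (nat_lit 10) L87967 (by decide +kernel)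
theorem L87969 : W_31 (nat_lit 7) (nat_lit 0x10000e000280000001400080000000000000000000000000000000) (nat_lit 0x0) (nat_lit 0x140017000b0011c000000000000000000000000000000) := T_31 (nat_lit 143) (nat_lit 160) (nat_lit 7) (nat_lit 7) (nat_lit 8) L87968 (by decide +kernel)
theorem L87970 : W_31 (nat_lit 5) (nat_lit 0x10000e000280000001c00080000000000000000000000000000000) (nat_lit 0x0) (nat_lit 0x700030011c000000000000000000000000000000) := T_31 (nat_lit 141) (nat_lit 128) (nat_lit 2) (nat_lit 5) (nat_lit 8) L87376 (by decide +kernel)
theorem L87971 : W_31 (nat_lit 6) (nat_lit 0x10000e000280000001400080000000000000000000000000000000) (nat_lit 0x0) (nat_lit 0x17000b0011c000000000000000000000000000000) := T_31 (nat_lit 143) (nat_lit 160) (nat_lit 7) (nat_lit 7) (nat_lit 8) L87970 (by decide +kernel)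
theorem L87972 : W_31 (nat_lit 2) (nat_lit 0x10000e000280018001400080000000000000000000000000000000) (nat_lit 0x0) (nat_lit 0x140000000000020000000000000000000000000000000) := D_31 (nat_lit 176) (nat_lit 174) (nat_lit 125) (nat_lit 3) (nat_lit 4) (nat_lit 10) (nat_lit 7) (nat_lit 6) (nat_lit 7) (by decide +kernel)
theorem L87973 : W_31 (nat_lit 3) (nat_lit 0x10000e000280010001400080000000000000000000000000000000) (nat_lit 0x0) (nat_lit 0x80000000140008000000020000000000000000000000000000000) := T_31 (nat_lit 159) (nat_lit 211) (nat_lit 4) (nat_lit 7) (nat_lit 12) L87972 (by decide +kernel)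
theorem L87974 : W_31 (nat_lit 4) (nat_lit 0x10000e000280000001400080000000000000000000000000000000) (nat_lit 0x0) (nat_lit 0x80000000140018000800020000000000000000000000000000000) := T_31 (nat_lit 160) (nat_lit 143) (nat_lit 7) (nat_lit 7) (nat_lit 8) L87973 (by decide +kernel)
theorem L87975 : W_31 (nat_lit 3) (nat_lit 0x10000e000280000001400080000000000000000000000000000000) (nat_lit 0x0) (nat_lit 0x80000000140008000000020000000000000000000000000000000) := T_31 (nat_lit 176) (nat_lit 174) (nat_lit 3) (nat_lit 4) (nat_lit 10) L82855 (by decide +kernel)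
theorem L87976 : W_31 (nat_lit 8) (nat_lit 0x10000e000280000001000080000000000000000000000000000000) (nat_lit 0x0) (nat_lit 0x8000000014001f000f0013c000000000000000000000000000000) := Q_31 (nat_lit 142) (C_31 L87969 (C_31 L87971 (C_31 L87974 (C_31 L87975 N_31)))) (by decide +kernel)
theorem L87977 : W_31 (nat_lit 3) (nat_lit 0x10000e000280000001000080000000000000000000000000000000) (nat_lit 0x0) (nat_lit 0xe80001000000000000000000000000000000000000000000000000) := T_31 (nat_lit 213) (nat_lit 192) (nat_lit 3) (nat_lit 5) (nat_lit 11) L87032 (by decide +kernel)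
theorem L87978 : W_31 (nat_lit 9) (nat_lit 0x10000c000280000001000080000000000000000000000000000000) (nat_lit 0x0) (nat_lit 0xe8000300014001f000f0013c000000000000000000000000000000) := Q_31 (nat_lit 193) (C_31 L87527 (C_31 L87976 (C_31 L87977 N_31))) (by decide +kernel)
theorem L87993 : W_31 (nat_lit 8) (nat_lit 0x10000c000280000001000080000000000000000000000000000000) (nat_lit 0x0) (nat_lit 0x14002b8003800d4001c000f0013c001000000000000000000000000000) := Q_31 (nat_lit 192) (C_31 L87992 (C_31 L87937 (C_31 L87525 (C_31 L87820 (C_31 L87523 N_31))))) (by decide +kernel)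
theorem L87994 : W_31 (nat_lit 15) (nat_lit 0x10000c000200000001000080000000000000000000000000000000) (nat_lit 0x0) (nat_lit 0x100038001c001e00eb8003e03de01dfc00fe013f001c000e0000000000000000000000) := Q_31 (nat_lit 175) (C_31 L87526 (C_31 L87730 (C_31 L87738 (C_31 L87742 (C_31 L87749 (C_31 L87766 (C_31 L87817 (C_31 L87821 (C_31 L87963 (C_31 L87978 (C_31 L87993 N_31))))))))))) (by decide +kernel)
theorem L87995 : W_31 (nat_lit 2) (nat_lit 0x300070000e000600000001000080000000000000000000000000000000) (nat_lit 0x0) (nat_lit 0x4c00000000000000000000000000000000000000000000000000000000) := D_31 (nat_lit 227) (nat_lit 230) (nat_lit 226) (nat_lit 2) (nat_lit 6) (nat_lit 13) (nat_lit 2) (nat_lit 5) (nat_lit 13) (by decide +kernel)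
theorem L87996 : W_31 (nat_lit 3) (nat_lit 0x200070000e000600000001000080000000000000000000000000000000) (nat_lit 0x0) (nat_lit 0x20005c00000000000000000000000000000000000000000000000000000000) := T_31 (nat_lit 228) (nat_lit 245) (nat_lit 5) (nat_lit 8) (nat_lit 10) L87995 (by decide +kernel)
theorem L87997 : W_31 (nat_lit 4) (nat_lit 0x200030000e000600000001000080000000000000000000000000000000) (nat_lit 0x0) (nat_lit 0x20005c00c00000000000000000000000000000000000000000000000000000) := T_31 (nat_lit 214) (nat_lit 215) (nat_lit 0) (nat_lit 11) (nat_lit 12) L87996 (by decide +kernel)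
theorem L87998 : W_31 (nat_lit 2) (nat_lit 0x200030000e000600000001000080000000000000000000000000000000) (nat_lit 0x0) (nat_lit 0x1800040000000000000000000000000000000000000000) := D_31 (nat_lit 179) (nat_lit 162) (nat_lit 180) (nat_lit 6) (nat_lit 8) (nat_lit 13) (nat_lit 1) (nat_lit 10) (nat_lit 10) (by decide +kernel)
theorem L87999 : W_31 (nat_lit 5) (nat_lit 0x200030000e000200000001000080000000000000000000000000000000) (nat_lit 0x0) (nat_lit 0x20005c00c00000001c00040000000000000000000000000000000000000000) := Q_31 (nat_lit 178) (C_31 L87997 (C_31 L87998 N_31)) (by decide +kernel)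
theorem L88000 : W_31 (nat_lit 6) (nat_lit 0x30000e000200000001000080000000000000000000000000000000) (nat_lit 0x0) (nat_lit 0x60007c00c00000001c00040000000000000000000000000000000000000000) := T_31 (nat_lit 229) (nat_lit 246) (nat_lit 4) (nat_lit 8) (nat_lit 14) L87999 (by decide +kernel)
theorem L88001 : W_31 (nat_lit 2) (nat_lit 0x780030000e000600000001000080000000000000000000000000000000) (nat_lit 0x0) (nat_lit 0x18000000080000000000000000000000000000000000000000000000000000) := D_31 (nat_lit 244) (nat_lit 243) (nat_lit 211) (nat_lit 1) (nat_lit 9) (nat_lit 13) (nat_lit 5) (nat_lit 7) (nat_lit 10) (by decide +kernel)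
theorem L88002 : W_31 (nat_lit 3) (nat_lit 0x700030000e000600000001000080000000000000000000000000000000) (nat_lit 0x0) (nat_lit 0x18000c00080000000000000000000000000000000000000000000000000000) := T_31 (nat_lit 227) (nat_lit 226) (nat_lit 2) (nat_lit 5) (nat_lit 13) L88001 (by decide +kernel)
theorem L88003 : W_31 (nat_lit 4) (nat_lit 0x600030000e000600000001000080000000000000000000000000000000) (nat_lit 0x0) (nat_lit 0x38001c00080000000000000000000000000000000000000000000000000000) := T_31 (nat_lit 228) (nat_lit 245) (nat_lit 5) (nat_lit 8) (nat_lit 10) L88002 (by decide +kernel)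
theorem L88004 : W_31 (nat_lit 5) (nat_lit 0x200030000e000600000001000080000000000000000000000000000000) (nat_lit 0x0) (nat_lit 0xb8005c00080000000000000000000000000000000000000000000000000000) := T_31 (nat_lit 230) (nat_lit 247) (nat_lit 7) (nat_lit 8) (nat_lit 10) L88003 (by decide +kernel)
theorem L88005 : W_31 (nat_lit 6) (nat_lit 0x200030000e000200000001000080000000000000000000000000000000) (nat_lit 0x0) (nat_lit 0xb8005c00080000001c00040000000000000000000000000000000000000000) := Q_31 (nat_lit 178) (C_31 L88004 (C_31 L87998 N_31)) (by decide +kernel)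
theorem L88006 : W_31 (nat_lit 7) (nat_lit 0x30000e000200000001000080000000000000000000000000000000) (nat_lit 0x0) (nat_lit 0xf8007c00080000001c00040000000000000000000000000000000000000000) := T_31 (nat_lit 229) (nat_lit 246) (nat_lit 4) (nat_lit 8) (nat_lit 14) L88005 (by decide +kernel)
theorem L88007 : W_31 (nat_lit 8) (nat_lit 0x10000e000200000001000080000000000000000000000000000000) (nat_lit 0x0) (nat_lit 0xf8007c00e80000001c00040000000000000000000000000000000000000000) := Q_31 (nat_lit 213) (C_31 L80374 (C_31 L88000 (C_31 L88006 N_31))) (by decide +kernel)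
theorem L88009 : W_31 (nat_lit 2) (nat_lit 0x12000f000380000001000080000000000000000000000000000000) (nat_lit 0x0) (nat_lit 0x8000400000000000000008000000000000000000000000000000000000000) := D_31 (nat_lit 226) (nat_lit 159) (nat_lit 243) (nat_lit 6) (nat_lit 5) (nat_lit 13) (nat_lit 6) (nat_lit 5) (nat_lit 14) (by decide +kernel)
theorem L88010 : W_31 (nat_lit 3) (nat_lit 0x12000f000300000001000080000000000000000000000000000000) (nat_lit 0x0) (nat_lit 0x80004000000000000c0008000000000000000000000000000000000000000) := T_31 (nat_lit 175) (nat_lit 174) (nat_lit 3) (nat_lit 4) (nat_lit 10) L88009 (by decide +kernel)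
theorem L88011 : W_31 (nat_lit 7) (nat_lit 0x12000f000380000001000080000000000000000000000000000000) (nat_lit 0x0) (nat_lit 0x7c003e00080000000c00000000000000000000000000000000000000000000) := T_31 (nat_lit 179) (nat_lit 178) (nat_lit 2) (nat_lit 5) (nat_lit 11) L15721 (by decide +kernel)
theorem L88012 : W_31 (nat_lit 8) (nat_lit 0x12000f000300000001000080000000000000000000000000000000) (nat_lit 0x0) (nat_lit 0x7c003e00080000000cc0000000000000000000000000000000000000000000) := T_31 (nat_lit 175) (nat_lit 174) (nat_lit 3) (nat_lit 4) (nat_lit 10) L88011 (by decide +kernel)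
theorem L88013 : W_31 (nat_lit 2) (nat_lit 0x200012000f000700008001000080000000000000000000000000000000) (nat_lit 0x0) (nat_lit 0x20001000080000000000000000000000000000000000000000000000000000) := D_31 (nat_lit 228) (nat_lit 245) (nat_lit 211) (nat_lit 5) (nat_lit 8) (nat_lit 10) (nat_lit 4) (nat_lit 7) (nat_lit 13) (by decide +kernel)
theorem L88014 : W_31 (nat_lit 3) (nat_lit 0x200012000f000300008001000080000000000000000000000000000000) (nat_lit 0x0) (nat_lit 0x20001000080000000c00000000000000000000000000000000000000000000) := T_31 (nat_lit 178) (nat_lit 179) (nat_lit 2) (nat_lit 5) (nat_lit 11) L88013 (by decide +kernel)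
theorem L88015 : W_31 (nat_lit 4) (nat_lit 0x200012000f000300000001000080000000000000000000000000000000) (nat_lit 0x0) (nat_lit 0x20001000080000000c00008000400000000000000000000000000000000000) := T_31 (nat_lit 159) (nat_lit 142) (nat_lit 5) (nat_lit 6) (nat_lit 8) L88014 (by decide +kernel)
theorem L88016 : W_31 (nat_lit 5) (nat_lit 0x12000f000300000001000080000000000000000000000000000000) (nat_lit 0x0) (nat_lit 0x60003000080000000c00008000400000000000000000000000000000000000) := T_31 (nat_lit 229) (nat_lit 246) (nat_lit 4) (nat_lit 8) (nat_lit 14) L88015 (by decide +kernel)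
theorem L88017 : W_31 (nat_lit 9) (nat_lit 0x12000f000200000001000080000000000000000000000000000000) (nat_lit 0x0) (nat_lit 0x7c003e00080000000dc0008000400000000000000000000000000000000000) := Q_31 (nat_lit 176) (C_31 L88010 (C_31 L88012 (C_31 L88016 N_31))) (by decide +kernel)
theorem L88018 : W_31 (nat_lit 10) (nat_lit 0x10000f000200000001000080000000000000000000000000000000) (nat_lit 0x0) (nat_lit 0x7c003e000b0000000dc0008000400000000000000000000000000000000000) := T_31 (nat_lit 209) (nat_lit 208) (nat_lit 1) (nat_lit 8) (nat_lit 11) L88017 (by decide +kernel)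
theorem L88019 : W_31 (nat_lit 11) (nat_lit 0x10000e000200000001000080000000000000000000000000000000) (nat_lit 0x0) (nat_lit 0x7c003e000b8001800dc0008000400000000000000000000000000000000000) := Q_31 (nat_lit 192) (C_31 L87410 (C_31 L88008 (C_31 L88018 N_31))) (by decide +kernel)
theorem L88020 : W_31 (nat_lit 12) (nat_lit 0x10000c000200000001000080000000000000000000000000000000) (nat_lit 0x0) (nat_lit 0xfc007e00eb8003801de0048000400000000000000000000000000000000000) := Q_31 (nat_lit 193) (C_31 L87011 (C_31 L85619 (C_31 L88007 (C_31 L88019 N_31)))) (by decide +kernel)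
theorem L88021 : W_31 (nat_lit 16) (nat_lit 0xc000200000001000080000000000000000000000000000000) (nat_lit 0x0) (nat_lit 0x10007800fc007e00fb8003e03de01dfc00fe013f001c000e0000000000000000000000) := Q_31 (nat_lit 212) (C_31 L87994 (C_31 L87289 (C_31 L87176 (C_31 L88020 (C_31 L86997 N_31))))) (by decide +kernel)
theorem L88046 : W_31 (nat_lit 2) (nat_lit 0x90003e001200000001000080000000000000000000000000000000) (nat_lit 0x0) (nat_lit 0x1000040000400000000000000000000000000000000000000000000) := D_31 (nat_lit 198) (nat_lit 178) (nat_lit 216) (nat_lit 0) (nat_lit 11) (nat_lit 11) (nat_lit 3) (nat_lit 8) (nat_lit 11) (by decide +kernel)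
theorem L88047 : W_31 (nat_lit 3) (nat_lit 0x10003e001200000001000080000000000000000000000000000000) (nat_lit 0x0) (nat_lit 0x1c00040000400000000000000000000000000000000000000000000) := T_31 (nat_lit 215) (nat_lit 214) (nat_lit 3) (nat_lit 7) (nat_lit 11) L88046 (by decide +kernel)
theorem L88048 : W_31 (nat_lit 4) (nat_lit 0x10003c001200000001000080000000000000000000000000000000) (nat_lit 0x0) (nat_lit 0x1c00042000c00000000000000000000000000000000000000000000) := T_31 (nat_lit 193) (nat_lit 179) (nat_lit 2) (nat_lit 6) (nat_lit 11) L88047 (by decide +kernel)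
theorem L88049 : W_31 (nat_lit 5) (nat_lit 0x10003c000200000001000080000000000000000000000000000000) (nat_lit 0x0) (nat_lit 0x1c00042003c00000000000000000000000000000000000000000000) := T_31 (nat_lit 180) (nat_lit 181) (nat_lit 2) (nat_lit 7) (nat_lit 11) L88048 (by decide +kernel)
theorem L88050 : W_31 (nat_lit 3) (nat_lit 0x10003c001a00000001800080000000000000000000000000000000) (nat_lit 0x0) (nat_lit 0x100008000c00000000000040000000000000000000000000000000000000000) := T_31 (nat_lit 214) (nat_lit 215) (nat_lit 3) (nat_lit 7) (nat_lit 11) L85841 (by decide +kernel)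
theorem L88051 : W_31 (nat_lit 4) (nat_lit 0x10003c001200000001800080000000000000000000000000000000) (nat_lit 0x0) (nat_lit 0x100008000c00002000800040000000000000000000000000000000000000000) := T_31 (nat_lit 179) (nat_lit 193) (nat_lit 2) (nat_lit 6) (nat_lit 11) L88050 (by decide +kernel)
theorem L88052 : W_31 (nat_lit 5) (nat_lit 0x10003c000200000001800080000000000000000000000000000000) (nat_lit 0x0) (nat_lit 0x100008000c00002003800040000000000000000000000000000000000000000) := T_31 (nat_lit 180) (nat_lit 181) (nat_lit 2) (nat_lit 7) (nat_lit 11) L88051 (by decide +kernel)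
theorem L88053 : W_31 (nat_lit 6) (nat_lit 0x10003c000200000001000080000000000000000000000000000000) (nat_lit 0x0) (nat_lit 0x100008000c00002003800050000800000000000000000000000000000000000) := T_31 (nat_lit 143) (nat_lit 160) (nat_lit 7) (nat_lit 7) (nat_lit 8) L88052 (by decide +kernel)
theorem L88054 : W_31 (nat_lit 7) (nat_lit 0x10001c000200000001000080000000000000000000000000000000) (nat_lit 0x0) (nat_lit 0x100008001c80062007c00050000800000000000000000000000000000000000) := Q_31 (nat_lit 197) (C_31 L87000 (C_31 L88045 (C_31 L88049 (C_31 L88053 N_31)))) (by decide +kernel)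
theorem L88055 : W_31 (nat_lit 2) (nat_lit 0x10000000050003c001e00090001000080000000000000000000000000000000) (nat_lit 0x0) (nat_lit 0x200000000000000004000200000000000000000000000000000000) := D_31 (nat_lit 146) (nat_lit 129) (nat_lit 213) (nat_lit 5) (nat_lit 10) (nat_lit 7) (nat_lit 5) (nat_lit 10) (nat_lit 8) (by decide +kernel)
theorem L88056 : W_31 (nat_lit 3) (nat_lit 0x10000000050003c001e00010001000080000000000000000000000000000000) (nat_lit 0x0) (nat_lit 0x200000000000180004000200000000000000000000000000000000) := T_31 (nat_lit 163) (nat_lit 164) (nat_lit 2) (nat_lit 7) (nat_lit 10) L88055 (by decide +kernel)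
theorem L88057 : W_31 (nat_lit 4) (nat_lit 0x10000000050003c001a00010001000080000000000000000000000000000000) (nat_lit 0x0) (nat_lit 0x200000000400188004000200000000000000000000000000000000) := T_31 (nat_lit 178) (nat_lit 159) (nat_lit 0) (nat_lit 10) (nat_lit 10) L88056 (by decide +kernel)
theorem L88058 : W_31 (nat_lit 5) (nat_lit 0x10000000050003c000a00010001000080000000000000000000000000000000) (nat_lit 0x0) (nat_lit 0x200000003400188004000200000000000000000000000000000000) := T_31 (nat_lit 180) (nat_lit 181) (nat_lit 2) (nat_lit 7) (nat_lit 11) L88057 (by decide +kernel)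
theorem L88059 : W_31 (nat_lit 6) (nat_lit 0x10000000050003c000a00000001000080000000000000000000000000000000) (nat_lit 0x0) (nat_lit 0x200000003400198004800200000000000000000000000000000000) := T_31 (nat_lit 160) (nat_lit 143) (nat_lit 7) (nat_lit 7) (nat_lit 8) L88058 (by decide +kernel)
theorem L88060 : W_31 (nat_lit 7) (nat_lit 0x50003c000a00000001000080000000000000000000000000000000) (nat_lit 0x0) (nat_lit 0x100008000200000003400198004800200000000000000000000000000000000) := T_31 (nat_lit 248) (nat_lit 231) (nat_lit 4) (nat_lit 10) (nat_lit 14) L88059 (by decide +kernel)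
theorem L88061 : W_31 (nat_lit 8) (nat_lit 0x10003c000a00000001000080000000000000000000000000000000) (nat_lit 0x0) (nat_lit 0x100008000e00000003400198004800200000000000000000000000000000000) := T_31 (nat_lit 214) (nat_lit 215) (nat_lit 3) (nat_lit 7) (nat_lit 11) L88060 (by decide +kernel)
theorem L88062 : W_31 (nat_lit 2) (nat_lit 0x50003c001a00000001000080000000000000000000000000000000) (nat_lit 0x0) (nat_lit 0x100008000000000000000040000000000000000000000000000000000000000) := D_31 (nat_lit 231) (nat_lit 248) (nat_lit 162) (nat_lit 4) (nat_lit 10) (nat_lit 14) (nat_lit 4) (nat_lit 10) (nat_lit 13) (by decide +kernel)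
theorem L88063 : W_31 (nat_lit 3) (nat_lit 0x10003c001a00000001000080000000000000000000000000000000) (nat_lit 0x0) (nat_lit 0x100008000c00000000000040000000000000000000000000000000000000000) := T_31 (nat_lit 214) (nat_lit 215) (nat_lit 3) (nat_lit 7) (nat_lit 11) L88062 (by decide +kernel)
theorem L88064 : W_31 (nat_lit 4) (nat_lit 0x10003c000a00000001000080000000000000000000000000000000) (nat_lit 0x0) (nat_lit 0x100008000c00000003000040000000000000000000000000000000000000000) := T_31 (nat_lit 180) (nat_lit 181) (nat_lit 2) (nat_lit 7) (nat_lit 11) L88063 (by decide +kernel)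
theorem L88065 : W_31 (nat_lit 2) (nat_lit 0x900078003c000a00010001000080000000000000000000000000000000) (nat_lit 0x0) (nat_lit 0x400020000000000000000400000000000000000000000000000000000000000000) := D_31 (nat_lit 245) (nat_lit 262) (nat_lit 178) (nat_lit 6) (nat_lit 7) (nat_lit 15) (nat_lit 6) (nat_lit 7) (nat_lit 14) (by decide +kernel)
theorem L88066 : W_31 (nat_lit 3) (nat_lit 0x800078003c000a00010001000080000000000000000000000000000000) (nat_lit 0x0) (nat_lit 0x400020001800000000000400000000000000000000000000000000000000000000) := T_31 (nat_lit 228) (nat_lit 227) (nat_lit 1) (nat_lit 10) (nat_lit 12) L88065 (by decide +kernel)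
theorem L88067 : W_31 (nat_lit 4) (nat_lit 0x800070003c000a00010001000080000000000000000000000000000000) (nat_lit 0x0) (nat_lit 0x400020011800080000000400000000000000000000000000000000000000000000) := T_31 (nat_lit 211) (nat_lit 232) (nat_lit 3) (nat_lit 7) (nat_lit 12) L88066 (by decide +kernel)
theorem L88068 : W_31 (nat_lit 5) (nat_lit 0x800050003c000a00010001000080000000000000000000000000000000) (nat_lit 0x0) (nat_lit 0x400020011800280000000400040000000000000000000000000000000000000000) := T_31 (nat_lit 213) (nat_lit 162) (nat_lit 7) (nat_lit 9) (nat_lit 9) L88067 (by decide +kernel)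
theorem L88069 : W_31 (nat_lit 6) (nat_lit 0x800050003c000a00000001000080000000000000000000000000000000) (nat_lit 0x0) (nat_lit 0x400020011800280000000400050000800000000000000000000000000000000000) := T_31 (nat_lit 160) (nat_lit 143) (nat_lit 7) (nat_lit 7) (nat_lit 8) L88068 (by decide +kernel)
theorem L88070 : W_31 (nat_lit 7) (nat_lit 0x50003c000a00000001000080000000000000000000000000000000) (nat_lit 0x0) (nat_lit 0x400120019800280000000400050000800000000000000000000000000000000000) := T_31 (nat_lit 231) (nat_lit 248) (nat_lit 4) (nat_lit 10) (nat_lit 14) L88069 (by decide +kernel)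
theorem L88071 : W_31 (nat_lit 8) (nat_lit 0x10003c000a00000001000080000000000000000000000000000000) (nat_lit 0x0) (nat_lit 0x400120019800e80000000400050000800000000000000000000000000000000000) := T_31 (nat_lit 214) (nat_lit 215) (nat_lit 3) (nat_lit 7) (nat_lit 11) L88070 (by decide +kernel)
theorem L88072 : W_31 (nat_lit 4) (nat_lit 0x10003c001a00010001000080000000000000000000000000000000) (nat_lit 0x0) (nat_lit 0x200000000400188004000200000000000000000000000000000000) := T_31 (nat_lit 178) (nat_lit 159) (nat_lit 0) (nat_lit 10) (nat_lit 10) L85951 (by decide +kernel)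
theorem L88073 : W_31 (nat_lit 5) (nat_lit 0x10003c001a00000001000080000000000000000000000000000000) (nat_lit 0x0) (nat_lit 0x200000000400198004800200000000000000000000000000000000) := T_31 (nat_lit 160) (nat_lit 143) (nat_lit 7) (nat_lit 7) (nat_lit 8) L88072 (by decide +kernel)
theorem L88074 : W_31 (nat_lit 6) (nat_lit 0x10003c000a00000001000080000000000000000000000000000000) (nat_lit 0x0) (nat_lit 0x200000003400198004800200000000000000000000000000000000) := T_31 (nat_lit 180) (nat_lit 181) (nat_lit 2) (nat_lit 7) (nat_lit 11) L88073 (by decide +kernel)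
theorem L88075 : W_31 (nat_lit 9) (nat_lit 0x10003c000200000001000080000000000000000000000000000000) (nat_lit 0x0) (nat_lit 0x400120019800e80000003c001d8004800200000000000000000000000000000000) := Q_31 (nat_lit 179) (C_31 L88061 (C_31 L88064 (C_31 L88071 (C_31 L88074 N_31)))) (by decide +kernel)
theorem L88076 : W_31 (nat_lit 10) (nat_lit 0x10001c000200000001000080000000000000000000000000000000) (nat_lit 0x0) (nat_lit 0x400120019807e801e001fc001d8004800200000000000000000000000000000000) := Q_31 (nat_lit 197) (C_31 L87000 (C_31 L88045 (C_31 L85773 (C_31 L88075 N_31)))) (by decide +kernel)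
theorem L88077 : W_31 (nat_lit 7) (nat_lit 0x10001c000200000001000080000000000000000000000000000000) (nat_lit 0x0) (nat_lit 0x4001e800e3007800090004800000000000000000000000000000000000) := Q_31 (nat_lit 213) (C_31 L85608 (C_31 L87234 (C_31 L87177 N_31))) (by decide +kernel)
theorem L88078 : W_31 (nat_lit 6) (nat_lit 0x10001c000200000001000080000000000000000000000000000000) (nat_lit 0x0) (nat_lit 0x4001e80062003c00080004000000000000000000000000000000000000) := Q_31 (nat_lit 197) (C_31 L87000 (C_31 L88049 (C_31 L85659 N_31))) (by decide +kernel)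
theorem L88080 : W_31 (nat_lit 6) (nat_lit 0x30001c000200000001000080000000000000000000000000000000) (nat_lit 0x0) (nat_lit 0xe3003c00010000800000000000000000000000000000000000) := T_31 (nat_lit 160) (nat_lit 143) (nat_lit 7) (nat_lit 7) (nat_lit 8) L87402 (by decide +kernel)
theorem L88081 : W_31 (nat_lit 7) (nat_lit 0x10001c000200000001000080000000000000000000000000000000) (nat_lit 0x0) (nat_lit 0x4001e000e3007c00090004800000000000000000000000000000000000) := Q_31 (nat_lit 213) (C_31 L85608 (C_31 L87177 (C_31 L88080 N_31))) (by decide +kernel)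
theorem L88089 : W_31 (nat_lit 12) (nat_lit 0x50001c000200000001000080000000000000000000000000000000) (nat_lit 0x0) (nat_lit 0x3e001f007d800280002000c00050000800000000000000000000000000000000000) := T_31 (nat_lit 213) (nat_lit 193) (nat_lit 3) (nat_lit 6) (nat_lit 11) L87399 (by decide +kernel)
theorem L88090 : W_31 (nat_lit 13) (nat_lit 0x10001c000200000001000080000000000000000000000000000000) (nat_lit 0x0) (nat_lit 0x3e001f007d800e80062000c00050000800000000000000000000000000000000000) := Q_31 (nat_lit 214) (C_31 L85620 (C_31 L87521 (C_31 L87400 (C_31 L88089 N_31)))) (by decide +kernel)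
theorem L88095 : W_31 (nat_lit 2) (nat_lit 0x200000000c000200010001000080000000000000000000000000000000) (nat_lit 0x0) (nat_lit 0x40000000180000000000000000000000000000000000000000000000000000) := D_31 (nat_lit 212) (nat_lit 246) (nat_lit 211) (nat_lit 4) (nat_lit 8) (nat_lit 14) (nat_lit 7) (nat_lit 7) (nat_lit 9) (by decide +kernel)
theorem L88096 : W_31 (nat_lit 3) (nat_lit 0x200000000c000200000001000080000000000000000000000000000000) (nat_lit 0x0) (nat_lit 0x40000000180000000000010000800000000000000000000000000000000000) := T_31 (nat_lit 160) (nat_lit 143) (nat_lit 6) (nat_lit 7) (nat_lit 11) L88095 (by decide +kernel)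
theorem L88097 : W_31 (nat_lit 2) (nat_lit 0x300000000c000200000001000080000000000000000000000000000000) (nat_lit 0x0) (nat_lit 0x40000000180000000000000000000000000000000000000000000000000000) := D_31 (nat_lit 246) (nat_lit 212) (nat_lit 211) (nat_lit 4) (nat_lit 8) (nat_lit 14) (nat_lit 7) (nat_lit 7) (nat_lit 10) (by decide +kernel)
theorem L88098 : W_31 (nat_lit 2) (nat_lit 0x2000300008000c000200000001000080000000000000000000000000000000) (nat_lit 0x0) (nat_lit 0x200010000800000000000000000000000000000000000000000000000000000000) := D_31 (nat_lit 244) (nat_lit 261) (nat_lit 227) (nat_lit 5) (nat_lit 7) (nat_lit 11) (nat_lit 5) (nat_lit 7) (nat_lit 10) (by decide +kernel)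
theorem L88099 : W_31 (nat_lit 3) (nat_lit 0x300008000c000200000001000080000000000000000000000000000000) (nat_lit 0x0) (nat_lit 0x200030000800000000000400000000000000000000000000000000000000000000) := T_31 (nat_lit 245) (nat_lit 178) (nat_lit 6) (nat_lit 7) (nat_lit 14) L88098 (by decide +kernel)
theorem L88100 : W_31 (nat_lit 4) (nat_lit 0x300000000c000200000001000080000000000000000000000000000000) (nat_lit 0x0) (nat_lit 0x200070000800080000000400000000000000000000000000000000000000000000) := T_31 (nat_lit 211) (nat_lit 246) (nat_lit 7) (nat_lit 7) (nat_lit 10) L88099 (by decide +kernel)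
theorem L88101 : W_31 (nat_lit 5) (nat_lit 0x300010000c000200000001000080000000000000000000000000000000) (nat_lit 0x0) (nat_lit 0xa0004000000003001c00040000000000000000000000000000000000000000) := T_31 (nat_lit 178) (nat_lit 245) (nat_lit 5) (nat_lit 8) (nat_lit 10) L19057 (by decide +kernel)
theorem L88102 : W_31 (nat_lit 6) (nat_lit 0x300000000c000200000001000080000000000000000000000000000000) (nat_lit 0x0) (nat_lit 0xe0004000100003001c00040000000000000000000000000000000000000000) := T_31 (nat_lit 212) (nat_lit 246) (nat_lit 4) (nat_lit 8) (nat_lit 14) L88101 (by decide +kernel)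
theorem L88103 : W_31 (nat_lit 2) (nat_lit 0x300000000c000600000001000080000000000000000000000000000000) (nat_lit 0x0) (nat_lit 0x20000000180000000000000000000000000000000000000000000000000000) := D_31 (nat_lit 245) (nat_lit 212) (nat_lit 211) (nat_lit 5) (nat_lit 8) (nat_lit 10) (nat_lit 6) (nat_lit 7) (nat_lit 14) (by decide +kernel)
theorem L88104 : W_31 (nat_lit 2) (nat_lit 0x300000001e000600000001000080000000000000000000000000000000) (nat_lit 0x0) (nat_lit 0x1001800000000000000000000000000000000000000000000) := D_31 (nat_lit 179) (nat_lit 180) (nat_lit 192) (nat_lit 2) (nat_lit 6) (nat_lit 11) (nat_lit 2) (nat_lit 5) (nat_lit 11) (by decide +kernel)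
theorem L88105 : W_31 (nat_lit 2) (nat_lit 0x3000700020001e800600000001000080000000000000000000000000000000) (nat_lit 0x0) (nat_lit 0xc000800000000000000000000000000000000000000000000000000000000) := D_31 (nat_lit 243) (nat_lit 227) (nat_lit 242) (nat_lit 1) (nat_lit 9) (nat_lit 13) (nat_lit 2) (nat_lit 4) (nat_lit 14) (by decide +kernel)
theorem L88106 : W_31 (nat_lit 3) (nat_lit 0x2000700020001e800600000001000080000000000000000000000000000000) (nat_lit 0x0) (nat_lit 0x1c008800000000000000000000000000000000000000000000000000000000) := T_31 (nat_lit 244) (nat_lit 231) (nat_lit 1) (nat_lit 10) (nat_lit 13) L88105 (by decide +kernel)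
theorem L88107 : W_31 (nat_lit 4) (nat_lit 0x2000300020001e800600000001000080000000000000000000000000000000) (nat_lit 0x0) (nat_lit 0x9c00c800000000000000000000000000000000000000000000000000000000) := T_31 (nat_lit 230) (nat_lit 247) (nat_lit 4) (nat_lit 9) (nat_lit 14) L88106 (by decide +kernel)
theorem L88108 : W_31 (nat_lit 5) (nat_lit 0x2000300000001e800600000001000080000000000000000000000000000000) (nat_lit 0x0) (nat_lit 0x9c00c800600000000000000000000000000000000000000000000000000000) := T_31 (nat_lit 213) (nat_lit 214) (nat_lit 3) (nat_lit 6) (nat_lit 11) L88107 (by decide +kernel)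
theorem L88109 : W_31 (nat_lit 6) (nat_lit 0x2000300000001e000600000001000080000000000000000000000000000000) (nat_lit 0x0) (nat_lit 0x9c00c800600001800000000000000000000000000000000000000000000000) := T_31 (nat_lit 191) (nat_lit 192) (nat_lit 2) (nat_lit 4) (nat_lit 11) L88108 (by decide +kernel)
theorem L88110 : W_31 (nat_lit 7) (nat_lit 0x300000001e000600000001000080000000000000000000000000000000) (nat_lit 0x0) (nat_lit 0xbc00c800680001800000000000000000000000000000000000000000000000) := T_31 (nat_lit 245) (nat_lit 211) (nat_lit 6) (nat_lit 7) (nat_lit 14) L88109 (by decide +kernel)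
theorem L88111 : W_31 (nat_lit 2) (nat_lit 0x3000700020001e001600000001000080000000000000000000000000000000) (nat_lit 0x0) (nat_lit 0xc000800000000000000000000000000000000000000000000000000000000) := D_31 (nat_lit 243) (nat_lit 227) (nat_lit 242) (nat_lit 1) (nat_lit 9) (nat_lit 13) (nat_lit 2) (nat_lit 4) (nat_lit 14) (by decide +kernel)
theorem L88112 : W_31 (nat_lit 3) (nat_lit 0x2000700020001e001600000001000080000000000000000000000000000000) (nat_lit 0x0) (nat_lit 0x1c008800000000000000000000000000000000000000000000000000000000) := T_31 (nat_lit 244) (nat_lit 231) (nat_lit 1) (nat_lit 10) (nat_lit 13) L88111 (by decide +kernel)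
theorem L88113 : W_31 (nat_lit 4) (nat_lit 0x700020001e001600000001000080000000000000000000000000000000) (nat_lit 0x0) (nat_lit 0x3c008800080000000000000000000000000000000000000000000000000000) := T_31 (nat_lit 245) (nat_lit 211) (nat_lit 6) (nat_lit 7) (nat_lit 14) L88112 (by decide +kernel)
theorem L88114 : W_31 (nat_lit 5) (nat_lit 0x300020001e001600000001000080000000000000000000000000000000) (nat_lit 0x0) (nat_lit 0xbc00c800080000000000000000000000000000000000000000000000000000) := T_31 (nat_lit 230) (nat_lit 247) (nat_lit 4) (nat_lit 9) (nat_lit 14) L88113 (by decide +kernel)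
theorem L88115 : W_31 (nat_lit 6) (nat_lit 0x300020001e000600000001000080000000000000000000000000000000) (nat_lit 0x0) (nat_lit 0xbc00c800080000001800000000000000000000000000000000000000000000) := T_31 (nat_lit 180) (nat_lit 179) (nat_lit 2) (nat_lit 6) (nat_lit 11) L88114 (by decide +kernel)
theorem L88116 : W_31 (nat_lit 7) (nat_lit 0x300000001e000600000001000080000000000000000000000000000000) (nat_lit 0x0) (nat_lit 0xbc00c800680000001800000000000000000000000000000000000000000000) := T_31 (nat_lit 213) (nat_lit 214) (nat_lit 3) (nat_lit 6) (nat_lit 11) L88115 (by decide +kernel)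
theorem L88117 : W_31 (nat_lit 8) (nat_lit 0x300000001c000600000001000080000000000000000000000000000000) (nat_lit 0x0) (nat_lit 0xbc00c800680003801800000000000000000000000000000000000000000000) := Q_31 (nat_lit 193) (C_31 L88104 (C_31 L88110 (C_31 L88116 N_31))) (by decide +kernel)
theorem L88118 : W_31 (nat_lit 2) (nat_lit 0x2000300060003c001600000001000080000000000000000000000000000000) (nat_lit 0x0) (nat_lit 0x80004800000000000000000000000000000000000000000000000000000000) := D_31 (nat_lit 230) (nat_lit 227) (nat_lit 247) (nat_lit 2) (nat_lit 6) (nat_lit 13) (nat_lit 6) (nat_lit 9) (nat_lit 14) (by decide +kernel)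
theorem L88119 : W_31 (nat_lit 3) (nat_lit 0x2000300040003c001600000001000080000000000000000000000000000000) (nat_lit 0x0) (nat_lit 0x80004800200002000000000000000000000000000000000000000000000000) := T_31 (nat_lit 213) (nat_lit 193) (nat_lit 3) (nat_lit 6) (nat_lit 11) L88118 (by decide +kernel)
theorem L88120 : W_31 (nat_lit 4) (nat_lit 0x2000300000003c001600000001000080000000000000000000000000000000) (nat_lit 0x0) (nat_lit 0x80004800e00002000000000000000000000000000000000000000000000000) := T_31 (nat_lit 214) (nat_lit 215) (nat_lit 3) (nat_lit 7) (nat_lit 11) L88119 (by decide +kernel)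
theorem L88121 : W_31 (nat_lit 5) (nat_lit 0x2000300000003c000600000001000080000000000000000000000000000000) (nat_lit 0x0) (nat_lit 0x80004800e00002003000000000000000000000000000000000000000000000) := T_31 (nat_lit 180) (nat_lit 181) (nat_lit 2) (nat_lit 7) (nat_lit 11) L88120 (by decide +kernel)
theorem L88122 : W_31 (nat_lit 6) (nat_lit 0x2000300000001c000600000001000080000000000000000000000000000000) (nat_lit 0x0) (nat_lit 0x80004800e00062003000000000000000000000000000000000000000000000) := T_31 (nat_lit 197) (nat_lit 198) (nat_lit 0) (nat_lit 11) (nat_lit 11) L88121 (by decide +kernel)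
theorem L88123 : W_31 (nat_lit 7) (nat_lit 0x300000001c000600000001000080000000000000000000000000000000) (nat_lit 0x0) (nat_lit 0xa0004800e80062003000000000000000000000000000000000000000000000) := T_31 (nat_lit 245) (nat_lit 211) (nat_lit 6) (nat_lit 7) (nat_lit 14) L88122 (by decide +kernel)
theorem L88124 : W_31 (nat_lit 5) (nat_lit 0x300048003c000600000001000080000000000000000000000000000000) (nat_lit 0x0) (nat_lit 0x19000c800200000003000000000000000000000000000000000000000000000) := T_31 (nat_lit 227) (nat_lit 244) (nat_lit 5) (nat_lit 7) (nat_lit 10) L18386 (by decide +kernel)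
theorem L88125 : W_31 (nat_lit 6) (nat_lit 0x300008003c000600000001000080000000000000000000000000000000) (nat_lit 0x0) (nat_lit 0x19000c800e00000003000000000000000000000000000000000000000000000) := T_31 (nat_lit 214) (nat_lit 215) (nat_lit 3) (nat_lit 7) (nat_lit 11) L88124 (by decide +kernel)
theorem L88126 : W_31 (nat_lit 7) (nat_lit 0x300000003c000600000001000080000000000000000000000000000000) (nat_lit 0x0) (nat_lit 0x1b000c800e80000003000000000000000000000000000000000000000000000) := T_31 (nat_lit 211) (nat_lit 245) (nat_lit 6) (nat_lit 7) (nat_lit 14) L88125 (by decide +kernel)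
theorem L88127 : W_31 (nat_lit 8) (nat_lit 0x300000001c000600000001000080000000000000000000000000000000) (nat_lit 0x0) (nat_lit 0x1b000c800e80060003000000000000000000000000000000000000000000000) := T_31 (nat_lit 197) (nat_lit 198) (nat_lit 0) (nat_lit 11) (nat_lit 11) L88126 (by decide +kernel)
theorem L88128 : W_31 (nat_lit 2) (nat_lit 0x300000003e001600000001000080000000000000000000000000000000) (nat_lit 0x0) (nat_lit 0xe00000000000000000000000000000000000000000000000000000) := D_31 (nat_lit 214) (nat_lit 213) (nat_lit 215) (nat_lit 3) (nat_lit 6) (nat_lit 11) (nat_lit 3) (nat_lit 7) (nat_lit 11) (by decide +kernel)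
theorem L88129 : W_31 (nat_lit 3) (nat_lit 0x300000003c001600000001000080000000000000000000000000000000) (nat_lit 0x0) (nat_lit 0xe00002000800000000000000000000000000000000000000000000) := T_31 (nat_lit 193) (nat_lit 179) (nat_lit 2) (nat_lit 6) (nat_lit 11) L88128 (by decide +kernel)
theorem L88130 : W_31 (nat_lit 4) (nat_lit 0x300000003c000600000001000080000000000000000000000000000000) (nat_lit 0x0) (nat_lit 0xe00002003800000000000000000000000000000000000000000000) := T_31 (nat_lit 180) (nat_lit 181) (nat_lit 2) (nat_lit 7) (nat_lit 11) L88129 (by decide +kernel)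
theorem L88131 : W_31 (nat_lit 5) (nat_lit 0x300000001c000600000001000080000000000000000000000000000000) (nat_lit 0x0) (nat_lit 0xe00062003800000000000000000000000000000000000000000000) := T_31 (nat_lit 197) (nat_lit 198) (nat_lit 0) (nat_lit 11) (nat_lit 11) L88130 (by decide +kernel)
theorem L88132 : W_31 (nat_lit 2) (nat_lit 0x2000300040003e000600000001000080000000000000000000000000000000) (nat_lit 0x0) (nat_lit 0x1800800000000000000000000000000000000000000000000) := D_31 (nat_lit 192) (nat_lit 179) (nat_lit 191) (nat_lit 2) (nat_lit 5) (nat_lit 11) (nat_lit 2) (nat_lit 4) (nat_lit 11) (by decide +kernel)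
theorem L88133 : W_31 (nat_lit 3) (nat_lit 0x2000300040003c000600000001000080000000000000000000000000000000) (nat_lit 0x0) (nat_lit 0x200003800800000000000000000000000000000000000000000000) := T_31 (nat_lit 193) (nat_lit 213) (nat_lit 3) (nat_lit 6) (nat_lit 11) L88132 (by decide +kernel)
theorem L88134 : W_31 (nat_lit 4) (nat_lit 0x2000300000003c000600000001000080000000000000000000000000000000) (nat_lit 0x0) (nat_lit 0xe00003800800000000000000000000000000000000000000000000) := T_31 (nat_lit 214) (nat_lit 215) (nat_lit 3) (nat_lit 7) (nat_lit 11) L88133 (by decide +kernel)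
theorem L88135 : W_31 (nat_lit 5) (nat_lit 0x300000003c000600000001000080000000000000000000000000000000) (nat_lit 0x0) (nat_lit 0x20000000e80003800800000000000000000000000000000000000000000000) := T_31 (nat_lit 245) (nat_lit 211) (nat_lit 6) (nat_lit 7) (nat_lit 14) L88134 (by decide +kernel)
theorem L88136 : W_31 (nat_lit 6) (nat_lit 0x300000001c000600000001000080000000000000000000000000000000) (nat_lit 0x0) (nat_lit 0x20000000e80063800800000000000000000000000000000000000000000000) := T_31 (nat_lit 197) (nat_lit 198) (nat_lit 0) (nat_lit 11) (nat_lit 11) L88135 (by decide +kernel)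
theorem L88137 : W_31 (nat_lit 2) (nat_lit 0x2000300040003c001e00000001000080000000000000000000000000000000) (nat_lit 0x0) (nat_lit 0x100008000000000000000040000000000000000000000000000000000000000) := D_31 (nat_lit 231) (nat_lit 248) (nat_lit 162) (nat_lit 4) (nat_lit 10) (nat_lit 14) (nat_lit 4) (nat_lit 10) (nat_lit 13) (by decide +kernel)
theorem L88138 : W_31 (nat_lit 3) (nat_lit 0x2000300040003c001600000001000080000000000000000000000000000000) (nat_lit 0x0) (nat_lit 0x100008000000002000800040000000000000000000000000000000000000000) := T_31 (nat_lit 179) (nat_lit 193) (nat_lit 2) (nat_lit 6) (nat_lit 11) L88137 (by decide +kernel)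
theorem L88139 : W_31 (nat_lit 4) (nat_lit 0x2000300040003c000600000001000080000000000000000000000000000000) (nat_lit 0x0) (nat_lit 0x100008000000002003800040000000000000000000000000000000000000000) := T_31 (nat_lit 180) (nat_lit 181) (nat_lit 2) (nat_lit 7) (nat_lit 11) L88138 (by decide +kernel)
theorem L88140 : W_31 (nat_lit 5) (nat_lit 0x2000300000003c000600000001000080000000000000000000000000000000) (nat_lit 0x0) (nat_lit 0x100008000c00002003800040000000000000000000000000000000000000000) := T_31 (nat_lit 214) (nat_lit 215) (nat_lit 3) (nat_lit 7) (nat_lit 11) L88139 (by decide +kernel)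
theorem L88141 : W_31 (nat_lit 6) (nat_lit 0x300000003c000600000001000080000000000000000000000000000000) (nat_lit 0x0) (nat_lit 0x120008000c80002003800040000000000000000000000000000000000000000) := T_31 (nat_lit 245) (nat_lit 211) (nat_lit 6) (nat_lit 7) (nat_lit 14) L88140 (by decide +kernel)
theorem L88142 : W_31 (nat_lit 7) (nat_lit 0x300000001c000600000001000080000000000000000000000000000000) (nat_lit 0x0) (nat_lit 0x120008000c80062003800040000000000000000000000000000000000000000) := T_31 (nat_lit 197) (nat_lit 198) (nat_lit 0) (nat_lit 11) (nat_lit 11) L88141 (by decide +kernel)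
theorem L88143 : W_31 (nat_lit 2) (nat_lit 0x2000300000003c001e00080001000080000000000000000000000000000000) (nat_lit 0x0) (nat_lit 0x200000000000000004000200000000000000000000000000000000) := D_31 (nat_lit 146) (nat_lit 129) (nat_lit 213) (nat_lit 5) (nat_lit 10) (nat_lit 7) (nat_lit 5) (nat_lit 10) (nat_lit 8) (by decide +kernel)
theorem L88144 : W_31 (nat_lit 3) (nat_lit 0x2000300000003c001e00000001000080000000000000000000000000000000) (nat_lit 0x0) (nat_lit 0x200000000000180004000200000000000000000000000000000000) := T_31 (nat_lit 163) (nat_lit 164) (nat_lit 2) (nat_lit 7) (nat_lit 10) L88143 (by decide +kernel)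
theorem L88145 : W_31 (nat_lit 4) (nat_lit 0x2000300000003c001600000001000080000000000000000000000000000000) (nat_lit 0x0) (nat_lit 0x200002000800180004000200000000000000000000000000000000) := T_31 (nat_lit 179) (nat_lit 193) (nat_lit 2) (nat_lit 6) (nat_lit 11) L88144 (by decide +kernel)
theorem L88146 : W_31 (nat_lit 5) (nat_lit 0x2000300000003c000600000001000080000000000000000000000000000000) (nat_lit 0x0) (nat_lit 0x200002003800180004000200000000000000000000000000000000) := T_31 (nat_lit 180) (nat_lit 181) (nat_lit 2) (nat_lit 7) (nat_lit 11) L88145 (by decide +kernel)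
theorem L88147 : W_31 (nat_lit 6) (nat_lit 0x300000003c000600000001000080000000000000000000000000000000) (nat_lit 0x0) (nat_lit 0x20000000280002003800180004000200000000000000000000000000000000) := T_31 (nat_lit 245) (nat_lit 211) (nat_lit 6) (nat_lit 7) (nat_lit 14) L88146 (by decide +kernel)
theorem L88148 : W_31 (nat_lit 7) (nat_lit 0x300000001c000600000001000080000000000000000000000000000000) (nat_lit 0x0) (nat_lit 0x20000000280062003800180004000200000000000000000000000000000000) := T_31 (nat_lit 197) (nat_lit 198) (nat_lit 0) (nat_lit 11) (nat_lit 11) L88147 (by decide +kernel)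
theorem L88149 : W_31 (nat_lit 9) (nat_lit 0x300000000c000600000001000080000000000000000000000000000000) (nat_lit 0x0) (nat_lit 0x1bc00c800e800738038001c0004000200000000000000000000000000000000) := Q_31 (nat_lit 196) (C_31 L88117 (C_31 L88123 (C_31 L88127 (C_31 L88131 (C_31 L88136 (C_31 L88142 (C_31 L88148 N_31))))))) (by decide +kernel)
theorem L88150 : W_31 (nat_lit 5) (nat_lit 0x300000000c000600000001000080000000000000000000000000000000) (nat_lit 0x0) (nat_lit 0xa0004000100003001800040000000000000000000000000000000000000000) := T_31 (nat_lit 212) (nat_lit 245) (nat_lit 5) (nat_lit 8) (nat_lit 10) L19057 (by decide +kernel)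
theorem L88151 : W_31 (nat_lit 2) (nat_lit 0x300000000c000e00000001000080000000000000000000000000000000) (nat_lit 0x0) (nat_lit 0x2003000000000000000000000000000000000000000000000) := D_31 (nat_lit 180) (nat_lit 193) (nat_lit 181) (nat_lit 1) (nat_lit 10) (nat_lit 10) (nat_lit 1) (nat_lit 11) (nat_lit 10) (by decide +kernel)
theorem L88152 : W_31 (nat_lit 5) (nat_lit 0x300010000c001e00000001000080000000000000000000000000000000) (nat_lit 0x0) (nat_lit 0x80004000600070000000180000000000000000000000000000000000000000) := T_31 (nat_lit 230) (nat_lit 247) (nat_lit 7) (nat_lit 8) (nat_lit 10) L19487 (by decide +kernel)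
theorem L88153 : W_31 (nat_lit 6) (nat_lit 0x300010000c000e00000001000080000000000000000000000000000000) (nat_lit 0x0) (nat_lit 0x80004000600070003000180000000000000000000000000000000000000000) := T_31 (nat_lit 180) (nat_lit 181) (nat_lit 1) (nat_lit 11) (nat_lit 10) L88152 (by decide +kernel)
theorem L88154 : W_31 (nat_lit 7) (nat_lit 0x300000000c000e00000001000080000000000000000000000000000000) (nat_lit 0x0) (nat_lit 0x800040007000700030001c0000000000000000000000000000000000000000) := T_31 (nat_lit 212) (nat_lit 162) (nat_lit 6) (nat_lit 8) (nat_lit 13) L88153 (by decide +kernel)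
theorem L88155 : W_31 (nat_lit 2) (nat_lit 0x1000380010000d000e00000001000080000000000000000000000000000000) (nat_lit 0x0) (nat_lit 0x88004000000000000000000000000000000000000000000000000000000000) := D_31 (nat_lit 230) (nat_lit 243) (nat_lit 247) (nat_lit 1) (nat_lit 9) (nat_lit 13) (nat_lit 7) (nat_lit 8) (nat_lit 10) (by decide +kernel)
theorem L88156 : W_31 (nat_lit 3) (nat_lit 0x1000380000000d000e00000001000080000000000000000000000000000000) (nat_lit 0x0) (nat_lit 0x88004000100000000000040000000000000000000000000000000000000000) := T_31 (nat_lit 212) (nat_lit 162) (nat_lit 6) (nat_lit 8) (nat_lit 13) L88155 (by decide +kernel)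
theorem L88157 : W_31 (nat_lit 4) (nat_lit 0x380000000d000e00000001000080000000000000000000000000000000) (nat_lit 0x0) (nat_lit 0x98004000180000000000040000000000000000000000000000000000000000) := T_31 (nat_lit 244) (nat_lit 211) (nat_lit 5) (nat_lit 7) (nat_lit 10) L88156 (by decide +kernel)
theorem L88158 : W_31 (nat_lit 5) (nat_lit 0x380000000c000e00000001000080000000000000000000000000000000) (nat_lit 0x0) (nat_lit 0x98004000180003000000040000000000000000000000000000000000000000) := T_31 (nat_lit 192) (nat_lit 193) (nat_lit 2) (nat_lit 5) (nat_lit 11) L88157 (by decide +kernel)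
theorem L88159 : W_31 (nat_lit 2) (nat_lit 0x3c0010000c000e00000001000080000000000000000000000000000000) (nat_lit 0x0) (nat_lit 0x10000200080000000000000000000000000000000000000000000000000000) := D_31 (nat_lit 211) (nat_lit 225) (nat_lit 244) (nat_lit 2) (nat_lit 4) (nat_lit 13) (nat_lit 5) (nat_lit 7) (nat_lit 10) (by decide +kernel)
theorem L88160 : W_31 (nat_lit 3) (nat_lit 0x380010000c000e00000001000080000000000000000000000000000000) (nat_lit 0x0) (nat_lit 0x10000600280000000000000000000000000000000000000000000000000000) := T_31 (nat_lit 226) (nat_lit 213) (nat_lit 2) (nat_lit 5) (nat_lit 13) L88159 (by decide +kernel)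
theorem L88161 : W_31 (nat_lit 4) (nat_lit 0x380000000c000e00000001000080000000000000000000000000000000) (nat_lit 0x0) (nat_lit 0x10000600380000000000040000000000000000000000000000000000000000) := T_31 (nat_lit 212) (nat_lit 162) (nat_lit 6) (nat_lit 8) (nat_lit 13) L88160 (by decide +kernel)
theorem L88162 : W_31 (nat_lit 2) (nat_lit 0x1000780020000d000e00000001000080000000000000000000000000000000) (nat_lit 0x0) (nat_lit 0x180000000000010000000000000000000000000000000000000000000000000) := D_31 (nat_lit 247) (nat_lit 248) (nat_lit 196) (nat_lit 3) (nat_lit 6) (nat_lit 13) (nat_lit 4) (nat_lit 9) (nat_lit 14) (by decide +kernel)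
theorem L88163 : W_31 (nat_lit 3) (nat_lit 0x1000780000000d000e00000001000080000000000000000000000000000000) (nat_lit 0x0) (nat_lit 0x180000000600010000000000000000000000000000000000000000000000000) := T_31 (nat_lit 213) (nat_lit 214) (nat_lit 2) (nat_lit 6) (nat_lit 13) L88162 (by decide +kernel)
theorem L88164 : W_31 (nat_lit 4) (nat_lit 0x1000380000000d000e00000001000080000000000000000000000000000000) (nat_lit 0x0) (nat_lit 0x188004000600010000000000000000000000000000000000000000000000000) := T_31 (nat_lit 230) (nat_lit 243) (nat_lit 1) (nat_lit 9) (nat_lit 13) L88163 (by decide +kernel)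
theorem L88165 : W_31 (nat_lit 5) (nat_lit 0x380000000d000e00000001000080000000000000000000000000000000) (nat_lit 0x0) (nat_lit 0x198004000680010000000000000000000000000000000000000000000000000) := T_31 (nat_lit 244) (nat_lit 211) (nat_lit 5) (nat_lit 7) (nat_lit 10) L88164 (by decide +kernel)
theorem L88166 : W_31 (nat_lit 6) (nat_lit 0x380000000c000e00000001000080000000000000000000000000000000) (nat_lit 0x0) (nat_lit 0x198004000680013000000000000000000000000000000000000000000000000) := T_31 (nat_lit 192) (nat_lit 193) (nat_lit 2) (nat_lit 5) (nat_lit 11) L88165 (by decide +kernel)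
theorem L88167 : W_31 (nat_lit 2) (nat_lit 0x8003c0010000c000e00000001000080000000000000000000000000000000) (nat_lit 0x0) (nat_lit 0x90004000000000000000000000000000000000000000000000000000000000) := D_31 (nat_lit 230) (nat_lit 247) (nat_lit 244) (nat_lit 7) (nat_lit 8) (nat_lit 10) (nat_lit 1) (nat_lit 9) (nat_lit 13) (by decide +kernel)
theorem L88168 : W_31 (nat_lit 3) (nat_lit 0x3c0010000c000e00000001000080000000000000000000000000000000) (nat_lit 0x0) (nat_lit 0x9c004000000000000000000000000000000000000000000000000000000000) := T_31 (nat_lit 243) (nat_lit 242) (nat_lit 1) (nat_lit 8) (nat_lit 13) L88167 (by decide +kernel)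
theorem L88169 : W_31 (nat_lit 4) (nat_lit 0x380010000c000e00000001000080000000000000000000000000000000) (nat_lit 0x0) (nat_lit 0x9c004400200000000000000000000000000000000000000000000000000000) := T_31 (nat_lit 226) (nat_lit 213) (nat_lit 2) (nat_lit 5) (nat_lit 13) L88168 (by decide +kernel)
theorem L88170 : W_31 (nat_lit 5) (nat_lit 0x380000000c000e00000001000080000000000000000000000000000000) (nat_lit 0x0) (nat_lit 0x9c004400300000000000040000000000000000000000000000000000000000) := T_31 (nat_lit 212) (nat_lit 162) (nat_lit 6) (nat_lit 8) (nat_lit 13) L88169 (by decide +kernel)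
theorem L88171 : W_31 (nat_lit 2) (nat_lit 0x3e0010000c000e00000001000080000000000000000000000000000000) (nat_lit 0x0) (nat_lit 0xe000000000000000000000000000000000000000000000000000000000000) := D_31 (nat_lit 242) (nat_lit 241) (nat_lit 243) (nat_lit 1) (nat_lit 7) (nat_lit 13) (nat_lit 1) (nat_lit 8) (nat_lit 13) (by decide +kernel)
theorem L88172 : W_31 (nat_lit 3) (nat_lit 0x3c0010000c000e00000001000080000000000000000000000000000000) (nat_lit 0x0) (nat_lit 0xe000200080000000000000000000000000000000000000000000000000000) := T_31 (nat_lit 225) (nat_lit 211) (nat_lit 2) (nat_lit 4) (nat_lit 13) L88171 (by decide +kernel)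
theorem L88173 : W_31 (nat_lit 4) (nat_lit 0x380010000c000e00000001000080000000000000000000000000000000) (nat_lit 0x0) (nat_lit 0xe000600280000000000000000000000000000000000000000000000000000) := T_31 (nat_lit 226) (nat_lit 213) (nat_lit 2) (nat_lit 5) (nat_lit 13) L88172 (by decide +kernel)
theorem L88174 : W_31 (nat_lit 5) (nat_lit 0x380000000c000e00000001000080000000000000000000000000000000) (nat_lit 0x0) (nat_lit 0xe000600380000000000040000000000000000000000000000000000000000) := T_31 (nat_lit 212) (nat_lit 162) (nat_lit 6) (nat_lit 8) (nat_lit 13) L88173 (by decide +kernel)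
theorem L88175 : W_31 (nat_lit 7) (nat_lit 0x300000000c000e00000001000080000000000000000000000000000000) (nat_lit 0x0) (nat_lit 0x19e004e00780013000000040000000000000000000000000000000000000000) := Q_31 (nat_lit 227) (C_31 L88158 (C_31 L88161 (C_31 L88166 (C_31 L88170 (C_31 L88174 N_31))))) (by decide +kernel)
theorem L88176 : W_31 (nat_lit 8) (nat_lit 0x300000000c000600000001000080000000000000000000000000000000) (nat_lit 0x0) (nat_lit 0x19e004e007800730038001c0000000000000000000000000000000000000000) := Q_31 (nat_lit 179) (C_31 L88151 (C_31 L88154 (C_31 L88175 N_31))) (by decide +kernel)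
theorem L88177 : W_31 (nat_lit 10) (nat_lit 0x300000000c000200000001000080000000000000000000000000000000) (nat_lit 0x0) (nat_lit 0x1be00ce00f80073803c001c0004000200000000000000000000000000000000) := Q_31 (nat_lit 178) (C_31 L88103 (C_31 L88149 (C_31 L88150 (C_31 L88176 N_31)))) (by decide +kernel)
theorem L88178 : W_31 (nat_lit 11) (nat_lit 0x200000000c000200000001000080000000000000000000000000000000) (nat_lit 0x0) (nat_lit 0x2001fe00de00f80073803c001c0004000200000000000000000000000000000000) := Q_31 (nat_lit 228) (C_31 L88097 (C_31 L88100 (C_31 L88102 (C_31 L88177 N_31)))) (by decide +kernel)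
theorem L88179 : W_31 (nat_lit 4) (nat_lit 0x3c0000000c000200010001000080000000000000000000000000000000) (nat_lit 0x0) (nat_lit 0xe0000200038000000000000000000000000000000000000000000000000000) := T_31 (nat_lit 246) (nat_lit 247) (nat_lit 3) (nat_lit 5) (nat_lit 13) L85982 (by decide +kernel)
theorem L88180 : W_31 (nat_lit 5) (nat_lit 0x3c0000000c000200000001000080000000000000000000000000000000) (nat_lit 0x0) (nat_lit 0xe0000200038000000000010000800000000000000000000000000000000000) := T_31 (nat_lit 160) (nat_lit 143) (nat_lit 6) (nat_lit 7) (nat_lit 11) L88179 (by decide +kernel)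
theorem L88181 : W_31 (nat_lit 2) (nat_lit 0x48003e0000000c000200000001000080000000000000000000000000000000) (nat_lit 0x0) (nat_lit 0x38000000000000000000000000000000000000000000000000000) := D_31 (nat_lit 208) (nat_lit 207) (nat_lit 209) (nat_lit 0) (nat_lit 7) (nat_lit 13) (nat_lit 0) (nat_lit 8) (nat_lit 13) (by decide +kernel)
theorem L88182 : W_31 (nat_lit 3) (nat_lit 0x48003c0000000c000200000001000080000000000000000000000000000000) (nat_lit 0x0) (nat_lit 0x20000200038000000000000000000000000000000000000000000000000000) := T_31 (nat_lit 225) (nat_lit 245) (nat_lit 3) (nat_lit 4) (nat_lit 13) L88181 (by decide +kernel)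
theorem L88183 : W_31 (nat_lit 4) (nat_lit 0x8003c0000000c000200000001000080000000000000000000000000000000) (nat_lit 0x0) (nat_lit 0xe0000200038000000000000000000000000000000000000000000000000000) := T_31 (nat_lit 246) (nat_lit 247) (nat_lit 3) (nat_lit 5) (nat_lit 13) L88182 (by decide +kernel)
theorem L88184 : W_31 (nat_lit 5) (nat_lit 0x3c0000000c000200000001000080000000000000000000000000000000) (nat_lit 0x0) (nat_lit 0xec000200038000000000000000000000000000000000000000000000000000) := T_31 (nat_lit 243) (nat_lit 242) (nat_lit 1) (nat_lit 8) (nat_lit 13) L88183 (by decide +kernel)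
theorem L88185 : W_31 (nat_lit 2) (nat_lit 0x58003e0000800c000200010001000080000000000000000000000000000000) (nat_lit 0x0) (nat_lit 0x180004000000000000000000000000000000000000000000000000000) := D_31 (nat_lit 224) (nat_lit 206) (nat_lit 223) (nat_lit 0) (nat_lit 6) (nat_lit 13) (nat_lit 3) (nat_lit 2) (nat_lit 13) (by decide +kernel)
theorem L88186 : W_31 (nat_lit 3) (nat_lit 0x48003e0000800c000200010001000080000000000000000000000000000000) (nat_lit 0x0) (nat_lit 0x10004180004000000000000000000000000000000000000000000000000000) := T_31 (nat_lit 244) (nat_lit 230) (nat_lit 1) (nat_lit 9) (nat_lit 13) L88185 (by decide +kernel)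
theorem L88187 : W_31 (nat_lit 4) (nat_lit 0x48003e0000800c000200000001000080000000000000000000000000000000) (nat_lit 0x0) (nat_lit 0x10004180004000000000010000800000000000000000000000000000000000) := T_31 (nat_lit 160) (nat_lit 143) (nat_lit 6) (nat_lit 7) (nat_lit 11) L88186 (by decide +kernel)
theorem L88188 : W_31 (nat_lit 5) (nat_lit 0x48003e0000000c000200000001000080000000000000000000000000000000) (nat_lit 0x0) (nat_lit 0x1000418001c000000000010000800000000000000000000000000000000000) := T_31 (nat_lit 207) (nat_lit 208) (nat_lit 0) (nat_lit 7) (nat_lit 13) L88187 (by decide +kernel)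
theorem L88189 : W_31 (nat_lit 6) (nat_lit 0x48003c0000000c000200000001000080000000000000000000000000000000) (nat_lit 0x0) (nat_lit 0x3000438001c000000000010000800000000000000000000000000000000000) := T_31 (nat_lit 225) (nat_lit 245) (nat_lit 3) (nat_lit 4) (nat_lit 13) L88188 (by decide +kernel)
theorem L88190 : W_31 (nat_lit 7) (nat_lit 0x8003c0000000c000200000001000080000000000000000000000000000000) (nat_lit 0x0) (nat_lit 0xf000438001c000000000010000800000000000000000000000000000000000) := T_31 (nat_lit 246) (nat_lit 247) (nat_lit 3) (nat_lit 5) (nat_lit 13) L88189 (by decide +kernel)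
theorem L88191 : W_31 (nat_lit 8) (nat_lit 0x3c0000000c000200000001000080000000000000000000000000000000) (nat_lit 0x0) (nat_lit 0xfc00438001c000000000010000800000000000000000000000000000000000) := T_31 (nat_lit 243) (nat_lit 242) (nat_lit 1) (nat_lit 8) (nat_lit 13) L88190 (by decide +kernel)
theorem L88192 : W_31 (nat_lit 2) (nat_lit 0x108007c0042000c000200010001000080000000000000000000000000000000) (nat_lit 0x0) (nat_lit 0x200008000800000000000000000000000000000000000000000000000000000) := D_31 (nat_lit 231) (nat_lit 215) (nat_lit 249) (nat_lit 2) (nat_lit 7) (nat_lit 13) (nat_lit 3) (nat_lit 7) (nat_lit 13) (by decide +kernel)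
theorem L88193 : W_31 (nat_lit 3) (nat_lit 0x8007c0042000c000200010001000080000000000000000000000000000000) (nat_lit 0x0) (nat_lit 0x380008000800000000000000000000000000000000000000000000000000000) := T_31 (nat_lit 248) (nat_lit 247) (nat_lit 3) (nat_lit 6) (nat_lit 13) L88192 (by decide +kernel)
theorem L88194 : W_31 (nat_lit 4) (nat_lit 0x8007c0002000c000200010001000080000000000000000000000000000000) (nat_lit 0x0) (nat_lit 0x380008000e00000000000000000000000000000000000000000000000000000) := T_31 (nat_lit 214) (nat_lit 213) (nat_lit 2) (nat_lit 6) (nat_lit 13) L88193 (by decide +kernel)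
theorem L88195 : W_31 (nat_lit 5) (nat_lit 0x8003c0002000c000200010001000080000000000000000000000000000000) (nat_lit 0x0) (nat_lit 0x39000c000e00000000000000000000000000000000000000000000000000000) := T_31 (nat_lit 230) (nat_lit 244) (nat_lit 1) (nat_lit 9) (nat_lit 13) L88194 (by decide +kernel)
theorem L88196 : W_31 (nat_lit 6) (nat_lit 0x3c0002000c000200010001000080000000000000000000000000000000) (nat_lit 0x0) (nat_lit 0x39c00c000e00000000000000000000000000000000000000000000000000000) := T_31 (nat_lit 243) (nat_lit 242) (nat_lit 1) (nat_lit 8) (nat_lit 13) L88195 (by decide +kernel)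
theorem L88197 : W_31 (nat_lit 7) (nat_lit 0x3c0000000c000200010001000080000000000000000000000000000000) (nat_lit 0x0) (nat_lit 0x39c00c000e30000000000000000000000000000000000000000000000000000) := T_31 (nat_lit 209) (nat_lit 208) (nat_lit 0) (nat_lit 8) (nat_lit 13) L88196 (by decide +kernel)
theorem L88198 : W_31 (nat_lit 8) (nat_lit 0x3c0000000c000200000001000080000000000000000000000000000000) (nat_lit 0x0) (nat_lit 0x39c00c000e30000000000010000800000000000000000000000000000000000) := T_31 (nat_lit 160) (nat_lit 143) (nat_lit 6) (nat_lit 7) (nat_lit 11) L88197 (by decide +kernel)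
theorem L88199 : W_31 (nat_lit 2) (nat_lit 0x8007c0000000c000200010001000080000000000000000000000000000000) (nat_lit 0x0) (nat_lit 0x1c0000000000000000000000000000000000000000000000000000000000000) := D_31 (nat_lit 247) (nat_lit 246) (nat_lit 248) (nat_lit 3) (nat_lit 5) (nat_lit 13) (nat_lit 3) (nat_lit 6) (nat_lit 13) (by decide +kernel)
theorem L88200 : W_31 (nat_lit 3) (nat_lit 0x8003c0000000c000200010001000080000000000000000000000000000000) (nat_lit 0x0) (nat_lit 0x1d0004000000000000000000000000000000000000000000000000000000000) := T_31 (nat_lit 230) (nat_lit 244) (nat_lit 1) (nat_lit 9) (nat_lit 13) L88199 (by decide +kernel)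
theorem L88201 : W_31 (nat_lit 4) (nat_lit 0x8003c0000000c000200000001000080000000000000000000000000000000) (nat_lit 0x0) (nat_lit 0x1d0004000000000000000010000800000000000000000000000000000000000) := T_31 (nat_lit 160) (nat_lit 143) (nat_lit 6) (nat_lit 7) (nat_lit 11) L88200 (by decide +kernel)
theorem L88202 : W_31 (nat_lit 5) (nat_lit 0x3c0000000c000200000001000080000000000000000000000000000000) (nat_lit 0x0) (nat_lit 0x1dc004000000000000000010000800000000000000000000000000000000000) := T_31 (nat_lit 243) (nat_lit 242) (nat_lit 1) (nat_lit 8) (nat_lit 13) L88201 (by decide +kernel)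
theorem L88203 : W_31 (nat_lit 2) (nat_lit 0x18003c0002000c000200010001000080000000000000000000000000000000) (nat_lit 0x0) (nat_lit 0x4000200000000000000001000000000000000000000000000000000000000000000000) := D_31 (nat_lit 261) (nat_lit 278) (nat_lit 192) (nat_lit 4) (nat_lit 6) (nat_lit 16) (nat_lit 7) (nat_lit 5) (nat_lit 11) (by decide +kernel)
theorem L88204 : W_31 (nat_lit 3) (nat_lit 0x8003c0002000c000200010001000080000000000000000000000000000000) (nat_lit 0x0) (nat_lit 0x4000200010004000000001000000000000000000000000000000000000000000000000) := T_31 (nat_lit 244) (nat_lit 230) (nat_lit 1) (nat_lit 9) (nat_lit 13) L88203 (by decide +kernel)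
theorem L88205 : W_31 (nat_lit 4) (nat_lit 0x3c0002000c000200010001000080000000000000000000000000000000) (nat_lit 0x0) (nat_lit 0x400020001c004000000001000000000000000000000000000000000000000000000000) := T_31 (nat_lit 243) (nat_lit 242) (nat_lit 1) (nat_lit 8) (nat_lit 13) L88204 (by decide +kernel)
theorem L88206 : W_31 (nat_lit 5) (nat_lit 0x3c0002000c000200000001000080000000000000000000000000000000) (nat_lit 0x0) (nat_lit 0x400020001c004000000001000000010000800000000000000000000000000000000000) := T_31 (nat_lit 160) (nat_lit 143) (nat_lit 6) (nat_lit 7) (nat_lit 11) L88205 (by decide +kernel)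
theorem L88207 : W_31 (nat_lit 6) (nat_lit 0x3c0000000c000200000001000080000000000000000000000000000000) (nat_lit 0x0) (nat_lit 0x400020001c004000030001000000010000800000000000000000000000000000000000) := T_31 (nat_lit 209) (nat_lit 208) (nat_lit 0) (nat_lit 8) (nat_lit 13) L88206 (by decide +kernel)
theorem L88208 : W_31 (nat_lit 9) (nat_lit 0x380000000c000200000001000080000000000000000000000000000000) (nat_lit 0x0) (nat_lit 0x40002003fc00c780e3c001000000010000800000000000000000000000000000000000) := Q_31 (nat_lit 226) (C_31 L88180 (C_31 L88184 (C_31 L88191 (C_31 L88198 (C_31 L88202 (C_31 L88207 N_31)))))) (by decide +kernel)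
theorem L88209 : W_31 (nat_lit 2) (nat_lit 0x1000f80000000c000200010001000080000000000000000000000000000000) (nat_lit 0x0) (nat_lit 0x380000000000000000000000000000000000000000000000000000000000000) := D_31 (nat_lit 248) (nat_lit 247) (nat_lit 249) (nat_lit 3) (nat_lit 6) (nat_lit 13) (nat_lit 3) (nat_lit 7) (nat_lit 13) (by decide +kernel)
theorem L88210 : W_31 (nat_lit 3) (nat_lit 0x1000780000000c000200010001000080000000000000000000000000000000) (nat_lit 0x0) (nat_lit 0x3a0008000000000000000000000000000000000000000000000000000000000) := T_31 (nat_lit 231) (nat_lit 245) (nat_lit 1) (nat_lit 10) (nat_lit 13) L88209 (by decide +kernel)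
theorem L88211 : W_31 (nat_lit 4) (nat_lit 0x1000380000000c000200010001000080000000000000000000000000000000) (nat_lit 0x0) (nat_lit 0x3a800c000000000000000000000000000000000000000000000000000000000) := T_31 (nat_lit 230) (nat_lit 243) (nat_lit 1) (nat_lit 9) (nat_lit 13) L88210 (by decide +kernel)
theorem L88212 : W_31 (nat_lit 5) (nat_lit 0x380000000c000200010001000080000000000000000000000000000000) (nat_lit 0x0) (nat_lit 0x3b800c000080000000000000000000000000000000000000000000000000000) := T_31 (nat_lit 244) (nat_lit 211) (nat_lit 5) (nat_lit 7) (nat_lit 10) L88211 (by decide +kernel)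
theorem L88213 : W_31 (nat_lit 6) (nat_lit 0x380000000c000200000001000080000000000000000000000000000000) (nat_lit 0x0) (nat_lit 0x3b800c000080000000000010000800000000000000000000000000000000000) := T_31 (nat_lit 160) (nat_lit 143) (nat_lit 6) (nat_lit 7) (nat_lit 11) L88212 (by decide +kernel)
theorem L88214 : W_31 (nat_lit 5) (nat_lit 0x380000000c000200000001000080000000000000000000000000000000) (nat_lit 0x0) (nat_lit 0xe00006000b8000000000000000000000000000000000000000000000000000) := T_31 (nat_lit 246) (nat_lit 211) (nat_lit 7) (nat_lit 7) (nat_lit 10) L85985 (by decide +kernel)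
theorem L88215 : W_31 (nat_lit 10) (nat_lit 0x300000000c000200000001000080000000000000000000000000000000) (nat_lit 0x0) (nat_lit 0x40002003fc00cf80ebc001000000010000800000000000000000000000000000000000) := Q_31 (nat_lit 227) (C_31 L9305 (C_31 L88208 (C_31 L88213 (C_31 L88214 N_31)))) (by decide +kernel)
theorem L88216 : W_31 (nat_lit 8) (nat_lit 0x700000000c000200000001000080000000000000000000000000000000) (nat_lit 0x0) (nat_lit 0x7f8018e00e00000000000010000800000000000000000000000000000000000) := T_31 (nat_lit 160) (nat_lit 143) (nat_lit 6) (nat_lit 7) (nat_lit 11) L85969 (by decide +kernel)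
theorem L88217 : W_31 (nat_lit 2) (nat_lit 0x12000f80000000c000200000001000080000000000000000000000000000000) (nat_lit 0x0) (nat_lit 0xe00000000000000000000000000000000000000000000000000000) := D_31 (nat_lit 214) (nat_lit 213) (nat_lit 215) (nat_lit 2) (nat_lit 6) (nat_lit 13) (nat_lit 2) (nat_lit 7) (nat_lit 13) (by decide +kernel)
theorem L88218 : W_31 (nat_lit 3) (nat_lit 0x12000f00000000c000200000001000080000000000000000000000000000000) (nat_lit 0x0) (nat_lit 0x80000800e00000000000000000000000000000000000000000000000000000) := T_31 (nat_lit 227) (nat_lit 247) (nat_lit 3) (nat_lit 6) (nat_lit 13) L88217 (by decide +kernel)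
theorem L88219 : W_31 (nat_lit 4) (nat_lit 0x2000f00000000c000200000001000080000000000000000000000000000000) (nat_lit 0x0) (nat_lit 0x380000800e00000000000000000000000000000000000000000000000000000) := T_31 (nat_lit 248) (nat_lit 249) (nat_lit 3) (nat_lit 7) (nat_lit 13) L88218 (by decide +kernel)
theorem L88220 : W_31 (nat_lit 5) (nat_lit 0xf00000000c000200000001000080000000000000000000000000000000) (nat_lit 0x0) (nat_lit 0x3b0000800e00000000000000000000000000000000000000000000000000000) := T_31 (nat_lit 245) (nat_lit 244) (nat_lit 1) (nat_lit 10) (nat_lit 13) L88219 (by decide +kernel)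
theorem L88221 : W_31 (nat_lit 2) (nat_lit 0x12001f80000000c000200000001000080000000000000000000000000000000) (nat_lit 0x0) (nat_lit 0x1c00000000000000000000000000000000000000000000000000000) := D_31 (nat_lit 215) (nat_lit 214) (nat_lit 216) (nat_lit 2) (nat_lit 7) (nat_lit 13) (nat_lit 2) (nat_lit 8) (nat_lit 13) (by decide +kernel)
theorem L88222 : W_31 (nat_lit 3) (nat_lit 0x12000f80000000c000200000001000080000000000000000000000000000000) (nat_lit 0x0) (nat_lit 0x40010001c00000000000000000000000000000000000000000000000000000) := T_31 (nat_lit 232) (nat_lit 246) (nat_lit 1) (nat_lit 11) (nat_lit 13) L88221 (by decide +kernel)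
theorem L88223 : W_31 (nat_lit 4) (nat_lit 0x12000f00000000c000200000001000080000000000000000000000000000000) (nat_lit 0x0) (nat_lit 0xc0010801c00000000000000000000000000000000000000000000000000000) := T_31 (nat_lit 227) (nat_lit 247) (nat_lit 3) (nat_lit 6) (nat_lit 13) L88222 (by decide +kernel)
theorem L88224 : W_31 (nat_lit 5) (nat_lit 0x2000f00000000c000200000001000080000000000000000000000000000000) (nat_lit 0x0) (nat_lit 0x3c0010801c00000000000000000000000000000000000000000000000000000) := T_31 (nat_lit 248) (nat_lit 249) (nat_lit 3) (nat_lit 7) (nat_lit 13) L88223 (by decide +kernel)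
theorem L88225 : W_31 (nat_lit 6) (nat_lit 0xf00000000c000200000001000080000000000000000000000000000000) (nat_lit 0x0) (nat_lit 0x3f0010801c00000000000000000000000000000000000000000000000000000) := T_31 (nat_lit 245) (nat_lit 244) (nat_lit 1) (nat_lit 10) (nat_lit 13) L88224 (by decide +kernel)
theorem L88226 : W_31 (nat_lit 2) (nat_lit 0x22000f00040000c000200000001000080000000000000000000000000000000) (nat_lit 0x0) (nat_lit 0x440010000000000000000000000000000000000000000000000000000000000) := D_31 (nat_lit 232) (nat_lit 250) (nat_lit 246) (nat_lit 3) (nat_lit 8) (nat_lit 13) (nat_lit 1) (nat_lit 11) (nat_lit 13) (by decide +kernel)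
theorem L88227 : W_31 (nat_lit 3) (nat_lit 0x20000f00040000c000200000001000080000000000000000000000000000000) (nat_lit 0x0) (nat_lit 0x470010000000000000000000000000000000000000000000000000000000000) := T_31 (nat_lit 245) (nat_lit 244) (nat_lit 1) (nat_lit 10) (nat_lit 13) L88226 (by decide +kernel)
theorem L88228 : W_31 (nat_lit 4) (nat_lit 0xf00040000c000200000001000080000000000000000000000000000000) (nat_lit 0x0) (nat_lit 0x770010000000000000000000000000000000000000000000000000000000000) := T_31 (nat_lit 249) (nat_lit 248) (nat_lit 3) (nat_lit 7) (nat_lit 13) L88227 (by decide +kernel)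
theorem L88229 : W_31 (nat_lit 5) (nat_lit 0xf00000000c000200000001000080000000000000000000000000000000) (nat_lit 0x0) (nat_lit 0x770010000c00000000000000000000000000000000000000000000000000000) := T_31 (nat_lit 214) (nat_lit 215) (nat_lit 2) (nat_lit 7) (nat_lit 13) L88228 (by decide +kernel)
theorem L88230 : W_31 (nat_lit 2) (nat_lit 0xf80040000c000200000001000080000000000000000000000000000000) (nat_lit 0x0) (nat_lit 0x380000000000000000000000000000000000000000000000000000000000000) := D_31 (nat_lit 248) (nat_lit 249) (nat_lit 247) (nat_lit 3) (nat_lit 7) (nat_lit 13) (nat_lit 3) (nat_lit 6) (nat_lit 13) (by decide +kernel)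
theorem L88231 : W_31 (nat_lit 3) (nat_lit 0xf00040000c000200000001000080000000000000000000000000000000) (nat_lit 0x0) (nat_lit 0x380000800200000000000000000000000000000000000000000000000000000) := T_31 (nat_lit 227) (nat_lit 213) (nat_lit 2) (nat_lit 6) (nat_lit 13) L88230 (by decide +kernel)
theorem L88232 : W_31 (nat_lit 4) (nat_lit 0xf00000000c000200000001000080000000000000000000000000000000) (nat_lit 0x0) (nat_lit 0x380000800e00000000000000000000000000000000000000000000000000000) := T_31 (nat_lit 214) (nat_lit 215) (nat_lit 2) (nat_lit 7) (nat_lit 13) L88231 (by decide +kernel)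
theorem L88233 : W_31 (nat_lit 2) (nat_lit 0x6000f80040000c000200000001000080000000000000000000000000000000) (nat_lit 0x0) (nat_lit 0x80000600000000000000000000000000000000000000000000000000000000) := D_31 (nat_lit 226) (nat_lit 225) (nat_lit 247) (nat_lit 3) (nat_lit 4) (nat_lit 13) (nat_lit 3) (nat_lit 5) (nat_lit 13) (by decide +kernel)
theorem L88234 : W_31 (nat_lit 3) (nat_lit 0x2000f80040000c000200000001000080000000000000000000000000000000) (nat_lit 0x0) (nat_lit 0xc0010600000000000000000000000000000000000000000000000000000000) := T_31 (nat_lit 246) (nat_lit 232) (nat_lit 1) (nat_lit 11) (nat_lit 13) L88233 (by decide +kernel)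
theorem L88235 : W_31 (nat_lit 4) (nat_lit 0x2000f00040000c000200000001000080000000000000000000000000000000) (nat_lit 0x0) (nat_lit 0xc0010e00200000000000000000000000000000000000000000000000000000) := T_31 (nat_lit 227) (nat_lit 213) (nat_lit 2) (nat_lit 6) (nat_lit 13) L88234 (by decide +kernel)
theorem L88236 : W_31 (nat_lit 5) (nat_lit 0x2000f00000000c000200000001000080000000000000000000000000000000) (nat_lit 0x0) (nat_lit 0xc0010e00e00000000000000000000000000000000000000000000000000000) := T_31 (nat_lit 214) (nat_lit 215) (nat_lit 2) (nat_lit 7) (nat_lit 13) L88235 (by decide +kernel)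
theorem L88237 : W_31 (nat_lit 6) (nat_lit 0xf00000000c000200000001000080000000000000000000000000000000) (nat_lit 0x0) (nat_lit 0xf0010e00e00000000000000000000000000000000000000000000000000000) := T_31 (nat_lit 245) (nat_lit 244) (nat_lit 1) (nat_lit 10) (nat_lit 13) L88236 (by decide +kernel)
theorem L88238 : W_31 (nat_lit 7) (nat_lit 0x700000000c000200000001000080000000000000000000000000000000) (nat_lit 0x0) (nat_lit 0x7f8018e01e00000000000000000000000000000000000000000000000000000) := Q_31 (nat_lit 231) (C_31 L88220 (C_31 L88225 (C_31 L88229 (C_31 L9393 (C_31 L88232 (C_31 L88237 N_31)))))) (by decide +kernel)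
theorem L88239 : W_31 (nat_lit 6) (nat_lit 0xf00000000c000200000001000080000000000000000000000000000000) (nat_lit 0x0) (nat_lit 0x1000380000800c00020001000010000800000000000000000000000000000000000) := T_31 (nat_lit 160) (nat_lit 143) (nat_lit 6) (nat_lit 7) (nat_lit 11) L85973 (by decide +kernel)
theorem L88240 : W_31 (nat_lit 2) (nat_lit 0x1f00080000c000200010001000080000000000000000000000000000000) (nat_lit 0x0) (nat_lit 0x70000000000000000000000000000000000000000000000000000000000000) := D_31 (nat_lit 245) (nat_lit 246) (nat_lit 244) (nat_lit 1) (nat_lit 11) (nat_lit 13) (nat_lit 1) (nat_lit 10) (nat_lit 13) (by decide +kernel)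
theorem L88241 : W_31 (nat_lit 3) (nat_lit 0xf00080000c000200010001000080000000000000000000000000000000) (nat_lit 0x0) (nat_lit 0x70010001000000000000000000000000000000000000000000000000000000) := T_31 (nat_lit 232) (nat_lit 216) (nat_lit 2) (nat_lit 8) (nat_lit 13) L88240 (by decide +kernel)
theorem L88242 : W_31 (nat_lit 4) (nat_lit 0xf00080000c000200000001000080000000000000000000000000000000) (nat_lit 0x0) (nat_lit 0x70010001000000000000010000800000000000000000000000000000000000) := T_31 (nat_lit 160) (nat_lit 143) (nat_lit 6) (nat_lit 7) (nat_lit 11) L88241 (by decide +kernel)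
theorem L88243 : W_31 (nat_lit 5) (nat_lit 0xf00000000c000200000001000080000000000000000000000000000000) (nat_lit 0x0) (nat_lit 0x70010001c00000000000010000800000000000000000000000000000000000) := T_31 (nat_lit 215) (nat_lit 214) (nat_lit 2) (nat_lit 7) (nat_lit 13) L88242 (by decide +kernel)
theorem L88244 : W_31 (nat_lit 7) (nat_lit 0x700000000c000200000001000080000000000000000000000000000000) (nat_lit 0x0) (nat_lit 0x10007f8018801c00020001000010000800000000000000000000000000000000000) := Q_31 (nat_lit 231) (C_31 L9393 (C_31 L88229 (C_31 L88239 (C_31 L88243 N_31)))) (by decide +kernel)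
theorem L88245 : W_31 (nat_lit 2) (nat_lit 0x22001f00000000c000200000001000080000000000000000000000000000000) (nat_lit 0x0) (nat_lit 0x1c00000000000000000000000000000000000000000000000000000) := D_31 (nat_lit 215) (nat_lit 216) (nat_lit 214) (nat_lit 2) (nat_lit 8) (nat_lit 13) (nat_lit 2) (nat_lit 7) (nat_lit 13) (by decide +kernel)
theorem L88246 : W_31 (nat_lit 3) (nat_lit 0x22000f00000000c000200000001000080000000000000000000000000000000) (nat_lit 0x0) (nat_lit 0x400010001c00000000000000000000000000000000000000000000000000000) := T_31 (nat_lit 232) (nat_lit 250) (nat_lit 3) (nat_lit 8) (nat_lit 13) L88245 (by decide +kernel)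
theorem L88247 : W_31 (nat_lit 4) (nat_lit 0x20000f00000000c000200000001000080000000000000000000000000000000) (nat_lit 0x0) (nat_lit 0x430010001c00000000000000000000000000000000000000000000000000000) := T_31 (nat_lit 245) (nat_lit 244) (nat_lit 1) (nat_lit 10) (nat_lit 13) L88246 (by decide +kernel)
theorem L88248 : W_31 (nat_lit 5) (nat_lit 0xf00000000c000200000001000080000000000000000000000000000000) (nat_lit 0x0) (nat_lit 0x730010001c00000000000000000000000000000000000000000000000000000) := T_31 (nat_lit 249) (nat_lit 248) (nat_lit 3) (nat_lit 7) (nat_lit 13) L88247 (by decide +kernel)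
theorem L88249 : W_31 (nat_lit 2) (nat_lit 0x12007f00100000c000200010001000080000000000000000000000000000000) (nat_lit 0x0) (nat_lit 0x1c00000000000000000000000000000000000000000000000000000000000000) := D_31 (nat_lit 251) (nat_lit 250) (nat_lit 252) (nat_lit 3) (nat_lit 9) (nat_lit 13) (nat_lit 3) (nat_lit 10) (nat_lit 13) (by decide +kernel)
theorem L88250 : W_31 (nat_lit 3) (nat_lit 0x12003f00100000c000200010001000080000000000000000000000000000000) (nat_lit 0x0) (nat_lit 0x1c80040000000000000000000000000000000000000000000000000000000000) := T_31 (nat_lit 234) (nat_lit 247) (nat_lit 1) (nat_lit 13) (nat_lit 13) L88249 (by decide +kernel)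
theorem L88251 : W_31 (nat_lit 4) (nat_lit 0x12001f00100000c000200010001000080000000000000000000000000000000) (nat_lit 0x0) (nat_lit 0x1c80060002000000000000000000000000000000000000000000000000000000) := T_31 (nat_lit 233) (nat_lit 217) (nat_lit 2) (nat_lit 9) (nat_lit 13) L88250 (by decide +kernel)
theorem L88252 : W_31 (nat_lit 5) (nat_lit 0x12001f00000000c000200010001000080000000000000000000000000000000) (nat_lit 0x0) (nat_lit 0x1c80060003800000000000000000000000000000000000000000000000000000) := T_31 (nat_lit 216) (nat_lit 215) (nat_lit 2) (nat_lit 8) (nat_lit 13) L88251 (by decide +kernel)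
theorem L88253 : W_31 (nat_lit 6) (nat_lit 0x12001f00000000c000200000001000080000000000000000000000000000000) (nat_lit 0x0) (nat_lit 0x1c80060003800000000000010000800000000000000000000000000000000000) := T_31 (nat_lit 160) (nat_lit 143) (nat_lit 6) (nat_lit 7) (nat_lit 11) L88252 (by decide +kernel)
theorem L88254 : W_31 (nat_lit 7) (nat_lit 0x12000f00000000c000200000001000080000000000000000000000000000000) (nat_lit 0x0) (nat_lit 0x1cc0070003800000000000010000800000000000000000000000000000000000) := T_31 (nat_lit 232) (nat_lit 246) (nat_lit 1) (nat_lit 11) (nat_lit 13) L88253 (by decide +kernel)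
theorem L88255 : W_31 (nat_lit 8) (nat_lit 0x2000f00000000c000200000001000080000000000000000000000000000000) (nat_lit 0x0) (nat_lit 0x1fc0070003800000000000010000800000000000000000000000000000000000) := T_31 (nat_lit 248) (nat_lit 249) (nat_lit 3) (nat_lit 7) (nat_lit 13) L88254 (by decide +kernel)
theorem L88256 : W_31 (nat_lit 9) (nat_lit 0xf00000000c000200000001000080000000000000000000000000000000) (nat_lit 0x0) (nat_lit 0x1ff0070003800000000000010000800000000000000000000000000000000000) := T_31 (nat_lit 245) (nat_lit 244) (nat_lit 1) (nat_lit 10) (nat_lit 13) L88255 (by decide +kernel)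
theorem L88257 : W_31 (nat_lit 2) (nat_lit 0x20000f00080000c000200000001000080000000000000000000000000000000) (nat_lit 0x0) (nat_lit 0x400010001000000000000000000000000000000000000000000000000000000) := D_31 (nat_lit 232) (nat_lit 216) (nat_lit 250) (nat_lit 2) (nat_lit 8) (nat_lit 13) (nat_lit 3) (nat_lit 8) (nat_lit 13) (by decide +kernel)
theorem L88258 : W_31 (nat_lit 3) (nat_lit 0xf00080000c000200000001000080000000000000000000000000000000) (nat_lit 0x0) (nat_lit 0x700010001000000000000000000000000000000000000000000000000000000) := T_31 (nat_lit 249) (nat_lit 248) (nat_lit 3) (nat_lit 7) (nat_lit 13) L88257 (by decide +kernel)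
theorem L88259 : W_31 (nat_lit 4) (nat_lit 0xf00000000c000200000001000080000000000000000000000000000000) (nat_lit 0x0) (nat_lit 0x700010001c00000000000000000000000000000000000000000000000000000) := T_31 (nat_lit 215) (nat_lit 214) (nat_lit 2) (nat_lit 7) (nat_lit 13) L88258 (by decide +kernel)
theorem L88260 : W_31 (nat_lit 2) (nat_lit 0x22000f00000000c000200000001000080000000000000000000000000000000) (nat_lit 0x0) (nat_lit 0x440010000000000000000000000000000000000000000000000000000000000) := D_31 (nat_lit 232) (nat_lit 246) (nat_lit 250) (nat_lit 1) (nat_lit 11) (nat_lit 13) (nat_lit 3) (nat_lit 8) (nat_lit 13) (by decide +kernel)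
theorem L88261 : W_31 (nat_lit 3) (nat_lit 0x2000f00000000c000200000001000080000000000000000000000000000000) (nat_lit 0x0) (nat_lit 0x740010000000000000000000000000000000000000000000000000000000000) := T_31 (nat_lit 249) (nat_lit 248) (nat_lit 3) (nat_lit 7) (nat_lit 13) L88260 (by decide +kernel)
theorem L88262 : W_31 (nat_lit 4) (nat_lit 0xf00000000c000200000001000080000000000000000000000000000000) (nat_lit 0x0) (nat_lit 0x770010000000000000000000000000000000000000000000000000000000000) := T_31 (nat_lit 245) (nat_lit 244) (nat_lit 1) (nat_lit 10) (nat_lit 13) L88261 (by decide +kernel)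
theorem L88263 : W_31 (nat_lit 2) (nat_lit 0x10000f00040003c000200010001000080000000000000000000000000000000) (nat_lit 0x0) (nat_lit 0x80000000000000003000000000000000000000000000000000000000000000) := D_31 (nat_lit 180) (nat_lit 181) (nat_lit 247) (nat_lit 2) (nat_lit 7) (nat_lit 11) (nat_lit 5) (nat_lit 10) (nat_lit 10) (by decide +kernel)
theorem L88264 : W_31 (nat_lit 3) (nat_lit 0x10000f00040001c000200010001000080000000000000000000000000000000) (nat_lit 0x0) (nat_lit 0x80000000000020003800000000000000000000000000000000000000000000) := T_31 (nat_lit 197) (nat_lit 179) (nat_lit 4) (nat_lit 10) (nat_lit 14) L88263 (by decide +kernel)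
theorem L88265 : W_31 (nat_lit 4) (nat_lit 0x10000f00040001c000200000001000080000000000000000000000000000000) (nat_lit 0x0) (nat_lit 0x80000000000020003800010000800000000000000000000000000000000000) := T_31 (nat_lit 160) (nat_lit 143) (nat_lit 6) (nat_lit 7) (nat_lit 11) L88264 (by decide +kernel)
theorem L88266 : W_31 (nat_lit 5) (nat_lit 0x10000f00000001c000200000001000080000000000000000000000000000000) (nat_lit 0x0) (nat_lit 0x80000000c00020003800010000800000000000000000000000000000000000) := T_31 (nat_lit 214) (nat_lit 215) (nat_lit 2) (nat_lit 7) (nat_lit 13) L88265 (by decide +kernel)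
theorem L88267 : W_31 (nat_lit 6) (nat_lit 0xf00000001c000200000001000080000000000000000000000000000000) (nat_lit 0x0) (nat_lit 0x380000000c00020003800010000800000000000000000000000000000000000) := T_31 (nat_lit 248) (nat_lit 249) (nat_lit 3) (nat_lit 7) (nat_lit 13) L88266 (by decide +kernel)
theorem L88268 : W_31 (nat_lit 2) (nat_lit 0x10000f00040001c000200000001000080000000000000000000000000000000) (nat_lit 0x0) (nat_lit 0x2000000000000200002000000000000000000000000000000000000000000000000) := D_31 (nat_lit 213) (nat_lit 193) (nat_lit 265) (nat_lit 3) (nat_lit 6) (nat_lit 11) (nat_lit 4) (nat_lit 10) (nat_lit 15) (by decide +kernel)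
theorem L88269 : W_31 (nat_lit 3) (nat_lit 0xf00040001c000200000001000080000000000000000000000000000000) (nat_lit 0x0) (nat_lit 0x2000300000000200002000000000000000000000000000000000000000000000000) := T_31 (nat_lit 248) (nat_lit 249) (nat_lit 3) (nat_lit 7) (nat_lit 13) L88268 (by decide +kernel)
theorem L88270 : W_31 (nat_lit 4) (nat_lit 0xf00000001c000200000001000080000000000000000000000000000000) (nat_lit 0x0) (nat_lit 0x2000300000000e00002000000000000000000000000000000000000000000000000) := T_31 (nat_lit 214) (nat_lit 215) (nat_lit 2) (nat_lit 7) (nat_lit 13) L88269 (by decide +kernel)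
theorem L88271 : W_31 (nat_lit 2) (nat_lit 0x12000f00001001f000a40010001000080000000000000000000000000000000) (nat_lit 0x0) (nat_lit 0x8000800020000000000000000000000000000000000000000000) := D_31 (nat_lit 191) (nat_lit 207) (nat_lit 173) (nat_lit 1) (nat_lit 7) (nat_lit 11) (nat_lit 0) (nat_lit 7) (nat_lit 11) (by decide +kernel)
theorem L88272 : W_31 (nat_lit 3) (nat_lit 0x12000f00001001f000a00010001000080000000000000000000000000000000) (nat_lit 0x0) (nat_lit 0x80008000e0000000000000000000000000000000000000000000) := T_31 (nat_lit 174) (nat_lit 175) (nat_lit 0) (nat_lit 8) (nat_lit 11) L88271 (by decide +kernel)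
theorem L88273 : W_31 (nat_lit 4) (nat_lit 0x12000f00000001f000a00010001000080000000000000000000000000000000) (nat_lit 0x0) (nat_lit 0x380008000e0000000000000000000000000000000000000000000) := T_31 (nat_lit 208) (nat_lit 209) (nat_lit 1) (nat_lit 8) (nat_lit 11) L88272 (by decide +kernel)
theorem L88274 : W_31 (nat_lit 5) (nat_lit 0x12000f00000001e000a00010001000080000000000000000000000000000000) (nat_lit 0x0) (nat_lit 0x380018004e0000000000000000000000000000000000000000000) := T_31 (nat_lit 192) (nat_lit 178) (nat_lit 2) (nat_lit 5) (nat_lit 11) L88273 (by decide +kernel)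
theorem L88275 : W_31 (nat_lit 6) (nat_lit 0x12000f00000001c000a00010001000080000000000000000000000000000000) (nat_lit 0x0) (nat_lit 0x380038014e0000000000000000000000000000000000000000000) := T_31 (nat_lit 193) (nat_lit 180) (nat_lit 2) (nat_lit 6) (nat_lit 11) L88274 (by decide +kernel)
theorem L88276 : W_31 (nat_lit 7) (nat_lit 0x12000f00000001c000200010001000080000000000000000000000000000000) (nat_lit 0x0) (nat_lit 0x238003801ce0000000000000000000000000000000000000000000) := T_31 (nat_lit 179) (nat_lit 213) (nat_lit 7) (nat_lit 9) (nat_lit 10) L88275 (by decide +kernel)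
theorem L88277 : W_31 (nat_lit 8) (nat_lit 0x10000f00000001c000200010001000080000000000000000000000000000000) (nat_lit 0x0) (nat_lit 0x30000000238003801ce0000000000000000000000000000000000000000000) := T_31 (nat_lit 245) (nat_lit 244) (nat_lit 1) (nat_lit 10) (nat_lit 13) L88276 (by decide +kernel)
theorem L88278 : W_31 (nat_lit 9) (nat_lit 0xf00000001c000200010001000080000000000000000000000000000000) (nat_lit 0x0) (nat_lit 0x330000000238003801ce0000000000000000000000000000000000000000000) := T_31 (nat_lit 248) (nat_lit 249) (nat_lit 3) (nat_lit 7) (nat_lit 13) L88277 (by decide +kernel)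
theorem L88279 : W_31 (nat_lit 10) (nat_lit 0xf00000001c000200000001000080000000000000000000000000000000) (nat_lit 0x0) (nat_lit 0x330000000238003801ce0010000800000000000000000000000000000000000) := T_31 (nat_lit 160) (nat_lit 143) (nat_lit 6) (nat_lit 7) (nat_lit 11) L88278 (by decide +kernel)
theorem L88280 : W_31 (nat_lit 2) (nat_lit 0xf00041001f000a40010001000080000000000000000000000000000000) (nat_lit 0x0) (nat_lit 0x8000800020000000000000000000000000000000000000000000) := D_31 (nat_lit 191) (nat_lit 207) (nat_lit 173) (nat_lit 1) (nat_lit 7) (nat_lit 11) (nat_lit 0) (nat_lit 7) (nat_lit 11) (by decide +kernel)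
theorem L88281 : W_31 (nat_lit 3) (nat_lit 0xf00041001f000a00010001000080000000000000000000000000000000) (nat_lit 0x0) (nat_lit 0x80008000e0000000000000000000000000000000000000000000) := T_31 (nat_lit 174) (nat_lit 175) (nat_lit 0) (nat_lit 8) (nat_lit 11) L88280 (by decide +kernel)
theorem L88282 : W_31 (nat_lit 4) (nat_lit 0xf00040001f000a00010001000080000000000000000000000000000000) (nat_lit 0x0) (nat_lit 0x380008000e0000000000000000000000000000000000000000000) := T_31 (nat_lit 208) (nat_lit 209) (nat_lit 1) (nat_lit 8) (nat_lit 11) L88281 (by decide +kernel)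
theorem L88283 : W_31 (nat_lit 5) (nat_lit 0xf00040001e000a00010001000080000000000000000000000000000000) (nat_lit 0x0) (nat_lit 0x380018004e0000000000000000000000000000000000000000000) := T_31 (nat_lit 192) (nat_lit 178) (nat_lit 2) (nat_lit 5) (nat_lit 11) L88282 (by decide +kernel)
theorem L88284 : W_31 (nat_lit 6) (nat_lit 0xf00040001e000200010001000080000000000000000000000000000000) (nat_lit 0x0) (nat_lit 0x38001801ce0000000000000000000000000000000000000000000) := T_31 (nat_lit 179) (nat_lit 180) (nat_lit 2) (nat_lit 6) (nat_lit 11) L88283 (by decide +kernel)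
theorem L88285 : W_31 (nat_lit 7) (nat_lit 0xf00040001c000200010001000080000000000000000000000000000000) (nat_lit 0x0) (nat_lit 0x238003801ce0000000000000000000000000000000000000000000) := T_31 (nat_lit 193) (nat_lit 213) (nat_lit 3) (nat_lit 6) (nat_lit 11) L88284 (by decide +kernel)
theorem L88286 : W_31 (nat_lit 8) (nat_lit 0xf00040001c000200000001000080000000000000000000000000000000) (nat_lit 0x0) (nat_lit 0x238003801ce0010000800000000000000000000000000000000000) := T_31 (nat_lit 160) (nat_lit 143) (nat_lit 6) (nat_lit 7) (nat_lit 11) L88285 (by decide +kernel)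
theorem L88287 : W_31 (nat_lit 9) (nat_lit 0xf00000001c000200000001000080000000000000000000000000000000) (nat_lit 0x0) (nat_lit 0xe38003801ce0010000800000000000000000000000000000000000) := T_31 (nat_lit 214) (nat_lit 215) (nat_lit 2) (nat_lit 7) (nat_lit 13) L88286 (by decide +kernel)
theorem L88288 : W_31 (nat_lit 11) (nat_lit 0xf00000000c000200000001000080000000000000000000000000000000) (nat_lit 0x0) (nat_lit 0x20003b0000000e38033803ce0010000800000000000000000000000000000000000) := Q_31 (nat_lit 196) (C_31 L88267 (C_31 L88270 (C_31 L88279 (C_31 L88287 N_31)))) (by decide +kernel)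
theorem L88289 : W_31 (nat_lit 12) (nat_lit 0x700000000c000200000001000080000000000000000000000000000000) (nat_lit 0x0) (nat_lit 0x2001ff0078003e38033803ce0010000800000000000000000000000000000000000) := Q_31 (nat_lit 231) (C_31 L88243 (C_31 L88229 (C_31 L88248 (C_31 L88256 (C_31 L88259 (C_31 L88262 (C_31 L88288 N_31))))))) (by decide +kernel)
theorem L88290 : W_31 (nat_lit 2) (nat_lit 0xf80040000c000200010001000080000000000000000000000000000000) (nat_lit 0x0) (nat_lit 0x38000000000000000000000000000000000000000000000000000000000000) := D_31 (nat_lit 244) (nat_lit 243) (nat_lit 245) (nat_lit 1) (nat_lit 9) (nat_lit 13) (nat_lit 1) (nat_lit 10) (nat_lit 13) (by decide +kernel)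
theorem L88291 : W_31 (nat_lit 3) (nat_lit 0xf00040000c000200010001000080000000000000000000000000000000) (nat_lit 0x0) (nat_lit 0x38000800200000000000000000000000000000000000000000000000000000) := T_31 (nat_lit 227) (nat_lit 213) (nat_lit 2) (nat_lit 6) (nat_lit 13) L88290 (by decide +kernel)
theorem L88292 : W_31 (nat_lit 4) (nat_lit 0xf00000000c000200010001000080000000000000000000000000000000) (nat_lit 0x0) (nat_lit 0x38000800e00000000000000000000000000000000000000000000000000000) := T_31 (nat_lit 214) (nat_lit 215) (nat_lit 2) (nat_lit 7) (nat_lit 13) L88291 (by decide +kernel)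
theorem L88293 : W_31 (nat_lit 5) (nat_lit 0xf00000000c000200000001000080000000000000000000000000000000) (nat_lit 0x0) (nat_lit 0x38000800e00000000000010000800000000000000000000000000000000000) := T_31 (nat_lit 160) (nat_lit 143) (nat_lit 6) (nat_lit 7) (nat_lit 11) L88292 (by decide +kernel)
theorem L88294 : W_31 (nat_lit 12) (nat_lit 0x700000000c000200000001000080000000000000000000000000000000) (nat_lit 0x0) (nat_lit 0x20007b8018801e38033803ce0010000800000000000000000000000000000000000) := Q_31 (nat_lit 231) (C_31 L88259 (C_31 L88288 (C_31 L9393 (C_31 L88293 N_31)))) (by decide +kernel)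
theorem L88295 : W_31 (nat_lit 2) (nat_lit 0x1f00000000c000200000001000080000000000000000000000000000000) (nat_lit 0x0) (nat_lit 0x700000000000000000000000000000000000000000000000000000000000000) := D_31 (nat_lit 249) (nat_lit 248) (nat_lit 250) (nat_lit 3) (nat_lit 7) (nat_lit 13) (nat_lit 3) (nat_lit 8) (nat_lit 13) (by decide +kernel)
theorem L88296 : W_31 (nat_lit 2) (nat_lit 0x40001f00100000c000200010001000080000000000000000000000000000000) (nat_lit 0x0) (nat_lit 0x800020002000000000000000000000000000000000000000000000000000000) := D_31 (nat_lit 233) (nat_lit 217) (nat_lit 251) (nat_lit 2) (nat_lit 9) (nat_lit 13) (nat_lit 3) (nat_lit 9) (nat_lit 13) (by decide +kernel)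
theorem L88297 : W_31 (nat_lit 3) (nat_lit 0x1f00100000c000200010001000080000000000000000000000000000000) (nat_lit 0x0) (nat_lit 0xe00020002000000000000000000000000000000000000000000000000000000) := T_31 (nat_lit 250) (nat_lit 249) (nat_lit 3) (nat_lit 8) (nat_lit 13) L88296 (by decide +kernel)
theorem L88298 : W_31 (nat_lit 4) (nat_lit 0x1f00000000c000200010001000080000000000000000000000000000000) (nat_lit 0x0) (nat_lit 0xe00020003800000000000000000000000000000000000000000000000000000) := T_31 (nat_lit 216) (nat_lit 215) (nat_lit 2) (nat_lit 8) (nat_lit 13) L88297 (by decide +kernel)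
theorem L88299 : W_31 (nat_lit 5) (nat_lit 0x1f00000000c000200000001000080000000000000000000000000000000) (nat_lit 0x0) (nat_lit 0xe00020003800000000000010000800000000000000000000000000000000000) := T_31 (nat_lit 160) (nat_lit 143) (nat_lit 6) (nat_lit 7) (nat_lit 11) L88298 (by decide +kernel)
theorem L88300 : W_31 (nat_lit 2) (nat_lit 0x8003f00100000c000200010001000080000000000000000000000000000000) (nat_lit 0x0) (nat_lit 0x100040800000000000000000000000000000000000000000000000000000000) := D_31 (nat_lit 248) (nat_lit 234) (nat_lit 227) (nat_lit 1) (nat_lit 13) (nat_lit 13) (nat_lit 3) (nat_lit 6) (nat_lit 13) (by decide +kernel)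
theorem L88301 : W_31 (nat_lit 3) (nat_lit 0x3f00100000c000200010001000080000000000000000000000000000000) (nat_lit 0x0) (nat_lit 0x1c0040800000000000000000000000000000000000000000000000000000000) := T_31 (nat_lit 247) (nat_lit 246) (nat_lit 1) (nat_lit 12) (nat_lit 13) L88300 (by decide +kernel)
theorem L88302 : W_31 (nat_lit 4) (nat_lit 0x1f00100000c000200010001000080000000000000000000000000000000) (nat_lit 0x0) (nat_lit 0x1c0060802000000000000000000000000000000000000000000000000000000) := T_31 (nat_lit 233) (nat_lit 217) (nat_lit 2) (nat_lit 9) (nat_lit 13) L88301 (by decide +kernel)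
theorem L88303 : W_31 (nat_lit 5) (nat_lit 0x1f00100000c000200000001000080000000000000000000000000000000) (nat_lit 0x0) (nat_lit 0x1c0060802000000000000010000800000000000000000000000000000000000) := T_31 (nat_lit 160) (nat_lit 143) (nat_lit 6) (nat_lit 7) (nat_lit 11) L88302 (by decide +kernel)
theorem L88304 : W_31 (nat_lit 6) (nat_lit 0x1f00000000c000200000001000080000000000000000000000000000000) (nat_lit 0x0) (nat_lit 0x1c0060803800000000000010000800000000000000000000000000000000000) := T_31 (nat_lit 216) (nat_lit 215) (nat_lit 2) (nat_lit 8) (nat_lit 13) L88303 (by decide +kernel)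
theorem L88305 : W_31 (nat_lit 7) (nat_lit 0xf00000000c000200000001000080000000000000000000000000000000) (nat_lit 0x0) (nat_lit 0xfc0070803800000000000010000800000000000000000000000000000000000) := Q_31 (nat_lit 232) (C_31 L88295 (C_31 L88299 (C_31 L88304 N_31))) (by decide +kernel)
theorem L88306 : W_31 (nat_lit 2) (nat_lit 0x42001f00100000c000200010001000080000000000000000000000000000000) (nat_lit 0x0) (nat_lit 0x800020002000000000000000000000000000000000000000000000000000000) := D_31 (nat_lit 233) (nat_lit 217) (nat_lit 251) (nat_lit 2) (nat_lit 9) (nat_lit 13) (nat_lit 3) (nat_lit 9) (nat_lit 13) (by decide +kernel)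
theorem L88307 : W_31 (nat_lit 3) (nat_lit 0x2001f00100000c000200010001000080000000000000000000000000000000) (nat_lit 0x0) (nat_lit 0xe00020002000000000000000000000000000000000000000000000000000000) := T_31 (nat_lit 250) (nat_lit 249) (nat_lit 3) (nat_lit 8) (nat_lit 13) L88306 (by decide +kernel)
theorem L88308 : W_31 (nat_lit 4) (nat_lit 0x2001f00000000c000200010001000080000000000000000000000000000000) (nat_lit 0x0) (nat_lit 0xe00020003800000000000000000000000000000000000000000000000000000) := T_31 (nat_lit 216) (nat_lit 215) (nat_lit 2) (nat_lit 8) (nat_lit 13) L88307 (by decide +kernel)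
theorem L88309 : W_31 (nat_lit 5) (nat_lit 0x2000f00000000c000200010001000080000000000000000000000000000000) (nat_lit 0x0) (nat_lit 0xe40030003800000000000000000000000000000000000000000000000000000) := T_31 (nat_lit 232) (nat_lit 246) (nat_lit 1) (nat_lit 11) (nat_lit 13) L88308 (by decide +kernel)
theorem L88310 : W_31 (nat_lit 6) (nat_lit 0x2000f00000000c000200000001000080000000000000000000000000000000) (nat_lit 0x0) (nat_lit 0xe40030003800000000000010000800000000000000000000000000000000000) := T_31 (nat_lit 160) (nat_lit 143) (nat_lit 6) (nat_lit 7) (nat_lit 11) L88309 (by decide +kernel)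
theorem L88311 : W_31 (nat_lit 7) (nat_lit 0xf00000000c000200000001000080000000000000000000000000000000) (nat_lit 0x0) (nat_lit 0xe70030003800000000000010000800000000000000000000000000000000000) := T_31 (nat_lit 245) (nat_lit 244) (nat_lit 1) (nat_lit 10) (nat_lit 13) L88310 (by decide +kernel)
theorem L88312 : W_31 (nat_lit 2) (nat_lit 0xf80000000c000200000001000080000000000000000000000000000000) (nat_lit 0x0) (nat_lit 0x38000000000000000000000000000000000000000000000000000000000000) := D_31 (nat_lit 244) (nat_lit 245) (nat_lit 243) (nat_lit 1) (nat_lit 10) (nat_lit 13) (nat_lit 1) (nat_lit 9) (nat_lit 13) (by decide +kernel)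
theorem L88313 : W_31 (nat_lit 2) (nat_lit 0x8000fc0000000c000200000001000080000000000000000000000000000000) (nat_lit 0x0) (nat_lit 0x1c000000000000000000000000000000000000000000000000000000000000) := D_31 (nat_lit 243) (nat_lit 242) (nat_lit 244) (nat_lit 1) (nat_lit 8) (nat_lit 13) (nat_lit 1) (nat_lit 9) (nat_lit 13) (by decide +kernel)
theorem L88314 : W_31 (nat_lit 3) (nat_lit 0x8000f80000000c000200000001000080000000000000000000000000000000) (nat_lit 0x0) (nat_lit 0x5c000400000000000000000000000000000000000000000000000000000000) := T_31 (nat_lit 226) (nat_lit 246) (nat_lit 3) (nat_lit 5) (nat_lit 13) L88313 (by decide +kernel)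
theorem L88315 : W_31 (nat_lit 4) (nat_lit 0xf80000000c000200000001000080000000000000000000000000000000) (nat_lit 0x0) (nat_lit 0x1dc000400000000000000000000000000000000000000000000000000000000) := T_31 (nat_lit 247) (nat_lit 248) (nat_lit 3) (nat_lit 6) (nat_lit 13) L88314 (by decide +kernel)
theorem L88316 : W_31 (nat_lit 2) (nat_lit 0x8400fc0001000c000200000001000080000000000000000000000000000000) (nat_lit 0x0) (nat_lit 0x2000200008000000000000000000000000000000000000000000000000000) := D_31 (nat_lit 225) (nat_lit 241) (nat_lit 207) (nat_lit 1) (nat_lit 7) (nat_lit 13) (nat_lit 0) (nat_lit 7) (nat_lit 13) (by decide +kernel)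
theorem L88317 : W_31 (nat_lit 3) (nat_lit 0x8400fc0000000c000200000001000080000000000000000000000000000000) (nat_lit 0x0) (nat_lit 0x2000200038000000000000000000000000000000000000000000000000000) := T_31 (nat_lit 208) (nat_lit 209) (nat_lit 0) (nat_lit 8) (nat_lit 13) L88316 (by decide +kernel)
theorem L88318 : W_31 (nat_lit 4) (nat_lit 0x8000fc0000000c000200000001000080000000000000000000000000000000) (nat_lit 0x0) (nat_lit 0xe000200038000000000000000000000000000000000000000000000000000) := T_31 (nat_lit 242) (nat_lit 243) (nat_lit 1) (nat_lit 8) (nat_lit 13) L88317 (by decide +kernel)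
theorem L88319 : W_31 (nat_lit 5) (nat_lit 0x8000f80000000c000200000001000080000000000000000000000000000000) (nat_lit 0x0) (nat_lit 0x4e000600038000000000000000000000000000000000000000000000000000) := T_31 (nat_lit 226) (nat_lit 246) (nat_lit 3) (nat_lit 5) (nat_lit 13) L88318 (by decide +kernel)
theorem L88320 : W_31 (nat_lit 6) (nat_lit 0xf80000000c000200000001000080000000000000000000000000000000) (nat_lit 0x0) (nat_lit 0x1ce000600038000000000000000000000000000000000000000000000000000) := T_31 (nat_lit 247) (nat_lit 248) (nat_lit 3) (nat_lit 6) (nat_lit 13) L88319 (by decide +kernel)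
theorem L88321 : W_31 (nat_lit 2) (nat_lit 0xa000f80000000c000200010001000080000000000000000000000000000000) (nat_lit 0x0) (nat_lit 0x40010400000000000000000000000000000000000000000000000000000000) := D_31 (nat_lit 246) (nat_lit 226) (nat_lit 232) (nat_lit 3) (nat_lit 5) (nat_lit 13) (nat_lit 1) (nat_lit 11) (nat_lit 13) (by decide +kernel)
theorem L88322 : W_31 (nat_lit 3) (nat_lit 0x2000f80000000c000200010001000080000000000000000000000000000000) (nat_lit 0x0) (nat_lit 0x1c0010400000000000000000000000000000000000000000000000000000000) := T_31 (nat_lit 247) (nat_lit 248) (nat_lit 3) (nat_lit 6) (nat_lit 13) L88321 (by decide +kernel)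
theorem L88323 : W_31 (nat_lit 4) (nat_lit 0xf80000000c000200010001000080000000000000000000000000000000) (nat_lit 0x0) (nat_lit 0x1f0010400000000000000000000000000000000000000000000000000000000) := T_31 (nat_lit 245) (nat_lit 244) (nat_lit 1) (nat_lit 10) (nat_lit 13) L88322 (by decide +kernel)
theorem L88324 : W_31 (nat_lit 5) (nat_lit 0xf80000000c000200000001000080000000000000000000000000000000) (nat_lit 0x0) (nat_lit 0x1f0010400000000000000010000800000000000000000000000000000000000) := T_31 (nat_lit 160) (nat_lit 143) (nat_lit 6) (nat_lit 7) (nat_lit 11) L88323 (by decide +kernel)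
theorem L88325 : W_31 (nat_lit 7) (nat_lit 0xf00000000c000200000001000080000000000000000000000000000000) (nat_lit 0x0) (nat_lit 0x1fe010e00038000000000010000800000000000000000000000000000000000) := Q_31 (nat_lit 227) (C_31 L88312 (C_31 L88315 (C_31 L88320 (C_31 L88324 N_31)))) (by decide +kernel)
theorem L88326 : W_31 (nat_lit 8) (nat_lit 0x700000000c000200000001000080000000000000000000000000000000) (nat_lit 0x0) (nat_lit 0xffe078e03838000000000010000800000000000000000000000000000000000) := Q_31 (nat_lit 231) (C_31 L88262 (C_31 L9393 (C_31 L88305 (C_31 L88311 (C_31 L88325 N_31))))) (by decide +kernel)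
theorem L88327 : W_31 (nat_lit 2) (nat_lit 0x7c0000000c000200000001000080000000000000000000000000000000) (nat_lit 0x0) (nat_lit 0x1c000000000000000000000000000000000000000000000000000000000000) := D_31 (nat_lit 243) (nat_lit 244) (nat_lit 242) (nat_lit 1) (nat_lit 9) (nat_lit 13) (nat_lit 1) (nat_lit 8) (nat_lit 13) (by decide +kernel)
theorem L88328 : W_31 (nat_lit 2) (nat_lit 0x4007c0021000c000200000001000080000000000000000000000000000000) (nat_lit 0x0) (nat_lit 0x2000200008000000000000000000000000000000000000000000000000000) := D_31 (nat_lit 225) (nat_lit 207) (nat_lit 241) (nat_lit 0) (nat_lit 7) (nat_lit 13) (nat_lit 1) (nat_lit 7) (nat_lit 13) (by decide +kernel)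
theorem L88329 : W_31 (nat_lit 3) (nat_lit 0x7c0021000c000200000001000080000000000000000000000000000000) (nat_lit 0x0) (nat_lit 0xe000200008000000000000000000000000000000000000000000000000000) := T_31 (nat_lit 242) (nat_lit 243) (nat_lit 1) (nat_lit 8) (nat_lit 13) L88328 (by decide +kernel)
theorem L88330 : W_31 (nat_lit 4) (nat_lit 0x7c0020000c000200000001000080000000000000000000000000000000) (nat_lit 0x0) (nat_lit 0xe000200038000000000000000000000000000000000000000000000000000) := T_31 (nat_lit 208) (nat_lit 209) (nat_lit 0) (nat_lit 8) (nat_lit 13) L88329 (by decide +kernel)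
theorem L88331 : W_31 (nat_lit 5) (nat_lit 0x7c0000000c000200000001000080000000000000000000000000000000) (nat_lit 0x0) (nat_lit 0xe000200638000000000000000000000000000000000000000000000000000) := T_31 (nat_lit 213) (nat_lit 214) (nat_lit 2) (nat_lit 6) (nat_lit 13) L88330 (by decide +kernel)
theorem L88332 : W_31 (nat_lit 5) (nat_lit 0x700040000c000200000001000080000000000000000000000000000000) (nat_lit 0x0) (nat_lit 0x8001a00032000000010000800000000000000000000000000000000000) := T_31 (nat_lit 160) (nat_lit 143) (nat_lit 6) (nat_lit 7) (nat_lit 11) L85976 (by decide +kernel)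
theorem L88333 : W_31 (nat_lit 4) (nat_lit 0x700040000c000200000001000080000000000000000000000000000000) (nat_lit 0x0) (nat_lit 0x380008800a00000000000000000000000000000000000000000000000000000) := T_31 (nat_lit 231) (nat_lit 215) (nat_lit 2) (nat_lit 7) (nat_lit 13) L88231 (by decide +kernel)
theorem L88334 : W_31 (nat_lit 6) (nat_lit 0x700040000c000200000001000080000000000000000000000000000000) (nat_lit 0x0) (nat_lit 0x1000380008800800020001000010000800000000000000000000000000000000000) := T_31 (nat_lit 160) (nat_lit 143) (nat_lit 6) (nat_lit 7) (nat_lit 11) L85977 (by decide +kernel)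
theorem L88335 : W_31 (nat_lit 2) (nat_lit 0x8800780040000c000200000001000080000000000000000000000000000000) (nat_lit 0x0) (nat_lit 0x44000400000000000000000000000000000000000000000000000000000000) := D_31 (nat_lit 226) (nat_lit 246) (nat_lit 242) (nat_lit 3) (nat_lit 5) (nat_lit 13) (nat_lit 1) (nat_lit 8) (nat_lit 13) (by decide +kernel)
theorem L88336 : W_31 (nat_lit 3) (nat_lit 0x800780040000c000200000001000080000000000000000000000000000000) (nat_lit 0x0) (nat_lit 0x1c4000400000000000000000000000000000000000000000000000000000000) := T_31 (nat_lit 247) (nat_lit 248) (nat_lit 3) (nat_lit 6) (nat_lit 13) L88335 (by decide +kernel)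
theorem L88337 : W_31 (nat_lit 4) (nat_lit 0x780040000c000200000001000080000000000000000000000000000000) (nat_lit 0x0) (nat_lit 0x1dc000400000000000000000000000000000000000000000000000000000000) := T_31 (nat_lit 243) (nat_lit 244) (nat_lit 1) (nat_lit 9) (nat_lit 13) L88336 (by decide +kernel)
theorem L88338 : W_31 (nat_lit 5) (nat_lit 0x700040000c000200000001000080000000000000000000000000000000) (nat_lit 0x0) (nat_lit 0x1dc000c00200000000000000000000000000000000000000000000000000000) := T_31 (nat_lit 227) (nat_lit 213) (nat_lit 2) (nat_lit 6) (nat_lit 13) L88337 (by decide +kernel)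
theorem L88339 : W_31 (nat_lit 7) (nat_lit 0x700000000c000200000001000080000000000000000000000000000000) (nat_lit 0x0) (nat_lit 0x10003dc008c01e00032001000010000800000000000000000000000000000000000) := Q_31 (nat_lit 214) (C_31 L88332 (C_31 L88333 (C_31 L88334 (C_31 L88338 N_31)))) (by decide +kernel)
theorem L88340 : W_31 (nat_lit 2) (nat_lit 0x22007e0021000c000200010001000080000000000000000000000000000000) (nat_lit 0x0) (nat_lit 0x11000100000000000000000000000000000000000000000000000000000000) := D_31 (nat_lit 224) (nat_lit 244) (nat_lit 240) (nat_lit 3) (nat_lit 3) (nat_lit 13) (nat_lit 1) (nat_lit 6) (nat_lit 13) (by decide +kernel)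
theorem L88341 : W_31 (nat_lit 3) (nat_lit 0x2007e0021000c000200010001000080000000000000000000000000000000) (nat_lit 0x0) (nat_lit 0x71000100000000000000000000000000000000000000000000000000000000) := T_31 (nat_lit 245) (nat_lit 246) (nat_lit 3) (nat_lit 4) (nat_lit 13) L88340 (by decide +kernel)
theorem L88342 : W_31 (nat_lit 4) (nat_lit 0x7e0021000c000200010001000080000000000000000000000000000000) (nat_lit 0x0) (nat_lit 0x77000100000000000000000000000000000000000000000000000000000000) := T_31 (nat_lit 241) (nat_lit 242) (nat_lit 1) (nat_lit 7) (nat_lit 13) L88341 (by decide +kernel)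
theorem L88343 : W_31 (nat_lit 5) (nat_lit 0x7c0021000c000200010001000080000000000000000000000000000000) (nat_lit 0x0) (nat_lit 0x77000300008000000000000000000000000000000000000000000000000000) := T_31 (nat_lit 225) (nat_lit 207) (nat_lit 0) (nat_lit 7) (nat_lit 13) L88342 (by decide +kernel)
theorem L88344 : W_31 (nat_lit 6) (nat_lit 0x7c0020000c000200010001000080000000000000000000000000000000) (nat_lit 0x0) (nat_lit 0x77000300038000000000000000000000000000000000000000000000000000) := T_31 (nat_lit 208) (nat_lit 209) (nat_lit 0) (nat_lit 8) (nat_lit 13) L88343 (by decide +kernel)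
theorem L88345 : W_31 (nat_lit 7) (nat_lit 0x7c0000000c000200010001000080000000000000000000000000000000) (nat_lit 0x0) (nat_lit 0x77000300638000000000000000000000000000000000000000000000000000) := T_31 (nat_lit 213) (nat_lit 214) (nat_lit 2) (nat_lit 6) (nat_lit 13) L88344 (by decide +kernel)
theorem L88346 : W_31 (nat_lit 8) (nat_lit 0x7c0000000c000200000001000080000000000000000000000000000000) (nat_lit 0x0) (nat_lit 0x77000300638000000000010000800000000000000000000000000000000000) := T_31 (nat_lit 160) (nat_lit 143) (nat_lit 6) (nat_lit 7) (nat_lit 11) L88345 (by decide +kernel)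
theorem L88347 : W_31 (nat_lit 2) (nat_lit 0x10007e0001000c000200000001000080000000000000000000000000000000) (nat_lit 0x0) (nat_lit 0x60000100000000000000000000000000000000000000000000000000000000) := D_31 (nat_lit 245) (nat_lit 224) (nat_lit 246) (nat_lit 3) (nat_lit 3) (nat_lit 13) (nat_lit 3) (nat_lit 4) (nat_lit 13) (by decide +kernel)
theorem L88348 : W_31 (nat_lit 3) (nat_lit 0x10007c0001000c000200000001000080000000000000000000000000000000) (nat_lit 0x0) (nat_lit 0x60000300008000000000000000000000000000000000000000000000000000) := T_31 (nat_lit 225) (nat_lit 207) (nat_lit 0) (nat_lit 7) (nat_lit 13) L88347 (by decide +kernel)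
theorem L88349 : W_31 (nat_lit 4) (nat_lit 0x7c0001000c000200000001000080000000000000000000000000000000) (nat_lit 0x0) (nat_lit 0x78000300008000000000000000000000000000000000000000000000000000) := T_31 (nat_lit 244) (nat_lit 243) (nat_lit 1) (nat_lit 9) (nat_lit 13) L88348 (by decide +kernel)
theorem L88350 : W_31 (nat_lit 5) (nat_lit 0x7c0000000c000200000001000080000000000000000000000000000000) (nat_lit 0x0) (nat_lit 0x78000300038000000000000000000000000000000000000000000000000000) := T_31 (nat_lit 208) (nat_lit 209) (nat_lit 0) (nat_lit 8) (nat_lit 13) L88349 (by decide +kernel)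
theorem L88351 : W_31 (nat_lit 9) (nat_lit 0x780000000c000200000001000080000000000000000000000000000000) (nat_lit 0x0) (nat_lit 0x7f000700638000000000010000800000000000000000000000000000000000) := Q_31 (nat_lit 226) (C_31 L88327 (C_31 L88331 (C_31 L88346 (C_31 L88350 N_31)))) (by decide +kernel)
theorem L88352 : W_31 (nat_lit 2) (nat_lit 0x9000780020001c001200010001000080000000000000000000000000000000) (nat_lit 0x0) (nat_lit 0x2000800080000000000000000000000000000000000000000) := D_31 (nat_lit 179) (nat_lit 163) (nat_lit 193) (nat_lit 6) (nat_lit 9) (nat_lit 13) (nat_lit 2) (nat_lit 6) (nat_lit 11) (by decide +kernel)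
theorem L88353 : W_31 (nat_lit 3) (nat_lit 0x9000780020001c000200010001000080000000000000000000000000000000) (nat_lit 0x0) (nat_lit 0x22001800080000000000000000000000000000000000000000) := T_31 (nat_lit 180) (nat_lit 197) (nat_lit 6) (nat_lit 9) (nat_lit 14) L88352 (by decide +kernel)
theorem L88354 : W_31 (nat_lit 4) (nat_lit 0x9000780020000c000200010001000080000000000000000000000000000000) (nat_lit 0x0) (nat_lit 0x32001c00080000000000000000000000000000000000000000) := T_31 (nat_lit 196) (nat_lit 178) (nat_lit 4) (nat_lit 9) (nat_lit 14) L88353 (by decide +kernel)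
theorem L88355 : W_31 (nat_lit 5) (nat_lit 0x9000780000000c000200010001000080000000000000000000000000000000) (nat_lit 0x0) (nat_lit 0x600032001c00080000000000000000000000000000000000000000) := T_31 (nat_lit 213) (nat_lit 214) (nat_lit 2) (nat_lit 6) (nat_lit 13) L88354 (by decide +kernel)
theorem L88356 : W_31 (nat_lit 6) (nat_lit 0x1000780000000c000200010001000080000000000000000000000000000000) (nat_lit 0x0) (nat_lit 0x180000000600032001c00080000000000000000000000000000000000000000) := T_31 (nat_lit 247) (nat_lit 248) (nat_lit 3) (nat_lit 6) (nat_lit 13) L88355 (by decide +kernel)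
theorem L88357 : W_31 (nat_lit 7) (nat_lit 0x1000780000000c000200000001000080000000000000000000000000000000) (nat_lit 0x0) (nat_lit 0x180000000600032001c00090000800000000000000000000000000000000000) := T_31 (nat_lit 160) (nat_lit 143) (nat_lit 6) (nat_lit 7) (nat_lit 11) L88356 (by decide +kernel)
theorem L88358 : W_31 (nat_lit 8) (nat_lit 0x780000000c000200000001000080000000000000000000000000000000) (nat_lit 0x0) (nat_lit 0x198000000600032001c00090000800000000000000000000000000000000000) := T_31 (nat_lit 244) (nat_lit 243) (nat_lit 1) (nat_lit 9) (nat_lit 13) L88357 (by decide +kernel)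
theorem L88359 : W_31 (nat_lit 2) (nat_lit 0x88007c0022001c001200010001000080000000000000000000000000000000) (nat_lit 0x0) (nat_lit 0x2000800080000000000000000000000000000000000000000) := D_31 (nat_lit 179) (nat_lit 163) (nat_lit 193) (nat_lit 6) (nat_lit 9) (nat_lit 13) (nat_lit 2) (nat_lit 6) (nat_lit 11) (by decide +kernel)
theorem L88360 : W_31 (nat_lit 3) (nat_lit 0x88007c0022001c000200010001000080000000000000000000000000000000) (nat_lit 0x0) (nat_lit 0x22001800080000000000000000000000000000000000000000) := T_31 (nat_lit 180) (nat_lit 197) (nat_lit 6) (nat_lit 9) (nat_lit 14) L88359 (by decide +kernel)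
theorem L88361 : W_31 (nat_lit 4) (nat_lit 0x88007c0022000c000200010001000080000000000000000000000000000000) (nat_lit 0x0) (nat_lit 0x32001c00080000000000000000000000000000000000000000) := T_31 (nat_lit 196) (nat_lit 178) (nat_lit 4) (nat_lit 9) (nat_lit 14) L88360 (by decide +kernel)
theorem L88362 : W_31 (nat_lit 5) (nat_lit 0x88007c0020000c000200010001000080000000000000000000000000000000) (nat_lit 0x0) (nat_lit 0x30032001c00080000000000000000000000000000000000000000) := T_31 (nat_lit 209) (nat_lit 208) (nat_lit 0) (nat_lit 8) (nat_lit 13) L88361 (by decide +kernel)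
theorem L88363 : W_31 (nat_lit 6) (nat_lit 0x80007c0020000c000200010001000080000000000000000000000000000000) (nat_lit 0x0) (nat_lit 0xc000000030032001c00080000000000000000000000000000000000000000) := T_31 (nat_lit 243) (nat_lit 242) (nat_lit 1) (nat_lit 8) (nat_lit 13) L88362 (by decide +kernel)
theorem L88364 : W_31 (nat_lit 7) (nat_lit 0x8000780020000c000200010001000080000000000000000000000000000000) (nat_lit 0x0) (nat_lit 0x4c000400030032001c00080000000000000000000000000000000000000000) := T_31 (nat_lit 226) (nat_lit 246) (nat_lit 3) (nat_lit 5) (nat_lit 13) L88363 (by decide +kernel)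
theorem L88365 : W_31 (nat_lit 8) (nat_lit 0x780020000c000200010001000080000000000000000000000000000000) (nat_lit 0x0) (nat_lit 0x1cc000400030032001c00080000000000000000000000000000000000000000) := T_31 (nat_lit 247) (nat_lit 248) (nat_lit 3) (nat_lit 6) (nat_lit 13) L88364 (by decide +kernel)
theorem L88366 : W_31 (nat_lit 9) (nat_lit 0x780020000c000200000001000080000000000000000000000000000000) (nat_lit 0x0) (nat_lit 0x1cc000400030032001c00090000800000000000000000000000000000000000) := T_31 (nat_lit 160) (nat_lit 143) (nat_lit 6) (nat_lit 7) (nat_lit 11) L88365 (by decide +kernel)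
theorem L88367 : W_31 (nat_lit 10) (nat_lit 0x780000000c000200000001000080000000000000000000000000000000) (nat_lit 0x0) (nat_lit 0x1cc000400630032001c00090000800000000000000000000000000000000000) := T_31 (nat_lit 213) (nat_lit 214) (nat_lit 2) (nat_lit 6) (nat_lit 13) L88366 (by decide +kernel)
theorem L88368 : W_31 (nat_lit 2) (nat_lit 0x80007c0022001c001200010001000080000000000000000000000000000000) (nat_lit 0x0) (nat_lit 0x2000800080000000000000000000000000000000000000000) := D_31 (nat_lit 179) (nat_lit 163) (nat_lit 193) (nat_lit 6) (nat_lit 9) (nat_lit 13) (nat_lit 2) (nat_lit 6) (nat_lit 11) (by decide +kernel)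
theorem L88369 : W_31 (nat_lit 3) (nat_lit 0x80007c0022001c000200010001000080000000000000000000000000000000) (nat_lit 0x0) (nat_lit 0x22001800080000000000000000000000000000000000000000) := T_31 (nat_lit 180) (nat_lit 197) (nat_lit 6) (nat_lit 9) (nat_lit 14) L88368 (by decide +kernel)
theorem L88370 : W_31 (nat_lit 4) (nat_lit 0x80007c0022000c000200010001000080000000000000000000000000000000) (nat_lit 0x0) (nat_lit 0x32001c00080000000000000000000000000000000000000000) := T_31 (nat_lit 196) (nat_lit 178) (nat_lit 4) (nat_lit 9) (nat_lit 14) L88369 (by decide +kernel)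
theorem L88371 : W_31 (nat_lit 5) (nat_lit 0x80007c0022000c000200000001000080000000000000000000000000000000) (nat_lit 0x0) (nat_lit 0x32001c00090000800000000000000000000000000000000000) := T_31 (nat_lit 160) (nat_lit 143) (nat_lit 6) (nat_lit 7) (nat_lit 11) L88370 (by decide +kernel)
theorem L88372 : W_31 (nat_lit 6) (nat_lit 0x80007c0002000c000200000001000080000000000000000000000000000000) (nat_lit 0x0) (nat_lit 0x600032001c00090000800000000000000000000000000000000000) := T_31 (nat_lit 213) (nat_lit 214) (nat_lit 2) (nat_lit 6) (nat_lit 13) L88371 (by decide +kernel)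
theorem L88373 : W_31 (nat_lit 7) (nat_lit 0x80007c0000000c000200000001000080000000000000000000000000000000) (nat_lit 0x0) (nat_lit 0x630032001c00090000800000000000000000000000000000000000) := T_31 (nat_lit 209) (nat_lit 208) (nat_lit 0) (nat_lit 8) (nat_lit 13) L88372 (by decide +kernel)
theorem L88374 : W_31 (nat_lit 8) (nat_lit 0x8000780000000c000200000001000080000000000000000000000000000000) (nat_lit 0x0) (nat_lit 0x40000400630032001c00090000800000000000000000000000000000000000) := T_31 (nat_lit 226) (nat_lit 246) (nat_lit 3) (nat_lit 5) (nat_lit 13) L88373 (by decide +kernel)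
theorem L88375 : W_31 (nat_lit 9) (nat_lit 0x780000000c000200000001000080000000000000000000000000000000) (nat_lit 0x0) (nat_lit 0x1c0000400630032001c00090000800000000000000000000000000000000000) := T_31 (nat_lit 247) (nat_lit 248) (nat_lit 3) (nat_lit 6) (nat_lit 13) L88374 (by decide +kernel)
theorem L88376 : W_31 (nat_lit 11) (nat_lit 0x700000000c000200000001000080000000000000000000000000000000) (nat_lit 0x0) (nat_lit 0x1ff000f00638032001c00090000800000000000000000000000000000000000) := Q_31 (nat_lit 227) (C_31 L88351 (C_31 L9632 (C_31 L88358 (C_31 L88367 (C_31 L88375 N_31))))) (by decide +kernel)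
theorem L88377 : W_31 (nat_lit 2) (nat_lit 0x2c001f80020000c000200010001000080000000000000000000000000000000) (nat_lit 0x0) (nat_lit 0x10000c00000000000000000000000000000000000000000000) := D_31 (nat_lit 196) (nat_lit 178) (nat_lit 179) (nat_lit 4) (nat_lit 9) (nat_lit 14) (nat_lit 5) (nat_lit 9) (nat_lit 10) (by decide +kernel)
theorem L88378 : W_31 (nat_lit 3) (nat_lit 0x2c001f80000000c000200010001000080000000000000000000000000000000) (nat_lit 0x0) (nat_lit 0x600010000c00000000000000000000000000000000000000000000) := T_31 (nat_lit 213) (nat_lit 214) (nat_lit 2) (nat_lit 6) (nat_lit 13) L88377 (by decide +kernel)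
theorem L88379 : W_31 (nat_lit 4) (nat_lit 0x2c001f00000000c000200010001000080000000000000000000000000000000) (nat_lit 0x0) (nat_lit 0xc00600010000c00000000000000000000000000000000000000000000) := T_31 (nat_lit 227) (nat_lit 226) (nat_lit 3) (nat_lit 5) (nat_lit 13) L88378 (by decide +kernel)
theorem L88380 : W_31 (nat_lit 5) (nat_lit 0x24001f00000000c000200010001000080000000000000000000000000000000) (nat_lit 0x0) (nat_lit 0x80020c00600010000c00000000000000000000000000000000000000000000) := T_31 (nat_lit 247) (nat_lit 233) (nat_lit 1) (nat_lit 12) (nat_lit 13) L88379 (by decide +kernel)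
theorem L88381 : W_31 (nat_lit 6) (nat_lit 0x20001f00000000c000200010001000080000000000000000000000000000000) (nat_lit 0x0) (nat_lit 0xe0020c00600010000c00000000000000000000000000000000000000000000) := T_31 (nat_lit 246) (nat_lit 245) (nat_lit 1) (nat_lit 11) (nat_lit 13) L88380 (by decide +kernel)
theorem L88382 : W_31 (nat_lit 7) (nat_lit 0x20000f00000000c000200010001000080000000000000000000000000000000) (nat_lit 0x0) (nat_lit 0x4e0030c00600010000c00000000000000000000000000000000000000000000) := T_31 (nat_lit 232) (nat_lit 250) (nat_lit 3) (nat_lit 8) (nat_lit 13) L88381 (by decide +kernel)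
theorem L88383 : W_31 (nat_lit 8) (nat_lit 0xf00000000c000200010001000080000000000000000000000000000000) (nat_lit 0x0) (nat_lit 0x7e0030c00600010000c00000000000000000000000000000000000000000000) := T_31 (nat_lit 249) (nat_lit 248) (nat_lit 3) (nat_lit 7) (nat_lit 13) L88382 (by decide +kernel)
theorem L88384 : W_31 (nat_lit 9) (nat_lit 0xf00000000c000200000001000080000000000000000000000000000000) (nat_lit 0x0) (nat_lit 0x7e0030c00600010000c00010000800000000000000000000000000000000000) := T_31 (nat_lit 160) (nat_lit 143) (nat_lit 6) (nat_lit 7) (nat_lit 11) L88383 (by decide +kernel)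
theorem L88385 : W_31 (nat_lit 2) (nat_lit 0xf00060001c000200010001000080000000000000000000000000000000) (nat_lit 0x0) (nat_lit 0x40000000000000000800040000000000000000000000000000000000000000) := D_31 (nat_lit 179) (nat_lit 246) (nat_lit 162) (nat_lit 5) (nat_lit 9) (nat_lit 10) (nat_lit 7) (nat_lit 9) (nat_lit 9) (by decide +kernel)
theorem L88386 : W_31 (nat_lit 3) (nat_lit 0xf00060000c000200010001000080000000000000000000000000000000) (nat_lit 0x0) (nat_lit 0x40000000000012000800040000000000000000000000000000000000000000) := T_31 (nat_lit 196) (nat_lit 193) (nat_lit 3) (nat_lit 6) (nat_lit 11) L88385 (by decide +kernel)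
theorem L88387 : W_31 (nat_lit 4) (nat_lit 0xf00060000c000200000001000080000000000000000000000000000000) (nat_lit 0x0) (nat_lit 0x40000000000012000800050000800000000000000000000000000000000000) := T_31 (nat_lit 160) (nat_lit 143) (nat_lit 6) (nat_lit 7) (nat_lit 11) L88386 (by decide +kernel)
theorem L88388 : W_31 (nat_lit 5) (nat_lit 0xf00040000c000200000001000080000000000000000000000000000000) (nat_lit 0x0) (nat_lit 0x40000800200012000800050000800000000000000000000000000000000000) := T_31 (nat_lit 213) (nat_lit 227) (nat_lit 2) (nat_lit 6) (nat_lit 13) L88387 (by decide +kernel)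
theorem L88389 : W_31 (nat_lit 6) (nat_lit 0xf00000000c000200000001000080000000000000000000000000000000) (nat_lit 0x0) (nat_lit 0x40000800e00012000800050000800000000000000000000000000000000000) := T_31 (nat_lit 214) (nat_lit 215) (nat_lit 2) (nat_lit 7) (nat_lit 13) L88388 (by decide +kernel)
theorem L88390 : W_31 (nat_lit 10) (nat_lit 0x700000000c000200000001000080000000000000000000000000000000) (nat_lit 0x0) (nat_lit 0xfe0078c03e00012000c00050000800000000000000000000000000000000000) := Q_31 (nat_lit 231) (C_31 L88259 (C_31 L88305 (C_31 L88384 (C_31 L88389 N_31)))) (by decide +kernel)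
theorem L88391 : W_31 (nat_lit 2) (nat_lit 0xf00040002c001200010001000080000000000000000000000000000000) (nat_lit 0x0) (nat_lit 0x10002000100000000000000000000000000000000000000000) := D_31 (nat_lit 181) (nat_lit 196) (nat_lit 164) (nat_lit 2) (nat_lit 7) (nat_lit 11) (nat_lit 6) (nat_lit 10) (nat_lit 13) (by decide +kernel)
theorem L88392 : W_31 (nat_lit 3) (nat_lit 0xf00040000c001200010001000080000000000000000000000000000000) (nat_lit 0x0) (nat_lit 0x80000000000030002000100000000000000000000000000000000000000000) := T_31 (nat_lit 197) (nat_lit 247) (nat_lit 5) (nat_lit 10) (nat_lit 10) L88391 (by decide +kernel)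
theorem L88393 : W_31 (nat_lit 4) (nat_lit 0xf00040000c001200000001000080000000000000000000000000000000) (nat_lit 0x0) (nat_lit 0x80000000000030002000110000800000000000000000000000000000000000) := T_31 (nat_lit 160) (nat_lit 143) (nat_lit 6) (nat_lit 7) (nat_lit 11) L88392 (by decide +kernel)
theorem L88394 : W_31 (nat_lit 2) (nat_lit 0x8800fc0022001c001200010001000080000000000000000000000000000000) (nat_lit 0x0) (nat_lit 0x2000800080000000000000000000000000000000000000000) := D_31 (nat_lit 179) (nat_lit 163) (nat_lit 193) (nat_lit 6) (nat_lit 9) (nat_lit 13) (nat_lit 2) (nat_lit 6) (nat_lit 11) (by decide +kernel)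
theorem L88395 : W_31 (nat_lit 3) (nat_lit 0x8800fc0022001c000200010001000080000000000000000000000000000000) (nat_lit 0x0) (nat_lit 0x22001800080000000000000000000000000000000000000000) := T_31 (nat_lit 180) (nat_lit 197) (nat_lit 6) (nat_lit 9) (nat_lit 14) L88394 (by decide +kernel)
theorem L88396 : W_31 (nat_lit 4) (nat_lit 0x8800fc0022000c000200010001000080000000000000000000000000000000) (nat_lit 0x0) (nat_lit 0x32001c00080000000000000000000000000000000000000000) := T_31 (nat_lit 196) (nat_lit 178) (nat_lit 4) (nat_lit 9) (nat_lit 14) L88395 (by decide +kernel)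
theorem L88397 : W_31 (nat_lit 5) (nat_lit 0x800fc0022000c000200010001000080000000000000000000000000000000) (nat_lit 0x0) (nat_lit 0xc0000000000032001c00080000000000000000000000000000000000000000) := T_31 (nat_lit 247) (nat_lit 246) (nat_lit 3) (nat_lit 5) (nat_lit 13) L88396 (by decide +kernel)
theorem L88398 : W_31 (nat_lit 6) (nat_lit 0x800fc0020000c000200010001000080000000000000000000000000000000) (nat_lit 0x0) (nat_lit 0xc0000000030032001c00080000000000000000000000000000000000000000) := T_31 (nat_lit 209) (nat_lit 208) (nat_lit 0) (nat_lit 8) (nat_lit 13) L88397 (by decide +kernel)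
theorem L88399 : W_31 (nat_lit 7) (nat_lit 0x800f80020000c000200010001000080000000000000000000000000000000) (nat_lit 0x0) (nat_lit 0xc4000400030032001c00080000000000000000000000000000000000000000) := T_31 (nat_lit 226) (nat_lit 242) (nat_lit 1) (nat_lit 8) (nat_lit 13) L88398 (by decide +kernel)
theorem L88400 : W_31 (nat_lit 8) (nat_lit 0xf80020000c000200010001000080000000000000000000000000000000) (nat_lit 0x0) (nat_lit 0xdc000400030032001c00080000000000000000000000000000000000000000) := T_31 (nat_lit 243) (nat_lit 244) (nat_lit 1) (nat_lit 9) (nat_lit 13) L88399 (by decide +kernel)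
theorem L88401 : W_31 (nat_lit 9) (nat_lit 0xf00020000c000200010001000080000000000000000000000000000000) (nat_lit 0x0) (nat_lit 0xdc000c00430032001c00080000000000000000000000000000000000000000) := T_31 (nat_lit 227) (nat_lit 214) (nat_lit 2) (nat_lit 6) (nat_lit 13) L88400 (by decide +kernel)
theorem L88402 : W_31 (nat_lit 10) (nat_lit 0xf00020000c000200000001000080000000000000000000000000000000) (nat_lit 0x0) (nat_lit 0xdc000c00430032001c00090000800000000000000000000000000000000000) := T_31 (nat_lit 160) (nat_lit 143) (nat_lit 6) (nat_lit 7) (nat_lit 11) L88401 (by decide +kernel)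
theorem L88403 : W_31 (nat_lit 5) (nat_lit 0xf00020000c000200000001000080000000000000000000000000000000) (nat_lit 0x0) (nat_lit 0x40000800400012000800050000800000000000000000000000000000000000) := T_31 (nat_lit 214) (nat_lit 227) (nat_lit 2) (nat_lit 6) (nat_lit 13) L88387 (by decide +kernel)
theorem L88404 : W_31 (nat_lit 2) (nat_lit 0x6000f80020000c000200000001000080000000000000000000000000000000) (nat_lit 0x0) (nat_lit 0x80000600000000000000000000000000000000000000000000000000000000) := D_31 (nat_lit 226) (nat_lit 225) (nat_lit 247) (nat_lit 3) (nat_lit 4) (nat_lit 13) (nat_lit 3) (nat_lit 5) (nat_lit 13) (by decide +kernel)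
theorem L88405 : W_31 (nat_lit 3) (nat_lit 0x2000f80020000c000200000001000080000000000000000000000000000000) (nat_lit 0x0) (nat_lit 0xc0010600000000000000000000000000000000000000000000000000000000) := T_31 (nat_lit 246) (nat_lit 232) (nat_lit 1) (nat_lit 11) (nat_lit 13) L88404 (by decide +kernel)
theorem L88406 : W_31 (nat_lit 4) (nat_lit 0x2000f00020000c000200000001000080000000000000000000000000000000) (nat_lit 0x0) (nat_lit 0xc0010e00400000000000000000000000000000000000000000000000000000) := T_31 (nat_lit 227) (nat_lit 214) (nat_lit 2) (nat_lit 6) (nat_lit 13) L88405 (by decide +kernel)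
theorem L88407 : W_31 (nat_lit 5) (nat_lit 0xf00020000c000200000001000080000000000000000000000000000000) (nat_lit 0x0) (nat_lit 0xf0010e00400000000000000000000000000000000000000000000000000000) := T_31 (nat_lit 245) (nat_lit 244) (nat_lit 1) (nat_lit 10) (nat_lit 13) L88406 (by decide +kernel)
theorem L88408 : W_31 (nat_lit 2) (nat_lit 0x4a003f00160001c000200010001000080000000000000000000000000000000) (nat_lit 0x0) (nat_lit 0x1000000000000000020001000000000000000000000000000000000000000000000) := D_31 (nat_lit 197) (nat_lit 180) (nat_lit 264) (nat_lit 6) (nat_lit 9) (nat_lit 14) (nat_lit 6) (nat_lit 9) (nat_lit 15) (by decide +kernel)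
theorem L88409 : W_31 (nat_lit 3) (nat_lit 0x42003f00160001c000200010001000080000000000000000000000000000000) (nat_lit 0x0) (nat_lit 0x1000080000000000020001400000000000000000000000000000000000000000000) := T_31 (nat_lit 247) (nat_lit 178) (nat_lit 4) (nat_lit 9) (nat_lit 14) L88408 (by decide +kernel)
theorem L88410 : W_31 (nat_lit 4) (nat_lit 0x42003f00160000c000200010001000080000000000000000000000000000000) (nat_lit 0x0) (nat_lit 0x1000080000000000032001400000000000000000000000000000000000000000000) := T_31 (nat_lit 196) (nat_lit 193) (nat_lit 3) (nat_lit 6) (nat_lit 11) L88409 (by decide +kernel)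
theorem L88411 : W_31 (nat_lit 5) (nat_lit 0x42003f00120000c000200010001000080000000000000000000000000000000) (nat_lit 0x0) (nat_lit 0x1000080040000400032001400000000000000000000000000000000000000000000) := T_31 (nat_lit 214) (nat_lit 234) (nat_lit 0) (nat_lit 13) (nat_lit 13) L88410 (by decide +kernel)
theorem L88412 : W_31 (nat_lit 6) (nat_lit 0x42003f00020000c000200010001000080000000000000000000000000000000) (nat_lit 0x0) (nat_lit 0x1000080040003400032001400000000000000000000000000000000000000000000) := T_31 (nat_lit 216) (nat_lit 217) (nat_lit 2) (nat_lit 9) (nat_lit 13) L88411 (by decide +kernel)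
theorem L88413 : W_31 (nat_lit 7) (nat_lit 0x42001f00020000c000200010001000080000000000000000000000000000000) (nat_lit 0x0) (nat_lit 0x1000880060003400032001400000000000000000000000000000000000000000000) := T_31 (nat_lit 233) (nat_lit 251) (nat_lit 3) (nat_lit 9) (nat_lit 13) L88412 (by decide +kernel)
theorem L88414 : W_31 (nat_lit 8) (nat_lit 0x2001f00020000c000200010001000080000000000000000000000000000000) (nat_lit 0x0) (nat_lit 0x1000e80060003400032001400000000000000000000000000000000000000000000) := T_31 (nat_lit 250) (nat_lit 249) (nat_lit 3) (nat_lit 8) (nat_lit 13) L88413 (by decide +kernel)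
theorem L88415 : W_31 (nat_lit 9) (nat_lit 0x2000f00020000c000200010001000080000000000000000000000000000000) (nat_lit 0x0) (nat_lit 0x1000ec0070003400032001400000000000000000000000000000000000000000000) := T_31 (nat_lit 232) (nat_lit 246) (nat_lit 1) (nat_lit 11) (nat_lit 13) L88414 (by decide +kernel)
theorem L88416 : W_31 (nat_lit 10) (nat_lit 0x2000f00020000c000200000001000080000000000000000000000000000000) (nat_lit 0x0) (nat_lit 0x1000ec0070003400032001400010000800000000000000000000000000000000000) := T_31 (nat_lit 160) (nat_lit 143) (nat_lit 6) (nat_lit 7) (nat_lit 11) L88415 (by decide +kernel)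
theorem L88417 : W_31 (nat_lit 11) (nat_lit 0xf00020000c000200000001000080000000000000000000000000000000) (nat_lit 0x0) (nat_lit 0x1000ef0070003400032001400010000800000000000000000000000000000000000) := T_31 (nat_lit 245) (nat_lit 244) (nat_lit 1) (nat_lit 10) (nat_lit 13) L88416 (by decide +kernel)
theorem L88418 : W_31 (nat_lit 2) (nat_lit 0xa000f00060001c000200010001000080000000000000000000000000000000) (nat_lit 0x0) (nat_lit 0x1000000000000000020001000000000000000000000000000000000000000000000) := D_31 (nat_lit 197) (nat_lit 180) (nat_lit 264) (nat_lit 6) (nat_lit 9) (nat_lit 14) (nat_lit 6) (nat_lit 9) (nat_lit 15) (by decide +kernel)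
theorem L88419 : W_31 (nat_lit 3) (nat_lit 0x2000f00060001c000200010001000080000000000000000000000000000000) (nat_lit 0x0) (nat_lit 0x1000080000000000020001400000000000000000000000000000000000000000000) := T_31 (nat_lit 247) (nat_lit 178) (nat_lit 4) (nat_lit 9) (nat_lit 14) L88418 (by decide +kernel)
theorem L88420 : W_31 (nat_lit 4) (nat_lit 0x2000f00060000c000200010001000080000000000000000000000000000000) (nat_lit 0x0) (nat_lit 0x1000080000000000032001400000000000000000000000000000000000000000000) := T_31 (nat_lit 196) (nat_lit 193) (nat_lit 3) (nat_lit 6) (nat_lit 11) L88419 (by decide +kernel)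
theorem L88421 : W_31 (nat_lit 5) (nat_lit 0x2000f00060000c000200000001000080000000000000000000000000000000) (nat_lit 0x0) (nat_lit 0x1000080000000000032001400010000800000000000000000000000000000000000) := T_31 (nat_lit 160) (nat_lit 143) (nat_lit 6) (nat_lit 7) (nat_lit 11) L88420 (by decide +kernel)
theorem L88422 : W_31 (nat_lit 6) (nat_lit 0x2000f00020000c000200000001000080000000000000000000000000000000) (nat_lit 0x0) (nat_lit 0x1000080000800400032001400010000800000000000000000000000000000000000) := T_31 (nat_lit 214) (nat_lit 227) (nat_lit 2) (nat_lit 6) (nat_lit 13) L88421 (by decide +kernel)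
theorem L88423 : W_31 (nat_lit 7) (nat_lit 0xf00020000c000200000001000080000000000000000000000000000000) (nat_lit 0x0) (nat_lit 0x10000b0000800400032001400010000800000000000000000000000000000000000) := T_31 (nat_lit 245) (nat_lit 244) (nat_lit 1) (nat_lit 10) (nat_lit 13) L88422 (by decide +kernel)
theorem L88424 : W_31 (nat_lit 2) (nat_lit 0x6000f00020001c000200010001000080000000000000000000000000000000) (nat_lit 0x0) (nat_lit 0x10000800080000000000000000000000000000000000000000000000000000000000000) := D_31 (nat_lit 263) (nat_lit 280) (nat_lit 247) (nat_lit 6) (nat_lit 8) (nat_lit 16) (nat_lit 5) (nat_lit 9) (nat_lit 11) (by decide +kernel)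
theorem L88425 : W_31 (nat_lit 3) (nat_lit 0x6000f00020000c000200010001000080000000000000000000000000000000) (nat_lit 0x0) (nat_lit 0x10000800080000000000010000800000000000000000000000000000000000000000000) := T_31 (nat_lit 196) (nat_lit 179) (nat_lit 5) (nat_lit 9) (nat_lit 10) L88424 (by decide +kernel)
theorem L88426 : W_31 (nat_lit 4) (nat_lit 0x2000f00020000c000200010001000080000000000000000000000000000000) (nat_lit 0x0) (nat_lit 0x100008000c0010000000010000800000000000000000000000000000000000000000000) := T_31 (nat_lit 246) (nat_lit 232) (nat_lit 1) (nat_lit 11) (nat_lit 13) L88425 (by decide +kernel)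
theorem L88427 : W_31 (nat_lit 5) (nat_lit 0x2000f00020000c000200000001000080000000000000000000000000000000) (nat_lit 0x0) (nat_lit 0x100008000c0010000000010000800010000800000000000000000000000000000000000) := T_31 (nat_lit 160) (nat_lit 143) (nat_lit 6) (nat_lit 7) (nat_lit 11) L88426 (by decide +kernel)
theorem L88428 : W_31 (nat_lit 6) (nat_lit 0xf00020000c000200000001000080000000000000000000000000000000) (nat_lit 0x0) (nat_lit 0x100008000f0010000000010000800010000800000000000000000000000000000000000) := T_31 (nat_lit 245) (nat_lit 244) (nat_lit 1) (nat_lit 10) (nat_lit 13) L88427 (by decide +kernel)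
theorem L88429 : W_31 (nat_lit 12) (nat_lit 0xf00000000c000200000001000080000000000000000000000000000000) (nat_lit 0x0) (nat_lit 0x10001800efc070e03630032001c000d0000800000000000000000000000000000000000) := Q_31 (nat_lit 213) (C_31 L88402 (C_31 L88403 (C_31 L88407 (C_31 L88417 (C_31 L88423 (C_31 L88428 N_31)))))) (by decide +kernel)
theorem L88430 : W_31 (nat_lit 13) (nat_lit 0x700000000c000200000001000080000000000000000000000000000000) (nat_lit 0x0) (nat_lit 0x10001800efc078e03e30032001c000d0000800000000000000000000000000000000000) := Q_31 (nat_lit 231) (C_31 L88311 (C_31 L88389 (C_31 L88237 (C_31 L88293 (C_31 L88429 N_31))))) (by decide +kernel)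
theorem L88431 : W_31 (nat_lit 8) (nat_lit 0x700000000c000200000001000080000000000000000000000000000000) (nat_lit 0x0) (nat_lit 0xf78038803e00012000800050000800000000000000000000000000000000000) := Q_31 (nat_lit 231) (C_31 L88311 (C_31 L88389 (C_31 L88262 (C_31 L88293 N_31)))) (by decide +kernel)
theorem L88432 : W_31 (nat_lit 14) (nat_lit 0x300000000c000200000001000080000000000000000000000000000000) (nat_lit 0x0) (nat_lit 0x10003801fff07cf03e38033803ce00d0000800000000000000000000000000000000000) := Q_31 (nat_lit 230) (C_31 L88216 (C_31 L88238 (C_31 L88244 (C_31 L88289 (C_31 L88294 (C_31 L88326 (C_31 L88339 (C_31 L88376 (C_31 L88390 (C_31 L88430 (C_31 L88431 N_31))))))))))) (by decide +kernel)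
theorem L88433 : W_31 (nat_lit 2) (nat_lit 0x300000000c000600000001000080000000000000000000000000000000) (nat_lit 0x0) (nat_lit 0x60000000080000000000000000000000000000000000000000000000000000) := D_31 (nat_lit 211) (nat_lit 246) (nat_lit 245) (nat_lit 7) (nat_lit 7) (nat_lit 10) (nat_lit 6) (nat_lit 7) (nat_lit 14) (by decide +kernel)
theorem L88434 : W_31 (nat_lit 2) (nat_lit 0x300000003c001600010001000080000000000000000000000000000000) (nat_lit 0x0) (nat_lit 0x2000800008000000000000000000000000000000000000000) := D_31 (nat_lit 179) (nat_lit 193) (nat_lit 159) (nat_lit 2) (nat_lit 6) (nat_lit 11) (nat_lit 0) (nat_lit 10) (nat_lit 10) (by decide +kernel)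
theorem L88435 : W_31 (nat_lit 3) (nat_lit 0x300000003c000600010001000080000000000000000000000000000000) (nat_lit 0x0) (nat_lit 0x2003800008000000000000000000000000000000000000000) := T_31 (nat_lit 180) (nat_lit 181) (nat_lit 2) (nat_lit 7) (nat_lit 11) L88434 (by decide +kernel)
theorem L88436 : W_31 (nat_lit 4) (nat_lit 0x300000001c000600010001000080000000000000000000000000000000) (nat_lit 0x0) (nat_lit 0x62003800008000000000000000000000000000000000000000) := T_31 (nat_lit 197) (nat_lit 198) (nat_lit 0) (nat_lit 11) (nat_lit 11) L88435 (by decide +kernel)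
theorem L88437 : W_31 (nat_lit 5) (nat_lit 0x300000001c000600000001000080000000000000000000000000000000) (nat_lit 0x0) (nat_lit 0x62003800018000800000000000000000000000000000000000) := T_31 (nat_lit 160) (nat_lit 143) (nat_lit 6) (nat_lit 7) (nat_lit 11) L88436 (by decide +kernel)
theorem L88438 : W_31 (nat_lit 2) (nat_lit 0x300060003c001600010001000080000000000000000000000000000000) (nat_lit 0x0) (nat_lit 0x80004000000000000000080000000000000000000000000000000000000000) := D_31 (nat_lit 230) (nat_lit 247) (nat_lit 163) (nat_lit 6) (nat_lit 9) (nat_lit 14) (nat_lit 5) (nat_lit 10) (nat_lit 9) (by decide +kernel)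
theorem L88439 : W_31 (nat_lit 3) (nat_lit 0x300060003c000600010001000080000000000000000000000000000000) (nat_lit 0x0) (nat_lit 0x80004000000000003000080000000000000000000000000000000000000000) := T_31 (nat_lit 180) (nat_lit 181) (nat_lit 2) (nat_lit 7) (nat_lit 11) L88438 (by decide +kernel)
theorem L88440 : W_31 (nat_lit 4) (nat_lit 0x300040003c000600010001000080000000000000000000000000000000) (nat_lit 0x0) (nat_lit 0x80004000200002003000080000000000000000000000000000000000000000) := T_31 (nat_lit 213) (nat_lit 193) (nat_lit 3) (nat_lit 6) (nat_lit 11) L88439 (by decide +kernel)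
theorem L88441 : W_31 (nat_lit 5) (nat_lit 0x300000003c000600010001000080000000000000000000000000000000) (nat_lit 0x0) (nat_lit 0x80004000e00002003000080000000000000000000000000000000000000000) := T_31 (nat_lit 214) (nat_lit 215) (nat_lit 3) (nat_lit 7) (nat_lit 11) L88440 (by decide +kernel)
theorem L88442 : W_31 (nat_lit 6) (nat_lit 0x300000003c000600000001000080000000000000000000000000000000) (nat_lit 0x0) (nat_lit 0x80004000e00002003000090000800000000000000000000000000000000000) := T_31 (nat_lit 160) (nat_lit 143) (nat_lit 6) (nat_lit 7) (nat_lit 11) L88441 (by decide +kernel)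
theorem L88443 : W_31 (nat_lit 7) (nat_lit 0x300000001c000600000001000080000000000000000000000000000000) (nat_lit 0x0) (nat_lit 0x80004000e00062003000090000800000000000000000000000000000000000) := T_31 (nat_lit 197) (nat_lit 198) (nat_lit 0) (nat_lit 11) (nat_lit 11) L88442 (by decide +kernel)
theorem L88444 : W_31 (nat_lit 2) (nat_lit 0x300040003c001e00010001000080000000000000000000000000000000) (nat_lit 0x0) (nat_lit 0x100008000000000000000040000000000000000000000000000000000000000) := D_31 (nat_lit 231) (nat_lit 162) (nat_lit 248) (nat_lit 4) (nat_lit 10) (nat_lit 13) (nat_lit 4) (nat_lit 10) (nat_lit 14) (by decide +kernel)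
theorem L88445 : W_31 (nat_lit 3) (nat_lit 0x300040003c001600010001000080000000000000000000000000000000) (nat_lit 0x0) (nat_lit 0x100008000000000000800048000000000000000000000000000000000000000) := T_31 (nat_lit 179) (nat_lit 159) (nat_lit 0) (nat_lit 10) (nat_lit 10) L88444 (by decide +kernel)
theorem L88446 : W_31 (nat_lit 4) (nat_lit 0x300040003c000600010001000080000000000000000000000000000000) (nat_lit 0x0) (nat_lit 0x100008000000000003800048000000000000000000000000000000000000000) := T_31 (nat_lit 180) (nat_lit 181) (nat_lit 2) (nat_lit 7) (nat_lit 11) L88445 (by decide +kernel)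
theorem L88447 : W_31 (nat_lit 5) (nat_lit 0x300000003c000600010001000080000000000000000000000000000000) (nat_lit 0x0) (nat_lit 0x100008000c00000003800048000000000000000000000000000000000000000) := T_31 (nat_lit 214) (nat_lit 215) (nat_lit 3) (nat_lit 7) (nat_lit 11) L88446 (by decide +kernel)
theorem L88448 : W_31 (nat_lit 6) (nat_lit 0x300000003c000600000001000080000000000000000000000000000000) (nat_lit 0x0) (nat_lit 0x100008000c00000003800058000800000000000000000000000000000000000) := T_31 (nat_lit 160) (nat_lit 143) (nat_lit 6) (nat_lit 7) (nat_lit 11) L88447 (by decide +kernel)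
theorem L88449 : W_31 (nat_lit 7) (nat_lit 0x300000001c000600000001000080000000000000000000000000000000) (nat_lit 0x0) (nat_lit 0x100008000c00060003800058000800000000000000000000000000000000000) := T_31 (nat_lit 197) (nat_lit 198) (nat_lit 0) (nat_lit 11) (nat_lit 11) L88448 (by decide +kernel)
theorem L88450 : W_31 (nat_lit 2) (nat_lit 0x300040003e000600010001000080000000000000000000000000000000) (nat_lit 0x0) (nat_lit 0x1800800000000000000000000000000000000000000000000) := D_31 (nat_lit 192) (nat_lit 179) (nat_lit 191) (nat_lit 2) (nat_lit 5) (nat_lit 11) (nat_lit 2) (nat_lit 4) (nat_lit 11) (by decide +kernel)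
theorem L88451 : W_31 (nat_lit 3) (nat_lit 0x300040003c000600010001000080000000000000000000000000000000) (nat_lit 0x0) (nat_lit 0x200003800800000000000000000000000000000000000000000000) := T_31 (nat_lit 193) (nat_lit 213) (nat_lit 3) (nat_lit 6) (nat_lit 11) L88450 (by decide +kernel)
theorem L88452 : W_31 (nat_lit 4) (nat_lit 0x300000003c000600010001000080000000000000000000000000000000) (nat_lit 0x0) (nat_lit 0xe00003800800000000000000000000000000000000000000000000) := T_31 (nat_lit 214) (nat_lit 215) (nat_lit 3) (nat_lit 7) (nat_lit 11) L88451 (by decide +kernel)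
theorem L88453 : W_31 (nat_lit 5) (nat_lit 0x300000003c000600000001000080000000000000000000000000000000) (nat_lit 0x0) (nat_lit 0xe00003800800010000800000000000000000000000000000000000) := T_31 (nat_lit 160) (nat_lit 143) (nat_lit 6) (nat_lit 7) (nat_lit 11) L88452 (by decide +kernel)
theorem L88454 : W_31 (nat_lit 6) (nat_lit 0x300000001c000600000001000080000000000000000000000000000000) (nat_lit 0x0) (nat_lit 0xe00063800800010000800000000000000000000000000000000000) := T_31 (nat_lit 197) (nat_lit 198) (nat_lit 0) (nat_lit 11) (nat_lit 11) L88453 (by decide +kernel)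
theorem L88455 : W_31 (nat_lit 2) (nat_lit 0x300000001c000e00000001000080000000000000000000000000000000) (nat_lit 0x0) (nat_lit 0x2003000000000000000000000000000000000000000000000) := D_31 (nat_lit 180) (nat_lit 193) (nat_lit 181) (nat_lit 2) (nat_lit 6) (nat_lit 11) (nat_lit 1) (nat_lit 11) (nat_lit 10) (by decide +kernel)
theorem L88456 : W_31 (nat_lit 2) (nat_lit 0x300000001c000e00010001000080000000000000000000000000000000) (nat_lit 0x0) (nat_lit 0x3000008000000000000000000000000000000000000000) := D_31 (nat_lit 180) (nat_lit 159) (nat_lit 181) (nat_lit 0) (nat_lit 10) (nat_lit 10) (nat_lit 1) (nat_lit 11) (nat_lit 10) (by decide +kernel)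
theorem L88457 : W_31 (nat_lit 3) (nat_lit 0x300000001c000e00000001000080000000000000000000000000000000) (nat_lit 0x0) (nat_lit 0x3000018000800000000000000000000000000000000000) := T_31 (nat_lit 160) (nat_lit 143) (nat_lit 6) (nat_lit 7) (nat_lit 11) L88456 (by decide +kernel)
theorem L88458 : W_31 (nat_lit 2) (nat_lit 0x300020001e000e00010001000080000000000000000000000000000000) (nat_lit 0x0) (nat_lit 0xc0004000000000000000000000000000000000000000000000000000000000) := D_31 (nat_lit 230) (nat_lit 247) (nat_lit 246) (nat_lit 4) (nat_lit 9) (nat_lit 14) (nat_lit 5) (nat_lit 9) (nat_lit 10) (by decide +kernel)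
theorem L88459 : W_31 (nat_lit 3) (nat_lit 0x300000001e000e00010001000080000000000000000000000000000000) (nat_lit 0x0) (nat_lit 0xc0004000600000000000000000000000000000000000000000000000000000) := T_31 (nat_lit 213) (nat_lit 214) (nat_lit 3) (nat_lit 6) (nat_lit 11) L88458 (by decide +kernel)
theorem L88460 : W_31 (nat_lit 4) (nat_lit 0x300000001e000e00000001000080000000000000000000000000000000) (nat_lit 0x0) (nat_lit 0xc0004000600000000000010000800000000000000000000000000000000000) := T_31 (nat_lit 160) (nat_lit 143) (nat_lit 6) (nat_lit 7) (nat_lit 11) L88459 (by decide +kernel)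
theorem L88461 : W_31 (nat_lit 5) (nat_lit 0x300000001c000e00000001000080000000000000000000000000000000) (nat_lit 0x0) (nat_lit 0xc0004000600003000000010000800000000000000000000000000000000000) := T_31 (nat_lit 193) (nat_lit 192) (nat_lit 2) (nat_lit 5) (nat_lit 11) L88460 (by decide +kernel)
theorem L88462 : W_31 (nat_lit 6) (nat_lit 0x300000001c000600000001000080000000000000000000000000000000) (nat_lit 0x0) (nat_lit 0xc0004000600003003800018000800000000000000000000000000000000000) := Q_31 (nat_lit 179) (C_31 L88455 (C_31 L88457 (C_31 L88461 N_31))) (by decide +kernel)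
theorem L88463 : W_31 (nat_lit 8) (nat_lit 0x300000000c000600000001000080000000000000000000000000000000) (nat_lit 0x0) (nat_lit 0x1c000c000e000738038000d8000800000000000000000000000000000000000) := Q_31 (nat_lit 196) (C_31 L88437 (C_31 L88131 (C_31 L88443 (C_31 L88449 (C_31 L88454 (C_31 L88462 N_31)))))) (by decide +kernel)
theorem L88464 : W_31 (nat_lit 2) (nat_lit 0x2000700020001e000e00010001000080000000000000000000000000000000) (nat_lit 0x0) (nat_lit 0x110008000000000000000000000000000000000000000000000000000000000) := D_31 (nat_lit 231) (nat_lit 244) (nat_lit 248) (nat_lit 1) (nat_lit 10) (nat_lit 13) (nat_lit 7) (nat_lit 9) (nat_lit 10) (by decide +kernel)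
theorem L88465 : W_31 (nat_lit 3) (nat_lit 0x2000300020001e000e00010001000080000000000000000000000000000000) (nat_lit 0x0) (nat_lit 0x19000c000000000000000000000000000000000000000000000000000000000) := T_31 (nat_lit 230) (nat_lit 247) (nat_lit 4) (nat_lit 9) (nat_lit 14) L88464 (by decide +kernel)
theorem L88466 : W_31 (nat_lit 4) (nat_lit 0x2000300000001e000e00010001000080000000000000000000000000000000) (nat_lit 0x0) (nat_lit 0x19000c000600000000000000000000000000000000000000000000000000000) := T_31 (nat_lit 213) (nat_lit 214) (nat_lit 3) (nat_lit 6) (nat_lit 11) L88465 (by decide +kernel)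
theorem L88467 : W_31 (nat_lit 5) (nat_lit 0x2000300000001c000e00010001000080000000000000000000000000000000) (nat_lit 0x0) (nat_lit 0x19000c000600003000000000000000000000000000000000000000000000000) := T_31 (nat_lit 193) (nat_lit 192) (nat_lit 2) (nat_lit 5) (nat_lit 11) L88466 (by decide +kernel)
theorem L88468 : W_31 (nat_lit 6) (nat_lit 0x2000300000001c000e00000001000080000000000000000000000000000000) (nat_lit 0x0) (nat_lit 0x19000c000600003000000010000800000000000000000000000000000000000) := T_31 (nat_lit 160) (nat_lit 143) (nat_lit 6) (nat_lit 7) (nat_lit 11) L88467 (by decide +kernel)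
theorem L88469 : W_31 (nat_lit 7) (nat_lit 0x300000001c000e00000001000080000000000000000000000000000000) (nat_lit 0x0) (nat_lit 0x1b000c000680003000000010000800000000000000000000000000000000000) := T_31 (nat_lit 245) (nat_lit 211) (nat_lit 6) (nat_lit 7) (nat_lit 14) L88468 (by decide +kernel)
theorem L88470 : W_31 (nat_lit 8) (nat_lit 0x300000001c000600000001000080000000000000000000000000000000) (nat_lit 0x0) (nat_lit 0x1b000c000680003003800018000800000000000000000000000000000000000) := Q_31 (nat_lit 179) (C_31 L88457 (C_31 L88455 (C_31 L88469 N_31))) (by decide +kernel)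
theorem L88471 : W_31 (nat_lit 9) (nat_lit 0x300000000c000600000001000080000000000000000000000000000000) (nat_lit 0x0) (nat_lit 0x1b000c000e800738038001d8004800200000000000000000000000000000000) := Q_31 (nat_lit 196) (C_31 L88443 (C_31 L88454 (C_31 L88148 (C_31 L88449 (C_31 L88470 N_31))))) (by decide +kernel)
theorem L88472 : W_31 (nat_lit 10) (nat_lit 0x300000000c000200000001000080000000000000000000000000000000) (nat_lit 0x0) (nat_lit 0x1f000c000e80073803c001d8004800200000000000000000000000000000000) := Q_31 (nat_lit 178) (C_31 L88433 (C_31 L88463 (C_31 L88471 N_31))) (by decide +kernel)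
theorem L88473 : W_31 (nat_lit 6) (nat_lit 0x700000000c000200000001000080000000000000000000000000000000) (nat_lit 0x0) (nat_lit 0x7b8018801e00000000000010000800000000000000000000000000000000000) := Q_31 (nat_lit 231) (C_31 L88293 (C_31 L88259 (C_31 L9393 N_31))) (by decide +kernel)
theorem L88474 : W_31 (nat_lit 2) (nat_lit 0x780000000c000200000001000080000000000000000000000000000000) (nat_lit 0x0) (nat_lit 0x18000000080000000000000000000000000000000000000000000000000000) := D_31 (nat_lit 244) (nat_lit 243) (nat_lit 211) (nat_lit 1) (nat_lit 9) (nat_lit 13) (nat_lit 5) (nat_lit 7) (nat_lit 10) (by decide +kernel)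
theorem L88475 : W_31 (nat_lit 2) (nat_lit 0x9000f80000000c000200000001000080000000000000000000000000000000) (nat_lit 0x0) (nat_lit 0xe00000000000000000000000000000000000000000000000000000) := D_31 (nat_lit 214) (nat_lit 213) (nat_lit 215) (nat_lit 2) (nat_lit 6) (nat_lit 13) (nat_lit 2) (nat_lit 7) (nat_lit 13) (by decide +kernel)
theorem L88476 : W_31 (nat_lit 3) (nat_lit 0x9000780000000c000200000001000080000000000000000000000000000000) (nat_lit 0x0) (nat_lit 0x20008000e00000000000000000000000000000000000000000000000000000) := T_31 (nat_lit 231) (nat_lit 245) (nat_lit 1) (nat_lit 10) (nat_lit 13) L88475 (by decide +kernel)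
theorem L88477 : W_31 (nat_lit 4) (nat_lit 0x1000780000000c000200000001000080000000000000000000000000000000) (nat_lit 0x0) (nat_lit 0x1a0008000e00000000000000000000000000000000000000000000000000000) := T_31 (nat_lit 247) (nat_lit 248) (nat_lit 3) (nat_lit 6) (nat_lit 13) L88476 (by decide +kernel)
theorem L88478 : W_31 (nat_lit 5) (nat_lit 0x780000000c000200000001000080000000000000000000000000000000) (nat_lit 0x0) (nat_lit 0x1b8008000e00000000000000000000000000000000000000000000000000000) := T_31 (nat_lit 244) (nat_lit 243) (nat_lit 1) (nat_lit 9) (nat_lit 13) L88477 (by decide +kernel)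
theorem L88479 : W_31 (nat_lit 2) (nat_lit 0x8000780020001c001200000001000080000000000000000000000000000000) (nat_lit 0x0) (nat_lit 0x2000800080000000000000000000000000000000000000000) := D_31 (nat_lit 179) (nat_lit 163) (nat_lit 193) (nat_lit 6) (nat_lit 9) (nat_lit 13) (nat_lit 2) (nat_lit 6) (nat_lit 11) (by decide +kernel)
theorem L88480 : W_31 (nat_lit 3) (nat_lit 0x8000780020001c000200000001000080000000000000000000000000000000) (nat_lit 0x0) (nat_lit 0x22001800080000000000000000000000000000000000000000) := T_31 (nat_lit 180) (nat_lit 197) (nat_lit 6) (nat_lit 9) (nat_lit 14) L88479 (by decide +kernel)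
theorem L88481 : W_31 (nat_lit 4) (nat_lit 0x8000780020000c000200000001000080000000000000000000000000000000) (nat_lit 0x0) (nat_lit 0x32001c00080000000000000000000000000000000000000000) := T_31 (nat_lit 196) (nat_lit 178) (nat_lit 4) (nat_lit 9) (nat_lit 14) L88480 (by decide +kernel)
theorem L88482 : W_31 (nat_lit 5) (nat_lit 0x780020000c000200000001000080000000000000000000000000000000) (nat_lit 0x0) (nat_lit 0x180000000000032001c00080000000000000000000000000000000000000000) := T_31 (nat_lit 247) (nat_lit 248) (nat_lit 3) (nat_lit 6) (nat_lit 13) L88481 (by decide +kernel)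
theorem L88483 : W_31 (nat_lit 6) (nat_lit 0x780000000c000200000001000080000000000000000000000000000000) (nat_lit 0x0) (nat_lit 0x180000000600032001c00080000000000000000000000000000000000000000) := T_31 (nat_lit 213) (nat_lit 214) (nat_lit 2) (nat_lit 6) (nat_lit 13) L88482 (by decide +kernel)
theorem L88484 : W_31 (nat_lit 7) (nat_lit 0x700000000c000200000001000080000000000000000000000000000000) (nat_lit 0x0) (nat_lit 0x1b8008800e80032001c00080000000000000000000000000000000000000000) := Q_31 (nat_lit 227) (C_31 L88474 (C_31 L88478 (C_31 L88483 N_31))) (by decide +kernel)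
theorem L88485 : W_31 (nat_lit 2) (nat_lit 0x1000f00040000c000200010001000080000000000000000000000000000000) (nat_lit 0x0) (nat_lit 0x8000800080000000000000000000000000000000000000000000000000000) := D_31 (nat_lit 227) (nat_lit 243) (nat_lit 211) (nat_lit 1) (nat_lit 9) (nat_lit 13) (nat_lit 5) (nat_lit 7) (nat_lit 10) (by decide +kernel)
theorem L88486 : W_31 (nat_lit 3) (nat_lit 0xf00040000c000200010001000080000000000000000000000000000000) (nat_lit 0x0) (nat_lit 0x38000800080000000000000000000000000000000000000000000000000000) := T_31 (nat_lit 244) (nat_lit 245) (nat_lit 1) (nat_lit 10) (nat_lit 13) L88485 (by decide +kernel)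
theorem L88487 : W_31 (nat_lit 4) (nat_lit 0xf00000000c000200010001000080000000000000000000000000000000) (nat_lit 0x0) (nat_lit 0x38000800c80000000000000000000000000000000000000000000000000000) := T_31 (nat_lit 214) (nat_lit 215) (nat_lit 2) (nat_lit 7) (nat_lit 13) L88486 (by decide +kernel)
theorem L88488 : W_31 (nat_lit 5) (nat_lit 0xf00000000c000200000001000080000000000000000000000000000000) (nat_lit 0x0) (nat_lit 0x38000800c80000000000010000800000000000000000000000000000000000) := T_31 (nat_lit 160) (nat_lit 143) (nat_lit 6) (nat_lit 7) (nat_lit 11) L88487 (by decide +kernel)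
theorem L88489 : W_31 (nat_lit 6) (nat_lit 0x700000000c000200000001000080000000000000000000000000000000) (nat_lit 0x0) (nat_lit 0x7b8018801c80000000000010000800000000000000000000000000000000000) := Q_31 (nat_lit 231) (C_31 L88259 (C_31 L9393 (C_31 L88488 N_31))) (by decide +kernel)
theorem L88490 : W_31 (nat_lit 2) (nat_lit 0x2000f00000000c001600010001000080000000000000000000000000000000) (nat_lit 0x0) (nat_lit 0x2800008000000000000000000000000000000000000000) := D_31 (nat_lit 179) (nat_lit 181) (nat_lit 159) (nat_lit 1) (nat_lit 11) (nat_lit 10) (nat_lit 0) (nat_lit 10) (nat_lit 10) (by decide +kernel)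
theorem L88491 : W_31 (nat_lit 3) (nat_lit 0x2000f00000000c001200010001000080000000000000000000000000000000) (nat_lit 0x0) (nat_lit 0x80000002c00008000000000000000000000000000000000000000) := T_31 (nat_lit 178) (nat_lit 211) (nat_lit 6) (nat_lit 7) (nat_lit 14) L88490 (by decide +kernel)
theorem L88492 : W_31 (nat_lit 4) (nat_lit 0xf00000000c001200010001000080000000000000000000000000000000) (nat_lit 0x0) (nat_lit 0x30000000080000002c00008000000000000000000000000000000000000000) := T_31 (nat_lit 245) (nat_lit 244) (nat_lit 1) (nat_lit 10) (nat_lit 13) L88491 (by decide +kernel)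
theorem L88493 : W_31 (nat_lit 5) (nat_lit 0xf00000000c001200000001000080000000000000000000000000000000) (nat_lit 0x0) (nat_lit 0x30000000080000002c00018000800000000000000000000000000000000000) := T_31 (nat_lit 160) (nat_lit 143) (nat_lit 6) (nat_lit 7) (nat_lit 11) L88492 (by decide +kernel)
theorem L88494 : W_31 (nat_lit 2) (nat_lit 0x22001f00080004c003200010001000080000000000000000000000000000000) (nat_lit 0x0) (nat_lit 0x80004000200000000000000000000000000000000000000000) := D_31 (nat_lit 182) (nat_lit 199) (nat_lit 165) (nat_lit 6) (nat_lit 11) (nat_lit 14) (nat_lit 6) (nat_lit 11) (nat_lit 13) (by decide +kernel)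
theorem L88495 : W_31 (nat_lit 3) (nat_lit 0x22001f00080004c001200010001000080000000000000000000000000000000) (nat_lit 0x0) (nat_lit 0x80006000280000000000000000000000000000000000000000) := T_31 (nat_lit 181) (nat_lit 163) (nat_lit 4) (nat_lit 11) (nat_lit 13) L88494 (by decide +kernel)
theorem L88496 : W_31 (nat_lit 4) (nat_lit 0x22001f00080000c001200010001000080000000000000000000000000000000) (nat_lit 0x0) (nat_lit 0xe0006000280000000000000000000000000000000000000000) := T_31 (nat_lit 198) (nat_lit 197) (nat_lit 4) (nat_lit 11) (nat_lit 14) L88495 (by decide +kernel)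
theorem L88497 : W_31 (nat_lit 5) (nat_lit 0x22001f00000000c001200010001000080000000000000000000000000000000) (nat_lit 0x0) (nat_lit 0x18000e0006000280000000000000000000000000000000000000000) := T_31 (nat_lit 215) (nat_lit 216) (nat_lit 2) (nat_lit 8) (nat_lit 13) L88496 (by decide +kernel)
theorem L88498 : W_31 (nat_lit 6) (nat_lit 0x22000f00000000c001200010001000080000000000000000000000000000000) (nat_lit 0x0) (nat_lit 0x4000100018000e0006000280000000000000000000000000000000000000000) := T_31 (nat_lit 232) (nat_lit 250) (nat_lit 3) (nat_lit 8) (nat_lit 13) L88497 (by decide +kernel)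
theorem L88499 : W_31 (nat_lit 7) (nat_lit 0x22000f00000000c001200000001000080000000000000000000000000000000) (nat_lit 0x0) (nat_lit 0x4000100018000e0006000290000800000000000000000000000000000000000) := T_31 (nat_lit 160) (nat_lit 143) (nat_lit 6) (nat_lit 7) (nat_lit 11) L88498 (by decide +kernel)
theorem L88500 : W_31 (nat_lit 8) (nat_lit 0x2000f00000000c001200000001000080000000000000000000000000000000) (nat_lit 0x0) (nat_lit 0x7000100018000e0006000290000800000000000000000000000000000000000) := T_31 (nat_lit 249) (nat_lit 248) (nat_lit 3) (nat_lit 7) (nat_lit 13) L88499 (by decide +kernel)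
theorem L88501 : W_31 (nat_lit 9) (nat_lit 0xf00000000c001200000001000080000000000000000000000000000000) (nat_lit 0x0) (nat_lit 0x7300100018000e0006000290000800000000000000000000000000000000000) := T_31 (nat_lit 245) (nat_lit 244) (nat_lit 1) (nat_lit 10) (nat_lit 13) L88500 (by decide +kernel)
theorem L88502 : W_31 (nat_lit 2) (nat_lit 0x12000f00000000c001600000001000080000000000000000000000000000000) (nat_lit 0x0) (nat_lit 0x2002800000000000000000000000000000000000000000000) := D_31 (nat_lit 179) (nat_lit 181) (nat_lit 193) (nat_lit 1) (nat_lit 11) (nat_lit 10) (nat_lit 1) (nat_lit 10) (nat_lit 10) (by decide +kernel)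
theorem L88503 : W_31 (nat_lit 3) (nat_lit 0x12000f00000000c001200000001000080000000000000000000000000000000) (nat_lit 0x0) (nat_lit 0x80002002c00000000000000000000000000000000000000000000) := T_31 (nat_lit 178) (nat_lit 211) (nat_lit 6) (nat_lit 7) (nat_lit 14) L88502 (by decide +kernel)
theorem L88504 : W_31 (nat_lit 4) (nat_lit 0x10000f00000000c001200000001000080000000000000000000000000000000) (nat_lit 0x0) (nat_lit 0x30000000080002002c00000000000000000000000000000000000000000000) := T_31 (nat_lit 245) (nat_lit 244) (nat_lit 1) (nat_lit 10) (nat_lit 13) L88503 (by decide +kernel)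
theorem L88505 : W_31 (nat_lit 5) (nat_lit 0xf00000000c001200000001000080000000000000000000000000000000) (nat_lit 0x0) (nat_lit 0x330000000080002002c00000000000000000000000000000000000000000000) := T_31 (nat_lit 248) (nat_lit 249) (nat_lit 3) (nat_lit 7) (nat_lit 13) L88504 (by decide +kernel)
theorem L88506 : W_31 (nat_lit 2) (nat_lit 0x20001f00080004c003200010001000080000000000000000000000000000000) (nat_lit 0x0) (nat_lit 0x80004000200000000000000000000000000000000000000000) := D_31 (nat_lit 182) (nat_lit 199) (nat_lit 165) (nat_lit 6) (nat_lit 11) (nat_lit 14) (nat_lit 6) (nat_lit 11) (nat_lit 13) (by decide +kernel)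
theorem L88507 : W_31 (nat_lit 3) (nat_lit 0x20001f00080004c001200010001000080000000000000000000000000000000) (nat_lit 0x0) (nat_lit 0x80006000280000000000000000000000000000000000000000) := T_31 (nat_lit 181) (nat_lit 163) (nat_lit 4) (nat_lit 11) (nat_lit 13) L88506 (by decide +kernel)
theorem L88508 : W_31 (nat_lit 4) (nat_lit 0x20001f00080000c001200010001000080000000000000000000000000000000) (nat_lit 0x0) (nat_lit 0xe0006000280000000000000000000000000000000000000000) := T_31 (nat_lit 198) (nat_lit 197) (nat_lit 4) (nat_lit 11) (nat_lit 14) L88507 (by decide +kernel)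
theorem L88509 : W_31 (nat_lit 5) (nat_lit 0x20001f00000000c001200010001000080000000000000000000000000000000) (nat_lit 0x0) (nat_lit 0x18000e0006000280000000000000000000000000000000000000000) := T_31 (nat_lit 215) (nat_lit 216) (nat_lit 2) (nat_lit 8) (nat_lit 13) L88508 (by decide +kernel)
theorem L88510 : W_31 (nat_lit 6) (nat_lit 0x20000f00000000c001200010001000080000000000000000000000000000000) (nat_lit 0x0) (nat_lit 0x4000100018000e0006000280000000000000000000000000000000000000000) := T_31 (nat_lit 232) (nat_lit 250) (nat_lit 3) (nat_lit 8) (nat_lit 13) L88509 (by decide +kernel)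
theorem L88511 : W_31 (nat_lit 7) (nat_lit 0xf00000000c001200010001000080000000000000000000000000000000) (nat_lit 0x0) (nat_lit 0x7000100018000e0006000280000000000000000000000000000000000000000) := T_31 (nat_lit 249) (nat_lit 248) (nat_lit 3) (nat_lit 7) (nat_lit 13) L88510 (by decide +kernel)
theorem L88512 : W_31 (nat_lit 8) (nat_lit 0xf00000000c001200000001000080000000000000000000000000000000) (nat_lit 0x0) (nat_lit 0x7000100018000e0006000290000800000000000000000000000000000000000) := T_31 (nat_lit 160) (nat_lit 143) (nat_lit 6) (nat_lit 7) (nat_lit 11) L88511 (by decide +kernel)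
theorem L88513 : W_31 (nat_lit 2) (nat_lit 0x12000f00000000c001600010001000080000000000000000000000000000000) (nat_lit 0x0) (nat_lit 0x2000800008000000000000000000000000000000000000000) := D_31 (nat_lit 179) (nat_lit 193) (nat_lit 159) (nat_lit 1) (nat_lit 10) (nat_lit 10) (nat_lit 0) (nat_lit 10) (nat_lit 10) (by decide +kernel)
theorem L88514 : W_31 (nat_lit 3) (nat_lit 0x12000f00000000c001200010001000080000000000000000000000000000000) (nat_lit 0x0) (nat_lit 0x80002000c00008000000000000000000000000000000000000000) := T_31 (nat_lit 178) (nat_lit 211) (nat_lit 6) (nat_lit 7) (nat_lit 14) L88513 (by decide +kernel)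
theorem L88515 : W_31 (nat_lit 4) (nat_lit 0x12000f00000000c001200000001000080000000000000000000000000000000) (nat_lit 0x0) (nat_lit 0x80002000c00018000800000000000000000000000000000000000) := T_31 (nat_lit 160) (nat_lit 143) (nat_lit 6) (nat_lit 7) (nat_lit 11) L88514 (by decide +kernel)
theorem L88516 : W_31 (nat_lit 5) (nat_lit 0x10000f00000000c001200000001000080000000000000000000000000000000) (nat_lit 0x0) (nat_lit 0x30000000080002000c00018000800000000000000000000000000000000000) := T_31 (nat_lit 245) (nat_lit 244) (nat_lit 1) (nat_lit 10) (nat_lit 13) L88515 (by decide +kernel)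
theorem L88517 : W_31 (nat_lit 6) (nat_lit 0xf00000000c001200000001000080000000000000000000000000000000) (nat_lit 0x0) (nat_lit 0x330000000080002000c00018000800000000000000000000000000000000000) := T_31 (nat_lit 248) (nat_lit 249) (nat_lit 3) (nat_lit 7) (nat_lit 13) L88516 (by decide +kernel)
theorem L88518 : W_31 (nat_lit 10) (nat_lit 0xf00000000c000200000001000080000000000000000000000000000000) (nat_lit 0x0) (nat_lit 0x7300100018800e2007c00298000800000000000000000000000000000000000) := Q_31 (nat_lit 180) (C_31 L88493 (C_31 L88501 (C_31 L88505 (C_31 L88512 (C_31 L88517 N_31))))) (by decide +kernel)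
theorem L88519 : W_31 (nat_lit 2) (nat_lit 0x22001f00000003c001a00010001000080000000000000000000000000000000) (nat_lit 0x0) (nat_lit 0x80000000200000000000080000000000000000000000000000000000000000) := D_31 (nat_lit 213) (nat_lit 247) (nat_lit 163) (nat_lit 6) (nat_lit 9) (nat_lit 14) (nat_lit 6) (nat_lit 9) (nat_lit 13) (by decide +kernel)
theorem L88520 : W_31 (nat_lit 3) (nat_lit 0x22001f00000003c001200010001000080000000000000000000000000000000) (nat_lit 0x0) (nat_lit 0x80000000200002000800080000000000000000000000000000000000000000) := T_31 (nat_lit 179) (nat_lit 193) (nat_lit 2) (nat_lit 6) (nat_lit 11) L88519 (by decide +kernel)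
theorem L88521 : W_31 (nat_lit 4) (nat_lit 0x22001f00000002c001200010001000080000000000000000000000000000000) (nat_lit 0x0) (nat_lit 0x80000000200012002800080000000000000000000000000000000000000000) := T_31 (nat_lit 196) (nat_lit 181) (nat_lit 2) (nat_lit 7) (nat_lit 11) L88520 (by decide +kernel)
theorem L88522 : W_31 (nat_lit 5) (nat_lit 0x22001f00000000c001200010001000080000000000000000000000000000000) (nat_lit 0x0) (nat_lit 0x80000000600032002800080000000000000000000000000000000000000000) := T_31 (nat_lit 197) (nat_lit 214) (nat_lit 7) (nat_lit 10) (nat_lit 10) L88521 (by decide +kernel)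
theorem L88523 : W_31 (nat_lit 6) (nat_lit 0x22000f00000000c001200010001000080000000000000000000000000000000) (nat_lit 0x0) (nat_lit 0x480010000600032002800080000000000000000000000000000000000000000) := T_31 (nat_lit 232) (nat_lit 250) (nat_lit 3) (nat_lit 8) (nat_lit 13) L88522 (by decide +kernel)
theorem L88524 : W_31 (nat_lit 7) (nat_lit 0x20000f00000000c001200010001000080000000000000000000000000000000) (nat_lit 0x0) (nat_lit 0x4b0010000600032002800080000000000000000000000000000000000000000) := T_31 (nat_lit 245) (nat_lit 244) (nat_lit 1) (nat_lit 10) (nat_lit 13) L88523 (by decide +kernel)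
theorem L88525 : W_31 (nat_lit 8) (nat_lit 0xf00000000c001200010001000080000000000000000000000000000000) (nat_lit 0x0) (nat_lit 0x7b0010000600032002800080000000000000000000000000000000000000000) := T_31 (nat_lit 249) (nat_lit 248) (nat_lit 3) (nat_lit 7) (nat_lit 13) L88524 (by decide +kernel)
theorem L88526 : W_31 (nat_lit 9) (nat_lit 0xf00000000c001200000001000080000000000000000000000000000000) (nat_lit 0x0) (nat_lit 0x7b0010000600032002800090000800000000000000000000000000000000000) := T_31 (nat_lit 160) (nat_lit 143) (nat_lit 6) (nat_lit 7) (nat_lit 11) L88525 (by decide +kernel)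
theorem L88527 : W_31 (nat_lit 2) (nat_lit 0x22001f00000003c001200010001000080000000000000000000000000000000) (nat_lit 0x0) (nat_lit 0x80040000400000000000000000000000000000000000000000000) := D_31 (nat_lit 178) (nat_lit 198) (nat_lit 211) (nat_lit 0) (nat_lit 11) (nat_lit 11) (nat_lit 6) (nat_lit 7) (nat_lit 14) (by decide +kernel)
theorem L88528 : W_31 (nat_lit 3) (nat_lit 0x22001f00000002c001200010001000080000000000000000000000000000000) (nat_lit 0x0) (nat_lit 0x80050002400000000000000000000000000000000000000000000) := T_31 (nat_lit 196) (nat_lit 181) (nat_lit 2) (nat_lit 7) (nat_lit 11) L88527 (by decide +kernel)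
theorem L88529 : W_31 (nat_lit 4) (nat_lit 0x22001f00000000c001200010001000080000000000000000000000000000000) (nat_lit 0x0) (nat_lit 0x480070002400000000000000000000000000000000000000000000) := T_31 (nat_lit 197) (nat_lit 214) (nat_lit 7) (nat_lit 10) (nat_lit 10) L88528 (by decide +kernel)
theorem L88530 : W_31 (nat_lit 5) (nat_lit 0x20001f00000000c001200010001000080000000000000000000000000000000) (nat_lit 0x0) (nat_lit 0x30000000480070002400000000000000000000000000000000000000000000) := T_31 (nat_lit 245) (nat_lit 244) (nat_lit 1) (nat_lit 10) (nat_lit 13) L88529 (by decide +kernel)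
theorem L88531 : W_31 (nat_lit 6) (nat_lit 0x20000f00000000c001200010001000080000000000000000000000000000000) (nat_lit 0x0) (nat_lit 0x430010000480070002400000000000000000000000000000000000000000000) := T_31 (nat_lit 232) (nat_lit 250) (nat_lit 3) (nat_lit 8) (nat_lit 13) L88530 (by decide +kernel)
theorem L88532 : W_31 (nat_lit 7) (nat_lit 0x20000f00000000c001200000001000080000000000000000000000000000000) (nat_lit 0x0) (nat_lit 0x430010000480070002400010000800000000000000000000000000000000000) := T_31 (nat_lit 160) (nat_lit 143) (nat_lit 6) (nat_lit 7) (nat_lit 11) L88531 (by decide +kernel)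
theorem L88533 : W_31 (nat_lit 8) (nat_lit 0xf00000000c001200000001000080000000000000000000000000000000) (nat_lit 0x0) (nat_lit 0x730010000480070002400010000800000000000000000000000000000000000) := T_31 (nat_lit 249) (nat_lit 248) (nat_lit 3) (nat_lit 7) (nat_lit 13) L88532 (by decide +kernel)
theorem L88534 : W_31 (nat_lit 2) (nat_lit 0x20001f00000003c001a00010001000080000000000000000000000000000000) (nat_lit 0x0) (nat_lit 0x80000000200000000000080000000000000000000000000000000000000000) := D_31 (nat_lit 213) (nat_lit 247) (nat_lit 163) (nat_lit 6) (nat_lit 9) (nat_lit 14) (nat_lit 6) (nat_lit 9) (nat_lit 13) (by decide +kernel)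
theorem L88535 : W_31 (nat_lit 3) (nat_lit 0x20001f00000003c001200010001000080000000000000000000000000000000) (nat_lit 0x0) (nat_lit 0x80000000200002000800080000000000000000000000000000000000000000) := T_31 (nat_lit 179) (nat_lit 193) (nat_lit 2) (nat_lit 6) (nat_lit 11) L88534 (by decide +kernel)
theorem L88536 : W_31 (nat_lit 4) (nat_lit 0x20001f00000002c001200010001000080000000000000000000000000000000) (nat_lit 0x0) (nat_lit 0x80000000200012002800080000000000000000000000000000000000000000) := T_31 (nat_lit 196) (nat_lit 181) (nat_lit 2) (nat_lit 7) (nat_lit 11) L88535 (by decide +kernel)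
theorem L88537 : W_31 (nat_lit 5) (nat_lit 0x20001f00000000c001200010001000080000000000000000000000000000000) (nat_lit 0x0) (nat_lit 0x80000000600032002800080000000000000000000000000000000000000000) := T_31 (nat_lit 197) (nat_lit 214) (nat_lit 7) (nat_lit 10) (nat_lit 10) L88536 (by decide +kernel)
theorem L88538 : W_31 (nat_lit 6) (nat_lit 0x20000f00000000c001200010001000080000000000000000000000000000000) (nat_lit 0x0) (nat_lit 0x480010000600032002800080000000000000000000000000000000000000000) := T_31 (nat_lit 232) (nat_lit 250) (nat_lit 3) (nat_lit 8) (nat_lit 13) L88537 (by decide +kernel)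
theorem L88539 : W_31 (nat_lit 7) (nat_lit 0xf00000000c001200010001000080000000000000000000000000000000) (nat_lit 0x0) (nat_lit 0x780010000600032002800080000000000000000000000000000000000000000) := T_31 (nat_lit 249) (nat_lit 248) (nat_lit 3) (nat_lit 7) (nat_lit 13) L88538 (by decide +kernel)
theorem L88540 : W_31 (nat_lit 8) (nat_lit 0xf00000000c001200000001000080000000000000000000000000000000) (nat_lit 0x0) (nat_lit 0x780010000600032002800090000800000000000000000000000000000000000) := T_31 (nat_lit 160) (nat_lit 143) (nat_lit 6) (nat_lit 7) (nat_lit 11) L88539 (by decide +kernel)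
theorem L88541 : W_31 (nat_lit 10) (nat_lit 0xf00000000c000200000001000080000000000000000000000000000000) (nat_lit 0x0) (nat_lit 0x7b0010000680072003c00098000800000000000000000000000000000000000) := Q_31 (nat_lit 180) (C_31 L88493 (C_31 L88517 (C_31 L88526 (C_31 L88505 (C_31 L88533 (C_31 L88540 N_31)))))) (by decide +kernel)
theorem L88542 : W_31 (nat_lit 5) (nat_lit 0xf00000000c001200000001000080000000000000000000000000000000) (nat_lit 0x0) (nat_lit 0x80000000c00030002000110000800000000000000000000000000000000000) := T_31 (nat_lit 214) (nat_lit 215) (nat_lit 2) (nat_lit 7) (nat_lit 13) L88393 (by decide +kernel)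
theorem L88543 : W_31 (nat_lit 2) (nat_lit 0x2000f00048002c001200000001000080000000000000000000000000000000) (nat_lit 0x0) (nat_lit 0x10002000100000000000000000000000000000000000000000) := D_31 (nat_lit 181) (nat_lit 196) (nat_lit 164) (nat_lit 2) (nat_lit 7) (nat_lit 11) (nat_lit 6) (nat_lit 10) (nat_lit 13) (by decide +kernel)
theorem L88544 : W_31 (nat_lit 3) (nat_lit 0x2000f00048000c001200000001000080000000000000000000000000000000) (nat_lit 0x0) (nat_lit 0x80000000000030002000100000000000000000000000000000000000000000) := T_31 (nat_lit 197) (nat_lit 247) (nat_lit 5) (nat_lit 10) (nat_lit 10) L88543 (by decide +kernel)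
theorem L88545 : W_31 (nat_lit 4) (nat_lit 0x2000f00040000c001200000001000080000000000000000000000000000000) (nat_lit 0x0) (nat_lit 0x80000000080030002400100000000000000000000000000000000000000000) := T_31 (nat_lit 211) (nat_lit 178) (nat_lit 6) (nat_lit 7) (nat_lit 14) L88544 (by decide +kernel)
theorem L88546 : W_31 (nat_lit 5) (nat_lit 0x2000f00000000c001200000001000080000000000000000000000000000000) (nat_lit 0x0) (nat_lit 0x80000000c80030002400100000000000000000000000000000000000000000) := T_31 (nat_lit 214) (nat_lit 215) (nat_lit 2) (nat_lit 7) (nat_lit 13) L88545 (by decide +kernel)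
theorem L88547 : W_31 (nat_lit 6) (nat_lit 0xf00000000c001200000001000080000000000000000000000000000000) (nat_lit 0x0) (nat_lit 0xb0000000c80030002400100000000000000000000000000000000000000000) := T_31 (nat_lit 245) (nat_lit 244) (nat_lit 1) (nat_lit 10) (nat_lit 13) L88546 (by decide +kernel)
theorem L88548 : W_31 (nat_lit 2) (nat_lit 0x1f00040002c001200190001000080000000000000000000000000000000) (nat_lit 0x0) (nat_lit 0xc00040000000000000000000000000000000000000000) := D_31 (nat_lit 179) (nat_lit 178) (nat_lit 162) (nat_lit 2) (nat_lit 7) (nat_lit 10) (nat_lit 4) (nat_lit 10) (nat_lit 13) (by decide +kernel)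
theorem L88549 : W_31 (nat_lit 3) (nat_lit 0x1f00040002c001200090001000080000000000000000000000000000000) (nat_lit 0x0) (nat_lit 0xc00140008000000000000000000000000000000000000) := T_31 (nat_lit 164) (nat_lit 147) (nat_lit 6) (nat_lit 10) (nat_lit 12) L88548 (by decide +kernel)
theorem L88550 : W_31 (nat_lit 4) (nat_lit 0xf00040002c001200090001000080000000000000000000000000000000) (nat_lit 0x0) (nat_lit 0x200010000000000000c00140008000000000000000000000000000000000000) := T_31 (nat_lit 232) (nat_lit 249) (nat_lit 7) (nat_lit 10) (nat_lit 10) L88549 (by decide +kernel)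
theorem L88551 : W_31 (nat_lit 5) (nat_lit 0xf00040002c001200010001000080000000000000000000000000000000) (nat_lit 0x0) (nat_lit 0x200010000200000000c001c0008000000000000000000000000000000000000) := T_31 (nat_lit 163) (nat_lit 213) (nat_lit 5) (nat_lit 10) (nat_lit 9) L88550 (by decide +kernel)
theorem L88552 : W_31 (nat_lit 6) (nat_lit 0xf00040000c001200010001000080000000000000000000000000000000) (nat_lit 0x0) (nat_lit 0x280010000200020000c001c0008000000000000000000000000000000000000) := T_31 (nat_lit 197) (nat_lit 247) (nat_lit 5) (nat_lit 10) (nat_lit 10) L88551 (by decide +kernel)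
theorem L88553 : W_31 (nat_lit 7) (nat_lit 0xf00040000c001200000001000080000000000000000000000000000000) (nat_lit 0x0) (nat_lit 0x280010000200020000c001d0008800000000000000000000000000000000000) := T_31 (nat_lit 160) (nat_lit 143) (nat_lit 6) (nat_lit 7) (nat_lit 11) L88552 (by decide +kernel)
theorem L88554 : W_31 (nat_lit 8) (nat_lit 0xf00000000c001200000001000080000000000000000000000000000000) (nat_lit 0x0) (nat_lit 0x280010000e00020000c001d0008800000000000000000000000000000000000) := T_31 (nat_lit 214) (nat_lit 215) (nat_lit 2) (nat_lit 7) (nat_lit 13) L88553 (by decide +kernel)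
theorem L88555 : W_31 (nat_lit 9) (nat_lit 0xf00000000c000200000001000080000000000000000000000000000000) (nat_lit 0x0) (nat_lit 0x2b0010000e80030003c001d8008800000000000000000000000000000000000) := Q_31 (nat_lit 180) (C_31 L88493 (C_31 L88542 (C_31 L88547 (C_31 L88554 N_31)))) (by decide +kernel)
theorem L88556 : W_31 (nat_lit 2) (nat_lit 0x2000f00068001c000200018001000080000000000000000000000000000000) (nat_lit 0x0) (nat_lit 0x2000100000000000000000800000000000000000000000000000000000000000000) := D_31 (nat_lit 248) (nat_lit 265) (nat_lit 179) (nat_lit 4) (nat_lit 10) (nat_lit 15) (nat_lit 7) (nat_lit 9) (nat_lit 10) (by decide +kernel)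
theorem L88557 : W_31 (nat_lit 3) (nat_lit 0x2000f00048001c000200018001000080000000000000000000000000000000) (nat_lit 0x0) (nat_lit 0x2000100000000200002000800000000000000000000000000000000000000000000) := T_31 (nat_lit 213) (nat_lit 193) (nat_lit 3) (nat_lit 6) (nat_lit 11) L88556 (by decide +kernel)
theorem L88558 : W_31 (nat_lit 4) (nat_lit 0x2000f00008001c000200018001000080000000000000000000000000000000) (nat_lit 0x0) (nat_lit 0x2000100000000e00002000800000000000000000000000000000000000000000000) := T_31 (nat_lit 214) (nat_lit 215) (nat_lit 2) (nat_lit 7) (nat_lit 13) L88557 (by decide +kernel)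
theorem L88559 : W_31 (nat_lit 5) (nat_lit 0x2000f00008001c000200010001000080000000000000000000000000000000) (nat_lit 0x0) (nat_lit 0x2000100000000e00002000800008000400000000000000000000000000000000000) := T_31 (nat_lit 159) (nat_lit 142) (nat_lit 4) (nat_lit 7) (nat_lit 12) L88558 (by decide +kernel)
theorem L88560 : W_31 (nat_lit 6) (nat_lit 0x2000f00000001c000200010001000080000000000000000000000000000000) (nat_lit 0x0) (nat_lit 0x2000100000000e80002000c00008000400000000000000000000000000000000000) := T_31 (nat_lit 211) (nat_lit 178) (nat_lit 6) (nat_lit 7) (nat_lit 14) L88559 (by decide +kernel)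
theorem L88561 : W_31 (nat_lit 7) (nat_lit 0x2000f00000001c000200000001000080000000000000000000000000000000) (nat_lit 0x0) (nat_lit 0x2000100000000e80002000c00018000c00000000000000000000000000000000000) := T_31 (nat_lit 160) (nat_lit 143) (nat_lit 6) (nat_lit 7) (nat_lit 11) L88560 (by decide +kernel)
theorem L88562 : W_31 (nat_lit 8) (nat_lit 0xf00000001c000200000001000080000000000000000000000000000000) (nat_lit 0x0) (nat_lit 0x2000130000000e80002000c00018000c00000000000000000000000000000000000) := T_31 (nat_lit 245) (nat_lit 244) (nat_lit 1) (nat_lit 10) (nat_lit 13) L88561 (by decide +kernel)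
theorem L88563 : W_31 (nat_lit 2) (nat_lit 0xf00040001e001200010001000080000000000000000000000000000000) (nat_lit 0x0) (nat_lit 0x80000000000020002000000000000000000000000000000000000000000000) := D_31 (nat_lit 197) (nat_lit 181) (nat_lit 247) (nat_lit 2) (nat_lit 7) (nat_lit 11) (nat_lit 5) (nat_lit 10) (nat_lit 10) (by decide +kernel)
theorem L88564 : W_31 (nat_lit 3) (nat_lit 0xf00040001e000200010001000080000000000000000000000000000000) (nat_lit 0x0) (nat_lit 0x80000000000020003800000000000000000000000000000000000000000000) := T_31 (nat_lit 180) (nat_lit 179) (nat_lit 2) (nat_lit 6) (nat_lit 11) L88563 (by decide +kernel)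
theorem L88565 : W_31 (nat_lit 4) (nat_lit 0xf00040001c000200010001000080000000000000000000000000000000) (nat_lit 0x0) (nat_lit 0x80000000200022003800000000000000000000000000000000000000000000) := T_31 (nat_lit 193) (nat_lit 213) (nat_lit 3) (nat_lit 6) (nat_lit 11) L88564 (by decide +kernel)
theorem L88566 : W_31 (nat_lit 5) (nat_lit 0xf00040001c000200000001000080000000000000000000000000000000) (nat_lit 0x0) (nat_lit 0x80000000200022003800010000800000000000000000000000000000000000) := T_31 (nat_lit 160) (nat_lit 143) (nat_lit 6) (nat_lit 7) (nat_lit 11) L88565 (by decide +kernel)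
theorem L88567 : W_31 (nat_lit 6) (nat_lit 0xf00000001c000200000001000080000000000000000000000000000000) (nat_lit 0x0) (nat_lit 0x80000000e00022003800010000800000000000000000000000000000000000) := T_31 (nat_lit 214) (nat_lit 215) (nat_lit 2) (nat_lit 7) (nat_lit 13) L88566 (by decide +kernel)
theorem L88568 : W_31 (nat_lit 2) (nat_lit 0x2000f00048001e001200000001000080000000000000000000000000000000) (nat_lit 0x0) (nat_lit 0x80000000000020002000000000000000000000000000000000000000000000) := D_31 (nat_lit 197) (nat_lit 181) (nat_lit 247) (nat_lit 2) (nat_lit 7) (nat_lit 11) (nat_lit 5) (nat_lit 10) (nat_lit 10) (by decide +kernel)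
theorem L88569 : W_31 (nat_lit 3) (nat_lit 0x2000f00048001e000200000001000080000000000000000000000000000000) (nat_lit 0x0) (nat_lit 0x80000000000020003800000000000000000000000000000000000000000000) := T_31 (nat_lit 180) (nat_lit 179) (nat_lit 2) (nat_lit 6) (nat_lit 11) L88568 (by decide +kernel)
theorem L88570 : W_31 (nat_lit 4) (nat_lit 0x2000f00048001c000200000001000080000000000000000000000000000000) (nat_lit 0x0) (nat_lit 0x80000000200022003800000000000000000000000000000000000000000000) := T_31 (nat_lit 193) (nat_lit 213) (nat_lit 3) (nat_lit 6) (nat_lit 11) L88569 (by decide +kernel)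
theorem L88571 : W_31 (nat_lit 5) (nat_lit 0x2000f00040001c000200000001000080000000000000000000000000000000) (nat_lit 0x0) (nat_lit 0x80000000280022003c00000000000000000000000000000000000000000000) := T_31 (nat_lit 211) (nat_lit 178) (nat_lit 6) (nat_lit 7) (nat_lit 14) L88570 (by decide +kernel)
theorem L88572 : W_31 (nat_lit 6) (nat_lit 0x2000f00000001c000200000001000080000000000000000000000000000000) (nat_lit 0x0) (nat_lit 0x80000000e80022003c00000000000000000000000000000000000000000000) := T_31 (nat_lit 214) (nat_lit 215) (nat_lit 2) (nat_lit 7) (nat_lit 13) L88571 (by decide +kernel)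
theorem L88573 : W_31 (nat_lit 7) (nat_lit 0xf00000001c000200000001000080000000000000000000000000000000) (nat_lit 0x0) (nat_lit 0xb0000000e80022003c00000000000000000000000000000000000000000000) := T_31 (nat_lit 245) (nat_lit 244) (nat_lit 1) (nat_lit 10) (nat_lit 13) L88572 (by decide +kernel)
theorem L88574 : W_31 (nat_lit 2) (nat_lit 0x2000f00040003e800600010001000080000000000000000000000000000000) (nat_lit 0x0) (nat_lit 0x80000000000000003000000000000000000000000000000000000000000000) := D_31 (nat_lit 180) (nat_lit 181) (nat_lit 247) (nat_lit 2) (nat_lit 7) (nat_lit 11) (nat_lit 5) (nat_lit 10) (nat_lit 10) (by decide +kernel)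
theorem L88575 : W_31 (nat_lit 3) (nat_lit 0x2000f00040001e800600010001000080000000000000000000000000000000) (nat_lit 0x0) (nat_lit 0x80000000000060003000000000000000000000000000000000000000000000) := T_31 (nat_lit 197) (nat_lit 198) (nat_lit 0) (nat_lit 11) (nat_lit 11) L88574 (by decide +kernel)
theorem L88576 : W_31 (nat_lit 4) (nat_lit 0x2000f00040001e000600010001000080000000000000000000000000000000) (nat_lit 0x0) (nat_lit 0x80000000000061803000000000000000000000000000000000000000000000) := T_31 (nat_lit 191) (nat_lit 192) (nat_lit 2) (nat_lit 4) (nat_lit 11) L88575 (by decide +kernel)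
theorem L88577 : W_31 (nat_lit 5) (nat_lit 0x2000f00040001e000200010001000080000000000000000000000000000000) (nat_lit 0x0) (nat_lit 0x80000000080061803400000000000000000000000000000000000000000000) := T_31 (nat_lit 178) (nat_lit 211) (nat_lit 6) (nat_lit 7) (nat_lit 14) L88576 (by decide +kernel)
theorem L88578 : W_31 (nat_lit 6) (nat_lit 0xf00040001e000200010001000080000000000000000000000000000000) (nat_lit 0x0) (nat_lit 0xb0000000080061803400000000000000000000000000000000000000000000) := T_31 (nat_lit 245) (nat_lit 244) (nat_lit 1) (nat_lit 10) (nat_lit 13) L88577 (by decide +kernel)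
theorem L88579 : W_31 (nat_lit 7) (nat_lit 0xf00040001c000200010001000080000000000000000000000000000000) (nat_lit 0x0) (nat_lit 0xb0000000280063803400000000000000000000000000000000000000000000) := T_31 (nat_lit 193) (nat_lit 213) (nat_lit 3) (nat_lit 6) (nat_lit 11) L88578 (by decide +kernel)
theorem L88580 : W_31 (nat_lit 8) (nat_lit 0xf00040001c000200000001000080000000000000000000000000000000) (nat_lit 0x0) (nat_lit 0xb0000000280063803400010000800000000000000000000000000000000000) := T_31 (nat_lit 160) (nat_lit 143) (nat_lit 6) (nat_lit 7) (nat_lit 11) L88579 (by decide +kernel)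
theorem L88581 : W_31 (nat_lit 9) (nat_lit 0xf00000001c000200000001000080000000000000000000000000000000) (nat_lit 0x0) (nat_lit 0xb0000000e80063803400010000800000000000000000000000000000000000) := T_31 (nat_lit 214) (nat_lit 215) (nat_lit 2) (nat_lit 7) (nat_lit 13) L88580 (by decide +kernel)
theorem L88582 : W_31 (nat_lit 2) (nat_lit 0x2000f001a8003c001200018001000080000000000000000000000000000000) (nat_lit 0x0) (nat_lit 0x100000000000000000800080000000000000000000000000000000000000000) := D_31 (nat_lit 179) (nat_lit 163) (nat_lit 248) (nat_lit 6) (nat_lit 9) (nat_lit 13) (nat_lit 7) (nat_lit 9) (nat_lit 10) (by decide +kernel)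
theorem L88583 : W_31 (nat_lit 3) (nat_lit 0x2000f00188003c001200018001000080000000000000000000000000000000) (nat_lit 0x0) (nat_lit 0x180000000200000000800080000000000000000000000000000000000000000) := T_31 (nat_lit 213) (nat_lit 247) (nat_lit 6) (nat_lit 9) (nat_lit 14) L88582 (by decide +kernel)
theorem L88584 : W_31 (nat_lit 4) (nat_lit 0x2000f00188003c000200018001000080000000000000000000000000000000) (nat_lit 0x0) (nat_lit 0x180000000200000003800080000000000000000000000000000000000000000) := T_31 (nat_lit 180) (nat_lit 181) (nat_lit 2) (nat_lit 7) (nat_lit 11) L88583 (by decide +kernel)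
theorem L88585 : W_31 (nat_lit 5) (nat_lit 0x2000f00188001c000200018001000080000000000000000000000000000000) (nat_lit 0x0) (nat_lit 0x180000000200060003800080000000000000000000000000000000000000000) := T_31 (nat_lit 197) (nat_lit 198) (nat_lit 3) (nat_lit 8) (nat_lit 11) L88584 (by decide +kernel)
theorem L88586 : W_31 (nat_lit 6) (nat_lit 0x2000f00088001c000200018001000080000000000000000000000000000000) (nat_lit 0x0) (nat_lit 0x180010001200060003800080000000000000000000000000000000000000000) := T_31 (nat_lit 216) (nat_lit 232) (nat_lit 2) (nat_lit 8) (nat_lit 13) L88585 (by decide +kernel)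
theorem L88587 : W_31 (nat_lit 7) (nat_lit 0x2000f00008001c000200018001000080000000000000000000000000000000) (nat_lit 0x0) (nat_lit 0x180010001e00060003800080000000000000000000000000000000000000000) := T_31 (nat_lit 215) (nat_lit 214) (nat_lit 2) (nat_lit 7) (nat_lit 13) L88586 (by decide +kernel)
theorem L88588 : W_31 (nat_lit 8) (nat_lit 0x2000f00008001c000200010001000080000000000000000000000000000000) (nat_lit 0x0) (nat_lit 0x180010001e00060003800088000400000000000000000000000000000000000) := T_31 (nat_lit 159) (nat_lit 142) (nat_lit 4) (nat_lit 7) (nat_lit 12) L88587 (by decide +kernel)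
theorem L88589 : W_31 (nat_lit 9) (nat_lit 0x2000f00000001c000200010001000080000000000000000000000000000000) (nat_lit 0x0) (nat_lit 0x180010001e80060003c00088000400000000000000000000000000000000000) := T_31 (nat_lit 211) (nat_lit 178) (nat_lit 6) (nat_lit 7) (nat_lit 14) L88588 (by decide +kernel)
theorem L88590 : W_31 (nat_lit 10) (nat_lit 0x2000f00000001c000200000001000080000000000000000000000000000000) (nat_lit 0x0) (nat_lit 0x180010001e80060003c00098000c00000000000000000000000000000000000) := T_31 (nat_lit 160) (nat_lit 143) (nat_lit 6) (nat_lit 7) (nat_lit 11) L88589 (by decide +kernel)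
theorem L88591 : W_31 (nat_lit 11) (nat_lit 0xf00000001c000200000001000080000000000000000000000000000000) (nat_lit 0x0) (nat_lit 0x1b0010001e80060003c00098000c00000000000000000000000000000000000) := T_31 (nat_lit 245) (nat_lit 244) (nat_lit 1) (nat_lit 10) (nat_lit 13) L88590 (by decide +kernel)
theorem L88592 : W_31 (nat_lit 2) (nat_lit 0x2000f00040003c000600010001000080000000000000000000000000000000) (nat_lit 0x0) (nat_lit 0x80000000000000003000000000000000000000000000000000000000000000) := D_31 (nat_lit 180) (nat_lit 181) (nat_lit 247) (nat_lit 2) (nat_lit 7) (nat_lit 11) (nat_lit 5) (nat_lit 10) (nat_lit 10) (by decide +kernel)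
theorem L88593 : W_31 (nat_lit 3) (nat_lit 0x2000f00040001c000600010001000080000000000000000000000000000000) (nat_lit 0x0) (nat_lit 0x80000000000060003000000000000000000000000000000000000000000000) := T_31 (nat_lit 197) (nat_lit 198) (nat_lit 0) (nat_lit 11) (nat_lit 11) L88592 (by decide +kernel)
theorem L88594 : W_31 (nat_lit 4) (nat_lit 0x2000f00040001c000200010001000080000000000000000000000000000000) (nat_lit 0x0) (nat_lit 0x80000000080060003400000000000000000000000000000000000000000000) := T_31 (nat_lit 178) (nat_lit 211) (nat_lit 6) (nat_lit 7) (nat_lit 14) L88593 (by decide +kernel)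
theorem L88595 : W_31 (nat_lit 5) (nat_lit 0xf00040001c000200010001000080000000000000000000000000000000) (nat_lit 0x0) (nat_lit 0xb0000000080060003400000000000000000000000000000000000000000000) := T_31 (nat_lit 245) (nat_lit 244) (nat_lit 1) (nat_lit 10) (nat_lit 13) L88594 (by decide +kernel)
theorem L88596 : W_31 (nat_lit 6) (nat_lit 0xf00040001c000200000001000080000000000000000000000000000000) (nat_lit 0x0) (nat_lit 0xb0000000080060003400010000800000000000000000000000000000000000) := T_31 (nat_lit 160) (nat_lit 143) (nat_lit 6) (nat_lit 7) (nat_lit 11) L88595 (by decide +kernel)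
theorem L88597 : W_31 (nat_lit 7) (nat_lit 0xf00000001c000200000001000080000000000000000000000000000000) (nat_lit 0x0) (nat_lit 0xb0000000c80060003400010000800000000000000000000000000000000000) := T_31 (nat_lit 214) (nat_lit 215) (nat_lit 2) (nat_lit 7) (nat_lit 13) L88596 (by decide +kernel)
theorem L88598 : W_31 (nat_lit 2) (nat_lit 0xa000f00000003c001600010001000080000000000000000000000000000000) (nat_lit 0x0) (nat_lit 0x2000800008000000000000000000000000000000000000000) := D_31 (nat_lit 179) (nat_lit 193) (nat_lit 159) (nat_lit 2) (nat_lit 6) (nat_lit 11) (nat_lit 0) (nat_lit 10) (nat_lit 10) (by decide +kernel)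
theorem L88599 : W_31 (nat_lit 3) (nat_lit 0xa000f00000003c000600010001000080000000000000000000000000000000) (nat_lit 0x0) (nat_lit 0x2003800008000000000000000000000000000000000000000) := T_31 (nat_lit 180) (nat_lit 181) (nat_lit 2) (nat_lit 7) (nat_lit 11) L88598 (by decide +kernel)
theorem L88600 : W_31 (nat_lit 4) (nat_lit 0xa000f00000001c000600010001000080000000000000000000000000000000) (nat_lit 0x0) (nat_lit 0x62003800008000000000000000000000000000000000000000) := T_31 (nat_lit 197) (nat_lit 198) (nat_lit 0) (nat_lit 11) (nat_lit 11) L88599 (by decide +kernel)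
theorem L88601 : W_31 (nat_lit 5) (nat_lit 0x2000f00000001c000600010001000080000000000000000000000000000000) (nat_lit 0x0) (nat_lit 0x80000000200062003800008000000000000000000000000000000000000000) := T_31 (nat_lit 247) (nat_lit 213) (nat_lit 4) (nat_lit 9) (nat_lit 14) L88600 (by decide +kernel)
theorem L88602 : W_31 (nat_lit 6) (nat_lit 0x2000f00000001c000200010001000080000000000000000000000000000000) (nat_lit 0x0) (nat_lit 0x80000000280062003c00008000000000000000000000000000000000000000) := T_31 (nat_lit 178) (nat_lit 211) (nat_lit 6) (nat_lit 7) (nat_lit 14) L88601 (by decide +kernel)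
theorem L88603 : W_31 (nat_lit 7) (nat_lit 0x2000f00000001c000200000001000080000000000000000000000000000000) (nat_lit 0x0) (nat_lit 0x80000000280062003c00018000800000000000000000000000000000000000) := T_31 (nat_lit 160) (nat_lit 143) (nat_lit 6) (nat_lit 7) (nat_lit 11) L88602 (by decide +kernel)
theorem L88604 : W_31 (nat_lit 8) (nat_lit 0xf00000001c000200000001000080000000000000000000000000000000) (nat_lit 0x0) (nat_lit 0xb0000000280062003c00018000800000000000000000000000000000000000) := T_31 (nat_lit 245) (nat_lit 244) (nat_lit 1) (nat_lit 10) (nat_lit 13) L88603 (by decide +kernel)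
theorem L88605 : W_31 (nat_lit 12) (nat_lit 0xf00000000c000200000001000080000000000000000000000000000000) (nat_lit 0x0) (nat_lit 0x20001b0010001e80073803c00098000c00000000000000000000000000000000000) := Q_31 (nat_lit 196) (C_31 L88562 (C_31 L88567 (C_31 L88573 (C_31 L88581 (C_31 L88591 (C_31 L88597 (C_31 L88604 N_31))))))) (by decide +kernel)
theorem L88606 : W_31 (nat_lit 13) (nat_lit 0x700000000c000200000001000080000000000000000000000000000000) (nat_lit 0x0) (nat_lit 0x20007b0018001eb80f3807ce03d8008c00000000000000000000000000000000000) := Q_31 (nat_lit 231) (C_31 L88259 (C_31 L88288 (C_31 L88518 (C_31 L88541 (C_31 L88555 (C_31 L88605 N_31)))))) (by decide +kernel)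
theorem L88607 : W_31 (nat_lit 2) (nat_lit 0x1000700000000c000200000001000080000000000000000000000000000000) (nat_lit 0x0) (nat_lit 0x8000800080000000000000000000000000000000000000000000000000000) := D_31 (nat_lit 227) (nat_lit 243) (nat_lit 211) (nat_lit 1) (nat_lit 9) (nat_lit 13) (nat_lit 5) (nat_lit 7) (nat_lit 10) (by decide +kernel)
theorem L88608 : W_31 (nat_lit 3) (nat_lit 0x1000f00000000c000200010001000080000000000000000000000000000000) (nat_lit 0x0) (nat_lit 0x388000800000000000000000000000000000000000000000000000000000000) := T_31 (nat_lit 227) (nat_lit 243) (nat_lit 1) (nat_lit 9) (nat_lit 13) L88209 (by decide +kernel)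
theorem L88609 : W_31 (nat_lit 4) (nat_lit 0x1000700000000c000200010001000080000000000000000000000000000000) (nat_lit 0x0) (nat_lit 0x3a8008800000000000000000000000000000000000000000000000000000000) := T_31 (nat_lit 231) (nat_lit 245) (nat_lit 1) (nat_lit 10) (nat_lit 13) L88608 (by decide +kernel)
theorem L88610 : W_31 (nat_lit 5) (nat_lit 0x1000700000000c000200000001000080000000000000000000000000000000) (nat_lit 0x0) (nat_lit 0x3a8008800000000000000010000800000000000000000000000000000000000) := T_31 (nat_lit 160) (nat_lit 143) (nat_lit 6) (nat_lit 7) (nat_lit 11) L88609 (by decide +kernel)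
theorem L88611 : W_31 (nat_lit 2) (nat_lit 0x3000700000000c000200000001000080000000000000000000000000000000) (nat_lit 0x0) (nat_lit 0x200000000000080000000400000000000000000000000000000000000000000000) := D_31 (nat_lit 211) (nat_lit 261) (nat_lit 178) (nat_lit 5) (nat_lit 7) (nat_lit 11) (nat_lit 6) (nat_lit 7) (nat_lit 14) (by decide +kernel)
theorem L88612 : W_31 (nat_lit 3) (nat_lit 0x1000700000000c000200000001000080000000000000000000000000000000) (nat_lit 0x0) (nat_lit 0x200020008000080000000400000000000000000000000000000000000000000000) := T_31 (nat_lit 245) (nat_lit 231) (nat_lit 1) (nat_lit 10) (nat_lit 13) L88611 (by decide +kernel)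
theorem L88613 : W_31 (nat_lit 6) (nat_lit 0x700000000c000200000001000080000000000000000000000000000000) (nat_lit 0x0) (nat_lit 0x2003b8008800080000000400010000800000000000000000000000000000000000) := Q_31 (nat_lit 244) (C_31 L88607 (C_31 L88610 (C_31 L88612 N_31))) (by decide +kernel)
theorem L88614 : W_31 (nat_lit 7) (nat_lit 0x700000000c000200000001000080000000000000000000000000000000) (nat_lit 0x0) (nat_lit 0x198000800680032001c00080000000000000000000000000000000000000000) := Q_31 (nat_lit 227) (C_31 L88474 (C_31 L88483 N_31)) (by decide +kernel)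
theorem L88615 : W_31 (nat_lit 2) (nat_lit 0x8000700160001c000200010001000080000000000000000000000000000000) (nat_lit 0x0) (nat_lit 0x1000000000000000020001000000000000000000000000000000000000000000000) := D_31 (nat_lit 197) (nat_lit 180) (nat_lit 264) (nat_lit 6) (nat_lit 9) (nat_lit 14) (nat_lit 6) (nat_lit 9) (nat_lit 15) (by decide +kernel)
theorem L88616 : W_31 (nat_lit 3) (nat_lit 0x700160001c000200010001000080000000000000000000000000000000) (nat_lit 0x0) (nat_lit 0x1000080000000000020001400000000000000000000000000000000000000000000) := T_31 (nat_lit 247) (nat_lit 178) (nat_lit 4) (nat_lit 9) (nat_lit 14) L88615 (by decide +kernel)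
theorem L88617 : W_31 (nat_lit 4) (nat_lit 0x700160000c000200010001000080000000000000000000000000000000) (nat_lit 0x0) (nat_lit 0x1000080000000000032001400000000000000000000000000000000000000000000) := T_31 (nat_lit 196) (nat_lit 193) (nat_lit 3) (nat_lit 6) (nat_lit 11) L88616 (by decide +kernel)
theorem L88618 : W_31 (nat_lit 5) (nat_lit 0x700060000c000200010001000080000000000000000000000000000000) (nat_lit 0x0) (nat_lit 0x1000080000001800032001400000000000000000000000000000000000000000000) := T_31 (nat_lit 216) (nat_lit 215) (nat_lit 1) (nat_lit 12) (nat_lit 12) L88617 (by decide +kernel)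
theorem L88619 : W_31 (nat_lit 6) (nat_lit 0x700040000c000200010001000080000000000000000000000000000000) (nat_lit 0x0) (nat_lit 0x1000080000801a00032001400000000000000000000000000000000000000000000) := T_31 (nat_lit 213) (nat_lit 227) (nat_lit 2) (nat_lit 6) (nat_lit 13) L88618 (by decide +kernel)
theorem L88620 : W_31 (nat_lit 7) (nat_lit 0x700040000c000200000001000080000000000000000000000000000000) (nat_lit 0x0) (nat_lit 0x1000080000801a00032001400010000800000000000000000000000000000000000) := T_31 (nat_lit 160) (nat_lit 143) (nat_lit 6) (nat_lit 7) (nat_lit 11) L88619 (by decide +kernel)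
theorem L88621 : W_31 (nat_lit 2) (nat_lit 0x8000700060001c000200010001000080000000000000000000000000000000) (nat_lit 0x0) (nat_lit 0x1000000000000000020001000000000000000000000000000000000000000000000) := D_31 (nat_lit 197) (nat_lit 180) (nat_lit 264) (nat_lit 6) (nat_lit 9) (nat_lit 14) (nat_lit 6) (nat_lit 9) (nat_lit 15) (by decide +kernel)
theorem L88622 : W_31 (nat_lit 3) (nat_lit 0x700060001c000200010001000080000000000000000000000000000000) (nat_lit 0x0) (nat_lit 0x1000080000000000020001400000000000000000000000000000000000000000000) := T_31 (nat_lit 247) (nat_lit 178) (nat_lit 4) (nat_lit 9) (nat_lit 14) L88621 (by decide +kernel)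
theorem L88623 : W_31 (nat_lit 4) (nat_lit 0x700060000c000200010001000080000000000000000000000000000000) (nat_lit 0x0) (nat_lit 0x1000080000000000032001400000000000000000000000000000000000000000000) := T_31 (nat_lit 196) (nat_lit 193) (nat_lit 3) (nat_lit 6) (nat_lit 11) L88622 (by decide +kernel)
theorem L88624 : W_31 (nat_lit 5) (nat_lit 0x700060000c000200000001000080000000000000000000000000000000) (nat_lit 0x0) (nat_lit 0x1000080000000000032001400010000800000000000000000000000000000000000) := T_31 (nat_lit 160) (nat_lit 143) (nat_lit 6) (nat_lit 7) (nat_lit 11) L88623 (by decide +kernel)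
theorem L88625 : W_31 (nat_lit 6) (nat_lit 0x700040000c000200000001000080000000000000000000000000000000) (nat_lit 0x0) (nat_lit 0x1000080000800200032001400010000800000000000000000000000000000000000) := T_31 (nat_lit 213) (nat_lit 227) (nat_lit 2) (nat_lit 6) (nat_lit 13) L88624 (by decide +kernel)
theorem L88626 : W_31 (nat_lit 8) (nat_lit 0x700000000c000200000001000080000000000000000000000000000000) (nat_lit 0x0) (nat_lit 0x1000380008801e00032001400010000800000000000000000000000000000000000) := Q_31 (nat_lit 214) (C_31 L88334 (C_31 L88333 (C_31 L88332 (C_31 L88620 (C_31 L88625 N_31))))) (by decide +kernel)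
theorem L88627 : W_31 (nat_lit 2) (nat_lit 0x1000f80000000c000200010001000080000000000000000000000000000000) (nat_lit 0x0) (nat_lit 0xe00000000000000000000000000000000000000000000000000000) := D_31 (nat_lit 214) (nat_lit 215) (nat_lit 213) (nat_lit 2) (nat_lit 7) (nat_lit 13) (nat_lit 2) (nat_lit 6) (nat_lit 13) (by decide +kernel)
theorem L88628 : W_31 (nat_lit 3) (nat_lit 0x1000f00000000c000200010001000080000000000000000000000000000000) (nat_lit 0x0) (nat_lit 0x8000800e00000000000000000000000000000000000000000000000000000) := T_31 (nat_lit 227) (nat_lit 243) (nat_lit 1) (nat_lit 9) (nat_lit 13) L88627 (by decide +kernel)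
theorem L88629 : W_31 (nat_lit 4) (nat_lit 0x1000700000000c000200010001000080000000000000000000000000000000) (nat_lit 0x0) (nat_lit 0x28008800e00000000000000000000000000000000000000000000000000000) := T_31 (nat_lit 231) (nat_lit 245) (nat_lit 1) (nat_lit 10) (nat_lit 13) L88628 (by decide +kernel)
theorem L88630 : W_31 (nat_lit 5) (nat_lit 0x1000700000000c000200000001000080000000000000000000000000000000) (nat_lit 0x0) (nat_lit 0x28008800e00000000000010000800000000000000000000000000000000000) := T_31 (nat_lit 160) (nat_lit 143) (nat_lit 6) (nat_lit 7) (nat_lit 11) L88629 (by decide +kernel)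
theorem L88631 : W_31 (nat_lit 6) (nat_lit 0x700000000c000200000001000080000000000000000000000000000000) (nat_lit 0x0) (nat_lit 0x200038008800e80000000400010000800000000000000000000000000000000000) := Q_31 (nat_lit 244) (C_31 L88612 (C_31 L88607 (C_31 L88630 N_31))) (by decide +kernel)
theorem L88632 : W_31 (nat_lit 14) (nat_lit 0x300000000c000200000001000080000000000000000000000000000000) (nat_lit 0x0) (nat_lit 0x32007b801c801eb80f3807ce03d8008c00000000000000000000000000000000000) := Q_31 (nat_lit 230) (C_31 L88294 (C_31 L88473 (C_31 L88484 (C_31 L88489 (C_31 L88606 (C_31 L88613 (C_31 L88614 (C_31 L88626 (C_31 L88631 N_31))))))))) (by decide +kernel)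
theorem L88633 : W_31 (nat_lit 2) (nat_lit 0x58003c0002000c000200000001000080000000000000000000000000000000) (nat_lit 0x0) (nat_lit 0x4000200000000000000001000000000000000000000000000000000000000000000000) := D_31 (nat_lit 261) (nat_lit 278) (nat_lit 192) (nat_lit 4) (nat_lit 6) (nat_lit 16) (nat_lit 7) (nat_lit 5) (nat_lit 11) (by decide +kernel)
theorem L88634 : W_31 (nat_lit 3) (nat_lit 0x48003c0002000c000200000001000080000000000000000000000000000000) (nat_lit 0x0) (nat_lit 0x4000200010004000000001000000000000000000000000000000000000000000000000) := T_31 (nat_lit 244) (nat_lit 230) (nat_lit 1) (nat_lit 9) (nat_lit 13) L88633 (by decide +kernel)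
theorem L88635 : W_31 (nat_lit 4) (nat_lit 0x48003c0000000c000200000001000080000000000000000000000000000000) (nat_lit 0x0) (nat_lit 0x4000200010004000030001000000000000000000000000000000000000000000000000) := T_31 (nat_lit 209) (nat_lit 208) (nat_lit 0) (nat_lit 8) (nat_lit 13) L88634 (by decide +kernel)
theorem L88636 : W_31 (nat_lit 5) (nat_lit 0x40003c0000000c000200000001000080000000000000000000000000000000) (nat_lit 0x0) (nat_lit 0x400020001c004000030001000000000000000000000000000000000000000000000000) := T_31 (nat_lit 243) (nat_lit 242) (nat_lit 1) (nat_lit 8) (nat_lit 13) L88635 (by decide +kernel)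
theorem L88637 : W_31 (nat_lit 6) (nat_lit 0x3c0000000c000200000001000080000000000000000000000000000000) (nat_lit 0x0) (nat_lit 0x40002000dc004000030001000000000000000000000000000000000000000000000000) := T_31 (nat_lit 246) (nat_lit 247) (nat_lit 3) (nat_lit 5) (nat_lit 13) L88636 (by decide +kernel)
theorem L88638 : W_31 (nat_lit 5) (nat_lit 0x88007c0002000c000200010001000080000000000000000000000000000000) (nat_lit 0x0) (nat_lit 0x600032001c00080000000000000000000000000000000000000000) := T_31 (nat_lit 213) (nat_lit 214) (nat_lit 2) (nat_lit 6) (nat_lit 13) L88361 (by decide +kernel)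
theorem L88639 : W_31 (nat_lit 6) (nat_lit 0x88003c0002000c000200010001000080000000000000000000000000000000) (nat_lit 0x0) (nat_lit 0x100004000600032001c00080000000000000000000000000000000000000000) := T_31 (nat_lit 230) (nat_lit 248) (nat_lit 3) (nat_lit 6) (nat_lit 13) L88638 (by decide +kernel)
theorem L88640 : W_31 (nat_lit 7) (nat_lit 0x88003c0000000c000200010001000080000000000000000000000000000000) (nat_lit 0x0) (nat_lit 0x100004000630032001c00080000000000000000000000000000000000000000) := T_31 (nat_lit 209) (nat_lit 208) (nat_lit 0) (nat_lit 8) (nat_lit 13) L88639 (by decide +kernel)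
theorem L88641 : W_31 (nat_lit 8) (nat_lit 0x8003c0000000c000200010001000080000000000000000000000000000000) (nat_lit 0x0) (nat_lit 0x1c0004000630032001c00080000000000000000000000000000000000000000) := T_31 (nat_lit 247) (nat_lit 246) (nat_lit 3) (nat_lit 5) (nat_lit 13) L88640 (by decide +kernel)
theorem L88642 : W_31 (nat_lit 9) (nat_lit 0x8003c0000000c000200000001000080000000000000000000000000000000) (nat_lit 0x0) (nat_lit 0x1c0004000630032001c00090000800000000000000000000000000000000000) := T_31 (nat_lit 160) (nat_lit 143) (nat_lit 6) (nat_lit 7) (nat_lit 11) L88641 (by decide +kernel)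
theorem L88643 : W_31 (nat_lit 10) (nat_lit 0x3c0000000c000200000001000080000000000000000000000000000000) (nat_lit 0x0) (nat_lit 0x1cc004000630032001c00090000800000000000000000000000000000000000) := T_31 (nat_lit 243) (nat_lit 242) (nat_lit 1) (nat_lit 8) (nat_lit 13) L88642 (by decide +kernel)
theorem L88644 : W_31 (nat_lit 2) (nat_lit 0x44003e0000000c000200010001000080000000000000000000000000000000) (nat_lit 0x0) (nat_lit 0x38000000000000000000000000000000000000000000000000000) := D_31 (nat_lit 208) (nat_lit 207) (nat_lit 209) (nat_lit 0) (nat_lit 7) (nat_lit 13) (nat_lit 0) (nat_lit 8) (nat_lit 13) (by decide +kernel)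
theorem L88645 : W_31 (nat_lit 3) (nat_lit 0x44003c0000000c000200010001000080000000000000000000000000000000) (nat_lit 0x0) (nat_lit 0x2000200038000000000000000000000000000000000000000000000000000) := T_31 (nat_lit 225) (nat_lit 241) (nat_lit 1) (nat_lit 7) (nat_lit 13) L88644 (by decide +kernel)
theorem L88646 : W_31 (nat_lit 4) (nat_lit 0x44003c0000000c000200000001000080000000000000000000000000000000) (nat_lit 0x0) (nat_lit 0x2000200038000000000010000800000000000000000000000000000000000) := T_31 (nat_lit 160) (nat_lit 143) (nat_lit 6) (nat_lit 7) (nat_lit 11) L88645 (by decide +kernel)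
theorem L88647 : W_31 (nat_lit 5) (nat_lit 0x40003c0000000c000200000001000080000000000000000000000000000000) (nat_lit 0x0) (nat_lit 0xe000200038000000000010000800000000000000000000000000000000000) := T_31 (nat_lit 242) (nat_lit 243) (nat_lit 1) (nat_lit 8) (nat_lit 13) L88646 (by decide +kernel)
theorem L88648 : W_31 (nat_lit 6) (nat_lit 0x3c0000000c000200000001000080000000000000000000000000000000) (nat_lit 0x0) (nat_lit 0xce000200038000000000010000800000000000000000000000000000000000) := T_31 (nat_lit 246) (nat_lit 247) (nat_lit 3) (nat_lit 5) (nat_lit 13) L88647 (by decide +kernel)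
theorem L88649 : W_31 (nat_lit 5) (nat_lit 0x80007c0002000c000200010001000080000000000000000000000000000000) (nat_lit 0x0) (nat_lit 0x600032001c00080000000000000000000000000000000000000000) := T_31 (nat_lit 213) (nat_lit 214) (nat_lit 2) (nat_lit 6) (nat_lit 13) L88370 (by decide +kernel)
theorem L88650 : W_31 (nat_lit 6) (nat_lit 0x80003c0002000c000200010001000080000000000000000000000000000000) (nat_lit 0x0) (nat_lit 0x100004000600032001c00080000000000000000000000000000000000000000) := T_31 (nat_lit 230) (nat_lit 248) (nat_lit 3) (nat_lit 6) (nat_lit 13) L88649 (by decide +kernel)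
theorem L88651 : W_31 (nat_lit 7) (nat_lit 0x80003c0002000c000200000001000080000000000000000000000000000000) (nat_lit 0x0) (nat_lit 0x100004000600032001c00090000800000000000000000000000000000000000) := T_31 (nat_lit 160) (nat_lit 143) (nat_lit 6) (nat_lit 7) (nat_lit 11) L88650 (by decide +kernel)
theorem L88652 : W_31 (nat_lit 8) (nat_lit 0x3c0002000c000200000001000080000000000000000000000000000000) (nat_lit 0x0) (nat_lit 0x1c0004000600032001c00090000800000000000000000000000000000000000) := T_31 (nat_lit 247) (nat_lit 246) (nat_lit 3) (nat_lit 5) (nat_lit 13) L88651 (by decide +kernel)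
theorem L88653 : W_31 (nat_lit 9) (nat_lit 0x3c0000000c000200000001000080000000000000000000000000000000) (nat_lit 0x0) (nat_lit 0x1c0004000630032001c00090000800000000000000000000000000000000000) := T_31 (nat_lit 209) (nat_lit 208) (nat_lit 0) (nat_lit 8) (nat_lit 13) L88652 (by decide +kernel)
theorem L88654 : W_31 (nat_lit 11) (nat_lit 0x380000000c000200000001000080000000000000000000000000000000) (nat_lit 0x0) (nat_lit 0x40002001de004600638033001c00090000800000000000000000000000000000000000) := Q_31 (nat_lit 226) (C_31 L88207 (C_31 L88637 (C_31 L88202 (C_31 L88643 (C_31 L88648 (C_31 L88653 N_31)))))) (by decide +kernel)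
theorem L88655 : W_31 (nat_lit 7) (nat_lit 0x1000380000000c000200010001000080000000000000000000000000000000) (nat_lit 0x0) (nat_lit 0x188004000600032001c00080000000000000000000000000000000000000000) := T_31 (nat_lit 230) (nat_lit 243) (nat_lit 1) (nat_lit 9) (nat_lit 13) L88356 (by decide +kernel)
theorem L88656 : W_31 (nat_lit 8) (nat_lit 0x380000000c000200010001000080000000000000000000000000000000) (nat_lit 0x0) (nat_lit 0x198004000680032001c00080000000000000000000000000000000000000000) := T_31 (nat_lit 244) (nat_lit 211) (nat_lit 5) (nat_lit 7) (nat_lit 10) L88655 (by decide +kernel)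
theorem L88657 : W_31 (nat_lit 9) (nat_lit 0x380000000c000200000001000080000000000000000000000000000000) (nat_lit 0x0) (nat_lit 0x198004000680032001c00090000800000000000000000000000000000000000) := T_31 (nat_lit 160) (nat_lit 143) (nat_lit 6) (nat_lit 7) (nat_lit 11) L88656 (by decide +kernel)
theorem L88658 : W_31 (nat_lit 4) (nat_lit 0x40003c0000000c000200010001000080000000000000000000000000000000) (nat_lit 0x0) (nat_lit 0xe000200038000000000000000000000000000000000000000000000000000) := T_31 (nat_lit 242) (nat_lit 243) (nat_lit 1) (nat_lit 8) (nat_lit 13) L88645 (by decide +kernel)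
theorem L88659 : W_31 (nat_lit 5) (nat_lit 0x4000380000000c000200010001000080000000000000000000000000000000) (nat_lit 0x0) (nat_lit 0x8e000600038000000000000000000000000000000000000000000000000000) := T_31 (nat_lit 226) (nat_lit 247) (nat_lit 3) (nat_lit 5) (nat_lit 13) L88658 (by decide +kernel)
theorem L88660 : W_31 (nat_lit 6) (nat_lit 0x4000380000000c000200000001000080000000000000000000000000000000) (nat_lit 0x0) (nat_lit 0x8e000600038000000000010000800000000000000000000000000000000000) := T_31 (nat_lit 160) (nat_lit 143) (nat_lit 6) (nat_lit 7) (nat_lit 11) L88659 (by decide +kernel)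
theorem L88661 : W_31 (nat_lit 7) (nat_lit 0x380000000c000200000001000080000000000000000000000000000000) (nat_lit 0x0) (nat_lit 0xce0006000b8000000000010000800000000000000000000000000000000000) := T_31 (nat_lit 246) (nat_lit 211) (nat_lit 7) (nat_lit 7) (nat_lit 10) L88660 (by decide +kernel)
theorem L88662 : W_31 (nat_lit 12) (nat_lit 0x300000000c000200000001000080000000000000000000000000000000) (nat_lit 0x0) (nat_lit 0x40002001de004e006b8033001c00090000800000000000000000000000000000000000) := Q_31 (nat_lit 227) (C_31 L9305 (C_31 L88654 (C_31 L88657 (C_31 L88661 N_31)))) (by decide +kernel)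
theorem L88663 : W_31 (nat_lit 2) (nat_lit 0x300008001c00160001a001000080000000000000000000000000000000) (nat_lit 0x0) (nat_lit 0x60002000000000000000000000000000000000000000000000) := D_31 (nat_lit 197) (nat_lit 198) (nat_lit 181) (nat_lit 0) (nat_lit 11) (nat_lit 11) (nat_lit 2) (nat_lit 7) (nat_lit 11) (by decide +kernel)
theorem L88664 : W_31 (nat_lit 3) (nat_lit 0x300008001c00060001a001000080000000000000000000000000000000) (nat_lit 0x0) (nat_lit 0x60003800000000000000000000000000000000000000000000) := T_31 (nat_lit 180) (nat_lit 179) (nat_lit 0) (nat_lit 10) (nat_lit 10) L88663 (by decide +kernel)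
theorem L88665 : W_31 (nat_lit 4) (nat_lit 0x300008001c000600018001000080000000000000000000000000000000) (nat_lit 0x0) (nat_lit 0x60003800006000000000000000000000000000000000000000) := T_31 (nat_lit 157) (nat_lit 158) (nat_lit 3) (nat_lit 4) (nat_lit 9) L88664 (by decide +kernel)
theorem L88666 : W_31 (nat_lit 5) (nat_lit 0x300008001c000600010001000080000000000000000000000000000000) (nat_lit 0x0) (nat_lit 0x6000380000e000400000000000000000000000000000000000) := T_31 (nat_lit 159) (nat_lit 142) (nat_lit 4) (nat_lit 7) (nat_lit 12) L88665 (by decide +kernel)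
theorem L88667 : W_31 (nat_lit 6) (nat_lit 0x300008001c000200010001000080000000000000000000000000000000) (nat_lit 0x0) (nat_lit 0x20000000000060003c0000e000400000000000000000000000000000000000) := T_31 (nat_lit 178) (nat_lit 245) (nat_lit 6) (nat_lit 7) (nat_lit 14) L88666 (by decide +kernel)
theorem L88668 : W_31 (nat_lit 7) (nat_lit 0x300000001c000200010001000080000000000000000000000000000000) (nat_lit 0x0) (nat_lit 0x60000000080060003c0000e000400000000000000000000000000000000000) := T_31 (nat_lit 211) (nat_lit 246) (nat_lit 7) (nat_lit 7) (nat_lit 10) L88667 (by decide +kernel)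
theorem L88669 : W_31 (nat_lit 8) (nat_lit 0x300000001c000200000001000080000000000000000000000000000000) (nat_lit 0x0) (nat_lit 0x60000000080060003c0001e000c00000000000000000000000000000000000) := T_31 (nat_lit 160) (nat_lit 143) (nat_lit 6) (nat_lit 7) (nat_lit 11) L88668 (by decide +kernel)
theorem L88670 : W_31 (nat_lit 2) (nat_lit 0x300068003c001200000001000080000000000000000000000000000000) (nat_lit 0x0) (nat_lit 0x4800000000000000080000000000000000000000000000000000000000) := D_31 (nat_lit 230) (nat_lit 227) (nat_lit 163) (nat_lit 2) (nat_lit 6) (nat_lit 13) (nat_lit 5) (nat_lit 10) (nat_lit 9) (by decide +kernel)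
theorem L88671 : W_31 (nat_lit 3) (nat_lit 0x300048003c001200000001000080000000000000000000000000000000) (nat_lit 0x0) (nat_lit 0x4800200002000000080000000000000000000000000000000000000000) := T_31 (nat_lit 213) (nat_lit 193) (nat_lit 3) (nat_lit 6) (nat_lit 11) L88670 (by decide +kernel)
theorem L88672 : W_31 (nat_lit 4) (nat_lit 0x300048003c000200000001000080000000000000000000000000000000) (nat_lit 0x0) (nat_lit 0x4800200002003000080000000000000000000000000000000000000000) := T_31 (nat_lit 180) (nat_lit 181) (nat_lit 2) (nat_lit 7) (nat_lit 11) L88671 (by decide +kernel)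
theorem L88673 : W_31 (nat_lit 5) (nat_lit 0x300048001c000200000001000080000000000000000000000000000000) (nat_lit 0x0) (nat_lit 0x4800a00022003000080000000000000000000000000000000000000000) := T_31 (nat_lit 197) (nat_lit 215) (nat_lit 3) (nat_lit 7) (nat_lit 11) L88672 (by decide +kernel)
theorem L88674 : W_31 (nat_lit 6) (nat_lit 0x300040001c000200000001000080000000000000000000000000000000) (nat_lit 0x0) (nat_lit 0x40004800a80022003000080000000000000000000000000000000000000000) := T_31 (nat_lit 211) (nat_lit 246) (nat_lit 7) (nat_lit 7) (nat_lit 10) L88673 (by decide +kernel)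
theorem L88675 : W_31 (nat_lit 2) (nat_lit 0x18000700068003c000200018001000080000000000000000000000000000000) (nat_lit 0x0) (nat_lit 0x200008000000000000800000000000000000000000000000000000000000000) := D_31 (nat_lit 231) (nat_lit 179) (nat_lit 249) (nat_lit 7) (nat_lit 9) (nat_lit 10) (nat_lit 3) (nat_lit 7) (nat_lit 13) (by decide +kernel)
theorem L88676 : W_31 (nat_lit 3) (nat_lit 0x8000700068003c000200018001000080000000000000000000000000000000) (nat_lit 0x0) (nat_lit 0x2000300008000000000000800000000000000000000000000000000000000000000) := T_31 (nat_lit 248) (nat_lit 265) (nat_lit 7) (nat_lit 9) (nat_lit 11) L88675 (by decide +kernel)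
theorem L88677 : W_31 (nat_lit 4) (nat_lit 0x700068003c000200018001000080000000000000000000000000000000) (nat_lit 0x0) (nat_lit 0x3000380008000000000000800000000000000000000000000000000000000000000) := T_31 (nat_lit 247) (nat_lit 264) (nat_lit 6) (nat_lit 9) (nat_lit 15) L88676 (by decide +kernel)
theorem L88678 : W_31 (nat_lit 5) (nat_lit 0x300068003c000200018001000080000000000000000000000000000000) (nat_lit 0x0) (nat_lit 0x300038000c800000000000800000000000000000000000000000000000000000000) := T_31 (nat_lit 230) (nat_lit 227) (nat_lit 2) (nat_lit 6) (nat_lit 13) L88677 (by decide +kernel)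
theorem L88679 : W_31 (nat_lit 6) (nat_lit 0x300048003c000200018001000080000000000000000000000000000000) (nat_lit 0x0) (nat_lit 0x300038000c800200002000800000000000000000000000000000000000000000000) := T_31 (nat_lit 213) (nat_lit 193) (nat_lit 3) (nat_lit 6) (nat_lit 11) L88678 (by decide +kernel)
theorem L88680 : W_31 (nat_lit 7) (nat_lit 0x300048001c000200018001000080000000000000000000000000000000) (nat_lit 0x0) (nat_lit 0x300038000c800a00022000800000000000000000000000000000000000000000000) := T_31 (nat_lit 197) (nat_lit 215) (nat_lit 3) (nat_lit 7) (nat_lit 11) L88679 (by decide +kernel)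
theorem L88681 : W_31 (nat_lit 8) (nat_lit 0x300048001c000200010001000080000000000000000000000000000000) (nat_lit 0x0) (nat_lit 0x300038000c800a00022000800008000400000000000000000000000000000000000) := T_31 (nat_lit 159) (nat_lit 142) (nat_lit 4) (nat_lit 7) (nat_lit 12) L88680 (by decide +kernel)
theorem L88682 : W_31 (nat_lit 9) (nat_lit 0x300040001c000200010001000080000000000000000000000000000000) (nat_lit 0x0) (nat_lit 0x30003c000c800a80022000800008000400000000000000000000000000000000000) := T_31 (nat_lit 211) (nat_lit 246) (nat_lit 7) (nat_lit 7) (nat_lit 10) L88681 (by decide +kernel)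
theorem L88683 : W_31 (nat_lit 10) (nat_lit 0x300040001c000200000001000080000000000000000000000000000000) (nat_lit 0x0) (nat_lit 0x30003c000c800a80022000800018000c00000000000000000000000000000000000) := T_31 (nat_lit 160) (nat_lit 143) (nat_lit 6) (nat_lit 7) (nat_lit 11) L88682 (by decide +kernel)
theorem L88684 : W_31 (nat_lit 2) (nat_lit 0x7000c8001c000200018001000080000000000000000000000000000000) (nat_lit 0x0) (nat_lit 0x801200000000000000000000000000000000000000000000000000000) := D_31 (nat_lit 213) (nat_lit 227) (nat_lit 216) (nat_lit 2) (nat_lit 6) (nat_lit 13) (nat_lit 1) (nat_lit 12) (nat_lit 12) (by decide +kernel)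
theorem L88685 : W_31 (nat_lit 3) (nat_lit 0x3000c8001c000200018001000080000000000000000000000000000000) (nat_lit 0x0) (nat_lit 0xc801200000000000000000000000000000000000000000000000000000) := T_31 (nat_lit 230) (nat_lit 231) (nat_lit 2) (nat_lit 7) (nat_lit 13) L88684 (by decide +kernel)
theorem L88686 : W_31 (nat_lit 4) (nat_lit 0x300048001c000200018001000080000000000000000000000000000000) (nat_lit 0x0) (nat_lit 0xc801a00020000000000000000000000000000000000000000000000000) := T_31 (nat_lit 215) (nat_lit 197) (nat_lit 3) (nat_lit 7) (nat_lit 11) L88685 (by decide +kernel)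
theorem L88687 : W_31 (nat_lit 5) (nat_lit 0x300048001c000200010001000080000000000000000000000000000000) (nat_lit 0x0) (nat_lit 0xc801a00020000000008000400000000000000000000000000000000000) := T_31 (nat_lit 159) (nat_lit 142) (nat_lit 4) (nat_lit 7) (nat_lit 12) L88686 (by decide +kernel)
theorem L88688 : W_31 (nat_lit 6) (nat_lit 0x300040001c000200010001000080000000000000000000000000000000) (nat_lit 0x0) (nat_lit 0x4000c801a80020000000008000400000000000000000000000000000000000) := T_31 (nat_lit 211) (nat_lit 246) (nat_lit 7) (nat_lit 7) (nat_lit 10) L88687 (by decide +kernel)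
theorem L88689 : W_31 (nat_lit 7) (nat_lit 0x300040001c000200000001000080000000000000000000000000000000) (nat_lit 0x0) (nat_lit 0x4000c801a80020000000018000c00000000000000000000000000000000000) := T_31 (nat_lit 160) (nat_lit 143) (nat_lit 6) (nat_lit 7) (nat_lit 11) L88688 (by decide +kernel)
theorem L88690 : W_31 (nat_lit 2) (nat_lit 0x300040003c001200000001000080000000000000000000000000000000) (nat_lit 0x0) (nat_lit 0x200002000800000000000000000000000000000000000000000000) := D_31 (nat_lit 193) (nat_lit 179) (nat_lit 213) (nat_lit 2) (nat_lit 6) (nat_lit 11) (nat_lit 3) (nat_lit 6) (nat_lit 11) (by decide +kernel)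
theorem L88691 : W_31 (nat_lit 3) (nat_lit 0x300040003c000200000001000080000000000000000000000000000000) (nat_lit 0x0) (nat_lit 0x200002003800000000000000000000000000000000000000000000) := T_31 (nat_lit 180) (nat_lit 181) (nat_lit 2) (nat_lit 7) (nat_lit 11) L88690 (by decide +kernel)
theorem L88692 : W_31 (nat_lit 4) (nat_lit 0x300040001c000200000001000080000000000000000000000000000000) (nat_lit 0x0) (nat_lit 0xa00022003800000000000000000000000000000000000000000000) := T_31 (nat_lit 197) (nat_lit 215) (nat_lit 3) (nat_lit 7) (nat_lit 11) L88691 (by decide +kernel)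
theorem L88693 : W_31 (nat_lit 2) (nat_lit 0x300040003c001a00010001000080000000000000000000000000000000) (nat_lit 0x0) (nat_lit 0x100008000000000000000040000000000000000000000000000000000000000) := D_31 (nat_lit 231) (nat_lit 162) (nat_lit 248) (nat_lit 4) (nat_lit 10) (nat_lit 13) (nat_lit 4) (nat_lit 10) (nat_lit 14) (by decide +kernel)
theorem L88694 : W_31 (nat_lit 3) (nat_lit 0x300040003c001200010001000080000000000000000000000000000000) (nat_lit 0x0) (nat_lit 0x100008000000002000800040000000000000000000000000000000000000000) := T_31 (nat_lit 179) (nat_lit 193) (nat_lit 2) (nat_lit 6) (nat_lit 11) L88693 (by decide +kernel)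
theorem L88695 : W_31 (nat_lit 4) (nat_lit 0x300040003c000200010001000080000000000000000000000000000000) (nat_lit 0x0) (nat_lit 0x100008000000002003800040000000000000000000000000000000000000000) := T_31 (nat_lit 180) (nat_lit 181) (nat_lit 2) (nat_lit 7) (nat_lit 11) L88694 (by decide +kernel)
theorem L88696 : W_31 (nat_lit 5) (nat_lit 0x300040001c000200010001000080000000000000000000000000000000) (nat_lit 0x0) (nat_lit 0x100008000800022003800040000000000000000000000000000000000000000) := T_31 (nat_lit 197) (nat_lit 215) (nat_lit 3) (nat_lit 7) (nat_lit 11) L88695 (by decide +kernel)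
theorem L88697 : W_31 (nat_lit 6) (nat_lit 0x300040001c000200000001000080000000000000000000000000000000) (nat_lit 0x0) (nat_lit 0x100008000800022003800050000800000000000000000000000000000000000) := T_31 (nat_lit 160) (nat_lit 143) (nat_lit 6) (nat_lit 7) (nat_lit 11) L88696 (by decide +kernel)
theorem L88698 : W_31 (nat_lit 2) (nat_lit 0x700068001c000200018001000080000000000000000000000000000000) (nat_lit 0x0) (nat_lit 0x8001800000000000000000000000000000000000000000000000000000) := D_31 (nat_lit 215) (nat_lit 216) (nat_lit 231) (nat_lit 1) (nat_lit 12) (nat_lit 12) (nat_lit 2) (nat_lit 7) (nat_lit 13) (by decide +kernel)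
theorem L88699 : W_31 (nat_lit 3) (nat_lit 0x300068001c000200018001000080000000000000000000000000000000) (nat_lit 0x0) (nat_lit 0xc801800000000000000000000000000000000000000000000000000000) := T_31 (nat_lit 230) (nat_lit 227) (nat_lit 2) (nat_lit 6) (nat_lit 13) L88698 (by decide +kernel)
theorem L88700 : W_31 (nat_lit 4) (nat_lit 0x300048001c000200018001000080000000000000000000000000000000) (nat_lit 0x0) (nat_lit 0xc801a00002000000000000000000000000000000000000000000000000) := T_31 (nat_lit 213) (nat_lit 193) (nat_lit 3) (nat_lit 6) (nat_lit 11) L88699 (by decide +kernel)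
theorem L88701 : W_31 (nat_lit 5) (nat_lit 0x300048001c000200010001000080000000000000000000000000000000) (nat_lit 0x0) (nat_lit 0xc801a00002000000008000400000000000000000000000000000000000) := T_31 (nat_lit 159) (nat_lit 142) (nat_lit 4) (nat_lit 7) (nat_lit 12) L88700 (by decide +kernel)
theorem L88702 : W_31 (nat_lit 6) (nat_lit 0x300048001c000200000001000080000000000000000000000000000000) (nat_lit 0x0) (nat_lit 0xc801a00002000000018000c00000000000000000000000000000000000) := T_31 (nat_lit 160) (nat_lit 143) (nat_lit 6) (nat_lit 7) (nat_lit 11) L88701 (by decide +kernel)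
theorem L88703 : W_31 (nat_lit 7) (nat_lit 0x300040001c000200000001000080000000000000000000000000000000) (nat_lit 0x0) (nat_lit 0x4000c801a80002000000018000c00000000000000000000000000000000000) := T_31 (nat_lit 211) (nat_lit 246) (nat_lit 7) (nat_lit 7) (nat_lit 10) L88702 (by decide +kernel)
theorem L88704 : W_31 (nat_lit 2) (nat_lit 0x4000300060001c000200000001000080000000000000000000000000000000) (nat_lit 0x0) (nat_lit 0x4800000000000800000000000000000000000000000000000000000000) := D_31 (nat_lit 230) (nat_lit 227) (nat_lit 179) (nat_lit 2) (nat_lit 6) (nat_lit 13) (nat_lit 5) (nat_lit 9) (nat_lit 10) (by decide +kernel)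
theorem L88705 : W_31 (nat_lit 3) (nat_lit 0x300060001c000200000001000080000000000000000000000000000000) (nat_lit 0x0) (nat_lit 0x40004800080000000800000000000000000000000000000000000000000000) := T_31 (nat_lit 246) (nat_lit 211) (nat_lit 7) (nat_lit 7) (nat_lit 10) L88704 (by decide +kernel)
theorem L88706 : W_31 (nat_lit 4) (nat_lit 0x300040001c000200000001000080000000000000000000000000000000) (nat_lit 0x0) (nat_lit 0x40004800280002000800000000000000000000000000000000000000000000) := T_31 (nat_lit 213) (nat_lit 193) (nat_lit 3) (nat_lit 6) (nat_lit 11) L88705 (by decide +kernel)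
theorem L88707 : W_31 (nat_lit 11) (nat_lit 0x300000001c000200000001000080000000000000000000000000000000) (nat_lit 0x0) (nat_lit 0x30003c000c801e800220038000d8000c00000000000000000000000000000000000) := Q_31 (nat_lit 214) (C_31 L88674 (C_31 L88683 (C_31 L88689 (C_31 L88692 (C_31 L88697 (C_31 L88703 (C_31 L88706 N_31))))))) (by decide +kernel)
theorem L88708 : W_31 (nat_lit 2) (nat_lit 0x300008003e001600000001000080000000000000000000000000000000) (nat_lit 0x0) (nat_lit 0xe00000000000000000000000000000000000000000000000000000) := D_31 (nat_lit 214) (nat_lit 213) (nat_lit 215) (nat_lit 3) (nat_lit 6) (nat_lit 11) (nat_lit 3) (nat_lit 7) (nat_lit 11) (by decide +kernel)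
theorem L88709 : W_31 (nat_lit 3) (nat_lit 0x300008003c001600000001000080000000000000000000000000000000) (nat_lit 0x0) (nat_lit 0xe00002000800000000000000000000000000000000000000000000) := T_31 (nat_lit 193) (nat_lit 179) (nat_lit 2) (nat_lit 6) (nat_lit 11) L88708 (by decide +kernel)
theorem L88710 : W_31 (nat_lit 4) (nat_lit 0x300008003c000600000001000080000000000000000000000000000000) (nat_lit 0x0) (nat_lit 0xe00002003800000000000000000000000000000000000000000000) := T_31 (nat_lit 180) (nat_lit 181) (nat_lit 2) (nat_lit 7) (nat_lit 11) L88709 (by decide +kernel)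
theorem L88711 : W_31 (nat_lit 5) (nat_lit 0x300008001c000600000001000080000000000000000000000000000000) (nat_lit 0x0) (nat_lit 0xe00062003800000000000000000000000000000000000000000000) := T_31 (nat_lit 197) (nat_lit 198) (nat_lit 0) (nat_lit 11) (nat_lit 11) L88710 (by decide +kernel)
theorem L88712 : W_31 (nat_lit 6) (nat_lit 0x300008001c000200000001000080000000000000000000000000000000) (nat_lit 0x0) (nat_lit 0x20000000e00062003c00000000000000000000000000000000000000000000) := T_31 (nat_lit 178) (nat_lit 245) (nat_lit 6) (nat_lit 7) (nat_lit 14) L88711 (by decide +kernel)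
theorem L88713 : W_31 (nat_lit 7) (nat_lit 0x300000001c000200000001000080000000000000000000000000000000) (nat_lit 0x0) (nat_lit 0x60000000e80062003c00000000000000000000000000000000000000000000) := T_31 (nat_lit 211) (nat_lit 246) (nat_lit 7) (nat_lit 7) (nat_lit 10) L88712 (by decide +kernel)
theorem L88714 : W_31 (nat_lit 2) (nat_lit 0x300068003c00160001a001000080000000000000000000000000000000) (nat_lit 0x0) (nat_lit 0x80004800000000000000000000000000000000000000000000000000000000) := D_31 (nat_lit 230) (nat_lit 227) (nat_lit 247) (nat_lit 2) (nat_lit 6) (nat_lit 13) (nat_lit 6) (nat_lit 9) (nat_lit 14) (by decide +kernel)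
theorem L88715 : W_31 (nat_lit 3) (nat_lit 0x300048003c00160001a001000080000000000000000000000000000000) (nat_lit 0x0) (nat_lit 0x80004800200002000000000000000000000000000000000000000000000000) := T_31 (nat_lit 213) (nat_lit 193) (nat_lit 3) (nat_lit 6) (nat_lit 11) L88714 (by decide +kernel)
theorem L88716 : W_31 (nat_lit 4) (nat_lit 0x300008003c00160001a001000080000000000000000000000000000000) (nat_lit 0x0) (nat_lit 0x80004800e00002000000000000000000000000000000000000000000000000) := T_31 (nat_lit 214) (nat_lit 215) (nat_lit 3) (nat_lit 7) (nat_lit 11) L88715 (by decide +kernel)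
theorem L88717 : W_31 (nat_lit 5) (nat_lit 0x300008003c00060001a001000080000000000000000000000000000000) (nat_lit 0x0) (nat_lit 0x80004800e00002003000000000000000000000000000000000000000000000) := T_31 (nat_lit 180) (nat_lit 181) (nat_lit 2) (nat_lit 7) (nat_lit 11) L88716 (by decide +kernel)
theorem L88718 : W_31 (nat_lit 6) (nat_lit 0x300008001c00060001a001000080000000000000000000000000000000) (nat_lit 0x0) (nat_lit 0x80004800e00062003000000000000000000000000000000000000000000000) := T_31 (nat_lit 197) (nat_lit 198) (nat_lit 0) (nat_lit 11) (nat_lit 11) L88717 (by decide +kernel)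
theorem L88719 : W_31 (nat_lit 7) (nat_lit 0x300008001c000600018001000080000000000000000000000000000000) (nat_lit 0x0) (nat_lit 0x80004800e00062003000006000000000000000000000000000000000000000) := T_31 (nat_lit 157) (nat_lit 158) (nat_lit 3) (nat_lit 4) (nat_lit 9) L88718 (by decide +kernel)
theorem L88720 : W_31 (nat_lit 8) (nat_lit 0x300008001c000600010001000080000000000000000000000000000000) (nat_lit 0x0) (nat_lit 0x80004800e0006200300000e000400000000000000000000000000000000000) := T_31 (nat_lit 159) (nat_lit 142) (nat_lit 4) (nat_lit 7) (nat_lit 12) L88719 (by decide +kernel)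
theorem L88721 : W_31 (nat_lit 9) (nat_lit 0x300008001c000600000001000080000000000000000000000000000000) (nat_lit 0x0) (nat_lit 0x80004800e0006200300001e000c00000000000000000000000000000000000) := T_31 (nat_lit 160) (nat_lit 143) (nat_lit 6) (nat_lit 7) (nat_lit 11) L88720 (by decide +kernel)
theorem L88722 : W_31 (nat_lit 10) (nat_lit 0x300008001c000200000001000080000000000000000000000000000000) (nat_lit 0x0) (nat_lit 0xa0004800e0006200340001e000c00000000000000000000000000000000000) := T_31 (nat_lit 178) (nat_lit 245) (nat_lit 6) (nat_lit 7) (nat_lit 14) L88721 (by decide +kernel)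
theorem L88723 : W_31 (nat_lit 11) (nat_lit 0x300000001c000200000001000080000000000000000000000000000000) (nat_lit 0x0) (nat_lit 0xe0004800e8006200340001e000c00000000000000000000000000000000000) := T_31 (nat_lit 211) (nat_lit 246) (nat_lit 7) (nat_lit 7) (nat_lit 10) L88722 (by decide +kernel)
theorem L88724 : W_31 (nat_lit 2) (nat_lit 0x300060007c001200010001000080000000000000000000000000000000) (nat_lit 0x0) (nat_lit 0x4800000000000000080000000000000000000000000000000000000000) := D_31 (nat_lit 230) (nat_lit 227) (nat_lit 163) (nat_lit 2) (nat_lit 6) (nat_lit 13) (nat_lit 5) (nat_lit 10) (nat_lit 9) (by decide +kernel)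
theorem L88725 : W_31 (nat_lit 3) (nat_lit 0x300040007c001200010001000080000000000000000000000000000000) (nat_lit 0x0) (nat_lit 0x4800200002000000080000000000000000000000000000000000000000) := T_31 (nat_lit 213) (nat_lit 193) (nat_lit 3) (nat_lit 6) (nat_lit 11) L88724 (by decide +kernel)
theorem L88726 : W_31 (nat_lit 4) (nat_lit 0x300040003c001200010001000080000000000000000000000000000000) (nat_lit 0x0) (nat_lit 0x4800200042000400080000000000000000000000000000000000000000) := T_31 (nat_lit 198) (nat_lit 178) (nat_lit 0) (nat_lit 11) (nat_lit 11) L88725 (by decide +kernel)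
theorem L88727 : W_31 (nat_lit 5) (nat_lit 0x300040003c000200010001000080000000000000000000000000000000) (nat_lit 0x0) (nat_lit 0x4800200042003400080000000000000000000000000000000000000000) := T_31 (nat_lit 180) (nat_lit 181) (nat_lit 2) (nat_lit 7) (nat_lit 11) L88726 (by decide +kernel)
theorem L88728 : W_31 (nat_lit 6) (nat_lit 0x300040001c000200010001000080000000000000000000000000000000) (nat_lit 0x0) (nat_lit 0x4800a00062003400080000000000000000000000000000000000000000) := T_31 (nat_lit 197) (nat_lit 215) (nat_lit 3) (nat_lit 7) (nat_lit 11) L88727 (by decide +kernel)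
theorem L88729 : W_31 (nat_lit 7) (nat_lit 0x300040001c000200000001000080000000000000000000000000000000) (nat_lit 0x0) (nat_lit 0x4800a00062003400090000800000000000000000000000000000000000) := T_31 (nat_lit 160) (nat_lit 143) (nat_lit 6) (nat_lit 7) (nat_lit 11) L88728 (by decide +kernel)
theorem L88730 : W_31 (nat_lit 3) (nat_lit 0x300040003e000200010001000080000000000000000000000000000000) (nat_lit 0x0) (nat_lit 0x41800c00000000000000000000000000000000000000000000) := T_31 (nat_lit 178) (nat_lit 198) (nat_lit 0) (nat_lit 11) (nat_lit 11) L88450 (by decide +kernel)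
theorem L88731 : W_31 (nat_lit 4) (nat_lit 0x300040001e000200010001000080000000000000000000000000000000) (nat_lit 0x0) (nat_lit 0x800061800c00000000000000000000000000000000000000000000) := T_31 (nat_lit 197) (nat_lit 215) (nat_lit 3) (nat_lit 7) (nat_lit 11) L88730 (by decide +kernel)
theorem L88732 : W_31 (nat_lit 5) (nat_lit 0x300040001e000200000001000080000000000000000000000000000000) (nat_lit 0x0) (nat_lit 0x800061800c00010000800000000000000000000000000000000000) := T_31 (nat_lit 160) (nat_lit 143) (nat_lit 6) (nat_lit 7) (nat_lit 11) L88731 (by decide +kernel)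
theorem L88733 : W_31 (nat_lit 6) (nat_lit 0x300040001c000200000001000080000000000000000000000000000000) (nat_lit 0x0) (nat_lit 0xa00063800c00010000800000000000000000000000000000000000) := T_31 (nat_lit 193) (nat_lit 213) (nat_lit 3) (nat_lit 6) (nat_lit 11) L88732 (by decide +kernel)
theorem L88734 : W_31 (nat_lit 4) (nat_lit 0x300040003c001600000001000080000000000000000000000000000000) (nat_lit 0x0) (nat_lit 0x100008000000000000800058000800000000000000000000000000000000000) := T_31 (nat_lit 160) (nat_lit 143) (nat_lit 6) (nat_lit 7) (nat_lit 11) L88445 (by decide +kernel)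
theorem L88735 : W_31 (nat_lit 5) (nat_lit 0x300040003c001200000001000080000000000000000000000000000000) (nat_lit 0x0) (nat_lit 0x100008000000040000c00058000800000000000000000000000000000000000) := T_31 (nat_lit 178) (nat_lit 198) (nat_lit 0) (nat_lit 11) (nat_lit 11) L88734 (by decide +kernel)
theorem L88736 : W_31 (nat_lit 6) (nat_lit 0x300040003c000200000001000080000000000000000000000000000000) (nat_lit 0x0) (nat_lit 0x100008000000040003c00058000800000000000000000000000000000000000) := T_31 (nat_lit 180) (nat_lit 181) (nat_lit 2) (nat_lit 7) (nat_lit 11) L88735 (by decide +kernel)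
theorem L88737 : W_31 (nat_lit 7) (nat_lit 0x300040001c000200000001000080000000000000000000000000000000) (nat_lit 0x0) (nat_lit 0x100008000800060003c00058000800000000000000000000000000000000000) := T_31 (nat_lit 197) (nat_lit 215) (nat_lit 3) (nat_lit 7) (nat_lit 11) L88736 (by decide +kernel)
theorem L88738 : W_31 (nat_lit 2) (nat_lit 0x300041001f000a40010001000080000000000000000000000000000000) (nat_lit 0x0) (nat_lit 0x8000800020000000000000000000000000000000000000000000) := D_31 (nat_lit 191) (nat_lit 207) (nat_lit 173) (nat_lit 1) (nat_lit 7) (nat_lit 11) (nat_lit 0) (nat_lit 7) (nat_lit 11) (by decide +kernel)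
theorem L88739 : W_31 (nat_lit 3) (nat_lit 0x300041001f000a00010001000080000000000000000000000000000000) (nat_lit 0x0) (nat_lit 0x80008000e0000000000000000000000000000000000000000000) := T_31 (nat_lit 174) (nat_lit 175) (nat_lit 0) (nat_lit 8) (nat_lit 11) L88738 (by decide +kernel)
theorem L88740 : W_31 (nat_lit 4) (nat_lit 0x300040001f000a00010001000080000000000000000000000000000000) (nat_lit 0x0) (nat_lit 0x380008000e0000000000000000000000000000000000000000000) := T_31 (nat_lit 208) (nat_lit 209) (nat_lit 1) (nat_lit 8) (nat_lit 11) L88739 (by decide +kernel)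
theorem L88741 : W_31 (nat_lit 5) (nat_lit 0x300040001e000a00010001000080000000000000000000000000000000) (nat_lit 0x0) (nat_lit 0x380018004e0000000000000000000000000000000000000000000) := T_31 (nat_lit 192) (nat_lit 178) (nat_lit 2) (nat_lit 5) (nat_lit 11) L88740 (by decide +kernel)
theorem L88742 : W_31 (nat_lit 6) (nat_lit 0x300040001e000200010001000080000000000000000000000000000000) (nat_lit 0x0) (nat_lit 0x38001801ce0000000000000000000000000000000000000000000) := T_31 (nat_lit 179) (nat_lit 180) (nat_lit 2) (nat_lit 6) (nat_lit 11) L88741 (by decide +kernel)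
theorem L88743 : W_31 (nat_lit 7) (nat_lit 0x300040001c000200010001000080000000000000000000000000000000) (nat_lit 0x0) (nat_lit 0x238003801ce0000000000000000000000000000000000000000000) := T_31 (nat_lit 193) (nat_lit 213) (nat_lit 3) (nat_lit 6) (nat_lit 11) L88742 (by decide +kernel)
theorem L88744 : W_31 (nat_lit 8) (nat_lit 0x300040001c000200000001000080000000000000000000000000000000) (nat_lit 0x0) (nat_lit 0x238003801ce0010000800000000000000000000000000000000000) := T_31 (nat_lit 160) (nat_lit 143) (nat_lit 6) (nat_lit 7) (nat_lit 11) L88743 (by decide +kernel)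
theorem L88745 : W_31 (nat_lit 9) (nat_lit 0x300000001c000200000001000080000000000000000000000000000000) (nat_lit 0x0) (nat_lit 0x10000c800e38063803ce00d8000800000000000000000000000000000000000) := Q_31 (nat_lit 214) (C_31 L88729 (C_31 L88733 (C_31 L88697 (C_31 L88692 (C_31 L88737 (C_31 L88744 N_31)))))) (by decide +kernel)
theorem L88746 : W_31 (nat_lit 2) (nat_lit 0x300048003e00060001a001000080000000000000000000000000000000) (nat_lit 0x0) (nat_lit 0x1800800000000000000000000000000000000000000000000) := D_31 (nat_lit 192) (nat_lit 179) (nat_lit 191) (nat_lit 2) (nat_lit 5) (nat_lit 11) (nat_lit 2) (nat_lit 4) (nat_lit 11) (by decide +kernel)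
theorem L88747 : W_31 (nat_lit 3) (nat_lit 0x300048003c00060001a001000080000000000000000000000000000000) (nat_lit 0x0) (nat_lit 0x200003800800000000000000000000000000000000000000000000) := T_31 (nat_lit 193) (nat_lit 213) (nat_lit 3) (nat_lit 6) (nat_lit 11) L88746 (by decide +kernel)
theorem L88748 : W_31 (nat_lit 4) (nat_lit 0x300008003c00060001a001000080000000000000000000000000000000) (nat_lit 0x0) (nat_lit 0xe00003800800000000000000000000000000000000000000000000) := T_31 (nat_lit 214) (nat_lit 215) (nat_lit 3) (nat_lit 7) (nat_lit 11) L88747 (by decide +kernel)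
theorem L88749 : W_31 (nat_lit 5) (nat_lit 0x300008001c00060001a001000080000000000000000000000000000000) (nat_lit 0x0) (nat_lit 0xe00063800800000000000000000000000000000000000000000000) := T_31 (nat_lit 197) (nat_lit 198) (nat_lit 0) (nat_lit 11) (nat_lit 11) L88748 (by decide +kernel)
theorem L88750 : W_31 (nat_lit 6) (nat_lit 0x300008001c000600018001000080000000000000000000000000000000) (nat_lit 0x0) (nat_lit 0xe00063800800006000000000000000000000000000000000000000) := T_31 (nat_lit 157) (nat_lit 158) (nat_lit 3) (nat_lit 4) (nat_lit 9) L88749 (by decide +kernel)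
theorem L88751 : W_31 (nat_lit 7) (nat_lit 0x300008001c000600010001000080000000000000000000000000000000) (nat_lit 0x0) (nat_lit 0xe0006380080000e000400000000000000000000000000000000000) := T_31 (nat_lit 159) (nat_lit 142) (nat_lit 4) (nat_lit 7) (nat_lit 12) L88750 (by decide +kernel)
theorem L88752 : W_31 (nat_lit 8) (nat_lit 0x300008001c000200010001000080000000000000000000000000000000) (nat_lit 0x0) (nat_lit 0x20000000e00063800c0000e000400000000000000000000000000000000000) := T_31 (nat_lit 178) (nat_lit 245) (nat_lit 6) (nat_lit 7) (nat_lit 14) L88751 (by decide +kernel)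
theorem L88753 : W_31 (nat_lit 9) (nat_lit 0x300000001c000200010001000080000000000000000000000000000000) (nat_lit 0x0) (nat_lit 0x60000000e80063800c0000e000400000000000000000000000000000000000) := T_31 (nat_lit 211) (nat_lit 246) (nat_lit 7) (nat_lit 7) (nat_lit 10) L88752 (by decide +kernel)
theorem L88754 : W_31 (nat_lit 10) (nat_lit 0x300000001c000200000001000080000000000000000000000000000000) (nat_lit 0x0) (nat_lit 0x60000000e80063800c0001e000c00000000000000000000000000000000000) := T_31 (nat_lit 160) (nat_lit 143) (nat_lit 6) (nat_lit 7) (nat_lit 11) L88753 (by decide +kernel)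
theorem L88755 : W_31 (nat_lit 2) (nat_lit 0x8000300008001e000600000001000080000000000000000000000000000000) (nat_lit 0x0) (nat_lit 0x4000600000000000000000000000000000000000000000000000000000) := D_31 (nat_lit 213) (nat_lit 214) (nat_lit 230) (nat_lit 3) (nat_lit 6) (nat_lit 11) (nat_lit 4) (nat_lit 9) (nat_lit 14) (by decide +kernel)
theorem L88756 : W_31 (nat_lit 3) (nat_lit 0x8000300008001e000200000001000080000000000000000000000000000000) (nat_lit 0x0) (nat_lit 0x20004000600000000400000000000000000000000000000000000000000000) := T_31 (nat_lit 178) (nat_lit 245) (nat_lit 6) (nat_lit 7) (nat_lit 14) L88755 (by decide +kernel)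
theorem L88757 : W_31 (nat_lit 4) (nat_lit 0x8000300000001e000200000001000080000000000000000000000000000000) (nat_lit 0x0) (nat_lit 0x60004000680000000400000000000000000000000000000000000000000000) := T_31 (nat_lit 211) (nat_lit 246) (nat_lit 7) (nat_lit 7) (nat_lit 10) L88756 (by decide +kernel)
theorem L88758 : W_31 (nat_lit 2) (nat_lit 0x1c000340020001e000200010001000080000000000000000000000000000000) (nat_lit 0x0) (nat_lit 0x2800000004000000000000000000000000000000000000000000000000000000000) := D_31 (nat_lit 230) (nat_lit 263) (nat_lit 265) (nat_lit 5) (nat_lit 9) (nat_lit 11) (nat_lit 7) (nat_lit 9) (nat_lit 11) (by decide +kernel)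
theorem L88759 : W_31 (nat_lit 3) (nat_lit 0xc000340020001e000200010001000080000000000000000000000000000000) (nat_lit 0x0) (nat_lit 0x2800300004000000000000000000000000000000000000000000000000000000000) := T_31 (nat_lit 248) (nat_lit 249) (nat_lit 0) (nat_lit 11) (nat_lit 14) L88758 (by decide +kernel)
theorem L88760 : W_31 (nat_lit 4) (nat_lit 0xc000300020001e000200010001000080000000000000000000000000000000) (nat_lit 0x0) (nat_lit 0x2800300004c00000000000000000000000000000000000000000000000000000000) := T_31 (nat_lit 226) (nat_lit 227) (nat_lit 3) (nat_lit 5) (nat_lit 13) L88759 (by decide +kernel)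
theorem L88761 : W_31 (nat_lit 5) (nat_lit 0xc000300020001e000200000001000080000000000000000000000000000000) (nat_lit 0x0) (nat_lit 0x2800300004c00000000000000010000800000000000000000000000000000000000) := T_31 (nat_lit 160) (nat_lit 143) (nat_lit 6) (nat_lit 7) (nat_lit 11) L88760 (by decide +kernel)
theorem L88762 : W_31 (nat_lit 6) (nat_lit 0x8000300020001e000200000001000080000000000000000000000000000000) (nat_lit 0x0) (nat_lit 0x2800340004c00080000000000010000800000000000000000000000000000000000) := T_31 (nat_lit 246) (nat_lit 211) (nat_lit 7) (nat_lit 7) (nat_lit 10) L88761 (by decide +kernel)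
theorem L88763 : W_31 (nat_lit 7) (nat_lit 0x8000300000001e000200000001000080000000000000000000000000000000) (nat_lit 0x0) (nat_lit 0x2800340004c00680000000000010000800000000000000000000000000000000000) := T_31 (nat_lit 213) (nat_lit 214) (nat_lit 3) (nat_lit 6) (nat_lit 11) L88762 (by decide +kernel)
theorem L88764 : W_31 (nat_lit 2) (nat_lit 0x8000700020001e000200010001000080000000000000000000000000000000) (nat_lit 0x0) (nat_lit 0x2000100000800000000000000000000000000000000000000000000000000000000) := D_31 (nat_lit 248) (nat_lit 227) (nat_lit 265) (nat_lit 3) (nat_lit 6) (nat_lit 13) (nat_lit 7) (nat_lit 9) (nat_lit 11) (by decide +kernel)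
theorem L88765 : W_31 (nat_lit 3) (nat_lit 0x8000300020001e000200010001000080000000000000000000000000000000) (nat_lit 0x0) (nat_lit 0x2000100004800000000000400000000000000000000000000000000000000000000) := T_31 (nat_lit 230) (nat_lit 178) (nat_lit 4) (nat_lit 9) (nat_lit 14) L88764 (by decide +kernel)
theorem L88766 : W_31 (nat_lit 4) (nat_lit 0x8000300000001e000200010001000080000000000000000000000000000000) (nat_lit 0x0) (nat_lit 0x2000100004800600000000400000000000000000000000000000000000000000000) := T_31 (nat_lit 213) (nat_lit 214) (nat_lit 3) (nat_lit 6) (nat_lit 11) L88765 (by decide +kernel)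
theorem L88767 : W_31 (nat_lit 5) (nat_lit 0x8000300000001e000200000001000080000000000000000000000000000000) (nat_lit 0x0) (nat_lit 0x2000100004800600000000400010000800000000000000000000000000000000000) := T_31 (nat_lit 160) (nat_lit 143) (nat_lit 6) (nat_lit 7) (nat_lit 11) L88766 (by decide +kernel)
theorem L88768 : W_31 (nat_lit 2) (nat_lit 0x1c000300000001e000200010001000080000000000000000000000000000000) (nat_lit 0x0) (nat_lit 0x20000c00000000000000000000000000000000000000000000000000000000) := D_31 (nat_lit 227) (nat_lit 226) (nat_lit 245) (nat_lit 3) (nat_lit 5) (nat_lit 13) (nat_lit 0) (nat_lit 10) (nat_lit 14) (by decide +kernel)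
theorem L88769 : W_31 (nat_lit 3) (nat_lit 0xc000300000001e000200010001000080000000000000000000000000000000) (nat_lit 0x0) (nat_lit 0x320000c00000000000000000000000000000000000000000000000000000000) := T_31 (nat_lit 248) (nat_lit 249) (nat_lit 0) (nat_lit 11) (nat_lit 14) L88768 (by decide +kernel)
theorem L88770 : W_31 (nat_lit 4) (nat_lit 0xc000300000001e000200000001000080000000000000000000000000000000) (nat_lit 0x0) (nat_lit 0x320000c00000000000000010000800000000000000000000000000000000000) := T_31 (nat_lit 160) (nat_lit 143) (nat_lit 6) (nat_lit 7) (nat_lit 11) L88769 (by decide +kernel)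
theorem L88771 : W_31 (nat_lit 5) (nat_lit 0x8000300000001e000200000001000080000000000000000000000000000000) (nat_lit 0x0) (nat_lit 0x360000c00080000000000010000800000000000000000000000000000000000) := T_31 (nat_lit 246) (nat_lit 211) (nat_lit 7) (nat_lit 7) (nat_lit 10) L88770 (by decide +kernel)
theorem L88772 : W_31 (nat_lit 8) (nat_lit 0x300000001e000200000001000080000000000000000000000000000000) (nat_lit 0x0) (nat_lit 0x28003e0004c00680000000400010000800000000000000000000000000000000000) := Q_31 (nat_lit 247) (C_31 L88757 (C_31 L88763 (C_31 L88767 (C_31 L88771 N_31)))) (by decide +kernel)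
theorem L88773 : W_31 (nat_lit 2) (nat_lit 0x300020001e000a00010001000080000000000000000000000000000000) (nat_lit 0x0) (nat_lit 0x40004000080000000000000000000000000000000000000000000000000000) := D_31 (nat_lit 246) (nat_lit 211) (nat_lit 230) (nat_lit 7) (nat_lit 7) (nat_lit 10) (nat_lit 5) (nat_lit 9) (nat_lit 10) (by decide +kernel)
theorem L88774 : W_31 (nat_lit 3) (nat_lit 0x300000001e000a00010001000080000000000000000000000000000000) (nat_lit 0x0) (nat_lit 0x40004000680000000000000000000000000000000000000000000000000000) := T_31 (nat_lit 213) (nat_lit 214) (nat_lit 3) (nat_lit 6) (nat_lit 11) L88773 (by decide +kernel)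
theorem L88775 : W_31 (nat_lit 4) (nat_lit 0x300000001e000200010001000080000000000000000000000000000000) (nat_lit 0x0) (nat_lit 0x40004000680000001800000000000000000000000000000000000000000000) := T_31 (nat_lit 179) (nat_lit 180) (nat_lit 2) (nat_lit 6) (nat_lit 11) L88774 (by decide +kernel)
theorem L88776 : W_31 (nat_lit 5) (nat_lit 0x300000001e000200000001000080000000000000000000000000000000) (nat_lit 0x0) (nat_lit 0x40004000680000001800010000800000000000000000000000000000000000) := T_31 (nat_lit 160) (nat_lit 143) (nat_lit 6) (nat_lit 7) (nat_lit 11) L88775 (by decide +kernel)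
theorem L88777 : W_31 (nat_lit 2) (nat_lit 0x300008001e000600000001000080000000000000000000000000000000) (nat_lit 0x0) (nat_lit 0x1001800000000000000000000000000000000000000000000) := D_31 (nat_lit 179) (nat_lit 180) (nat_lit 192) (nat_lit 2) (nat_lit 6) (nat_lit 11) (nat_lit 2) (nat_lit 5) (nat_lit 11) (by decide +kernel)
theorem L88778 : W_31 (nat_lit 3) (nat_lit 0x300008001e000200000001000080000000000000000000000000000000) (nat_lit 0x0) (nat_lit 0x20000000000001001c00000000000000000000000000000000000000000000) := T_31 (nat_lit 178) (nat_lit 245) (nat_lit 6) (nat_lit 7) (nat_lit 14) L88777 (by decide +kernel)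
theorem L88779 : W_31 (nat_lit 4) (nat_lit 0x300000001e000200000001000080000000000000000000000000000000) (nat_lit 0x0) (nat_lit 0x60000000080001001c00000000000000000000000000000000000000000000) := T_31 (nat_lit 211) (nat_lit 246) (nat_lit 7) (nat_lit 7) (nat_lit 10) L88778 (by decide +kernel)
theorem L88780 : W_31 (nat_lit 2) (nat_lit 0x10000700022001f000a80010001000080000000000000000000000000000000) (nat_lit 0x0) (nat_lit 0x2000080000800000000000000000000000000000000000000000000000000000000) := D_31 (nat_lit 247) (nat_lit 265) (nat_lit 227) (nat_lit 7) (nat_lit 9) (nat_lit 11) (nat_lit 3) (nat_lit 6) (nat_lit 13) (by decide +kernel)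
theorem L88781 : W_31 (nat_lit 3) (nat_lit 0x700022001f000a80010001000080000000000000000000000000000000) (nat_lit 0x0) (nat_lit 0x2000180008800000000000000000000000000000000000000000000000000000000) := T_31 (nat_lit 248) (nat_lit 231) (nat_lit 7) (nat_lit 9) (nat_lit 10) L88780 (by decide +kernel)
theorem L88782 : W_31 (nat_lit 4) (nat_lit 0x300022001f000a80010001000080000000000000000000000000000000) (nat_lit 0x0) (nat_lit 0x20001c000c800000000000000000000000000000000000000000000000000000000) := T_31 (nat_lit 230) (nat_lit 246) (nat_lit 5) (nat_lit 9) (nat_lit 10) L88781 (by decide +kernel)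
theorem L88783 : W_31 (nat_lit 5) (nat_lit 0x300002001f000a80010001000080000000000000000000000000000000) (nat_lit 0x0) (nat_lit 0x20001c000c800600000000000000000000000000000000000000000000000000000) := T_31 (nat_lit 213) (nat_lit 214) (nat_lit 3) (nat_lit 6) (nat_lit 11) L88782 (by decide +kernel)
theorem L88784 : W_31 (nat_lit 6) (nat_lit 0x300002001f000a80000001000080000000000000000000000000000000) (nat_lit 0x0) (nat_lit 0x20001c000c800600000000000010000800000000000000000000000000000000000) := T_31 (nat_lit 160) (nat_lit 143) (nat_lit 6) (nat_lit 7) (nat_lit 11) L88783 (by decide +kernel)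
theorem L88785 : W_31 (nat_lit 7) (nat_lit 0x300002001f000a00000001000080000000000000000000000000000000) (nat_lit 0x0) (nat_lit 0x20001c000c8006000000000c0010000800000000000000000000000000000000000) := T_31 (nat_lit 175) (nat_lit 174) (nat_lit 0) (nat_lit 8) (nat_lit 11) L88784 (by decide +kernel)
theorem L88786 : W_31 (nat_lit 8) (nat_lit 0x300000001f000a00000001000080000000000000000000000000000000) (nat_lit 0x0) (nat_lit 0x20001c000c8006300000000c0010000800000000000000000000000000000000000) := T_31 (nat_lit 209) (nat_lit 208) (nat_lit 1) (nat_lit 8) (nat_lit 11) L88785 (by decide +kernel)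
theorem L88787 : W_31 (nat_lit 9) (nat_lit 0x300000001e000a00000001000080000000000000000000000000000000) (nat_lit 0x0) (nat_lit 0x20001c000c8006300010004c0010000800000000000000000000000000000000000) := T_31 (nat_lit 192) (nat_lit 178) (nat_lit 2) (nat_lit 5) (nat_lit 11) L88786 (by decide +kernel)
theorem L88788 : W_31 (nat_lit 10) (nat_lit 0x300000001e000200000001000080000000000000000000000000000000) (nat_lit 0x0) (nat_lit 0x20001c000c800630001001cc0010000800000000000000000000000000000000000) := T_31 (nat_lit 179) (nat_lit 180) (nat_lit 2) (nat_lit 6) (nat_lit 11) L88787 (by decide +kernel)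
theorem L88789 : W_31 (nat_lit 2) (nat_lit 0x300021001f000a40000001000080000000000000000000000000000000) (nat_lit 0x0) (nat_lit 0x8000800020000000000000000000000000000000000000000000) := D_31 (nat_lit 191) (nat_lit 207) (nat_lit 173) (nat_lit 1) (nat_lit 7) (nat_lit 11) (nat_lit 0) (nat_lit 7) (nat_lit 11) (by decide +kernel)
theorem L88790 : W_31 (nat_lit 3) (nat_lit 0x300021001f000a00000001000080000000000000000000000000000000) (nat_lit 0x0) (nat_lit 0x80008000e0000000000000000000000000000000000000000000) := T_31 (nat_lit 174) (nat_lit 175) (nat_lit 0) (nat_lit 8) (nat_lit 11) L88789 (by decide +kernel)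
theorem L88791 : W_31 (nat_lit 4) (nat_lit 0x300020001f000a00000001000080000000000000000000000000000000) (nat_lit 0x0) (nat_lit 0x380008000e0000000000000000000000000000000000000000000) := T_31 (nat_lit 208) (nat_lit 209) (nat_lit 1) (nat_lit 8) (nat_lit 11) L88790 (by decide +kernel)
theorem L88792 : W_31 (nat_lit 5) (nat_lit 0x300020001e000a00000001000080000000000000000000000000000000) (nat_lit 0x0) (nat_lit 0x380018004e0000000000000000000000000000000000000000000) := T_31 (nat_lit 192) (nat_lit 178) (nat_lit 2) (nat_lit 5) (nat_lit 11) L88791 (by decide +kernel)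
theorem L88793 : W_31 (nat_lit 6) (nat_lit 0x300020001e000200000001000080000000000000000000000000000000) (nat_lit 0x0) (nat_lit 0x38001801ce0000000000000000000000000000000000000000000) := T_31 (nat_lit 179) (nat_lit 180) (nat_lit 2) (nat_lit 6) (nat_lit 11) L88792 (by decide +kernel)
theorem L88794 : W_31 (nat_lit 7) (nat_lit 0x300000001e000200000001000080000000000000000000000000000000) (nat_lit 0x0) (nat_lit 0x638001801ce0000000000000000000000000000000000000000000) := T_31 (nat_lit 213) (nat_lit 214) (nat_lit 3) (nat_lit 6) (nat_lit 11) L88793 (by decide +kernel)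
theorem L88795 : W_31 (nat_lit 11) (nat_lit 0x300000001c000200000001000080000000000000000000000000000000) (nat_lit 0x0) (nat_lit 0x28003e000cc006b8003801ce0010000800000000000000000000000000000000000) := Q_31 (nat_lit 193) (C_31 L88772 (C_31 L88776 (C_31 L88779 (C_31 L88788 (C_31 L88794 N_31))))) (by decide +kernel)
theorem L88796 : W_31 (nat_lit 12) (nat_lit 0x300000000c000200000001000080000000000000000000000000000000) (nat_lit 0x0) (nat_lit 0x38003e000cc01eb8073803ce00de000c00000000000000000000000000000000000) := Q_31 (nat_lit 196) (C_31 L88669 (C_31 L88707 (C_31 L88713 (C_31 L88723 (C_31 L88745 (C_31 L88754 (C_31 L88795 N_31))))))) (by decide +kernel)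
theorem L88797 : W_31 (nat_lit 15) (nat_lit 0x200000000c000200000001000080000000000000000000000000000000) (nat_lit 0x0) (nat_lit 0x14003a01fff07df83ebc0f3807ce03de00cc00200000000000000000000000000000000) := Q_31 (nat_lit 228) (C_31 L88100 (C_31 L88215 (C_31 L88432 (C_31 L88472 (C_31 L88632 (C_31 L88662 (C_31 L88796 N_31))))))) (by decide +kernel)
theorem L88798 : W_31 (nat_lit 2) (nat_lit 0x200000000c000200010001000080000000000000000000000000000000) (nat_lit 0x0) (nat_lit 0x180000000400000000000000000000000000000000000000000000) := D_31 (nat_lit 212) (nat_lit 178) (nat_lit 211) (nat_lit 4) (nat_lit 8) (nat_lit 13) (nat_lit 7) (nat_lit 7) (nat_lit 9) (by decide +kernel)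
theorem L88799 : W_31 (nat_lit 3) (nat_lit 0x200000000c000200000001000080000000000000000000000000000000) (nat_lit 0x0) (nat_lit 0x180000000400010000800000000000000000000000000000000000) := T_31 (nat_lit 160) (nat_lit 143) (nat_lit 6) (nat_lit 7) (nat_lit 11) L88798 (by decide +kernel)
theorem L88800 : W_31 (nat_lit 16) (nat_lit 0xc000200000001000080000000000000000000000000000000) (nat_lit 0x0) (nat_lit 0x14003a01fff07ff83fbc0f3807ce03de00cc00200000000000000000000000000000000) := Q_31 (nat_lit 229) (C_31 L85953 (C_31 L88096 (C_31 L88178 (C_31 L88797 (C_31 L88799 N_31))))) (by decide +kernel)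
theorem L88834 : W_31 (nat_lit 15) (nat_lit 0xc000200000001000080000000000000000000000000000000) (nat_lit 0x0) (nat_lit 0x1e00ffc03fe03fb8072807dc01df000f8013e001c000a0000000000000000000000) := Q_31 (nat_lit 176) (C_31 L86055 (C_31 L87665 (C_31 L82190 (C_31 L87662 N_31)))) (by decide +kernel)
theorem L88864 : W_31 (nat_lit 5) (nat_lit 0x18000c000300000001000080000000000000000000000000000000) (nat_lit 0x0) (nat_lit 0x600030003e00600000000400000000000000000000000000000000000000000000) := Q_31 (nat_lit 228) (C_31 L87552 (C_31 L87036 (C_31 L82381 N_31))) (by decide +kernel)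
theorem L88865 : W_31 (nat_lit 2) (nat_lit 0x600038001e000f00008001000080000000000000000000000000000000) (nat_lit 0x0) (nat_lit 0x100018000000000000000000000000000000000000000000000000000000000) := D_31 (nat_lit 231) (nat_lit 232) (nat_lit 248) (nat_lit 0) (nat_lit 11) (nat_lit 13) (nat_lit 7) (nat_lit 9) (nat_lit 10) (by decide +kernel)
theorem L88866 : W_31 (nat_lit 3) (nat_lit 0x200038001e000f00008001000080000000000000000000000000000000) (nat_lit 0x0) (nat_lit 0x18001c000000000000000000000000000000000000000000000000000000000) := T_31 (nat_lit 230) (nat_lit 247) (nat_lit 7) (nat_lit 8) (nat_lit 10) L88865 (by decide +kernel)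
theorem L88867 : W_31 (nat_lit 4) (nat_lit 0x200038001e000b00008001000080000000000000000000000000000000) (nat_lit 0x0) (nat_lit 0x18001c000000000000400004000000000000000000000000000000000000000) := T_31 (nat_lit 178) (nat_lit 158) (nat_lit 0) (nat_lit 9) (nat_lit 10) L88866 (by decide +kernel)
theorem L88868 : W_31 (nat_lit 5) (nat_lit 0x200038001e000300008001000080000000000000000000000000000000) (nat_lit 0x0) (nat_lit 0x18001c000000000000c00044000000000000000000000000000000000000000) := T_31 (nat_lit 179) (nat_lit 162) (nat_lit 5) (nat_lit 9) (nat_lit 9) L88867 (by decide +kernel)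
theorem L88869 : W_31 (nat_lit 6) (nat_lit 0x38001e000300008001000080000000000000000000000000000000) (nat_lit 0x0) (nat_lit 0x1c001e000000000000c00044000000000000000000000000000000000000000) := T_31 (nat_lit 229) (nat_lit 246) (nat_lit 4) (nat_lit 8) (nat_lit 14) L88868 (by decide +kernel)
theorem L88870 : W_31 (nat_lit 7) (nat_lit 0x38001e000300000001000080000000000000000000000000000000) (nat_lit 0x0) (nat_lit 0x1c001e000000000000c0004c000400000000000000000000000000000000000) := T_31 (nat_lit 159) (nat_lit 142) (nat_lit 7) (nat_lit 6) (nat_lit 8) L88869 (by decide +kernel)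
theorem L88871 : W_31 (nat_lit 8) (nat_lit 0x38000e000300000001000080000000000000000000000000000000) (nat_lit 0x0) (nat_lit 0x1c001e000000030000c0004c000400000000000000000000000000000000000) := T_31 (nat_lit 196) (nat_lit 197) (nat_lit 0) (nat_lit 10) (nat_lit 11) L88870 (by decide +kernel)
theorem L88872 : W_31 (nat_lit 9) (nat_lit 0x38000c000300000001000080000000000000000000000000000000) (nat_lit 0x0) (nat_lit 0x1c001e000000033000c0004c000400000000000000000000000000000000000) := T_31 (nat_lit 193) (nat_lit 192) (nat_lit 3) (nat_lit 5) (nat_lit 11) L88871 (by decide +kernel)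
theorem L88873 : W_31 (nat_lit 10) (nat_lit 0x18000c000300000001000080000000000000000000000000000000) (nat_lit 0x0) (nat_lit 0x1c001e000e00073000c0004c000400000000000000000000000000000000000) := Q_31 (nat_lit 213) (C_31 L88801 (C_31 L83942 (C_31 L88872 N_31))) (by decide +kernel)
theorem L88874 : W_31 (nat_lit 11) (nat_lit 0x10000c000300000001000080000000000000000000000000000000) (nat_lit 0x0) (nat_lit 0x6001f001fe00e80073000c0004c000400000000000000000000000000000000000) := Q_31 (nat_lit 211) (C_31 L88864 (C_31 L87672 (C_31 L88873 N_31))) (by decide +kernel)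
theorem L88875 : W_31 (nat_lit 12) (nat_lit 0xc000300000001000080000000000000000000000000000000) (nat_lit 0x0) (nat_lit 0x6001f001fe00f80073000c0005f000f0013c000000000000000000000000000000) := Q_31 (nat_lit 212) (C_31 L87560 (C_31 L87367 (C_31 L88863 (C_31 L87550 (C_31 L88874 (C_31 L85600 N_31)))))) (by decide +kernel)
theorem L88876 : W_31 (nat_lit 16) (nat_lit 0xc000200000001000080000000000000000000000000000000) (nat_lit 0x0) (nat_lit 0x6001f801ff00fb8073c00de005fc00ff013f001e000f0000000000000000000000) := Q_31 (nat_lit 176) (C_31 L87557 (C_31 L84187 (C_31 L88860 (C_31 L88875 N_31)))) (by decide +kernel)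
theorem L88877 : W_31 (nat_lit 2) (nat_lit 0x30001e000b00000001400080000000000000000000000000000000) (nat_lit 0x0) (nat_lit 0x80000000000008000000020000000000000000000000000000000) := D_31 (nat_lit 159) (nat_lit 211) (nat_lit 125) (nat_lit 7) (nat_lit 6) (nat_lit 8) (nat_lit 7) (nat_lit 6) (nat_lit 7) (by decide +kernel)
theorem L88878 : W_31 (nat_lit 3) (nat_lit 0x30001e000a00000001400080000000000000000000000000000000) (nat_lit 0x0) (nat_lit 0x80000000180008000000020000000000000000000000000000000) := T_31 (nat_lit 176) (nat_lit 175) (nat_lit 0) (nat_lit 9) (nat_lit 11) L88877 (by decide +kernel)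
theorem L88879 : W_31 (nat_lit 4) (nat_lit 0x10001e000a00000001400080000000000000000000000000000000) (nat_lit 0x0) (nat_lit 0x680000000180008000000020000000000000000000000000000000) := T_31 (nat_lit 213) (nat_lit 214) (nat_lit 3) (nat_lit 6) (nat_lit 11) L88878 (by decide +kernel)
theorem L88880 : W_31 (nat_lit 5) (nat_lit 0x10001e000200000001400080000000000000000000000000000000) (nat_lit 0x0) (nat_lit 0x680000001980008000000020000000000000000000000000000000) := T_31 (nat_lit 179) (nat_lit 180) (nat_lit 2) (nat_lit 6) (nat_lit 11) L88879 (by decide +kernel)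
theorem L88883 : W_31 (nat_lit 9) (nat_lit 0x10001e000200000001000080000000000000000000000000000000) (nat_lit 0x0) (nat_lit 0x680000001d8001f000f0013c000000000000000000000000000000) := Q_31 (nat_lit 142) (C_31 L88040 (C_31 L85503 (C_31 L88880 (C_31 L88882 N_31)))) (by decide +kernel)
theorem L88884 : W_31 (nat_lit 4) (nat_lit 0x10001e000300010001000080000000000000000000000000000000) (nat_lit 0x0) (nat_lit 0x80001c01c00000000000000000000000000000000000000000000) := T_31 (nat_lit 179) (nat_lit 180) (nat_lit 2) (nat_lit 6) (nat_lit 11) L87060 (by decide +kernel)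
theorem L88885 : W_31 (nat_lit 5) (nat_lit 0x10001e000200010001000080000000000000000000000000000000) (nat_lit 0x0) (nat_lit 0x80001c01d80000000000000000000000000000000000000000000) := T_31 (nat_lit 176) (nat_lit 175) (nat_lit 0) (nat_lit 9) (nat_lit 11) L88884 (by decide +kernel)
theorem L88886 : W_31 (nat_lit 6) (nat_lit 0x10001e000200000001000080000000000000000000000000000000) (nat_lit 0x0) (nat_lit 0x80001c01d80010000800000000000000000000000000000000000) := T_31 (nat_lit 160) (nat_lit 143) (nat_lit 7) (nat_lit 7) (nat_lit 8) L88885 (by decide +kernel)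
theorem L88887 : W_31 (nat_lit 10) (nat_lit 0x10001c000200000001000080000000000000000000000000000000) (nat_lit 0x0) (nat_lit 0x680003c01d8001f000f0013c000000000000000000000000000000) := Q_31 (nat_lit 193) (C_31 L85645 (C_31 L88883 (C_31 L88886 N_31))) (by decide +kernel)
theorem L88888 : W_31 (nat_lit 14) (nat_lit 0x10000c000200000001000080000000000000000000000000000000) (nat_lit 0x0) (nat_lit 0x3e001f007d807e801f3c1fd801df004f0033c000000000000000000000000000000) := Q_31 (nat_lit 196) (C_31 L88090 (C_31 L88077 (C_31 L88078 (C_31 L88079 (C_31 L88076 (C_31 L88081 (C_31 L88054 (C_31 L88887 (C_31 L87001 N_31))))))))) (by decide +kernel)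
theorem L88889 : W_31 (nat_lit 15) (nat_lit 0xc000200000001000080000000000000000000000000000000) (nat_lit 0x0) (nat_lit 0x8003e001f007f807f801f3c1fd801df004f0033c000000000000000000000000000000) := Q_31 (nat_lit 212) (C_31 L88888 (C_31 L87289 (C_31 L87176 (C_31 L87163 (C_31 L86997 N_31))))) (by decide +kernel)
theorem L88890 : W_31 (nat_lit 2) (nat_lit 0x30000e000340000001000080000000000000000000000000000000) (nat_lit 0x0) (nat_lit 0xc80000000000000000000000000000000000000000000000000000) := D_31 (nat_lit 214) (nat_lit 215) (nat_lit 211) (nat_lit 0) (nat_lit 11) (nat_lit 12) (nat_lit 0) (nat_lit 10) (nat_lit 12) (by decide +kernel)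
theorem L88891 : W_31 (nat_lit 3) (nat_lit 0x10000e000340000001000080000000000000000000000000000000) (nat_lit 0x0) (nat_lit 0xe80001000000000000000000000000000000000000000000000000) := T_31 (nat_lit 213) (nat_lit 192) (nat_lit 3) (nat_lit 5) (nat_lit 11) L88890 (by decide +kernel)
theorem L88892 : W_31 (nat_lit 4) (nat_lit 0x10000e000300000001000080000000000000000000000000000000) (nat_lit 0x0) (nat_lit 0xe800010000c0000000000000000000000000000000000000000000) := T_31 (nat_lit 174) (nat_lit 175) (nat_lit 3) (nat_lit 4) (nat_lit 10) L88891 (by decide +kernel)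
theorem L88893 : W_31 (nat_lit 4) (nat_lit 0x10000f000380010001000080000000000000000000000000000000) (nat_lit 0x0) (nat_lit 0x400030000000c00008000400000000000000000000000000000000000) := T_31 (nat_lit 178) (nat_lit 179) (nat_lit 2) (nat_lit 5) (nat_lit 11) L8250 (by decide +kernel)
theorem L88894 : W_31 (nat_lit 5) (nat_lit 0x10000e000380010001000080000000000000000000000000000000) (nat_lit 0x0) (nat_lit 0x400230001000c00008000400000000000000000000000000000000000) := T_31 (nat_lit 192) (nat_lit 213) (nat_lit 3) (nat_lit 5) (nat_lit 11) L88893 (by decide +kernel)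
theorem L88895 : W_31 (nat_lit 6) (nat_lit 0x10000e000300010001000080000000000000000000000000000000) (nat_lit 0x0) (nat_lit 0x400230001000cc0008000400000000000000000000000000000000000) := T_31 (nat_lit 175) (nat_lit 174) (nat_lit 3) (nat_lit 4) (nat_lit 10) L88894 (by decide +kernel)
theorem L88896 : W_31 (nat_lit 7) (nat_lit 0x10000e000300000001000080000000000000000000000000000000) (nat_lit 0x0) (nat_lit 0x400230001000cc0018000c00000000000000000000000000000000000) := T_31 (nat_lit 160) (nat_lit 143) (nat_lit 7) (nat_lit 7) (nat_lit 8) L88895 (by decide +kernel)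
theorem L88897 : W_31 (nat_lit 8) (nat_lit 0x10000c000300000001000080000000000000000000000000000000) (nat_lit 0x0) (nat_lit 0x400eb0003000cc001f000f0013c000000000000000000000000000000) := Q_31 (nat_lit 193) (C_31 L88892 (C_31 L87356 (C_31 L88896 N_31))) (by decide +kernel)
theorem L88898 : W_31 (nat_lit 10) (nat_lit 0x10000c000200000001000080000000000000000000000000000000) (nat_lit 0x0) (nat_lit 0x1c00eb0073000dc001f000f0013c000000000000000000000000000000) := Q_31 (nat_lit 176) (C_31 L87405 (C_31 L87369 (C_31 L87371 (C_31 L88897 (C_31 L87367 N_31))))) (by decide +kernel)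
theorem L88899 : W_31 (nat_lit 14) (nat_lit 0xc000200000001000080000000000000000000000000000000) (nat_lit 0x0) (nat_lit 0x8003e007f003fc07fb01f301fdc01df00cf0073c020000000000000000000000000000) := Q_31 (nat_lit 212) (C_31 L88898 (C_31 L87289 (C_31 L87176 (C_31 L87163 (C_31 L87174 N_31))))) (by decide +kernel)
theorem L88900 : W_31 (nat_lit 17) (nat_lit 0x4000200000001000080000000000000000000000000000000) (nat_lit 0x0) (nat_lit 0x1d003f81fff07ff87fbc1fbe1fdf83dfc0cff073f021e000f0005000000000000000000) := Q_31 (nat_lit 195) (C_31 L86994 (C_31 L87104 (C_31 L87285 (C_31 L87287 (C_31 L87373 (C_31 L87548 (C_31 L87666 (C_31 L88021 (C_31 L88800 (C_31 L88828 (C_31 L88833 (C_31 L88834 (C_31 L88876 (C_31 L88889 (C_31 L88899 N_31))))))))))))))) (by decide +kernel)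
theorem L88903 : W_31 (nat_lit 8) (nat_lit 0x4000e000300000001000080000000000000000000000000000000) (nat_lit 0x0) (nat_lit 0x4000380010000c0018000e00130000000000000000000000000000000) := T_31 (nat_lit 175) (nat_lit 174) (nat_lit 3) (nat_lit 4) (nat_lit 10) L86092 (by decide +kernel)
theorem L88904 : W_31 (nat_lit 9) (nat_lit 0x40006000300000001000080000000000000000000000000000000) (nat_lit 0x0) (nat_lit 0x4000380390000c0018000e00130000000000000000000000000000000) := Q_31 (nat_lit 195) (C_31 L84498 (C_31 L88903 (C_31 L84497 N_31))) (by decide +kernel)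
theorem L88905 : W_31 (nat_lit 10) (nat_lit 0x6000300000001000080000000000000000000000000000000) (nat_lit 0x0) (nat_lit 0x38003c000780390000c0018000e00130000000000000000000000000000000) := Q_31 (nat_lit 210) (C_31 L12079 (C_31 L12034 (C_31 L88904 N_31))) (by decide +kernel)
theorem L88906 : W_31 (nat_lit 7) (nat_lit 0x7000300000001000080000000000000000000000000000000) (nat_lit 0x0) (nat_lit 0x18000c00070038001cc0010000800000000000000000000000000000000000) := Q_31 (nat_lit 195) (C_31 L15056 (C_31 L11689 (C_31 L83595 N_31))) (by decide +kernel)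
theorem L88907 : W_31 (nat_lit 8) (nat_lit 0x6000300000001000080000000000000000000000000000000) (nat_lit 0x0) (nat_lit 0x18000c00078039c01cc0010000800000000000000000000000000000000000) := Q_31 (nat_lit 192) (C_31 L84196 (C_31 L12149 (C_31 L88906 N_31))) (by decide +kernel)
theorem L88908 : W_31 (nat_lit 6) (nat_lit 0x40006000300000001000080000000000000000000000000000000) (nat_lit 0x0) (nat_lit 0x4000b8019000000018000e00130000000000000000000000000000000) := Q_31 (nat_lit 159) (C_31 L84540 (C_31 L85045 (C_31 L85001 N_31))) (by decide +kernel)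
theorem L88909 : W_31 (nat_lit 7) (nat_lit 0x6000300000001000080000000000000000000000000000000) (nat_lit 0x0) (nat_lit 0x38003c000f8019000000018000e00130000000000000000000000000000000) := Q_31 (nat_lit 210) (C_31 L12079 (C_31 L12034 (C_31 L88908 N_31))) (by decide +kernel)
theorem L88910 : W_31 (nat_lit 2) (nat_lit 0x6000e000340018001000080000000000000000000000000000000) (nat_lit 0x0) (nat_lit 0x1000080000000000000000400000000000000000000000000000000000) := D_31 (nat_lit 211) (nat_lit 228) (nat_lit 142) (nat_lit 7) (nat_lit 6) (nat_lit 9) (nat_lit 7) (nat_lit 6) (nat_lit 8) (by decide +kernel)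
theorem L88911 : W_31 (nat_lit 3) (nat_lit 0x6000e000340010001000080000000000000000000000000000000) (nat_lit 0x0) (nat_lit 0x1400080000000000008000400000000000000000000000000000000000) := T_31 (nat_lit 159) (nat_lit 226) (nat_lit 5) (nat_lit 6) (nat_lit 9) L88910 (by decide +kernel)
theorem L88912 : W_31 (nat_lit 4) (nat_lit 0x6000e000300010001000080000000000000000000000000000000) (nat_lit 0x0) (nat_lit 0x14000800000000c0008000400000000000000000000000000000000000) := T_31 (nat_lit 174) (nat_lit 175) (nat_lit 3) (nat_lit 4) (nat_lit 10) L88911 (by decide +kernel)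
theorem L88913 : W_31 (nat_lit 5) (nat_lit 0x6000e000300000001000080000000000000000000000000000000) (nat_lit 0x0) (nat_lit 0x14000800000000c0018000c00000000000000000000000000000000000) := T_31 (nat_lit 160) (nat_lit 143) (nat_lit 6) (nat_lit 7) (nat_lit 11) L88912 (by decide +kernel)
theorem L88914 : W_31 (nat_lit 7) (nat_lit 0x4000e000300000001000080000000000000000000000000000000) (nat_lit 0x0) (nat_lit 0x1000080016000b80008000c001a000c00000000000000000000000000000000000) := Q_31 (nat_lit 209) (C_31 L85592 (C_31 L83477 (C_31 L88913 N_31))) (by decide +kernel)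
theorem L88915 : W_31 (nat_lit 8) (nat_lit 0x40006000300000001000080000000000000000000000000000000) (nat_lit 0x0) (nat_lit 0x1000080016000b80388000c001a000c00000000000000000000000000000000000) := Q_31 (nat_lit 195) (C_31 L84498 (C_31 L88914 (C_31 L84497 N_31))) (by decide +kernel)
theorem L88916 : W_31 (nat_lit 9) (nat_lit 0x6000300000001000080000000000000000000000000000000) (nat_lit 0x0) (nat_lit 0x100038003e000f80388000c001a000c00000000000000000000000000000000000) := Q_31 (nat_lit 210) (C_31 L12079 (C_31 L12034 (C_31 L88915 N_31))) (by decide +kernel)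
theorem L88918 : W_31 (nat_lit 2) (nat_lit 0x80007d002c0017000b00000001000080000000000000000000000000000000) (nat_lit 0x0) (nat_lit 0x20001000080000000000000000000000000000000000000000) := D_31 (nat_lit 180) (nat_lit 163) (nat_lit 197) (nat_lit 6) (nat_lit 9) (nat_lit 13) (nat_lit 6) (nat_lit 9) (nat_lit 14) (by decide +kernel)
theorem L88919 : W_31 (nat_lit 3) (nat_lit 0x80007d000c0017000b00000001000080000000000000000000000000000000) (nat_lit 0x0) (nat_lit 0x600020001000080000000000000000000000000000000000000000) := T_31 (nat_lit 213) (nat_lit 214) (nat_lit 2) (nat_lit 6) (nat_lit 13) L88918 (by decide +kernel)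
theorem L88920 : W_31 (nat_lit 4) (nat_lit 0x7d000c0017000b00000001000080000000000000000000000000000000) (nat_lit 0x0) (nat_lit 0x180000000600020001000080000000000000000000000000000000000000000) := T_31 (nat_lit 247) (nat_lit 248) (nat_lit 3) (nat_lit 6) (nat_lit 13) L88919 (by decide +kernel)
theorem L88921 : W_31 (nat_lit 5) (nat_lit 0x7d000c0017000300000001000080000000000000000000000000000000) (nat_lit 0x0) (nat_lit 0x180000000600020001c00080000000000000000000000000000000000000000) := T_31 (nat_lit 179) (nat_lit 178) (nat_lit 1) (nat_lit 9) (nat_lit 10) L88920 (by decide +kernel)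
theorem L88922 : W_31 (nat_lit 6) (nat_lit 0x3d000c0017000300000001000080000000000000000000000000000000) (nat_lit 0x0) (nat_lit 0x18000c000600020001c00080000000000000000000000000000000000000000) := T_31 (nat_lit 230) (nat_lit 231) (nat_lit 0) (nat_lit 10) (nat_lit 13) L88921 (by decide +kernel)
theorem L88923 : W_31 (nat_lit 7) (nat_lit 0x1d000c0017000300000001000080000000000000000000000000000000) (nat_lit 0x0) (nat_lit 0x1c000e000600020001c00080000000000000000000000000000000000000000) := T_31 (nat_lit 229) (nat_lit 246) (nat_lit 7) (nat_lit 7) (nat_lit 10) L88922 (by decide +kernel)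
theorem L88924 : W_31 (nat_lit 8) (nat_lit 0x1c000c0017000300000001000080000000000000000000000000000000) (nat_lit 0x0) (nat_lit 0x1c000e300600020001c00080000000000000000000000000000000000000000) := T_31 (nat_lit 224) (nat_lit 225) (nat_lit 2) (nat_lit 3) (nat_lit 13) L88923 (by decide +kernel)
theorem L88925 : W_31 (nat_lit 9) (nat_lit 0x18000c0017000300000001000080000000000000000000000000000000) (nat_lit 0x0) (nat_lit 0x1c800e700600020001c00080000000000000000000000000000000000000000) := T_31 (nat_lit 226) (nat_lit 243) (nat_lit 5) (nat_lit 6) (nat_lit 10) L88924 (by decide +kernel)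
theorem L88926 : W_31 (nat_lit 2) (nat_lit 0x1000040017000300000001000080000000000000000000000000000000) (nat_lit 0x0) (nat_lit 0x28000080000000000000000000000000000000000000000000) := D_31 (nat_lit 195) (nat_lit 197) (nat_lit 175) (nat_lit 0) (nat_lit 10) (nat_lit 11) (nat_lit 0) (nat_lit 9) (nat_lit 11) (by decide +kernel)
theorem L88927 : W_31 (nat_lit 10) (nat_lit 0x1800040017000300000001000080000000000000000000000000000000) (nat_lit 0x0) (nat_lit 0x1c800e700680020001c00088000000000000000000000000000000000000000) := T_31 (nat_lit 211) (nat_lit 159) (nat_lit 7) (nat_lit 6) (nat_lit 9) L88925 (by decide +kernel)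
theorem L88928 : W_31 (nat_lit 11) (nat_lit 0x1000040017000300000001000080000000000000000000000000000000) (nat_lit 0x0) (nat_lit 0x1d800ef00680020001c00088000000000000000000000000000000000000000) := T_31 (nat_lit 227) (nat_lit 244) (nat_lit 6) (nat_lit 6) (nat_lit 14) L88927 (by decide +kernel)
theorem L88929 : W_31 (nat_lit 2) (nat_lit 0x10000c001f000300000001000080000000000000000000000000000000) (nat_lit 0x0) (nat_lit 0x1c00000000000000000000000000000000000000000000) := D_31 (nat_lit 179) (nat_lit 178) (nat_lit 180) (nat_lit 2) (nat_lit 5) (nat_lit 11) (nat_lit 2) (nat_lit 6) (nat_lit 11) (by decide +kernel)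
theorem L88930 : W_31 (nat_lit 3) (nat_lit 0x10000c0017000300000001000080000000000000000000000000000000) (nat_lit 0x0) (nat_lit 0x8001c80000000000000000000000000000000000000000000) := T_31 (nat_lit 195) (nat_lit 175) (nat_lit 0) (nat_lit 9) (nat_lit 11) L88929 (by decide +kernel)
theorem L88931 : W_31 (nat_lit 4) (nat_lit 0x1000040017000300000001000080000000000000000000000000000000) (nat_lit 0x0) (nat_lit 0x80008001c80008000000000000000000000000000000000000000) := T_31 (nat_lit 211) (nat_lit 159) (nat_lit 7) (nat_lit 6) (nat_lit 9) L88930 (by decide +kernel)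
theorem L88932 : W_31 (nat_lit 12) (nat_lit 0x1000040007000300000001000080000000000000000000000000000000) (nat_lit 0x0) (nat_lit 0x1d800ef00680038001c80088000000000000000000000000000000000000000) := Q_31 (nat_lit 196) (C_31 L88926 (C_31 L88928 (C_31 L88931 N_31))) (by decide +kernel)
theorem L88937 : W_31 (nat_lit 2) (nat_lit 0x1000040006000300000001000080000000000000000000000000000000) (nat_lit 0x0) (nat_lit 0x30000800000000000000000000000000000000000000000000000000000000) := D_31 (nat_lit 227) (nat_lit 244) (nat_lit 245) (nat_lit 6) (nat_lit 6) (nat_lit 14) (nat_lit 7) (nat_lit 6) (nat_lit 10) (by decide +kernel)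
theorem L88938 : W_31 (nat_lit 2) (nat_lit 0x1000040006000300000001000080000000000000000000000000000000) (nat_lit 0x0) (nat_lit 0x20000000080000000000008000000000000000000000000000000000000000) := D_31 (nat_lit 211) (nat_lit 159) (nat_lit 245) (nat_lit 7) (nat_lit 6) (nat_lit 9) (nat_lit 4) (nat_lit 7) (nat_lit 14) (by decide +kernel)
theorem L88939 : W_31 (nat_lit 2) (nat_lit 0x1000040007000300000001000080000000000000000000000000000000) (nat_lit 0x0) (nat_lit 0x800c00000000000000000000000000000000000000000000) := D_31 (nat_lit 178) (nat_lit 179) (nat_lit 191) (nat_lit 1) (nat_lit 9) (nat_lit 10) (nat_lit 2) (nat_lit 4) (nat_lit 11) (by decide +kernel)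
theorem L88940 : W_31 (nat_lit 2) (nat_lit 0xba000d00078003c0000001000080000000000000000000000000000000) (nat_lit 0x0) (nat_lit 0x8000500000000000000000000000000000000000000000000000000000000) := D_31 (nat_lit 226) (nat_lit 243) (nat_lit 224) (nat_lit 7) (nat_lit 4) (nat_lit 10) (nat_lit 2) (nat_lit 3) (nat_lit 13) (by decide +kernel)
theorem L88941 : W_31 (nat_lit 3) (nat_lit 0xb2000d00078003c0000001000080000000000000000000000000000000) (nat_lit 0x0) (nat_lit 0x18000d00000000000000000000000000000000000000000000000000000000) := T_31 (nat_lit 227) (nat_lit 244) (nat_lit 6) (nat_lit 6) (nat_lit 14) L88940 (by decide +kernel)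
theorem L88942 : W_31 (nat_lit 4) (nat_lit 0xb0000d00078003c0000001000080000000000000000000000000000000) (nat_lit 0x0) (nat_lit 0x1c000f00000000000000000000000000000000000000000000000000000000) := T_31 (nat_lit 225) (nat_lit 242) (nat_lit 6) (nat_lit 4) (nat_lit 14) L88941 (by decide +kernel)
theorem L88943 : W_31 (nat_lit 5) (nat_lit 0xb0000d0007800340000001000080000000000000000000000000000000) (nat_lit 0x0) (nat_lit 0x1c000f00000008000080000000000000000000000000000000000000000000) := T_31 (nat_lit 175) (nat_lit 195) (nat_lit 3) (nat_lit 4) (nat_lit 10) L88942 (by decide +kernel)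
theorem L88944 : W_31 (nat_lit 6) (nat_lit 0xb0000c0007800340000001000080000000000000000000000000000000) (nat_lit 0x0) (nat_lit 0x1c000f00018008000080000000000000000000000000000000000000000000) := T_31 (nat_lit 208) (nat_lit 207) (nat_lit 1) (nat_lit 7) (nat_lit 11) L88943 (by decide +kernel)
theorem L88945 : W_31 (nat_lit 7) (nat_lit 0xb0000c0007800300000001000080000000000000000000000000000000) (nat_lit 0x0) (nat_lit 0x1c000f000180080000e0000000000000000000000000000000000000000000) := T_31 (nat_lit 174) (nat_lit 173) (nat_lit 0) (nat_lit 7) (nat_lit 11) L88944 (by decide +kernel)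
theorem L88946 : W_31 (nat_lit 8) (nat_lit 0x30000c0007800300000001000080000000000000000000000000000000) (nat_lit 0x0) (nat_lit 0x1c00cf000180080000e0000000000000000000000000000000000000000000) := T_31 (nat_lit 231) (nat_lit 230) (nat_lit 0) (nat_lit 10) (nat_lit 13) L88945 (by decide +kernel)
theorem L88947 : W_31 (nat_lit 9) (nat_lit 0x10000c0007800300000001000080000000000000000000000000000000) (nat_lit 0x0) (nat_lit 0x5c00ef000180080000e0000000000000000000000000000000000000000000) := T_31 (nat_lit 229) (nat_lit 246) (nat_lit 7) (nat_lit 7) (nat_lit 10) L88946 (by decide +kernel)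
theorem L88948 : W_31 (nat_lit 10) (nat_lit 0x10000c0007000300000001000080000000000000000000000000000000) (nat_lit 0x0) (nat_lit 0x5c00ef00018008c000e0000000000000000000000000000000000000000000) := T_31 (nat_lit 191) (nat_lit 190) (nat_lit 3) (nat_lit 3) (nat_lit 11) L88947 (by decide +kernel)
theorem L88949 : W_31 (nat_lit 11) (nat_lit 0x1000040007000300000001000080000000000000000000000000000000) (nat_lit 0x0) (nat_lit 0x5c00ef00098008c000e0008000000000000000000000000000000000000000) := T_31 (nat_lit 211) (nat_lit 159) (nat_lit 7) (nat_lit 6) (nat_lit 9) L88948 (by decide +kernel)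
theorem L88950 : W_31 (nat_lit 13) (nat_lit 0x1000040006000300000001000080000000000000000000000000000000) (nat_lit 0x0) (nat_lit 0x1dc00ef00698039c01ce0088000000000000000000000000000000000000000) := Q_31 (nat_lit 192) (C_31 L88939 (C_31 L88949 (C_31 L88932 N_31))) (by decide +kernel)
theorem L88951 : W_31 (nat_lit 14) (nat_lit 0x40006000300000001000080000000000000000000000000000000) (nat_lit 0x0) (nat_lit 0x1fc00ff00698039c01ce0088000000000000000000000000000000000000000) := Q_31 (nat_lit 228) (C_31 L88937 (C_31 L88938 (C_31 L88950 N_31))) (by decide +kernel)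
theorem L88952 : W_31 (nat_lit 2) (nat_lit 0x4000e800340010001000080000000000000000000000000000000) (nat_lit 0x0) (nat_lit 0x1400020000000000000000000000000000000000000000000) := D_31 (nat_lit 192) (nat_lit 173) (nat_lit 190) (nat_lit 0) (nat_lit 7) (nat_lit 11) (nat_lit 2) (nat_lit 3) (nat_lit 11) (by decide +kernel)
theorem L88953 : W_31 (nat_lit 3) (nat_lit 0x4000e800300010001000080000000000000000000000000000000) (nat_lit 0x0) (nat_lit 0x14000e0000000000000000000000000000000000000000000) := T_31 (nat_lit 174) (nat_lit 175) (nat_lit 3) (nat_lit 4) (nat_lit 10) L88952 (by decide +kernel)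
theorem L88954 : W_31 (nat_lit 4) (nat_lit 0x4000e800300000001000080000000000000000000000000000000) (nat_lit 0x0) (nat_lit 0x14000e0010000800000000000000000000000000000000000) := T_31 (nat_lit 160) (nat_lit 143) (nat_lit 6) (nat_lit 7) (nat_lit 11) L88953 (by decide +kernel)
theorem L88955 : W_31 (nat_lit 2) (nat_lit 0x4000e800300000001000080000000000000000000000000000000) (nat_lit 0x0) (nat_lit 0x1400400000000000000000000000000000000000000000000) := D_31 (nat_lit 192) (nat_lit 190) (nat_lit 178) (nat_lit 2) (nat_lit 3) (nat_lit 11) (nat_lit 2) (nat_lit 4) (nat_lit 11) (by decide +kernel)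
theorem L88956 : W_31 (nat_lit 2) (nat_lit 0x4000e800300000001400080000000000000000000000000000000) (nat_lit 0x0) (nat_lit 0x80000000000008000000020000000000000000000000000000000) := D_31 (nat_lit 159) (nat_lit 125) (nat_lit 211) (nat_lit 7) (nat_lit 6) (nat_lit 7) (nat_lit 7) (nat_lit 6) (nat_lit 8) (by decide +kernel)
theorem L88957 : W_31 (nat_lit 2) (nat_lit 0x4000e800340002001f00088000000000000000000000000000000) (nat_lit 0x0) (nat_lit 0x8000400020000000000000000000000000000000000000000000) := D_31 (nat_lit 190) (nat_lit 173) (nat_lit 207) (nat_lit 5) (nat_lit 4) (nat_lit 7) (nat_lit 5) (nat_lit 4) (nat_lit 8) (by decide +kernel)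
theorem L88958 : W_31 (nat_lit 3) (nat_lit 0x4000e800340000001f00088000000000000000000000000000000) (nat_lit 0x0) (nat_lit 0x8000400020003000000000000000000000000000000000000000) := T_31 (nat_lit 157) (nat_lit 156) (nat_lit 1) (nat_lit 7) (nat_lit 8) L88957 (by decide +kernel)
theorem L88959 : W_31 (nat_lit 4) (nat_lit 0x4000e800340000001e00088000000000000000000000000000000) (nat_lit 0x0) (nat_lit 0x8000400020003000100004000000000000000000000000000000) := T_31 (nat_lit 140) (nat_lit 122) (nat_lit 0) (nat_lit 7) (nat_lit 8) L88958 (by decide +kernel)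
theorem L88960 : W_31 (nat_lit 5) (nat_lit 0x4000e800340000001e00080000000000000000000000000000000) (nat_lit 0x0) (nat_lit 0x800040002000300010001c000000000000000000000000000000) := T_31 (nat_lit 123) (nat_lit 124) (nat_lit 0) (nat_lit 8) (nat_lit 8) L88959 (by decide +kernel)
theorem L88961 : W_31 (nat_lit 6) (nat_lit 0x4000e800340000001c00080000000000000000000000000000000) (nat_lit 0x0) (nat_lit 0x800040002000300030011c000000000000000000000000000000) := T_31 (nat_lit 141) (nat_lit 128) (nat_lit 2) (nat_lit 5) (nat_lit 8) L88960 (by decide +kernel)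
theorem L88962 : W_31 (nat_lit 7) (nat_lit 0x4000e800340000001400080000000000000000000000000000000) (nat_lit 0x0) (nat_lit 0x8000400020013000b0011c000000000000000000000000000000) := T_31 (nat_lit 143) (nat_lit 160) (nat_lit 6) (nat_lit 7) (nat_lit 11) L88961 (by decide +kernel)
theorem L88963 : W_31 (nat_lit 8) (nat_lit 0x4000e800300000001400080000000000000000000000000000000) (nat_lit 0x0) (nat_lit 0x80004000e0013000b0011c000000000000000000000000000000) := T_31 (nat_lit 174) (nat_lit 175) (nat_lit 3) (nat_lit 4) (nat_lit 10) L88962 (by decide +kernel)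
theorem L88964 : W_31 (nat_lit 11) (nat_lit 0x4000e800300000001000080000000000000000000000000000000) (nat_lit 0x0) (nat_lit 0x880004000e001b800fc013e000000000000000000000000000000) := Q_31 (nat_lit 142) (C_31 L86290 (C_31 L88956 (C_31 L88963 N_31))) (by decide +kernel)
theorem L88965 : W_31 (nat_lit 2) (nat_lit 0x4000f800300000001800080000000000000000000000000000000) (nat_lit 0x0) (nat_lit 0xe0000000000000000000000000000000000000000000) := D_31 (nat_lit 174) (nat_lit 175) (nat_lit 173) (nat_lit 3) (nat_lit 4) (nat_lit 10) (nat_lit 0) (nat_lit 7) (nat_lit 11) (by decide +kernel)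
theorem L88966 : W_31 (nat_lit 3) (nat_lit 0x4000e800300000001800080000000000000000000000000000000) (nat_lit 0x0) (nat_lit 0x10004e0000000000000000000000000000000000000000000) := T_31 (nat_lit 192) (nat_lit 178) (nat_lit 2) (nat_lit 4) (nat_lit 11) L88965 (by decide +kernel)
theorem L88967 : W_31 (nat_lit 4) (nat_lit 0x4000e800300000001000080000000000000000000000000000000) (nat_lit 0x0) (nat_lit 0x10004e0010000800000000000000000000000000000000000) := T_31 (nat_lit 143) (nat_lit 160) (nat_lit 6) (nat_lit 7) (nat_lit 11) L88966 (by decide +kernel)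
theorem L88968 : W_31 (nat_lit 12) (nat_lit 0x4000e000300000001000080000000000000000000000000000000) (nat_lit 0x0) (nat_lit 0x88001c004e001b800fc013e000000000000000000000000000000) := Q_31 (nat_lit 191) (C_31 L88954 (C_31 L88955 (C_31 L88964 (C_31 L88967 N_31)))) (by decide +kernel)
theorem L88969 : W_31 (nat_lit 2) (nat_lit 0x70002c001e000b00000001800080000000000000000000000000000000) (nat_lit 0x0) (nat_lit 0x80000000000001000400000000000000000000000000000000000000000000) := D_31 (nat_lit 178) (nat_lit 192) (nat_lit 247) (nat_lit 2) (nat_lit 5) (nat_lit 11) (nat_lit 4) (nat_lit 9) (nat_lit 14) (by decide +kernel)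
theorem L88970 : W_31 (nat_lit 3) (nat_lit 0x70002c001e000300000001800080000000000000000000000000000000) (nat_lit 0x0) (nat_lit 0x80000000000001001c00000000000000000000000000000000000000000000) := T_31 (nat_lit 179) (nat_lit 180) (nat_lit 2) (nat_lit 6) (nat_lit 11) L88969 (by decide +kernel)
theorem L88971 : W_31 (nat_lit 4) (nat_lit 0x70000c001e000300000001800080000000000000000000000000000000) (nat_lit 0x0) (nat_lit 0x80000000600001001c00000000000000000000000000000000000000000000) := T_31 (nat_lit 213) (nat_lit 214) (nat_lit 3) (nat_lit 6) (nat_lit 11) L88970 (by decide +kernel)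
theorem L88972 : W_31 (nat_lit 5) (nat_lit 0x30000c001e000300000001800080000000000000000000000000000000) (nat_lit 0x0) (nat_lit 0x8000c000600001001c00000000000000000000000000000000000000000000) := T_31 (nat_lit 230) (nat_lit 231) (nat_lit 0) (nat_lit 10) (nat_lit 13) L88971 (by decide +kernel)
theorem L88973 : W_31 (nat_lit 6) (nat_lit 0x10000c001e000300000001800080000000000000000000000000000000) (nat_lit 0x0) (nat_lit 0xc000e000600001001c00000000000000000000000000000000000000000000) := T_31 (nat_lit 229) (nat_lit 246) (nat_lit 7) (nat_lit 7) (nat_lit 10) L88972 (by decide +kernel)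
theorem L88974 : W_31 (nat_lit 7) (nat_lit 0x10000c000e000300000001800080000000000000000000000000000000) (nat_lit 0x0) (nat_lit 0xc000e000600031001c00000000000000000000000000000000000000000000) := T_31 (nat_lit 196) (nat_lit 197) (nat_lit 1) (nat_lit 10) (nat_lit 11) L88973 (by decide +kernel)
theorem L88975 : W_31 (nat_lit 8) (nat_lit 0xc000e000300000001800080000000000000000000000000000000) (nat_lit 0x0) (nat_lit 0xe000f000600031001c00000000000000000000000000000000000000000000) := T_31 (nat_lit 228) (nat_lit 245) (nat_lit 4) (nat_lit 7) (nat_lit 14) L88974 (by decide +kernel)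
theorem L88976 : W_31 (nat_lit 9) (nat_lit 0xc000e000300000001000080000000000000000000000000000000) (nat_lit 0x0) (nat_lit 0xe000f000600031001c00010000800000000000000000000000000000000000) := T_31 (nat_lit 143) (nat_lit 160) (nat_lit 6) (nat_lit 7) (nat_lit 11) L88975 (by decide +kernel)
theorem L88977 : W_31 (nat_lit 2) (nat_lit 0xc001f400b00001001f00088000000000000000000000000000000) (nat_lit 0x0) (nat_lit 0x20000800080000000000000000000000000000000000) := D_31 (nat_lit 139) (nat_lit 155) (nat_lit 173) (nat_lit 1) (nat_lit 6) (nat_lit 8) (nat_lit 6) (nat_lit 3) (nat_lit 11) (by decide +kernel)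
theorem L88978 : W_31 (nat_lit 3) (nat_lit 0xc001f400b00000001f00088000000000000000000000000000000) (nat_lit 0x0) (nat_lit 0x20003800080000000000000000000000000000000000) := T_31 (nat_lit 156) (nat_lit 157) (nat_lit 1) (nat_lit 7) (nat_lit 8) L88977 (by decide +kernel)
theorem L88979 : W_31 (nat_lit 4) (nat_lit 0xc001f400b00000001e00088000000000000000000000000000000) (nat_lit 0x0) (nat_lit 0x20003800180004000000000000000000000000000000) := T_31 (nat_lit 140) (nat_lit 122) (nat_lit 0) (nat_lit 7) (nat_lit 8) L88978 (by decide +kernel)
theorem L88980 : W_31 (nat_lit 5) (nat_lit 0xc001f000b00000001e00088000000000000000000000000000000) (nat_lit 0x0) (nat_lit 0xc00020003800180004000000000000000000000000000000) := T_31 (nat_lit 190) (nat_lit 191) (nat_lit 3) (nat_lit 3) (nat_lit 11) L88979 (by decide +kernel)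
theorem L88981 : W_31 (nat_lit 6) (nat_lit 0xc001e000b00000001e00088000000000000000000000000000000) (nat_lit 0x0) (nat_lit 0x1c00420003800180004000000000000000000000000000000) := T_31 (nat_lit 192) (nat_lit 178) (nat_lit 2) (nat_lit 5) (nat_lit 11) L88980 (by decide +kernel)
theorem L88982 : W_31 (nat_lit 7) (nat_lit 0xc001e000b00000001e00080000000000000000000000000000000) (nat_lit 0x0) (nat_lit 0x1c0042000380018001c000000000000000000000000000000) := T_31 (nat_lit 123) (nat_lit 124) (nat_lit 0) (nat_lit 8) (nat_lit 8) L88981 (by decide +kernel)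
theorem L88983 : W_31 (nat_lit 8) (nat_lit 0xc001e000b00000001c00080000000000000000000000000000000) (nat_lit 0x0) (nat_lit 0x1c0042000380038011c000000000000000000000000000000) := T_31 (nat_lit 141) (nat_lit 128) (nat_lit 2) (nat_lit 5) (nat_lit 8) L88982 (by decide +kernel)
theorem L88984 : W_31 (nat_lit 9) (nat_lit 0xc001e000b00000001800080000000000000000000000000000000) (nat_lit 0x0) (nat_lit 0x1c0042000b80078011c000000000000000000000000000000) := T_31 (nat_lit 142) (nat_lit 159) (nat_lit 7) (nat_lit 6) (nat_lit 8) L88983 (by decide +kernel)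
theorem L88985 : W_31 (nat_lit 10) (nat_lit 0xc001e000300000001800080000000000000000000000000000000) (nat_lit 0x0) (nat_lit 0x1c01c2000b80078011c000000000000000000000000000000) := T_31 (nat_lit 179) (nat_lit 180) (nat_lit 2) (nat_lit 6) (nat_lit 11) L88984 (by decide +kernel)
theorem L88986 : W_31 (nat_lit 11) (nat_lit 0xc001e000300000001000080000000000000000000000000000000) (nat_lit 0x0) (nat_lit 0x1c01c2001b800f8011c000000000000000000000000000000) := T_31 (nat_lit 143) (nat_lit 160) (nat_lit 6) (nat_lit 7) (nat_lit 11) L88985 (by decide +kernel)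
theorem L88987 : W_31 (nat_lit 12) (nat_lit 0xc000e000300000001000080000000000000000000000000000000) (nat_lit 0x0) (nat_lit 0x31c01c2001b800f8011c000000000000000000000000000000) := T_31 (nat_lit 196) (nat_lit 197) (nat_lit 1) (nat_lit 10) (nat_lit 11) L88986 (by decide +kernel)
theorem L88988 : W_31 (nat_lit 13) (nat_lit 0x4000e000300000001000080000000000000000000000000000000) (nat_lit 0x0) (nat_lit 0xe000f000680031c01c2001b800f8011c000000000000000000000000000000) := Q_31 (nat_lit 211) (C_31 L82321 (C_31 L88976 (C_31 L88987 N_31))) (by decide +kernel)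
theorem L88989 : W_31 (nat_lit 14) (nat_lit 0x40006000300000001000080000000000000000000000000000000) (nat_lit 0x0) (nat_lit 0xe000f000688039c01ce001b800fc013e000000000000000000000000000000) := Q_31 (nat_lit 195) (C_31 L84497 (C_31 L88968 (C_31 L88988 N_31))) (by decide +kernel)
theorem L88990 : W_31 (nat_lit 15) (nat_lit 0x6000300000001000080000000000000000000000000000000) (nat_lit 0x0) (nat_lit 0x1fc00ff006d8039c01ce009b800fc013e000000000000000000000000000000) := Q_31 (nat_lit 210) (C_31 L12034 (C_31 L88951 (C_31 L88989 N_31))) (by decide +kernel)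
theorem L88991 : W_31 (nat_lit 15) (nat_lit 0x6000300000001000080000000000000000000000000000000) (nat_lit 0x0) (nat_lit 0xf800fc006e8039c01ce001b800fc013e000000000000000000000000000000) := Q_31 (nat_lit 210) (C_31 L12034 (C_31 L88989 (C_31 L12038 N_31))) (by decide +kernel)
theorem L88992 : W_31 (nat_lit 9) (nat_lit 0xe000300000001800080000000000000000000000000000000) (nat_lit 0x0) (nat_lit 0x28001c000e000b00070013c000000000000000000000000000000) := T_31 (nat_lit 174) (nat_lit 175) (nat_lit 3) (nat_lit 4) (nat_lit 10) L86300 (by decide +kernel)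
theorem L88993 : W_31 (nat_lit 10) (nat_lit 0xe000300000001000080000000000000000000000000000000) (nat_lit 0x0) (nat_lit 0x28001c000e001b000f0013c000000000000000000000000000000) := T_31 (nat_lit 143) (nat_lit 160) (nat_lit 6) (nat_lit 7) (nat_lit 11) L88992 (by decide +kernel)
theorem L88994 : W_31 (nat_lit 11) (nat_lit 0x6000300000001000080000000000000000000000000000000) (nat_lit 0x0) (nat_lit 0x10000800078039c01ce001b000f0013c000000000000000000000000000000) := Q_31 (nat_lit 195) (C_31 L66697 (C_31 L88993 (C_31 L15647 (C_31 L16013 N_31)))) (by decide +kernel)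
theorem L88995 : W_31 (nat_lit 2) (nat_lit 0x6000e000300018001000080000000000000000000000000000000) (nat_lit 0x0) (nat_lit 0x1000090000000000000000000000000000000000000000000000000000) := D_31 (nat_lit 211) (nat_lit 228) (nat_lit 208) (nat_lit 7) (nat_lit 6) (nat_lit 9) (nat_lit 2) (nat_lit 4) (nat_lit 12) (by decide +kernel)
theorem L88996 : W_31 (nat_lit 3) (nat_lit 0x60006000300018001000080000000000000000000000000000000) (nat_lit 0x0) (nat_lit 0x1000090018000000000000000000000000000000000000000000000000) := T_31 (nat_lit 195) (nat_lit 196) (nat_lit 1) (nat_lit 9) (nat_lit 11) L88995 (by decide +kernel)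
theorem L88997 : W_31 (nat_lit 4) (nat_lit 0x40006000300018001000080000000000000000000000000000000) (nat_lit 0x0) (nat_lit 0x14000b0018000000000000000000000000000000000000000000000000) := T_31 (nat_lit 209) (nat_lit 226) (nat_lit 5) (nat_lit 6) (nat_lit 9) L88996 (by decide +kernel)
theorem L88998 : W_31 (nat_lit 5) (nat_lit 0x40006000300008001000080000000000000000000000000000000) (nat_lit 0x0) (nat_lit 0x14000b0018000000010000800000000000000000000000000000000000) := T_31 (nat_lit 160) (nat_lit 143) (nat_lit 6) (nat_lit 7) (nat_lit 11) L88997 (by decide +kernel)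
theorem L88999 : W_31 (nat_lit 6) (nat_lit 0x40006000300000001000080000000000000000000000000000000) (nat_lit 0x0) (nat_lit 0x14000b0019000000018000e00130000000000000000000000000000000) := Q_31 (nat_lit 159) (C_31 L85045 (C_31 L85001 (C_31 L88998 N_31))) (by decide +kernel)
theorem L89000 : W_31 (nat_lit 7) (nat_lit 0x6000300000001000080000000000000000000000000000000) (nat_lit 0x0) (nat_lit 0x38001c000f0019000000018000e00130000000000000000000000000000000) := Q_31 (nat_lit 210) (C_31 L12038 (C_31 L12034 (C_31 L88999 N_31))) (by decide +kernel)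
theorem L89001 : W_31 (nat_lit 16) (nat_lit 0x6000200000001000080000000000000000000000000000000) (nat_lit 0x0) (nat_lit 0x1001fc00ff006f8039c01de009b800fc013e000400020000000000000000000000) := Q_31 (nat_lit 176) (C_31 L88902 (C_31 L88905 (C_31 L85153 (C_31 L88907 (C_31 L88909 (C_31 L88916 (C_31 L88990 (C_31 L88991 (C_31 L88994 (C_31 L89000 N_31)))))))))) (by decide +kernel)
theorem L89108 : W_31 (nat_lit 7) (nat_lit 0x40006000200000001000080000000000000000000000000000000) (nat_lit 0x0) (nat_lit 0x38001c000b80380001e000c000600030000000000000000000000000000000) := Q_31 (nat_lit 176) (C_31 L12038 (C_31 L85486 (C_31 L84998 (C_31 L84506 (C_31 L89107 N_31))))) (by decide +kernel)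
theorem L89109 : W_31 (nat_lit 16) (nat_lit 0x6000200000001000080000000000000000000000000000000) (nat_lit 0x0) (nat_lit 0x10001a003f003f800fc039e001e001f800f8013c000400020000000000000000000000) := Q_31 (nat_lit 210) (C_31 L89104 (C_31 L84557 (C_31 L80043 (C_31 L10108 (C_31 L89108 N_31))))) (by decide +kernel)
theorem L89192 : W_31 (nat_lit 12) (nat_lit 0x40006000200010001000080000000000000000000000000000000) (nat_lit 0x0) (nat_lit 0xe000fa00698039c01cf000e000780008000000000000000000000000000000) := T_31 (nat_lit 211) (nat_lit 227) (nat_lit 5) (nat_lit 7) (nat_lit 9) L80710 (by decide +kernel)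
theorem L89193 : W_31 (nat_lit 13) (nat_lit 0x40006000200000001000080000000000000000000000000000000) (nat_lit 0x0) (nat_lit 0xe000fa00698039c01cf001e000f80008000000000000000000000000000000) := T_31 (nat_lit 160) (nat_lit 143) (nat_lit 6) (nat_lit 7) (nat_lit 11) L89192 (by decide +kernel)
theorem L89194 : W_31 (nat_lit 14) (nat_lit 0x6000200000001000080000000000000000000000000000000) (nat_lit 0x0) (nat_lit 0x1000f800ff00ff806fe039f01cfc01f000fc011c000000000000000000000000000000) := Q_31 (nat_lit 210) (C_31 L89173 (C_31 L10108 (C_31 L89184 (C_31 L89186 (C_31 L89191 (C_31 L89193 N_31)))))) (by decide +kernel)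
theorem L89195 : W_31 (nat_lit 2) (nat_lit 0xe000600070001a001000080000000000000000000000000000000) (nat_lit 0x0) (nat_lit 0x18008000000000000000000000000000000000000000000000000) := D_31 (nat_lit 208) (nat_lit 195) (nat_lit 207) (nat_lit 2) (nat_lit 4) (nat_lit 12) (nat_lit 2) (nat_lit 3) (nat_lit 12) (by decide +kernel)
theorem L89196 : W_31 (nat_lit 3) (nat_lit 0xc000600070001a001000080000000000000000000000000000000) (nat_lit 0x0) (nat_lit 0x400038008000000000000000000000000000000000000000000000000) := T_31 (nat_lit 209) (nat_lit 226) (nat_lit 5) (nat_lit 6) (nat_lit 9) L89195 (by decide +kernel)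
theorem L89197 : W_31 (nat_lit 4) (nat_lit 0xc000600060001a001000080000000000000000000000000000000) (nat_lit 0x0) (nat_lit 0x1400038008000100000000000000000000000000000000000000000000) := T_31 (nat_lit 176) (nat_lit 228) (nat_lit 7) (nat_lit 6) (nat_lit 9) L89196 (by decide +kernel)
theorem L89198 : W_31 (nat_lit 5) (nat_lit 0xc0006000600018001000080000000000000000000000000000000) (nat_lit 0x0) (nat_lit 0x1400038008000100006000000000000000000000000000000000000000) := T_31 (nat_lit 157) (nat_lit 158) (nat_lit 3) (nat_lit 4) (nat_lit 9) L89197 (by decide +kernel)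
theorem L89199 : W_31 (nat_lit 6) (nat_lit 0xc0006000600010001000080000000000000000000000000000000) (nat_lit 0x0) (nat_lit 0x140003800800010000e000400000000000000000000000000000000000) := T_31 (nat_lit 159) (nat_lit 142) (nat_lit 4) (nat_lit 7) (nat_lit 12) L89198 (by decide +kernel)
theorem L89200 : W_31 (nat_lit 7) (nat_lit 0x80006000600010001000080000000000000000000000000000000) (nat_lit 0x0) (nat_lit 0x1c0007800800010000e000400000000000000000000000000000000000) := T_31 (nat_lit 210) (nat_lit 227) (nat_lit 5) (nat_lit 7) (nat_lit 9) L89199 (by decide +kernel)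
theorem L89201 : W_31 (nat_lit 8) (nat_lit 0x80006000600000001000080000000000000000000000000000000) (nat_lit 0x0) (nat_lit 0x1c0007800800010001e000c00000000000000000000000000000000000) := T_31 (nat_lit 160) (nat_lit 143) (nat_lit 6) (nat_lit 7) (nat_lit 11) L89200 (by decide +kernel)
theorem L89202 : W_31 (nat_lit 2) (nat_lit 0x1000080006000600000001000080000000000000000000000000000000) (nat_lit 0x0) (nat_lit 0x20000000000000000100008000000000000000000000000000000000000000) := D_31 (nat_lit 176) (nat_lit 159) (nat_lit 245) (nat_lit 4) (nat_lit 7) (nat_lit 13) (nat_lit 4) (nat_lit 7) (nat_lit 14) (by decide +kernel)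
theorem L89203 : W_31 (nat_lit 2) (nat_lit 0x1000080006000600000001000080000000000000000000000000000000) (nat_lit 0x0) (nat_lit 0x20000000000008000100000000000000000000000000000000000000000000) := D_31 (nat_lit 245) (nat_lit 176) (nat_lit 195) (nat_lit 4) (nat_lit 7) (nat_lit 14) (nat_lit 6) (nat_lit 7) (nat_lit 14) (by decide +kernel)
theorem L89204 : W_31 (nat_lit 2) (nat_lit 0x38000c0006000600000001000080000000000000000000000000000000) (nat_lit 0x0) (nat_lit 0x400020000000000008000000000000000000000000000000000000000000000000) := D_31 (nat_lit 245) (nat_lit 195) (nat_lit 262) (nat_lit 6) (nat_lit 7) (nat_lit 14) (nat_lit 4) (nat_lit 7) (nat_lit 15) (by decide +kernel)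
theorem L89205 : W_31 (nat_lit 3) (nat_lit 0x3800080006000600000001000080000000000000000000000000000000) (nat_lit 0x0) (nat_lit 0x400020000000040008000000010000000000000000000000000000000000000000) := T_31 (nat_lit 210) (nat_lit 160) (nat_lit 5) (nat_lit 7) (nat_lit 9) L89204 (by decide +kernel)
theorem L89206 : W_31 (nat_lit 4) (nat_lit 0x3000080006000600000001000080000000000000000000000000000000) (nat_lit 0x0) (nat_lit 0x400030000800040008000000010000000000000000000000000000000000000000) := T_31 (nat_lit 227) (nat_lit 244) (nat_lit 5) (nat_lit 7) (nat_lit 10) L89205 (by decide +kernel)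
theorem L89207 : W_31 (nat_lit 5) (nat_lit 0x1000080006000600000001000080000000000000000000000000000000) (nat_lit 0x0) (nat_lit 0x400070002800040008000000010000000000000000000000000000000000000000) := T_31 (nat_lit 229) (nat_lit 246) (nat_lit 7) (nat_lit 7) (nat_lit 10) L89206 (by decide +kernel)
theorem L89208 : W_31 (nat_lit 3) (nat_lit 0x3800080006000700000001000080000000000000000000000000000000) (nat_lit 0x0) (nat_lit 0x4000070000000000010000000000000000000000000000000000000000) := T_31 (nat_lit 210) (nat_lit 160) (nat_lit 6) (nat_lit 6) (nat_lit 13) L82997 (by decide +kernel)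
theorem L89209 : W_31 (nat_lit 4) (nat_lit 0x3000080006000700000001000080000000000000000000000000000000) (nat_lit 0x0) (nat_lit 0x10004800070000000000010000000000000000000000000000000000000000) := T_31 (nat_lit 227) (nat_lit 244) (nat_lit 5) (nat_lit 7) (nat_lit 10) L89208 (by decide +kernel)
theorem L89210 : W_31 (nat_lit 5) (nat_lit 0x1000080006000700000001000080000000000000000000000000000000) (nat_lit 0x0) (nat_lit 0x50006800070000000000010000000000000000000000000000000000000000) := T_31 (nat_lit 229) (nat_lit 246) (nat_lit 7) (nat_lit 7) (nat_lit 10) L89209 (by decide +kernel)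
theorem L89211 : W_31 (nat_lit 6) (nat_lit 0x1000080006000600000001000080000000000000000000000000000000) (nat_lit 0x0) (nat_lit 0x50006800070000000100018000000000000000000000000000000000000000) := T_31 (nat_lit 176) (nat_lit 159) (nat_lit 4) (nat_lit 7) (nat_lit 13) L89210 (by decide +kernel)
theorem L89212 : W_31 (nat_lit 7) (nat_lit 0x80006000600000001000080000000000000000000000000000000) (nat_lit 0x0) (nat_lit 0x400070007800070008000100018000000000000000000000000000000000000000) := Q_31 (nat_lit 228) (C_31 L89202 (C_31 L89203 (C_31 L89207 (C_31 L89211 N_31)))) (by decide +kernel)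
theorem L89213 : W_31 (nat_lit 2) (nat_lit 0xe000680070001a001000080000000000000000000000000000000) (nat_lit 0x0) (nat_lit 0x18000400000000000000000000000000000000000000000000000) := D_31 (nat_lit 208) (nat_lit 207) (nat_lit 190) (nat_lit 2) (nat_lit 3) (nat_lit 12) (nat_lit 0) (nat_lit 7) (nat_lit 12) (by decide +kernel)
theorem L89214 : W_31 (nat_lit 3) (nat_lit 0xc000680070001a001000080000000000000000000000000000000) (nat_lit 0x0) (nat_lit 0x400038000400000000000000000000000000000000000000000000000) := T_31 (nat_lit 209) (nat_lit 226) (nat_lit 5) (nat_lit 6) (nat_lit 9) L89213 (by decide +kernel)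
theorem L89215 : W_31 (nat_lit 4) (nat_lit 0xc000680060001a001000080000000000000000000000000000000) (nat_lit 0x0) (nat_lit 0x1400038000400100000000000000000000000000000000000000000000) := T_31 (nat_lit 176) (nat_lit 228) (nat_lit 7) (nat_lit 6) (nat_lit 9) L89214 (by decide +kernel)
theorem L89216 : W_31 (nat_lit 5) (nat_lit 0xc0006800600018001000080000000000000000000000000000000) (nat_lit 0x0) (nat_lit 0x1400038000400100006000000000000000000000000000000000000000) := T_31 (nat_lit 157) (nat_lit 158) (nat_lit 3) (nat_lit 4) (nat_lit 9) L89215 (by decide +kernel)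
theorem L89217 : W_31 (nat_lit 6) (nat_lit 0xc0006800600010001000080000000000000000000000000000000) (nat_lit 0x0) (nat_lit 0x140003800040010000e000400000000000000000000000000000000000) := T_31 (nat_lit 159) (nat_lit 142) (nat_lit 4) (nat_lit 7) (nat_lit 12) L89216 (by decide +kernel)
theorem L89218 : W_31 (nat_lit 7) (nat_lit 0x80006800600010001000080000000000000000000000000000000) (nat_lit 0x0) (nat_lit 0x1c0007800040010000e000400000000000000000000000000000000000) := T_31 (nat_lit 210) (nat_lit 227) (nat_lit 5) (nat_lit 7) (nat_lit 9) L89217 (by decide +kernel)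
theorem L89219 : W_31 (nat_lit 8) (nat_lit 0x80006800600000001000080000000000000000000000000000000) (nat_lit 0x0) (nat_lit 0x1c0007800040010001e000c00000000000000000000000000000000000) := T_31 (nat_lit 160) (nat_lit 143) (nat_lit 6) (nat_lit 7) (nat_lit 11) L89218 (by decide +kernel)
theorem L89220 : W_31 (nat_lit 9) (nat_lit 0x80006000600000001000080000000000000000000000000000000) (nat_lit 0x0) (nat_lit 0x1c00078001c0010001e000c00000000000000000000000000000000000) := T_31 (nat_lit 191) (nat_lit 192) (nat_lit 2) (nat_lit 4) (nat_lit 11) L89219 (by decide +kernel)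
theorem L89221 : W_31 (nat_lit 2) (nat_lit 0x1800080006800600010001000080000000000000000000000000000000) (nat_lit 0x0) (nat_lit 0x20000000000008000100000000000000000000000000000000000000000000) := D_31 (nat_lit 245) (nat_lit 176) (nat_lit 195) (nat_lit 4) (nat_lit 7) (nat_lit 14) (nat_lit 6) (nat_lit 7) (nat_lit 14) (by decide +kernel)
theorem L89222 : W_31 (nat_lit 3) (nat_lit 0x800080006800600010001000080000000000000000000000000000000) (nat_lit 0x0) (nat_lit 0x30001000000008000100000000000000000000000000000000000000000000) := T_31 (nat_lit 228) (nat_lit 244) (nat_lit 5) (nat_lit 7) (nat_lit 10) L89221 (by decide +kernel)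
theorem L89223 : W_31 (nat_lit 4) (nat_lit 0x800080006000600010001000080000000000000000000000000000000) (nat_lit 0x0) (nat_lit 0x30001000000009800100000000000000000000000000000000000000000000) := T_31 (nat_lit 191) (nat_lit 192) (nat_lit 2) (nat_lit 4) (nat_lit 11) L89222 (by decide +kernel)
theorem L89224 : W_31 (nat_lit 5) (nat_lit 0x80006000600010001000080000000000000000000000000000000) (nat_lit 0x0) (nat_lit 0x30001800040009800100000000000000000000000000000000000000000000) := T_31 (nat_lit 227) (nat_lit 210) (nat_lit 5) (nat_lit 7) (nat_lit 9) L89223 (by decide +kernel)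
theorem L89225 : W_31 (nat_lit 6) (nat_lit 0x80006000600000001000080000000000000000000000000000000) (nat_lit 0x0) (nat_lit 0x30001800040009800100010000800000000000000000000000000000000000) := T_31 (nat_lit 160) (nat_lit 143) (nat_lit 6) (nat_lit 7) (nat_lit 11) L89224 (by decide +kernel)
theorem L89226 : W_31 (nat_lit 2) (nat_lit 0x2000180008000680060001a001000080000000000000000000000000000000) (nat_lit 0x0) (nat_lit 0x800040002000000000000000000000000000000000000000000000000000000000) := D_31 (nat_lit 246) (nat_lit 229) (nat_lit 263) (nat_lit 7) (nat_lit 7) (nat_lit 10) (nat_lit 7) (nat_lit 7) (nat_lit 11) (by decide +kernel)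
theorem L89227 : W_31 (nat_lit 3) (nat_lit 0x180008000680060001a001000080000000000000000000000000000000) (nat_lit 0x0) (nat_lit 0x800060002000000008000000000000000000000000000000000000000000000000) := T_31 (nat_lit 245) (nat_lit 195) (nat_lit 6) (nat_lit 7) (nat_lit 14) L89226 (by decide +kernel)
theorem L89228 : W_31 (nat_lit 4) (nat_lit 0x80008000680060001a001000080000000000000000000000000000000) (nat_lit 0x0) (nat_lit 0x800070003000000008000000000000000000000000000000000000000000000000) := T_31 (nat_lit 228) (nat_lit 244) (nat_lit 5) (nat_lit 7) (nat_lit 10) L89227 (by decide +kernel)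
theorem L89229 : W_31 (nat_lit 5) (nat_lit 0x800080006800600018001000080000000000000000000000000000000) (nat_lit 0x0) (nat_lit 0x800070003000000008000000006000000000000000000000000000000000000000) := T_31 (nat_lit 157) (nat_lit 158) (nat_lit 3) (nat_lit 4) (nat_lit 9) L89228 (by decide +kernel)
theorem L89230 : W_31 (nat_lit 6) (nat_lit 0x800080006800600010001000080000000000000000000000000000000) (nat_lit 0x0) (nat_lit 0x80007000300000000800000000e000400000000000000000000000000000000000) := T_31 (nat_lit 159) (nat_lit 142) (nat_lit 4) (nat_lit 7) (nat_lit 12) L89229 (by decide +kernel)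
theorem L89231 : W_31 (nat_lit 7) (nat_lit 0x80006800600010001000080000000000000000000000000000000) (nat_lit 0x0) (nat_lit 0x80007000380004000800000000e000400000000000000000000000000000000000) := T_31 (nat_lit 227) (nat_lit 210) (nat_lit 5) (nat_lit 7) (nat_lit 9) L89230 (by decide +kernel)
theorem L89232 : W_31 (nat_lit 8) (nat_lit 0x80006800600000001000080000000000000000000000000000000) (nat_lit 0x0) (nat_lit 0x80007000380004000800000001e000c00000000000000000000000000000000000) := T_31 (nat_lit 160) (nat_lit 143) (nat_lit 6) (nat_lit 7) (nat_lit 11) L89231 (by decide +kernel)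
theorem L89233 : W_31 (nat_lit 9) (nat_lit 0x80006000600000001000080000000000000000000000000000000) (nat_lit 0x0) (nat_lit 0x80007000380004000980000001e000c00000000000000000000000000000000000) := T_31 (nat_lit 191) (nat_lit 192) (nat_lit 2) (nat_lit 4) (nat_lit 11) L89232 (by decide +kernel)
theorem L89234 : W_31 (nat_lit 2) (nat_lit 0x200038000c0006800600000001000080000000000000000000000000000000) (nat_lit 0x0) (nat_lit 0x4000030000000000000000000000000000000000000000000000000000) := D_31 (nat_lit 209) (nat_lit 208) (nat_lit 230) (nat_lit 3) (nat_lit 4) (nat_lit 12) (nat_lit 0) (nat_lit 9) (nat_lit 13) (by decide +kernel)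
theorem L89235 : W_31 (nat_lit 3) (nat_lit 0x20003800080006800600000001000080000000000000000000000000000000) (nat_lit 0x0) (nat_lit 0x400000004000070000000000000000000000000000000000000000000000000000) := T_31 (nat_lit 210) (nat_lit 262) (nat_lit 4) (nat_lit 7) (nat_lit 15) L89234 (by decide +kernel)
theorem L89236 : W_31 (nat_lit 4) (nat_lit 0x3800080006800600000001000080000000000000000000000000000000) (nat_lit 0x0) (nat_lit 0x400020004000070008000000000000000000000000000000000000000000000000) := T_31 (nat_lit 245) (nat_lit 195) (nat_lit 6) (nat_lit 7) (nat_lit 14) L89235 (by decide +kernel)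
theorem L89237 : W_31 (nat_lit 5) (nat_lit 0x3800080006000600000001000080000000000000000000000000000000) (nat_lit 0x0) (nat_lit 0x400020004000070009800000000000000000000000000000000000000000000000) := T_31 (nat_lit 191) (nat_lit 192) (nat_lit 2) (nat_lit 4) (nat_lit 11) L89236 (by decide +kernel)
theorem L89238 : W_31 (nat_lit 6) (nat_lit 0x3000080006000600000001000080000000000000000000000000000000) (nat_lit 0x0) (nat_lit 0x400030004800070009800000000000000000000000000000000000000000000000) := T_31 (nat_lit 227) (nat_lit 244) (nat_lit 5) (nat_lit 7) (nat_lit 10) L89237 (by decide +kernel)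
theorem L89239 : W_31 (nat_lit 7) (nat_lit 0x1000080006000600000001000080000000000000000000000000000000) (nat_lit 0x0) (nat_lit 0x400070006800070009800000000000000000000000000000000000000000000000) := T_31 (nat_lit 229) (nat_lit 246) (nat_lit 7) (nat_lit 7) (nat_lit 10) L89238 (by decide +kernel)
theorem L89240 : W_31 (nat_lit 2) (nat_lit 0x38000a0006000600000001000080000000000000000000000000000000) (nat_lit 0x0) (nat_lit 0x400050000000000000000000000000000000000000000000000000000) := D_31 (nat_lit 208) (nat_lit 210) (nat_lit 226) (nat_lit 3) (nat_lit 4) (nat_lit 12) (nat_lit 0) (nat_lit 8) (nat_lit 13) (by decide +kernel)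
theorem L89241 : W_31 (nat_lit 3) (nat_lit 0x18000a0006000600000001000080000000000000000000000000000000) (nat_lit 0x0) (nat_lit 0x40002400050000000000000000000000000000000000000000000000000000) := T_31 (nat_lit 229) (nat_lit 246) (nat_lit 7) (nat_lit 7) (nat_lit 10) L89240 (by decide +kernel)
theorem L89242 : W_31 (nat_lit 4) (nat_lit 0x10000a0006000600000001000080000000000000000000000000000000) (nat_lit 0x0) (nat_lit 0x50002c00050000000000000000000000000000000000000000000000000000) := T_31 (nat_lit 227) (nat_lit 244) (nat_lit 5) (nat_lit 7) (nat_lit 10) L89241 (by decide +kernel)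
theorem L89243 : W_31 (nat_lit 5) (nat_lit 0x10000a0007000600000001000080000000000000000000000000000000) (nat_lit 0x0) (nat_lit 0x58002c00010000000100008000000000000000000000000000000000000000) := T_31 (nat_lit 176) (nat_lit 159) (nat_lit 4) (nat_lit 7) (nat_lit 13) L82947 (by decide +kernel)
theorem L89244 : W_31 (nat_lit 6) (nat_lit 0x10000a0006000600000001000080000000000000000000000000000000) (nat_lit 0x0) (nat_lit 0x58002c00010001800100008000000000000000000000000000000000000000) := T_31 (nat_lit 192) (nat_lit 191) (nat_lit 2) (nat_lit 4) (nat_lit 11) L89243 (by decide +kernel)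
theorem L89245 : W_31 (nat_lit 2) (nat_lit 0x30000b0006000700000001000080000000000000000000000000000000) (nat_lit 0x0) (nat_lit 0x9800000000000000000000000000000000000000000000000) := D_31 (nat_lit 192) (nat_lit 195) (nat_lit 191) (nat_lit 1) (nat_lit 8) (nat_lit 11) (nat_lit 2) (nat_lit 4) (nat_lit 11) (by decide +kernel)
theorem L89246 : W_31 (nat_lit 3) (nat_lit 0x30000a0006000700000001000080000000000000000000000000000000) (nat_lit 0x0) (nat_lit 0x50009800000000000000000000000000000000000000000000000) := T_31 (nat_lit 208) (nat_lit 210) (nat_lit 3) (nat_lit 4) (nat_lit 12) L89245 (by decide +kernel)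
theorem L89247 : W_31 (nat_lit 4) (nat_lit 0x10000a0006000700000001000080000000000000000000000000000000) (nat_lit 0x0) (nat_lit 0x40002000050009800000000000000000000000000000000000000000000000) := T_31 (nat_lit 229) (nat_lit 246) (nat_lit 7) (nat_lit 7) (nat_lit 10) L89246 (by decide +kernel)
theorem L89248 : W_31 (nat_lit 5) (nat_lit 0x10000a0006000600000001000080000000000000000000000000000000) (nat_lit 0x0) (nat_lit 0x40002000050009800100008000000000000000000000000000000000000000) := T_31 (nat_lit 176) (nat_lit 159) (nat_lit 4) (nat_lit 7) (nat_lit 13) L89247 (by decide +kernel)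
theorem L89249 : W_31 (nat_lit 2) (nat_lit 0x10000a000f000700000001000080000000000000000000000000000000) (nat_lit 0x0) (nat_lit 0x40030000000000000000000000000000000000000000000000000) := D_31 (nat_lit 196) (nat_lit 197) (nat_lit 210) (nat_lit 0) (nat_lit 10) (nat_lit 11) (nat_lit 1) (nat_lit 9) (nat_lit 11) (by decide +kernel)
theorem L89250 : W_31 (nat_lit 3) (nat_lit 0x10000a0007000700000001000080000000000000000000000000000000) (nat_lit 0x0) (nat_lit 0x50038000000000000000000000000000000000000000000000000) := T_31 (nat_lit 195) (nat_lit 208) (nat_lit 1) (nat_lit 8) (nat_lit 11) L89249 (by decide +kernel)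
theorem L89251 : W_31 (nat_lit 4) (nat_lit 0x10000a0007000600000001000080000000000000000000000000000000) (nat_lit 0x0) (nat_lit 0x50038000100008000000000000000000000000000000000000000) := T_31 (nat_lit 176) (nat_lit 159) (nat_lit 4) (nat_lit 7) (nat_lit 13) L89250 (by decide +kernel)
theorem L89252 : W_31 (nat_lit 5) (nat_lit 0x10000a0006000600000001000080000000000000000000000000000000) (nat_lit 0x0) (nat_lit 0x50039800100008000000000000000000000000000000000000000) := T_31 (nat_lit 192) (nat_lit 191) (nat_lit 2) (nat_lit 4) (nat_lit 11) L89251 (by decide +kernel)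
theorem L89253 : W_31 (nat_lit 2) (nat_lit 0x1000078004a0006800700000001000080000000000000000000000000000000) (nat_lit 0x0) (nat_lit 0x200008000800000000000000000000000000000000000000000000000000000) := D_31 (nat_lit 231) (nat_lit 249) (nat_lit 215) (nat_lit 3) (nat_lit 7) (nat_lit 13) (nat_lit 2) (nat_lit 7) (nat_lit 13) (by decide +kernel)
theorem L89254 : W_31 (nat_lit 3) (nat_lit 0x1000078000a0006800700000001000080000000000000000000000000000000) (nat_lit 0x0) (nat_lit 0x200008000e00000000000000000000000000000000000000000000000000000) := T_31 (nat_lit 214) (nat_lit 213) (nat_lit 2) (nat_lit 6) (nat_lit 13) L89253 (by decide +kernel)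
theorem L89255 : W_31 (nat_lit 4) (nat_lit 0x78000a0006800700000001000080000000000000000000000000000000) (nat_lit 0x0) (nat_lit 0x380008000e00000000000000000000000000000000000000000000000000000) := T_31 (nat_lit 248) (nat_lit 247) (nat_lit 3) (nat_lit 6) (nat_lit 13) L89254 (by decide +kernel)
theorem L89256 : W_31 (nat_lit 5) (nat_lit 0x38000a0006800700000001000080000000000000000000000000000000) (nat_lit 0x0) (nat_lit 0x38000c000e40000000000000000000000000000000000000000000000000000) := T_31 (nat_lit 230) (nat_lit 210) (nat_lit 0) (nat_lit 9) (nat_lit 13) L89255 (by decide +kernel)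
theorem L89257 : W_31 (nat_lit 6) (nat_lit 0x30000a0006800700000001000080000000000000000000000000000000) (nat_lit 0x0) (nat_lit 0x39000c800e40000000000000000000000000000000000000000000000000000) := T_31 (nat_lit 227) (nat_lit 244) (nat_lit 5) (nat_lit 7) (nat_lit 10) L89256 (by decide +kernel)
theorem L89258 : W_31 (nat_lit 7) (nat_lit 0x30000a0006000700000001000080000000000000000000000000000000) (nat_lit 0x0) (nat_lit 0x39000c800e40001800000000000000000000000000000000000000000000000) := T_31 (nat_lit 191) (nat_lit 192) (nat_lit 2) (nat_lit 4) (nat_lit 11) L89257 (by decide +kernel)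
theorem L89259 : W_31 (nat_lit 8) (nat_lit 0x10000a0006000700000001000080000000000000000000000000000000) (nat_lit 0x0) (nat_lit 0x3d000e800e40001800000000000000000000000000000000000000000000000) := T_31 (nat_lit 229) (nat_lit 246) (nat_lit 7) (nat_lit 7) (nat_lit 10) L89258 (by decide +kernel)
theorem L89260 : W_31 (nat_lit 9) (nat_lit 0x10000a0006000600000001000080000000000000000000000000000000) (nat_lit 0x0) (nat_lit 0x3d000e800e40001800100008000000000000000000000000000000000000000) := T_31 (nat_lit 176) (nat_lit 159) (nat_lit 4) (nat_lit 7) (nat_lit 13) L89259 (by decide +kernel)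
theorem L89261 : W_31 (nat_lit 10) (nat_lit 0x1000080006000600000001000080000000000000000000000000000000) (nat_lit 0x0) (nat_lit 0x3d800ec00e70039800100008000000000000000000000000000000000000000) := Q_31 (nat_lit 209) (C_31 L89242 (C_31 L89244 (C_31 L89248 (C_31 L89252 (C_31 L89260 N_31))))) (by decide +kernel)
theorem L89262 : W_31 (nat_lit 11) (nat_lit 0x80006000600000001000080000000000000000000000000000000) (nat_lit 0x0) (nat_lit 0x4003f800fc00e70039800100008000000000000000000000000000000000000000) := Q_31 (nat_lit 228) (C_31 L89203 (C_31 L89202 (C_31 L89239 (C_31 L89261 N_31)))) (by decide +kernel)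
theorem L89263 : W_31 (nat_lit 4) (nat_lit 0xc000680060001c001000080000000000000000000000000000000) (nat_lit 0x0) (nat_lit 0x400030008400100000000200000000000000000000000000000000000) := T_31 (nat_lit 176) (nat_lit 141) (nat_lit 4) (nat_lit 6) (nat_lit 12) L74755 (by decide +kernel)
theorem L89264 : W_31 (nat_lit 5) (nat_lit 0xc0006800600018001000080000000000000000000000000000000) (nat_lit 0x0) (nat_lit 0x400030008400100006000200000000000000000000000000000000000) := T_31 (nat_lit 158) (nat_lit 157) (nat_lit 3) (nat_lit 4) (nat_lit 9) L89263 (by decide +kernel)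
theorem L89265 : W_31 (nat_lit 6) (nat_lit 0xc0006800600010001000080000000000000000000000000000000) (nat_lit 0x0) (nat_lit 0x40003000840010000e000600000000000000000000000000000000000) := T_31 (nat_lit 159) (nat_lit 142) (nat_lit 4) (nat_lit 7) (nat_lit 12) L89264 (by decide +kernel)
theorem L89266 : W_31 (nat_lit 7) (nat_lit 0x80006800600010001000080000000000000000000000000000000) (nat_lit 0x0) (nat_lit 0xc0007000840010000e000600000000000000000000000000000000000) := T_31 (nat_lit 210) (nat_lit 227) (nat_lit 5) (nat_lit 7) (nat_lit 9) L89265 (by decide +kernel)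
theorem L89267 : W_31 (nat_lit 8) (nat_lit 0x80006800600000001000080000000000000000000000000000000) (nat_lit 0x0) (nat_lit 0xc0007000840010001e000e00000000000000000000000000000000000) := T_31 (nat_lit 160) (nat_lit 143) (nat_lit 6) (nat_lit 7) (nat_lit 11) L89266 (by decide +kernel)
theorem L89268 : W_31 (nat_lit 9) (nat_lit 0x80006000600000001000080000000000000000000000000000000) (nat_lit 0x0) (nat_lit 0xc00070009c0010001e000e00000000000000000000000000000000000) := T_31 (nat_lit 191) (nat_lit 192) (nat_lit 2) (nat_lit 4) (nat_lit 11) L89267 (by decide +kernel)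
theorem L89269 : W_31 (nat_lit 2) (nat_lit 0x2000100008000680060001a001000080000000000000000000000000000000) (nat_lit 0x0) (nat_lit 0x200010000800000000000000000000000000000000000000000000000000000000) := D_31 (nat_lit 244) (nat_lit 261) (nat_lit 227) (nat_lit 5) (nat_lit 7) (nat_lit 11) (nat_lit 5) (nat_lit 7) (nat_lit 10) (by decide +kernel)
theorem L89270 : W_31 (nat_lit 3) (nat_lit 0x100008000680060001a001000080000000000000000000000000000000) (nat_lit 0x0) (nat_lit 0x200030000800000008000000000000000000000000000000000000000000000000) := T_31 (nat_lit 245) (nat_lit 195) (nat_lit 6) (nat_lit 7) (nat_lit 14) L89269 (by decide +kernel)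
theorem L89271 : W_31 (nat_lit 4) (nat_lit 0x100008000600060001a001000080000000000000000000000000000000) (nat_lit 0x0) (nat_lit 0x200030000800000009800000000000000000000000000000000000000000000000) := T_31 (nat_lit 191) (nat_lit 192) (nat_lit 2) (nat_lit 4) (nat_lit 11) L89270 (by decide +kernel)
theorem L89272 : W_31 (nat_lit 5) (nat_lit 0x8000600060001a001000080000000000000000000000000000000) (nat_lit 0x0) (nat_lit 0x200030001800000009800100000000000000000000000000000000000000000000) := T_31 (nat_lit 228) (nat_lit 176) (nat_lit 4) (nat_lit 7) (nat_lit 13) L89271 (by decide +kernel)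
theorem L89273 : W_31 (nat_lit 6) (nat_lit 0x80006000600018001000080000000000000000000000000000000) (nat_lit 0x0) (nat_lit 0x200030001800000009800100006000000000000000000000000000000000000000) := T_31 (nat_lit 157) (nat_lit 158) (nat_lit 3) (nat_lit 4) (nat_lit 9) L89272 (by decide +kernel)
theorem L89274 : W_31 (nat_lit 7) (nat_lit 0x80006000600010001000080000000000000000000000000000000) (nat_lit 0x0) (nat_lit 0x20003000180000000980010000e000400000000000000000000000000000000000) := T_31 (nat_lit 159) (nat_lit 142) (nat_lit 4) (nat_lit 7) (nat_lit 12) L89273 (by decide +kernel)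
theorem L89275 : W_31 (nat_lit 8) (nat_lit 0x80006000600000001000080000000000000000000000000000000) (nat_lit 0x0) (nat_lit 0x20003000180000000980010001e000c00000000000000000000000000000000000) := T_31 (nat_lit 160) (nat_lit 143) (nat_lit 6) (nat_lit 7) (nat_lit 11) L89274 (by decide +kernel)
theorem L89276 : W_31 (nat_lit 2) (nat_lit 0x20002000300008000680060001a001000080000000000000000000000000000000) (nat_lit 0x0) (nat_lit 0x4000400000000000040000000000000000000000000000000000000000000000000000) := D_31 (nat_lit 262) (nat_lit 210) (nat_lit 278) (nat_lit 4) (nat_lit 7) (nat_lit 15) (nat_lit 5) (nat_lit 7) (nat_lit 12) (by decide +kernel)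
theorem L89277 : W_31 (nat_lit 3) (nat_lit 0x2000300008000680060001a001000080000000000000000000000000000000) (nat_lit 0x0) (nat_lit 0x4000600010000000040000000000000000000000000000000000000000000000000000) := T_31 (nat_lit 261) (nat_lit 244) (nat_lit 5) (nat_lit 7) (nat_lit 11) L89276 (by decide +kernel)
theorem L89278 : W_31 (nat_lit 4) (nat_lit 0x300008000680060001a001000080000000000000000000000000000000) (nat_lit 0x0) (nat_lit 0x4000600030000000040008000000000000000000000000000000000000000000000000) := T_31 (nat_lit 245) (nat_lit 195) (nat_lit 6) (nat_lit 7) (nat_lit 14) L89277 (by decide +kernel)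
theorem L89279 : W_31 (nat_lit 5) (nat_lit 0x100008000680060001a001000080000000000000000000000000000000) (nat_lit 0x0) (nat_lit 0x4000600070002000040008000000000000000000000000000000000000000000000000) := T_31 (nat_lit 229) (nat_lit 246) (nat_lit 7) (nat_lit 7) (nat_lit 10) L89278 (by decide +kernel)
theorem L89280 : W_31 (nat_lit 6) (nat_lit 0x8000680060001a001000080000000000000000000000000000000) (nat_lit 0x0) (nat_lit 0x4000600070003000040008000100000000000000000000000000000000000000000000) := T_31 (nat_lit 228) (nat_lit 176) (nat_lit 4) (nat_lit 7) (nat_lit 13) L89279 (by decide +kernel)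
theorem L89281 : W_31 (nat_lit 7) (nat_lit 0x80006800600018001000080000000000000000000000000000000) (nat_lit 0x0) (nat_lit 0x4000600070003000040008000100006000000000000000000000000000000000000000) := T_31 (nat_lit 157) (nat_lit 158) (nat_lit 3) (nat_lit 4) (nat_lit 9) L89280 (by decide +kernel)
theorem L89282 : W_31 (nat_lit 8) (nat_lit 0x80006800600010001000080000000000000000000000000000000) (nat_lit 0x0) (nat_lit 0x400060007000300004000800010000e000400000000000000000000000000000000000) := T_31 (nat_lit 159) (nat_lit 142) (nat_lit 4) (nat_lit 7) (nat_lit 12) L89281 (by decide +kernel)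
theorem L89283 : W_31 (nat_lit 9) (nat_lit 0x80006800600000001000080000000000000000000000000000000) (nat_lit 0x0) (nat_lit 0x400060007000300004000800010001e000c00000000000000000000000000000000000) := T_31 (nat_lit 160) (nat_lit 143) (nat_lit 6) (nat_lit 7) (nat_lit 11) L89282 (by decide +kernel)
theorem L89284 : W_31 (nat_lit 10) (nat_lit 0x80006000600000001000080000000000000000000000000000000) (nat_lit 0x0) (nat_lit 0x400060007000300004000980010001e000c00000000000000000000000000000000000) := T_31 (nat_lit 191) (nat_lit 192) (nat_lit 2) (nat_lit 4) (nat_lit 11) L89283 (by decide +kernel)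
theorem L89285 : W_31 (nat_lit 12) (nat_lit 0x6000600000001000080000000000000000000000000000000) (nat_lit 0x0) (nat_lit 0x4000e003f800fc00ef8039c0010001e000e00000000000000000000000000000000000) := Q_31 (nat_lit 211) (C_31 L89201 (C_31 L89212 (C_31 L89220 (C_31 L89225 (C_31 L89233 (C_31 L89262 (C_31 L89268 (C_31 L89275 (C_31 L89284 N_31))))))))) (by decide +kernel)
theorem L89286 : W_31 (nat_lit 2) (nat_lit 0x40006000600010001000080000000000000000000000000000000) (nat_lit 0x0) (nat_lit 0x10000800080000000000000000000000000000000000000000000000000000) := D_31 (nat_lit 227) (nat_lit 211) (nat_lit 244) (nat_lit 5) (nat_lit 7) (nat_lit 9) (nat_lit 6) (nat_lit 6) (nat_lit 14) (by decide +kernel)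
theorem L89287 : W_31 (nat_lit 3) (nat_lit 0x40006000600000001000080000000000000000000000000000000) (nat_lit 0x0) (nat_lit 0x10000800080000000000010000800000000000000000000000000000000000) := T_31 (nat_lit 160) (nat_lit 143) (nat_lit 6) (nat_lit 7) (nat_lit 11) L89286 (by decide +kernel)
theorem L89288 : W_31 (nat_lit 2) (nat_lit 0x800040006000600000001000080000000000000000000000000000000) (nat_lit 0x0) (nat_lit 0x80000000100010000000000000000000000000000000000000000) := D_31 (nat_lit 160) (nat_lit 176) (nat_lit 211) (nat_lit 6) (nat_lit 6) (nat_lit 13) (nat_lit 5) (nat_lit 7) (nat_lit 9) (by decide +kernel)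
theorem L89289 : W_31 (nat_lit 3) (nat_lit 0x40006000600000001000080000000000000000000000000000000) (nat_lit 0x0) (nat_lit 0x10000800080000000100010000000000000000000000000000000000000000) := T_31 (nat_lit 227) (nat_lit 244) (nat_lit 6) (nat_lit 6) (nat_lit 14) L89288 (by decide +kernel)
theorem L89290 : W_31 (nat_lit 2) (nat_lit 0x70006001600000001000080000000000000000000000000000000) (nat_lit 0x0) (nat_lit 0x80018000000000000000000000000000000000000000000000000) := D_31 (nat_lit 195) (nat_lit 196) (nat_lit 211) (nat_lit 1) (nat_lit 9) (nat_lit 11) (nat_lit 2) (nat_lit 4) (nat_lit 12) (by decide +kernel)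
theorem L89291 : W_31 (nat_lit 3) (nat_lit 0x60006001600000001000080000000000000000000000000000000) (nat_lit 0x0) (nat_lit 0x98018000000000000000000000000000000000000000000000000) := T_31 (nat_lit 208) (nat_lit 207) (nat_lit 2) (nat_lit 3) (nat_lit 12) L89290 (by decide +kernel)
theorem L89292 : W_31 (nat_lit 4) (nat_lit 0x60006000600000001000080000000000000000000000000000000) (nat_lit 0x0) (nat_lit 0x98018001800000000000000000000000000000000000000000000) := T_31 (nat_lit 180) (nat_lit 179) (nat_lit 1) (nat_lit 10) (nat_lit 10) L89291 (by decide +kernel)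
theorem L89293 : W_31 (nat_lit 2) (nat_lit 0x10000000060006000700008001000080000000000000000000000000000000) (nat_lit 0x0) (nat_lit 0x1000080000000000000000400000000000000000000000000000000000) := D_31 (nat_lit 211) (nat_lit 228) (nat_lit 142) (nat_lit 7) (nat_lit 6) (nat_lit 9) (nat_lit 7) (nat_lit 6) (nat_lit 8) (by decide +kernel)
theorem L89294 : W_31 (nat_lit 3) (nat_lit 0x10000000060006000700000001000080000000000000000000000000000000) (nat_lit 0x0) (nat_lit 0x1400080000000000008000400000000000000000000000000000000000) := T_31 (nat_lit 159) (nat_lit 226) (nat_lit 5) (nat_lit 6) (nat_lit 9) L89293 (by decide +kernel)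
theorem L89295 : W_31 (nat_lit 4) (nat_lit 0x60006000700000001000080000000000000000000000000000000) (nat_lit 0x0) (nat_lit 0x10001c00080000000000008000400000000000000000000000000000000000) := T_31 (nat_lit 244) (nat_lit 227) (nat_lit 6) (nat_lit 6) (nat_lit 14) L89294 (by decide +kernel)
theorem L89296 : W_31 (nat_lit 2) (nat_lit 0x3c00068006001700000001000080000000000000000000000000000000) (nat_lit 0x0) (nat_lit 0xc0000000080000000000000000000000000000000000000000000000000000) := D_31 (nat_lit 246) (nat_lit 247) (nat_lit 211) (nat_lit 3) (nat_lit 5) (nat_lit 13) (nat_lit 7) (nat_lit 7) (nat_lit 10) (by decide +kernel)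
theorem L89297 : W_31 (nat_lit 3) (nat_lit 0x1c00068006001700000001000080000000000000000000000000000000) (nat_lit 0x0) (nat_lit 0xc0006000080000000000000000000000000000000000000000000000000000) := T_31 (nat_lit 229) (nat_lit 230) (nat_lit 0) (nat_lit 9) (nat_lit 13) L89296 (by decide +kernel)
theorem L89298 : W_31 (nat_lit 4) (nat_lit 0x1800068006001700000001000080000000000000000000000000000000) (nat_lit 0x0) (nat_lit 0xc8006400080000000000000000000000000000000000000000000000000000) := T_31 (nat_lit 226) (nat_lit 243) (nat_lit 5) (nat_lit 6) (nat_lit 10) L89297 (by decide +kernel)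
theorem L89299 : W_31 (nat_lit 5) (nat_lit 0x1800060006001700000001000080000000000000000000000000000000) (nat_lit 0x0) (nat_lit 0xc8006400098000000000000000000000000000000000000000000000000000) := T_31 (nat_lit 207) (nat_lit 208) (nat_lit 3) (nat_lit 3) (nat_lit 12) L89298 (by decide +kernel)
theorem L89300 : W_31 (nat_lit 6) (nat_lit 0x800060006001700000001000080000000000000000000000000000000) (nat_lit 0x0) (nat_lit 0xe8007400098000000000000000000000000000000000000000000000000000) := T_31 (nat_lit 228) (nat_lit 245) (nat_lit 7) (nat_lit 6) (nat_lit 10) L89299 (by decide +kernel)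
theorem L89301 : W_31 (nat_lit 7) (nat_lit 0x800060006000700000001000080000000000000000000000000000000) (nat_lit 0x0) (nat_lit 0xe8007400098000001800000000000000000000000000000000000000000000) := T_31 (nat_lit 180) (nat_lit 179) (nat_lit 1) (nat_lit 10) (nat_lit 10) L89300 (by decide +kernel)
theorem L89302 : W_31 (nat_lit 8) (nat_lit 0x60006000700000001000080000000000000000000000000000000) (nat_lit 0x0) (nat_lit 0xf8007c00098000001800000000000000000000000000000000000000000000) := T_31 (nat_lit 227) (nat_lit 244) (nat_lit 6) (nat_lit 6) (nat_lit 14) L89301 (by decide +kernel)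
theorem L89303 : W_31 (nat_lit 2) (nat_lit 0x10000000068006000f00008001000080000000000000000000000000000000) (nat_lit 0x0) (nat_lit 0x1000080000000000000000400000000000000000000000000000000000) := D_31 (nat_lit 211) (nat_lit 228) (nat_lit 142) (nat_lit 7) (nat_lit 6) (nat_lit 9) (nat_lit 7) (nat_lit 6) (nat_lit 8) (by decide +kernel)
theorem L89304 : W_31 (nat_lit 3) (nat_lit 0x10000000068006000f00000001000080000000000000000000000000000000) (nat_lit 0x0) (nat_lit 0x100008000000000000c000400000000000000000000000000000000000) := T_31 (nat_lit 159) (nat_lit 158) (nat_lit 0) (nat_lit 9) (nat_lit 10) L89303 (by decide +kernel)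
theorem L89305 : W_31 (nat_lit 4) (nat_lit 0x10000000068006000700000001000080000000000000000000000000000000) (nat_lit 0x0) (nat_lit 0x100008000000180000c000400000000000000000000000000000000000) := T_31 (nat_lit 179) (nat_lit 180) (nat_lit 1) (nat_lit 10) (nat_lit 10) L89304 (by decide +kernel)
theorem L89306 : W_31 (nat_lit 5) (nat_lit 0x68006000700000001000080000000000000000000000000000000) (nat_lit 0x0) (nat_lit 0x1000180008000000180000c000400000000000000000000000000000000000) := T_31 (nat_lit 244) (nat_lit 227) (nat_lit 6) (nat_lit 6) (nat_lit 14) L89305 (by decide +kernel)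
theorem L89307 : W_31 (nat_lit 6) (nat_lit 0x60006000700000001000080000000000000000000000000000000) (nat_lit 0x0) (nat_lit 0x1000180009800000180000c000400000000000000000000000000000000000) := T_31 (nat_lit 207) (nat_lit 208) (nat_lit 2) (nat_lit 3) (nat_lit 12) L89306 (by decide +kernel)
theorem L89308 : W_31 (nat_lit 9) (nat_lit 0x60006000600000001000080000000000000000000000000000000) (nat_lit 0x0) (nat_lit 0xf8007c0009800000190000c000400000000000000000000000000000000000) := Q_31 (nat_lit 176) (C_31 L86417 (C_31 L89295 (C_31 L89302 (C_31 L89307 N_31)))) (by decide +kernel)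
theorem L89309 : W_31 (nat_lit 2) (nat_lit 0x6000e000600000001000080000000000000000000000000000000) (nat_lit 0x0) (nat_lit 0x98000000000000000000000000000000000000000000000000000) := D_31 (nat_lit 208) (nat_lit 207) (nat_lit 211) (nat_lit 2) (nat_lit 3) (nat_lit 12) (nat_lit 2) (nat_lit 4) (nat_lit 12) (by decide +kernel)
theorem L89310 : W_31 (nat_lit 3) (nat_lit 0x60006000600000001000080000000000000000000000000000000) (nat_lit 0x0) (nat_lit 0x98018000000000000000000000000000000000000000000000000) := T_31 (nat_lit 195) (nat_lit 196) (nat_lit 1) (nat_lit 9) (nat_lit 11) L89309 (by decide +kernel)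
theorem L89311 : W_31 (nat_lit 4) (nat_lit 0x68006000e00000001000080000000000000000000000000000000) (nat_lit 0x0) (nat_lit 0x40000003800010000c000000000000000000000000000000000000000) := T_31 (nat_lit 196) (nat_lit 195) (nat_lit 1) (nat_lit 9) (nat_lit 11) L85367 (by decide +kernel)
theorem L89312 : W_31 (nat_lit 5) (nat_lit 0x68006000600000001000080000000000000000000000000000000) (nat_lit 0x0) (nat_lit 0x40000003800190000c000000000000000000000000000000000000000) := T_31 (nat_lit 179) (nat_lit 180) (nat_lit 1) (nat_lit 10) (nat_lit 10) L89311 (by decide +kernel)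
theorem L89313 : W_31 (nat_lit 6) (nat_lit 0x60006000600000001000080000000000000000000000000000000) (nat_lit 0x0) (nat_lit 0x40001803800190000c000000000000000000000000000000000000000) := T_31 (nat_lit 207) (nat_lit 208) (nat_lit 2) (nat_lit 3) (nat_lit 12) L89312 (by decide +kernel)
theorem L89314 : W_31 (nat_lit 2) (nat_lit 0x10000000060016000f00000001000080000000000000000000000000000000) (nat_lit 0x0) (nat_lit 0x40000000000000000c000000000000000000000000000000000000000) := D_31 (nat_lit 159) (nat_lit 158) (nat_lit 226) (nat_lit 0) (nat_lit 9) (nat_lit 10) (nat_lit 5) (nat_lit 6) (nat_lit 9) (by decide +kernel)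
theorem L89315 : W_31 (nat_lit 3) (nat_lit 0x10000000060016000e00000001000080000000000000000000000000000000) (nat_lit 0x0) (nat_lit 0x40000002000010000c000000000000000000000000000000000000000) := T_31 (nat_lit 176) (nat_lit 197) (nat_lit 3) (nat_lit 6) (nat_lit 10) L89314 (by decide +kernel)
theorem L89316 : W_31 (nat_lit 4) (nat_lit 0x10000000060006000e00000001000080000000000000000000000000000000) (nat_lit 0x0) (nat_lit 0x40000003800010000c000000000000000000000000000000000000000) := T_31 (nat_lit 196) (nat_lit 195) (nat_lit 1) (nat_lit 9) (nat_lit 11) L89315 (by decide +kernel)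
theorem L89317 : W_31 (nat_lit 5) (nat_lit 0x10000000060006000600000001000080000000000000000000000000000000) (nat_lit 0x0) (nat_lit 0x40000003800190000c000000000000000000000000000000000000000) := T_31 (nat_lit 179) (nat_lit 180) (nat_lit 1) (nat_lit 10) (nat_lit 10) L89316 (by decide +kernel)
theorem L89318 : W_31 (nat_lit 6) (nat_lit 0x60006000600000001000080000000000000000000000000000000) (nat_lit 0x0) (nat_lit 0x10000c0000003800190000c000000000000000000000000000000000000000) := T_31 (nat_lit 244) (nat_lit 227) (nat_lit 6) (nat_lit 6) (nat_lit 14) L89317 (by decide +kernel)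
theorem L89319 : W_31 (nat_lit 10) (nat_lit 0x40006000600000001000080000000000000000000000000000000) (nat_lit 0x0) (nat_lit 0xf8007c000b803800190000c000400000000000000000000000000000000000) := Q_31 (nat_lit 209) (C_31 L89292 (C_31 L89308 (C_31 L89310 (C_31 L89313 (C_31 L89318 N_31))))) (by decide +kernel)
theorem L89320 : W_31 (nat_lit 2) (nat_lit 0x800040006000600000001000080000000000000000000000000000000) (nat_lit 0x0) (nat_lit 0x100010000800000000000000000000000000000000000) := D_31 (nat_lit 160) (nat_lit 143) (nat_lit 176) (nat_lit 6) (nat_lit 7) (nat_lit 11) (nat_lit 6) (nat_lit 6) (nat_lit 13) (by decide +kernel)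
theorem L89321 : W_31 (nat_lit 3) (nat_lit 0x40006000600000001000080000000000000000000000000000000) (nat_lit 0x0) (nat_lit 0x10000800000000000100010000800000000000000000000000000000000000) := T_31 (nat_lit 227) (nat_lit 244) (nat_lit 6) (nat_lit 6) (nat_lit 14) L89320 (by decide +kernel)
theorem L89322 : W_31 (nat_lit 2) (nat_lit 0x60006001700008001000080000000000000000000000000000000) (nat_lit 0x0) (nat_lit 0x1000080000000000000000400000000000000000000000000000000000) := D_31 (nat_lit 211) (nat_lit 228) (nat_lit 142) (nat_lit 7) (nat_lit 6) (nat_lit 9) (nat_lit 7) (nat_lit 6) (nat_lit 8) (by decide +kernel)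
theorem L89323 : W_31 (nat_lit 3) (nat_lit 0x60006001600008001000080000000000000000000000000000000) (nat_lit 0x0) (nat_lit 0x1400080000000100000000400000000000000000000000000000000000) := T_31 (nat_lit 176) (nat_lit 226) (nat_lit 5) (nat_lit 6) (nat_lit 9) L89322 (by decide +kernel)
theorem L89324 : W_31 (nat_lit 4) (nat_lit 0x60006000600008001000080000000000000000000000000000000) (nat_lit 0x0) (nat_lit 0x1400080000001900000000400000000000000000000000000000000000) := T_31 (nat_lit 180) (nat_lit 179) (nat_lit 1) (nat_lit 10) (nat_lit 10) L89323 (by decide +kernel)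
theorem L89325 : W_31 (nat_lit 5) (nat_lit 0x60006000600008001000080000000000000000000000000000000) (nat_lit 0x0) (nat_lit 0x400000000000100010000e00130000000000000000000000000000000) := T_31 (nat_lit 176) (nat_lit 226) (nat_lit 5) (nat_lit 6) (nat_lit 9) L85135 (by decide +kernel)
theorem L89326 : W_31 (nat_lit 7) (nat_lit 0x70006001600018001000080000000000000000000000000000000) (nat_lit 0x0) (nat_lit 0x700080000c00060007000480000000000000000000000000000000000) := T_31 (nat_lit 211) (nat_lit 142) (nat_lit 4) (nat_lit 7) (nat_lit 12) L79272 (by decide +kernel)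
theorem L89327 : W_31 (nat_lit 8) (nat_lit 0x70006001600008001000080000000000000000000000000000000) (nat_lit 0x0) (nat_lit 0x700080000c00060017000c80000000000000000000000000000000000) := T_31 (nat_lit 160) (nat_lit 143) (nat_lit 6) (nat_lit 7) (nat_lit 11) L89326 (by decide +kernel)
theorem L89328 : W_31 (nat_lit 9) (nat_lit 0x60006001600008001000080000000000000000000000000000000) (nat_lit 0x0) (nat_lit 0x700098000c00060017000c80000000000000000000000000000000000) := T_31 (nat_lit 208) (nat_lit 207) (nat_lit 2) (nat_lit 3) (nat_lit 12) L89327 (by decide +kernel)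
theorem L89329 : W_31 (nat_lit 10) (nat_lit 0x60006000600008001000080000000000000000000000000000000) (nat_lit 0x0) (nat_lit 0x700098000c01860017000c80000000000000000000000000000000000) := T_31 (nat_lit 180) (nat_lit 179) (nat_lit 1) (nat_lit 10) (nat_lit 10) L89328 (by decide +kernel)
theorem L89330 : W_31 (nat_lit 2) (nat_lit 0x60006000700008001800080000000000000000000000000000000) (nat_lit 0x0) (nat_lit 0x1800004000000000000000000000000000000000000000) := D_31 (nat_lit 179) (nat_lit 180) (nat_lit 158) (nat_lit 1) (nat_lit 10) (nat_lit 10) (nat_lit 0) (nat_lit 9) (nat_lit 10) (by decide +kernel)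
theorem L89331 : W_31 (nat_lit 3) (nat_lit 0x60006000600008001800080000000000000000000000000000000) (nat_lit 0x0) (nat_lit 0x400000000001900004000000000000000000000000000000000000000) := T_31 (nat_lit 176) (nat_lit 226) (nat_lit 5) (nat_lit 6) (nat_lit 9) L89330 (by decide +kernel)
theorem L89332 : W_31 (nat_lit 4) (nat_lit 0x60006000600008001000080000000000000000000000000000000) (nat_lit 0x0) (nat_lit 0x400000000001900014000800000000000000000000000000000000000) := T_31 (nat_lit 143) (nat_lit 160) (nat_lit 6) (nat_lit 7) (nat_lit 11) L89331 (by decide +kernel)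
theorem L89333 : W_31 (nat_lit 2) (nat_lit 0x68006000f00008001800080000000000000000000000000000000) (nat_lit 0x0) (nat_lit 0x1000080000000000000000400000000000000000000000000000000000) := D_31 (nat_lit 211) (nat_lit 228) (nat_lit 142) (nat_lit 7) (nat_lit 6) (nat_lit 9) (nat_lit 7) (nat_lit 6) (nat_lit 8) (by decide +kernel)
theorem L89334 : W_31 (nat_lit 3) (nat_lit 0x68006000e00008001800080000000000000000000000000000000) (nat_lit 0x0) (nat_lit 0x1000080000000100004000400000000000000000000000000000000000) := T_31 (nat_lit 176) (nat_lit 158) (nat_lit 0) (nat_lit 9) (nat_lit 10) L89333 (by decide +kernel)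
theorem L89335 : W_31 (nat_lit 4) (nat_lit 0x68006000600008001800080000000000000000000000000000000) (nat_lit 0x0) (nat_lit 0x1000080000001900004000400000000000000000000000000000000000) := T_31 (nat_lit 179) (nat_lit 180) (nat_lit 1) (nat_lit 10) (nat_lit 10) L89334 (by decide +kernel)
theorem L89336 : W_31 (nat_lit 5) (nat_lit 0x60006000600008001800080000000000000000000000000000000) (nat_lit 0x0) (nat_lit 0x1000098000001900004000400000000000000000000000000000000000) := T_31 (nat_lit 207) (nat_lit 208) (nat_lit 2) (nat_lit 3) (nat_lit 12) L89335 (by decide +kernel)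
theorem L89337 : W_31 (nat_lit 6) (nat_lit 0x60006000600008001000080000000000000000000000000000000) (nat_lit 0x0) (nat_lit 0x1000098000001900014000c00000000000000000000000000000000000) := T_31 (nat_lit 143) (nat_lit 160) (nat_lit 6) (nat_lit 7) (nat_lit 11) L89336 (by decide +kernel)
theorem L89338 : W_31 (nat_lit 11) (nat_lit 0x60006000600000001000080000000000000000000000000000000) (nat_lit 0x0) (nat_lit 0x1700098000c0196001f000e80130000000000000000000000000000000) := Q_31 (nat_lit 159) (C_31 L89324 (C_31 L89325 (C_31 L89329 (C_31 L89332 (C_31 L89337 N_31))))) (by decide +kernel)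
theorem L89339 : W_31 (nat_lit 2) (nat_lit 0x60016000f00000001800080000000000000000000000000000000) (nat_lit 0x0) (nat_lit 0x40000000000000000c000000000000000000000000000000000000000) := D_31 (nat_lit 159) (nat_lit 158) (nat_lit 226) (nat_lit 0) (nat_lit 9) (nat_lit 10) (nat_lit 5) (nat_lit 6) (nat_lit 9) (by decide +kernel)
theorem L89340 : W_31 (nat_lit 3) (nat_lit 0x60016000e00000001800080000000000000000000000000000000) (nat_lit 0x0) (nat_lit 0x40000002000010000c000000000000000000000000000000000000000) := T_31 (nat_lit 176) (nat_lit 197) (nat_lit 3) (nat_lit 6) (nat_lit 10) L89339 (by decide +kernel)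
theorem L89341 : W_31 (nat_lit 4) (nat_lit 0x60006000e00000001800080000000000000000000000000000000) (nat_lit 0x0) (nat_lit 0x40000003800010000c000000000000000000000000000000000000000) := T_31 (nat_lit 196) (nat_lit 195) (nat_lit 1) (nat_lit 9) (nat_lit 11) L89340 (by decide +kernel)
theorem L89342 : W_31 (nat_lit 5) (nat_lit 0x60006000e00000001000080000000000000000000000000000000) (nat_lit 0x0) (nat_lit 0x40000003800010001c000800000000000000000000000000000000000) := T_31 (nat_lit 143) (nat_lit 160) (nat_lit 6) (nat_lit 7) (nat_lit 11) L89341 (by decide +kernel)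
theorem L89343 : W_31 (nat_lit 6) (nat_lit 0x60006000600000001000080000000000000000000000000000000) (nat_lit 0x0) (nat_lit 0x40000003800190001c000800000000000000000000000000000000000) := T_31 (nat_lit 179) (nat_lit 180) (nat_lit 1) (nat_lit 10) (nat_lit 10) L89342 (by decide +kernel)
theorem L89344 : W_31 (nat_lit 12) (nat_lit 0x40006000600000001000080000000000000000000000000000000) (nat_lit 0x0) (nat_lit 0x17000b8038c0196001f000e80130000000000000000000000000000000) := Q_31 (nat_lit 209) (C_31 L89313 (C_31 L89310 (C_31 L89338 (C_31 L89343 N_31)))) (by decide +kernel)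
theorem L89345 : W_31 (nat_lit 13) (nat_lit 0x6000600000001000080000000000000000000000000000000) (nat_lit 0x0) (nat_lit 0xf8007f000f8038c0196001f000e80130000000000000000000000000000000) := Q_31 (nat_lit 210) (C_31 L89287 (C_31 L89289 (C_31 L89319 (C_31 L89321 (C_31 L89344 N_31))))) (by decide +kernel)
theorem L89346 : W_31 (nat_lit 14) (nat_lit 0x6000200000001000080000000000000000000000000000000) (nat_lit 0x0) (nat_lit 0x4000e003f800ff00ef8039c01d6001f000e80130000000000000000000000000000000) := Q_31 (nat_lit 178) (C_31 L86466 (C_31 L84997 (C_31 L89285 (C_31 L89345 N_31)))) (by decide +kernel)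
theorem L89404 : W_31 (nat_lit 2) (nat_lit 0x280003000d00068003c0002001800080000000000000000000000000000000) (nat_lit 0x0) (nat_lit 0x100014000000000000000000000000000000000000000000000000000000000000) := D_31 (nat_lit 242) (nat_lit 244) (nat_lit 260) (nat_lit 0) (nat_lit 7) (nat_lit 14) (nat_lit 7) (nat_lit 4) (nat_lit 11) (by decide +kernel)
theorem L89405 : W_31 (nat_lit 3) (nat_lit 0x200003000d00068003c0002001800080000000000000000000000000000000) (nat_lit 0x0) (nat_lit 0x10001c000400000000000000000000000000000000000000000000000000000000) := T_31 (nat_lit 243) (nat_lit 226) (nat_lit 7) (nat_lit 4) (nat_lit 10) L89404 (by decide +kernel)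
theorem L89406 : W_31 (nat_lit 4) (nat_lit 0x200001000d00068003c0002001800080000000000000000000000000000000) (nat_lit 0x0) (nat_lit 0x10001e000600000000000000000000000000000000000000000000000000000000) := T_31 (nat_lit 225) (nat_lit 241) (nat_lit 5) (nat_lit 4) (nat_lit 10) L89405 (by decide +kernel)
theorem L89407 : W_31 (nat_lit 5) (nat_lit 0x200000000d00068003c0002001800080000000000000000000000000000000) (nat_lit 0x0) (nat_lit 0x10001e000700008000000000000000000000000000000000000000000000000000) := T_31 (nat_lit 224) (nat_lit 207) (nat_lit 5) (nat_lit 4) (nat_lit 9) L89406 (by decide +kernel)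
theorem L89408 : W_31 (nat_lit 6) (nat_lit 0x200000000d00068003c0000001800080000000000000000000000000000000) (nat_lit 0x0) (nat_lit 0x10001e000700008000000000003000000000000000000000000000000000000000) := T_31 (nat_lit 157) (nat_lit 156) (nat_lit 0) (nat_lit 7) (nat_lit 10) L89407 (by decide +kernel)
theorem L89409 : W_31 (nat_lit 7) (nat_lit 0x200000000d00060003c0000001800080000000000000000000000000000000) (nat_lit 0x0) (nat_lit 0x10001e000700008000c00000003000000000000000000000000000000000000000) := T_31 (nat_lit 191) (nat_lit 190) (nat_lit 1) (nat_lit 7) (nat_lit 10) L89408 (by decide +kernel)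
theorem L89410 : W_31 (nat_lit 8) (nat_lit 0x200000000d0006000380000001800080000000000000000000000000000000) (nat_lit 0x0) (nat_lit 0x10001e000700008000c00060003000000000000000000000000000000000000000) := T_31 (nat_lit 174) (nat_lit 173) (nat_lit 3) (nat_lit 3) (nat_lit 10) L89409 (by decide +kernel)
theorem L89411 : W_31 (nat_lit 9) (nat_lit 0x200000000d0006000380000001000080000000000000000000000000000000) (nat_lit 0x0) (nat_lit 0x10001e000700008000c00060013000800000000000000000000000000000000000) := T_31 (nat_lit 143) (nat_lit 160) (nat_lit 6) (nat_lit 7) (nat_lit 11) L89410 (by decide +kernel)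
theorem L89412 : W_31 (nat_lit 10) (nat_lit 0xd0006000380000001000080000000000000000000000000000000) (nat_lit 0x0) (nat_lit 0x10003e001700008000c00060013000800000000000000000000000000000000000) := T_31 (nat_lit 245) (nat_lit 228) (nat_lit 4) (nat_lit 7) (nat_lit 14) L89411 (by decide +kernel)
theorem L89413 : W_31 (nat_lit 2) (nat_lit 0x10000d00060003a0000001000080000000000000000000000000000000) (nat_lit 0x0) (nat_lit 0x40002000020000000000000000000000000000000000000000000000000000) := D_31 (nat_lit 229) (nat_lit 209) (nat_lit 246) (nat_lit 3) (nat_lit 4) (nat_lit 12) (nat_lit 7) (nat_lit 7) (nat_lit 10) (by decide +kernel)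
theorem L89414 : W_31 (nat_lit 3) (nat_lit 0xd00060003a0000001000080000000000000000000000000000000) (nat_lit 0x0) (nat_lit 0x60003000020000000000000000000000000000000000000000000000000000) := T_31 (nat_lit 228) (nat_lit 245) (nat_lit 4) (nat_lit 7) (nat_lit 14) L89413 (by decide +kernel)
theorem L89415 : W_31 (nat_lit 4) (nat_lit 0xd0006000380000001000080000000000000000000000000000000) (nat_lit 0x0) (nat_lit 0x60003000020000000060000000000000000000000000000000000000000000) := T_31 (nat_lit 173) (nat_lit 174) (nat_lit 3) (nat_lit 3) (nat_lit 10) L89414 (by decide +kernel)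
theorem L89416 : W_31 (nat_lit 11) (nat_lit 0xc0006000380000001000080000000000000000000000000000000) (nat_lit 0x0) (nat_lit 0x10007e003700038000c00060013000800000000000000000000000000000000000) := Q_31 (nat_lit 208) (C_31 L80266 (C_31 L79257 (C_31 L89412 (C_31 L89415 N_31)))) (by decide +kernel)
theorem L89417 : W_31 (nat_lit 2) (nat_lit 0x780012000f0006800200018001000080000000000000000000000000000000) (nat_lit 0x0) (nat_lit 0x180004000000000000000000000000000000000000000000000000000000000000) := D_31 (nat_lit 260) (nat_lit 259) (nat_lit 242) (nat_lit 1) (nat_lit 8) (nat_lit 14) (nat_lit 7) (nat_lit 4) (nat_lit 11) (by decide +kernel)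
theorem L89418 : W_31 (nat_lit 3) (nat_lit 0x700012000f0006800200018001000080000000000000000000000000000000) (nat_lit 0x0) (nat_lit 0x18000c000400000000000000000000000000000000000000000000000000000000) := T_31 (nat_lit 243) (nat_lit 226) (nat_lit 0) (nat_lit 8) (nat_lit 14) L89417 (by decide +kernel)
theorem L89419 : W_31 (nat_lit 4) (nat_lit 0x300012000f0006800200018001000080000000000000000000000000000000) (nat_lit 0x0) (nat_lit 0x98004c000400000000000000000000000000000000000000000000000000000000) := T_31 (nat_lit 246) (nat_lit 263) (nat_lit 7) (nat_lit 7) (nat_lit 11) L89418 (by decide +kernel)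
theorem L89420 : W_31 (nat_lit 5) (nat_lit 0x200012000f0006800200018001000080000000000000000000000000000000) (nat_lit 0x0) (nat_lit 0xb8005c000400000000000000000000000000000000000000000000000000000000) := T_31 (nat_lit 244) (nat_lit 261) (nat_lit 5) (nat_lit 7) (nat_lit 11) L89419 (by decide +kernel)
theorem L89421 : W_31 (nat_lit 6) (nat_lit 0x12000f0006800200018001000080000000000000000000000000000000) (nat_lit 0x0) (nat_lit 0xf8007c000400000000000000000000000000000000000000000000000000000000) := T_31 (nat_lit 245) (nat_lit 262) (nat_lit 4) (nat_lit 7) (nat_lit 15) L89420 (by decide +kernel)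
theorem L89422 : W_31 (nat_lit 7) (nat_lit 0x12000f0006000200018001000080000000000000000000000000000000) (nat_lit 0x0) (nat_lit 0xf8007c000400000000c00000000000000000000000000000000000000000000000) := T_31 (nat_lit 191) (nat_lit 190) (nat_lit 0) (nat_lit 7) (nat_lit 12) L89421 (by decide +kernel)
theorem L89423 : W_31 (nat_lit 8) (nat_lit 0x2000f0006000200018001000080000000000000000000000000000000) (nat_lit 0x0) (nat_lit 0xf8007c003400000000c00000000000000000000000000000000000000000000000) := T_31 (nat_lit 228) (nat_lit 229) (nat_lit 3) (nat_lit 4) (nat_lit 12) L89422 (by decide +kernel)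
theorem L89424 : W_31 (nat_lit 9) (nat_lit 0xf0006000200018001000080000000000000000000000000000000) (nat_lit 0x0) (nat_lit 0xf8007c003700000000c00000000000000000000000000000000000000000000000) := T_31 (nat_lit 225) (nat_lit 224) (nat_lit 1) (nat_lit 7) (nat_lit 12) L89423 (by decide +kernel)
theorem L89425 : W_31 (nat_lit 10) (nat_lit 0xe0006000200018001000080000000000000000000000000000000) (nat_lit 0x0) (nat_lit 0xf8007c003700018000c00000000000000000000000000000000000000000000000) := T_31 (nat_lit 208) (nat_lit 207) (nat_lit 2) (nat_lit 3) (nat_lit 12) L89424 (by decide +kernel)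
theorem L89426 : W_31 (nat_lit 11) (nat_lit 0x60006000200018001000080000000000000000000000000000000) (nat_lit 0x0) (nat_lit 0xf8007c003700098000c00000000000400000000000000000000000000000000000) := T_31 (nat_lit 211) (nat_lit 142) (nat_lit 4) (nat_lit 7) (nat_lit 12) L89425 (by decide +kernel)
theorem L89427 : W_31 (nat_lit 12) (nat_lit 0x60006000200008001000080000000000000000000000000000000) (nat_lit 0x0) (nat_lit 0xf8007c003700098000c00000010000c00000000000000000000000000000000000) := T_31 (nat_lit 160) (nat_lit 143) (nat_lit 6) (nat_lit 7) (nat_lit 11) L89426 (by decide +kernel)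
theorem L89428 : W_31 (nat_lit 13) (nat_lit 0x60006000200000001000080000000000000000000000000000000) (nat_lit 0x0) (nat_lit 0xf8007c003700098000c0050001f000e00020001000000000000000000000000000) := Q_31 (nat_lit 159) (C_31 L84494 (C_31 L84490 (C_31 L89427 (C_31 L84488 N_31)))) (by decide +kernel)
theorem L89517 : W_31 (nat_lit 2) (nat_lit 0xc0007000380000001000080000000000000000000000000000000) (nat_lit 0x0) (nat_lit 0xc00400000000000000000000000000000000000000000000) := D_31 (nat_lit 191) (nat_lit 178) (nat_lit 190) (nat_lit 2) (nat_lit 4) (nat_lit 11) (nat_lit 3) (nat_lit 3) (nat_lit 11) (by decide +kernel)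
theorem L89518 : W_31 (nat_lit 2) (nat_lit 0x200000000d00078003c0010001000080000000000000000000000000000000) (nat_lit 0x0) (nat_lit 0x4000200000000000000004000000000000000000000000000000000000000) := D_31 (nat_lit 225) (nat_lit 242) (nat_lit 158) (nat_lit 6) (nat_lit 4) (nat_lit 14) (nat_lit 6) (nat_lit 4) (nat_lit 13) (by decide +kernel)
theorem L89520 : W_31 (nat_lit 2) (nat_lit 0x1c00040006000300008001400080000000000000000000000000000000) (nat_lit 0x0) (nat_lit 0x4000200010000000000000000000000000000000) := D_31 (nat_lit 141) (nat_lit 158) (nat_lit 124) (nat_lit 4) (nat_lit 6) (nat_lit 12) (nat_lit 4) (nat_lit 6) (nat_lit 11) (by decide +kernel)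
theorem L89521 : W_31 (nat_lit 3) (nat_lit 0x1c00040006000300008001000080000000000000000000000000000000) (nat_lit 0x0) (nat_lit 0x4000600030000000000000000000000000000000) := T_31 (nat_lit 142) (nat_lit 125) (nat_lit 7) (nat_lit 6) (nat_lit 7) L89520 (by decide +kernel)
theorem L89522 : W_31 (nat_lit 4) (nat_lit 0x1c00040006000300000001000080000000000000000000000000000000) (nat_lit 0x0) (nat_lit 0x8000000000000c000600030000000000000000000000000000000) := T_31 (nat_lit 159) (nat_lit 211) (nat_lit 7) (nat_lit 6) (nat_lit 9) L89521 (by decide +kernel)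
theorem L89523 : W_31 (nat_lit 5) (nat_lit 0xc00040006000300000001000080000000000000000000000000000000) (nat_lit 0x0) (nat_lit 0x2000100008000000000000c000600030000000000000000000000000000000) := T_31 (nat_lit 228) (nat_lit 245) (nat_lit 7) (nat_lit 6) (nat_lit 10) L89522 (by decide +kernel)
theorem L89524 : W_31 (nat_lit 6) (nat_lit 0x800040006000300000001000080000000000000000000000000000000) (nat_lit 0x0) (nat_lit 0x2800140008000000000000c000600030000000000000000000000000000000) := T_31 (nat_lit 226) (nat_lit 243) (nat_lit 5) (nat_lit 6) (nat_lit 10) L89523 (by decide +kernel)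
theorem L89525 : W_31 (nat_lit 7) (nat_lit 0x40006000300000001000080000000000000000000000000000000) (nat_lit 0x0) (nat_lit 0x38001c0008000000000000c000600030000000000000000000000000000000) := T_31 (nat_lit 227) (nat_lit 244) (nat_lit 6) (nat_lit 6) (nat_lit 14) L89524 (by decide +kernel)
theorem L89527 : W_31 (nat_lit 15) (nat_lit 0x40006000200000001000080000000000000000000000000000000) (nat_lit 0x0) (nat_lit 0x1fc00ff00698039c01de008f000600030000000000000000000000000000000) := Q_31 (nat_lit 176) (C_31 L89525 (C_31 L89107 (C_31 L88951 (C_31 L89526 N_31)))) (by decide +kernel)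
theorem L89534 : W_31 (nat_lit 7) (nat_lit 0x40007000200000001000080000000000000000000000000000000) (nat_lit 0x0) (nat_lit 0x20009c008c001e0014000a00000000000000000000000000000000000) := Q_31 (nat_lit 191) (C_31 L79724 (C_31 L79617 (C_31 L89528 (C_31 L89533 N_31)))) (by decide +kernel)
theorem L89584 : W_31 (nat_lit 14) (nat_lit 0x40006000200000001000080000000000000000000000000000000) (nat_lit 0x0) (nat_lit 0xe000f200e9c079c01de001e000e00118000000000000000000000000000000) := Q_31 (nat_lit 192) (C_31 L84431 (C_31 L89534 (C_31 L80212 (C_31 L89535 (C_31 L89583 N_31))))) (by decide +kernel)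
theorem L89585 : W_31 (nat_lit 16) (nat_lit 0x6000200000001000080000000000000000000000000000000) (nat_lit 0x0) (nat_lit 0x1fc00ff00edc079c01df009f000f80138000000000000000000000000000000) := Q_31 (nat_lit 210) (C_31 L80043 (C_31 L89193 (C_31 L79529 (C_31 L89527 (C_31 L79564 (C_31 L89584 N_31)))))) (by decide +kernel)
theorem L89605 : W_31 (nat_lit 2) (nat_lit 0x6000f000200008001000080000000000000000000000000000000) (nat_lit 0x0) (nat_lit 0x400000000000100000000400000000000000000000000000000000000) := D_31 (nat_lit 176) (nat_lit 142) (nat_lit 226) (nat_lit 5) (nat_lit 6) (nat_lit 8) (nat_lit 5) (nat_lit 6) (nat_lit 9) (by decide +kernel)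
theorem L89613 : W_31 (nat_lit 2) (nat_lit 0x60007000600000001800080000000000000000000000000000000) (nat_lit 0x0) (nat_lit 0x18000800000000000000000000000000000000000000000000) := D_31 (nat_lit 195) (nat_lit 196) (nat_lit 179) (nat_lit 1) (nat_lit 9) (nat_lit 11) (nat_lit 2) (nat_lit 5) (nat_lit 11) (by decide +kernel)
theorem L89614 : W_31 (nat_lit 3) (nat_lit 0x60006000600000001800080000000000000000000000000000000) (nat_lit 0x0) (nat_lit 0x19800800000000000000000000000000000000000000000000) := T_31 (nat_lit 192) (nat_lit 191) (nat_lit 2) (nat_lit 4) (nat_lit 11) L89613 (by decide +kernel)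
theorem L89615 : W_31 (nat_lit 4) (nat_lit 0x60006000600000001000080000000000000000000000000000000) (nat_lit 0x0) (nat_lit 0x19800800010000800000000000000000000000000000000000) := T_31 (nat_lit 143) (nat_lit 160) (nat_lit 6) (nat_lit 7) (nat_lit 11) L89614 (by decide +kernel)
theorem L89616 : W_31 (nat_lit 2) (nat_lit 0x60016800f00000001000080000000000000000000000000000000) (nat_lit 0x0) (nat_lit 0x40000000000000000c000000000000000000000000000000000000000) := D_31 (nat_lit 159) (nat_lit 158) (nat_lit 226) (nat_lit 0) (nat_lit 9) (nat_lit 10) (nat_lit 5) (nat_lit 6) (nat_lit 9) (by decide +kernel)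
theorem L89617 : W_31 (nat_lit 3) (nat_lit 0x60016800e00000001000080000000000000000000000000000000) (nat_lit 0x0) (nat_lit 0x40000002000010000c000000000000000000000000000000000000000) := T_31 (nat_lit 176) (nat_lit 197) (nat_lit 3) (nat_lit 6) (nat_lit 10) L89616 (by decide +kernel)
theorem L89618 : W_31 (nat_lit 4) (nat_lit 0x60016800600000001000080000000000000000000000000000000) (nat_lit 0x0) (nat_lit 0x40000002000190000c000000000000000000000000000000000000000) := T_31 (nat_lit 179) (nat_lit 180) (nat_lit 1) (nat_lit 10) (nat_lit 10) L89617 (by decide +kernel)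
theorem L89619 : W_31 (nat_lit 5) (nat_lit 0x60016000600000001000080000000000000000000000000000000) (nat_lit 0x0) (nat_lit 0x40000002180190000c000000000000000000000000000000000000000) := T_31 (nat_lit 191) (nat_lit 192) (nat_lit 2) (nat_lit 4) (nat_lit 11) L89618 (by decide +kernel)
theorem L89620 : W_31 (nat_lit 6) (nat_lit 0x60006000600000001000080000000000000000000000000000000) (nat_lit 0x0) (nat_lit 0x40000003980190000c000000000000000000000000000000000000000) := T_31 (nat_lit 196) (nat_lit 195) (nat_lit 1) (nat_lit 9) (nat_lit 11) L89619 (by decide +kernel)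
theorem L89621 : W_31 (nat_lit 2) (nat_lit 0x60006000e00000001000080000000000000000000000000000000) (nat_lit 0x0) (nat_lit 0x1800100000000000000000000000000000000000000000000) := D_31 (nat_lit 192) (nat_lit 191) (nat_lit 176) (nat_lit 2) (nat_lit 4) (nat_lit 11) (nat_lit 1) (nat_lit 9) (nat_lit 10) (by decide +kernel)
theorem L89622 : W_31 (nat_lit 3) (nat_lit 0x60006000600000001000080000000000000000000000000000000) (nat_lit 0x0) (nat_lit 0x1801900000000000000000000000000000000000000000000) := T_31 (nat_lit 179) (nat_lit 180) (nat_lit 1) (nat_lit 10) (nat_lit 10) L89621 (by decide +kernel)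
theorem L89623 : W_31 (nat_lit 2) (nat_lit 0x60006800700008001000080000000000000000000000000000000) (nat_lit 0x0) (nat_lit 0x1000080000000000000000400000000000000000000000000000000000) := D_31 (nat_lit 211) (nat_lit 228) (nat_lit 142) (nat_lit 7) (nat_lit 6) (nat_lit 9) (nat_lit 7) (nat_lit 6) (nat_lit 8) (by decide +kernel)
theorem L89624 : W_31 (nat_lit 3) (nat_lit 0x60006800600008001000080000000000000000000000000000000) (nat_lit 0x0) (nat_lit 0x1400080000000100000000400000000000000000000000000000000000) := T_31 (nat_lit 176) (nat_lit 226) (nat_lit 5) (nat_lit 6) (nat_lit 9) L89623 (by decide +kernel)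
theorem L89625 : W_31 (nat_lit 4) (nat_lit 0x60006000600008001000080000000000000000000000000000000) (nat_lit 0x0) (nat_lit 0x1400080001800100000000400000000000000000000000000000000000) := T_31 (nat_lit 191) (nat_lit 192) (nat_lit 2) (nat_lit 4) (nat_lit 11) L89624 (by decide +kernel)
theorem L89626 : W_31 (nat_lit 2) (nat_lit 0x6001700060001c001000080000000000000000000000000000000) (nat_lit 0x0) (nat_lit 0x80000000080000000400000000000000000000000000000000000) := D_31 (nat_lit 142) (nat_lit 211) (nat_lit 175) (nat_lit 4) (nat_lit 7) (nat_lit 12) (nat_lit 6) (nat_lit 5) (nat_lit 12) (by decide +kernel)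
theorem L89627 : W_31 (nat_lit 3) (nat_lit 0x60017000600018001000080000000000000000000000000000000) (nat_lit 0x0) (nat_lit 0x80000000080006000400000000000000000000000000000000000) := T_31 (nat_lit 158) (nat_lit 157) (nat_lit 3) (nat_lit 4) (nat_lit 9) L89626 (by decide +kernel)
theorem L89628 : W_31 (nat_lit 4) (nat_lit 0x60017000600008001000080000000000000000000000000000000) (nat_lit 0x0) (nat_lit 0x80000000080016000c00000000000000000000000000000000000) := T_31 (nat_lit 160) (nat_lit 143) (nat_lit 6) (nat_lit 7) (nat_lit 11) L89627 (by decide +kernel)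
theorem L89629 : W_31 (nat_lit 5) (nat_lit 0x60007000600008001000080000000000000000000000000000000) (nat_lit 0x0) (nat_lit 0x80018000080016000c00000000000000000000000000000000000) := T_31 (nat_lit 196) (nat_lit 195) (nat_lit 1) (nat_lit 9) (nat_lit 11) L89628 (by decide +kernel)
theorem L89630 : W_31 (nat_lit 6) (nat_lit 0x60006000600008001000080000000000000000000000000000000) (nat_lit 0x0) (nat_lit 0x80019800080016000c00000000000000000000000000000000000) := T_31 (nat_lit 192) (nat_lit 191) (nat_lit 2) (nat_lit 4) (nat_lit 11) L89629 (by decide +kernel)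
theorem L89631 : W_31 (nat_lit 2) (nat_lit 0x100006000600070000c001800080000000000000000000000000000000) (nat_lit 0x0) (nat_lit 0x80003000000000000000000000000000000000000000) := D_31 (nat_lit 157) (nat_lit 156) (nat_lit 175) (nat_lit 3) (nat_lit 3) (nat_lit 9) (nat_lit 0) (nat_lit 8) (nat_lit 10) (by decide +kernel)
theorem L89632 : W_31 (nat_lit 3) (nat_lit 0x1000060006000700008001800080000000000000000000000000000000) (nat_lit 0x0) (nat_lit 0x80007000200000000000000000000000000000000000) := T_31 (nat_lit 158) (nat_lit 141) (nat_lit 4) (nat_lit 6) (nat_lit 12) L89631 (by decide +kernel)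
theorem L89633 : W_31 (nat_lit 4) (nat_lit 0x60006000700008001800080000000000000000000000000000000) (nat_lit 0x0) (nat_lit 0x1000080000000080007000200000000000000000000000000000000000) := T_31 (nat_lit 228) (nat_lit 211) (nat_lit 7) (nat_lit 6) (nat_lit 9) L89632 (by decide +kernel)
theorem L89634 : W_31 (nat_lit 5) (nat_lit 0x60006000600008001800080000000000000000000000000000000) (nat_lit 0x0) (nat_lit 0x1400080000000180007000200000000000000000000000000000000000) := T_31 (nat_lit 176) (nat_lit 226) (nat_lit 5) (nat_lit 6) (nat_lit 9) L89633 (by decide +kernel)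
theorem L89635 : W_31 (nat_lit 6) (nat_lit 0x60006000600008001000080000000000000000000000000000000) (nat_lit 0x0) (nat_lit 0x1400080000000180017000a00000000000000000000000000000000000) := T_31 (nat_lit 143) (nat_lit 160) (nat_lit 6) (nat_lit 7) (nat_lit 11) L89634 (by decide +kernel)
theorem L89636 : W_31 (nat_lit 7) (nat_lit 0x60006000600000001000080000000000000000000000000000000) (nat_lit 0x0) (nat_lit 0x140008001980018001f000e00130000000000000000000000000000000) := Q_31 (nat_lit 159) (C_31 L89325 (C_31 L89625 (C_31 L89630 (C_31 L89635 N_31)))) (by decide +kernel)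
theorem L89637 : W_31 (nat_lit 8) (nat_lit 0x60006000200000001000080000000000000000000000000000000) (nat_lit 0x0) (nat_lit 0x1400080039801d8001f000e00130000000000000000000000000000000) := Q_31 (nat_lit 178) (C_31 L89615 (C_31 L89620 (C_31 L89622 (C_31 L89636 (C_31 L89343 N_31))))) (by decide +kernel)
theorem L89638 : W_31 (nat_lit 14) (nat_lit 0x40006000200000001000080000000000000000000000000000000) (nat_lit 0x0) (nat_lit 0xf8007c0037000b8039c01d8001f000e00130001000000000000000000000000000) := Q_31 (nat_lit 209) (C_31 L89103 (C_31 L89428 (C_31 L85379 (C_31 L89637 N_31)))) (by decide +kernel)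
theorem L89639 : W_31 (nat_lit 15) (nat_lit 0x6000200000001000080000000000000000000000000000000) (nat_lit 0x0) (nat_lit 0xf8007c007f800f8039c01d8001f000e00130001000000000000000000000000000) := Q_31 (nat_lit 210) (C_31 L85341 (C_31 L80043 (C_31 L10108 (C_31 L89602 (C_31 L89638 N_31))))) (by decide +kernel)
theorem L89647 : W_31 (nat_lit 2) (nat_lit 0x6000f000280008001800080000000000000000000000000000000) (nat_lit 0x0) (nat_lit 0x400000000000100000000400000000000000000000000000000000000) := D_31 (nat_lit 176) (nat_lit 226) (nat_lit 142) (nat_lit 6) (nat_lit 5) (nat_lit 13) (nat_lit 5) (nat_lit 6) (nat_lit 8) (by decide +kernel)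
theorem L89648 : W_31 (nat_lit 3) (nat_lit 0x4000f000280008001800080000000000000000000000000000000) (nat_lit 0x0) (nat_lit 0x400030000000100000000400000000000000000000000000000000000) := T_31 (nat_lit 209) (nat_lit 208) (nat_lit 1) (nat_lit 8) (nat_lit 11) L89647 (by decide +kernel)
theorem L89649 : W_31 (nat_lit 4) (nat_lit 0x4000f000200008001800080000000000000000000000000000000) (nat_lit 0x0) (nat_lit 0x4000300000001c0000000400000000000000000000000000000000000) := T_31 (nat_lit 175) (nat_lit 174) (nat_lit 0) (nat_lit 8) (nat_lit 11) L89648 (by decide +kernel)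
theorem L89650 : W_31 (nat_lit 5) (nat_lit 0x4000f000200008001000080000000000000000000000000000000) (nat_lit 0x0) (nat_lit 0x4000300000001c0010000c00000000000000000000000000000000000) := T_31 (nat_lit 143) (nat_lit 160) (nat_lit 6) (nat_lit 7) (nat_lit 11) L89649 (by decide +kernel)
theorem L89651 : W_31 (nat_lit 3) (nat_lit 0x4000f000200008001000080000000000000000000000000000000) (nat_lit 0x0) (nat_lit 0x400030000000100000000400000000000000000000000000000000000) := T_31 (nat_lit 209) (nat_lit 208) (nat_lit 1) (nat_lit 8) (nat_lit 11) L89605 (by decide +kernel)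
theorem L89652 : W_31 (nat_lit 2) (nat_lit 0x4000f00060001c001400080000000000000000000000000000000) (nat_lit 0x0) (nat_lit 0x200000000c0000000000000000000000000000000000000000000) := D_31 (nat_lit 175) (nat_lit 174) (nat_lit 209) (nat_lit 0) (nat_lit 8) (nat_lit 11) (nat_lit 6) (nat_lit 5) (nat_lit 12) (by decide +kernel)
theorem L89653 : W_31 (nat_lit 3) (nat_lit 0x4000f00060001c001000080000000000000000000000000000000) (nat_lit 0x0) (nat_lit 0xa00000000c0000000400000000000000000000000000000000000) := T_31 (nat_lit 142) (nat_lit 211) (nat_lit 4) (nat_lit 7) (nat_lit 12) L89652 (by decide +kernel)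
theorem L89654 : W_31 (nat_lit 4) (nat_lit 0x4000f000600018001000080000000000000000000000000000000) (nat_lit 0x0) (nat_lit 0xa00000000c0006000400000000000000000000000000000000000) := T_31 (nat_lit 158) (nat_lit 157) (nat_lit 3) (nat_lit 4) (nat_lit 9) L89653 (by decide +kernel)
theorem L89655 : W_31 (nat_lit 5) (nat_lit 0x4000f000600008001000080000000000000000000000000000000) (nat_lit 0x0) (nat_lit 0xa00000000c0016000c00000000000000000000000000000000000) := T_31 (nat_lit 160) (nat_lit 143) (nat_lit 6) (nat_lit 7) (nat_lit 11) L89654 (by decide +kernel)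
theorem L89656 : W_31 (nat_lit 6) (nat_lit 0x4000f000200008001000080000000000000000000000000000000) (nat_lit 0x0) (nat_lit 0xa0000000cc0016000c00000000000000000000000000000000000) := T_31 (nat_lit 178) (nat_lit 179) (nat_lit 2) (nat_lit 5) (nat_lit 11) L89655 (by decide +kernel)
theorem L89657 : W_31 (nat_lit 2) (nat_lit 0x400040006000f00068001a001000080000000000000000000000000000000) (nat_lit 0x0) (nat_lit 0x180008000000000000000000000000000000000000000000000000000000000000) := D_31 (nat_lit 243) (nat_lit 260) (nat_lit 259) (nat_lit 6) (nat_lit 5) (nat_lit 15) (nat_lit 5) (nat_lit 5) (nat_lit 11) (by decide +kernel)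
theorem L89658 : W_31 (nat_lit 3) (nat_lit 0x40006000f00068001a001000080000000000000000000000000000000) (nat_lit 0x0) (nat_lit 0x18000c000200000000000000000000000000000000000000000000000000000000) := T_31 (nat_lit 242) (nat_lit 225) (nat_lit 5) (nat_lit 5) (nat_lit 10) L89657 (by decide +kernel)
theorem L89659 : W_31 (nat_lit 4) (nat_lit 0x6000f00068001a001000080000000000000000000000000000000) (nat_lit 0x0) (nat_lit 0x18000c000600000000000100000000000000000000000000000000000000000000) := T_31 (nat_lit 226) (nat_lit 176) (nat_lit 6) (nat_lit 5) (nat_lit 13) L89658 (by decide +kernel)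
theorem L89660 : W_31 (nat_lit 5) (nat_lit 0x4000f00068001a001000080000000000000000000000000000000) (nat_lit 0x0) (nat_lit 0x18000c000600030000000100000000000000000000000000000000000000000000) := T_31 (nat_lit 209) (nat_lit 208) (nat_lit 1) (nat_lit 8) (nat_lit 11) L89659 (by decide +kernel)
theorem L89661 : W_31 (nat_lit 6) (nat_lit 0x4000f000680018001000080000000000000000000000000000000) (nat_lit 0x0) (nat_lit 0x18000c000600030000000100006000000000000000000000000000000000000000) := T_31 (nat_lit 157) (nat_lit 158) (nat_lit 3) (nat_lit 4) (nat_lit 9) L89660 (by decide +kernel)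
theorem L89662 : W_31 (nat_lit 7) (nat_lit 0x4000f000680008001000080000000000000000000000000000000) (nat_lit 0x0) (nat_lit 0x18000c000600030000000100016000800000000000000000000000000000000000) := T_31 (nat_lit 160) (nat_lit 143) (nat_lit 6) (nat_lit 7) (nat_lit 11) L89661 (by decide +kernel)
theorem L89663 : W_31 (nat_lit 8) (nat_lit 0x4000f000280008001000080000000000000000000000000000000) (nat_lit 0x0) (nat_lit 0x18000c000600030000000d00016000800000000000000000000000000000000000) := T_31 (nat_lit 178) (nat_lit 179) (nat_lit 2) (nat_lit 5) (nat_lit 11) L89662 (by decide +kernel)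
theorem L89664 : W_31 (nat_lit 9) (nat_lit 0x4000f000200008001000080000000000000000000000000000000) (nat_lit 0x0) (nat_lit 0x18000c000600030000000dc0016000800000000000000000000000000000000000) := T_31 (nat_lit 175) (nat_lit 174) (nat_lit 0) (nat_lit 8) (nat_lit 11) L89663 (by decide +kernel)
theorem L89665 : W_31 (nat_lit 2) (nat_lit 0xc000f00068001a001000080000000000000000000000000000000) (nat_lit 0x0) (nat_lit 0x20001000000000000100000000000000000000000000000000000000000000) := D_31 (nat_lit 228) (nat_lit 176) (nat_lit 245) (nat_lit 7) (nat_lit 6) (nat_lit 9) (nat_lit 6) (nat_lit 7) (nat_lit 14) (by decide +kernel)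
theorem L89666 : W_31 (nat_lit 3) (nat_lit 0x4000f00068001a001000080000000000000000000000000000000) (nat_lit 0x0) (nat_lit 0x20001000080000000100000000400000000000000000000000000000000000) := T_31 (nat_lit 211) (nat_lit 142) (nat_lit 4) (nat_lit 7) (nat_lit 12) L89665 (by decide +kernel)
theorem L89667 : W_31 (nat_lit 4) (nat_lit 0x4000f000680018001000080000000000000000000000000000000) (nat_lit 0x0) (nat_lit 0x20001000080000000100006000400000000000000000000000000000000000) := T_31 (nat_lit 157) (nat_lit 158) (nat_lit 3) (nat_lit 4) (nat_lit 9) L89666 (by decide +kernel)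
theorem L89668 : W_31 (nat_lit 5) (nat_lit 0x4000f000680008001000080000000000000000000000000000000) (nat_lit 0x0) (nat_lit 0x20001000080000000100016000c00000000000000000000000000000000000) := T_31 (nat_lit 160) (nat_lit 143) (nat_lit 6) (nat_lit 7) (nat_lit 11) L89667 (by decide +kernel)
theorem L89669 : W_31 (nat_lit 6) (nat_lit 0x4000f000280008001000080000000000000000000000000000000) (nat_lit 0x0) (nat_lit 0x20001000080000000d00016000c00000000000000000000000000000000000) := T_31 (nat_lit 178) (nat_lit 179) (nat_lit 2) (nat_lit 5) (nat_lit 11) L89668 (by decide +kernel)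
theorem L89670 : W_31 (nat_lit 7) (nat_lit 0x4000f000200008001000080000000000000000000000000000000) (nat_lit 0x0) (nat_lit 0x20001000080000000dc0016000c00000000000000000000000000000000000) := T_31 (nat_lit 175) (nat_lit 174) (nat_lit 0) (nat_lit 8) (nat_lit 11) L89669 (by decide +kernel)
theorem L89671 : W_31 (nat_lit 10) (nat_lit 0x4000f000200000001000080000000000000000000000000000000) (nat_lit 0x0) (nat_lit 0x18002c0016000b0000000dc001e000c00000000000000000000000000000000000) := Q_31 (nat_lit 159) (C_31 L89650 (C_31 L89651 (C_31 L89656 (C_31 L89664 (C_31 L89670 N_31))))) (by decide +kernel)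
theorem L89672 : W_31 (nat_lit 11) (nat_lit 0x4000e000200000001000080000000000000000000000000000000) (nat_lit 0x0) (nat_lit 0x18002c0016000b0001e00de001e000c00000000000000000000000000000000000) := Q_31 (nat_lit 192) (C_31 L89645 (C_31 L10064 (C_31 L89671 N_31))) (by decide +kernel)
theorem L89673 : W_31 (nat_lit 2) (nat_lit 0x4001e000f00008001800080000000000000000000000000000000) (nat_lit 0x0) (nat_lit 0x1000080000000000000000400000000000000000000000000000000000) := D_31 (nat_lit 211) (nat_lit 228) (nat_lit 142) (nat_lit 7) (nat_lit 6) (nat_lit 9) (nat_lit 7) (nat_lit 6) (nat_lit 8) (by decide +kernel)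
theorem L89674 : W_31 (nat_lit 3) (nat_lit 0x4001e000f00000001800080000000000000000000000000000000) (nat_lit 0x0) (nat_lit 0x100008000000000000c000400000000000000000000000000000000000) := T_31 (nat_lit 159) (nat_lit 158) (nat_lit 0) (nat_lit 9) (nat_lit 10) L89673 (by decide +kernel)
theorem L89675 : W_31 (nat_lit 4) (nat_lit 0x4001e000b00000001800080000000000000000000000000000000) (nat_lit 0x0) (nat_lit 0x100008000100040000c000400000000000000000000000000000000000) := T_31 (nat_lit 178) (nat_lit 192) (nat_lit 2) (nat_lit 5) (nat_lit 11) L89674 (by decide +kernel)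
theorem L89676 : W_31 (nat_lit 5) (nat_lit 0x4001e000300000001800080000000000000000000000000000000) (nat_lit 0x0) (nat_lit 0x1000080001001c0000c000400000000000000000000000000000000000) := T_31 (nat_lit 179) (nat_lit 180) (nat_lit 2) (nat_lit 6) (nat_lit 11) L89675 (by decide +kernel)
theorem L89677 : W_31 (nat_lit 6) (nat_lit 0x4001e000200000001800080000000000000000000000000000000) (nat_lit 0x0) (nat_lit 0x1000080001001d8000c000400000000000000000000000000000000000) := T_31 (nat_lit 176) (nat_lit 175) (nat_lit 0) (nat_lit 9) (nat_lit 11) L89676 (by decide +kernel)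
theorem L89678 : W_31 (nat_lit 7) (nat_lit 0x4001e000200000001000080000000000000000000000000000000) (nat_lit 0x0) (nat_lit 0x1000080001001d8001c000c00000000000000000000000000000000000) := T_31 (nat_lit 143) (nat_lit 160) (nat_lit 6) (nat_lit 7) (nat_lit 11) L89677 (by decide +kernel)
theorem L89679 : W_31 (nat_lit 8) (nat_lit 0x4000e000200000001000080000000000000000000000000000000) (nat_lit 0x0) (nat_lit 0x1000080031003d8001c000c00000000000000000000000000000000000) := Q_31 (nat_lit 196) (C_31 L84803 (C_31 L10248 (C_31 L10062 (C_31 L89678 N_31)))) (by decide +kernel)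
theorem L89680 : W_31 (nat_lit 12) (nat_lit 0x40006000200000001000080000000000000000000000000000000) (nat_lit 0x0) (nat_lit 0x18002c0016000b8039e03de001e000c00000000000000000000000000000000000) := Q_31 (nat_lit 195) (C_31 L85401 (C_31 L84575 (C_31 L89672 (C_31 L89679 N_31)))) (by decide +kernel)
theorem L89681 : W_31 (nat_lit 13) (nat_lit 0x6000200000001000080000000000000000000000000000000) (nat_lit 0x0) (nat_lit 0x58003c003f000f8039e03df001e000c00000000000000000000000000000000000) := Q_31 (nat_lit 210) (C_31 L89184 (C_31 L85341 (C_31 L80043 (C_31 L89640 (C_31 L89680 N_31))))) (by decide +kernel)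
theorem L89682 : W_31 (nat_lit 2) (nat_lit 0x400040006000f00068000c001800080000000000000000000000000000000) (nat_lit 0x0) (nat_lit 0x180008000000000000000000000000000000000000000000000000000000000000) := D_31 (nat_lit 243) (nat_lit 260) (nat_lit 259) (nat_lit 6) (nat_lit 5) (nat_lit 15) (nat_lit 5) (nat_lit 5) (nat_lit 11) (by decide +kernel)
theorem L89683 : W_31 (nat_lit 3) (nat_lit 0x40006000f00068000c001800080000000000000000000000000000000) (nat_lit 0x0) (nat_lit 0x18000c000200000000000000000000000000000000000000000000000000000000) := T_31 (nat_lit 242) (nat_lit 225) (nat_lit 5) (nat_lit 5) (nat_lit 10) L89682 (by decide +kernel)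
theorem L89684 : W_31 (nat_lit 4) (nat_lit 0x6000f00068000c001800080000000000000000000000000000000) (nat_lit 0x0) (nat_lit 0x18000c000600000000000100000000000000000000000000000000000000000000) := T_31 (nat_lit 226) (nat_lit 176) (nat_lit 6) (nat_lit 5) (nat_lit 13) L89683 (by decide +kernel)
theorem L89685 : W_31 (nat_lit 5) (nat_lit 0x6000f000680004001800080000000000000000000000000000000) (nat_lit 0x0) (nat_lit 0x18000c000600000000000100008000400000000000000000000000000000000000) := T_31 (nat_lit 159) (nat_lit 142) (nat_lit 6) (nat_lit 5) (nat_lit 12) L89684 (by decide +kernel)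
theorem L89686 : W_31 (nat_lit 6) (nat_lit 0x4000f000680004001800080000000000000000000000000000000) (nat_lit 0x0) (nat_lit 0x18000c000600030000000100008000400000000000000000000000000000000000) := T_31 (nat_lit 209) (nat_lit 208) (nat_lit 1) (nat_lit 8) (nat_lit 11) L89685 (by decide +kernel)
theorem L89687 : W_31 (nat_lit 7) (nat_lit 0x4000f000280004001800080000000000000000000000000000000) (nat_lit 0x0) (nat_lit 0x18000c000600030000000d00008000400000000000000000000000000000000000) := T_31 (nat_lit 178) (nat_lit 179) (nat_lit 2) (nat_lit 5) (nat_lit 11) L89686 (by decide +kernel)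
theorem L89688 : W_31 (nat_lit 8) (nat_lit 0x4000f000280000001800080000000000000000000000000000000) (nat_lit 0x0) (nat_lit 0x18000c000600030000000d0000c000600000000000000000000000000000000000) := T_31 (nat_lit 158) (nat_lit 141) (nat_lit 7) (nat_lit 5) (nat_lit 8) L89687 (by decide +kernel)
theorem L89689 : W_31 (nat_lit 9) (nat_lit 0x4000f000280000001000080000000000000000000000000000000) (nat_lit 0x0) (nat_lit 0x18000c000600030000000d0001c000e00000000000000000000000000000000000) := T_31 (nat_lit 143) (nat_lit 160) (nat_lit 6) (nat_lit 7) (nat_lit 11) L89688 (by decide +kernel)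
theorem L89690 : W_31 (nat_lit 10) (nat_lit 0x4000f000200000001000080000000000000000000000000000000) (nat_lit 0x0) (nat_lit 0x18000c000600030000000dc001c000e00000000000000000000000000000000000) := T_31 (nat_lit 175) (nat_lit 174) (nat_lit 0) (nat_lit 8) (nat_lit 11) L89689 (by decide +kernel)
theorem L89691 : W_31 (nat_lit 11) (nat_lit 0x40007000200000001000080000000000000000000000000000000) (nat_lit 0x0) (nat_lit 0x18000c000600eb0038001dc001c000e00000000000000000000000000000000000) := Q_31 (nat_lit 195) (C_31 L89562 (C_31 L89582 (C_31 L80509 (C_31 L89690 (C_31 L10152 N_31))))) (by decide +kernel)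
theorem L89692 : W_31 (nat_lit 12) (nat_lit 0x40006000200000001000080000000000000000000000000000000) (nat_lit 0x0) (nat_lit 0x18000c000600ebc039f01dfc01c000e00000000000000000000000000000000000) := Q_31 (nat_lit 192) (C_31 L89535 (C_31 L84933 (C_31 L89534 (C_31 L80212 (C_31 L89691 N_31))))) (by decide +kernel)
theorem L89693 : W_31 (nat_lit 13) (nat_lit 0x6000200000001000080000000000000000000000000000000) (nat_lit 0x0) (nat_lit 0x58003c003f00efc039f01dfc01c000e00000000000000000000000000000000000) := Q_31 (nat_lit 210) (C_31 L89640 (C_31 L85341 (C_31 L89184 (C_31 L84557 (C_31 L80043 (C_31 L89692 N_31)))))) (by decide +kernel)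
theorem L89734 : W_31 (nat_lit 15) (nat_lit 0x6000200000001000080000000000000000000000000000000) (nat_lit 0x0) (nat_lit 0x4000f400fb00efc079e01df001f000e00138000000000000000000000000000000) := Q_31 (nat_lit 210) (C_31 L89184 (C_31 L89584 (C_31 L80043 (C_31 L89733 (C_31 L79564 N_31))))) (by decide +kernel)
theorem L89735 : W_31 (nat_lit 17) (nat_lit 0x4000200000001000080000000000000000000000000000000) (nat_lit 0x0) (nat_lit 0x5000fa03ff00ff80efe07bf07dfc0df800fc013e001400020000000000000000000000) := Q_31 (nat_lit 193) (C_31 L80214 (C_31 L89001 (C_31 L89109 (C_31 L89113 (C_31 L85271 (C_31 L89126 (C_31 L89194 (C_31 L89346 (C_31 L89347 (C_31 L89403 (C_31 L89505 (C_31 L89585 (C_31 L89639 (C_31 L89681 (C_31 L89693 (C_31 L89726 (C_31 L89734 N_31))))))))))))))))) (by decide +kernel)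
theorem L89824 : W_31 (nat_lit 10) (nat_lit 0x4000e000200000001000080000000000000000000000000000000) (nat_lit 0x0) (nat_lit 0x1000480066003b8001e001f0010000800000000000000000000000000000000000) := Q_31 (nat_lit 192) (C_31 L84580 (C_31 L89645 (C_31 L79544 (C_31 L85397 (C_31 L10243 (C_31 L79594 N_31)))))) (by decide +kernel)
theorem L89825 : W_31 (nat_lit 11) (nat_lit 0x40006000200000001000080000000000000000000000000000000) (nat_lit 0x0) (nat_lit 0x1000480066007b8039e039f0050000800000000000000000000000000000000000) := Q_31 (nat_lit 195) (C_31 L89824 (C_31 L84575 (C_31 L85401 (C_31 L79608 N_31)))) (by decide +kernel)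
theorem L89826 : W_31 (nat_lit 12) (nat_lit 0x6000200000001000080000000000000000000000000000000) (nat_lit 0x0) (nat_lit 0xb0007800ff007f8039e039f005c000800000000000000000000000000000000000) := Q_31 (nat_lit 210) (C_31 L89640 (C_31 L85341 (C_31 L80061 (C_31 L80043 (C_31 L89825 N_31))))) (by decide +kernel)
theorem L89846 : W_31 (nat_lit 5) (nat_lit 0xc0006000300000001800080000000000000000000000000000000) (nat_lit 0x0) (nat_lit 0x1000000000000c8000f000200000000000000000000000000000000000) := T_31 (nat_lit 159) (nat_lit 228) (nat_lit 7) (nat_lit 6) (nat_lit 9) L79249 (by decide +kernel)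
theorem L89847 : W_31 (nat_lit 6) (nat_lit 0xc0006000300000001000080000000000000000000000000000000) (nat_lit 0x0) (nat_lit 0x1000000000000c8001f000a00000000000000000000000000000000000) := T_31 (nat_lit 143) (nat_lit 160) (nat_lit 6) (nat_lit 7) (nat_lit 11) L89846 (by decide +kernel)
theorem L89848 : W_31 (nat_lit 2) (nat_lit 0x200000000c00060007c0002001800080000000000000000000000000000000) (nat_lit 0x0) (nat_lit 0x1001800000000000000000000000000000000000000000000) := D_31 (nat_lit 179) (nat_lit 192) (nat_lit 180) (nat_lit 1) (nat_lit 9) (nat_lit 10) (nat_lit 1) (nat_lit 10) (nat_lit 10) (by decide +kernel)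
theorem L89849 : W_31 (nat_lit 3) (nat_lit 0x200000000c00060003c0002001800080000000000000000000000000000000) (nat_lit 0x0) (nat_lit 0x1001c00004000000000000000000000000000000000000000) := T_31 (nat_lit 178) (nat_lit 158) (nat_lit 0) (nat_lit 8) (nat_lit 10) L89848 (by decide +kernel)
theorem L89850 : W_31 (nat_lit 4) (nat_lit 0x200000000c00060003c0000001800080000000000000000000000000000000) (nat_lit 0x0) (nat_lit 0x1001c00007000000000000000000000000000000000000000) := T_31 (nat_lit 157) (nat_lit 156) (nat_lit 0) (nat_lit 7) (nat_lit 10) L89849 (by decide +kernel)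
theorem L89851 : W_31 (nat_lit 5) (nat_lit 0x200000000c00060003c0000001000080000000000000000000000000000000) (nat_lit 0x0) (nat_lit 0x1001c00017000800000000000000000000000000000000000) := T_31 (nat_lit 143) (nat_lit 160) (nat_lit 6) (nat_lit 7) (nat_lit 11) L89850 (by decide +kernel)
theorem L89852 : W_31 (nat_lit 6) (nat_lit 0x200000000c0006000380000001000080000000000000000000000000000000) (nat_lit 0x0) (nat_lit 0x1001c60017000800000000000000000000000000000000000) := T_31 (nat_lit 174) (nat_lit 173) (nat_lit 3) (nat_lit 3) (nat_lit 10) L89851 (by decide +kernel)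
theorem L89853 : W_31 (nat_lit 7) (nat_lit 0xc0006000380000001000080000000000000000000000000000000) (nat_lit 0x0) (nat_lit 0x20001000000001001c60017000800000000000000000000000000000000000) := T_31 (nat_lit 245) (nat_lit 228) (nat_lit 4) (nat_lit 7) (nat_lit 14) L89852 (by decide +kernel)
theorem L89854 : W_31 (nat_lit 2) (nat_lit 0x10000d0007800380000001a00080000000000000000000000000000000) (nat_lit 0x0) (nat_lit 0x40002000020000000000000000000000000000000000000000000000000000) := D_31 (nat_lit 229) (nat_lit 209) (nat_lit 246) (nat_lit 3) (nat_lit 4) (nat_lit 12) (nat_lit 7) (nat_lit 7) (nat_lit 10) (by decide +kernel)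
theorem L89855 : W_31 (nat_lit 3) (nat_lit 0xd0007800380000001a00080000000000000000000000000000000) (nat_lit 0x0) (nat_lit 0x60003000020000000000000000000000000000000000000000000000000000) := T_31 (nat_lit 228) (nat_lit 245) (nat_lit 4) (nat_lit 7) (nat_lit 14) L89854 (by decide +kernel)
theorem L89856 : W_31 (nat_lit 4) (nat_lit 0xc0007800380000001a00080000000000000000000000000000000) (nat_lit 0x0) (nat_lit 0x60003000038000000000000000000000000000000000000000000000000000) := T_31 (nat_lit 208) (nat_lit 207) (nat_lit 1) (nat_lit 7) (nat_lit 11) L89855 (by decide +kernel)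
theorem L89857 : W_31 (nat_lit 5) (nat_lit 0xc0007800380000001800080000000000000000000000000000000) (nat_lit 0x0) (nat_lit 0x60003000038000000000004000200000000000000000000000000000000000) := T_31 (nat_lit 141) (nat_lit 158) (nat_lit 7) (nat_lit 5) (nat_lit 8) L89856 (by decide +kernel)
theorem L89858 : W_31 (nat_lit 6) (nat_lit 0xc0007000380000001800080000000000000000000000000000000) (nat_lit 0x0) (nat_lit 0x60003000038000c00000004000200000000000000000000000000000000000) := T_31 (nat_lit 191) (nat_lit 190) (nat_lit 3) (nat_lit 3) (nat_lit 11) L89857 (by decide +kernel)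
theorem L89859 : W_31 (nat_lit 7) (nat_lit 0xc0007000380000001000080000000000000000000000000000000) (nat_lit 0x0) (nat_lit 0x60003000038000c00000014000a00000000000000000000000000000000000) := T_31 (nat_lit 143) (nat_lit 160) (nat_lit 6) (nat_lit 7) (nat_lit 11) L89858 (by decide +kernel)
theorem L89860 : W_31 (nat_lit 8) (nat_lit 0xc0006000380000001000080000000000000000000000000000000) (nat_lit 0x0) (nat_lit 0x60003000038001c00c00016000a00000000000000000000000000000000000) := Q_31 (nat_lit 192) (C_31 L89517 (C_31 L89859 (C_31 L79238 N_31))) (by decide +kernel)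
theorem L89861 : W_31 (nat_lit 3) (nat_lit 0x200000000c00078003c0010001000080000000000000000000000000000000) (nat_lit 0x0) (nat_lit 0x4000200018000000000004000000000000000000000000000000000000000) := T_31 (nat_lit 208) (nat_lit 207) (nat_lit 1) (nat_lit 7) (nat_lit 11) L89518 (by decide +kernel)
theorem L89862 : W_31 (nat_lit 4) (nat_lit 0x200000000c00068003c0010001000080000000000000000000000000000000) (nat_lit 0x0) (nat_lit 0x4000200018001000400004000000000000000000000000000000000000000) := T_31 (nat_lit 192) (nat_lit 178) (nat_lit 2) (nat_lit 4) (nat_lit 11) L89861 (by decide +kernel)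
theorem L89863 : W_31 (nat_lit 5) (nat_lit 0x200000000c00060003c0010001000080000000000000000000000000000000) (nat_lit 0x0) (nat_lit 0x4000200018001c00400004000000000000000000000000000000000000000) := T_31 (nat_lit 191) (nat_lit 190) (nat_lit 1) (nat_lit 7) (nat_lit 10) L89862 (by decide +kernel)
theorem L89864 : W_31 (nat_lit 6) (nat_lit 0xc00060003c0010001000080000000000000000000000000000000) (nat_lit 0x0) (nat_lit 0x24001200018001c00400004000000000000000000000000000000000000000) := T_31 (nat_lit 245) (nat_lit 228) (nat_lit 4) (nat_lit 7) (nat_lit 14) L89863 (by decide +kernel)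
theorem L89865 : W_31 (nat_lit 7) (nat_lit 0xc0006000380010001000080000000000000000000000000000000) (nat_lit 0x0) (nat_lit 0x24001200018001c00460004000000000000000000000000000000000000000) := T_31 (nat_lit 174) (nat_lit 173) (nat_lit 3) (nat_lit 3) (nat_lit 10) L89864 (by decide +kernel)
theorem L89866 : W_31 (nat_lit 8) (nat_lit 0xc0006000380000001000080000000000000000000000000000000) (nat_lit 0x0) (nat_lit 0x24001200018001c00460014000800000000000000000000000000000000000) := T_31 (nat_lit 160) (nat_lit 143) (nat_lit 6) (nat_lit 7) (nat_lit 11) L89865 (by decide +kernel)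
theorem L89867 : W_31 (nat_lit 12) (nat_lit 0xc0006000300000001000080000000000000000000000000000000) (nat_lit 0x0) (nat_lit 0x10007e003700038001c01ce0017000a00010000000000000000000000000000000) := Q_31 (nat_lit 175) (C_31 L89416 (C_31 L89853 (C_31 L79262 (C_31 L89860 (C_31 L89866 N_31))))) (by decide +kernel)
theorem L89868 : W_31 (nat_lit 2) (nat_lit 0x2000f0007000700014001000080000000000000000000000000000000) (nat_lit 0x0) (nat_lit 0xa000200000000000000000000000000000000000) := D_31 (nat_lit 159) (nat_lit 141) (nat_lit 157) (nat_lit 4) (nat_lit 6) (nat_lit 12) (nat_lit 3) (nat_lit 4) (nat_lit 9) (by decide +kernel)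
theorem L89869 : W_31 (nat_lit 3) (nat_lit 0x2000f0007000700010001000080000000000000000000000000000000) (nat_lit 0x0) (nat_lit 0x8000e000200000000000000000000000000000000000) := T_31 (nat_lit 158) (nat_lit 175) (nat_lit 5) (nat_lit 5) (nat_lit 9) L89868 (by decide +kernel)
theorem L89870 : W_31 (nat_lit 4) (nat_lit 0xf0007000700010001000080000000000000000000000000000000) (nat_lit 0x0) (nat_lit 0x30000000000008000e000200000000000000000000000000000000000) := T_31 (nat_lit 225) (nat_lit 224) (nat_lit 1) (nat_lit 7) (nat_lit 12) L89869 (by decide +kernel)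
theorem L89871 : W_31 (nat_lit 5) (nat_lit 0xe0007000700010001000080000000000000000000000000000000) (nat_lit 0x0) (nat_lit 0x30001800000008000e000200000000000000000000000000000000000) := T_31 (nat_lit 208) (nat_lit 207) (nat_lit 2) (nat_lit 3) (nat_lit 12) L89870 (by decide +kernel)
theorem L89872 : W_31 (nat_lit 6) (nat_lit 0xe0007000300010001000080000000000000000000000000000000) (nat_lit 0x0) (nat_lit 0x300018000000c8000e000200000000000000000000000000000000000) := T_31 (nat_lit 178) (nat_lit 179) (nat_lit 1) (nat_lit 9) (nat_lit 10) L89871 (by decide +kernel)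
theorem L89873 : W_31 (nat_lit 7) (nat_lit 0xe0007000300000001000080000000000000000000000000000000) (nat_lit 0x0) (nat_lit 0x300018000000c8001e000a00000000000000000000000000000000000) := T_31 (nat_lit 160) (nat_lit 143) (nat_lit 6) (nat_lit 7) (nat_lit 11) L89872 (by decide +kernel)
theorem L89874 : W_31 (nat_lit 8) (nat_lit 0xc0007000300000001000080000000000000000000000000000000) (nat_lit 0x0) (nat_lit 0x8000c000700038000000c8001e000a00000000000000000000000000000000000) := Q_31 (nat_lit 209) (C_31 L79222 (C_31 L79243 (C_31 L89873 N_31))) (by decide +kernel)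
theorem L89875 : W_31 (nat_lit 10) (nat_lit 0xc0006000300000001000080000000000000000000000000000000) (nat_lit 0x0) (nat_lit 0x8000c000700038001c00ce001e000a00000000000000000000000000000000000) := Q_31 (nat_lit 192) (C_31 L89874 (C_31 L79235 (C_31 L78929 N_31))) (by decide +kernel)
theorem L89876 : W_31 (nat_lit 13) (nat_lit 0xc0006000200000001000080000000000000000000000000000000) (nat_lit 0x0) (nat_lit 0x18007e003700038001c01de001f000a00010000000000000000000000000000000) := Q_31 (nat_lit 176) (C_31 L89847 (C_31 L12215 (C_31 L89867 (C_31 L89875 N_31)))) (by decide +kernel)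
theorem L89882 : W_31 (nat_lit 2) (nat_lit 0x200006000f0006800300010001000080000000000000000000000000000000) (nat_lit 0x0) (nat_lit 0x100008000000000000000040000000000000000000000000000000000000000000) := D_31 (nat_lit 243) (nat_lit 260) (nat_lit 174) (nat_lit 6) (nat_lit 5) (nat_lit 15) (nat_lit 7) (nat_lit 4) (nat_lit 10) (by decide +kernel)
theorem L89883 : W_31 (nat_lit 3) (nat_lit 0x200002000f0006800300010001000080000000000000000000000000000000) (nat_lit 0x0) (nat_lit 0x100008000400100000000040000000000000000000000000000000000000000000) := T_31 (nat_lit 226) (nat_lit 212) (nat_lit 1) (nat_lit 8) (nat_lit 12) L89882 (by decide +kernel)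
theorem L89884 : W_31 (nat_lit 4) (nat_lit 0x200002000f0006000300010001000080000000000000000000000000000000) (nat_lit 0x0) (nat_lit 0x100008000400100000c00040000000000000000000000000000000000000000000) := T_31 (nat_lit 191) (nat_lit 190) (nat_lit 0) (nat_lit 7) (nat_lit 12) L89883 (by decide +kernel)
theorem L89885 : W_31 (nat_lit 5) (nat_lit 0x200000000f0006000300010001000080000000000000000000000000000000) (nat_lit 0x0) (nat_lit 0x100008000700100000c00040000000000000000000000000000000000000000000) := T_31 (nat_lit 225) (nat_lit 224) (nat_lit 1) (nat_lit 7) (nat_lit 12) L89884 (by decide +kernel)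
theorem L89886 : W_31 (nat_lit 6) (nat_lit 0x200000000e0006000300010001000080000000000000000000000000000000) (nat_lit 0x0) (nat_lit 0x100008000700118000c00040000000000000000000000000000000000000000000) := T_31 (nat_lit 208) (nat_lit 207) (nat_lit 2) (nat_lit 3) (nat_lit 12) L89885 (by decide +kernel)
theorem L89887 : W_31 (nat_lit 7) (nat_lit 0xe0006000300010001000080000000000000000000000000000000) (nat_lit 0x0) (nat_lit 0x100028001700118000c00040000000000000000000000000000000000000000000) := T_31 (nat_lit 245) (nat_lit 228) (nat_lit 4) (nat_lit 7) (nat_lit 14) L89886 (by decide +kernel)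
theorem L89888 : W_31 (nat_lit 8) (nat_lit 0xe0006000300000001000080000000000000000000000000000000) (nat_lit 0x0) (nat_lit 0x100028001700118000c00040010000800000000000000000000000000000000000) := T_31 (nat_lit 160) (nat_lit 143) (nat_lit 6) (nat_lit 7) (nat_lit 11) L89887 (by decide +kernel)
theorem L89889 : W_31 (nat_lit 2) (nat_lit 0x200002001f0006000300000001800080000000000000000000000000000000) (nat_lit 0x0) (nat_lit 0x600001000000000000000000000000000000000000000000000000) := D_31 (nat_lit 213) (nat_lit 214) (nat_lit 192) (nat_lit 0) (nat_lit 10) (nat_lit 12) (nat_lit 0) (nat_lit 9) (nat_lit 12) (by decide +kernel)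
theorem L89890 : W_31 (nat_lit 3) (nat_lit 0x200002000f0006000300000001800080000000000000000000000000000000) (nat_lit 0x0) (nat_lit 0x400700001000000000000000000000000000000000000000000000000) := T_31 (nat_lit 212) (nat_lit 226) (nat_lit 1) (nat_lit 8) (nat_lit 12) L89889 (by decide +kernel)
theorem L89891 : W_31 (nat_lit 4) (nat_lit 0x2000f0006000300000001800080000000000000000000000000000000) (nat_lit 0x0) (nat_lit 0x20001400700001000000000000000000000000000000000000000000000000) := T_31 (nat_lit 245) (nat_lit 228) (nat_lit 4) (nat_lit 7) (nat_lit 14) L89890 (by decide +kernel)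
theorem L89892 : W_31 (nat_lit 5) (nat_lit 0xf0006000300000001800080000000000000000000000000000000) (nat_lit 0x0) (nat_lit 0x20001700700001000000000000000000000000000000000000000000000000) := T_31 (nat_lit 225) (nat_lit 224) (nat_lit 1) (nat_lit 7) (nat_lit 12) L89891 (by decide +kernel)
theorem L89893 : W_31 (nat_lit 6) (nat_lit 0xf0006000300000001000080000000000000000000000000000000) (nat_lit 0x0) (nat_lit 0x20001700700001000000010000800000000000000000000000000000000000) := T_31 (nat_lit 143) (nat_lit 160) (nat_lit 6) (nat_lit 7) (nat_lit 11) L89892 (by decide +kernel)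
theorem L89894 : W_31 (nat_lit 7) (nat_lit 0xe0006000300000001000080000000000000000000000000000000) (nat_lit 0x0) (nat_lit 0x20001700718001000000010000800000000000000000000000000000000000) := T_31 (nat_lit 208) (nat_lit 207) (nat_lit 2) (nat_lit 3) (nat_lit 12) L89893 (by decide +kernel)
theorem L89895 : W_31 (nat_lit 2) (nat_lit 0x200000000f0006800300000001000080000000000000000000000000000000) (nat_lit 0x0) (nat_lit 0x100001000400000000000000000000000000000000000000000000) := D_31 (nat_lit 192) (nat_lit 212) (nat_lit 178) (nat_lit 3) (nat_lit 4) (nat_lit 11) (nat_lit 2) (nat_lit 4) (nat_lit 11) (by decide +kernel)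
theorem L89896 : W_31 (nat_lit 3) (nat_lit 0x200000000f0006000300000001000080000000000000000000000000000000) (nat_lit 0x0) (nat_lit 0x100001c00400000000000000000000000000000000000000000000) := T_31 (nat_lit 191) (nat_lit 190) (nat_lit 0) (nat_lit 7) (nat_lit 12) L89895 (by decide +kernel)
theorem L89897 : W_31 (nat_lit 4) (nat_lit 0xf0006000300000001000080000000000000000000000000000000) (nat_lit 0x0) (nat_lit 0x20001000100001c00400000000000000000000000000000000000000000000) := T_31 (nat_lit 245) (nat_lit 228) (nat_lit 4) (nat_lit 7) (nat_lit 14) L89896 (by decide +kernel)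
theorem L89898 : W_31 (nat_lit 5) (nat_lit 0xe0006000300000001000080000000000000000000000000000000) (nat_lit 0x0) (nat_lit 0x20001000118001c00400000000000000000000000000000000000000000000) := T_31 (nat_lit 208) (nat_lit 207) (nat_lit 2) (nat_lit 3) (nat_lit 12) L89897 (by decide +kernel)
theorem L89899 : W_31 (nat_lit 2) (nat_lit 0x2000f0006800300010001000080000000000000000000000000000000) (nat_lit 0x0) (nat_lit 0x400100001000000000000000000000000000000000000000000000000) := D_31 (nat_lit 212) (nat_lit 226) (nat_lit 192) (nat_lit 1) (nat_lit 8) (nat_lit 12) (nat_lit 3) (nat_lit 4) (nat_lit 11) (by decide +kernel)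
theorem L89900 : W_31 (nat_lit 3) (nat_lit 0x2000f0006000300010001000080000000000000000000000000000000) (nat_lit 0x0) (nat_lit 0x400100001c00000000000000000000000000000000000000000000000) := T_31 (nat_lit 191) (nat_lit 190) (nat_lit 0) (nat_lit 7) (nat_lit 12) L89899 (by decide +kernel)
theorem L89901 : W_31 (nat_lit 4) (nat_lit 0xf0006000300010001000080000000000000000000000000000000) (nat_lit 0x0) (nat_lit 0x700100001c00000000000000000000000000000000000000000000000) := T_31 (nat_lit 225) (nat_lit 224) (nat_lit 1) (nat_lit 7) (nat_lit 12) L89900 (by decide +kernel)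
theorem L89902 : W_31 (nat_lit 5) (nat_lit 0xe0006000300010001000080000000000000000000000000000000) (nat_lit 0x0) (nat_lit 0x700118001c00000000000000000000000000000000000000000000000) := T_31 (nat_lit 208) (nat_lit 207) (nat_lit 2) (nat_lit 3) (nat_lit 12) L89901 (by decide +kernel)
theorem L89903 : W_31 (nat_lit 6) (nat_lit 0xe0006000300000001000080000000000000000000000000000000) (nat_lit 0x0) (nat_lit 0x700118001c00000010000800000000000000000000000000000000000) := T_31 (nat_lit 160) (nat_lit 143) (nat_lit 6) (nat_lit 7) (nat_lit 11) L89902 (by decide +kernel)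
theorem L89904 : W_31 (nat_lit 2) (nat_lit 0x200002000f0007800300000001000080000000000000000000000000000000) (nat_lit 0x0) (nat_lit 0x80004000000000000000080000000000000000000000000000000000000000000) := D_31 (nat_lit 242) (nat_lit 259) (nat_lit 175) (nat_lit 6) (nat_lit 4) (nat_lit 15) (nat_lit 6) (nat_lit 4) (nat_lit 14) (by decide +kernel)
theorem L89905 : W_31 (nat_lit 3) (nat_lit 0x200002000f0006800300000001000080000000000000000000000000000000) (nat_lit 0x0) (nat_lit 0x80004000000000001000480000000000000000000000000000000000000000000) := T_31 (nat_lit 192) (nat_lit 178) (nat_lit 2) (nat_lit 4) (nat_lit 11) L89904 (by decide +kernel)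
theorem L89906 : W_31 (nat_lit 4) (nat_lit 0x200000000f0006800300000001000080000000000000000000000000000000) (nat_lit 0x0) (nat_lit 0x80004000300000001000480000000000000000000000000000000000000000000) := T_31 (nat_lit 225) (nat_lit 224) (nat_lit 1) (nat_lit 7) (nat_lit 12) L89905 (by decide +kernel)
theorem L89907 : W_31 (nat_lit 5) (nat_lit 0x200000000f0006000300000001000080000000000000000000000000000000) (nat_lit 0x0) (nat_lit 0x80004000300000001c00480000000000000000000000000000000000000000000) := T_31 (nat_lit 191) (nat_lit 190) (nat_lit 0) (nat_lit 7) (nat_lit 12) L89906 (by decide +kernel)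
theorem L89908 : W_31 (nat_lit 6) (nat_lit 0xf0006000300000001000080000000000000000000000000000000) (nat_lit 0x0) (nat_lit 0x80024001300000001c00480000000000000000000000000000000000000000000) := T_31 (nat_lit 245) (nat_lit 228) (nat_lit 4) (nat_lit 7) (nat_lit 14) L89907 (by decide +kernel)
theorem L89909 : W_31 (nat_lit 7) (nat_lit 0xe0006000300000001000080000000000000000000000000000000) (nat_lit 0x0) (nat_lit 0x80024001300018001c00480000000000000000000000000000000000000000000) := T_31 (nat_lit 208) (nat_lit 207) (nat_lit 2) (nat_lit 3) (nat_lit 12) L89908 (by decide +kernel)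
theorem L89910 : W_31 (nat_lit 2) (nat_lit 0xe0007000300000001000080000000000000000000000000000000) (nat_lit 0x0) (nat_lit 0x300000800000000000000000000000000000000000000000000000) := D_31 (nat_lit 212) (nat_lit 213) (nat_lit 191) (nat_lit 0) (nat_lit 9) (nat_lit 12) (nat_lit 3) (nat_lit 4) (nat_lit 11) (by decide +kernel)
theorem L89911 : W_31 (nat_lit 2) (nat_lit 0xe0007000300000001000080000000000000000000000000000000) (nat_lit 0x0) (nat_lit 0x800c00000000000000000000000000000000000000000000) := D_31 (nat_lit 178) (nat_lit 179) (nat_lit 191) (nat_lit 1) (nat_lit 9) (nat_lit 10) (nat_lit 2) (nat_lit 4) (nat_lit 11) (by decide +kernel)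
theorem L89912 : W_31 (nat_lit 5) (nat_lit 0xe0006000300000001000080000000000000000000000000000000) (nat_lit 0x0) (nat_lit 0x8000600300001800c00000000000000000000000000000000000000000000) := Q_31 (nat_lit 192) (C_31 L78851 (C_31 L89910 (C_31 L89911 N_31))) (by decide +kernel)
theorem L89913 : W_31 (nat_lit 9) (nat_lit 0xc0006000300000001000080000000000000000000000000000000) (nat_lit 0x0) (nat_lit 0x18002c001700738001c00cc0010000800000000000000000000000000000000000) := Q_31 (nat_lit 209) (C_31 L89888 (C_31 L89894 (C_31 L89898 (C_31 L89903 (C_31 L89909 (C_31 L89912 N_31)))))) (by decide +kernel)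
theorem L89914 : W_31 (nat_lit 11) (nat_lit 0xc0006000200000001000080000000000000000000000000000000) (nat_lit 0x0) (nat_lit 0x18002c001700738001c00de001f000a00000000000000000000000000000000000) := Q_31 (nat_lit 176) (C_31 L89847 (C_31 L89875 (C_31 L12215 (C_31 L89913 N_31)))) (by decide +kernel)
theorem L89915 : W_31 (nat_lit 14) (nat_lit 0x40006000200000001000080000000000000000000000000000000) (nat_lit 0x0) (nat_lit 0x58007e00f7007b8031c01de001f000a00010000000000000000000000000000000) := Q_31 (nat_lit 211) (C_31 L80256 (C_31 L78919 (C_31 L89845 (C_31 L89876 (C_31 L89914 N_31))))) (by decide +kernel)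
theorem L89916 : W_31 (nat_lit 15) (nat_lit 0x6000200000001000080000000000000000000000000000000) (nat_lit 0x0) (nat_lit 0x800078007e00ff807fc031c01df001f000b00010000000000000000000000000000000) := Q_31 (nat_lit 210) (C_31 L85341 (C_31 L80043 (C_31 L10108 (C_31 L79721 (C_31 L89915 N_31))))) (by decide +kernel)
theorem L89924 : W_31 (nat_lit 14) (nat_lit 0x6000200000001000080000000000000000000000000000000) (nat_lit 0x0) (nat_lit 0xf801fc00ff80ffe079e03cf0056000b00000000000000000000000000000000000) := Q_31 (nat_lit 210) (C_31 L89184 (C_31 L89186 (C_31 L80061 (C_31 L10108 (C_31 L85339 (C_31 L80125 N_31)))))) (by decide +kernel)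
theorem L89925 : W_31 (nat_lit 17) (nat_lit 0x4000200000001000080000000000000000000000000000000) (nat_lit 0x0) (nat_lit 0x8003f807ff01ff83ffe0fbe07df00df004b00010000000000000000000000000000000) := Q_31 (nat_lit 193) (C_31 L85436 (C_31 L89826 (C_31 L85429 (C_31 L89916 (C_31 L84436 (C_31 L89923 (C_31 L89924 (C_31 L85410 (C_31 L80214 (C_31 L80484 (C_31 L80498 (C_31 L84549 (C_31 L80512 N_31))))))))))))) (by decide +kernel)
end Crest.Agent.Helper32.Snaky.R1_0
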