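import Crest.Agent.Helper32.Snaky.Gen.R1_0_p30
set_option autoImplicit false
set_option maxRecDepth 100000
set_option linter.all false
set_option Elab.async false
namespace Crest.Agent.Helper32.Snaky.R1_0
@[reducible] def W_32 (d M Bz Z : Nat) : Prop := Crest.Agent.Helper32.Snaky.Wins (nat_lit 17) d M Bz Z
theorem D_32 {d M Bz Z : Nat} (m t1 t2 o1 x1 y1 o2 x2 y2 : Nat) (h : Crest.Agent.Helper32.Snaky.chkDoubleC (nat_lit 17) d M Bz Z m t1 t2 o1 x1 y1 o2 x2 y2 = true) : W_32 d M Bz Z := Crest.Agent.Helper32.Snaky.doubleC m t1 t2 o1 x1 y1 o2 x2 y2 h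
theorem T_32 {d M Bz Z cd cM cBz cZ : Nat} (m t o x y : Nat) (child : W_32 cd cM cBz cZ) (h : Crest.Agent.Helper32.Snaky.chkThreatC (nat_lit 17) d M Bz Z cd cM cBz cZ m t o x y = true) : W_32 d M Bz Z := Crest.Agent.Helper32.Snaky.threatC m t o x y child h
theorem Q_32 {d M Bz Z : Nat} (m : Nat) {l : List Crest.Agent.Helper32.Snaky.Spec} (kids : Crest.Agent.Helper32.Snaky.AllWins (nat_lit 17) l) (h : Crest.Agent.Helper32.Snaky.chkQuiet d M Bz Z m l = true) : W_32 d M Bz Z := Crest.Agent.Helper32.Snaky.quiet m kids h
theorem C_32 {cd cM cBz cZ : Nat} {l : List Crest.Agent.Helper32.Snaky.Spec} (h : W_32 cd cM cBz cZ) (hl : Crest.Agent.Helper32.Snaky.AllWins (nat_lit 17) l) : Crest.Agent.Helper32.Snaky.AllWins (nat_lit 17) ((cd, cM, cBz, cZ) :: l) := Crest.Agent.Helper32.Snaky.AllWins.cons h hl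
theorem N_32 : Crest.Agent.Helper32.Snaky.AllWins (nat_lit 17) [] := Crest.Agent.Helper32.Snaky.AllWins.nil
theorem L78502 : W_32 (nat_lit 6) (nat_lit 0x80004000200000001000080000000000000000000000000000000) (nat_lit 0x0) (nat_lit 0x40003800140000000100018000c00000000000000000000000000000000000) := T_32 (nat_lit 160) (nat_lit 143) (nat_lit 6) (nat_lit 7) (nat_lit 11) L5487 (by decide +kernel)
theorem L78537 : W_32 (nat_lit 2) (nat_lit 0x340070000c0006000200000001000080000000000000000000000000000000) (nat_lit 0x0) (nat_lit 0x130000000000000000000000000000000000000000000000000000) := D_32 (nat_lit 209) (nat_lit 208) (nat_lit 212) (nat_lit 3) (nat_lit 4) (nat_lit 12) (nat_lit 3) (nat_lit 5) (nat_lit 12) (by decide +kernel)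
theorem L78538 : W_32 (nat_lit 3) (nat_lit 0x340030000c0006000200000001000080000000000000000000000000000000) (nat_lit 0x0) (nat_lit 0xc000130000000000000000000000000000000000000000000000000000) := T_32 (nat_lit 230) (nat_lit 231) (nat_lit 1) (nat_lit 10) (nat_lit 13) L78537 (by decide +kernel)
theorem L78539 : W_32 (nat_lit 4) (nat_lit 0x34003000080006000200000001000080000000000000000000000000000000) (nat_lit 0x0) (nat_lit 0x40000000c000170000000000000000000000000000000000000000000000000000) := T_32 (nat_lit 210) (nat_lit 262) (nat_lit 4) (nat_lit 7) (nat_lit 15) L78538 (by decide +kernel)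
theorem L78540 : W_32 (nat_lit 5) (nat_lit 0x30003000080006000200000001000080000000000000000000000000000000) (nat_lit 0x0) (nat_lit 0x40000c00c000170000000000000000000000000000000000000000000000000000) := T_32 (nat_lit 242) (nat_lit 243) (nat_lit 2) (nat_lit 4) (nat_lit 14) L78539 (by decide +kernel)
theorem L78541 : W_32 (nat_lit 6) (nat_lit 0x30003000080004000200000001000080000000000000000000000000000000) (nat_lit 0x0) (nat_lit 0x40000c00c000170002000100000000000000000000000000000000000000000000) := T_32 (nat_lit 193) (nat_lit 176) (nat_lit 4) (nat_lit 7) (nat_lit 14) L78540 (by decide +kernel)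
theorem L78542 : W_32 (nat_lit 7) (nat_lit 0x10003000080004000200000001000080000000000000000000000000000000) (nat_lit 0x0) (nat_lit 0x60002c00c000170002000100000000000000000000000000000000000000000000) := T_32 (nat_lit 245) (nat_lit 261) (nat_lit 5) (nat_lit 7) (nat_lit 11) L78541 (by decide +kernel)
theorem L78543 : W_32 (nat_lit 8) (nat_lit 0x3000080004000200000001000080000000000000000000000000000000) (nat_lit 0x0) (nat_lit 0x60003c00c800170002000100000000000000000000000000000000000000000000) := T_32 (nat_lit 244) (nat_lit 227) (nat_lit 5) (nat_lit 7) (nat_lit 10) L78542 (by decide +kernel)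
theorem L78544 : W_32 (nat_lit 9) (nat_lit 0x1000080004000200000001000080000000000000000000000000000000) (nat_lit 0x0) (nat_lit 0x60007c00e800170002000100000000000000000000000000000000000000000000) := T_32 (nat_lit 229) (nat_lit 246) (nat_lit 7) (nat_lit 7) (nat_lit 10) L78543 (by decide +kernel)
theorem L78575 : W_32 (nat_lit 2) (nat_lit 0x78002d0006000200000001000080000000000000000000000000000000) (nat_lit 0x0) (nat_lit 0x400100001000000000000000000000000000000000000000000000000) := D_32 (nat_lit 212) (nat_lit 226) (nat_lit 192) (nat_lit 2) (nat_lit 5) (nat_lit 13) (nat_lit 0) (nat_lit 9) (nat_lit 12) (by decide +kernel)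
theorem L78576 : W_32 (nat_lit 3) (nat_lit 0x78000d0006000200000001000080000000000000000000000000000000) (nat_lit 0x0) (nat_lit 0x400700001000000000000000000000000000000000000000000000000) := T_32 (nat_lit 213) (nat_lit 214) (nat_lit 2) (nat_lit 6) (nat_lit 13) L78575 (by decide +kernel)
theorem L78577 : W_32 (nat_lit 4) (nat_lit 0x70000d0006000200000001000080000000000000000000000000000000) (nat_lit 0x0) (nat_lit 0x10000c00700001000000000000000000000000000000000000000000000000) := T_32 (nat_lit 227) (nat_lit 244) (nat_lit 6) (nat_lit 6) (nat_lit 14) L78576 (by decide +kernel)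
theorem L78578 : W_32 (nat_lit 5) (nat_lit 0x30000d0006000200000001000080000000000000000000000000000000) (nat_lit 0x0) (nat_lit 0x1000cc00700001000000000000000000000000000000000000000000000000) := T_32 (nat_lit 230) (nat_lit 231) (nat_lit 0) (nat_lit 10) (nat_lit 13) L78577 (by decide +kernel)
theorem L78579 : W_32 (nat_lit 6) (nat_lit 0x30000c0006000200000001000080000000000000000000000000000000) (nat_lit 0x0) (nat_lit 0x1000cc00730001000000000000000000000000000000000000000000000000) := T_32 (nat_lit 208) (nat_lit 209) (nat_lit 3) (nat_lit 4) (nat_lit 12) L78578 (by decide +kernel)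
theorem L78580 : W_32 (nat_lit 7) (nat_lit 0x10000c0006000200000001000080000000000000000000000000000000) (nat_lit 0x0) (nat_lit 0x5000ec00730001000000000000000000000000000000000000000000000000) := T_32 (nat_lit 229) (nat_lit 246) (nat_lit 7) (nat_lit 7) (nat_lit 10) L78579 (by decide +kernel)
theorem L78581 : W_32 (nat_lit 2) (nat_lit 0xbc000c00060003a0000001000080000000000000000000000000000000) (nat_lit 0x0) (nat_lit 0x200300000000000000000000000000000000000000000000000000000) := D_32 (nat_lit 212) (nat_lit 213) (nat_lit 225) (nat_lit 2) (nat_lit 5) (nat_lit 13) (nat_lit 2) (nat_lit 4) (nat_lit 13) (by decide +kernel)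
theorem L78582 : W_32 (nat_lit 3) (nat_lit 0xb8000c00060003a0000001000080000000000000000000000000000000) (nat_lit 0x0) (nat_lit 0x8000600300000000000000000000000000000000000000000000000000000) := T_32 (nat_lit 226) (nat_lit 243) (nat_lit 5) (nat_lit 6) (nat_lit 10) L78581 (by decide +kernel)
theorem L78583 : W_32 (nat_lit 4) (nat_lit 0xb8000c0006000380000001000080000000000000000000000000000000) (nat_lit 0x0) (nat_lit 0x8000600300000000060000000000000000000000000000000000000000000) := T_32 (nat_lit 173) (nat_lit 174) (nat_lit 3) (nat_lit 3) (nat_lit 10) L78582 (by decide +kernel)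
theorem L78584 : W_32 (nat_lit 5) (nat_lit 0xb8000c0006000300000001000080000000000000000000000000000000) (nat_lit 0x0) (nat_lit 0x80006003000000000e0004000000000000000000000000000000000000000) := T_32 (nat_lit 175) (nat_lit 158) (nat_lit 4) (nat_lit 6) (nat_lit 13) L78583 (by decide +kernel)
theorem L78585 : W_32 (nat_lit 6) (nat_lit 0xb8000c0006000200000001000080000000000000000000000000000000) (nat_lit 0x0) (nat_lit 0x80006003000000001e000c000000000000000000000000000000000000000) := T_32 (nat_lit 176) (nat_lit 159) (nat_lit 7) (nat_lit 6) (nat_lit 9) L78584 (by decide +kernel)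
theorem L78586 : W_32 (nat_lit 7) (nat_lit 0xb0000c0006000200000001000080000000000000000000000000000000) (nat_lit 0x0) (nat_lit 0x18000e003000000001e000c000000000000000000000000000000000000000) := T_32 (nat_lit 227) (nat_lit 244) (nat_lit 6) (nat_lit 6) (nat_lit 14) L78585 (by decide +kernel)
theorem L78587 : W_32 (nat_lit 8) (nat_lit 0x30000c0006000200000001000080000000000000000000000000000000) (nat_lit 0x0) (nat_lit 0x1800ce003000000001e000c000000000000000000000000000000000000000) := T_32 (nat_lit 231) (nat_lit 230) (nat_lit 0) (nat_lit 10) (nat_lit 13) L78586 (by decide +kernel)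
theorem L78588 : W_32 (nat_lit 9) (nat_lit 0x10000c0006000200000001000080000000000000000000000000000000) (nat_lit 0x0) (nat_lit 0x5800ee003000000001e000c000000000000000000000000000000000000000) := T_32 (nat_lit 229) (nat_lit 246) (nat_lit 7) (nat_lit 7) (nat_lit 10) L78587 (by decide +kernel)
theorem L78591 : W_32 (nat_lit 10) (nat_lit 0x1000080006000200000001000080000000000000000000000000000000) (nat_lit 0x0) (nat_lit 0x5800ef007700010001e000c000000000000000000000000000000000000000) := Q_32 (nat_lit 210) (C_32 L78574 (C_32 L78580 (C_32 L6334 (C_32 L78588 (C_32 L78590 N_32))))) (by decide +kernel)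
theorem L78592 : W_32 (nat_lit 2) (nat_lit 0x78000d0007000200000001000080000000000000000000000000000000) (nat_lit 0x0) (nat_lit 0x700000000000000000000000000000000000000000000000000000) := D_32 (nat_lit 213) (nat_lit 212) (nat_lit 214) (nat_lit 0) (nat_lit 9) (nat_lit 12) (nat_lit 2) (nat_lit 6) (nat_lit 13) (by decide +kernel)
theorem L78593 : W_32 (nat_lit 3) (nat_lit 0x70000d0007000200000001000080000000000000000000000000000000) (nat_lit 0x0) (nat_lit 0x10000800700000000000000000000000000000000000000000000000000000) := T_32 (nat_lit 227) (nat_lit 244) (nat_lit 6) (nat_lit 6) (nat_lit 14) L78592 (by decide +kernel)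
theorem L78594 : W_32 (nat_lit 4) (nat_lit 0x30000d0007000200000001000080000000000000000000000000000000) (nat_lit 0x0) (nat_lit 0x1000c800700000000000000000000000000000000000000000000000000000) := T_32 (nat_lit 230) (nat_lit 231) (nat_lit 0) (nat_lit 10) (nat_lit 13) L78593 (by decide +kernel)
theorem L78595 : W_32 (nat_lit 5) (nat_lit 0x30000c0007000200000001000080000000000000000000000000000000) (nat_lit 0x0) (nat_lit 0x1000c800730000000000000000000000000000000000000000000000000000) := T_32 (nat_lit 208) (nat_lit 209) (nat_lit 3) (nat_lit 4) (nat_lit 12) L78594 (by decide +kernel)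
theorem L78596 : W_32 (nat_lit 6) (nat_lit 0x10000c0007000200000001000080000000000000000000000000000000) (nat_lit 0x0) (nat_lit 0x5000e800730000000000000000000000000000000000000000000000000000) := T_32 (nat_lit 229) (nat_lit 246) (nat_lit 7) (nat_lit 7) (nat_lit 10) L78595 (by decide +kernel)
theorem L78603 : W_32 (nat_lit 2) (nat_lit 0xbc001c0007000200000001000080000000000000000000000000000000) (nat_lit 0x0) (nat_lit 0xc000000000000000100000000000000000000000000000000000000000000) := D_32 (nat_lit 243) (nat_lit 176) (nat_lit 242) (nat_lit 5) (nat_lit 6) (nat_lit 10) (nat_lit 1) (nat_lit 8) (nat_lit 13) (by decide +kernel)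
theorem L78604 : W_32 (nat_lit 3) (nat_lit 0xb8001c0007000200000001000080000000000000000000000000000000) (nat_lit 0x0) (nat_lit 0xc000600000000000100000000000000000000000000000000000000000000) := T_32 (nat_lit 226) (nat_lit 225) (nat_lit 2) (nat_lit 4) (nat_lit 13) L78603 (by decide +kernel)
theorem L78605 : W_32 (nat_lit 4) (nat_lit 0xb8000c0007000200000001000080000000000000000000000000000000) (nat_lit 0x0) (nat_lit 0xc000600300000000100000000000000000000000000000000000000000000) := T_32 (nat_lit 212) (nat_lit 213) (nat_lit 0) (nat_lit 9) (nat_lit 12) L78604 (by decide +kernel)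
theorem L78606 : W_32 (nat_lit 5) (nat_lit 0xb0000c0007000200000001000080000000000000000000000000000000) (nat_lit 0x0) (nat_lit 0x1c000e00300000000100000000000000000000000000000000000000000000) := T_32 (nat_lit 227) (nat_lit 244) (nat_lit 6) (nat_lit 6) (nat_lit 14) L78605 (by decide +kernel)
theorem L78607 : W_32 (nat_lit 6) (nat_lit 0x30000c0007000200000001000080000000000000000000000000000000) (nat_lit 0x0) (nat_lit 0x1c00ce00300000000100000000000000000000000000000000000000000000) := T_32 (nat_lit 231) (nat_lit 230) (nat_lit 0) (nat_lit 10) (nat_lit 13) L78606 (by decide +kernel)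
theorem L78608 : W_32 (nat_lit 7) (nat_lit 0x10000c0007000200000001000080000000000000000000000000000000) (nat_lit 0x0) (nat_lit 0x5c00ee00300000000100000000000000000000000000000000000000000000) := T_32 (nat_lit 229) (nat_lit 246) (nat_lit 7) (nat_lit 7) (nat_lit 10) L78607 (by decide +kernel)
theorem L78611 : W_32 (nat_lit 9) (nat_lit 0x1000080007000200000001000080000000000000000000000000000000) (nat_lit 0x0) (nat_lit 0x5c00ee007700000001e0007000000000000000000000000000000000000000) := Q_32 (nat_lit 210) (C_32 L78596 (C_32 L78599 (C_32 L78602 (C_32 L78608 (C_32 L78610 N_32))))) (by decide +kernel)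
theorem L78612 : W_32 (nat_lit 10) (nat_lit 0x1000080006000200000001000080000000000000000000000000000000) (nat_lit 0x0) (nat_lit 0x5c00ee00770001c005e0007000000000000000000000000000000000000000) := Q_32 (nat_lit 192) (C_32 L78547 (C_32 L78550 (C_32 L78549 (C_32 L78611 N_32)))) (by decide +kernel)
theorem L78745 : W_32 (nat_lit 2) (nat_lit 0x3000080007800200000001000080000000000000000000000000000000) (nat_lit 0x0) (nat_lit 0x40000400100000000000000000000000000000000000000000000) := D_32 (nat_lit 190) (nat_lit 176) (nat_lit 210) (nat_lit 2) (nat_lit 3) (nat_lit 11) (nat_lit 3) (nat_lit 3) (nat_lit 11) (by decide +kernel)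
theorem L78746 : W_32 (nat_lit 3) (nat_lit 0x3000080007000200000001000080000000000000000000000000000000) (nat_lit 0x0) (nat_lit 0x40000c00500000000000000000000000000000000000000000000) := T_32 (nat_lit 191) (nat_lit 178) (nat_lit 2) (nat_lit 4) (nat_lit 11) L78745 (by decide +kernel)
theorem L78747 : W_32 (nat_lit 4) (nat_lit 0x1000080007000200000001000080000000000000000000000000000000) (nat_lit 0x0) (nat_lit 0x40002000040000c00500000000000000000000000000000000000000000000) := T_32 (nat_lit 229) (nat_lit 246) (nat_lit 7) (nat_lit 7) (nat_lit 10) L78746 (by decide +kernel)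
theorem L78753 : W_32 (nat_lit 2) (nat_lit 0x30000e0007000300000001000080000000000000000000000000000000) (nat_lit 0x0) (nat_lit 0xc000100000000000000000000000000000000000000000000000000000) := D_32 (nat_lit 230) (nat_lit 231) (nat_lit 212) (nat_lit 0) (nat_lit 10) (nat_lit 13) (nat_lit 3) (nat_lit 5) (nat_lit 12) (by decide +kernel)
theorem L78754 : W_32 (nat_lit 3) (nat_lit 0x30000c0007000300000001000080000000000000000000000000000000) (nat_lit 0x0) (nat_lit 0xc000130000000000000000000000000000000000000000000000000000) := T_32 (nat_lit 209) (nat_lit 208) (nat_lit 3) (nat_lit 4) (nat_lit 12) L78753 (by decide +kernel)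
theorem L78755 : W_32 (nat_lit 4) (nat_lit 0x10000c0007000300000001000080000000000000000000000000000000) (nat_lit 0x0) (nat_lit 0x4000e000130000000000000000000000000000000000000000000000000000) := T_32 (nat_lit 229) (nat_lit 246) (nat_lit 7) (nat_lit 7) (nat_lit 10) L78754 (by decide +kernel)
theorem L78774 : W_32 (nat_lit 15) (nat_lit 0x1000080004000200000001000080000000000000000000000000000000) (nat_lit 0x0) (nat_lit 0x18015f00ef0077c033c01de00cf000700010000000000000000000000000000000) := Q_32 (nat_lit 193) (C_32 L78570 (C_32 L78591 (C_32 L78612 (C_32 L78627 (C_32 L78650 (C_32 L78743 (C_32 L78744 (C_32 L78773 N_32)))))))) (by decide +kernel)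
theorem L78775 : W_32 (nat_lit 16) (nat_lit 0x80004000200000001000080000000000000000000000000000000) (nat_lit 0x0) (nat_lit 0xf8017f00ff0077c033c01de00cf000700010000000000000000000000000000000) := Q_32 (nat_lit 228) (C_32 L78515 (C_32 L78544 (C_32 L6047 (C_32 L6064 (C_32 L6067 (C_32 L78774 N_32)))))) (by decide +kernel)
theorem L78778 : W_32 (nat_lit 2) (nat_lit 0xc0007000200000001000080000000000000000000000000000000) (nat_lit 0x0) (nat_lit 0xc00400000000000000000000000000000000000000000000) := D_32 (nat_lit 191) (nat_lit 178) (nat_lit 190) (nat_lit 2) (nat_lit 4) (nat_lit 11) (nat_lit 3) (nat_lit 3) (nat_lit 11) (by decide +kernel)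
theorem L78785 : W_32 (nat_lit 2) (nat_lit 0x8002c0007000300008001000080000000000000000000000000000000) (nat_lit 0x0) (nat_lit 0x8000400020000000000000000000000000000000000000000000000000000) := D_32 (nat_lit 226) (nat_lit 209) (nat_lit 243) (nat_lit 5) (nat_lit 6) (nat_lit 9) (nat_lit 5) (nat_lit 6) (nat_lit 10) (by decide +kernel)
theorem L78786 : W_32 (nat_lit 3) (nat_lit 0x2c0007000300008001000080000000000000000000000000000000) (nat_lit 0x0) (nat_lit 0x18000c00020000000000000000000000000000000000000000000000000000) := T_32 (nat_lit 227) (nat_lit 244) (nat_lit 6) (nat_lit 6) (nat_lit 14) L78785 (by decide +kernel)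
theorem L78787 : W_32 (nat_lit 4) (nat_lit 0x2c0007000300000001000080000000000000000000000000000000) (nat_lit 0x0) (nat_lit 0x18000c00020000000000008000400000000000000000000000000000000000) := T_32 (nat_lit 159) (nat_lit 142) (nat_lit 7) (nat_lit 6) (nat_lit 8) L78786 (by decide +kernel)
theorem L78788 : W_32 (nat_lit 5) (nat_lit 0xc0007000300000001000080000000000000000000000000000000) (nat_lit 0x0) (nat_lit 0x18000c00320000000000008000400000000000000000000000000000000000) := T_32 (nat_lit 213) (nat_lit 212) (nat_lit 0) (nat_lit 9) (nat_lit 12) L78787 (by decide +kernel)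
theorem L78822 : W_32 (nat_lit 2) (nat_lit 0x8000c0007000280000001000080000000000000000000000000000000) (nat_lit 0x0) (nat_lit 0x100004000200000000000000000000000000000000000) := D_32 (nat_lit 158) (nat_lit 141) (nat_lit 176) (nat_lit 7) (nat_lit 5) (nat_lit 8) (nat_lit 4) (nat_lit 6) (nat_lit 13) (by decide +kernel)
theorem L78823 : W_32 (nat_lit 3) (nat_lit 0xc0007000280000001000080000000000000000000000000000000) (nat_lit 0x0) (nat_lit 0x10000800000000000100004000200000000000000000000000000000000000) := T_32 (nat_lit 227) (nat_lit 244) (nat_lit 6) (nat_lit 6) (nat_lit 14) L78822 (by decide +kernel)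
theorem L78841 : W_32 (nat_lit 9) (nat_lit 0xc0007000200000001000080000000000000000000000000000000) (nat_lit 0x0) (nat_lit 0x18000f003380000001e000f000600000000000000000000000000000000000) := Q_32 (nat_lit 176) (C_32 L78788 (C_32 L78827 (C_32 L78784 (C_32 L78833 (C_32 L78840 N_32))))) (by decide +kernel)
theorem L78842 : W_32 (nat_lit 10) (nat_lit 0xc0006000200000001000080000000000000000000000000000000) (nat_lit 0x0) (nat_lit 0x8001c000f00338001c001e000f000700000000000000000000000000000000000) := Q_32 (nat_lit 192) (C_32 L78777 (C_32 L78821 (C_32 L78841 N_32))) (by decide +kernel)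
theorem L78843 : W_32 (nat_lit 2) (nat_lit 0xc000c0007000bc0000001000080000000000000000000000000000000) (nat_lit 0x0) (nat_lit 0x20000000000003000000000000000000000000000000000000000) := D_32 (nat_lit 157) (nat_lit 209) (nat_lit 156) (nat_lit 4) (nat_lit 5) (nat_lit 13) (nat_lit 0) (nat_lit 7) (nat_lit 10) (by decide +kernel)
theorem L78844 : W_32 (nat_lit 3) (nat_lit 0x8000c0007000bc0000001000080000000000000000000000000000000) (nat_lit 0x0) (nat_lit 0x8000400020000000000003000000000000000000000000000000000000000) := T_32 (nat_lit 226) (nat_lit 243) (nat_lit 5) (nat_lit 6) (nat_lit 10) L78843 (by decide +kernel)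
theorem L78845 : W_32 (nat_lit 4) (nat_lit 0x8000c0007000b80000001000080000000000000000000000000000000) (nat_lit 0x0) (nat_lit 0x8000400020000000060003000000000000000000000000000000000000000) := T_32 (nat_lit 174) (nat_lit 173) (nat_lit 3) (nat_lit 3) (nat_lit 10) L78844 (by decide +kernel)
theorem L78846 : W_32 (nat_lit 5) (nat_lit 0x8000c0007000b00000001000080000000000000000000000000000000) (nat_lit 0x0) (nat_lit 0x80004000200000000e0007000000000000000000000000000000000000000) := T_32 (nat_lit 175) (nat_lit 158) (nat_lit 4) (nat_lit 6) (nat_lit 13) L78845 (by decide +kernel)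
theorem L78847 : W_32 (nat_lit 6) (nat_lit 0x8000c0007000300000001000080000000000000000000000000000000) (nat_lit 0x0) (nat_lit 0x8000400020000000ce0007000000000000000000000000000000000000000) := T_32 (nat_lit 179) (nat_lit 178) (nat_lit 1) (nat_lit 9) (nat_lit 10) L78846 (by decide +kernel)
theorem L78848 : W_32 (nat_lit 7) (nat_lit 0xc0007000300000001000080000000000000000000000000000000) (nat_lit 0x0) (nat_lit 0x18000c00020000000ce0007000000000000000000000000000000000000000) := T_32 (nat_lit 227) (nat_lit 244) (nat_lit 6) (nat_lit 6) (nat_lit 14) L78847 (by decide +kernel)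
theorem L78877 : W_32 (nat_lit 2) (nat_lit 0x100000000c000700070000c001000080000000000000000000000000000000) (nat_lit 0x0) (nat_lit 0x80003000000000000000000000000000000000000000) := D_32 (nat_lit 157) (nat_lit 156) (nat_lit 175) (nat_lit 3) (nat_lit 3) (nat_lit 9) (nat_lit 0) (nat_lit 8) (nat_lit 10) (by decide +kernel)
theorem L78878 : W_32 (nat_lit 3) (nat_lit 0x100000000c0007000700008001000080000000000000000000000000000000) (nat_lit 0x0) (nat_lit 0x80007000200000000000000000000000000000000000) := T_32 (nat_lit 158) (nat_lit 141) (nat_lit 4) (nat_lit 6) (nat_lit 12) L78877 (by decide +kernel)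
theorem L78879 : W_32 (nat_lit 4) (nat_lit 0x100000000c0007000300008001000080000000000000000000000000000000) (nat_lit 0x0) (nat_lit 0xc80007000200000000000000000000000000000000000) := T_32 (nat_lit 178) (nat_lit 179) (nat_lit 1) (nat_lit 9) (nat_lit 10) L78878 (by decide +kernel)
theorem L78880 : W_32 (nat_lit 5) (nat_lit 0x100000000c0007000300000001000080000000000000000000000000000000) (nat_lit 0x0) (nat_lit 0xc8000f000600000000000000000000000000000000000) := T_32 (nat_lit 159) (nat_lit 142) (nat_lit 7) (nat_lit 6) (nat_lit 8) L78879 (by decide +kernel)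
theorem L78881 : W_32 (nat_lit 6) (nat_lit 0xc0007000300000001000080000000000000000000000000000000) (nat_lit 0x0) (nat_lit 0x10000800000000000c8000f000600000000000000000000000000000000000) := T_32 (nat_lit 244) (nat_lit 227) (nat_lit 6) (nat_lit 6) (nat_lit 14) L78880 (by decide +kernel)
theorem L78885 : W_32 (nat_lit 2) (nat_lit 0xf0007000b0000d001000080000000000000000000000000000000) (nat_lit 0x0) (nat_lit 0x300000000000080000000000000000000000000000000000000000000) := D_32 (nat_lit 225) (nat_lit 175) (nat_lit 224) (nat_lit 5) (nat_lit 5) (nat_lit 9) (nat_lit 1) (nat_lit 7) (nat_lit 12) (by decide +kernel)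
theorem L78886 : W_32 (nat_lit 3) (nat_lit 0xe0007000b0000d001000080000000000000000000000000000000) (nat_lit 0x0) (nat_lit 0x300018000000080000000000000000000000000000000000000000000) := T_32 (nat_lit 208) (nat_lit 207) (nat_lit 2) (nat_lit 3) (nat_lit 12) L78885 (by decide +kernel)
theorem L78887 : W_32 (nat_lit 4) (nat_lit 0xc0007000b0000d001000080000000000000000000000000000000) (nat_lit 0x0) (nat_lit 0x700038000000080000000000000000000000000000000000000000000) := T_32 (nat_lit 209) (nat_lit 226) (nat_lit 5) (nat_lit 6) (nat_lit 9) L78886 (by decide +kernel)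
theorem L78888 : W_32 (nat_lit 5) (nat_lit 0xc0007000b0000c001000080000000000000000000000000000000) (nat_lit 0x0) (nat_lit 0x700038000000080003000000000000000000000000000000000000000) := T_32 (nat_lit 156) (nat_lit 157) (nat_lit 3) (nat_lit 3) (nat_lit 9) L78887 (by decide +kernel)
theorem L78889 : W_32 (nat_lit 6) (nat_lit 0xc0007000b00008001000080000000000000000000000000000000) (nat_lit 0x0) (nat_lit 0x700038000000080007000200000000000000000000000000000000000) := T_32 (nat_lit 158) (nat_lit 141) (nat_lit 4) (nat_lit 6) (nat_lit 12) L78888 (by decide +kernel)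
theorem L78890 : W_32 (nat_lit 7) (nat_lit 0xc0007000300008001000080000000000000000000000000000000) (nat_lit 0x0) (nat_lit 0x700038000000c80007000200000000000000000000000000000000000) := T_32 (nat_lit 179) (nat_lit 178) (nat_lit 1) (nat_lit 9) (nat_lit 10) L78889 (by decide +kernel)
theorem L78891 : W_32 (nat_lit 8) (nat_lit 0xc0007000300000001000080000000000000000000000000000000) (nat_lit 0x0) (nat_lit 0x700038000000c8000f000600000000000000000000000000000000000) := T_32 (nat_lit 159) (nat_lit 142) (nat_lit 7) (nat_lit 6) (nat_lit 8) L78890 (by decide +kernel)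
theorem L78892 : W_32 (nat_lit 9) (nat_lit 0xc0007000200000001000080000000000000000000000000000000) (nat_lit 0x0) (nat_lit 0x18000f00038000000de000f000600000000000000000000000000000000000) := Q_32 (nat_lit 176) (C_32 L78881 (C_32 L78833 (C_32 L78848 (C_32 L78884 (C_32 L78891 N_32))))) (by decide +kernel)
theorem L78893 : W_32 (nat_lit 10) (nat_lit 0xc0006000200000001000080000000000000000000000000000000) (nat_lit 0x0) (nat_lit 0x8001c000f00038001c00de000f000700000000000000000000000000000000000) := Q_32 (nat_lit 192) (C_32 L78892 (C_32 L78821 (C_32 L78778 N_32))) (by decide +kernel)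
theorem L78898 : W_32 (nat_lit 2) (nat_lit 0x2c000700070000c001000080000000000000000000000000000000) (nat_lit 0x0) (nat_lit 0x80003000000000000000000000000000000000000000) := D_32 (nat_lit 157) (nat_lit 156) (nat_lit 175) (nat_lit 3) (nat_lit 3) (nat_lit 9) (nat_lit 0) (nat_lit 8) (nat_lit 10) (by decide +kernel)
theorem L78899 : W_32 (nat_lit 3) (nat_lit 0x2c0007000700008001000080000000000000000000000000000000) (nat_lit 0x0) (nat_lit 0x80007000200000000000000000000000000000000000) := T_32 (nat_lit 158) (nat_lit 141) (nat_lit 4) (nat_lit 6) (nat_lit 12) L78898 (by decide +kernel)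
theorem L78900 : W_32 (nat_lit 4) (nat_lit 0x2c0007000300008001000080000000000000000000000000000000) (nat_lit 0x0) (nat_lit 0xc80007000200000000000000000000000000000000000) := T_32 (nat_lit 178) (nat_lit 179) (nat_lit 1) (nat_lit 9) (nat_lit 10) L78899 (by decide +kernel)
theorem L78901 : W_32 (nat_lit 5) (nat_lit 0x2c0007000300000001000080000000000000000000000000000000) (nat_lit 0x0) (nat_lit 0xc8000f000600000000000000000000000000000000000) := T_32 (nat_lit 159) (nat_lit 142) (nat_lit 7) (nat_lit 6) (nat_lit 8) L78900 (by decide +kernel)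
theorem L78902 : W_32 (nat_lit 6) (nat_lit 0xc0007000300000001000080000000000000000000000000000000) (nat_lit 0x0) (nat_lit 0x300000000c8000f000600000000000000000000000000000000000) := T_32 (nat_lit 213) (nat_lit 212) (nat_lit 0) (nat_lit 9) (nat_lit 12) L78901 (by decide +kernel)
theorem L78907 : W_32 (nat_lit 2) (nat_lit 0x1f0007000200004001000080000000000000000000000000000000) (nat_lit 0x0) (nat_lit 0x700000000000000000000000000000000000000000000000000000000) := D_32 (nat_lit 225) (nat_lit 226) (nat_lit 224) (nat_lit 1) (nat_lit 8) (nat_lit 12) (nat_lit 1) (nat_lit 7) (nat_lit 12) (by decide +kernel)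
theorem L78908 : W_32 (nat_lit 3) (nat_lit 0x1e0007000200004001000080000000000000000000000000000000) (nat_lit 0x0) (nat_lit 0x700018000000000000000000000000000000000000000000000000000) := T_32 (nat_lit 208) (nat_lit 207) (nat_lit 2) (nat_lit 3) (nat_lit 12) L78907 (by decide +kernel)
theorem L78909 : W_32 (nat_lit 4) (nat_lit 0xe0007000200004001000080000000000000000000000000000000) (nat_lit 0x0) (nat_lit 0x700318000000000000000000000000000000000000000000000000000) := T_32 (nat_lit 212) (nat_lit 213) (nat_lit 0) (nat_lit 9) (nat_lit 12) L78908 (by decide +kernel)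
theorem L79150 : W_32 (nat_lit 2) (nat_lit 0xe000180024001e0006000200008001000080000000000000000000000000000000) (nat_lit 0x0) (nat_lit 0x26000000000000000000000000000000000000000000000000000000000000) := D_32 (nat_lit 242) (nat_lit 241) (nat_lit 245) (nat_lit 3) (nat_lit 3) (nat_lit 14) (nat_lit 3) (nat_lit 4) (nat_lit 14) (by decide +kernel)
theorem L79151 : W_32 (nat_lit 3) (nat_lit 0xa000180024001e0006000200008001000080000000000000000000000000000000) (nat_lit 0x0) (nat_lit 0x1400026000000000000000000000000000000000000000000000000000000000000) := T_32 (nat_lit 262) (nat_lit 264) (nat_lit 0) (nat_lit 9) (nat_lit 15) L79150 (by decide +kernel)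
theorem L79152 : W_32 (nat_lit 4) (nat_lit 0x8000180024001e0006000200008001000080000000000000000000000000000000) (nat_lit 0x0) (nat_lit 0x1600026000000000001000000000000000000000000000000000000000000000000) := T_32 (nat_lit 261) (nat_lit 192) (nat_lit 7) (nat_lit 5) (nat_lit 11) L79151 (by decide +kernel)
theorem L79153 : W_32 (nat_lit 5) (nat_lit 0x8000100024001e0006000200008001000080000000000000000000000000000000) (nat_lit 0x0) (nat_lit 0x170002e000000000001000000000000000000000000000000000000000000000000) := T_32 (nat_lit 243) (nat_lit 260) (nat_lit 6) (nat_lit 5) (nat_lit 15) L79152 (by decide +kernel)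
theorem L79154 : W_32 (nat_lit 6) (nat_lit 0x8000100024001e0006000200000001000080000000000000000000000000000000) (nat_lit 0x0) (nat_lit 0x170002e000000000001000100008000000000000000000000000000000000000000) := T_32 (nat_lit 159) (nat_lit 176) (nat_lit 5) (nat_lit 6) (nat_lit 9) L79153 (by decide +kernel)
theorem L79155 : W_32 (nat_lit 7) (nat_lit 0x8000100020001e0006000200000001000080000000000000000000000000000000) (nat_lit 0x0) (nat_lit 0x170002e000600000001000100008000000000000000000000000000000000000000) := T_32 (nat_lit 226) (nat_lit 225) (nat_lit 1) (nat_lit 8) (nat_lit 12) L79154 (by decide +kernel)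
theorem L79156 : W_32 (nat_lit 8) (nat_lit 0x100020001e0006000200000001000080000000000000000000000000000000) (nat_lit 0x0) (nat_lit 0x1f0006e000600000001000100008000000000000000000000000000000000000000) := T_32 (nat_lit 263) (nat_lit 246) (nat_lit 4) (nat_lit 8) (nat_lit 15) L79155 (by decide +kernel)
theorem L79157 : W_32 (nat_lit 9) (nat_lit 0x20001e0006000200000001000080000000000000000000000000000000) (nat_lit 0x0) (nat_lit 0x1f0007e000e00000001000100008000000000000000000000000000000000000000) := T_32 (nat_lit 244) (nat_lit 227) (nat_lit 6) (nat_lit 6) (nat_lit 14) L79156 (by decide +kernel)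
theorem L79158 : W_32 (nat_lit 10) (nat_lit 0x1e0006000200000001000080000000000000000000000000000000) (nat_lit 0x0) (nat_lit 0x1f0007e006e00000001000100008000000000000000000000000000000000000000) := T_32 (nat_lit 229) (nat_lit 230) (nat_lit 3) (nat_lit 5) (nat_lit 12) L79157 (by decide +kernel)
theorem L79244 : W_32 (nat_lit 2) (nat_lit 0xe000600030001c001000080000000000000000000000000000000) (nat_lit 0x0) (nat_lit 0x400003000000000000000000000000000000000000000) := D_32 (nat_lit 157) (nat_lit 178) (nat_lit 156) (nat_lit 3) (nat_lit 4) (nat_lit 9) (nat_lit 3) (nat_lit 3) (nat_lit 9) (by decide +kernel)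
theorem L79245 : W_32 (nat_lit 3) (nat_lit 0xe0006000300018001000080000000000000000000000000000000) (nat_lit 0x0) (nat_lit 0x400007000200000000000000000000000000000000000) := T_32 (nat_lit 158) (nat_lit 141) (nat_lit 4) (nat_lit 6) (nat_lit 12) L79244 (by decide +kernel)
theorem L79246 : W_32 (nat_lit 4) (nat_lit 0xe0006000200018001000080000000000000000000000000000000) (nat_lit 0x0) (nat_lit 0x400000000000500007000200000000000000000000000000000000000) := T_32 (nat_lit 176) (nat_lit 226) (nat_lit 5) (nat_lit 6) (nat_lit 9) L79245 (by decide +kernel)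
theorem L79263 : W_32 (nat_lit 2) (nat_lit 0x2003f0006800200000001000080000000000000000000000000000000) (nat_lit 0x0) (nat_lit 0xe000000000000000000000000000000000000000000000000000000000) := D_32 (nat_lit 230) (nat_lit 229) (nat_lit 231) (nat_lit 3) (nat_lit 5) (nat_lit 12) (nat_lit 3) (nat_lit 6) (nat_lit 12) (by decide +kernel)
theorem L79264 : W_32 (nat_lit 3) (nat_lit 0x2001f0006800200000001000080000000000000000000000000000000) (nat_lit 0x0) (nat_lit 0xe000600000000000000000000000000000000000000000000000000000) := T_32 (nat_lit 213) (nat_lit 214) (nat_lit 0) (nat_lit 10) (nat_lit 12) L79263 (by decide +kernel)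
theorem L79265 : W_32 (nat_lit 4) (nat_lit 0x2000f0006800200000001000080000000000000000000000000000000) (nat_lit 0x0) (nat_lit 0xe400700000000000000000000000000000000000000000000000000000) := T_32 (nat_lit 212) (nat_lit 226) (nat_lit 1) (nat_lit 8) (nat_lit 12) L79264 (by decide +kernel)
theorem L79266 : W_32 (nat_lit 5) (nat_lit 0xe0006000200010001000080000000000000000000000000000000) (nat_lit 0x0) (nat_lit 0x40000000000050000f000600000000000000000000000000000000000) := T_32 (nat_lit 159) (nat_lit 142) (nat_lit 4) (nat_lit 7) (nat_lit 12) L79246 (by decide +kernel)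
theorem L79267 : W_32 (nat_lit 6) (nat_lit 0xe0006000200000001000080000000000000000000000000000000) (nat_lit 0x0) (nat_lit 0x40000000000050001f000e00000000000000000000000000000000000) := T_32 (nat_lit 160) (nat_lit 143) (nat_lit 6) (nat_lit 7) (nat_lit 11) L79266 (by decide +kernel)
theorem L79276 : W_32 (nat_lit 2) (nat_lit 0x2003f0006800200000001800080000000000000000000000000000000) (nat_lit 0x0) (nat_lit 0xe000000000000000000000000000000000000000000000000000000000) := D_32 (nat_lit 230) (nat_lit 229) (nat_lit 231) (nat_lit 3) (nat_lit 5) (nat_lit 12) (nat_lit 3) (nat_lit 6) (nat_lit 12) (by decide +kernel)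
theorem L79277 : W_32 (nat_lit 3) (nat_lit 0x2001f0006800200000001800080000000000000000000000000000000) (nat_lit 0x0) (nat_lit 0xe000600000000000000000000000000000000000000000000000000000) := T_32 (nat_lit 213) (nat_lit 214) (nat_lit 0) (nat_lit 10) (nat_lit 12) L79276 (by decide +kernel)
theorem L79278 : W_32 (nat_lit 4) (nat_lit 0x2000f0006800200000001800080000000000000000000000000000000) (nat_lit 0x0) (nat_lit 0xe400700000000000000000000000000000000000000000000000000000) := T_32 (nat_lit 212) (nat_lit 226) (nat_lit 1) (nat_lit 8) (nat_lit 12) L79277 (by decide +kernel)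
theorem L79286 : W_32 (nat_lit 6) (nat_lit 0x3c0004000200000001000080000000000000000000000000000000) (nat_lit 0x0) (nat_lit 0x1c000400032000000018000c00000000000000000000000000000000000) := T_32 (nat_lit 160) (nat_lit 143) (nat_lit 6) (nat_lit 7) (nat_lit 11) L79285 (by decide +kernel)
theorem L79291 : W_32 (nat_lit 5) (nat_lit 0x40003e0015000200018001000080000000000000000000000000000000) (nat_lit 0x0) (nat_lit 0x6000000000005c0006000100000000000000000000000000000000000) := T_32 (nat_lit 226) (nat_lit 225) (nat_lit 1) (nat_lit 8) (nat_lit 12) L79290 (by decide +kernel)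
theorem L79292 : W_32 (nat_lit 6) (nat_lit 0x40003e0015000200010001000080000000000000000000000000000000) (nat_lit 0x0) (nat_lit 0x6000000000005c000e000500000000000000000000000000000000000) := T_32 (nat_lit 159) (nat_lit 142) (nat_lit 4) (nat_lit 7) (nat_lit 12) L79291 (by decide +kernel)
theorem L79293 : W_32 (nat_lit 7) (nat_lit 0x40003e0015000200000001000080000000000000000000000000000000) (nat_lit 0x0) (nat_lit 0x6000000000005c001e000d00000000000000000000000000000000000) := T_32 (nat_lit 160) (nat_lit 143) (nat_lit 6) (nat_lit 7) (nat_lit 11) L79292 (by decide +kernel)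
theorem L79294 : W_32 (nat_lit 8) (nat_lit 0x40003c0015000200000001000080000000000000000000000000000000) (nat_lit 0x0) (nat_lit 0x6000200008005c001e000d00000000000000000000000000000000000) := T_32 (nat_lit 209) (nat_lit 191) (nat_lit 0) (nat_lit 8) (nat_lit 12) L79293 (by decide +kernel)
theorem L79295 : W_32 (nat_lit 9) (nat_lit 0x3c0015000200000001000080000000000000000000000000000000) (nat_lit 0x0) (nat_lit 0xc6000200008005c001e000d00000000000000000000000000000000000) := T_32 (nat_lit 230) (nat_lit 231) (nat_lit 3) (nat_lit 6) (nat_lit 12) L79294 (by decide +kernel)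
theorem L79296 : W_32 (nat_lit 10) (nat_lit 0x3c0014000200000001000080000000000000000000000000000000) (nat_lit 0x0) (nat_lit 0xc6000200038005c001e000d00000000000000000000000000000000000) := T_32 (nat_lit 192) (nat_lit 193) (nat_lit 0) (nat_lit 9) (nat_lit 12) L79295 (by decide +kernel)
theorem L79297 : W_32 (nat_lit 11) (nat_lit 0x3c0004000200000001000080000000000000000000000000000000) (nat_lit 0x0) (nat_lit 0xc6000200338005c001e000d00000000000000000000000000000000000) := T_32 (nat_lit 196) (nat_lit 197) (nat_lit 2) (nat_lit 6) (nat_lit 12) L79296 (by decide +kernel)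
theorem L79298 : W_32 (nat_lit 12) (nat_lit 0x1c0004000200000001000080000000000000000000000000000000) (nat_lit 0x0) (nat_lit 0x1c6006200738005c001e000d00000000000000000000000000000000000) := Q_32 (nat_lit 213) (C_32 L79286 (C_32 L79280 (C_32 L79287 (C_32 L79297 N_32)))) (by decide +kernel)
theorem L79299 : W_32 (nat_lit 13) (nat_lit 0xc0004000200000001000080000000000000000000000000000000) (nat_lit 0x0) (nat_lit 0x80004001e700730073c00dc001e000d00000000000000000000000000000000000) := Q_32 (nat_lit 212) (C_32 L17814 (C_32 L79279 (C_32 L79281 (C_32 L79298 N_32)))) (by decide +kernel)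
theorem L79300 : W_32 (nat_lit 14) (nat_lit 0x80004000200000001000080000000000000000000000000000000) (nat_lit 0x0) (nat_lit 0xb8005c01efc077e073f00de001f000f80000000000000000000000000000000000) := Q_32 (nat_lit 210) (C_32 L78776 (C_32 L6744 (C_32 L79215 (C_32 L79299 N_32)))) (by decide +kernel)
theorem L79301 : W_32 (nat_lit 9) (nat_lit 0x80004000200000001000080000000000000000000000000000000) (nat_lit 0x0) (nat_lit 0x4000e00070003800040002000100018000c00000000000000000000000000000000000) := T_32 (nat_lit 160) (nat_lit 143) (nat_lit 6) (nat_lit 7) (nat_lit 11) L6140 (by decide +kernel)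
theorem L79302 : W_32 (nat_lit 2) (nat_lit 0x1800180004000200010001000080000000000000000000000000000000) (nat_lit 0x0) (nat_lit 0x100008000400000000000000000000000000000000000) := D_32 (nat_lit 159) (nat_lit 176) (nat_lit 142) (nat_lit 4) (nat_lit 7) (nat_lit 13) (nat_lit 4) (nat_lit 7) (nat_lit 12) (by decide +kernel)
theorem L79303 : W_32 (nat_lit 3) (nat_lit 0x800180004000200010001000080000000000000000000000000000000) (nat_lit 0x0) (nat_lit 0x10001000000000000100008000400000000000000000000000000000000000) := T_32 (nat_lit 228) (nat_lit 244) (nat_lit 5) (nat_lit 7) (nat_lit 10) L79302 (by decide +kernel)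
theorem L79304 : W_32 (nat_lit 4) (nat_lit 0x800080004000200010001000080000000000000000000000000000000) (nat_lit 0x0) (nat_lit 0x10003000100000000100008000400000000000000000000000000000000000) := T_32 (nat_lit 212) (nat_lit 229) (nat_lit 7) (nat_lit 7) (nat_lit 9) L79303 (by decide +kernel)
theorem L79305 : W_32 (nat_lit 5) (nat_lit 0x80004000200010001000080000000000000000000000000000000) (nat_lit 0x0) (nat_lit 0x10003800140000000100008000400000000000000000000000000000000000) := T_32 (nat_lit 227) (nat_lit 210) (nat_lit 5) (nat_lit 7) (nat_lit 9) L79304 (by decide +kernel)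
theorem L79306 : W_32 (nat_lit 6) (nat_lit 0x80004000200000001000080000000000000000000000000000000) (nat_lit 0x0) (nat_lit 0x10003800140000000100018000c00000000000000000000000000000000000) := T_32 (nat_lit 160) (nat_lit 143) (nat_lit 6) (nat_lit 7) (nat_lit 11) L79305 (by decide +kernel)
theorem L79307 : W_32 (nat_lit 17) (nat_lit 0x4000200000001000080000000000000000000000000000000) (nat_lit 0x0) (nat_lit 0xc000f8017f01ffc07fe073f01de00df000f80010000000000000000000000000000000) := Q_32 (nat_lit 211) (C_32 L78502 (C_32 L78536 (C_32 L17799 (C_32 L78775 (C_32 L79300 (C_32 L17848 (C_32 L79301 (C_32 L79306 (C_32 L17847 N_32))))))))) (by decide +kernel)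
theorem L79376 : W_32 (nat_lit 2) (nat_lit 0x20005c000e000200000001000080000000000000000000000000000000) (nat_lit 0x0) (nat_lit 0x4000030000000000000000000000000000000000000000000000000000) := D_32 (nat_lit 209) (nat_lit 208) (nat_lit 230) (nat_lit 2) (nat_lit 4) (nat_lit 12) (nat_lit 3) (nat_lit 5) (nat_lit 12) (by decide +kernel)
theorem L79377 : W_32 (nat_lit 3) (nat_lit 0x5c000e000200000001000080000000000000000000000000000000) (nat_lit 0x0) (nat_lit 0x40006000030000000000000000000000000000000000000000000000000000) := T_32 (nat_lit 229) (nat_lit 246) (nat_lit 4) (nat_lit 8) (nat_lit 14) L79376 (by decide +kernel)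
theorem L79378 : W_32 (nat_lit 4) (nat_lit 0x1c000e000200000001000080000000000000000000000000000000) (nat_lit 0x0) (nat_lit 0x40006000630000000000000000000000000000000000000000000000000000) := T_32 (nat_lit 214) (nat_lit 213) (nat_lit 0) (nat_lit 10) (nat_lit 12) L79377 (by decide +kernel)
theorem L79379 : W_32 (nat_lit 2) (nat_lit 0x8001c000e000200000001000080000000000000000000000000000000) (nat_lit 0x0) (nat_lit 0x400600000000000000000000000000000000000000000000000000000) := D_32 (nat_lit 213) (nat_lit 214) (nat_lit 226) (nat_lit 0) (nat_lit 10) (nat_lit 12) (nat_lit 1) (nat_lit 9) (nat_lit 12) (by decide +kernel)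
theorem L79380 : W_32 (nat_lit 3) (nat_lit 0x1c000e000200000001000080000000000000000000000000000000) (nat_lit 0x0) (nat_lit 0x10000c00600000000000000000000000000000000000000000000000000000) := T_32 (nat_lit 227) (nat_lit 244) (nat_lit 6) (nat_lit 6) (nat_lit 14) L79379 (by decide +kernel)
theorem L79381 : W_32 (nat_lit 5) (nat_lit 0xc000e000200000001000080000000000000000000000000000000) (nat_lit 0x0) (nat_lit 0x50006c00730000000000000000000000000000000000000000000000000000) := Q_32 (nat_lit 212) (C_32 L20451 (C_32 L79378 (C_32 L79380 N_32))) (by decide +kernel)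
theorem L79382 : W_32 (nat_lit 2) (nat_lit 0x8002c001e000b00000001000080000000000000000000000000000000) (nat_lit 0x0) (nat_lit 0x8000400100000000000000000000000000000000000000000000000000000) := D_32 (nat_lit 226) (nat_lit 212) (nat_lit 243) (nat_lit 1) (nat_lit 9) (nat_lit 12) (nat_lit 5) (nat_lit 6) (nat_lit 10) (by decide +kernel)
theorem L79383 : W_32 (nat_lit 3) (nat_lit 0x8000c001e000b00000001000080000000000000000000000000000000) (nat_lit 0x0) (nat_lit 0x8000400700000000000000000000000000000000000000000000000000000) := T_32 (nat_lit 213) (nat_lit 214) (nat_lit 3) (nat_lit 6) (nat_lit 11) L79382 (by decide +kernel)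
theorem L79384 : W_32 (nat_lit 4) (nat_lit 0x8000c001e000a00000001000080000000000000000000000000000000) (nat_lit 0x0) (nat_lit 0x8000400700000000180000000000000000000000000000000000000000000) := T_32 (nat_lit 176) (nat_lit 175) (nat_lit 0) (nat_lit 9) (nat_lit 11) L79383 (by decide +kernel)
theorem L79385 : W_32 (nat_lit 5) (nat_lit 0x8000c001e000200000001000080000000000000000000000000000000) (nat_lit 0x0) (nat_lit 0x8000400700000001980000000000000000000000000000000000000000000) := T_32 (nat_lit 179) (nat_lit 180) (nat_lit 2) (nat_lit 6) (nat_lit 11) L79384 (by decide +kernel)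
theorem L79386 : W_32 (nat_lit 6) (nat_lit 0xc001e000200000001000080000000000000000000000000000000) (nat_lit 0x0) (nat_lit 0x18000c00700000001980000000000000000000000000000000000000000000) := T_32 (nat_lit 227) (nat_lit 244) (nat_lit 6) (nat_lit 6) (nat_lit 14) L79385 (by decide +kernel)
theorem L79387 : W_32 (nat_lit 7) (nat_lit 0xc000e000200000001000080000000000000000000000000000000) (nat_lit 0x0) (nat_lit 0x18000c00700030001980000000000000000000000000000000000000000000) := T_32 (nat_lit 196) (nat_lit 197) (nat_lit 1) (nat_lit 10) (nat_lit 11) L79386 (by decide +kernel)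
theorem L79388 : W_32 (nat_lit 8) (nat_lit 0xc0006000200000001000080000000000000000000000000000000) (nat_lit 0x0) (nat_lit 0x58006c00730038001980000000000000000000000000000000000000000000) := Q_32 (nat_lit 195) (C_32 L79375 (C_32 L79381 (C_32 L79387 N_32))) (by decide +kernel)
theorem L79426 : W_32 (nat_lit 8) (nat_lit 0xc0006000200000001000080000000000000000000000000000000) (nat_lit 0x0) (nat_lit 0x10000a00718039c001e0004000200000000000000000000000000000000000) := Q_32 (nat_lit 192) (C_32 L79414 (C_32 L78777 (C_32 L79425 N_32))) (by decide +kernel)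
theorem L79427 : W_32 (nat_lit 2) (nat_lit 0x1e000e000200000001000080000000000000000000000000000000) (nat_lit 0x0) (nat_lit 0x40006000000000000000000000000000000000000000000000000000000000) := D_32 (nat_lit 229) (nat_lit 246) (nat_lit 230) (nat_lit 4) (nat_lit 8) (nat_lit 14) (nat_lit 3) (nat_lit 5) (nat_lit 12) (by decide +kernel)
theorem L79428 : W_32 (nat_lit 3) (nat_lit 0x1e0006000200000001000080000000000000000000000000000000) (nat_lit 0x0) (nat_lit 0x40006000000018000000000000000000000000000000000000000000000000) := T_32 (nat_lit 195) (nat_lit 196) (nat_lit 2) (nat_lit 5) (nat_lit 12) L79427 (by decide +kernel)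
theorem L79429 : W_32 (nat_lit 11) (nat_lit 0x1c0006000200000001000080000000000000000000000000000000) (nat_lit 0x0) (nat_lit 0x1f0007e006e00020019800100008000000000000000000000000000000000000000) := Q_32 (nat_lit 209) (C_32 L78917 (C_32 L79158 (C_32 L78874 (C_32 L79428 N_32)))) (by decide +kernel)
theorem L79430 : W_32 (nat_lit 12) (nat_lit 0xc0006000200000001000080000000000000000000000000000000) (nat_lit 0x0) (nat_lit 0x1f0007e006e00720019800100008000000000000000000000000000000000000000) := Q_32 (nat_lit 212) (C_32 L78921 (C_32 L78857 (C_32 L79429 N_32))) (by decide +kernel)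
theorem L79431 : W_32 (nat_lit 15) (nat_lit 0xc0004000200000001000080000000000000000000000000000000) (nat_lit 0x0) (nat_lit 0x1f8007e00ef0073803bc019e000f000f8011c000000000000000000000000000000) := Q_32 (nat_lit 193) (C_32 L79388 (C_32 L78919 (C_32 L78876 (C_32 L78842 (C_32 L79408 (C_32 L79426 (C_32 L79430 N_32))))))) (by decide +kernel)
theorem L79432 : W_32 (nat_lit 2) (nat_lit 0x40003e0016000200018001000080000000000000000000000000000000) (nat_lit 0x0) (nat_lit 0x600000000000100000000000000000000000000000000000000000000) := D_32 (nat_lit 226) (nat_lit 176) (nat_lit 225) (nat_lit 5) (nat_lit 6) (nat_lit 9) (nat_lit 1) (nat_lit 8) (nat_lit 12) (by decide +kernel)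
theorem L79433 : W_32 (nat_lit 3) (nat_lit 0x40003c0016000200018001000080000000000000000000000000000000) (nat_lit 0x0) (nat_lit 0x600020008000100000000000000000000000000000000000000000000) := T_32 (nat_lit 209) (nat_lit 195) (nat_lit 2) (nat_lit 5) (nat_lit 12) L79432 (by decide +kernel)
theorem L79434 : W_32 (nat_lit 4) (nat_lit 0x40003c0006000200018001000080000000000000000000000000000000) (nat_lit 0x0) (nat_lit 0x600020038000100000000000000000000000000000000000000000000) := T_32 (nat_lit 196) (nat_lit 197) (nat_lit 2) (nat_lit 6) (nat_lit 12) L79433 (by decide +kernel)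
theorem L79435 : W_32 (nat_lit 5) (nat_lit 0x3c0006000200018001000080000000000000000000000000000000) (nat_lit 0x0) (nat_lit 0xc600020038000100000000000000000000000000000000000000000000) := T_32 (nat_lit 230) (nat_lit 231) (nat_lit 3) (nat_lit 6) (nat_lit 12) L79434 (by decide +kernel)
theorem L79436 : W_32 (nat_lit 6) (nat_lit 0x3c0006000200010001000080000000000000000000000000000000) (nat_lit 0x0) (nat_lit 0xc600020038000100008000400000000000000000000000000000000000) := T_32 (nat_lit 159) (nat_lit 142) (nat_lit 4) (nat_lit 7) (nat_lit 12) L79435 (by decide +kernel)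
theorem L79437 : W_32 (nat_lit 7) (nat_lit 0x1c0006000200010001000080000000000000000000000000000000) (nat_lit 0x0) (nat_lit 0xc600620038000100008000400000000000000000000000000000000000) := T_32 (nat_lit 213) (nat_lit 214) (nat_lit 0) (nat_lit 10) (nat_lit 12) L79436 (by decide +kernel)
theorem L79438 : W_32 (nat_lit 8) (nat_lit 0x1c0006000200000001000080000000000000000000000000000000) (nat_lit 0x0) (nat_lit 0xc600620038000100018000c00000000000000000000000000000000000) := T_32 (nat_lit 160) (nat_lit 143) (nat_lit 6) (nat_lit 7) (nat_lit 11) L79437 (by decide +kernel)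
theorem L79439 : W_32 (nat_lit 9) (nat_lit 0x1c0004000200000001000080000000000000000000000000000000) (nat_lit 0x0) (nat_lit 0x10000800c70063803bc00100018000c00000000000000000000000000000000000) := Q_32 (nat_lit 193) (C_32 L79438 (C_32 L78918 (C_32 L78857 N_32))) (by decide +kernel)
theorem L79440 : W_32 (nat_lit 10) (nat_lit 0xc0004000200000001000080000000000000000000000000000000) (nat_lit 0x0) (nat_lit 0x90004800e70073803bc00900018000c00000000000000000000000000000000000) := Q_32 (nat_lit 212) (C_32 L17814 (C_32 L79281 (C_32 L79439 N_32))) (by decide +kernel)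
theorem L79441 : W_32 (nat_lit 16) (nat_lit 0x80004000200000001000080000000000000000000000000000000) (nat_lit 0x0) (nat_lit 0x1f8007e00ef0077803bc019e001f000f8011c000000000000000000000000000000) := Q_32 (nat_lit 210) (C_32 L6744 (C_32 L78776 (C_32 L79431 (C_32 L79440 N_32)))) (by decide +kernel)
theorem L79442 : W_32 (nat_lit 17) (nat_lit 0x4000200000001000080000000000000000000000000000000) (nat_lit 0x0) (nat_lit 0xc001f801fe00ff007f803bc019e001f000f8011c000000000000000000000000000000) := Q_32 (nat_lit 211) (C_32 L17847 (C_32 L78536 (C_32 L17799 (C_32 L79374 (C_32 L79441 (C_32 L17848 N_32)))))) (by decide +kernel)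
theorem L79443 : W_32 (nat_lit 5) (nat_lit 0x80004000200000001000080000000000000000000000000000000) (nat_lit 0x0) (nat_lit 0xa00070003800140002000100018000000000000000000000000000000000000000) := Q_32 (nat_lit 228) (C_32 L6067 (C_32 L6047 (C_32 L6064 (C_32 L6672 N_32)))) (by decide +kernel)
theorem L79504 : W_32 (nat_lit 14) (nat_lit 0x80004000200000001000080000000000000000000000000000000) (nat_lit 0x0) (nat_lit 0xb8005c01efc077e07bf00de001f000780000000000000000000000000000000000) := Q_32 (nat_lit 210) (C_32 L6744 (C_32 L79215 (C_32 L79493 (C_32 L79503 N_32)))) (by decide +kernel)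
theorem L79505 : W_32 (nat_lit 7) (nat_lit 0x80004000200000001000080000000000000000000000000000000) (nat_lit 0x0) (nat_lit 0x10000e0007000380010000a000500018000400000000000000000000000000000000000) := Q_32 (nat_lit 228) (C_32 L79469 (C_32 L6682 (C_32 L6067 N_32))) (by decide +kernel)
theorem L79512 : W_32 (nat_lit 15) (nat_lit 0x4000200000001000080000000000000000000000000000000) (nat_lit 0x0) (nat_lit 0x1c000f801fe01ffc07fe07bf00de001f000780000000000000000000000000000000000) := Q_32 (nat_lit 211) (C_32 L79374 (C_32 L79443 (C_32 L79450 (C_32 L79463 (C_32 L79470 (C_32 L79504 (C_32 L79505 (C_32 L79506 (C_32 L79507 (C_32 L79508 (C_32 L79509 (C_32 L79510 (C_32 L79511 N_32))))))))))))) (by decide +kernel)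
theorem L79515 : W_32 (nat_lit 4) (nat_lit 0x7800200000001000080000000000000000000000000000000) (nat_lit 0x0) (nat_lit 0x1c000400100010000800000000000000000000000000000000000) := T_32 (nat_lit 160) (nat_lit 143) (nat_lit 6) (nat_lit 7) (nat_lit 11) L10027 (by decide +kernel)
theorem L79517 : W_32 (nat_lit 2) (nat_lit 0xd0007800240010001000080000000000000000000000000000000) (nat_lit 0x0) (nat_lit 0x20008000080000000000000000000000000000000000000000000) := D_32 (nat_lit 195) (nat_lit 209) (nat_lit 175) (nat_lit 2) (nat_lit 4) (nat_lit 12) (nat_lit 0) (nat_lit 8) (nat_lit 11) (by decide +kernel)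
theorem L79518 : W_32 (nat_lit 3) (nat_lit 0xd0007800200010001000080000000000000000000000000000000) (nat_lit 0x0) (nat_lit 0x200080000e0000000000000000000000000000000000000000000) := T_32 (nat_lit 174) (nat_lit 173) (nat_lit 0) (nat_lit 7) (nat_lit 11) L79517 (by decide +kernel)
theorem L79519 : W_32 (nat_lit 4) (nat_lit 0xc0007800200010001000080000000000000000000000000000000) (nat_lit 0x0) (nat_lit 0x380080000e0000000000000000000000000000000000000000000) := T_32 (nat_lit 208) (nat_lit 207) (nat_lit 1) (nat_lit 7) (nat_lit 11) L79518 (by decide +kernel)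
theorem L79520 : W_32 (nat_lit 5) (nat_lit 0x80007800200010001000080000000000000000000000000000000) (nat_lit 0x0) (nat_lit 0x8000780080000e0000000000000000000000000000000000000000000) := T_32 (nat_lit 210) (nat_lit 227) (nat_lit 5) (nat_lit 7) (nat_lit 9) L79519 (by decide +kernel)
theorem L79521 : W_32 (nat_lit 6) (nat_lit 0x80007800200000001000080000000000000000000000000000000) (nat_lit 0x0) (nat_lit 0x8000780080000e0010000800000000000000000000000000000000000) := T_32 (nat_lit 160) (nat_lit 143) (nat_lit 6) (nat_lit 7) (nat_lit 11) L79520 (by decide +kernel)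
theorem L79522 : W_32 (nat_lit 7) (nat_lit 0x7800200000001000080000000000000000000000000000000) (nat_lit 0x0) (nat_lit 0x8001f80080000e0010000800000000000000000000000000000000000) := T_32 (nat_lit 211) (nat_lit 212) (nat_lit 3) (nat_lit 4) (nat_lit 11) L79521 (by decide +kernel)
theorem L79523 : W_32 (nat_lit 8) (nat_lit 0x7000200000001000080000000000000000000000000000000) (nat_lit 0x0) (nat_lit 0x8001fc008c001e0010000800000000000000000000000000000000000) := Q_32 (nat_lit 191) (C_32 L79515 (C_32 L79516 (C_32 L24845 (C_32 L79522 N_32)))) (by decide +kernel)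
theorem L79525 : W_32 (nat_lit 8) (nat_lit 0x7000200000001000080000000000000000000000000000000) (nat_lit 0x0) (nat_lit 0x8001f80088004e0010000800000000000000000000000000000000000) := T_32 (nat_lit 191) (nat_lit 178) (nat_lit 2) (nat_lit 4) (nat_lit 11) L79522 (by decide +kernel)
theorem L79526 : W_32 (nat_lit 6) (nat_lit 0x7000200000001000080000000000000000000000000000000) (nat_lit 0x0) (nat_lit 0x400020003f0078000d00010000800000000000000000000000000000000000) := Q_32 (nat_lit 195) (C_32 L66511 (C_32 L24837 (C_32 L10057 N_32))) (by decide +kernel)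
theorem L79527 : W_32 (nat_lit 9) (nat_lit 0x6000200000001000080000000000000000000000000000000) (nat_lit 0x0) (nat_lit 0x400028003fc079c00de0010000800000000000000000000000000000000000) := Q_32 (nat_lit 192) (C_32 L10029 (C_32 L79523 (C_32 L79524 (C_32 L79525 (C_32 L79526 N_32))))) (by decide +kernel)
theorem L79751 : W_32 (nat_lit 2) (nat_lit 0x10000c0007000200000001000080000000000000000000000000000000) (nat_lit 0x0) (nat_lit 0x400020000000000000000100000000000000000000000000000000000000000000) := D_32 (nat_lit 245) (nat_lit 176) (nat_lit 262) (nat_lit 4) (nat_lit 7) (nat_lit 14) (nat_lit 4) (nat_lit 7) (nat_lit 15) (by decide +kernel)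
theorem L79752 : W_32 (nat_lit 2) (nat_lit 0x4000e0007000200000001000080000000000000000000000000000000) (nat_lit 0x0) (nat_lit 0x100008000000000000000100000000000000000000000000000000000000000000) := D_32 (nat_lit 243) (nat_lit 176) (nat_lit 260) (nat_lit 6) (nat_lit 5) (nat_lit 14) (nat_lit 6) (nat_lit 5) (nat_lit 15) (by decide +kernel)
theorem L79801 : W_32 (nat_lit 5) (nat_lit 0xc0007000300000001000080000000000000000000000000000000) (nat_lit 0x0) (nat_lit 0x6000f000130000000000000000000000000000000000000000000000000000) := T_32 (nat_lit 228) (nat_lit 245) (nat_lit 4) (nat_lit 7) (nat_lit 14) L78755 (by decide +kernel)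
theorem L79803 : W_32 (nat_lit 2) (nat_lit 0x10002f0007000200000001000080000000000000000000000000000000) (nat_lit 0x0) (nat_lit 0x400020000000000000000100000000000000000000000000000000000000000000) := D_32 (nat_lit 245) (nat_lit 176) (nat_lit 262) (nat_lit 4) (nat_lit 7) (nat_lit 14) (nat_lit 4) (nat_lit 7) (nat_lit 15) (by decide +kernel)
theorem L79804 : W_32 (nat_lit 3) (nat_lit 0x2f0007000200000001000080000000000000000000000000000000) (nat_lit 0x0) (nat_lit 0x400020003000000000000100000000000000000000000000000000000000000000) := T_32 (nat_lit 228) (nat_lit 229) (nat_lit 3) (nat_lit 4) (nat_lit 12) L79803 (by decide +kernel)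
theorem L79805 : W_32 (nat_lit 4) (nat_lit 0xf0007000200000001000080000000000000000000000000000000) (nat_lit 0x0) (nat_lit 0x400020003000300000000100000000000000000000000000000000000000000000) := T_32 (nat_lit 213) (nat_lit 212) (nat_lit 0) (nat_lit 9) (nat_lit 12) L79804 (by decide +kernel)
theorem L79806 : W_32 (nat_lit 5) (nat_lit 0x70007000200000001000080000000000000000000000000000000) (nat_lit 0x0) (nat_lit 0x480024003700380000000180004000000000000000000000000000000000000000) := Q_32 (nat_lit 211) (C_32 L78905 (C_32 L79805 N_32)) (by decide +kernel)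
theorem L79811 : W_32 (nat_lit 2) (nat_lit 0x4000700050006800260002001b00084000000000000000000000000000000) (nat_lit 0x0) (nat_lit 0x400008000200000000000000000000000000) := D_32 (nat_lit 123) (nat_lit 105) (nat_lit 142) (nat_lit 4) (nat_lit 4) (nat_lit 10) (nat_lit 0) (nat_lit 7) (nat_lit 8) (by decide +kernel)
theorem L79812 : W_32 (nat_lit 3) (nat_lit 0x4000700050006800260002001b00080000000000000000000000000000000) (nat_lit 0x0) (nat_lit 0x48000c000200000000000000000000000000) := T_32 (nat_lit 122) (nat_lit 139) (nat_lit 4) (nat_lit 4) (nat_lit 11) L79811 (by decide +kernel)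
theorem L79813 : W_32 (nat_lit 4) (nat_lit 0x4000700050006800260002001a00080000000000000000000000000000000) (nat_lit 0x0) (nat_lit 0x58001c000200000000000000000000000000) := T_32 (nat_lit 140) (nat_lit 124) (nat_lit 6) (nat_lit 4) (nat_lit 11) L79812 (by decide +kernel)
theorem L79814 : W_32 (nat_lit 5) (nat_lit 0x4000700050006800260002001800080000000000000000000000000000000) (nat_lit 0x0) (nat_lit 0x400078001c000200000000000000000000000000) := T_32 (nat_lit 141) (nat_lit 158) (nat_lit 6) (nat_lit 4) (nat_lit 12) L79813 (by decide +kernel)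
theorem L79815 : W_32 (nat_lit 6) (nat_lit 0x700050006800260002001800080000000000000000000000000000000) (nat_lit 0x0) (nat_lit 0x400000000000040000000400078001c000200000000000000000000000000) := T_32 (nat_lit 242) (nat_lit 190) (nat_lit 4) (nat_lit 4) (nat_lit 14) L79814 (by decide +kernel)
theorem L79816 : W_32 (nat_lit 7) (nat_lit 0x700050006800260000001800080000000000000000000000000000000) (nat_lit 0x0) (nat_lit 0x400000000800040000000600078001c000200000000000000000000000000) := T_32 (nat_lit 157) (nat_lit 207) (nat_lit 5) (nat_lit 4) (nat_lit 9) L79815 (by decide +kernel)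
theorem L79817 : W_32 (nat_lit 8) (nat_lit 0x600050006800260000001800080000000000000000000000000000000) (nat_lit 0x0) (nat_lit 0x600010000800040000000600078001c000200000000000000000000000000) := T_32 (nat_lit 224) (nat_lit 241) (nat_lit 5) (nat_lit 4) (nat_lit 10) L79816 (by decide +kernel)
theorem L79818 : W_32 (nat_lit 9) (nat_lit 0x600050006800240000001800080000000000000000000000000000000) (nat_lit 0x0) (nat_lit 0x600010000800040002000700078001c000200000000000000000000000000) := T_32 (nat_lit 173) (nat_lit 156) (nat_lit 4) (nat_lit 4) (nat_lit 13) L79817 (by decide +kernel)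
theorem L79819 : W_32 (nat_lit 10) (nat_lit 0x200050006800240000001800080000000000000000000000000000000) (nat_lit 0x0) (nat_lit 0xe00050000800040002000700078001c000200000000000000000000000000) := T_32 (nat_lit 226) (nat_lit 243) (nat_lit 7) (nat_lit 4) (nat_lit 10) L79818 (by decide +kernel)
theorem L79820 : W_32 (nat_lit 11) (nat_lit 0x200050006800240000001000080000000000000000000000000000000) (nat_lit 0x0) (nat_lit 0xe000500008000400020017000f8001c000200000000000000000000000000) := T_32 (nat_lit 143) (nat_lit 160) (nat_lit 6) (nat_lit 7) (nat_lit 11) L79819 (by decide +kernel)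
theorem L79821 : W_32 (nat_lit 2) (nat_lit 0x200050006800260000001000080000000000000000000000000000000) (nat_lit 0x0) (nat_lit 0x180004000000000000000000000000000000000000000) := D_32 (nat_lit 175) (nat_lit 176) (nat_lit 158) (nat_lit 3) (nat_lit 3) (nat_lit 10) (nat_lit 6) (nat_lit 4) (nat_lit 13) (by decide +kernel)
theorem L79822 : W_32 (nat_lit 3) (nat_lit 0x200050006800240000001000080000000000000000000000000000000) (nat_lit 0x0) (nat_lit 0x1a0005000000000000000000000000000000000000000) := T_32 (nat_lit 173) (nat_lit 156) (nat_lit 4) (nat_lit 4) (nat_lit 13) L79821 (by decide +kernel)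
theorem L79823 : W_32 (nat_lit 2) (nat_lit 0x40002000500068002e0000001000080000000000000000000000000000000) (nat_lit 0x0) (nat_lit 0x40002000100000000000000000000000000000000000000000000000000000000) := D_32 (nat_lit 241) (nat_lit 224) (nat_lit 258) (nat_lit 5) (nat_lit 4) (nat_lit 10) (nat_lit 5) (nat_lit 4) (nat_lit 11) (by decide +kernel)
theorem L79824 : W_32 (nat_lit 3) (nat_lit 0x2000500068002e0000001000080000000000000000000000000000000) (nat_lit 0x0) (nat_lit 0x40006000100000000400000000000000000000000000000000000000000000000) := T_32 (nat_lit 242) (nat_lit 190) (nat_lit 4) (nat_lit 4) (nat_lit 14) L79823 (by decide +kernel)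
theorem L79825 : W_32 (nat_lit 4) (nat_lit 0x200050006800260000001000080000000000000000000000000000000) (nat_lit 0x0) (nat_lit 0x40006000100000000400180000000000000000000000000000000000000000000) := T_32 (nat_lit 175) (nat_lit 176) (nat_lit 3) (nat_lit 3) (nat_lit 10) L79824 (by decide +kernel)
theorem L79826 : W_32 (nat_lit 5) (nat_lit 0x200050006800240000001000080000000000000000000000000000000) (nat_lit 0x0) (nat_lit 0x400060001000000004001a0001000000000000000000000000000000000000000) := T_32 (nat_lit 173) (nat_lit 156) (nat_lit 4) (nat_lit 4) (nat_lit 13) L79825 (by decide +kernel)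
theorem L79827 : W_32 (nat_lit 2) (nat_lit 0x2000500068003c0002001800080000000000000000000000000000000) (nat_lit 0x0) (nat_lit 0x2000100008000000000000000000000000000000000000000000000000000) := D_32 (nat_lit 224) (nat_lit 241) (nat_lit 207) (nat_lit 5) (nat_lit 4) (nat_lit 10) (nat_lit 5) (nat_lit 4) (nat_lit 9) (by decide +kernel)
theorem L79828 : W_32 (nat_lit 3) (nat_lit 0x2000500068003c0000001800080000000000000000000000000000000) (nat_lit 0x0) (nat_lit 0x2000100008000000000003000000000000000000000000000000000000000) := T_32 (nat_lit 157) (nat_lit 156) (nat_lit 0) (nat_lit 7) (nat_lit 10) L79827 (by decide +kernel)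
theorem L79829 : W_32 (nat_lit 4) (nat_lit 0x2000500068002c0000001800080000000000000000000000000000000) (nat_lit 0x0) (nat_lit 0x2000100008000400100003000000000000000000000000000000000000000) := T_32 (nat_lit 176) (nat_lit 190) (nat_lit 1) (nat_lit 7) (nat_lit 10) L79828 (by decide +kernel)
theorem L79830 : W_32 (nat_lit 5) (nat_lit 0x200050006800240000001800080000000000000000000000000000000) (nat_lit 0x0) (nat_lit 0x2000100008000400180007000000000000000000000000000000000000000) := T_32 (nat_lit 175) (nat_lit 158) (nat_lit 6) (nat_lit 4) (nat_lit 13) L79829 (by decide +kernel)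
theorem L79831 : W_32 (nat_lit 6) (nat_lit 0x200050006800240000001000080000000000000000000000000000000) (nat_lit 0x0) (nat_lit 0x2000100008000400180017000800000000000000000000000000000000000) := T_32 (nat_lit 143) (nat_lit 160) (nat_lit 6) (nat_lit 7) (nat_lit 11) L79830 (by decide +kernel)
theorem L79832 : W_32 (nat_lit 2) (nat_lit 0x6000500068002c0010001000080000000000000000000000000000000) (nat_lit 0x0) (nat_lit 0x400120000000000000000000000000000000000000000000) := D_32 (nat_lit 176) (nat_lit 173) (nat_lit 190) (nat_lit 3) (nat_lit 3) (nat_lit 10) (nat_lit 1) (nat_lit 7) (nat_lit 10) (by decide +kernel)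
theorem L79833 : W_32 (nat_lit 3) (nat_lit 0x600050006800240010001000080000000000000000000000000000000) (nat_lit 0x0) (nat_lit 0x4001a0004000000000000000000000000000000000000000) := T_32 (nat_lit 175) (nat_lit 158) (nat_lit 6) (nat_lit 4) (nat_lit 13) L79832 (by decide +kernel)
theorem L79834 : W_32 (nat_lit 4) (nat_lit 0x600050006800240000001000080000000000000000000000000000000) (nat_lit 0x0) (nat_lit 0x4001a0014000800000000000000000000000000000000000) := T_32 (nat_lit 160) (nat_lit 143) (nat_lit 6) (nat_lit 7) (nat_lit 11) L79833 (by decide +kernel)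
theorem L79835 : W_32 (nat_lit 5) (nat_lit 0x200050006800240000001000080000000000000000000000000000000) (nat_lit 0x0) (nat_lit 0x80004000000004001a0014000800000000000000000000000000000000000) := T_32 (nat_lit 226) (nat_lit 243) (nat_lit 7) (nat_lit 4) (nat_lit 10) L79834 (by decide +kernel)
theorem L79836 : W_32 (nat_lit 12) (nat_lit 0x50006800240000001000080000000000000000000000000000000) (nat_lit 0x0) (nat_lit 0x4000e0007000080004001a0017000f8001c000200000000000000000000000000) := Q_32 (nat_lit 225) (C_32 L79820 (C_32 L79822 (C_32 L79826 (C_32 L79831 (C_32 L79835 N_32))))) (by decide +kernel)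
theorem L79837 : W_32 (nat_lit 2) (nat_lit 0x4000600050006800260000001000080000000000000000000000000000000) (nat_lit 0x0) (nat_lit 0x40002000100000000000000000000000000000000000000000000000000000000) := D_32 (nat_lit 241) (nat_lit 224) (nat_lit 258) (nat_lit 5) (nat_lit 4) (nat_lit 10) (nat_lit 5) (nat_lit 4) (nat_lit 11) (by decide +kernel)
theorem L79838 : W_32 (nat_lit 3) (nat_lit 0x600050006800260000001000080000000000000000000000000000000) (nat_lit 0x0) (nat_lit 0x40006000100000000400000000000000000000000000000000000000000000000) := T_32 (nat_lit 242) (nat_lit 190) (nat_lit 4) (nat_lit 4) (nat_lit 14) L79837 (by decide +kernel)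
theorem L79839 : W_32 (nat_lit 4) (nat_lit 0x200050006800260000001000080000000000000000000000000000000) (nat_lit 0x0) (nat_lit 0x4000e000500000000400000000000000000000000000000000000000000000000) := T_32 (nat_lit 226) (nat_lit 243) (nat_lit 7) (nat_lit 4) (nat_lit 10) L79838 (by decide +kernel)
theorem L79840 : W_32 (nat_lit 5) (nat_lit 0x200050006800240000001000080000000000000000000000000000000) (nat_lit 0x0) (nat_lit 0x4000e000500000000400020001000000000000000000000000000000000000000) := T_32 (nat_lit 173) (nat_lit 156) (nat_lit 4) (nat_lit 4) (nat_lit 13) L79839 (by decide +kernel)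
theorem L79841 : W_32 (nat_lit 2) (nat_lit 0x300050006800240002001000080000000000000000000000000000000) (nat_lit 0x0) (nat_lit 0x80004000200000000000000000000000000000000000) := D_32 (nat_lit 158) (nat_lit 175) (nat_lit 141) (nat_lit 6) (nat_lit 4) (nat_lit 13) (nat_lit 6) (nat_lit 4) (nat_lit 12) (by decide +kernel)
theorem L79842 : W_32 (nat_lit 3) (nat_lit 0x300050006800240000001000080000000000000000000000000000000) (nat_lit 0x0) (nat_lit 0x8000000080006000200000000000000000000000000000000000) := T_32 (nat_lit 157) (nat_lit 207) (nat_lit 5) (nat_lit 4) (nat_lit 9) L79841 (by decide +kernel)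
theorem L79843 : W_32 (nat_lit 4) (nat_lit 0x200050006800240000001000080000000000000000000000000000000) (nat_lit 0x0) (nat_lit 0x2000100008000000080006000200000000000000000000000000000000000) := T_32 (nat_lit 224) (nat_lit 241) (nat_lit 5) (nat_lit 4) (nat_lit 10) L79842 (by decide +kernel)
theorem L79844 : W_32 (nat_lit 6) (nat_lit 0x50006800240000001000080000000000000000000000000000000) (nat_lit 0x0) (nat_lit 0x4000e0007000080004001a0007000200000000000000000000000000000000000) := Q_32 (nat_lit 225) (C_32 L79840 (C_32 L79826 (C_32 L79843 (C_32 L79822 N_32)))) (by decide +kernel)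
theorem L79845 : W_32 (nat_lit 2) (nat_lit 0x600050006c00260006001800080000000000000000000000000000000) (nat_lit 0x0) (nat_lit 0x8000000000000000100008000000000000000000000000000000) := D_32 (nat_lit 140) (nat_lit 207) (nat_lit 123) (nat_lit 5) (nat_lit 4) (nat_lit 8) (nat_lit 5) (nat_lit 4) (nat_lit 7) (by decide +kernel)
theorem L79846 : W_32 (nat_lit 3) (nat_lit 0x600050006c00260004001800080000000000000000000000000000000) (nat_lit 0x0) (nat_lit 0x8000000000002000300008000000000000000000000000000000) := T_32 (nat_lit 157) (nat_lit 141) (nat_lit 6) (nat_lit 4) (nat_lit 12) L79845 (by decide +kernel)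
theorem L79847 : W_32 (nat_lit 4) (nat_lit 0x600050006800260004001800080000000000000000000000000000000) (nat_lit 0x0) (nat_lit 0x4000000008000400000002000300008000000000000000000000000000000) := T_32 (nat_lit 190) (nat_lit 242) (nat_lit 4) (nat_lit 4) (nat_lit 14) L79846 (by decide +kernel)
theorem L79848 : W_32 (nat_lit 5) (nat_lit 0x600050006800260000001800080000000000000000000000000000000) (nat_lit 0x0) (nat_lit 0x4000000008000400080006000300008000000000000000000000000000000) := T_32 (nat_lit 158) (nat_lit 175) (nat_lit 6) (nat_lit 4) (nat_lit 13) L79847 (by decide +kernel)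
theorem L79849 : W_32 (nat_lit 6) (nat_lit 0x600050006800240000001800080000000000000000000000000000000) (nat_lit 0x0) (nat_lit 0x40000000080004000a0007000300008000000000000000000000000000000) := T_32 (nat_lit 173) (nat_lit 156) (nat_lit 4) (nat_lit 4) (nat_lit 13) L79848 (by decide +kernel)
theorem L79850 : W_32 (nat_lit 7) (nat_lit 0x200050006800240000001800080000000000000000000000000000000) (nat_lit 0x0) (nat_lit 0xc0004000080004000a0007000300008000000000000000000000000000000) := T_32 (nat_lit 226) (nat_lit 243) (nat_lit 7) (nat_lit 4) (nat_lit 10) L79849 (by decide +kernel)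
theorem L79851 : W_32 (nat_lit 8) (nat_lit 0x200050006800240000001000080000000000000000000000000000000) (nat_lit 0x0) (nat_lit 0xc0004000080004000a0017000b00008000000000000000000000000000000) := T_32 (nat_lit 143) (nat_lit 160) (nat_lit 6) (nat_lit 7) (nat_lit 11) L79850 (by decide +kernel)
theorem L79852 : W_32 (nat_lit 9) (nat_lit 0x50006800240000001000080000000000000000000000000000000) (nat_lit 0x0) (nat_lit 0x4000e0007000080004000a0017000b00008000000000000000000000000000000) := Q_32 (nat_lit 225) (C_32 L79840 (C_32 L79843 (C_32 L79851 N_32))) (by decide +kernel)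
theorem L79853 : W_32 (nat_lit 2) (nat_lit 0xc000300058006800240000001800080000000000000000000000000000000) (nat_lit 0x0) (nat_lit 0x1000080000000000000000400000000000000000000000000000000000000000000000) := D_32 (nat_lit 259) (nat_lit 276) (nat_lit 190) (nat_lit 4) (nat_lit 4) (nat_lit 16) (nat_lit 4) (nat_lit 4) (nat_lit 15) (by decide +kernel)
theorem L79854 : W_32 (nat_lit 3) (nat_lit 0x8000300058006800240000001800080000000000000000000000000000000) (nat_lit 0x0) (nat_lit 0x1000180004000000000000400000000000000000000000000000000000000000000000) := T_32 (nat_lit 242) (nat_lit 260) (nat_lit 7) (nat_lit 4) (nat_lit 11) L79853 (by decide +kernel)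
theorem L79855 : W_32 (nat_lit 4) (nat_lit 0x300058006800240000001800080000000000000000000000000000000) (nat_lit 0x0) (nat_lit 0x100018000c000400000000400000000000000000000000000000000000000000000000) := T_32 (nat_lit 243) (nat_lit 226) (nat_lit 7) (nat_lit 4) (nat_lit 10) L79854 (by decide +kernel)
theorem L79856 : W_32 (nat_lit 5) (nat_lit 0x300050006800240000001800080000000000000000000000000000000) (nat_lit 0x0) (nat_lit 0x100018000c000400008000400000002000000000000000000000000000000000000000) := T_32 (nat_lit 207) (nat_lit 157) (nat_lit 5) (nat_lit 4) (nat_lit 9) L79855 (by decide +kernel)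
theorem L79857 : W_32 (nat_lit 6) (nat_lit 0x200050006800240000001800080000000000000000000000000000000) (nat_lit 0x0) (nat_lit 0x100018000e000500008000400000002000000000000000000000000000000000000000) := T_32 (nat_lit 224) (nat_lit 241) (nat_lit 5) (nat_lit 4) (nat_lit 10) L79856 (by decide +kernel)
theorem L79858 : W_32 (nat_lit 7) (nat_lit 0x200050006800240000001000080000000000000000000000000000000) (nat_lit 0x0) (nat_lit 0x100018000e000500008000400000012000800000000000000000000000000000000000) := T_32 (nat_lit 143) (nat_lit 160) (nat_lit 6) (nat_lit 7) (nat_lit 11) L79857 (by decide +kernel)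
theorem L79859 : W_32 (nat_lit 2) (nat_lit 0x600050006800240013001000080000000000000000000000000000000) (nat_lit 0x0) (nat_lit 0x2000100008000000000000000000000000000000000000000000000000000) := D_32 (nat_lit 224) (nat_lit 241) (nat_lit 207) (nat_lit 5) (nat_lit 4) (nat_lit 10) (nat_lit 5) (nat_lit 4) (nat_lit 9) (by decide +kernel)
theorem L79860 : W_32 (nat_lit 3) (nat_lit 0x600050006800240011001000080000000000000000000000000000000) (nat_lit 0x0) (nat_lit 0x2000100008000000000002000080000000000000000000000000000000000) := T_32 (nat_lit 157) (nat_lit 139) (nat_lit 4) (nat_lit 4) (nat_lit 12) L79859 (by decide +kernel)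
theorem L79861 : W_32 (nat_lit 4) (nat_lit 0x600050006800240001001000080000000000000000000000000000000) (nat_lit 0x0) (nat_lit 0x2000100008000000000012000880000000000000000000000000000000000) := T_32 (nat_lit 160) (nat_lit 143) (nat_lit 6) (nat_lit 7) (nat_lit 11) L79860 (by decide +kernel)
theorem L79862 : W_32 (nat_lit 5) (nat_lit 0x600050006800240000001000080000000000000000000000000000000) (nat_lit 0x0) (nat_lit 0x2000100008000000020013000880000000000000000000000000000000000) := T_32 (nat_lit 156) (nat_lit 173) (nat_lit 4) (nat_lit 4) (nat_lit 13) L79861 (by decide +kernel)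
theorem L79863 : W_32 (nat_lit 6) (nat_lit 0x200050006800240000001000080000000000000000000000000000000) (nat_lit 0x0) (nat_lit 0xa000500008000000020013000880000000000000000000000000000000000) := T_32 (nat_lit 226) (nat_lit 243) (nat_lit 7) (nat_lit 4) (nat_lit 10) L79862 (by decide +kernel)
theorem L79864 : W_32 (nat_lit 2) (nat_lit 0x40002000500068002e0010001000080000000000000000000000000000000) (nat_lit 0x0) (nat_lit 0x100008000400000000000000000000000000000000000000000000000000000000) := D_32 (nat_lit 243) (nat_lit 226) (nat_lit 260) (nat_lit 7) (nat_lit 4) (nat_lit 10) (nat_lit 7) (nat_lit 4) (nat_lit 11) (by decide +kernel)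
theorem L79865 : W_32 (nat_lit 3) (nat_lit 0x2000500068002e0010001000080000000000000000000000000000000) (nat_lit 0x0) (nat_lit 0x10000c000400000000400000000000000000000000000000000000000000000000) := T_32 (nat_lit 242) (nat_lit 190) (nat_lit 4) (nat_lit 4) (nat_lit 14) L79864 (by decide +kernel)
theorem L79866 : W_32 (nat_lit 4) (nat_lit 0x200050006800260010001000080000000000000000000000000000000) (nat_lit 0x0) (nat_lit 0x10000c000400000000400180000000000000000000000000000000000000000000) := T_32 (nat_lit 175) (nat_lit 176) (nat_lit 3) (nat_lit 3) (nat_lit 10) L79865 (by decide +kernel)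
theorem L79867 : W_32 (nat_lit 5) (nat_lit 0x200050006800240010001000080000000000000000000000000000000) (nat_lit 0x0) (nat_lit 0x10000c0004000000004001a0001000000000000000000000000000000000000000) := T_32 (nat_lit 173) (nat_lit 156) (nat_lit 4) (nat_lit 4) (nat_lit 13) L79866 (by decide +kernel)
theorem L79868 : W_32 (nat_lit 6) (nat_lit 0x200050006800240000001000080000000000000000000000000000000) (nat_lit 0x0) (nat_lit 0x10000c0004000000004001a0011000800000000000000000000000000000000000) := T_32 (nat_lit 160) (nat_lit 143) (nat_lit 6) (nat_lit 7) (nat_lit 11) L79867 (by decide +kernel)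
theorem L79869 : W_32 (nat_lit 8) (nat_lit 0x50006800240000001000080000000000000000000000000000000) (nat_lit 0x0) (nat_lit 0x10001c000e0007000080004001a0013000880000000000000000000000000000000000) := Q_32 (nat_lit 225) (C_32 L79840 (C_32 L79826 (C_32 L79858 (C_32 L79863 (C_32 L79868 N_32))))) (by decide +kernel)
theorem L79870 : W_32 (nat_lit 2) (nat_lit 0x4000200058006c00240007001800080000000000000000000000000000000) (nat_lit 0x0) (nat_lit 0x100008000400000000000000000000000000000000000000000000000000000000) := D_32 (nat_lit 243) (nat_lit 226) (nat_lit 260) (nat_lit 7) (nat_lit 4) (nat_lit 10) (nat_lit 7) (nat_lit 4) (nat_lit 11) (by decide +kernel)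
theorem L79871 : W_32 (nat_lit 3) (nat_lit 0x200058006c00240007001800080000000000000000000000000000000) (nat_lit 0x0) (nat_lit 0x18000c000400000000000000000000000000000000000000000000000000000000) := T_32 (nat_lit 242) (nat_lit 259) (nat_lit 4) (nat_lit 4) (nat_lit 15) L79870 (by decide +kernel)
theorem L79872 : W_32 (nat_lit 4) (nat_lit 0x58006c00240007001800080000000000000000000000000000000) (nat_lit 0x0) (nat_lit 0x18000c000600000000000020000000000000000000000000000000000000000000) := T_32 (nat_lit 225) (nat_lit 173) (nat_lit 7) (nat_lit 3) (nat_lit 9) L79871 (by decide +kernel)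
theorem L79873 : W_32 (nat_lit 5) (nat_lit 0x58006800240007001800080000000000000000000000000000000) (nat_lit 0x0) (nat_lit 0x18000c000600000000400020000000100000000000000000000000000000000000) := T_32 (nat_lit 190) (nat_lit 140) (nat_lit 5) (nat_lit 4) (nat_lit 8) L79872 (by decide +kernel)
theorem L79874 : W_32 (nat_lit 6) (nat_lit 0x50006800240007001800080000000000000000000000000000000) (nat_lit 0x0) (nat_lit 0x18000c000700008000400020000000100000000000000000000000000000000000) := T_32 (nat_lit 207) (nat_lit 224) (nat_lit 5) (nat_lit 4) (nat_lit 9) L79873 (by decide +kernel)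
theorem L79875 : W_32 (nat_lit 7) (nat_lit 0x50006800240006001800080000000000000000000000000000000) (nat_lit 0x0) (nat_lit 0x18000c000700008000400020001000180000000000000000000000000000000000) := T_32 (nat_lit 156) (nat_lit 139) (nat_lit 4) (nat_lit 4) (nat_lit 12) L79874 (by decide +kernel)
theorem L79876 : W_32 (nat_lit 8) (nat_lit 0x50006800240002001800080000000000000000000000000000000) (nat_lit 0x0) (nat_lit 0x18000c000700008000400020005000380000000000000000000000000000000000) := T_32 (nat_lit 158) (nat_lit 141) (nat_lit 6) (nat_lit 4) (nat_lit 12) L79875 (by decide +kernel)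
theorem L79877 : W_32 (nat_lit 9) (nat_lit 0x50006800240002001000080000000000000000000000000000000) (nat_lit 0x0) (nat_lit 0x18000c000700008000400020015000b80000000000000000000000000000000000) := T_32 (nat_lit 143) (nat_lit 160) (nat_lit 6) (nat_lit 7) (nat_lit 11) L79876 (by decide +kernel)
theorem L79878 : W_32 (nat_lit 2) (nat_lit 0x200050006800240007001000080000000000000000000000000000000) (nat_lit 0x0) (nat_lit 0x2000100008000000000000000000000000000000000000000000000000000) := D_32 (nat_lit 224) (nat_lit 207) (nat_lit 241) (nat_lit 5) (nat_lit 4) (nat_lit 9) (nat_lit 5) (nat_lit 4) (nat_lit 10) (by decide +kernel)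
theorem L79879 : W_32 (nat_lit 3) (nat_lit 0x50006800240007001000080000000000000000000000000000000) (nat_lit 0x0) (nat_lit 0x2000300008000000020000000000000000000000000000000000000000000) := T_32 (nat_lit 225) (nat_lit 173) (nat_lit 4) (nat_lit 4) (nat_lit 13) L79878 (by decide +kernel)
theorem L79880 : W_32 (nat_lit 4) (nat_lit 0x50006800240003001000080000000000000000000000000000000) (nat_lit 0x0) (nat_lit 0x2000300008000000020004000200000000000000000000000000000000000) := T_32 (nat_lit 158) (nat_lit 141) (nat_lit 6) (nat_lit 4) (nat_lit 12) L79879 (by decide +kernel)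
theorem L79881 : W_32 (nat_lit 5) (nat_lit 0x50006800240002001000080000000000000000000000000000000) (nat_lit 0x0) (nat_lit 0x2000300008000000020005000280000000000000000000000000000000000) := T_32 (nat_lit 156) (nat_lit 139) (nat_lit 4) (nat_lit 4) (nat_lit 12) L79880 (by decide +kernel)
theorem L79882 : W_32 (nat_lit 2) (nat_lit 0x58006800240002001100080000000000000000000000000000000) (nat_lit 0x0) (nat_lit 0x1000080004000000000000000000000000000000) := D_32 (nat_lit 139) (nat_lit 122) (nat_lit 156) (nat_lit 4) (nat_lit 4) (nat_lit 11) (nat_lit 4) (nat_lit 4) (nat_lit 12) (by decide +kernel)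
theorem L79883 : W_32 (nat_lit 3) (nat_lit 0x58006800240002001000080000000000000000000000000000000) (nat_lit 0x0) (nat_lit 0x400000001000180004000000000000000000000000000000) := T_32 (nat_lit 140) (nat_lit 190) (nat_lit 5) (nat_lit 4) (nat_lit 8) L79882 (by decide +kernel)
theorem L79884 : W_32 (nat_lit 4) (nat_lit 0x50006800240002001000080000000000000000000000000000000) (nat_lit 0x0) (nat_lit 0x100008000400000001000180004000000000000000000000000000000) := T_32 (nat_lit 207) (nat_lit 224) (nat_lit 5) (nat_lit 4) (nat_lit 9) L79883 (by decide +kernel)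
theorem L79885 : W_32 (nat_lit 2) (nat_lit 0x58006800240002001900080000000000000000000000000000000) (nat_lit 0x0) (nat_lit 0x4000200010000000000000000000000000000000) := D_32 (nat_lit 141) (nat_lit 158) (nat_lit 124) (nat_lit 6) (nat_lit 4) (nat_lit 12) (nat_lit 6) (nat_lit 4) (nat_lit 11) (by decide +kernel)
theorem L79886 : W_32 (nat_lit 3) (nat_lit 0x58006800240002001800080000000000000000000000000000000) (nat_lit 0x0) (nat_lit 0x400000004000300010000000000000000000000000000000) := T_32 (nat_lit 140) (nat_lit 190) (nat_lit 5) (nat_lit 4) (nat_lit 8) L79885 (by decide +kernel)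
theorem L79887 : W_32 (nat_lit 4) (nat_lit 0x50006800240002001800080000000000000000000000000000000) (nat_lit 0x0) (nat_lit 0x100008000400000004000300010000000000000000000000000000000) := T_32 (nat_lit 207) (nat_lit 224) (nat_lit 5) (nat_lit 4) (nat_lit 9) L79886 (by decide +kernel)
theorem L79888 : W_32 (nat_lit 5) (nat_lit 0x50006800240002001000080000000000000000000000000000000) (nat_lit 0x0) (nat_lit 0x100008000400000014000b00010000000000000000000000000000000) := T_32 (nat_lit 143) (nat_lit 160) (nat_lit 6) (nat_lit 7) (nat_lit 11) L79887 (by decide +kernel)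
theorem L79889 : W_32 (nat_lit 2) (nat_lit 0xa000200050006800240017001000080000000000000000000000000000000) (nat_lit 0x0) (nat_lit 0x140004000000000000000000000000000000000000000000000000000000000000) := D_32 (nat_lit 242) (nat_lit 258) (nat_lit 260) (nat_lit 5) (nat_lit 4) (nat_lit 11) (nat_lit 7) (nat_lit 4) (nat_lit 11) (by decide +kernel)
theorem L79890 : W_32 (nat_lit 3) (nat_lit 0x2000200050006800240017001000080000000000000000000000000000000) (nat_lit 0x0) (nat_lit 0x14000c000400000000000000000000000000000000000000000000000000000000) := T_32 (nat_lit 243) (nat_lit 226) (nat_lit 7) (nat_lit 4) (nat_lit 10) L79889 (by decide +kernel)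
theorem L79891 : W_32 (nat_lit 4) (nat_lit 0x200050006800240017001000080000000000000000000000000000000) (nat_lit 0x0) (nat_lit 0x14000e000500000000000000000000000000000000000000000000000000000000) := T_32 (nat_lit 241) (nat_lit 224) (nat_lit 5) (nat_lit 4) (nat_lit 10) L79890 (by decide +kernel)
theorem L79892 : W_32 (nat_lit 5) (nat_lit 0x50006800240017001000080000000000000000000000000000000) (nat_lit 0x0) (nat_lit 0x14000e000700000000000020000000000000000000000000000000000000000000) := T_32 (nat_lit 225) (nat_lit 173) (nat_lit 4) (nat_lit 4) (nat_lit 13) L79891 (by decide +kernel)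
theorem L79893 : W_32 (nat_lit 6) (nat_lit 0x50006800240016001000080000000000000000000000000000000) (nat_lit 0x0) (nat_lit 0x14000e000700000000000020001000080000000000000000000000000000000000) := T_32 (nat_lit 156) (nat_lit 139) (nat_lit 4) (nat_lit 4) (nat_lit 12) L79892 (by decide +kernel)
theorem L79894 : W_32 (nat_lit 7) (nat_lit 0x50006800240006001000080000000000000000000000000000000) (nat_lit 0x0) (nat_lit 0x14000e000700000000000020011000880000000000000000000000000000000000) := T_32 (nat_lit 160) (nat_lit 143) (nat_lit 6) (nat_lit 7) (nat_lit 11) L79893 (by decide +kernel)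
theorem L79895 : W_32 (nat_lit 8) (nat_lit 0x50006800240002001000080000000000000000000000000000000) (nat_lit 0x0) (nat_lit 0x14000e000700000000000020015000a80000000000000000000000000000000000) := T_32 (nat_lit 158) (nat_lit 141) (nat_lit 6) (nat_lit 4) (nat_lit 12) L79894 (by decide +kernel)
theorem L79896 : W_32 (nat_lit 2) (nat_lit 0x200050006800240003001300080000000000000000000000000000000) (nat_lit 0x0) (nat_lit 0x10000c00000000000000000000000000000000000) := D_32 (nat_lit 143) (nat_lit 160) (nat_lit 142) (nat_lit 6) (nat_lit 7) (nat_lit 11) (nat_lit 1) (nat_lit 7) (nat_lit 8) (by decide +kernel)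
theorem L79897 : W_32 (nat_lit 3) (nat_lit 0x200050006800240003001200080000000000000000000000000000000) (nat_lit 0x0) (nat_lit 0x10000d00010000000000000000000000000000000) := T_32 (nat_lit 140) (nat_lit 124) (nat_lit 6) (nat_lit 4) (nat_lit 11) L79896 (by decide +kernel)
theorem L79898 : W_32 (nat_lit 4) (nat_lit 0x50006800240003001200080000000000000000000000000000000) (nat_lit 0x0) (nat_lit 0x200000000000020010000d00010000000000000000000000000000000) := T_32 (nat_lit 225) (nat_lit 173) (nat_lit 4) (nat_lit 4) (nat_lit 13) L79897 (by decide +kernel)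
theorem L79899 : W_32 (nat_lit 5) (nat_lit 0x50006800240003001000080000000000000000000000000000000) (nat_lit 0x0) (nat_lit 0x200000000000020014000f00010000000000000000000000000000000) := T_32 (nat_lit 141) (nat_lit 158) (nat_lit 6) (nat_lit 4) (nat_lit 12) L79898 (by decide +kernel)
theorem L79900 : W_32 (nat_lit 6) (nat_lit 0x50006800240002001000080000000000000000000000000000000) (nat_lit 0x0) (nat_lit 0x200000000000020015000f80010000000000000000000000000000000) := T_32 (nat_lit 156) (nat_lit 139) (nat_lit 4) (nat_lit 4) (nat_lit 12) L79899 (by decide +kernel)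
theorem L79901 : W_32 (nat_lit 10) (nat_lit 0x50006800240000001000080000000000000000000000000000000) (nat_lit 0x0) (nat_lit 0x1c000e000700008000400020017000f80014000000000000000000000000000000) := Q_32 (nat_lit 157) (C_32 L79877 (C_32 L79881 (C_32 L79884 (C_32 L79888 (C_32 L79895 (C_32 L79900 N_32)))))) (by decide +kernel)
theorem L79902 : W_32 (nat_lit 2) (nat_lit 0xa0002000500068003c0000001800080000000000000000000000000000000) (nat_lit 0x0) (nat_lit 0x140004000000000000000000000000000000000000000000000000000000000000) := D_32 (nat_lit 242) (nat_lit 260) (nat_lit 258) (nat_lit 7) (nat_lit 4) (nat_lit 11) (nat_lit 5) (nat_lit 4) (nat_lit 11) (by decide +kernel)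
theorem L79903 : W_32 (nat_lit 3) (nat_lit 0x80002000500068003c0000001800080000000000000000000000000000000) (nat_lit 0x0) (nat_lit 0x140006000100000000000000000000000000000000000000000000000000000000) := T_32 (nat_lit 241) (nat_lit 224) (nat_lit 5) (nat_lit 4) (nat_lit 10) L79902 (by decide +kernel)
theorem L79904 : W_32 (nat_lit 4) (nat_lit 0x2000500068003c0000001800080000000000000000000000000000000) (nat_lit 0x0) (nat_lit 0x14000e000500000000000000000000000000000000000000000000000000000000) := T_32 (nat_lit 243) (nat_lit 226) (nat_lit 7) (nat_lit 4) (nat_lit 10) L79903 (by decide +kernel)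
theorem L79905 : W_32 (nat_lit 5) (nat_lit 0x2000500068002c0000001800080000000000000000000000000000000) (nat_lit 0x0) (nat_lit 0x14000e000500000000400100000000000000000000000000000000000000000000) := T_32 (nat_lit 176) (nat_lit 190) (nat_lit 1) (nat_lit 7) (nat_lit 10) L79904 (by decide +kernel)
theorem L79906 : W_32 (nat_lit 6) (nat_lit 0x200050006800240000001800080000000000000000000000000000000) (nat_lit 0x0) (nat_lit 0x14000e000500000000400180004000000000000000000000000000000000000000) := T_32 (nat_lit 175) (nat_lit 158) (nat_lit 6) (nat_lit 4) (nat_lit 13) L79905 (by decide +kernel)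
theorem L79907 : W_32 (nat_lit 7) (nat_lit 0x200050006800240000001000080000000000000000000000000000000) (nat_lit 0x0) (nat_lit 0x14000e000500000000400180014000800000000000000000000000000000000000) := T_32 (nat_lit 143) (nat_lit 160) (nat_lit 6) (nat_lit 7) (nat_lit 11) L79906 (by decide +kernel)
theorem L79908 : W_32 (nat_lit 8) (nat_lit 0x50006800240000001000080000000000000000000000000000000) (nat_lit 0x0) (nat_lit 0x14000e0007000000004001a0015000800000000000000000000000000000000000) := Q_32 (nat_lit 225) (C_32 L79840 (C_32 L79868 (C_32 L79826 (C_32 L79907 (C_32 L79822 N_32))))) (by decide +kernel)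
theorem L79909 : W_32 (nat_lit 7) (nat_lit 0x50006800240000001000080000000000000000000000000000000) (nat_lit 0x0) (nat_lit 0x2000300008000400020017000f80014000000000000000000000000000000) := Q_32 (nat_lit 157) (C_32 L79900 (C_32 L79884 (C_32 L79888 (C_32 L79881 N_32)))) (by decide +kernel)
theorem L79910 : W_32 (nat_lit 2) (nat_lit 0x200050006800240016001000080000000000000000000000000000000) (nat_lit 0x0) (nat_lit 0x2000100008000000000000000000000000000000000000000000000000000) := D_32 (nat_lit 224) (nat_lit 241) (nat_lit 207) (nat_lit 5) (nat_lit 4) (nat_lit 10) (nat_lit 5) (nat_lit 4) (nat_lit 9) (by decide +kernel)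
theorem L79911 : W_32 (nat_lit 3) (nat_lit 0x50006800240016001000080000000000000000000000000000000) (nat_lit 0x0) (nat_lit 0x2000300008000000080000000000000000000000000000000000000000000) := T_32 (nat_lit 225) (nat_lit 175) (nat_lit 6) (nat_lit 4) (nat_lit 13) L79910 (by decide +kernel)
theorem L79912 : W_32 (nat_lit 4) (nat_lit 0x50006800240006001000080000000000000000000000000000000) (nat_lit 0x0) (nat_lit 0x2000300008000000080010000800000000000000000000000000000000000) := T_32 (nat_lit 160) (nat_lit 143) (nat_lit 6) (nat_lit 7) (nat_lit 11) L79911 (by decide +kernel)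
theorem L79913 : W_32 (nat_lit 5) (nat_lit 0x50006800240002001000080000000000000000000000000000000) (nat_lit 0x0) (nat_lit 0x2000300008000000080014000a00000000000000000000000000000000000) := T_32 (nat_lit 158) (nat_lit 141) (nat_lit 6) (nat_lit 4) (nat_lit 12) L79912 (by decide +kernel)
theorem L79914 : W_32 (nat_lit 2) (nat_lit 0xa000200050006800240006001800080000000000000000000000000000000) (nat_lit 0x0) (nat_lit 0x140004000000000000000000000000000000000000000000000000000000000000) := D_32 (nat_lit 242) (nat_lit 258) (nat_lit 260) (nat_lit 5) (nat_lit 4) (nat_lit 11) (nat_lit 7) (nat_lit 4) (nat_lit 11) (by decide +kernel)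
theorem L79915 : W_32 (nat_lit 3) (nat_lit 0x2000200050006800240006001800080000000000000000000000000000000) (nat_lit 0x0) (nat_lit 0x14000c000400000000000000000000000000000000000000000000000000000000) := T_32 (nat_lit 243) (nat_lit 226) (nat_lit 7) (nat_lit 4) (nat_lit 10) L79914 (by decide +kernel)
theorem L79916 : W_32 (nat_lit 4) (nat_lit 0x200050006800240006001800080000000000000000000000000000000) (nat_lit 0x0) (nat_lit 0x14000e000500000000000000000000000000000000000000000000000000000000) := T_32 (nat_lit 241) (nat_lit 224) (nat_lit 5) (nat_lit 4) (nat_lit 10) L79915 (by decide +kernel)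
theorem L79917 : W_32 (nat_lit 5) (nat_lit 0x50006800240006001800080000000000000000000000000000000) (nat_lit 0x0) (nat_lit 0x14000e000700000000000080000000000000000000000000000000000000000000) := T_32 (nat_lit 225) (nat_lit 175) (nat_lit 6) (nat_lit 4) (nat_lit 13) L79916 (by decide +kernel)
theorem L79918 : W_32 (nat_lit 6) (nat_lit 0x50006800240006001000080000000000000000000000000000000) (nat_lit 0x0) (nat_lit 0x14000e000700000000000080010000800000000000000000000000000000000000) := T_32 (nat_lit 143) (nat_lit 160) (nat_lit 6) (nat_lit 7) (nat_lit 11) L79917 (by decide +kernel)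
theorem L79919 : W_32 (nat_lit 7) (nat_lit 0x50006800240002001000080000000000000000000000000000000) (nat_lit 0x0) (nat_lit 0x14000e000700000000000080014000a00000000000000000000000000000000000) := T_32 (nat_lit 158) (nat_lit 141) (nat_lit 6) (nat_lit 4) (nat_lit 12) L79918 (by decide +kernel)
theorem L79920 : W_32 (nat_lit 2) (nat_lit 0x500068002c0016001000080000000000000000000000000000000) (nat_lit 0x0) (nat_lit 0x100001000080000000000000000000000000000000000) := D_32 (nat_lit 156) (nat_lit 139) (nat_lit 176) (nat_lit 4) (nat_lit 4) (nat_lit 12) (nat_lit 0) (nat_lit 7) (nat_lit 10) (by decide +kernel)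
theorem L79921 : W_32 (nat_lit 3) (nat_lit 0x50006800240016001000080000000000000000000000000000000) (nat_lit 0x0) (nat_lit 0x200000000000180001000080000000000000000000000000000000000) := T_32 (nat_lit 175) (nat_lit 225) (nat_lit 6) (nat_lit 4) (nat_lit 13) L79920 (by decide +kernel)
theorem L79922 : W_32 (nat_lit 4) (nat_lit 0x50006800240006001000080000000000000000000000000000000) (nat_lit 0x0) (nat_lit 0x200000000000180011000880000000000000000000000000000000000) := T_32 (nat_lit 160) (nat_lit 143) (nat_lit 6) (nat_lit 7) (nat_lit 11) L79921 (by decide +kernel)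
theorem L79923 : W_32 (nat_lit 5) (nat_lit 0x50006800240002001000080000000000000000000000000000000) (nat_lit 0x0) (nat_lit 0x200000000000180015000a80000000000000000000000000000000000) := T_32 (nat_lit 158) (nat_lit 141) (nat_lit 6) (nat_lit 4) (nat_lit 12) L79922 (by decide +kernel)
theorem L79924 : W_32 (nat_lit 8) (nat_lit 0x50006800240000001000080000000000000000000000000000000) (nat_lit 0x0) (nat_lit 0x14000e000700008000400180017000b80014000000000000000000000000000000) := Q_32 (nat_lit 157) (C_32 L79888 (C_32 L79884 (C_32 L79913 (C_32 L79919 (C_32 L79923 N_32))))) (by decide +kernel)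
theorem L79925 : W_32 (nat_lit 7) (nat_lit 0x50006800240000001000080000000000000000000000000000000) (nat_lit 0x0) (nat_lit 0xa0007000080000001a0017000a80000000000000000000000000000000000) := Q_32 (nat_lit 225) (C_32 L79863 (C_32 L79843 (C_32 L79822 N_32))) (by decide +kernel)
theorem L79926 : W_32 (nat_lit 8) (nat_lit 0x50006800240000001000080000000000000000000000000000000) (nat_lit 0x0) (nat_lit 0x10001c000e0007000080004001a0016000a00000000000000000000000000000000000) := Q_32 (nat_lit 225) (C_32 L79858 (C_32 L79907 (C_32 L79843 (C_32 L79835 N_32)))) (by decide +kernel)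
theorem L79927 : W_32 (nat_lit 2) (nat_lit 0x50006800240012001280080000000000000000000000000000000) (nat_lit 0x0) (nat_lit 0x100014000000000000000000000000000000) := D_32 (nat_lit 140) (nat_lit 124) (nat_lit 122) (nat_lit 6) (nat_lit 4) (nat_lit 11) (nat_lit 4) (nat_lit 4) (nat_lit 11) (by decide +kernel)
theorem L79928 : W_32 (nat_lit 3) (nat_lit 0x50006800240012001200080000000000000000000000000000000) (nat_lit 0x0) (nat_lit 0x1000180014000000000000000000000000000000) := T_32 (nat_lit 139) (nat_lit 156) (nat_lit 4) (nat_lit 4) (nat_lit 12) L79927 (by decide +kernel)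
theorem L79929 : W_32 (nat_lit 4) (nat_lit 0x50006800240002001200080000000000000000000000000000000) (nat_lit 0x0) (nat_lit 0x11000980014000000000000000000000000000000) := T_32 (nat_lit 160) (nat_lit 143) (nat_lit 6) (nat_lit 7) (nat_lit 11) L79928 (by decide +kernel)
theorem L79930 : W_32 (nat_lit 5) (nat_lit 0x50006800240002001000080000000000000000000000000000000) (nat_lit 0x0) (nat_lit 0x15000b80014000000000000000000000000000000) := T_32 (nat_lit 141) (nat_lit 158) (nat_lit 6) (nat_lit 4) (nat_lit 12) L79929 (by decide +kernel)
theorem L79931 : W_32 (nat_lit 2) (nat_lit 0x580068002d0017801040080000000000000000000000000000000) (nat_lit 0x0) (nat_lit 0x600020000000000000000000000000000000000000000000) := D_32 (nat_lit 190) (nat_lit 173) (nat_lit 189) (nat_lit 4) (nat_lit 3) (nat_lit 12) (nat_lit 7) (nat_lit 2) (nat_lit 8) (by decide +kernel)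
theorem L79932 : W_32 (nat_lit 3) (nat_lit 0x580068002d0017801000080000000000000000000000000000000) (nat_lit 0x0) (nat_lit 0x600020000000060000000000000000000000000000000000) := T_32 (nat_lit 138) (nat_lit 137) (nat_lit 0) (nat_lit 5) (nat_lit 9) L79931 (by decide +kernel)
theorem L79933 : W_32 (nat_lit 4) (nat_lit 0x580068002c0017801000080000000000000000000000000000000) (nat_lit 0x0) (nat_lit 0x600038000000060000000000000000000000000000000000) := T_32 (nat_lit 172) (nat_lit 171) (nat_lit 1) (nat_lit 5) (nat_lit 9) L79932 (by decide +kernel)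
theorem L79934 : W_32 (nat_lit 5) (nat_lit 0x580068002c0017001000080000000000000000000000000000000) (nat_lit 0x0) (nat_lit 0x600038000c00060000000000000000000000000000000000) := T_32 (nat_lit 155) (nat_lit 154) (nat_lit 3) (nat_lit 1) (nat_lit 9) L79933 (by decide +kernel)
theorem L79935 : W_32 (nat_lit 6) (nat_lit 0x500068002c0017001000080000000000000000000000000000000) (nat_lit 0x0) (nat_lit 0x100008000600038000c00060000000000000000000000000000000000) := T_32 (nat_lit 207) (nat_lit 224) (nat_lit 5) (nat_lit 4) (nat_lit 9) L79934 (by decide +kernel)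
theorem L79936 : W_32 (nat_lit 7) (nat_lit 0x50006800240017001000080000000000000000000000000000000) (nat_lit 0x0) (nat_lit 0x1000080006001b8000c00060000000000000000000000000000000000) := T_32 (nat_lit 175) (nat_lit 176) (nat_lit 0) (nat_lit 7) (nat_lit 10) L79935 (by decide +kernel)
theorem L79937 : W_32 (nat_lit 8) (nat_lit 0x50006800240016001000080000000000000000000000000000000) (nat_lit 0x0) (nat_lit 0x1000080006001b8001c000e0000000000000000000000000000000000) := T_32 (nat_lit 156) (nat_lit 139) (nat_lit 4) (nat_lit 4) (nat_lit 12) L79936 (by decide +kernel)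
theorem L79938 : W_32 (nat_lit 9) (nat_lit 0x50006800240012001000080000000000000000000000000000000) (nat_lit 0x0) (nat_lit 0x1000080006001b8005c002e0000000000000000000000000000000000) := T_32 (nat_lit 158) (nat_lit 141) (nat_lit 6) (nat_lit 4) (nat_lit 12) L79937 (by decide +kernel)
theorem L79939 : W_32 (nat_lit 10) (nat_lit 0x50006800240002001000080000000000000000000000000000000) (nat_lit 0x0) (nat_lit 0x1000080006001b8015c00ae0000000000000000000000000000000000) := T_32 (nat_lit 160) (nat_lit 143) (nat_lit 6) (nat_lit 7) (nat_lit 11) L79938 (by decide +kernel)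
theorem L79940 : W_32 (nat_lit 11) (nat_lit 0x50006800240000001000080000000000000000000000000000000) (nat_lit 0x0) (nat_lit 0x1000080006001b8017c00be0014000000000000000000000000000000) := Q_32 (nat_lit 157) (C_32 L79888 (C_32 L79884 (C_32 L79930 (C_32 L79939 N_32)))) (by decide +kernel)
theorem L79941 : W_32 (nat_lit 2) (nat_lit 0x80002000500068002e0000001800080000000000000000000000000000000) (nat_lit 0x0) (nat_lit 0x100004000000000000400000000000000000000000000000000000000000000000) := D_32 (nat_lit 242) (nat_lit 190) (nat_lit 260) (nat_lit 4) (nat_lit 4) (nat_lit 14) (nat_lit 7) (nat_lit 4) (nat_lit 11) (by decide +kernel)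
theorem L79942 : W_32 (nat_lit 3) (nat_lit 0x2000500068002e0000001800080000000000000000000000000000000) (nat_lit 0x0) (nat_lit 0x10000c000400000000400000000000000000000000000000000000000000000000) := T_32 (nat_lit 243) (nat_lit 226) (nat_lit 7) (nat_lit 4) (nat_lit 10) L79941 (by decide +kernel)
theorem L79943 : W_32 (nat_lit 4) (nat_lit 0x2000500068002c0000001800080000000000000000000000000000000) (nat_lit 0x0) (nat_lit 0x10000c000400000000400020001000000000000000000000000000000000000000) := T_32 (nat_lit 173) (nat_lit 156) (nat_lit 4) (nat_lit 4) (nat_lit 13) L79942 (by decide +kernel)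
theorem L79944 : W_32 (nat_lit 5) (nat_lit 0x500068002c0000001800080000000000000000000000000000000) (nat_lit 0x0) (nat_lit 0x10000c000600000000400020005000000000000000000000000000000000000000) := T_32 (nat_lit 225) (nat_lit 158) (nat_lit 6) (nat_lit 4) (nat_lit 13) L79943 (by decide +kernel)
theorem L79945 : W_32 (nat_lit 6) (nat_lit 0x500068002c0000001000080000000000000000000000000000000) (nat_lit 0x0) (nat_lit 0x10000c000600000000400020015000800000000000000000000000000000000000) := T_32 (nat_lit 143) (nat_lit 160) (nat_lit 6) (nat_lit 7) (nat_lit 11) L79944 (by decide +kernel)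
theorem L79946 : W_32 (nat_lit 2) (nat_lit 0x500068002c0000001000080000000000000000000000000000000) (nat_lit 0x0) (nat_lit 0x400120000000000000000000000000000000000000000000) := D_32 (nat_lit 176) (nat_lit 173) (nat_lit 190) (nat_lit 3) (nat_lit 3) (nat_lit 10) (nat_lit 1) (nat_lit 7) (nat_lit 10) (by decide +kernel)
theorem L79947 : W_32 (nat_lit 2) (nat_lit 0x4000c000200050006c002c0000001800080000000000000000000000000000000) (nat_lit 0x0) (nat_lit 0x800080000000000008000000000000000000000000000000000000000000000000000) := D_32 (nat_lit 259) (nat_lit 207) (nat_lit 275) (nat_lit 4) (nat_lit 4) (nat_lit 15) (nat_lit 5) (nat_lit 4) (nat_lit 12) (by decide +kernel)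
theorem L79948 : W_32 (nat_lit 3) (nat_lit 0xc000200050006c002c0000001800080000000000000000000000000000000) (nat_lit 0x0) (nat_lit 0x8000c0002000000008000000000000000000000000000000000000000000000000000) := T_32 (nat_lit 258) (nat_lit 241) (nat_lit 5) (nat_lit 4) (nat_lit 11) L79947 (by decide +kernel)
theorem L79949 : W_32 (nat_lit 4) (nat_lit 0x8000200050006c002c0000001800080000000000000000000000000000000) (nat_lit 0x0) (nat_lit 0x8001c0006000000008000000000000000000000000000000000000000000000000000) := T_32 (nat_lit 242) (nat_lit 260) (nat_lit 7) (nat_lit 4) (nat_lit 11) L79948 (by decide +kernel)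
theorem L79950 : W_32 (nat_lit 5) (nat_lit 0x80002000500068002c0000001800080000000000000000000000000000000) (nat_lit 0x0) (nat_lit 0x8001c0006000000008000400100000000000000000000000000000000000000000000) := T_32 (nat_lit 190) (nat_lit 176) (nat_lit 1) (nat_lit 7) (nat_lit 10) L79949 (by decide +kernel)
theorem L79951 : W_32 (nat_lit 6) (nat_lit 0x2000500068002c0000001800080000000000000000000000000000000) (nat_lit 0x0) (nat_lit 0x8001c000e000400008000400100000000000000000000000000000000000000000000) := T_32 (nat_lit 243) (nat_lit 226) (nat_lit 7) (nat_lit 4) (nat_lit 10) L79950 (by decide +kernel)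
theorem L79952 : W_32 (nat_lit 7) (nat_lit 0x2000500068002c0000001000080000000000000000000000000000000) (nat_lit 0x0) (nat_lit 0x8001c000e000400008000400100010000800000000000000000000000000000000000) := T_32 (nat_lit 143) (nat_lit 160) (nat_lit 6) (nat_lit 7) (nat_lit 11) L79951 (by decide +kernel)
theorem L79953 : W_32 (nat_lit 8) (nat_lit 0x500068002c0000001000080000000000000000000000000000000) (nat_lit 0x0) (nat_lit 0x8001c000e000600008000400100014000800000000000000000000000000000000000) := T_32 (nat_lit 225) (nat_lit 158) (nat_lit 6) (nat_lit 4) (nat_lit 13) L79952 (by decide +kernel)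
theorem L79954 : W_32 (nat_lit 2) (nat_lit 0x500068002e0000001000080000000000000000000000000000000) (nat_lit 0x0) (nat_lit 0x200000000000000005000000000000000000000000000000000000000) := D_32 (nat_lit 225) (nat_lit 158) (nat_lit 156) (nat_lit 6) (nat_lit 4) (nat_lit 13) (nat_lit 4) (nat_lit 4) (nat_lit 13) (by decide +kernel)
theorem L79955 : W_32 (nat_lit 3) (nat_lit 0x500068002c0000001000080000000000000000000000000000000) (nat_lit 0x0) (nat_lit 0x200000000000120005000000000000000000000000000000000000000) := T_32 (nat_lit 173) (nat_lit 176) (nat_lit 3) (nat_lit 3) (nat_lit 10) L79954 (by decide +kernel)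
theorem L79956 : W_32 (nat_lit 9) (nat_lit 0x50006800240000001000080000000000000000000000000000000) (nat_lit 0x0) (nat_lit 0x8001c000e0006000080004001a0015000800000000000000000000000000000000000) := Q_32 (nat_lit 175) (C_32 L79945 (C_32 L79946 (C_32 L79953 (C_32 L79955 N_32)))) (by decide +kernel)
theorem L79957 : W_32 (nat_lit 13) (nat_lit 0x50006800200000001000080000000000000000000000000000000) (nat_lit 0x0) (nat_lit 0x18001c000e0007000080006001f8017c00fe001c000200000000000000000000000000) := Q_32 (nat_lit 174) (C_32 L79836 (C_32 L79844 (C_32 L79852 (C_32 L79869 (C_32 L79901 (C_32 L79908 (C_32 L79909 (C_32 L79924 (C_32 L79925 (C_32 L79926 (C_32 L79940 (C_32 L79956 N_32)))))))))))) (by decide +kernel)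
theorem L79958 : W_32 (nat_lit 2) (nat_lit 0xf0006800200010001000080000000000000000000000000000000) (nat_lit 0x0) (nat_lit 0x3000100000000000000000000000000000000000000000000000000000) := D_32 (nat_lit 229) (nat_lit 228) (nat_lit 212) (nat_lit 3) (nat_lit 4) (nat_lit 12) (nat_lit 7) (nat_lit 7) (nat_lit 9) (by decide +kernel)
theorem L79959 : W_32 (nat_lit 3) (nat_lit 0x70006800200010001000080000000000000000000000000000000) (nat_lit 0x0) (nat_lit 0x3000180000400000000000000000000000000000000000000000000000) := T_32 (nat_lit 211) (nat_lit 190) (nat_lit 0) (nat_lit 7) (nat_lit 12) L79958 (by decide +kernel)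
theorem L79960 : W_32 (nat_lit 4) (nat_lit 0x50006800200010001000080000000000000000000000000000000) (nat_lit 0x0) (nat_lit 0x30001a8000400000000000000000000000000000000000000000000000) := T_32 (nat_lit 209) (nat_lit 207) (nat_lit 2) (nat_lit 3) (nat_lit 12) L79959 (by decide +kernel)
theorem L79961 : W_32 (nat_lit 5) (nat_lit 0x50006800200000001000080000000000000000000000000000000) (nat_lit 0x0) (nat_lit 0x30001a8000400000010000800000000000000000000000000000000000) := T_32 (nat_lit 160) (nat_lit 143) (nat_lit 6) (nat_lit 7) (nat_lit 11) L79960 (by decide +kernel)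
theorem L79962 : W_32 (nat_lit 5) (nat_lit 0xf0006800200000001000080000000000000000000000000000000) (nat_lit 0x0) (nat_lit 0xe700700000000000000000000000000000000000000000000000000000) := T_32 (nat_lit 225) (nat_lit 224) (nat_lit 1) (nat_lit 7) (nat_lit 12) L79265 (by decide +kernel)
theorem L79963 : W_32 (nat_lit 6) (nat_lit 0x70006800200000001000080000000000000000000000000000000) (nat_lit 0x0) (nat_lit 0xe700780000400000000000000000000000000000000000000000000000) := T_32 (nat_lit 211) (nat_lit 190) (nat_lit 0) (nat_lit 7) (nat_lit 12) L79962 (by decide +kernel)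
theorem L79964 : W_32 (nat_lit 7) (nat_lit 0x50006800200000001000080000000000000000000000000000000) (nat_lit 0x0) (nat_lit 0xe7007a8000400000000000000000000000000000000000000000000000) := T_32 (nat_lit 209) (nat_lit 207) (nat_lit 2) (nat_lit 3) (nat_lit 12) L79963 (by decide +kernel)
theorem L79965 : W_32 (nat_lit 2) (nat_lit 0x580068002c0003001000080000000000000000000000000000000) (nat_lit 0x0) (nat_lit 0x200000000000020004000000000000000000000000000000000000000) := D_32 (nat_lit 225) (nat_lit 173) (nat_lit 158) (nat_lit 4) (nat_lit 4) (nat_lit 13) (nat_lit 6) (nat_lit 4) (nat_lit 13) (by decide +kernel)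
theorem L79966 : W_32 (nat_lit 3) (nat_lit 0x58006800240003001000080000000000000000000000000000000) (nat_lit 0x0) (nat_lit 0x2000000000001a0004000000000000000000000000000000000000000) := T_32 (nat_lit 175) (nat_lit 176) (nat_lit 0) (nat_lit 7) (nat_lit 10) L79965 (by decide +kernel)
theorem L79967 : W_32 (nat_lit 4) (nat_lit 0x58006800240002001000080000000000000000000000000000000) (nat_lit 0x0) (nat_lit 0x2000000000001a0005000080000000000000000000000000000000000) := T_32 (nat_lit 156) (nat_lit 139) (nat_lit 4) (nat_lit 4) (nat_lit 12) L79966 (by decide +kernel)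
theorem L79968 : W_32 (nat_lit 5) (nat_lit 0x58006800240000001000080000000000000000000000000000000) (nat_lit 0x0) (nat_lit 0x3000000000001a0007000080000000000000000000000000000000000) := T_32 (nat_lit 157) (nat_lit 224) (nat_lit 5) (nat_lit 4) (nat_lit 9) L79967 (by decide +kernel)
theorem L79969 : W_32 (nat_lit 6) (nat_lit 0x50006800240000001000080000000000000000000000000000000) (nat_lit 0x0) (nat_lit 0x3000280000001a0007000080000000000000000000000000000000000) := T_32 (nat_lit 207) (nat_lit 209) (nat_lit 2) (nat_lit 3) (nat_lit 12) L79968 (by decide +kernel)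
theorem L79970 : W_32 (nat_lit 2) (nat_lit 0x58006800240017001000080000000000000000000000000000000) (nat_lit 0x0) (nat_lit 0x2000000000000a0000000000000000000000000000000000000000000) := D_32 (nat_lit 225) (nat_lit 173) (nat_lit 175) (nat_lit 4) (nat_lit 4) (nat_lit 13) (nat_lit 6) (nat_lit 4) (nat_lit 13) (by decide +kernel)
theorem L79971 : W_32 (nat_lit 3) (nat_lit 0x58006800240013001000080000000000000000000000000000000) (nat_lit 0x0) (nat_lit 0x2000000000000a0004000200000000000000000000000000000000000) := T_32 (nat_lit 158) (nat_lit 141) (nat_lit 6) (nat_lit 4) (nat_lit 12) L79970 (by decide +kernel)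
theorem L79972 : W_32 (nat_lit 4) (nat_lit 0x58006800240012001000080000000000000000000000000000000) (nat_lit 0x0) (nat_lit 0x2000000000000a0005000280000000000000000000000000000000000) := T_32 (nat_lit 156) (nat_lit 139) (nat_lit 4) (nat_lit 4) (nat_lit 12) L79971 (by decide +kernel)
theorem L79973 : W_32 (nat_lit 5) (nat_lit 0x58006800240010001000080000000000000000000000000000000) (nat_lit 0x0) (nat_lit 0x3000000000000a0007000280000000000000000000000000000000000) := T_32 (nat_lit 157) (nat_lit 224) (nat_lit 5) (nat_lit 4) (nat_lit 9) L79972 (by decide +kernel)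
theorem L79974 : W_32 (nat_lit 6) (nat_lit 0x58006800240000001000080000000000000000000000000000000) (nat_lit 0x0) (nat_lit 0x3000000000000a0017000a80000000000000000000000000000000000) := T_32 (nat_lit 160) (nat_lit 143) (nat_lit 6) (nat_lit 7) (nat_lit 11) L79973 (by decide +kernel)
theorem L79975 : W_32 (nat_lit 7) (nat_lit 0x50006800240000001000080000000000000000000000000000000) (nat_lit 0x0) (nat_lit 0x3000280000000a0017000a80000000000000000000000000000000000) := T_32 (nat_lit 207) (nat_lit 209) (nat_lit 2) (nat_lit 3) (nat_lit 12) L79974 (by decide +kernel)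
theorem L79976 : W_32 (nat_lit 2) (nat_lit 0x100058006800240010001000080000000000000000000000000000000) (nat_lit 0x0) (nat_lit 0x40002000200000000000000000000000000000000000000000000000000000000) := D_32 (nat_lit 241) (nat_lit 225) (nat_lit 258) (nat_lit 5) (nat_lit 4) (nat_lit 10) (nat_lit 6) (nat_lit 3) (nat_lit 15) (by decide +kernel)
theorem L79977 : W_32 (nat_lit 3) (nat_lit 0x58006800240010001000080000000000000000000000000000000) (nat_lit 0x0) (nat_lit 0x40002000300000000000000002000000000000000000000000000000000000000) := T_32 (nat_lit 224) (nat_lit 157) (nat_lit 5) (nat_lit 4) (nat_lit 9) L79976 (by decide +kernel)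
theorem L79978 : W_32 (nat_lit 4) (nat_lit 0x58006800240000001000080000000000000000000000000000000) (nat_lit 0x0) (nat_lit 0x40002000300000000000000012000800000000000000000000000000000000000) := T_32 (nat_lit 160) (nat_lit 143) (nat_lit 6) (nat_lit 7) (nat_lit 11) L79977 (by decide +kernel)
theorem L79979 : W_32 (nat_lit 5) (nat_lit 0x50006800240000001000080000000000000000000000000000000) (nat_lit 0x0) (nat_lit 0x40002000300028000000000012000800000000000000000000000000000000000) := T_32 (nat_lit 207) (nat_lit 209) (nat_lit 2) (nat_lit 3) (nat_lit 12) L79978 (by decide +kernel)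
theorem L79980 : W_32 (nat_lit 2) (nat_lit 0xa000200058006800240000001000080000000000000000000000000000000) (nat_lit 0x0) (nat_lit 0x140004000000000000000000000000000000000000000000000000000000000000) := D_32 (nat_lit 242) (nat_lit 260) (nat_lit 258) (nat_lit 7) (nat_lit 4) (nat_lit 11) (nat_lit 5) (nat_lit 4) (nat_lit 11) (by decide +kernel)
theorem L79981 : W_32 (nat_lit 3) (nat_lit 0x8000200058006800240000001000080000000000000000000000000000000) (nat_lit 0x0) (nat_lit 0x140006000100000000000000000000000000000000000000000000000000000000) := T_32 (nat_lit 241) (nat_lit 224) (nat_lit 5) (nat_lit 4) (nat_lit 10) L79980 (by decide +kernel)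
theorem L79982 : W_32 (nat_lit 4) (nat_lit 0x200058006800240000001000080000000000000000000000000000000) (nat_lit 0x0) (nat_lit 0x14000e000500000000000000000000000000000000000000000000000000000000) := T_32 (nat_lit 243) (nat_lit 226) (nat_lit 7) (nat_lit 4) (nat_lit 10) L79981 (by decide +kernel)
theorem L79983 : W_32 (nat_lit 5) (nat_lit 0x200050006800240000001000080000000000000000000000000000000) (nat_lit 0x0) (nat_lit 0x14000e000500028000000000000000000000000000000000000000000000000000) := T_32 (nat_lit 207) (nat_lit 209) (nat_lit 2) (nat_lit 3) (nat_lit 12) L79982 (by decide +kernel)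
theorem L79984 : W_32 (nat_lit 6) (nat_lit 0x50006800240000001000080000000000000000000000000000000) (nat_lit 0x0) (nat_lit 0x14000e0007000280000001a0005000000000000000000000000000000000000000) := Q_32 (nat_lit 225) (C_32 L79983 (C_32 L79822 N_32)) (by decide +kernel)
theorem L79985 : W_32 (nat_lit 2) (nat_lit 0x58006800240012001280080000000000000000000000000000000) (nat_lit 0x0) (nat_lit 0x100014000000000000000000000000000000) := D_32 (nat_lit 140) (nat_lit 122) (nat_lit 124) (nat_lit 4) (nat_lit 4) (nat_lit 11) (nat_lit 6) (nat_lit 4) (nat_lit 11) (by decide +kernel)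
theorem L79986 : W_32 (nat_lit 3) (nat_lit 0x58006800240012001080080000000000000000000000000000000) (nat_lit 0x0) (nat_lit 0x4000300014000000000000000000000000000000) := T_32 (nat_lit 141) (nat_lit 158) (nat_lit 6) (nat_lit 4) (nat_lit 12) L79985 (by decide +kernel)
theorem L79987 : W_32 (nat_lit 4) (nat_lit 0x58006800240012001000080000000000000000000000000000000) (nat_lit 0x0) (nat_lit 0x5000380014000000000000000000000000000000) := T_32 (nat_lit 139) (nat_lit 156) (nat_lit 4) (nat_lit 4) (nat_lit 12) L79986 (by decide +kernel)
theorem L79988 : W_32 (nat_lit 5) (nat_lit 0x58006800240010001000080000000000000000000000000000000) (nat_lit 0x0) (nat_lit 0x100000000000000007000380014000000000000000000000000000000) := T_32 (nat_lit 157) (nat_lit 224) (nat_lit 5) (nat_lit 4) (nat_lit 9) L79987 (by decide +kernel)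
theorem L79989 : W_32 (nat_lit 6) (nat_lit 0x50006800240010001000080000000000000000000000000000000) (nat_lit 0x0) (nat_lit 0x100028000000000007000380014000000000000000000000000000000) := T_32 (nat_lit 207) (nat_lit 209) (nat_lit 2) (nat_lit 3) (nat_lit 12) L79988 (by decide +kernel)
theorem L79990 : W_32 (nat_lit 7) (nat_lit 0x50006800240000001000080000000000000000000000000000000) (nat_lit 0x0) (nat_lit 0x100028000000000017000b80014000000000000000000000000000000) := T_32 (nat_lit 160) (nat_lit 143) (nat_lit 6) (nat_lit 7) (nat_lit 11) L79989 (by decide +kernel)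
theorem L79991 : W_32 (nat_lit 2) (nat_lit 0x600050006800240002001800080000000000000000000000000000000) (nat_lit 0x0) (nat_lit 0x20001000080000000000000000000000000000000000) := D_32 (nat_lit 156) (nat_lit 173) (nat_lit 139) (nat_lit 4) (nat_lit 4) (nat_lit 13) (nat_lit 4) (nat_lit 4) (nat_lit 12) (by decide +kernel)
theorem L79992 : W_32 (nat_lit 3) (nat_lit 0x600050006800240000001800080000000000000000000000000000000) (nat_lit 0x0) (nat_lit 0x20000000020003000080000000000000000000000000000000000) := T_32 (nat_lit 157) (nat_lit 209) (nat_lit 7) (nat_lit 4) (nat_lit 9) L79991 (by decide +kernel)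
theorem L79993 : W_32 (nat_lit 4) (nat_lit 0x200050006800240000001800080000000000000000000000000000000) (nat_lit 0x0) (nat_lit 0x8000400020000000020003000080000000000000000000000000000000000) := T_32 (nat_lit 226) (nat_lit 243) (nat_lit 7) (nat_lit 4) (nat_lit 10) L79992 (by decide +kernel)
theorem L79994 : W_32 (nat_lit 5) (nat_lit 0x200050006800240000001000080000000000000000000000000000000) (nat_lit 0x0) (nat_lit 0x8000400020000000020013000880000000000000000000000000000000000) := T_32 (nat_lit 143) (nat_lit 160) (nat_lit 6) (nat_lit 7) (nat_lit 11) L79993 (by decide +kernel)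
theorem L79995 : W_32 (nat_lit 2) (nat_lit 0x6000500068002c0012001000080000000000000000000000000000000) (nat_lit 0x0) (nat_lit 0x100001000080000000000000000000000000000000000) := D_32 (nat_lit 156) (nat_lit 139) (nat_lit 176) (nat_lit 4) (nat_lit 4) (nat_lit 12) (nat_lit 0) (nat_lit 7) (nat_lit 10) (by decide +kernel)
theorem L79996 : W_32 (nat_lit 3) (nat_lit 0x6000500068002c0010001000080000000000000000000000000000000) (nat_lit 0x0) (nat_lit 0x20000000100003000080000000000000000000000000000000000) := T_32 (nat_lit 157) (nat_lit 209) (nat_lit 7) (nat_lit 4) (nat_lit 9) L79995 (by decide +kernel)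
theorem L79997 : W_32 (nat_lit 4) (nat_lit 0x2000500068002c0010001000080000000000000000000000000000000) (nat_lit 0x0) (nat_lit 0x8000400020000000100003000080000000000000000000000000000000000) := T_32 (nat_lit 226) (nat_lit 243) (nat_lit 7) (nat_lit 4) (nat_lit 10) L79996 (by decide +kernel)
theorem L79998 : W_32 (nat_lit 5) (nat_lit 0x200050006800240010001000080000000000000000000000000000000) (nat_lit 0x0) (nat_lit 0x8000400020000000180007000080000000000000000000000000000000000) := T_32 (nat_lit 175) (nat_lit 158) (nat_lit 6) (nat_lit 4) (nat_lit 13) L79997 (by decide +kernel)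
theorem L79999 : W_32 (nat_lit 6) (nat_lit 0x200050006800240000001000080000000000000000000000000000000) (nat_lit 0x0) (nat_lit 0x8000400020000000180017000880000000000000000000000000000000000) := T_32 (nat_lit 160) (nat_lit 143) (nat_lit 6) (nat_lit 7) (nat_lit 11) L79998 (by decide +kernel)
theorem L80000 : W_32 (nat_lit 2) (nat_lit 0x280033000d00068002e0010001000080000000000000000000000000000000) (nat_lit 0x0) (nat_lit 0x100014000000000000000000000000000000000000000000000000000000000000) := D_32 (nat_lit 242) (nat_lit 260) (nat_lit 244) (nat_lit 7) (nat_lit 4) (nat_lit 11) (nat_lit 2) (nat_lit 4) (nat_lit 14) (by decide +kernel)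
theorem L80001 : W_32 (nat_lit 3) (nat_lit 0x80033000d00068002e0010001000080000000000000000000000000000000) (nat_lit 0x0) (nat_lit 0x500034000000000000000000000000000000000000000000000000000000000000) := T_32 (nat_lit 245) (nat_lit 262) (nat_lit 4) (nat_lit 7) (nat_lit 15) L80000 (by decide +kernel)
theorem L80002 : W_32 (nat_lit 4) (nat_lit 0x80023000d00068002e0010001000080000000000000000000000000000000) (nat_lit 0x0) (nat_lit 0x500074001000000000000000000000000000000000000000000000000000000000) := T_32 (nat_lit 228) (nat_lit 246) (nat_lit 7) (nat_lit 7) (nat_lit 10) L80001 (by decide +kernel)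
theorem L80003 : W_32 (nat_lit 5) (nat_lit 0x23000d00068002e0010001000080000000000000000000000000000000) (nat_lit 0x0) (nat_lit 0x50007c001400000000000000000000000000000000000000000000000000000000) := T_32 (nat_lit 243) (nat_lit 226) (nat_lit 7) (nat_lit 4) (nat_lit 10) L80002 (by decide +kernel)
theorem L80004 : W_32 (nat_lit 6) (nat_lit 0x3000d00068002e0010001000080000000000000000000000000000000) (nat_lit 0x0) (nat_lit 0x50007c003400100000000000000000000000000000000000000000000000000000) := T_32 (nat_lit 229) (nat_lit 212) (nat_lit 7) (nat_lit 7) (nat_lit 9) L80003 (by decide +kernel)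
theorem L80005 : W_32 (nat_lit 7) (nat_lit 0x3000d00068002c0010001000080000000000000000000000000000000) (nat_lit 0x0) (nat_lit 0x50007c003400100000000120000000000000000000000000000000000000000000) := T_32 (nat_lit 173) (nat_lit 176) (nat_lit 3) (nat_lit 3) (nat_lit 10) L80004 (by decide +kernel)
theorem L80006 : W_32 (nat_lit 8) (nat_lit 0x3000d0006800240010001000080000000000000000000000000000000) (nat_lit 0x0) (nat_lit 0x50007c0034001000000001a0004000000000000000000000000000000000000000) := T_32 (nat_lit 175) (nat_lit 158) (nat_lit 6) (nat_lit 4) (nat_lit 13) L80005 (by decide +kernel)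
theorem L80007 : W_32 (nat_lit 9) (nat_lit 0x3000d0006800240000001000080000000000000000000000000000000) (nat_lit 0x0) (nat_lit 0x50007c0034001000000001a0014000800000000000000000000000000000000000) := T_32 (nat_lit 160) (nat_lit 143) (nat_lit 6) (nat_lit 7) (nat_lit 11) L80006 (by decide +kernel)
theorem L80008 : W_32 (nat_lit 10) (nat_lit 0x300050006800240000001000080000000000000000000000000000000) (nat_lit 0x0) (nat_lit 0x50007c0034001a00000001a0014000800000000000000000000000000000000000) := T_32 (nat_lit 211) (nat_lit 209) (nat_lit 1) (nat_lit 7) (nat_lit 12) L80007 (by decide +kernel)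
theorem L80009 : W_32 (nat_lit 11) (nat_lit 0x200050006800240000001000080000000000000000000000000000000) (nat_lit 0x0) (nat_lit 0x50007e0035001a00000001a0014000800000000000000000000000000000000000) := T_32 (nat_lit 224) (nat_lit 241) (nat_lit 5) (nat_lit 4) (nat_lit 10) L80008 (by decide +kernel)
theorem L80010 : W_32 (nat_lit 12) (nat_lit 0x50006800240000001000080000000000000000000000000000000) (nat_lit 0x0) (nat_lit 0x50007e0037001a00000001a0017000880000000000000000000000000000000000) := Q_32 (nat_lit 225) (C_32 L79994 (C_32 L79822 (C_32 L79999 (C_32 L80009 N_32)))) (by decide +kernel)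
theorem L80011 : W_32 (nat_lit 2) (nat_lit 0x200070006800240006001800080000000000000000000000000000000) (nat_lit 0x0) (nat_lit 0x20001000080000000000000000000000000000000000) := D_32 (nat_lit 156) (nat_lit 173) (nat_lit 139) (nat_lit 4) (nat_lit 4) (nat_lit 13) (nat_lit 4) (nat_lit 4) (nat_lit 12) (by decide +kernel)
theorem L80012 : W_32 (nat_lit 3) (nat_lit 0x70006800240006001800080000000000000000000000000000000) (nat_lit 0x0) (nat_lit 0x2000000000000a0001000080000000000000000000000000000000000) := T_32 (nat_lit 225) (nat_lit 175) (nat_lit 6) (nat_lit 4) (nat_lit 13) L80011 (by decide +kernel)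
theorem L80013 : W_32 (nat_lit 4) (nat_lit 0x70006800240002001800080000000000000000000000000000000) (nat_lit 0x0) (nat_lit 0x2000000000000a0005000280000000000000000000000000000000000) := T_32 (nat_lit 158) (nat_lit 141) (nat_lit 6) (nat_lit 4) (nat_lit 12) L80012 (by decide +kernel)
theorem L80014 : W_32 (nat_lit 5) (nat_lit 0x70006800240000001800080000000000000000000000000000000) (nat_lit 0x0) (nat_lit 0x6000000000000a0007000280000000000000000000000000000000000) := T_32 (nat_lit 157) (nat_lit 226) (nat_lit 7) (nat_lit 4) (nat_lit 9) L80013 (by decide +kernel)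
theorem L80015 : W_32 (nat_lit 6) (nat_lit 0x50006800240000001800080000000000000000000000000000000) (nat_lit 0x0) (nat_lit 0x6000280000000a0007000280000000000000000000000000000000000) := T_32 (nat_lit 209) (nat_lit 207) (nat_lit 2) (nat_lit 3) (nat_lit 12) L80014 (by decide +kernel)
theorem L80016 : W_32 (nat_lit 7) (nat_lit 0x50006800240000001000080000000000000000000000000000000) (nat_lit 0x0) (nat_lit 0x6000280000000a0017000a80000000000000000000000000000000000) := T_32 (nat_lit 143) (nat_lit 160) (nat_lit 6) (nat_lit 7) (nat_lit 11) L80015 (by decide +kernel)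
theorem L80017 : W_32 (nat_lit 13) (nat_lit 0x50006800200000001000080000000000000000000000000000000) (nat_lit 0x0) (nat_lit 0x54007e0037001a80000001e0017000b80014000000000000000000000000000000) := Q_32 (nat_lit 174) (C_32 L79925 (C_32 L79969 (C_32 L79975 (C_32 L79979 (C_32 L79984 (C_32 L79990 (C_32 L80010 (C_32 L80016 N_32)))))))) (by decide +kernel)
theorem L80018 : W_32 (nat_lit 5) (nat_lit 0xf0006800200000001800080000000000000000000000000000000) (nat_lit 0x0) (nat_lit 0xe700700000000000000000000000000000000000000000000000000000) := T_32 (nat_lit 225) (nat_lit 224) (nat_lit 1) (nat_lit 7) (nat_lit 12) L79278 (by decide +kernel)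
theorem L80019 : W_32 (nat_lit 6) (nat_lit 0xd0006800200000001800080000000000000000000000000000000) (nat_lit 0x0) (nat_lit 0xe700720000400000000000000000000000000000000000000000000000) := T_32 (nat_lit 209) (nat_lit 190) (nat_lit 0) (nat_lit 7) (nat_lit 12) L80018 (by decide +kernel)
theorem L80020 : W_32 (nat_lit 7) (nat_lit 0xd0006800200000001000080000000000000000000000000000000) (nat_lit 0x0) (nat_lit 0xe700720000400000010000800000000000000000000000000000000000) := T_32 (nat_lit 143) (nat_lit 160) (nat_lit 6) (nat_lit 7) (nat_lit 11) L80019 (by decide +kernel)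
theorem L80021 : W_32 (nat_lit 6) (nat_lit 0xd0006800200000001000080000000000000000000000000000000) (nat_lit 0x0) (nat_lit 0xe700720000400000000000000000000000000000000000000000000000) := T_32 (nat_lit 209) (nat_lit 190) (nat_lit 0) (nat_lit 7) (nat_lit 12) L79962 (by decide +kernel)
theorem L80022 : W_32 (nat_lit 2) (nat_lit 0x12000f0006800200010001000080000000000000000000000000000000) (nat_lit 0x0) (nat_lit 0x400020000000000000000100000000000000000000000000000000000000000000) := D_32 (nat_lit 245) (nat_lit 176) (nat_lit 262) (nat_lit 4) (nat_lit 7) (nat_lit 14) (nat_lit 4) (nat_lit 7) (nat_lit 15) (by decide +kernel)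
theorem L80023 : W_32 (nat_lit 3) (nat_lit 0x2000f0006800200010001000080000000000000000000000000000000) (nat_lit 0x0) (nat_lit 0x400020003000000000000100000000000000000000000000000000000000000000) := T_32 (nat_lit 228) (nat_lit 229) (nat_lit 3) (nat_lit 4) (nat_lit 12) L80022 (by decide +kernel)
theorem L80024 : W_32 (nat_lit 4) (nat_lit 0xf0006800200010001000080000000000000000000000000000000) (nat_lit 0x0) (nat_lit 0x400020003300000000000100000000000000000000000000000000000000000000) := T_32 (nat_lit 225) (nat_lit 224) (nat_lit 1) (nat_lit 7) (nat_lit 12) L80023 (by decide +kernel)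
theorem L80025 : W_32 (nat_lit 5) (nat_lit 0xf0006800200000001000080000000000000000000000000000000) (nat_lit 0x0) (nat_lit 0x400020003300000000000100010000800000000000000000000000000000000000) := T_32 (nat_lit 160) (nat_lit 143) (nat_lit 6) (nat_lit 7) (nat_lit 11) L80024 (by decide +kernel)
theorem L80026 : W_32 (nat_lit 6) (nat_lit 0xd0006800200000001000080000000000000000000000000000000) (nat_lit 0x0) (nat_lit 0x400020003300020000400100010000800000000000000000000000000000000000) := T_32 (nat_lit 209) (nat_lit 190) (nat_lit 0) (nat_lit 7) (nat_lit 12) L80025 (by decide +kernel)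
theorem L80027 : W_32 (nat_lit 2) (nat_lit 0x30000d0006800200010001000080000000000000000000000000000000) (nat_lit 0x0) (nat_lit 0x400020000000000000000100000000000000000000000000000000000000000000) := D_32 (nat_lit 245) (nat_lit 262) (nat_lit 176) (nat_lit 4) (nat_lit 7) (nat_lit 15) (nat_lit 4) (nat_lit 7) (nat_lit 14) (by decide +kernel)
theorem L80028 : W_32 (nat_lit 3) (nat_lit 0x20000d0006800200010001000080000000000000000000000000000000) (nat_lit 0x0) (nat_lit 0x400060001000000000000100000000000000000000000000000000000000000000) := T_32 (nat_lit 228) (nat_lit 246) (nat_lit 7) (nat_lit 7) (nat_lit 10) L80027 (by decide +kernel)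
theorem L80029 : W_32 (nat_lit 4) (nat_lit 0xd0006800200010001000080000000000000000000000000000000) (nat_lit 0x0) (nat_lit 0x400060003000100000000100000000000000000000000000000000000000000000) := T_32 (nat_lit 229) (nat_lit 212) (nat_lit 7) (nat_lit 7) (nat_lit 9) L80028 (by decide +kernel)
theorem L80030 : W_32 (nat_lit 5) (nat_lit 0xd0006800200000001000080000000000000000000000000000000) (nat_lit 0x0) (nat_lit 0x400060003000100000000100010000800000000000000000000000000000000000) := T_32 (nat_lit 160) (nat_lit 143) (nat_lit 6) (nat_lit 7) (nat_lit 11) L80029 (by decide +kernel)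
theorem L80031 : W_32 (nat_lit 2) (nat_lit 0x6000f0006800200010001000080000000000000000000000000000000) (nat_lit 0x0) (nat_lit 0x100008000000000000000040000000000000000000000000000000000000000000) := D_32 (nat_lit 243) (nat_lit 260) (nat_lit 174) (nat_lit 6) (nat_lit 5) (nat_lit 15) (nat_lit 7) (nat_lit 4) (nat_lit 10) (by decide +kernel)
theorem L80032 : W_32 (nat_lit 3) (nat_lit 0x2000f0006800200010001000080000000000000000000000000000000) (nat_lit 0x0) (nat_lit 0x100008000400100000000040000000000000000000000000000000000000000000) := T_32 (nat_lit 226) (nat_lit 212) (nat_lit 1) (nat_lit 8) (nat_lit 12) L80031 (by decide +kernel)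
theorem L80033 : W_32 (nat_lit 4) (nat_lit 0xf0006800200010001000080000000000000000000000000000000) (nat_lit 0x0) (nat_lit 0x100008000700100000000040000000000000000000000000000000000000000000) := T_32 (nat_lit 225) (nat_lit 224) (nat_lit 1) (nat_lit 7) (nat_lit 12) L80032 (by decide +kernel)
theorem L80034 : W_32 (nat_lit 5) (nat_lit 0xd0006800200010001000080000000000000000000000000000000) (nat_lit 0x0) (nat_lit 0x100008000700120000400040000000000000000000000000000000000000000000) := T_32 (nat_lit 209) (nat_lit 190) (nat_lit 0) (nat_lit 7) (nat_lit 12) L80033 (by decide +kernel)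
theorem L80035 : W_32 (nat_lit 6) (nat_lit 0xd0006800200000001000080000000000000000000000000000000) (nat_lit 0x0) (nat_lit 0x100008000700120000400040010000800000000000000000000000000000000000) := T_32 (nat_lit 160) (nat_lit 143) (nat_lit 6) (nat_lit 7) (nat_lit 11) L80034 (by decide +kernel)
theorem L80036 : W_32 (nat_lit 8) (nat_lit 0x50006800200000001000080000000000000000000000000000000) (nat_lit 0x0) (nat_lit 0x50006800f7007a0000400140010000800000000000000000000000000000000000) := Q_32 (nat_lit 211) (C_32 L80020 (C_32 L80021 (C_32 L80026 (C_32 L80030 (C_32 L80035 N_32))))) (by decide +kernel)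
theorem L80037 : W_32 (nat_lit 14) (nat_lit 0x40006800200000001000080000000000000000000000000000000) (nat_lit 0x0) (nat_lit 0x18005c007e00f7007b80006001f8017c00fe001c000200000000000000000000000000) := Q_32 (nat_lit 208) (C_32 L79957 (C_32 L79961 (C_32 L79964 (C_32 L80017 (C_32 L80036 N_32))))) (by decide +kernel)
theorem L80038 : W_32 (nat_lit 3) (nat_lit 0x40006800200000001000080000000000000000000000000000000) (nat_lit 0x0) (nat_lit 0x180001400400000000000000000000000000000000000000000000) := T_32 (nat_lit 192) (nat_lit 178) (nat_lit 2) (nat_lit 4) (nat_lit 11) L79618 (by decide +kernel)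
theorem L80039 : W_32 (nat_lit 5) (nat_lit 0x40006800200000001000080000000000000000000000000000000) (nat_lit 0x0) (nat_lit 0x1c001400500010000800000000000000000000000000000000000) := T_32 (nat_lit 192) (nat_lit 178) (nat_lit 2) (nat_lit 4) (nat_lit 11) L79724 (by decide +kernel)
theorem L80040 : W_32 (nat_lit 9) (nat_lit 0x40006800200000001000080000000000000000000000000000000) (nat_lit 0x0) (nat_lit 0xc0007001b80010004e0016000900000000000000000000000000000000000) := T_32 (nat_lit 192) (nat_lit 178) (nat_lit 2) (nat_lit 4) (nat_lit 11) L79745 (by decide +kernel)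
theorem L80041 : W_32 (nat_lit 15) (nat_lit 0x40006000200000001000080000000000000000000000000000000) (nat_lit 0x0) (nat_lit 0x18005c007e00f7007bc001e005f8017c00fe001c000200000000000000000000000000) := Q_32 (nat_lit 191) (C_32 L80037 (C_32 L80038 (C_32 L80039 (C_32 L80040 N_32)))) (by decide +kernel)
theorem L80044 : W_32 (nat_lit 16) (nat_lit 0x6000200000001000080000000000000000000000000000000) (nat_lit 0x0) (nat_lit 0x98007c007e00ff807fc001e01df8017c00fe001c000200000000000000000000000000) := Q_32 (nat_lit 210) (C_32 L79564 (C_32 L79529 (C_32 L10108 (C_32 L79721 (C_32 L80041 (C_32 L80043 N_32)))))) (by decide +kernel)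
theorem L80056 : W_32 (nat_lit 16) (nat_lit 0x6000200000001000080000000000000000000000000000000) (nat_lit 0x0) (nat_lit 0x18005c007e00ff007fc079e075f8017c00fe001c000200000000000000000000000000) := Q_32 (nat_lit 210) (C_32 L80043 (C_32 L79529 (C_32 L10108 (C_32 L80055 (C_32 L79564 (C_32 L80041 N_32)))))) (by decide +kernel)
theorem L80070 : W_32 (nat_lit 14) (nat_lit 0x40007000200000001000080000000000000000000000000000000) (nat_lit 0x0) (nat_lit 0x7f001f801fb0018000cc0004000200000000000000000000000000000000000) := Q_32 (nat_lit 195) (C_32 L80069 (C_32 L10152 N_32)) (by decide +kernel)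
theorem L80085 : W_32 (nat_lit 15) (nat_lit 0x40006000200000001000080000000000000000000000000000000) (nat_lit 0x0) (nat_lit 0x7fc01ff01fb8019c00ce0006000300000000000000000000000000000000000) := Q_32 (nat_lit 192) (C_32 L80070 (C_32 L80079 (C_32 L79642 (C_32 L80084 N_32)))) (by decide +kernel)
theorem L80126 : W_32 (nat_lit 16) (nat_lit 0x6000200000001000080000000000000000000000000000000) (nat_lit 0x0) (nat_lit 0xb807fc01ff81ffc039f03cfc017000f0011c000000000000000000000000000000) := Q_32 (nat_lit 210) (C_32 L10108 (C_32 L80061 (C_32 L80085 (C_32 L80118 (C_32 L80125 N_32))))) (by decide +kernel)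
theorem L80127 : W_32 (nat_lit 2) (nat_lit 0x21001f00054002f000600000001000080000000000000000000000000000000) (nat_lit 0x0) (nat_lit 0x50000100000000000000000000000000000000000000000000) := D_32 (nat_lit 196) (nat_lit 198) (nat_lit 176) (nat_lit 0) (nat_lit 11) (nat_lit 11) (nat_lit 0) (nat_lit 10) (nat_lit 11) (by decide +kernel)
theorem L80128 : W_32 (nat_lit 3) (nat_lit 0x21001f00054000f000600000001000080000000000000000000000000000000) (nat_lit 0x0) (nat_lit 0x70001100000000000000000000000000000000000000000000) := T_32 (nat_lit 197) (nat_lit 180) (nat_lit 7) (nat_lit 10) (nat_lit 10) L80127 (by decide +kernel)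
theorem L80129 : W_32 (nat_lit 4) (nat_lit 0x21000f00054000f000600000001000080000000000000000000000000000000) (nat_lit 0x0) (nat_lit 0x400010000000070001100000000000000000000000000000000000000000000) := T_32 (nat_lit 232) (nat_lit 250) (nat_lit 3) (nat_lit 8) (nat_lit 13) L80128 (by decide +kernel)
theorem L80130 : W_32 (nat_lit 5) (nat_lit 0x21000f00014000f000600000001000080000000000000000000000000000000) (nat_lit 0x0) (nat_lit 0x400010000c00070001100000000000000000000000000000000000000000000) := T_32 (nat_lit 214) (nat_lit 215) (nat_lit 2) (nat_lit 7) (nat_lit 13) L80129 (by decide +kernel)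
theorem L80131 : W_32 (nat_lit 6) (nat_lit 0x1000f00014000f000600000001000080000000000000000000000000000000) (nat_lit 0x0) (nat_lit 0x700010000c00070001100000000000000000000000000000000000000000000) := T_32 (nat_lit 249) (nat_lit 248) (nat_lit 3) (nat_lit 7) (nat_lit 13) L80130 (by decide +kernel)
theorem L80132 : W_32 (nat_lit 7) (nat_lit 0x1000700014000f000600000001000080000000000000000000000000000000) (nat_lit 0x0) (nat_lit 0x700018000c80070001100000000000000000000000000000000000000000000) := T_32 (nat_lit 231) (nat_lit 211) (nat_lit 0) (nat_lit 10) (nat_lit 13) L80131 (by decide +kernel)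
theorem L80133 : W_32 (nat_lit 8) (nat_lit 0x1000300014000f000600000001000080000000000000000000000000000000) (nat_lit 0x0) (nat_lit 0x78001c000c80070001100000000000000000000000000000000000000000000) := T_32 (nat_lit 230) (nat_lit 247) (nat_lit 7) (nat_lit 8) (nat_lit 10) L80132 (by decide +kernel)
theorem L80134 : W_32 (nat_lit 9) (nat_lit 0x1000200014000f000600000001000080000000000000000000000000000000) (nat_lit 0x0) (nat_lit 0x7a001d000c80070001100000000000000000000000000000000000000000000) := T_32 (nat_lit 228) (nat_lit 245) (nat_lit 5) (nat_lit 8) (nat_lit 10) L80133 (by decide +kernel)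
theorem L80135 : W_32 (nat_lit 10) (nat_lit 0x1000000014000f000600000001000080000000000000000000000000000000) (nat_lit 0x0) (nat_lit 0x7e001f000c80070001100000000000000000000000000000000000000000000) := T_32 (nat_lit 229) (nat_lit 246) (nat_lit 4) (nat_lit 8) (nat_lit 14) L80134 (by decide +kernel)
theorem L80136 : W_32 (nat_lit 11) (nat_lit 0x1000000004000f000600000001000080000000000000000000000000000000) (nat_lit 0x0) (nat_lit 0x7e001f000f80070001100000000000000000000000000000000000000000000) := T_32 (nat_lit 212) (nat_lit 213) (nat_lit 3) (nat_lit 5) (nat_lit 11) L80135 (by decide +kernel)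
theorem L80137 : W_32 (nat_lit 12) (nat_lit 0x1000000004000f000200000001000080000000000000000000000000000000) (nat_lit 0x0) (nat_lit 0x7e001f000f80070001d00000000000000000000000000000000000000000000) := T_32 (nat_lit 178) (nat_lit 179) (nat_lit 2) (nat_lit 5) (nat_lit 11) L80136 (by decide +kernel)
theorem L80138 : W_32 (nat_lit 13) (nat_lit 0x4000f000200000001000080000000000000000000000000000000) (nat_lit 0x0) (nat_lit 0x7f001f800f80070001d00000000000000000000000000000000000000000000) := T_32 (nat_lit 244) (nat_lit 227) (nat_lit 6) (nat_lit 6) (nat_lit 14) L80137 (by decide +kernel)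
theorem L80145 : W_32 (nat_lit 14) (nat_lit 0x40007000200000001000080000000000000000000000000000000) (nat_lit 0x0) (nat_lit 0x7f001f800fb0078001d00000000000000000000000000000000000000000000) := Q_32 (nat_lit 195) (C_32 L80138 (C_32 L10152 (C_32 L80144 N_32))) (by decide +kernel)
theorem L80147 : W_32 (nat_lit 15) (nat_lit 0x40006000200000001000080000000000000000000000000000000) (nat_lit 0x0) (nat_lit 0x7f001fc00fbc079c01d60002000100000000000000000000000000000000000) := Q_32 (nat_lit 192) (C_32 L80145 (C_32 L80146 (C_32 L79642 (C_32 L79641 N_32)))) (by decide +kernel)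
theorem L80148 : W_32 (nat_lit 8) (nat_lit 0x4000e000200000001000080000000000000000000000000000000) (nat_lit 0x0) (nat_lit 0xe00070003b8001800c00000000000000000000000000000000000000000000) := Q_32 (nat_lit 192) (C_32 L10064 (C_32 L80144 (C_32 L10243 N_32))) (by decide +kernel)
theorem L80154 : W_32 (nat_lit 9) (nat_lit 0x40006000200000001000080000000000000000000000000000000) (nat_lit 0x0) (nat_lit 0xe0007000fb8039803d00010000800000000000000000000000000000000000) := Q_32 (nat_lit 195) (C_32 L10085 (C_32 L10063 (C_32 L79568 (C_32 L80148 (C_32 L80153 N_32))))) (by decide +kernel)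
theorem L80155 : W_32 (nat_lit 16) (nat_lit 0x6000200000001000080000000000000000000000000000000) (nat_lit 0x0) (nat_lit 0xb007f801ff00ffc079c03d60012000900000000000000000000000000000000000) := Q_32 (nat_lit 210) (C_32 L80061 (C_32 L80043 (C_32 L80147 (C_32 L79564 (C_32 L80154 N_32))))) (by decide +kernel)
theorem L80156 : W_32 (nat_lit 7) (nat_lit 0x2000f000280000001000080000000000000000000000000000000) (nat_lit 0x0) (nat_lit 0xe00078003c0000000c00000000000000000000000000000000000000000000) := T_32 (nat_lit 178) (nat_lit 179) (nat_lit 2) (nat_lit 5) (nat_lit 11) L78153 (by decide +kernel)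
theorem L80157 : W_32 (nat_lit 8) (nat_lit 0x2000f000200000001000080000000000000000000000000000000) (nat_lit 0x0) (nat_lit 0xe00078003c0000000cc0000000000000000000000000000000000000000000) := T_32 (nat_lit 175) (nat_lit 174) (nat_lit 0) (nat_lit 8) (nat_lit 11) L80156 (by decide +kernel)
theorem L80158 : W_32 (nat_lit 9) (nat_lit 0xf000200000001000080000000000000000000000000000000) (nat_lit 0x0) (nat_lit 0xe00078003f0000000cc0000000000000000000000000000000000000000000) := T_32 (nat_lit 209) (nat_lit 208) (nat_lit 1) (nat_lit 8) (nat_lit 11) L80157 (by decide +kernel)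
theorem L80164 : W_32 (nat_lit 10) (nat_lit 0x7000200000001000080000000000000000000000000000000) (nat_lit 0x0) (nat_lit 0xe00078003f0078001dc0004000200000000000000000000000000000000000) := Q_32 (nat_lit 195) (C_32 L8029 (C_32 L10180 (C_32 L80158 (C_32 L10057 (C_32 L80163 N_32))))) (by decide +kernel)
theorem L80165 : W_32 (nat_lit 11) (nat_lit 0x6000200000001000080000000000000000000000000000000) (nat_lit 0x0) (nat_lit 0xe00078003fc079c01de0004000200000000000000000000000000000000000) := Q_32 (nat_lit 192) (C_32 L79614 (C_32 L79613 (C_32 L10059 (C_32 L80164 (C_32 L79524 N_32))))) (by decide +kernel)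
theorem L80215 : W_32 (nat_lit 2) (nat_lit 0x10000c000e000200000001000080000000000000000000000000000000) (nat_lit 0x0) (nat_lit 0x400020000000000000000100000000000000000000000000000000000000000000) := D_32 (nat_lit 245) (nat_lit 176) (nat_lit 262) (nat_lit 4) (nat_lit 7) (nat_lit 14) (nat_lit 4) (nat_lit 7) (nat_lit 15) (by decide +kernel)
theorem L80216 : W_32 (nat_lit 2) (nat_lit 0x10000c000e000200000001000080000000000000000000000000000000) (nat_lit 0x0) (nat_lit 0x400020000000000000000400000000000000000000000000000000000000000000) := D_32 (nat_lit 245) (nat_lit 262) (nat_lit 178) (nat_lit 4) (nat_lit 7) (nat_lit 15) (nat_lit 6) (nat_lit 7) (nat_lit 14) (by decide +kernel)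
theorem L80220 : W_32 (nat_lit 2) (nat_lit 0x30000e000e000200000001000080000000000000000000000000000000) (nat_lit 0x0) (nat_lit 0xc000100000000000000000000000000000000000000000000000000000) := D_32 (nat_lit 230) (nat_lit 212) (nat_lit 231) (nat_lit 3) (nat_lit 5) (nat_lit 12) (nat_lit 0) (nat_lit 10) (nat_lit 13) (by decide +kernel)
theorem L80221 : W_32 (nat_lit 3) (nat_lit 0x10000e000e000200000001000080000000000000000000000000000000) (nat_lit 0x0) (nat_lit 0x4000e000100000000000000000000000000000000000000000000000000000) := T_32 (nat_lit 229) (nat_lit 246) (nat_lit 7) (nat_lit 7) (nat_lit 10) L80220 (by decide +kernel)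
theorem L80222 : W_32 (nat_lit 4) (nat_lit 0x10000c000e000200000001000080000000000000000000000000000000) (nat_lit 0x0) (nat_lit 0x4000e000130000000000000000000000000000000000000000000000000000) := T_32 (nat_lit 209) (nat_lit 208) (nat_lit 2) (nat_lit 4) (nat_lit 12) L80221 (by decide +kernel)
theorem L80223 : W_32 (nat_lit 5) (nat_lit 0xc000e000200000001000080000000000000000000000000000000) (nat_lit 0x0) (nat_lit 0x40006000f000130000000500000000000000000000000000000000000000000000) := Q_32 (nat_lit 228) (C_32 L80216 (C_32 L80215 (C_32 L80222 N_32))) (by decide +kernel)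
theorem L80231 : W_32 (nat_lit 2) (nat_lit 0x200014000e000200000001000080000000000000000000000000000000) (nat_lit 0x0) (nat_lit 0x80000000000010000800000000000000000000000000000000000) := D_32 (nat_lit 160) (nat_lit 143) (nat_lit 211) (nat_lit 7) (nat_lit 7) (nat_lit 8) (nat_lit 7) (nat_lit 7) (nat_lit 9) (by decide +kernel)
theorem L80232 : W_32 (nat_lit 3) (nat_lit 0x14000e000200000001000080000000000000000000000000000000) (nat_lit 0x0) (nat_lit 0x40002000080000000000010000800000000000000000000000000000000000) := T_32 (nat_lit 229) (nat_lit 246) (nat_lit 4) (nat_lit 8) (nat_lit 14) L80231 (by decide +kernel)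
theorem L80233 : W_32 (nat_lit 2) (nat_lit 0x200014000e000200000001000080000000000000000000000000000000) (nat_lit 0x0) (nat_lit 0x80000000400010000000000000000000000000000000000000000) := D_32 (nat_lit 160) (nat_lit 178) (nat_lit 211) (nat_lit 4) (nat_lit 8) (nat_lit 13) (nat_lit 7) (nat_lit 7) (nat_lit 9) (by decide +kernel)
theorem L80234 : W_32 (nat_lit 3) (nat_lit 0x14000e000200000001000080000000000000000000000000000000) (nat_lit 0x0) (nat_lit 0x40002000080000000400010000000000000000000000000000000000000000) := T_32 (nat_lit 229) (nat_lit 246) (nat_lit 4) (nat_lit 8) (nat_lit 14) L80233 (by decide +kernel)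
theorem L80235 : W_32 (nat_lit 2) (nat_lit 0x14000e000200010001000080000000000000000000000000000000) (nat_lit 0x0) (nat_lit 0x2000080000000400000000000000000000000000000000000000000000) := D_32 (nat_lit 229) (nat_lit 178) (nat_lit 211) (nat_lit 4) (nat_lit 8) (nat_lit 13) (nat_lit 7) (nat_lit 7) (nat_lit 9) (by decide +kernel)
theorem L80236 : W_32 (nat_lit 3) (nat_lit 0x14000e000200000001000080000000000000000000000000000000) (nat_lit 0x0) (nat_lit 0x2000080000000400010000800000000000000000000000000000000000) := T_32 (nat_lit 160) (nat_lit 143) (nat_lit 7) (nat_lit 7) (nat_lit 8) L80235 (by decide +kernel)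
theorem L80237 : W_32 (nat_lit 2) (nat_lit 0x30000d000e000200010001000080000000000000000000000000000000) (nat_lit 0x0) (nat_lit 0x400020000000000000000400000000000000000000000000000000000000000000) := D_32 (nat_lit 245) (nat_lit 178) (nat_lit 262) (nat_lit 6) (nat_lit 7) (nat_lit 14) (nat_lit 4) (nat_lit 7) (nat_lit 15) (by decide +kernel)
theorem L80238 : W_32 (nat_lit 3) (nat_lit 0x20000d000e000200010001000080000000000000000000000000000000) (nat_lit 0x0) (nat_lit 0x400060001000000000000400000000000000000000000000000000000000000000) := T_32 (nat_lit 228) (nat_lit 246) (nat_lit 7) (nat_lit 7) (nat_lit 10) L80237 (by decide +kernel)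
theorem L80242 : W_32 (nat_lit 2) (nat_lit 0x6000f0006800200000001800080000000000000000000000000000000) (nat_lit 0x0) (nat_lit 0x100008000000000000000040000000000000000000000000000000000000000000) := D_32 (nat_lit 243) (nat_lit 260) (nat_lit 174) (nat_lit 6) (nat_lit 5) (nat_lit 15) (nat_lit 7) (nat_lit 4) (nat_lit 10) (by decide +kernel)
theorem L80243 : W_32 (nat_lit 3) (nat_lit 0x2000f0006800200000001800080000000000000000000000000000000) (nat_lit 0x0) (nat_lit 0x100008000400100000000040000000000000000000000000000000000000000000) := T_32 (nat_lit 226) (nat_lit 212) (nat_lit 1) (nat_lit 8) (nat_lit 12) L80242 (by decide +kernel)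
theorem L80244 : W_32 (nat_lit 4) (nat_lit 0xf0006800200000001800080000000000000000000000000000000) (nat_lit 0x0) (nat_lit 0x100008000700100000000040000000000000000000000000000000000000000000) := T_32 (nat_lit 225) (nat_lit 224) (nat_lit 1) (nat_lit 7) (nat_lit 12) L80243 (by decide +kernel)
theorem L80245 : W_32 (nat_lit 5) (nat_lit 0xf0006000200000001800080000000000000000000000000000000) (nat_lit 0x0) (nat_lit 0x100008000700100000c00040000000000000000000000000000000000000000000) := T_32 (nat_lit 191) (nat_lit 190) (nat_lit 0) (nat_lit 7) (nat_lit 12) L80244 (by decide +kernel)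
theorem L80246 : W_32 (nat_lit 6) (nat_lit 0xf0006000200000001000080000000000000000000000000000000) (nat_lit 0x0) (nat_lit 0x100008000700100000c00040010000800000000000000000000000000000000000) := T_32 (nat_lit 143) (nat_lit 160) (nat_lit 6) (nat_lit 7) (nat_lit 11) L80245 (by decide +kernel)
theorem L80247 : W_32 (nat_lit 7) (nat_lit 0xe0006000200000001000080000000000000000000000000000000) (nat_lit 0x0) (nat_lit 0x100008000700118000c00040010000800000000000000000000000000000000000) := T_32 (nat_lit 208) (nat_lit 207) (nat_lit 2) (nat_lit 3) (nat_lit 12) L80246 (by decide +kernel)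
theorem L80369 : W_32 (nat_lit 2) (nat_lit 0x70005c000e000600000001000080000000000000000000000000000000) (nat_lit 0x0) (nat_lit 0x1800040000000000000000000000000000000000000000) := D_32 (nat_lit 179) (nat_lit 162) (nat_lit 180) (nat_lit 6) (nat_lit 8) (nat_lit 13) (nat_lit 1) (nat_lit 10) (nat_lit 10) (by decide +kernel)
theorem L80370 : W_32 (nat_lit 3) (nat_lit 0x70005c000e000200000001000080000000000000000000000000000000) (nat_lit 0x0) (nat_lit 0x80000000000000001c00040000000000000000000000000000000000000000) := T_32 (nat_lit 178) (nat_lit 247) (nat_lit 7) (nat_lit 8) (nat_lit 10) L80369 (by decide +kernel)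
theorem L80371 : W_32 (nat_lit 4) (nat_lit 0x30005c000e000200000001000080000000000000000000000000000000) (nat_lit 0x0) (nat_lit 0x8000c000000000001c00040000000000000000000000000000000000000000) := T_32 (nat_lit 230) (nat_lit 231) (nat_lit 0) (nat_lit 10) (nat_lit 13) L80370 (by decide +kernel)
theorem L80372 : W_32 (nat_lit 5) (nat_lit 0x10005c000e000200000001000080000000000000000000000000000000) (nat_lit 0x0) (nat_lit 0xc000e000000000001c00040000000000000000000000000000000000000000) := T_32 (nat_lit 229) (nat_lit 246) (nat_lit 7) (nat_lit 7) (nat_lit 10) L80371 (by decide +kernel)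
theorem L80373 : W_32 (nat_lit 6) (nat_lit 0x10001c000e000200000001000080000000000000000000000000000000) (nat_lit 0x0) (nat_lit 0xc000e000600000001c00040000000000000000000000000000000000000000) := T_32 (nat_lit 214) (nat_lit 213) (nat_lit 0) (nat_lit 10) (nat_lit 12) L80372 (by decide +kernel)
theorem L80376 : W_32 (nat_lit 2) (nat_lit 0x180008000e000200010001000080000000000000000000000000000000) (nat_lit 0x0) (nat_lit 0x20000000000000000500000000000000000000000000000000000000000000) := D_32 (nat_lit 245) (nat_lit 176) (nat_lit 178) (nat_lit 4) (nat_lit 7) (nat_lit 14) (nat_lit 6) (nat_lit 7) (nat_lit 14) (by decide +kernel)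
theorem L80377 : W_32 (nat_lit 3) (nat_lit 0x80008000e000200010001000080000000000000000000000000000000) (nat_lit 0x0) (nat_lit 0x30001000000000000500000000000000000000000000000000000000000000) := T_32 (nat_lit 228) (nat_lit 244) (nat_lit 5) (nat_lit 7) (nat_lit 10) L80376 (by decide +kernel)
theorem L80378 : W_32 (nat_lit 4) (nat_lit 0x8000e000200010001000080000000000000000000000000000000) (nat_lit 0x0) (nat_lit 0x30001800040000000500000000000000000000000000000000000000000000) := T_32 (nat_lit 227) (nat_lit 210) (nat_lit 5) (nat_lit 7) (nat_lit 9) L80377 (by decide +kernel)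
theorem L80379 : W_32 (nat_lit 5) (nat_lit 0x8000e000200000001000080000000000000000000000000000000) (nat_lit 0x0) (nat_lit 0x30001800040000000500010000800000000000000000000000000000000000) := T_32 (nat_lit 160) (nat_lit 143) (nat_lit 6) (nat_lit 7) (nat_lit 11) L80378 (by decide +kernel)
theorem L80380 : W_32 (nat_lit 2) (nat_lit 0x30000d000e000200010001000080000000000000000000000000000000) (nat_lit 0x0) (nat_lit 0x400020000000000000000100000000000000000000000000000000000000000000) := D_32 (nat_lit 245) (nat_lit 262) (nat_lit 176) (nat_lit 4) (nat_lit 7) (nat_lit 15) (nat_lit 4) (nat_lit 7) (nat_lit 14) (by decide +kernel)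
theorem L80381 : W_32 (nat_lit 3) (nat_lit 0x20000d000e000200010001000080000000000000000000000000000000) (nat_lit 0x0) (nat_lit 0x400060001000000000000100000000000000000000000000000000000000000000) := T_32 (nat_lit 228) (nat_lit 246) (nat_lit 7) (nat_lit 7) (nat_lit 10) L80380 (by decide +kernel)
theorem L80382 : W_32 (nat_lit 4) (nat_lit 0xd000e000200010001000080000000000000000000000000000000) (nat_lit 0x0) (nat_lit 0x400060003000100000000100000000000000000000000000000000000000000000) := T_32 (nat_lit 229) (nat_lit 212) (nat_lit 7) (nat_lit 7) (nat_lit 9) L80381 (by decide +kernel)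
theorem L80383 : W_32 (nat_lit 4) (nat_lit 0xd000e000200010001000080000000000000000000000000000000) (nat_lit 0x0) (nat_lit 0x400060003000100000000400000000000000000000000000000000000000000000) := T_32 (nat_lit 229) (nat_lit 212) (nat_lit 7) (nat_lit 7) (nat_lit 9) L80238 (by decide +kernel)
theorem L80384 : W_32 (nat_lit 5) (nat_lit 0xc000e000200010001000080000000000000000000000000000000) (nat_lit 0x0) (nat_lit 0x400060003000130000000400000000000000000000000000000000000000000000) := T_32 (nat_lit 208) (nat_lit 209) (nat_lit 2) (nat_lit 4) (nat_lit 12) L80383 (by decide +kernel)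
theorem L80485 : W_32 (nat_lit 6) (nat_lit 0x60007000200000001000080000000000000000000000000000000) (nat_lit 0x0) (nat_lit 0x480024003700398000000180004000000000000000000000000000000000000000) := T_32 (nat_lit 208) (nat_lit 207) (nat_lit 2) (nat_lit 3) (nat_lit 12) L79806 (by decide +kernel)
theorem L80491 : W_32 (nat_lit 7) (nat_lit 0x40007000200000001000080000000000000000000000000000000) (nat_lit 0x0) (nat_lit 0x480034003f003b8018e00180004000000000000000000000000000000000000000) := Q_32 (nat_lit 209) (C_32 L80071 (C_32 L80485 (C_32 L80490 N_32))) (by decide +kernel)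
theorem L80492 : W_32 (nat_lit 15) (nat_lit 0x40006000200000001000080000000000000000000000000000000) (nat_lit 0x0) (nat_lit 0x4807f401ff00fbc079e01d80004000000000000000000000000000000000000000) := Q_32 (nat_lit 192) (C_32 L80212 (C_32 L80491 (C_32 L79642 (C_32 L79641 (C_32 L80145 N_32))))) (by decide +kernel)
theorem L80493 : W_32 (nat_lit 16) (nat_lit 0x6000200000001000080000000000000000000000000000000) (nat_lit 0x0) (nat_lit 0xf807fc01ff00ffc079e03d80014000800000000000000000000000000000000000) := Q_32 (nat_lit 210) (C_32 L80154 (C_32 L80061 (C_32 L80043 (C_32 L80492 (C_32 L79564 N_32))))) (by decide +kernel)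
theorem L80513 : W_32 (nat_lit 17) (nat_lit 0x4000200000001000080000000000000000000000000000000) (nat_lit 0x0) (nat_lit 0x9803fc07ff01ff83ffe0fbf07dfc0d7c04fe011c000200000000000000000000000000) := Q_32 (nat_lit 193) (C_32 L79527 (C_32 L79610 (C_32 L79616 (C_32 L80044 (C_32 L80056 (C_32 L80126 (C_32 L80155 (C_32 L80165 (C_32 L80188 (C_32 L80191 (C_32 L80214 (C_32 L80484 (C_32 L80493 (C_32 L80498 (C_32 L80512 N_32))))))))))))))) (by decide +kernel)
theorem L81779 : W_32 (nat_lit 2) (nat_lit 0x100000000c000f000280000001000080000000000000000000000000000000) (nat_lit 0x0) (nat_lit 0x30000100000000000000000000000000000000000000000000) := D_32 (nat_lit 196) (nat_lit 176) (nat_lit 197) (nat_lit 0) (nat_lit 9) (nat_lit 11) (nat_lit 1) (nat_lit 10) (nat_lit 11) (by decide +kernel)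
theorem L81780 : W_32 (nat_lit 3) (nat_lit 0x100000000c0007000280000001000080000000000000000000000000000000) (nat_lit 0x0) (nat_lit 0x38000140000000000000000000000000000000000000000000) := T_32 (nat_lit 195) (nat_lit 174) (nat_lit 0) (nat_lit 8) (nat_lit 11) L81779 (by decide +kernel)
theorem L81781 : W_32 (nat_lit 4) (nat_lit 0xc0007000280000001000080000000000000000000000000000000) (nat_lit 0x0) (nat_lit 0x10000800000038000140000000000000000000000000000000000000000000) := T_32 (nat_lit 244) (nat_lit 227) (nat_lit 6) (nat_lit 6) (nat_lit 14) L81780 (by decide +kernel)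
theorem L81795 : W_32 (nat_lit 2) (nat_lit 0x400000001c001e000a80000001000080000000000000000000000000000000) (nat_lit 0x0) (nat_lit 0x1800040000000000000000000000000000000000000000000) := D_32 (nat_lit 192) (nat_lit 174) (nat_lit 191) (nat_lit 0) (nat_lit 8) (nat_lit 11) (nat_lit 3) (nat_lit 4) (nat_lit 11) (by decide +kernel)
theorem L81796 : W_32 (nat_lit 3) (nat_lit 0x400000001c001e000a00000001000080000000000000000000000000000000) (nat_lit 0x0) (nat_lit 0x18001c0000000000000000000000000000000000000000000) := T_32 (nat_lit 175) (nat_lit 176) (nat_lit 0) (nat_lit 9) (nat_lit 11) L81795 (by decide +kernel)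
theorem L81797 : W_32 (nat_lit 4) (nat_lit 0x400000001c001c000a00000001000080000000000000000000000000000000) (nat_lit 0x0) (nat_lit 0x38011c0000000000000000000000000000000000000000000) := T_32 (nat_lit 193) (nat_lit 180) (nat_lit 2) (nat_lit 6) (nat_lit 11) L81796 (by decide +kernel)
theorem L81798 : W_32 (nat_lit 5) (nat_lit 0x400000001c000c000a00000001000080000000000000000000000000000000) (nat_lit 0x0) (nat_lit 0x338011c0000000000000000000000000000000000000000000) := T_32 (nat_lit 196) (nat_lit 197) (nat_lit 1) (nat_lit 10) (nat_lit 11) L81797 (by decide +kernel)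
theorem L81799 : W_32 (nat_lit 6) (nat_lit 0x1c000c000a00000001000080000000000000000000000000000000) (nat_lit 0x0) (nat_lit 0x400020000000338011c0000000000000000000000000000000000000000000) := T_32 (nat_lit 246) (nat_lit 229) (nat_lit 4) (nat_lit 8) (nat_lit 14) L81798 (by decide +kernel)
theorem L81800 : W_32 (nat_lit 2) (nat_lit 0x20001c002c000e00000001000080000000000000000000000000000000) (nat_lit 0x0) (nat_lit 0x40003000000000000000000000000000000000000000000000) := D_32 (nat_lit 180) (nat_lit 198) (nat_lit 181) (nat_lit 3) (nat_lit 7) (nat_lit 10) (nat_lit 1) (nat_lit 11) (nat_lit 10) (by decide +kernel)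
theorem L81801 : W_32 (nat_lit 3) (nat_lit 0x20001c002c000a00000001000080000000000000000000000000000000) (nat_lit 0x0) (nat_lit 0x40003400040000000000000000000000000000000000000000) := T_32 (nat_lit 178) (nat_lit 162) (nat_lit 6) (nat_lit 8) (nat_lit 13) L81800 (by decide +kernel)
theorem L81802 : W_32 (nat_lit 4) (nat_lit 0x1c002c000a00000001000080000000000000000000000000000000) (nat_lit 0x0) (nat_lit 0x40002000000040003400040000000000000000000000000000000000000000) := T_32 (nat_lit 229) (nat_lit 246) (nat_lit 4) (nat_lit 8) (nat_lit 14) L81801 (by decide +kernel)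
theorem L81803 : W_32 (nat_lit 5) (nat_lit 0x1c000c000a00000001000080000000000000000000000000000000) (nat_lit 0x0) (nat_lit 0x40002000000070003400040000000000000000000000000000000000000000) := T_32 (nat_lit 197) (nat_lit 196) (nat_lit 1) (nat_lit 10) (nat_lit 11) L81802 (by decide +kernel)
theorem L81804 : W_32 (nat_lit 2) (nat_lit 0x20001c000c000e00000001000080000000000000000000000000000000) (nat_lit 0x0) (nat_lit 0x3001000000000000000000000000000000000000000000000) := D_32 (nat_lit 193) (nat_lit 192) (nat_lit 180) (nat_lit 2) (nat_lit 5) (nat_lit 11) (nat_lit 1) (nat_lit 10) (nat_lit 10) (by decide +kernel)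
theorem L81805 : W_32 (nat_lit 3) (nat_lit 0x20001c000c000a00000001000080000000000000000000000000000000) (nat_lit 0x0) (nat_lit 0x3001400040000000000000000000000000000000000000000) := T_32 (nat_lit 178) (nat_lit 162) (nat_lit 6) (nat_lit 8) (nat_lit 13) L81804 (by decide +kernel)
theorem L81806 : W_32 (nat_lit 4) (nat_lit 0x1c000c000a00000001000080000000000000000000000000000000) (nat_lit 0x0) (nat_lit 0x40002000000003001400040000000000000000000000000000000000000000) := T_32 (nat_lit 229) (nat_lit 246) (nat_lit 4) (nat_lit 8) (nat_lit 14) L81805 (by decide +kernel)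
theorem L81807 : W_32 (nat_lit 2) (nat_lit 0x1c001e000a80000001000080000000000000000000000000000000) (nat_lit 0x0) (nat_lit 0x1800040000000000000000000000000000000000000000000) := D_32 (nat_lit 192) (nat_lit 191) (nat_lit 174) (nat_lit 3) (nat_lit 4) (nat_lit 11) (nat_lit 0) (nat_lit 8) (nat_lit 11) (by decide +kernel)
theorem L81808 : W_32 (nat_lit 3) (nat_lit 0x1c001e000a00000001000080000000000000000000000000000000) (nat_lit 0x0) (nat_lit 0x18001c0000000000000000000000000000000000000000000) := T_32 (nat_lit 175) (nat_lit 176) (nat_lit 0) (nat_lit 9) (nat_lit 11) L81807 (by decide +kernel)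
theorem L81809 : W_32 (nat_lit 4) (nat_lit 0x1c001c000a00000001000080000000000000000000000000000000) (nat_lit 0x0) (nat_lit 0x38011c0000000000000000000000000000000000000000000) := T_32 (nat_lit 193) (nat_lit 180) (nat_lit 2) (nat_lit 6) (nat_lit 11) L81808 (by decide +kernel)
theorem L81849 : W_32 (nat_lit 11) (nat_lit 0x2000100008000c000200000001000080000000000000000000000000000000) (nat_lit 0x0) (nat_lit 0x340018000ec00f600700001c0008000000000000000000000000000000000000000) := T_32 (nat_lit 212) (nat_lit 262) (nat_lit 6) (nat_lit 7) (nat_lit 15) L81848 (by decide +kernel)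
theorem L81850 : W_32 (nat_lit 12) (nat_lit 0x20001000080004000200000001000080000000000000000000000000000000) (nat_lit 0x0) (nat_lit 0x340018000ec00f600780005c0008000000000000000000000000000000000000000) := T_32 (nat_lit 195) (nat_lit 178) (nat_lit 6) (nat_lit 7) (nat_lit 14) L81849 (by decide +kernel)
theorem L81851 : W_32 (nat_lit 13) (nat_lit 0x1000080004000200000001000080000000000000000000000000000000) (nat_lit 0x0) (nat_lit 0x40036001b000ec00f600780005c0008000000000000000000000000000000000000000) := Q_32 (nat_lit 245) (C_32 L18148 (C_32 L18145 (C_32 L81850 N_32))) (by decide +kernel)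
theorem L81864 : W_32 (nat_lit 2) (nat_lit 0x10003e0015000200000001000080000000000000000000000000000000) (nat_lit 0x0) (nat_lit 0xe000000000000000000000000000000000000000000000000000000000) := D_32 (nat_lit 230) (nat_lit 229) (nat_lit 231) (nat_lit 3) (nat_lit 5) (nat_lit 12) (nat_lit 3) (nat_lit 6) (nat_lit 12) (by decide +kernel)
theorem L81865 : W_32 (nat_lit 3) (nat_lit 0x10001e0015000200000001000080000000000000000000000000000000) (nat_lit 0x0) (nat_lit 0xe000200020000000000000000000000000000000000000000000000000) := T_32 (nat_lit 213) (nat_lit 197) (nat_lit 2) (nat_lit 6) (nat_lit 12) L81864 (by decide +kernel)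
theorem L81866 : W_32 (nat_lit 4) (nat_lit 0x10001e0014000200000001000080000000000000000000000000000000) (nat_lit 0x0) (nat_lit 0xe000200021800000000000000000000000000000000000000000000000) := T_32 (nat_lit 192) (nat_lit 191) (nat_lit 0) (nat_lit 8) (nat_lit 12) L81865 (by decide +kernel)
theorem L81867 : W_32 (nat_lit 5) (nat_lit 0x10001e0004000200000001000080000000000000000000000000000000) (nat_lit 0x0) (nat_lit 0xe000200039800000000000000000000000000000000000000000000000) := T_32 (nat_lit 196) (nat_lit 195) (nat_lit 2) (nat_lit 5) (nat_lit 12) L81866 (by decide +kernel)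
theorem L81868 : W_32 (nat_lit 9) (nat_lit 0x10000e0004000200000001000080000000000000000000000000000000) (nat_lit 0x0) (nat_lit 0x1000ee003000398001c000c000000000000000000000000000000000000000) := Q_32 (nat_lit 212) (C_32 L79329 (C_32 L79316 (C_32 L81867 N_32))) (by decide +kernel)
theorem L81869 : W_32 (nat_lit 10) (nat_lit 0x10000c0004000200000001000080000000000000000000000000000000) (nat_lit 0x0) (nat_lit 0x1000ee003380398001c000c000000000000000000000000000000000000000) := Q_32 (nat_lit 209) (C_32 L79314 (C_32 L81863 (C_32 L6704 (C_32 L81868 N_32)))) (by decide +kernel)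
theorem L81870 : W_32 (nat_lit 2) (nat_lit 0x18000e000d000380000001000080000000000000000000000000000000) (nat_lit 0x0) (nat_lit 0x100000800400000000000000000000000000000000000000000000) := D_32 (nat_lit 191) (nat_lit 178) (nat_lit 212) (nat_lit 1) (nat_lit 8) (nat_lit 10) (nat_lit 0) (nat_lit 8) (nat_lit 12) (by decide +kernel)
theorem L81871 : W_32 (nat_lit 3) (nat_lit 0x18000e000c000380000001000080000000000000000000000000000000) (nat_lit 0x0) (nat_lit 0x100001800400004000000000000000000000000000000000000000) := T_32 (nat_lit 192) (nat_lit 158) (nat_lit 7) (nat_lit 5) (nat_lit 9) L81870 (by decide +kernel)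
theorem L81872 : W_32 (nat_lit 4) (nat_lit 0x18000e000c000300000001000080000000000000000000000000000000) (nat_lit 0x0) (nat_lit 0x1000018004c0004000000000000000000000000000000000000000) := T_32 (nat_lit 175) (nat_lit 174) (nat_lit 3) (nat_lit 4) (nat_lit 10) L81871 (by decide +kernel)
theorem L81873 : W_32 (nat_lit 5) (nat_lit 0x18000e000c000200000001000080000000000000000000000000000000) (nat_lit 0x0) (nat_lit 0x1000018005c000c000000000000000000000000000000000000000) := T_32 (nat_lit 176) (nat_lit 159) (nat_lit 4) (nat_lit 7) (nat_lit 13) L81872 (by decide +kernel)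
theorem L81874 : W_32 (nat_lit 6) (nat_lit 0x18000c000c000200000001000080000000000000000000000000000000) (nat_lit 0x0) (nat_lit 0x1300018005c000c000000000000000000000000000000000000000) := T_32 (nat_lit 209) (nat_lit 208) (nat_lit 2) (nat_lit 4) (nat_lit 12) L81873 (by decide +kernel)
theorem L81875 : W_32 (nat_lit 7) (nat_lit 0x10000c000c000200000001000080000000000000000000000000000000) (nat_lit 0x0) (nat_lit 0x100008001300018005c000c000000000000000000000000000000000000000) := T_32 (nat_lit 227) (nat_lit 244) (nat_lit 5) (nat_lit 7) (nat_lit 10) L81874 (by decide +kernel)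
theorem L81876 : W_32 (nat_lit 2) (nat_lit 0x10000c001c000340000001000080000000000000000000000000000000) (nat_lit 0x0) (nat_lit 0x130000000000000000000000000000000000000000000000000000) := D_32 (nat_lit 209) (nat_lit 208) (nat_lit 212) (nat_lit 2) (nat_lit 4) (nat_lit 12) (nat_lit 2) (nat_lit 5) (nat_lit 12) (by decide +kernel)
theorem L81877 : W_32 (nat_lit 3) (nat_lit 0x10000c000c000340000001000080000000000000000000000000000000) (nat_lit 0x0) (nat_lit 0x130030000000000000000000000000000000000000000000000000) := T_32 (nat_lit 196) (nat_lit 197) (nat_lit 1) (nat_lit 10) (nat_lit 11) L81876 (by decide +kernel)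
theorem L81878 : W_32 (nat_lit 4) (nat_lit 0x10000c000c000300000001000080000000000000000000000000000000) (nat_lit 0x0) (nat_lit 0x1300300000c0000000000000000000000000000000000000000000) := T_32 (nat_lit 174) (nat_lit 175) (nat_lit 3) (nat_lit 4) (nat_lit 10) L81877 (by decide +kernel)
theorem L81879 : W_32 (nat_lit 5) (nat_lit 0x10000c000c000200000001000080000000000000000000000000000000) (nat_lit 0x0) (nat_lit 0x1300300001c0008000000000000000000000000000000000000000) := T_32 (nat_lit 176) (nat_lit 159) (nat_lit 4) (nat_lit 7) (nat_lit 13) L81878 (by decide +kernel)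
theorem L81891 : W_32 (nat_lit 8) (nat_lit 0x10000c0004000200000001000080000000000000000000000000000000) (nat_lit 0x0) (nat_lit 0x100008001300398005c000c000000000000000000000000000000000000000) := Q_32 (nat_lit 195) (C_32 L81875 (C_32 L81879 (C_32 L81882 (C_32 L81886 (C_32 L81890 N_32))))) (by decide +kernel)
theorem L81892 : W_32 (nat_lit 11) (nat_lit 0x1000080004000200000001000080000000000000000000000000000000) (nat_lit 0x0) (nat_lit 0x1de00ef007780398005c000c000000000000000000000000000000000000000) := Q_32 (nat_lit 210) (C_32 L81860 (C_32 L6022 (C_32 L79309 (C_32 L6039 (C_32 L81869 (C_32 L81891 N_32)))))) (by decide +kernel)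
theorem L81930 : W_32 (nat_lit 14) (nat_lit 0x80004000200000001000080000000000000000000000000000000) (nat_lit 0x0) (nat_lit 0x14003e001fe00ff00f780798005c000c000000000000000000000000000000000000000) := Q_32 (nat_lit 228) (C_32 L6677 (C_32 L6682 (C_32 L6047 (C_32 L81851 (C_32 L81892 (C_32 L81929 N_32)))))) (by decide +kernel)
theorem L82109 : W_32 (nat_lit 15) (nat_lit 0x4000200000001000080000000000000000000000000000000) (nat_lit 0x0) (nat_lit 0x54007e007fe07ff01ff81f9c03dc01de00cd00000000000000000000000000000000000) := Q_32 (nat_lit 211) (C_32 L80658 (C_32 L17847 (C_32 L79470 (C_32 L17799 (C_32 L81930 (C_32 L82108 (C_32 L17848 N_32))))))) (by decide +kernel)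
theorem L82676 : W_32 (nat_lit 2) (nat_lit 0x60002000d000380004001000080000000000000000000000000000000) (nat_lit 0x0) (nat_lit 0x10000800040000000000000000000000000000000000000000000000000000) := D_32 (nat_lit 227) (nat_lit 244) (nat_lit 210) (nat_lit 7) (nat_lit 5) (nat_lit 10) (nat_lit 7) (nat_lit 5) (nat_lit 9) (by decide +kernel)
theorem L82677 : W_32 (nat_lit 3) (nat_lit 0x60002000d000380000001000080000000000000000000000000000000) (nat_lit 0x0) (nat_lit 0x10000800050000000000004000000000000000000000000000000000000000) := T_32 (nat_lit 158) (nat_lit 208) (nat_lit 5) (nat_lit 5) (nat_lit 9) L82676 (by decide +kernel)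
theorem L82678 : W_32 (nat_lit 4) (nat_lit 0x40002000d000380000001000080000000000000000000000000000000) (nat_lit 0x0) (nat_lit 0x14000a00050000000000004000000000000000000000000000000000000000) := T_32 (nat_lit 225) (nat_lit 242) (nat_lit 5) (nat_lit 5) (nat_lit 10) L82677 (by decide +kernel)
theorem L82679 : W_32 (nat_lit 5) (nat_lit 0x2000d000380000001000080000000000000000000000000000000) (nat_lit 0x0) (nat_lit 0x14000e0005000000000000c000000000000000000000000000000000000000) := T_32 (nat_lit 226) (nat_lit 159) (nat_lit 6) (nat_lit 5) (nat_lit 13) L82678 (by decide +kernel)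
theorem L82680 : W_32 (nat_lit 2) (nat_lit 0x2000d000380008001000080000000000000000000000000000000) (nat_lit 0x0) (nat_lit 0x4000400020000000000000000000000000000000) := D_32 (nat_lit 142) (nat_lit 158) (nat_lit 125) (nat_lit 6) (nat_lit 5) (nat_lit 12) (nat_lit 7) (nat_lit 6) (nat_lit 7) (by decide +kernel)
theorem L82681 : W_32 (nat_lit 3) (nat_lit 0x2000d000380000001000080000000000000000000000000000000) (nat_lit 0x0) (nat_lit 0x40000000000000000c000400020000000000000000000000000000000) := T_32 (nat_lit 159) (nat_lit 226) (nat_lit 6) (nat_lit 5) (nat_lit 13) L82680 (by decide +kernel)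
theorem L82682 : W_32 (nat_lit 2) (nat_lit 0x2000d00038000c001000080000000000000000000000000000000) (nat_lit 0x0) (nat_lit 0x3000100000000000000000000000000000000000) := D_32 (nat_lit 157) (nat_lit 156) (nat_lit 140) (nat_lit 3) (nat_lit 3) (nat_lit 9) (nat_lit 4) (nat_lit 5) (nat_lit 12) (by decide +kernel)
theorem L82683 : W_32 (nat_lit 3) (nat_lit 0x2000d000380004001000080000000000000000000000000000000) (nat_lit 0x0) (nat_lit 0xb000500000000000000000000000000000000000) := T_32 (nat_lit 159) (nat_lit 142) (nat_lit 6) (nat_lit 5) (nat_lit 12) L82682 (by decide +kernel)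
theorem L82846 : W_32 (nat_lit 2) (nat_lit 0x4000f000380000001000080000000000000000000000000000000) (nat_lit 0x0) (nat_lit 0x10000800000000000000004000000000000000000000000000000000000000) := D_32 (nat_lit 227) (nat_lit 158) (nat_lit 244) (nat_lit 4) (nat_lit 6) (nat_lit 13) (nat_lit 6) (nat_lit 6) (nat_lit 14) (by decide +kernel)
theorem L82903 : W_32 (nat_lit 2) (nat_lit 0x500038000c001000080000000000000000000000000000000) (nat_lit 0x0) (nat_lit 0x20000000000000000400020000000000000000000000000000000) := D_32 (nat_lit 142) (nat_lit 125) (nat_lit 209) (nat_lit 7) (nat_lit 6) (nat_lit 7) (nat_lit 6) (nat_lit 5) (nat_lit 12) (by decide +kernel)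
theorem L82904 : W_32 (nat_lit 2) (nat_lit 0x2000500038000c001000080000000000000000000000000000000) (nat_lit 0x0) (nat_lit 0x3000100000000000000000000000000000000000) := D_32 (nat_lit 157) (nat_lit 156) (nat_lit 140) (nat_lit 3) (nat_lit 3) (nat_lit 9) (nat_lit 4) (nat_lit 5) (nat_lit 12) (by decide +kernel)
theorem L82905 : W_32 (nat_lit 3) (nat_lit 0x500038000c001000080000000000000000000000000000000) (nat_lit 0x0) (nat_lit 0x400020000000000003000100000000000000000000000000000000000) := T_32 (nat_lit 209) (nat_lit 226) (nat_lit 6) (nat_lit 5) (nat_lit 13) L82904 (by decide +kernel)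
theorem L83206 : W_32 (nat_lit 2) (nat_lit 0xc0007000300000001000080000000000000000000000000000000) (nat_lit 0x0) (nat_lit 0x20001000000000000000008000000000000000000000000000000000000000) := D_32 (nat_lit 228) (nat_lit 159) (nat_lit 245) (nat_lit 7) (nat_lit 6) (nat_lit 9) (nat_lit 4) (nat_lit 7) (nat_lit 14) (by decide +kernel)
theorem L84189 : W_32 (nat_lit 2) (nat_lit 0x5000380008001400080000000000000000000000000000000) (nat_lit 0x0) (nat_lit 0x400020000000000004000000000000000000000000000000000000000) := D_32 (nat_lit 209) (nat_lit 226) (nat_lit 158) (nat_lit 6) (nat_lit 5) (nat_lit 13) (nat_lit 6) (nat_lit 5) (nat_lit 12) (by decide +kernel)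
theorem L84190 : W_32 (nat_lit 3) (nat_lit 0x5000380008001000080000000000000000000000000000000) (nat_lit 0x0) (nat_lit 0x400020000000000004000400020000000000000000000000000000000) := T_32 (nat_lit 142) (nat_lit 125) (nat_lit 7) (nat_lit 6) (nat_lit 7) L84189 (by decide +kernel)
theorem L84442 : W_32 (nat_lit 7) (nat_lit 0x40007000200000001000080000000000000000000000000000000) (nat_lit 0x0) (nat_lit 0x100008007b0078000cc0004000000000000000000000000000000000000000) := Q_32 (nat_lit 195) (C_32 L10152 (C_32 L84441 (C_32 L80195 N_32))) (by decide +kernel)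
theorem L84443 : W_32 (nat_lit 9) (nat_lit 0x40006000200000001000080000000000000000000000000000000) (nat_lit 0x0) (nat_lit 0x5c006f007b8079c00ce0006000100000000000000000000000000000000000) := Q_32 (nat_lit 192) (C_32 L80079 (C_32 L10123 (C_32 L79642 (C_32 L84442 N_32)))) (by decide +kernel)
theorem L84444 : W_32 (nat_lit 13) (nat_lit 0x6000200000001000080000000000000000000000000000000) (nat_lit 0x0) (nat_lit 0xb8005c00ef80ffc079f03cfc017000f0011c000000000000000000000000000000) := Q_32 (nat_lit 210) (C_32 L80061 (C_32 L80125 (C_32 L10108 (C_32 L84443 (C_32 L80118 N_32))))) (by decide +kernel)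
theorem L84456 : W_32 (nat_lit 2) (nat_lit 0x600016000f000680000001000080000000000000000000000000000000) (nat_lit 0x0) (nat_lit 0x10000800000000000000004000000000000000000000000000000000000000) := D_32 (nat_lit 227) (nat_lit 244) (nat_lit 158) (nat_lit 6) (nat_lit 6) (nat_lit 14) (nat_lit 7) (nat_lit 5) (nat_lit 9) (by decide +kernel)
theorem L84457 : W_32 (nat_lit 3) (nat_lit 0x600012000f000680000001000080000000000000000000000000000000) (nat_lit 0x0) (nat_lit 0x100008000c0000000000004000000000000000000000000000000000000000) := T_32 (nat_lit 210) (nat_lit 211) (nat_lit 3) (nat_lit 5) (nat_lit 12) L84456 (by decide +kernel)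
theorem L84458 : W_32 (nat_lit 4) (nat_lit 0x200012000f000680000001000080000000000000000000000000000000) (nat_lit 0x0) (nat_lit 0x900048000c0000000000004000000000000000000000000000000000000000) := T_32 (nat_lit 230) (nat_lit 247) (nat_lit 7) (nat_lit 8) (nat_lit 10) L84457 (by decide +kernel)
theorem L84459 : W_32 (nat_lit 5) (nat_lit 0x12000f000680000001000080000000000000000000000000000000) (nat_lit 0x0) (nat_lit 0xd00068000c0000000000004000000000000000000000000000000000000000) := T_32 (nat_lit 229) (nat_lit 246) (nat_lit 4) (nat_lit 8) (nat_lit 14) L84458 (by decide +kernel)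
theorem L84460 : W_32 (nat_lit 6) (nat_lit 0x10000f000680000001000080000000000000000000000000000000) (nat_lit 0x0) (nat_lit 0xd00068000f0000000000004000000000000000000000000000000000000000) := T_32 (nat_lit 209) (nat_lit 208) (nat_lit 1) (nat_lit 8) (nat_lit 11) L84459 (by decide +kernel)
theorem L84461 : W_32 (nat_lit 7) (nat_lit 0xf000680000001000080000000000000000000000000000000) (nat_lit 0x0) (nat_lit 0xd00068003f0000000000004000000000000000000000000000000000000000) := T_32 (nat_lit 212) (nat_lit 213) (nat_lit 3) (nat_lit 5) (nat_lit 11) L84460 (by decide +kernel)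
theorem L84462 : W_32 (nat_lit 8) (nat_lit 0xf000600000001000080000000000000000000000000000000) (nat_lit 0x0) (nat_lit 0xd00068003f00000000c0004000000000000000000000000000000000000000) := T_32 (nat_lit 175) (nat_lit 174) (nat_lit 0) (nat_lit 8) (nat_lit 11) L84461 (by decide +kernel)
theorem L84463 : W_32 (nat_lit 9) (nat_lit 0xf000200000001000080000000000000000000000000000000) (nat_lit 0x0) (nat_lit 0xd00068003f0000000cc0004000000000000000000000000000000000000000) := T_32 (nat_lit 178) (nat_lit 179) (nat_lit 2) (nat_lit 5) (nat_lit 11) L84462 (by decide +kernel)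
theorem L84464 : W_32 (nat_lit 10) (nat_lit 0x7000200000001000080000000000000000000000000000000) (nat_lit 0x0) (nat_lit 0xd00068003f0078001dc0004000200000000000000000000000000000000000) := Q_32 (nat_lit 195) (C_32 L8029 (C_32 L80163 (C_32 L10180 (C_32 L10057 (C_32 L84463 N_32))))) (by decide +kernel)
theorem L84465 : W_32 (nat_lit 11) (nat_lit 0x6000200000001000080000000000000000000000000000000) (nat_lit 0x0) (nat_lit 0xd00068003fc079c01df0004000200000000000000000000000000000000000) := Q_32 (nat_lit 192) (C_32 L80189 (C_32 L10037 (C_32 L79614 (C_32 L10059 (C_32 L84464 N_32))))) (by decide +kernel)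
theorem L84552 : W_32 (nat_lit 17) (nat_lit 0x4000200000001000080000000000000000000000000000000) (nat_lit 0x0) (nat_lit 0xbf00ff00ef80ffe07bf07dfc05f800f8013c0038001c0002000000000000000000) := Q_32 (nat_lit 193) (C_32 L80498 (C_32 L80191 (C_32 L79610 (C_32 L79616 (C_32 L84433 (C_32 L84436 (C_32 L84444 (C_32 L84455 (C_32 L84465 (C_32 L80188 (C_32 L80214 (C_32 L84543 (C_32 L84549 (C_32 L84551 N_32)))))))))))))) (by decide +kernel)
theorem L84630 : W_32 (nat_lit 7) (nat_lit 0x40007800200000001000080000000000000000000000000000000) (nat_lit 0x0) (nat_lit 0x1000080003c000600038010000800000000000000000000000000000000000) := T_32 (nat_lit 160) (nat_lit 143) (nat_lit 6) (nat_lit 7) (nat_lit 11) L10165 (by decide +kernel)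
theorem L84635 : W_32 (nat_lit 2) (nat_lit 0x40007e00200000001000080000000000000000000000000000000) (nat_lit 0x0) (nat_lit 0xe000000000000000000000000000000000000000000000000000) := D_32 (nat_lit 206) (nat_lit 205) (nat_lit 207) (nat_lit 1) (nat_lit 5) (nat_lit 11) (nat_lit 1) (nat_lit 6) (nat_lit 11) (by decide +kernel)
theorem L84636 : W_32 (nat_lit 3) (nat_lit 0x40007c00200000001000080000000000000000000000000000000) (nat_lit 0x0) (nat_lit 0x2e000200000000000000000000000000000000000000000000000) := T_32 (nat_lit 189) (nat_lit 209) (nat_lit 3) (nat_lit 2) (nat_lit 11) L84635 (by decide +kernel)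
theorem L84637 : W_32 (nat_lit 2) (nat_lit 0x10000000042007e00208010001000080000000000000000000000000000000) (nat_lit 0x0) (nat_lit 0x1000100004000000000000000000000000000000000000000000) := D_32 (nat_lit 188) (nat_lit 204) (nat_lit 170) (nat_lit 1) (nat_lit 4) (nat_lit 11) (nat_lit 0) (nat_lit 4) (nat_lit 11) (by decide +kernel)
theorem L84638 : W_32 (nat_lit 3) (nat_lit 0x10000000042007e00200010001000080000000000000000000000000000000) (nat_lit 0x0) (nat_lit 0x100010001c000000000000000000000000000000000000000000) := T_32 (nat_lit 171) (nat_lit 172) (nat_lit 0) (nat_lit 5) (nat_lit 11) L84637 (by decide +kernel)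
theorem L84639 : W_32 (nat_lit 4) (nat_lit 0x42007e00200010001000080000000000000000000000000000000) (nat_lit 0x0) (nat_lit 0x1000080000100010001c000000000000000000000000000000000000000000) := T_32 (nat_lit 244) (nat_lit 227) (nat_lit 6) (nat_lit 6) (nat_lit 14) L84638 (by decide +kernel)
theorem L84640 : W_32 (nat_lit 5) (nat_lit 0x42007e00200000001000080000000000000000000000000000000) (nat_lit 0x0) (nat_lit 0x1000080000100010001c010000800000000000000000000000000000000000) := T_32 (nat_lit 160) (nat_lit 143) (nat_lit 6) (nat_lit 7) (nat_lit 11) L84639 (by decide +kernel)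
theorem L84641 : W_32 (nat_lit 6) (nat_lit 0x40007e00200000001000080000000000000000000000000000000) (nat_lit 0x0) (nat_lit 0x1000080000700010001c010000800000000000000000000000000000000000) := T_32 (nat_lit 205) (nat_lit 206) (nat_lit 1) (nat_lit 5) (nat_lit 11) L84640 (by decide +kernel)
theorem L84642 : W_32 (nat_lit 7) (nat_lit 0x40007c00200000001000080000000000000000000000000000000) (nat_lit 0x0) (nat_lit 0x1000080002700030001c010000800000000000000000000000000000000000) := T_32 (nat_lit 189) (nat_lit 209) (nat_lit 3) (nat_lit 2) (nat_lit 11) L84641 (by decide +kernel)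
theorem L84643 : W_32 (nat_lit 2) (nat_lit 0x60007c00200010001000080000000000000000000000000000000) (nat_lit 0x0) (nat_lit 0x18008000000000000000000000000000000000000000000000000) := D_32 (nat_lit 208) (nat_lit 207) (nat_lit 195) (nat_lit 2) (nat_lit 3) (nat_lit 12) (nat_lit 1) (nat_lit 8) (nat_lit 11) (by decide +kernel)
theorem L84644 : W_32 (nat_lit 3) (nat_lit 0x40007c00200010001000080000000000000000000000000000000) (nat_lit 0x0) (nat_lit 0x38008200000000000000000000000000000000000000000000000) := T_32 (nat_lit 209) (nat_lit 189) (nat_lit 3) (nat_lit 2) (nat_lit 11) L84643 (by decide +kernel)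
theorem L84645 : W_32 (nat_lit 4) (nat_lit 0x40007c00200000001000080000000000000000000000000000000) (nat_lit 0x0) (nat_lit 0x38008200000010000800000000000000000000000000000000000) := T_32 (nat_lit 160) (nat_lit 143) (nat_lit 6) (nat_lit 7) (nat_lit 11) L84644 (by decide +kernel)
theorem L84646 : W_32 (nat_lit 8) (nat_lit 0x40007800200000001000080000000000000000000000000000000) (nat_lit 0x0) (nat_lit 0x1000080003f00870001c010000800000000000000000000000000000000000) := Q_32 (nat_lit 190) (C_32 L84634 (C_32 L84636 (C_32 L84642 (C_32 L84645 N_32)))) (by decide +kernel)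
theorem L84653 : W_32 (nat_lit 9) (nat_lit 0x40007000200000001000080000000000000000000000000000000) (nat_lit 0x0) (nat_lit 0x18000c0003f018f0007c012000800000000000000000000000000000000000) := Q_32 (nat_lit 191) (C_32 L84623 (C_32 L84629 (C_32 L84630 (C_32 L84633 (C_32 L84646 (C_32 L84652 N_32)))))) (by decide +kernel)
theorem L84690 : W_32 (nat_lit 3) (nat_lit 0x100000000400078002c0010001000080000000000000000000000000000000) (nat_lit 0x0) (nat_lit 0x200018000000000004000200000000000000000000000000000000000) := T_32 (nat_lit 208) (nat_lit 207) (nat_lit 1) (nat_lit 7) (nat_lit 11) L10154 (by decide +kernel)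
theorem L84691 : W_32 (nat_lit 4) (nat_lit 0x10000000040007800280010001000080000000000000000000000000000000) (nat_lit 0x0) (nat_lit 0x200018000000060004000200000000000000000000000000000000000) := T_32 (nat_lit 174) (nat_lit 173) (nat_lit 0) (nat_lit 7) (nat_lit 11) L84690 (by decide +kernel)
theorem L84692 : W_32 (nat_lit 5) (nat_lit 0x10000000040007800280000001000080000000000000000000000000000000) (nat_lit 0x0) (nat_lit 0x200018000000060014000a00000000000000000000000000000000000) := T_32 (nat_lit 160) (nat_lit 143) (nat_lit 6) (nat_lit 7) (nat_lit 11) L84691 (by decide +kernel)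
theorem L84693 : W_32 (nat_lit 2) (nat_lit 0x100007000500078002c0000001200080000000000000000000000000000000) (nat_lit 0x0) (nat_lit 0x80020000000000002000000000000000000000000000000000000000) := D_32 (nat_lit 209) (nat_lit 157) (nat_lit 223) (nat_lit 7) (nat_lit 4) (nat_lit 9) (nat_lit 2) (nat_lit 2) (nat_lit 13) (by decide +kernel)
theorem L84694 : W_32 (nat_lit 3) (nat_lit 0x100003000500078002c0000001200080000000000000000000000000000000) (nat_lit 0x0) (nat_lit 0x8000480020000000000002000000000000000000000000000000000000000) := T_32 (nat_lit 226) (nat_lit 243) (nat_lit 7) (nat_lit 4) (nat_lit 10) L84693 (by decide +kernel)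
theorem L84695 : W_32 (nat_lit 4) (nat_lit 0x100002000500078002c0000001200080000000000000000000000000000000) (nat_lit 0x0) (nat_lit 0xa000580020000000000002000000000000000000000000000000000000000) := T_32 (nat_lit 224) (nat_lit 241) (nat_lit 5) (nat_lit 4) (nat_lit 10) L84694 (by decide +kernel)
theorem L84696 : W_32 (nat_lit 5) (nat_lit 0x100000000500078002c0000001200080000000000000000000000000000000) (nat_lit 0x0) (nat_lit 0xe000780020000000000002000000000000000000000000000000000000000) := T_32 (nat_lit 225) (nat_lit 242) (nat_lit 6) (nat_lit 4) (nat_lit 14) L84695 (by decide +kernel)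
theorem L84697 : W_32 (nat_lit 6) (nat_lit 0x100000000400078002c0000001200080000000000000000000000000000000) (nat_lit 0x0) (nat_lit 0xe000780038000000000002000000000000000000000000000000000000000) := T_32 (nat_lit 208) (nat_lit 207) (nat_lit 1) (nat_lit 7) (nat_lit 11) L84696 (by decide +kernel)
theorem L84698 : W_32 (nat_lit 7) (nat_lit 0x10000000040007800280000001200080000000000000000000000000000000) (nat_lit 0x0) (nat_lit 0xe000780038000000060002000000000000000000000000000000000000000) := T_32 (nat_lit 174) (nat_lit 173) (nat_lit 0) (nat_lit 7) (nat_lit 11) L84697 (by decide +kernel)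
theorem L84699 : W_32 (nat_lit 8) (nat_lit 0x10000000040007800280000001000080000000000000000000000000000000) (nat_lit 0x0) (nat_lit 0xe000780038000000060006000200000000000000000000000000000000000) := T_32 (nat_lit 141) (nat_lit 158) (nat_lit 7) (nat_lit 5) (nat_lit 8) L84698 (by decide +kernel)
theorem L84700 : W_32 (nat_lit 2) (nat_lit 0x100006000500078002c0002001900080000000000000000000000000000000) (nat_lit 0x0) (nat_lit 0x1000080004000000000000000000000000000000) := D_32 (nat_lit 139) (nat_lit 156) (nat_lit 122) (nat_lit 4) (nat_lit 4) (nat_lit 12) (nat_lit 4) (nat_lit 4) (nat_lit 11) (by decide +kernel)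
theorem L84701 : W_32 (nat_lit 3) (nat_lit 0x100006000500078002c0002001800080000000000000000000000000000000) (nat_lit 0x0) (nat_lit 0x100018000c000000000000000000000000000000) := T_32 (nat_lit 140) (nat_lit 123) (nat_lit 7) (nat_lit 4) (nat_lit 7) L84700 (by decide +kernel)
theorem L84702 : W_32 (nat_lit 4) (nat_lit 0x100006000500078002c0000001800080000000000000000000000000000000) (nat_lit 0x0) (nat_lit 0x2000000000000300018000c000000000000000000000000000000) := T_32 (nat_lit 157) (nat_lit 209) (nat_lit 7) (nat_lit 4) (nat_lit 9) L84701 (by decide +kernel)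
theorem L84703 : W_32 (nat_lit 5) (nat_lit 0x100002000500078002c0000001800080000000000000000000000000000000) (nat_lit 0x0) (nat_lit 0x800040002000000000000300018000c000000000000000000000000000000) := T_32 (nat_lit 226) (nat_lit 243) (nat_lit 7) (nat_lit 4) (nat_lit 10) L84702 (by decide +kernel)
theorem L84704 : W_32 (nat_lit 6) (nat_lit 0x10000200050007800280000001800080000000000000000000000000000000) (nat_lit 0x0) (nat_lit 0x800040002000000006000300018000c000000000000000000000000000000) := T_32 (nat_lit 174) (nat_lit 173) (nat_lit 0) (nat_lit 7) (nat_lit 11) L84703 (by decide +kernel)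
theorem L84705 : W_32 (nat_lit 7) (nat_lit 0x10000000050007800280000001800080000000000000000000000000000000) (nat_lit 0x0) (nat_lit 0xc00060002000000006000300018000c000000000000000000000000000000) := T_32 (nat_lit 225) (nat_lit 242) (nat_lit 6) (nat_lit 4) (nat_lit 14) L84704 (by decide +kernel)
theorem L84706 : W_32 (nat_lit 8) (nat_lit 0x10000000050007800280000001000080000000000000000000000000000000) (nat_lit 0x0) (nat_lit 0xc00060002000000006001300098000c000000000000000000000000000000) := T_32 (nat_lit 143) (nat_lit 160) (nat_lit 6) (nat_lit 7) (nat_lit 11) L84705 (by decide +kernel)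
theorem L84707 : W_32 (nat_lit 9) (nat_lit 0x10000000040007800280000001000080000000000000000000000000000000) (nat_lit 0x0) (nat_lit 0xc00060003800000006001300098000c000000000000000000000000000000) := T_32 (nat_lit 208) (nat_lit 207) (nat_lit 1) (nat_lit 7) (nat_lit 11) L84706 (by decide +kernel)
theorem L84708 : W_32 (nat_lit 2) (nat_lit 0x10000000050007800280004001800080000000000000000000000000000000) (nat_lit 0x0) (nat_lit 0x4000200020000000000000000000000000000000000000000000000000000) := D_32 (nat_lit 225) (nat_lit 242) (nat_lit 209) (nat_lit 6) (nat_lit 4) (nat_lit 14) (nat_lit 5) (nat_lit 5) (nat_lit 9) (by decide +kernel)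
theorem L84709 : W_32 (nat_lit 3) (nat_lit 0x10000000040007800280004001800080000000000000000000000000000000) (nat_lit 0x0) (nat_lit 0x4000200038000000000000000000000000000000000000000000000000000) := T_32 (nat_lit 208) (nat_lit 207) (nat_lit 1) (nat_lit 7) (nat_lit 11) L84708 (by decide +kernel)
theorem L84710 : W_32 (nat_lit 4) (nat_lit 0x10000000040007800280004001000080000000000000000000000000000000) (nat_lit 0x0) (nat_lit 0x4000200038000000000010000800000000000000000000000000000000000) := T_32 (nat_lit 143) (nat_lit 160) (nat_lit 6) (nat_lit 7) (nat_lit 11) L84709 (by decide +kernel)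
theorem L84711 : W_32 (nat_lit 5) (nat_lit 0x10000000040007800280000001000080000000000000000000000000000000) (nat_lit 0x0) (nat_lit 0x4000200038000000000014000a00000000000000000000000000000000000) := T_32 (nat_lit 158) (nat_lit 141) (nat_lit 7) (nat_lit 5) (nat_lit 8) L84710 (by decide +kernel)
theorem L84712 : W_32 (nat_lit 2) (nat_lit 0x100000000400078002c0000001e00088000000000000000000000000000000) (nat_lit 0x0) (nat_lit 0x2000100004000000000000000000000000000000) := D_32 (nat_lit 140) (nat_lit 122) (nat_lit 157) (nat_lit 0) (nat_lit 7) (nat_lit 8) (nat_lit 7) (nat_lit 4) (nat_lit 7) (by decide +kernel)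
theorem L84713 : W_32 (nat_lit 3) (nat_lit 0x100000000400078002c0000001e00080000000000000000000000000000000) (nat_lit 0x0) (nat_lit 0x200010001c000000000000000000000000000000) := T_32 (nat_lit 123) (nat_lit 124) (nat_lit 0) (nat_lit 8) (nat_lit 8) L84712 (by decide +kernel)
theorem L84714 : W_32 (nat_lit 4) (nat_lit 0x100000000400078002c0000001a00080000000000000000000000000000000) (nat_lit 0x0) (nat_lit 0x200050011c000000000000000000000000000000) := T_32 (nat_lit 142) (nat_lit 128) (nat_lit 2) (nat_lit 5) (nat_lit 8) L84713 (by decide +kernel)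
theorem L84715 : W_32 (nat_lit 5) (nat_lit 0x100000000400078002c0000001200080000000000000000000000000000000) (nat_lit 0x0) (nat_lit 0x12000d0011c000000000000000000000000000000) := T_32 (nat_lit 143) (nat_lit 160) (nat_lit 6) (nat_lit 7) (nat_lit 11) L84714 (by decide +kernel)
theorem L84716 : W_32 (nat_lit 6) (nat_lit 0x100000000400078002c0000001000080000000000000000000000000000000) (nat_lit 0x0) (nat_lit 0x16000f0011c000000000000000000000000000000) := T_32 (nat_lit 141) (nat_lit 158) (nat_lit 7) (nat_lit 5) (nat_lit 8) L84715 (by decide +kernel)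
theorem L84717 : W_32 (nat_lit 7) (nat_lit 0x10000000040007800280000001000080000000000000000000000000000000) (nat_lit 0x0) (nat_lit 0x60016000f0011c000000000000000000000000000000) := T_32 (nat_lit 174) (nat_lit 173) (nat_lit 0) (nat_lit 7) (nat_lit 11) L84716 (by decide +kernel)
theorem L84718 : W_32 (nat_lit 10) (nat_lit 0x10000000040007800200000001000080000000000000000000000000000000) (nat_lit 0x0) (nat_lit 0xe0007800380000000e0017000f8011c000000000000000000000000000000) := Q_32 (nat_lit 175) (C_32 L84692 (C_32 L84699 (C_32 L84707 (C_32 L84711 (C_32 L84717 N_32))))) (by decide +kernel)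
theorem L84795 : W_32 (nat_lit 14) (nat_lit 0xe000200000001000080000000000000000000000000000000) (nat_lit 0x0) (nat_lit 0x50002800f78031c038e0017000f8013c000000000000000000000000000000) := Q_32 (nat_lit 192) (C_32 L10288 (C_32 L84737 (C_32 L20373 (C_32 L84779 (C_32 L84794 N_32))))) (by decide +kernel)
theorem L84796 : W_32 (nat_lit 6) (nat_lit 0xe000200000001000080000000000000000000000000000000) (nat_lit 0x0) (nat_lit 0x800770031000180010000800000000000000000000000000000000000) := Q_32 (nat_lit 196) (C_32 L80354 (C_32 L8031 (C_32 L7805 N_32))) (by decide +kernel)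
theorem L84797 : W_32 (nat_lit 5) (nat_lit 0xe000200000001000080000000000000000000000000000000) (nat_lit 0x0) (nat_lit 0x770031000180000000000000000000000000000000000000000000) := Q_32 (nat_lit 196) (C_32 L8031 (C_32 L7805 N_32)) (by decide +kernel)
theorem L84798 : W_32 (nat_lit 2) (nat_lit 0x24001e000a00010001000080000000000000000000000000000000) (nat_lit 0x0) (nat_lit 0x800000020000100000000000000000000000000000000000000000000) := D_32 (nat_lit 176) (nat_lit 197) (nat_lit 227) (nat_lit 0) (nat_lit 10) (nat_lit 11) (nat_lit 6) (nat_lit 6) (nat_lit 13) (by decide +kernel)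
theorem L84799 : W_32 (nat_lit 3) (nat_lit 0x20001e000a00010001000080000000000000000000000000000000) (nat_lit 0x0) (nat_lit 0x800060020000100000000000000000000000000000000000000000000) := T_32 (nat_lit 210) (nat_lit 209) (nat_lit 1) (nat_lit 9) (nat_lit 11) L84798 (by decide +kernel)
theorem L84800 : W_32 (nat_lit 4) (nat_lit 0x20001e000200010001000080000000000000000000000000000000) (nat_lit 0x0) (nat_lit 0x800060020001900000000000000000000000000000000000000000000) := T_32 (nat_lit 179) (nat_lit 180) (nat_lit 2) (nat_lit 6) (nat_lit 11) L84799 (by decide +kernel)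
theorem L84801 : W_32 (nat_lit 5) (nat_lit 0x1e000200010001000080000000000000000000000000000000) (nat_lit 0x0) (nat_lit 0x800660020001900000000000000000000000000000000000000000000) := T_32 (nat_lit 213) (nat_lit 214) (nat_lit 3) (nat_lit 6) (nat_lit 11) L84800 (by decide +kernel)
theorem L84802 : W_32 (nat_lit 6) (nat_lit 0x1e000200000001000080000000000000000000000000000000) (nat_lit 0x0) (nat_lit 0x800660020001900010000800000000000000000000000000000000000) := T_32 (nat_lit 160) (nat_lit 143) (nat_lit 6) (nat_lit 7) (nat_lit 11) L84801 (by decide +kernel)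
theorem L84805 : W_32 (nat_lit 7) (nat_lit 0xe000200000001000080000000000000000000000000000000) (nat_lit 0x0) (nat_lit 0x800f70031003900010000800000000000000000000000000000000000) := Q_32 (nat_lit 196) (C_32 L84802 (C_32 L7805 (C_32 L17920 (C_32 L84804 N_32)))) (by decide +kernel)
theorem L84886 : W_32 (nat_lit 12) (nat_lit 0xe000200000001000080000000000000000000000000000000) (nat_lit 0x0) (nat_lit 0x78003c0037e001e001f801f000f80138000000000000000000000000000000) := Q_32 (nat_lit 192) (C_32 L20373 (C_32 L84811 (C_32 L84831 (C_32 L80186 (C_32 L84841 (C_32 L84885 N_32)))))) (by decide +kernel)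
theorem L84887 : W_32 (nat_lit 2) (nat_lit 0x21001f000a40010001000080000000000000000000000000000000) (nat_lit 0x0) (nat_lit 0x8000800020000000000000000000000000000000000000000000) := D_32 (nat_lit 191) (nat_lit 207) (nat_lit 173) (nat_lit 1) (nat_lit 7) (nat_lit 11) (nat_lit 0) (nat_lit 7) (nat_lit 11) (by decide +kernel)
theorem L84888 : W_32 (nat_lit 3) (nat_lit 0x21001f000a00010001000080000000000000000000000000000000) (nat_lit 0x0) (nat_lit 0x80008000e0000000000000000000000000000000000000000000) := T_32 (nat_lit 174) (nat_lit 175) (nat_lit 0) (nat_lit 8) (nat_lit 11) L84887 (by decide +kernel)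
theorem L84889 : W_32 (nat_lit 4) (nat_lit 0x20001f000a00010001000080000000000000000000000000000000) (nat_lit 0x0) (nat_lit 0x380008000e0000000000000000000000000000000000000000000) := T_32 (nat_lit 208) (nat_lit 209) (nat_lit 1) (nat_lit 8) (nat_lit 11) L84888 (by decide +kernel)
theorem L84890 : W_32 (nat_lit 5) (nat_lit 0x20001e000a00010001000080000000000000000000000000000000) (nat_lit 0x0) (nat_lit 0x1380018000e0000000000000000000000000000000000000000000) := T_32 (nat_lit 192) (nat_lit 212) (nat_lit 3) (nat_lit 5) (nat_lit 11) L84889 (by decide +kernel)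
theorem L84891 : W_32 (nat_lit 6) (nat_lit 0x1e000a00010001000080000000000000000000000000000000) (nat_lit 0x0) (nat_lit 0x7380018000e0000000000000000000000000000000000000000000) := T_32 (nat_lit 213) (nat_lit 214) (nat_lit 3) (nat_lit 6) (nat_lit 11) L84890 (by decide +kernel)
theorem L84892 : W_32 (nat_lit 7) (nat_lit 0x1e000200010001000080000000000000000000000000000000) (nat_lit 0x0) (nat_lit 0x7380018018e0000000000000000000000000000000000000000000) := T_32 (nat_lit 179) (nat_lit 180) (nat_lit 2) (nat_lit 6) (nat_lit 11) L84891 (by decide +kernel)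
theorem L84893 : W_32 (nat_lit 8) (nat_lit 0x1e000200000001000080000000000000000000000000000000) (nat_lit 0x0) (nat_lit 0x7380018018e0010000800000000000000000000000000000000000) := T_32 (nat_lit 160) (nat_lit 143) (nat_lit 6) (nat_lit 7) (nat_lit 11) L84892 (by decide +kernel)
theorem L84894 : W_32 (nat_lit 9) (nat_lit 0xe000200000001000080000000000000000000000000000000) (nat_lit 0x0) (nat_lit 0xf380318019e0010000800000000000000000000000000000000000) := Q_32 (nat_lit 196) (C_32 L17920 (C_32 L84893 (C_32 L8031 N_32))) (by decide +kernel)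
theorem L84903 : W_32 (nat_lit 7) (nat_lit 0xe000200000001000080000000000000000000000000000000) (nat_lit 0x0) (nat_lit 0x40002000f00031001980050000800000000000000000000000000000000000) := Q_32 (nat_lit 196) (C_32 L17920 (C_32 L84902 (C_32 L8031 N_32))) (by decide +kernel)
theorem L84904 : W_32 (nat_lit 2) (nat_lit 0x4000e000300000001000080000000000000000000000000000000) (nat_lit 0x0) (nat_lit 0x10000800000000000000010000000000000000000000000000000000000000) := D_32 (nat_lit 227) (nat_lit 244) (nat_lit 160) (nat_lit 6) (nat_lit 6) (nat_lit 14) (nat_lit 6) (nat_lit 6) (nat_lit 13) (by decide +kernel)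
theorem L84905 : W_32 (nat_lit 2) (nat_lit 0x6000e000300018001000080000000000000000000000000000000) (nat_lit 0x0) (nat_lit 0x1000000000000400020000000000000000000000000000000) := D_32 (nat_lit 142) (nat_lit 192) (nat_lit 125) (nat_lit 5) (nat_lit 6) (nat_lit 8) (nat_lit 7) (nat_lit 6) (nat_lit 7) (by decide +kernel)
theorem L84906 : W_32 (nat_lit 3) (nat_lit 0x4000e000300018001000080000000000000000000000000000000) (nat_lit 0x0) (nat_lit 0x400020001000000000000400020000000000000000000000000000000) := T_32 (nat_lit 209) (nat_lit 226) (nat_lit 5) (nat_lit 6) (nat_lit 9) L84905 (by decide +kernel)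
theorem L84907 : W_32 (nat_lit 4) (nat_lit 0x4000e000300008001000080000000000000000000000000000000) (nat_lit 0x0) (nat_lit 0x400020001000000010000c00020000000000000000000000000000000) := T_32 (nat_lit 160) (nat_lit 143) (nat_lit 6) (nat_lit 7) (nat_lit 11) L84906 (by decide +kernel)
theorem L84908 : W_32 (nat_lit 4) (nat_lit 0x4000e000340008001000080000000000000000000000000000000) (nat_lit 0x0) (nat_lit 0x400038001000000010000800000000000000000000000000000000000) := T_32 (nat_lit 160) (nat_lit 143) (nat_lit 6) (nat_lit 7) (nat_lit 11) L16154 (by decide +kernel)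
theorem L84909 : W_32 (nat_lit 5) (nat_lit 0x4000e000300008001000080000000000000000000000000000000) (nat_lit 0x0) (nat_lit 0x4000380010000c0010000800000000000000000000000000000000000) := T_32 (nat_lit 174) (nat_lit 175) (nat_lit 3) (nat_lit 4) (nat_lit 10) L84908 (by decide +kernel)
theorem L84910 : W_32 (nat_lit 6) (nat_lit 0x4000e000300000001000080000000000000000000000000000000) (nat_lit 0x0) (nat_lit 0x4000380010000c001c000e00030000000000000000000000000000000) := Q_32 (nat_lit 159) (C_32 L84473 (C_32 L84907 (C_32 L84909 N_32))) (by decide +kernel)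
theorem L84911 : W_32 (nat_lit 7) (nat_lit 0xe000300000001000080000000000000000000000000000000) (nat_lit 0x0) (nat_lit 0x10000c000780010000c001c000e00030000000000000000000000000000000) := Q_32 (nat_lit 210) (C_32 L84904 (C_32 L83476 (C_32 L84910 N_32))) (by decide +kernel)
theorem L84912 : W_32 (nat_lit 8) (nat_lit 0xe000200000001000080000000000000000000000000000000) (nat_lit 0x0) (nat_lit 0x10000c000780310001c001c000e00030000000000000000000000000000000) := Q_32 (nat_lit 176) (C_32 L16013 (C_32 L11678 (C_32 L84911 N_32))) (by decide +kernel)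
theorem L84913 : W_32 (nat_lit 15) (nat_lit 0x6000200000001000080000000000000000000000000000000) (nat_lit 0x0) (nat_lit 0x78003c00f7e039e039f805f000f8013c000000000000000000000000000000) := Q_32 (nat_lit 195) (C_32 L84795 (C_32 L84796 (C_32 L84797 (C_32 L84805 (C_32 L84886 (C_32 L84894 (C_32 L84897 (C_32 L84903 (C_32 L84912 N_32))))))))) (by decide +kernel)
theorem L84935 : W_32 (nat_lit 2) (nat_lit 0x800040007800240000001000080000000000000000000000000000000) (nat_lit 0x0) (nat_lit 0x100010000800000000000000000000000000000000000) := D_32 (nat_lit 160) (nat_lit 143) (nat_lit 176) (nat_lit 6) (nat_lit 7) (nat_lit 11) (nat_lit 6) (nat_lit 6) (nat_lit 13) (by decide +kernel)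
theorem L84936 : W_32 (nat_lit 3) (nat_lit 0x40007800240000001000080000000000000000000000000000000) (nat_lit 0x0) (nat_lit 0x10000800000000000100010000800000000000000000000000000000000000) := T_32 (nat_lit 227) (nat_lit 244) (nat_lit 6) (nat_lit 6) (nat_lit 14) L84935 (by decide +kernel)
theorem L84937 : W_32 (nat_lit 4) (nat_lit 0x40007800200000001000080000000000000000000000000000000) (nat_lit 0x0) (nat_lit 0x10000800000000000160010000800000000000000000000000000000000000) := T_32 (nat_lit 174) (nat_lit 173) (nat_lit 0) (nat_lit 7) (nat_lit 11) L84936 (by decide +kernel)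
theorem L84938 : W_32 (nat_lit 2) (nat_lit 0xc00050007800340000001000080000000000000000000000000000000) (nat_lit 0x0) (nat_lit 0x2000000000000a000000000000000000000000000000000000000) := D_32 (nat_lit 209) (nat_lit 159) (nat_lit 157) (nat_lit 5) (nat_lit 6) (nat_lit 9) (nat_lit 7) (nat_lit 4) (nat_lit 9) (by decide +kernel)
theorem L84939 : W_32 (nat_lit 3) (nat_lit 0x800050007800340000001000080000000000000000000000000000000) (nat_lit 0x0) (nat_lit 0x800040002000000000000a000000000000000000000000000000000000000) := T_32 (nat_lit 226) (nat_lit 243) (nat_lit 5) (nat_lit 6) (nat_lit 10) L84938 (by decide +kernel)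
theorem L84940 : W_32 (nat_lit 4) (nat_lit 0x800050007800240000001000080000000000000000000000000000000) (nat_lit 0x0) (nat_lit 0x800040002000000010001a000000000000000000000000000000000000000) := T_32 (nat_lit 176) (nat_lit 160) (nat_lit 6) (nat_lit 6) (nat_lit 13) L84939 (by decide +kernel)
theorem L84941 : W_32 (nat_lit 5) (nat_lit 0x50007800240000001000080000000000000000000000000000000) (nat_lit 0x0) (nat_lit 0x18000c0002000000010001a000000000000000000000000000000000000000) := T_32 (nat_lit 227) (nat_lit 244) (nat_lit 6) (nat_lit 6) (nat_lit 14) L84940 (by decide +kernel)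
theorem L84942 : W_32 (nat_lit 6) (nat_lit 0x40007800240000001000080000000000000000000000000000000) (nat_lit 0x0) (nat_lit 0x18000c0003800000010001a000000000000000000000000000000000000000) := T_32 (nat_lit 208) (nat_lit 207) (nat_lit 1) (nat_lit 7) (nat_lit 11) L84941 (by decide +kernel)
theorem L84943 : W_32 (nat_lit 7) (nat_lit 0x40007800200000001000080000000000000000000000000000000) (nat_lit 0x0) (nat_lit 0x18000c0003800000016001a000000000000000000000000000000000000000) := T_32 (nat_lit 174) (nat_lit 173) (nat_lit 0) (nat_lit 7) (nat_lit 11) L84942 (by decide +kernel)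
theorem L84944 : W_32 (nat_lit 11) (nat_lit 0x40007800200000001000080000000000000000000000000000000) (nat_lit 0x0) (nat_lit 0x1e000f800380000000e0017000f8011c000000000000000000000000000000) := T_32 (nat_lit 244) (nat_lit 227) (nat_lit 6) (nat_lit 6) (nat_lit 14) L84718 (by decide +kernel)
theorem L84945 : W_32 (nat_lit 5) (nat_lit 0x10000200050007800280000001200080000000000000000000000000000000) (nat_lit 0x0) (nat_lit 0xa000580020000000060002000000000000000000000000000000000000000) := T_32 (nat_lit 174) (nat_lit 173) (nat_lit 0) (nat_lit 7) (nat_lit 11) L84695 (by decide +kernel)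
theorem L84946 : W_32 (nat_lit 6) (nat_lit 0x200050007800280000001200080000000000000000000000000000000) (nat_lit 0x0) (nat_lit 0x1a000d80020000000060002000000000000000000000000000000000000000) := T_32 (nat_lit 244) (nat_lit 227) (nat_lit 6) (nat_lit 6) (nat_lit 14) L84945 (by decide +kernel)
theorem L84947 : W_32 (nat_lit 7) (nat_lit 0x50007800280000001200080000000000000000000000000000000) (nat_lit 0x0) (nat_lit 0x1e000f80020000000060002000000000000000000000000000000000000000) := T_32 (nat_lit 225) (nat_lit 242) (nat_lit 6) (nat_lit 4) (nat_lit 14) L84946 (by decide +kernel)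
theorem L84948 : W_32 (nat_lit 8) (nat_lit 0x50007800280000001000080000000000000000000000000000000) (nat_lit 0x0) (nat_lit 0x1e000f80020000000060006000200000000000000000000000000000000000) := T_32 (nat_lit 141) (nat_lit 158) (nat_lit 7) (nat_lit 5) (nat_lit 8) L84947 (by decide +kernel)
theorem L84949 : W_32 (nat_lit 9) (nat_lit 0x40007800280000001000080000000000000000000000000000000) (nat_lit 0x0) (nat_lit 0x1e000f80038000000060006000200000000000000000000000000000000000) := T_32 (nat_lit 208) (nat_lit 207) (nat_lit 1) (nat_lit 7) (nat_lit 11) L84948 (by decide +kernel)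
theorem L84950 : W_32 (nat_lit 2) (nat_lit 0x100007000500078002c0000001000080000000000000000000000000000000) (nat_lit 0x0) (nat_lit 0x80020000000000002000000000000000000000000000000000000000) := D_32 (nat_lit 209) (nat_lit 157) (nat_lit 223) (nat_lit 7) (nat_lit 4) (nat_lit 9) (nat_lit 2) (nat_lit 2) (nat_lit 13) (by decide +kernel)
theorem L84951 : W_32 (nat_lit 3) (nat_lit 0x100003000500078002c0000001000080000000000000000000000000000000) (nat_lit 0x0) (nat_lit 0x8000480020000000000002000000000000000000000000000000000000000) := T_32 (nat_lit 226) (nat_lit 243) (nat_lit 7) (nat_lit 4) (nat_lit 10) L84950 (by decide +kernel)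
theorem L84952 : W_32 (nat_lit 4) (nat_lit 0x100002000500078002c0000001000080000000000000000000000000000000) (nat_lit 0x0) (nat_lit 0xa000580020000000000002000000000000000000000000000000000000000) := T_32 (nat_lit 224) (nat_lit 241) (nat_lit 5) (nat_lit 4) (nat_lit 10) L84951 (by decide +kernel)
theorem L84953 : W_32 (nat_lit 5) (nat_lit 0x100000000500078002c0000001000080000000000000000000000000000000) (nat_lit 0x0) (nat_lit 0xe000780020000000000002000000000000000000000000000000000000000) := T_32 (nat_lit 225) (nat_lit 242) (nat_lit 6) (nat_lit 4) (nat_lit 14) L84952 (by decide +kernel)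
theorem L84954 : W_32 (nat_lit 6) (nat_lit 0x500078002c0000001000080000000000000000000000000000000) (nat_lit 0x0) (nat_lit 0x1e000f80020000000000002000000000000000000000000000000000000000) := T_32 (nat_lit 244) (nat_lit 227) (nat_lit 6) (nat_lit 6) (nat_lit 14) L84953 (by decide +kernel)
theorem L84955 : W_32 (nat_lit 7) (nat_lit 0x400078002c0000001000080000000000000000000000000000000) (nat_lit 0x0) (nat_lit 0x1e000f80038000000000002000000000000000000000000000000000000000) := T_32 (nat_lit 208) (nat_lit 207) (nat_lit 1) (nat_lit 7) (nat_lit 11) L84954 (by decide +kernel)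
theorem L84956 : W_32 (nat_lit 8) (nat_lit 0x40007800280000001000080000000000000000000000000000000) (nat_lit 0x0) (nat_lit 0x1e000f80038000000060002000000000000000000000000000000000000000) := T_32 (nat_lit 174) (nat_lit 173) (nat_lit 0) (nat_lit 7) (nat_lit 11) L84955 (by decide +kernel)
theorem L84957 : W_32 (nat_lit 2) (nat_lit 0x50007800280004001000080000000000000000000000000000000) (nat_lit 0x0) (nat_lit 0x4000200020000000000000000000000000000000000000000000000000000) := D_32 (nat_lit 225) (nat_lit 242) (nat_lit 209) (nat_lit 6) (nat_lit 4) (nat_lit 14) (nat_lit 5) (nat_lit 5) (nat_lit 9) (by decide +kernel)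
theorem L84958 : W_32 (nat_lit 3) (nat_lit 0x50007800280000001000080000000000000000000000000000000) (nat_lit 0x0) (nat_lit 0x4000200020000000000004000200000000000000000000000000000000000) := T_32 (nat_lit 158) (nat_lit 141) (nat_lit 7) (nat_lit 5) (nat_lit 8) L84957 (by decide +kernel)
theorem L84959 : W_32 (nat_lit 4) (nat_lit 0x40007800280000001000080000000000000000000000000000000) (nat_lit 0x0) (nat_lit 0x4000200038000000000004000200000000000000000000000000000000000) := T_32 (nat_lit 208) (nat_lit 207) (nat_lit 1) (nat_lit 7) (nat_lit 11) L84958 (by decide +kernel)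
theorem L84960 : W_32 (nat_lit 2) (nat_lit 0x500078002c0000001000080000000000000000000000000000000) (nat_lit 0x0) (nat_lit 0x4000200000000000000004000000000000000000000000000000000000000) := D_32 (nat_lit 225) (nat_lit 242) (nat_lit 158) (nat_lit 6) (nat_lit 4) (nat_lit 14) (nat_lit 6) (nat_lit 4) (nat_lit 13) (by decide +kernel)
theorem L84961 : W_32 (nat_lit 3) (nat_lit 0x50007800280000001000080000000000000000000000000000000) (nat_lit 0x0) (nat_lit 0x4000200000000000060004000000000000000000000000000000000000000) := T_32 (nat_lit 174) (nat_lit 173) (nat_lit 0) (nat_lit 7) (nat_lit 11) L84960 (by decide +kernel)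
theorem L84962 : W_32 (nat_lit 4) (nat_lit 0x40007800280000001000080000000000000000000000000000000) (nat_lit 0x0) (nat_lit 0x4000200018000000060004000000000000000000000000000000000000000) := T_32 (nat_lit 208) (nat_lit 207) (nat_lit 1) (nat_lit 7) (nat_lit 11) L84961 (by decide +kernel)
theorem L84963 : W_32 (nat_lit 2) (nat_lit 0x400078002c0004001000080000000000000000000000000000000) (nat_lit 0x0) (nat_lit 0x10000800020000000000000000000000000000000000000000000000000000) := D_32 (nat_lit 227) (nat_lit 244) (nat_lit 209) (nat_lit 6) (nat_lit 6) (nat_lit 14) (nat_lit 7) (nat_lit 5) (nat_lit 9) (by decide +kernel)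
theorem L84964 : W_32 (nat_lit 3) (nat_lit 0x400078002c0000001000080000000000000000000000000000000) (nat_lit 0x0) (nat_lit 0x10000800020000000000004000200000000000000000000000000000000000) := T_32 (nat_lit 158) (nat_lit 141) (nat_lit 7) (nat_lit 5) (nat_lit 8) L84963 (by decide +kernel)
theorem L84965 : W_32 (nat_lit 4) (nat_lit 0x40007800280000001000080000000000000000000000000000000) (nat_lit 0x0) (nat_lit 0x10000800020000000060004000200000000000000000000000000000000000) := T_32 (nat_lit 174) (nat_lit 173) (nat_lit 0) (nat_lit 7) (nat_lit 11) L84964 (by decide +kernel)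
theorem L84966 : W_32 (nat_lit 10) (nat_lit 0x40007800200000001000080000000000000000000000000000000) (nat_lit 0x0) (nat_lit 0x1e000f800380000000e0006000200000000000000000000000000000000000) := Q_32 (nat_lit 175) (C_32 L84949 (C_32 L84956 (C_32 L84959 (C_32 L84962 (C_32 L84965 N_32))))) (by decide +kernel)
theorem L84967 : W_32 (nat_lit 2) (nat_lit 0x50007800200010001000080000000000000000000000000000000) (nat_lit 0x0) (nat_lit 0x10000800000000000100000000000000000000000000000000000000000000) := D_32 (nat_lit 227) (nat_lit 244) (nat_lit 176) (nat_lit 6) (nat_lit 6) (nat_lit 14) (nat_lit 6) (nat_lit 6) (nat_lit 13) (by decide +kernel)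
theorem L84968 : W_32 (nat_lit 3) (nat_lit 0x50007800200000001000080000000000000000000000000000000) (nat_lit 0x0) (nat_lit 0x10000800000000000100010000800000000000000000000000000000000000) := T_32 (nat_lit 160) (nat_lit 143) (nat_lit 6) (nat_lit 7) (nat_lit 11) L84967 (by decide +kernel)
theorem L84969 : W_32 (nat_lit 4) (nat_lit 0x40007800200000001000080000000000000000000000000000000) (nat_lit 0x0) (nat_lit 0x10000800018000000100010000800000000000000000000000000000000000) := T_32 (nat_lit 208) (nat_lit 207) (nat_lit 1) (nat_lit 7) (nat_lit 11) L84968 (by decide +kernel)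
theorem L84974 : W_32 (nat_lit 2) (nat_lit 0x7000500078002c0000001800080000000000000000000000000000000) (nat_lit 0x0) (nat_lit 0x80020000000000002000000000000000000000000000000000000000) := D_32 (nat_lit 209) (nat_lit 157) (nat_lit 223) (nat_lit 7) (nat_lit 4) (nat_lit 9) (nat_lit 2) (nat_lit 2) (nat_lit 13) (by decide +kernel)
theorem L84975 : W_32 (nat_lit 3) (nat_lit 0x3000500078002c0000001800080000000000000000000000000000000) (nat_lit 0x0) (nat_lit 0x8000480020000000000002000000000000000000000000000000000000000) := T_32 (nat_lit 226) (nat_lit 243) (nat_lit 7) (nat_lit 4) (nat_lit 10) L84974 (by decide +kernel)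
theorem L84976 : W_32 (nat_lit 4) (nat_lit 0x2000500078002c0000001800080000000000000000000000000000000) (nat_lit 0x0) (nat_lit 0xa000580020000000000002000000000000000000000000000000000000000) := T_32 (nat_lit 224) (nat_lit 241) (nat_lit 5) (nat_lit 4) (nat_lit 10) L84975 (by decide +kernel)
theorem L84977 : W_32 (nat_lit 5) (nat_lit 0x500078002c0000001800080000000000000000000000000000000) (nat_lit 0x0) (nat_lit 0xe000780020000000000002000000000000000000000000000000000000000) := T_32 (nat_lit 225) (nat_lit 242) (nat_lit 6) (nat_lit 4) (nat_lit 14) L84976 (by decide +kernel)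
theorem L84978 : W_32 (nat_lit 6) (nat_lit 0x400078002c0000001800080000000000000000000000000000000) (nat_lit 0x0) (nat_lit 0xe000780038000000000002000000000000000000000000000000000000000) := T_32 (nat_lit 208) (nat_lit 207) (nat_lit 1) (nat_lit 7) (nat_lit 11) L84977 (by decide +kernel)
theorem L84979 : W_32 (nat_lit 7) (nat_lit 0x40007800280000001800080000000000000000000000000000000) (nat_lit 0x0) (nat_lit 0xe000780038000000060002000000000000000000000000000000000000000) := T_32 (nat_lit 174) (nat_lit 173) (nat_lit 0) (nat_lit 7) (nat_lit 11) L84978 (by decide +kernel)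
theorem L84980 : W_32 (nat_lit 8) (nat_lit 0x40007800280000001000080000000000000000000000000000000) (nat_lit 0x0) (nat_lit 0xe000780038000000060012000800000000000000000000000000000000000) := T_32 (nat_lit 143) (nat_lit 160) (nat_lit 6) (nat_lit 7) (nat_lit 11) L84979 (by decide +kernel)
theorem L84981 : W_32 (nat_lit 2) (nat_lit 0x400078003c0000001e00090000000000000000000000000000000) (nat_lit 0x0) (nat_lit 0x3000100000000000000000000000000000000000) := D_32 (nat_lit 157) (nat_lit 156) (nat_lit 140) (nat_lit 0) (nat_lit 7) (nat_lit 10) (nat_lit 6) (nat_lit 4) (nat_lit 11) (by decide +kernel)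
theorem L84982 : W_32 (nat_lit 3) (nat_lit 0x400078002c0000001e00090000000000000000000000000000000) (nat_lit 0x0) (nat_lit 0x10000b000100000000000000000000000000000000000) := T_32 (nat_lit 176) (nat_lit 159) (nat_lit 4) (nat_lit 6) (nat_lit 11) L84981 (by decide +kernel)
theorem L84983 : W_32 (nat_lit 4) (nat_lit 0x400078002c0000001e00080000000000000000000000000000000) (nat_lit 0x0) (nat_lit 0x10000b000100018000000000000000000000000000000) := T_32 (nat_lit 124) (nat_lit 123) (nat_lit 0) (nat_lit 8) (nat_lit 8) L84982 (by decide +kernel)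
theorem L84984 : W_32 (nat_lit 5) (nat_lit 0x400078002c0000001a00080000000000000000000000000000000) (nat_lit 0x0) (nat_lit 0x10000b000500118000000000000000000000000000000) := T_32 (nat_lit 142) (nat_lit 128) (nat_lit 2) (nat_lit 5) (nat_lit 8) L84983 (by decide +kernel)
theorem L84985 : W_32 (nat_lit 6) (nat_lit 0x40007800280000001a00080000000000000000000000000000000) (nat_lit 0x0) (nat_lit 0x16000b000500118000000000000000000000000000000) := T_32 (nat_lit 174) (nat_lit 173) (nat_lit 0) (nat_lit 7) (nat_lit 11) L84984 (by decide +kernel)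
theorem L84986 : W_32 (nat_lit 7) (nat_lit 0x40007800280000001200080000000000000000000000000000000) (nat_lit 0x0) (nat_lit 0x16001b000d00118000000000000000000000000000000) := T_32 (nat_lit 143) (nat_lit 160) (nat_lit 6) (nat_lit 7) (nat_lit 11) L84985 (by decide +kernel)
theorem L84987 : W_32 (nat_lit 8) (nat_lit 0x40007800280000001000080000000000000000000000000000000) (nat_lit 0x0) (nat_lit 0x16001f000f00118000000000000000000000000000000) := T_32 (nat_lit 141) (nat_lit 158) (nat_lit 7) (nat_lit 5) (nat_lit 8) L84986 (by decide +kernel)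
theorem L84988 : W_32 (nat_lit 9) (nat_lit 0x40007800200000001000080000000000000000000000000000000) (nat_lit 0x0) (nat_lit 0xe0007800380000001e001f000f00118000000000000000000000000000000) := Q_32 (nat_lit 175) (C_32 L84959 (C_32 L84962 (C_32 L84980 (C_32 L84987 N_32)))) (by decide +kernel)
theorem L84989 : W_32 (nat_lit 12) (nat_lit 0x7800200000001000080000000000000000000000000000000) (nat_lit 0x0) (nat_lit 0x1e000f800780000001e001f000f8011c000000000000000000000000000000) := Q_32 (nat_lit 210) (C_32 L84937 (C_32 L84943 (C_32 L84944 (C_32 L84966 (C_32 L84969 (C_32 L84988 N_32)))))) (by decide +kernel)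
theorem L84990 : W_32 (nat_lit 13) (nat_lit 0x7000200000001000080000000000000000000000000000000) (nat_lit 0x0) (nat_lit 0x1e000f8007c000c001f001f000f8011c000000000000000000000000000000) := Q_32 (nat_lit 191) (C_32 L10036 (C_32 L24839 (C_32 L10040 (C_32 L84989 N_32)))) (by decide +kernel)
theorem L85002 : W_32 (nat_lit 2) (nat_lit 0x4000600030001c001000080000000000000000000000000000000) (nat_lit 0x0) (nat_lit 0x400003000000000000000000000000000000000000000) := D_32 (nat_lit 157) (nat_lit 156) (nat_lit 178) (nat_lit 3) (nat_lit 3) (nat_lit 9) (nat_lit 3) (nat_lit 4) (nat_lit 9) (by decide +kernel)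
theorem L85190 : W_32 (nat_lit 2) (nat_lit 0x7000300000001c00080000000000000000000000000000000) (nat_lit 0x0) (nat_lit 0x20000000000008000000020000000000000000000000000000000) := D_32 (nat_lit 159) (nat_lit 209) (nat_lit 125) (nat_lit 5) (nat_lit 6) (nat_lit 8) (nat_lit 7) (nat_lit 6) (nat_lit 7) (by decide +kernel)
theorem L85275 : W_32 (nat_lit 5) (nat_lit 0x40007000200000001000080000000000000000000000000000000) (nat_lit 0x0) (nat_lit 0x500028007300180004c0014000800000000000000000000000000000000000) := Q_32 (nat_lit 195) (C_32 L84619 (C_32 L80195 (C_32 L85274 N_32))) (by decide +kernel)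
theorem L85276 : W_32 (nat_lit 10) (nat_lit 0x40006000200000001000080000000000000000000000000000000) (nat_lit 0x0) (nat_lit 0x58002c0073f019f004fc016000800000000000000000000000000000000000) := Q_32 (nat_lit 192) (C_32 L85275 (C_32 L84653 (C_32 L84924 (C_32 L84928 (C_32 L84933 (C_32 L10174 N_32)))))) (by decide +kernel)
theorem L85277 : W_32 (nat_lit 10) (nat_lit 0x40006000200000001000080000000000000000000000000000000) (nat_lit 0x0) (nat_lit 0x18001c000e0003c019c005f0006000300000000000000000000000000000000000) := Q_32 (nat_lit 192) (C_32 L80197 (C_32 L84924 (C_32 L79641 (C_32 L10123 (C_32 L10509 N_32))))) (by decide +kernel)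
theorem L85278 : W_32 (nat_lit 2) (nat_lit 0x4000000016000f800280000001000080000000000000000000000000000000) (nat_lit 0x0) (nat_lit 0x600100000000000000000000000000000000000000000000) := D_32 (nat_lit 190) (nat_lit 176) (nat_lit 189) (nat_lit 2) (nat_lit 3) (nat_lit 11) (nat_lit 3) (nat_lit 2) (nat_lit 11) (by decide +kernel)
theorem L85279 : W_32 (nat_lit 3) (nat_lit 0x4000000016000f000280000001000080000000000000000000000000000000) (nat_lit 0x0) (nat_lit 0xe00500000000000000000000000000000000000000000000) := T_32 (nat_lit 191) (nat_lit 178) (nat_lit 2) (nat_lit 4) (nat_lit 11) L85278 (by decide +kernel)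
theorem L85280 : W_32 (nat_lit 4) (nat_lit 0x4000000016000f000200000001000080000000000000000000000000000000) (nat_lit 0x0) (nat_lit 0xe005c0000000000000000000000000000000000000000000) := T_32 (nat_lit 175) (nat_lit 174) (nat_lit 0) (nat_lit 8) (nat_lit 11) L85279 (by decide +kernel)
theorem L85281 : W_32 (nat_lit 5) (nat_lit 0x16000f000200000001000080000000000000000000000000000000) (nat_lit 0x0) (nat_lit 0x40002000000000e005c0000000000000000000000000000000000000000000) := T_32 (nat_lit 246) (nat_lit 229) (nat_lit 4) (nat_lit 8) (nat_lit 14) L85280 (by decide +kernel)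
theorem L85282 : W_32 (nat_lit 6) (nat_lit 0x14000f000200000001000080000000000000000000000000000000) (nat_lit 0x0) (nat_lit 0x40002000030000e005c0000000000000000000000000000000000000000000) := T_32 (nat_lit 209) (nat_lit 208) (nat_lit 1) (nat_lit 8) (nat_lit 11) L85281 (by decide +kernel)
theorem L85283 : W_32 (nat_lit 7) (nat_lit 0x4000f000200000001000080000000000000000000000000000000) (nat_lit 0x0) (nat_lit 0x40002000330000e005c0000000000000000000000000000000000000000000) := T_32 (nat_lit 212) (nat_lit 213) (nat_lit 3) (nat_lit 5) (nat_lit 11) L85282 (by decide +kernel)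
theorem L85285 : W_32 (nat_lit 11) (nat_lit 0x4000e000200000001000080000000000000000000000000000000) (nat_lit 0x0) (nat_lit 0x40002400330001e005e001f000f00000000000000000000000000000000000) := Q_32 (nat_lit 192) (C_32 L85274 (C_32 L84840 (C_32 L85283 (C_32 L85284 N_32)))) (by decide +kernel)
theorem L85286 : W_32 (nat_lit 2) (nat_lit 0x24001f000300010001000080000000000000000000000000000000) (nat_lit 0x0) (nat_lit 0xc00400000000000000000000000000000000000000000000) := D_32 (nat_lit 191) (nat_lit 178) (nat_lit 190) (nat_lit 2) (nat_lit 4) (nat_lit 11) (nat_lit 2) (nat_lit 3) (nat_lit 11) (by decide +kernel)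
theorem L85287 : W_32 (nat_lit 3) (nat_lit 0x24001e000300010001000080000000000000000000000000000000) (nat_lit 0x0) (nat_lit 0x100001c00400000000000000000000000000000000000000000000) := T_32 (nat_lit 192) (nat_lit 212) (nat_lit 3) (nat_lit 5) (nat_lit 11) L85286 (by decide +kernel)
theorem L85288 : W_32 (nat_lit 4) (nat_lit 0x4001e000300010001000080000000000000000000000000000000) (nat_lit 0x0) (nat_lit 0x700001c00400000000000000000000000000000000000000000000) := T_32 (nat_lit 213) (nat_lit 214) (nat_lit 3) (nat_lit 6) (nat_lit 11) L85287 (by decide +kernel)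
theorem L85289 : W_32 (nat_lit 5) (nat_lit 0x4000e000300010001000080000000000000000000000000000000) (nat_lit 0x0) (nat_lit 0x700031c00400000000000000000000000000000000000000000000) := T_32 (nat_lit 196) (nat_lit 197) (nat_lit 0) (nat_lit 10) (nat_lit 11) L85288 (by decide +kernel)
theorem L85290 : W_32 (nat_lit 6) (nat_lit 0x4000e000300000001000080000000000000000000000000000000) (nat_lit 0x0) (nat_lit 0x700031c00400010000800000000000000000000000000000000000) := T_32 (nat_lit 160) (nat_lit 143) (nat_lit 6) (nat_lit 7) (nat_lit 11) L85289 (by decide +kernel)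
theorem L85291 : W_32 (nat_lit 2) (nat_lit 0x4000f000300000001000080000000000000000000000000000000) (nat_lit 0x0) (nat_lit 0xc00400000000000000000000000000000000000000000000) := D_32 (nat_lit 191) (nat_lit 190) (nat_lit 178) (nat_lit 2) (nat_lit 3) (nat_lit 11) (nat_lit 2) (nat_lit 4) (nat_lit 11) (by decide +kernel)
theorem L85292 : W_32 (nat_lit 8) (nat_lit 0x4000e000300000001000080000000000000000000000000000000) (nat_lit 0x0) (nat_lit 0x300001c004c001c000e00118000000000000000000000000000000) := Q_32 (nat_lit 192) (C_32 L85291 (C_32 L84883 N_32)) (by decide +kernel)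
theorem L85293 : W_32 (nat_lit 9) (nat_lit 0x4000e000200000001000080000000000000000000000000000000) (nat_lit 0x0) (nat_lit 0x700031c005c001c000e00118000000000000000000000000000000) := Q_32 (nat_lit 176) (C_32 L84497 (C_32 L85290 (C_32 L85292 N_32))) (by decide +kernel)
theorem L85294 : W_32 (nat_lit 12) (nat_lit 0x40006000200000001000080000000000000000000000000000000) (nat_lit 0x0) (nat_lit 0x40002400738039e005e001f000f00118000000000000000000000000000000) := Q_32 (nat_lit 195) (C_32 L84575 (C_32 L85285 (C_32 L10247 (C_32 L85293 N_32)))) (by decide +kernel)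
theorem L85295 : W_32 (nat_lit 13) (nat_lit 0x6000200000001000080000000000000000000000000000000) (nat_lit 0x0) (nat_lit 0x18005c002e0077f039f005fc01f000f00118000000000000000000000000000000) := Q_32 (nat_lit 210) (C_32 L84557 (C_32 L85276 (C_32 L79564 (C_32 L85277 (C_32 L85294 N_32))))) (by decide +kernel)
theorem L85304 : W_32 (nat_lit 15) (nat_lit 0x6000200000001000080000000000000000000000000000000) (nat_lit 0x0) (nat_lit 0x50002800f7c079c03cf0017000f8013c000000000000000000000000000000) := Q_32 (nat_lit 192) (C_32 L23864 (C_32 L85296 (C_32 L23868 (C_32 L85298 (C_32 L85303 N_32))))) (by decide +kernel)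
theorem L85437 : W_32 (nat_lit 2) (nat_lit 0x1000000044003e002200000001000080000000000000000000000000000000) (nat_lit 0x0) (nat_lit 0x40004400000000000000000000000000000000000000000000) := D_32 (nat_lit 198) (nat_lit 178) (nat_lit 182) (nat_lit 0) (nat_lit 11) (nat_lit 11) (nat_lit 2) (nat_lit 8) (nat_lit 11) (by decide +kernel)
theorem L85438 : W_32 (nat_lit 3) (nat_lit 0x1000000044003e000200000001000080000000000000000000000000000000) (nat_lit 0x0) (nat_lit 0x40007400000000000000000000000000000000000000000000) := T_32 (nat_lit 181) (nat_lit 180) (nat_lit 2) (nat_lit 7) (nat_lit 11) L85437 (by decide +kernel)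
theorem L85439 : W_32 (nat_lit 4) (nat_lit 0x1000000044001e000200000001000080000000000000000000000000000000) (nat_lit 0x0) (nat_lit 0x800060007400000000000000000000000000000000000000000000) := T_32 (nat_lit 197) (nat_lit 215) (nat_lit 3) (nat_lit 7) (nat_lit 11) L85438 (by decide +kernel)
theorem L85440 : W_32 (nat_lit 5) (nat_lit 0x44001e000200000001000080000000000000000000000000000000) (nat_lit 0x0) (nat_lit 0x10000800800060007400000000000000000000000000000000000000000000) := T_32 (nat_lit 244) (nat_lit 227) (nat_lit 6) (nat_lit 6) (nat_lit 14) L85439 (by decide +kernel)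
theorem L85441 : W_32 (nat_lit 6) (nat_lit 0x4001e000200000001000080000000000000000000000000000000) (nat_lit 0x0) (nat_lit 0x10000800e00060007400000000000000000000000000000000000000000000) := T_32 (nat_lit 214) (nat_lit 213) (nat_lit 3) (nat_lit 6) (nat_lit 11) L85440 (by decide +kernel)
theorem L85442 : W_32 (nat_lit 7) (nat_lit 0x1e000200000001000080000000000000000000000000000000) (nat_lit 0x0) (nat_lit 0x10000800e60060007400000000000000000000000000000000000000000000) := T_32 (nat_lit 210) (nat_lit 209) (nat_lit 1) (nat_lit 9) (nat_lit 11) L85441 (by decide +kernel)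
theorem L85457 : W_32 (nat_lit 2) (nat_lit 0x1000000004007e001200000001000080000000000000000000000000000000) (nat_lit 0x0) (nat_lit 0x1c00000000000000000000000000000000000000000000000000000) := D_32 (nat_lit 215) (nat_lit 214) (nat_lit 216) (nat_lit 3) (nat_lit 7) (nat_lit 11) (nat_lit 3) (nat_lit 8) (nat_lit 11) (by decide +kernel)
theorem L85458 : W_32 (nat_lit 3) (nat_lit 0x1000000004003e001200000001000080000000000000000000000000000000) (nat_lit 0x0) (nat_lit 0x1c00040000400000000000000000000000000000000000000000000) := T_32 (nat_lit 198) (nat_lit 178) (nat_lit 0) (nat_lit 11) (nat_lit 11) L85457 (by decide +kernel)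
theorem L85459 : W_32 (nat_lit 4) (nat_lit 0x1000000004001e001200000001000080000000000000000000000000000000) (nat_lit 0x0) (nat_lit 0x1c00060002400000000000000000000000000000000000000000000) := T_32 (nat_lit 197) (nat_lit 181) (nat_lit 2) (nat_lit 7) (nat_lit 11) L85458 (by decide +kernel)
theorem L85460 : W_32 (nat_lit 5) (nat_lit 0x4001e001200000001000080000000000000000000000000000000) (nat_lit 0x0) (nat_lit 0x10000801c00060002400000000000000000000000000000000000000000000) := T_32 (nat_lit 244) (nat_lit 227) (nat_lit 6) (nat_lit 6) (nat_lit 14) L85459 (by decide +kernel)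
theorem L85461 : W_32 (nat_lit 6) (nat_lit 0x4001e000200000001000080000000000000000000000000000000) (nat_lit 0x0) (nat_lit 0x10000801c00060003c00000000000000000000000000000000000000000000) := T_32 (nat_lit 180) (nat_lit 179) (nat_lit 2) (nat_lit 6) (nat_lit 11) L85460 (by decide +kernel)
theorem L85462 : W_32 (nat_lit 7) (nat_lit 0x1e000200000001000080000000000000000000000000000000) (nat_lit 0x0) (nat_lit 0x10000801c60060003c00000000000000000000000000000000000000000000) := T_32 (nat_lit 210) (nat_lit 209) (nat_lit 1) (nat_lit 9) (nat_lit 11) L85461 (by decide +kernel)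
theorem L85470 : W_32 (nat_lit 2) (nat_lit 0x10001e000600000001000080000000000000000000000000000000) (nat_lit 0x0) (nat_lit 0x40002000000000000000010000000000000000000000000000000000000000) := D_32 (nat_lit 229) (nat_lit 246) (nat_lit 160) (nat_lit 4) (nat_lit 8) (nat_lit 14) (nat_lit 4) (nat_lit 8) (nat_lit 13) (by decide +kernel)
theorem L85490 : W_32 (nat_lit 2) (nat_lit 0x4000e000300018001400080000000000000000000000000000000) (nat_lit 0x0) (nat_lit 0x4000200010000000000000000000000000000000) := D_32 (nat_lit 141) (nat_lit 158) (nat_lit 124) (nat_lit 4) (nat_lit 6) (nat_lit 12) (nat_lit 4) (nat_lit 6) (nat_lit 11) (by decide +kernel)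
theorem L85491 : W_32 (nat_lit 3) (nat_lit 0x4000e000300018001000080000000000000000000000000000000) (nat_lit 0x0) (nat_lit 0x4000600030000000000000000000000000000000) := T_32 (nat_lit 142) (nat_lit 125) (nat_lit 7) (nat_lit 6) (nat_lit 7) L85490 (by decide +kernel)
theorem L85492 : W_32 (nat_lit 2) (nat_lit 0x24001e000b00000001000080000000000000000000000000000000) (nat_lit 0x0) (nat_lit 0x10000800000000000000010000000000000000000000000000000000000000) := D_32 (nat_lit 227) (nat_lit 244) (nat_lit 160) (nat_lit 6) (nat_lit 6) (nat_lit 14) (nat_lit 6) (nat_lit 6) (nat_lit 13) (by decide +kernel)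
theorem L85493 : W_32 (nat_lit 3) (nat_lit 0x24001e000a00000001000080000000000000000000000000000000) (nat_lit 0x0) (nat_lit 0x10000800000000000180010000000000000000000000000000000000000000) := T_32 (nat_lit 176) (nat_lit 175) (nat_lit 0) (nat_lit 9) (nat_lit 11) L85492 (by decide +kernel)
theorem L85494 : W_32 (nat_lit 4) (nat_lit 0x20001e000a00000001000080000000000000000000000000000000) (nat_lit 0x0) (nat_lit 0x10000800060000000180010000000000000000000000000000000000000000) := T_32 (nat_lit 210) (nat_lit 209) (nat_lit 1) (nat_lit 9) (nat_lit 11) L85493 (by decide +kernel)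
theorem L85495 : W_32 (nat_lit 5) (nat_lit 0x20001e000200000001000080000000000000000000000000000000) (nat_lit 0x0) (nat_lit 0x10000800060000001980010000000000000000000000000000000000000000) := T_32 (nat_lit 179) (nat_lit 180) (nat_lit 2) (nat_lit 6) (nat_lit 11) L85494 (by decide +kernel)
theorem L85496 : W_32 (nat_lit 6) (nat_lit 0x1e000200000001000080000000000000000000000000000000) (nat_lit 0x0) (nat_lit 0x10000800660000001980010000000000000000000000000000000000000000) := T_32 (nat_lit 213) (nat_lit 214) (nat_lit 3) (nat_lit 6) (nat_lit 11) L85495 (by decide +kernel)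
theorem L85508 : W_32 (nat_lit 2) (nat_lit 0x10000400030001e000a00000001000080000000000000000000000000000000) (nat_lit 0x0) (nat_lit 0x3000080000000000000000000000000000000000000000000000000000000000000) := D_32 (nat_lit 247) (nat_lit 264) (nat_lit 265) (nat_lit 4) (nat_lit 9) (nat_lit 15) (nat_lit 7) (nat_lit 9) (nat_lit 11) (by decide +kernel)
theorem L85509 : W_32 (nat_lit 3) (nat_lit 0x400030001e000a00000001000080000000000000000000000000000000) (nat_lit 0x0) (nat_lit 0x3000180008000000000000000000000000000000000000000000000000000000000) := T_32 (nat_lit 248) (nat_lit 231) (nat_lit 7) (nat_lit 9) (nat_lit 10) L85508 (by decide +kernel)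
theorem L85510 : W_32 (nat_lit 2) (nat_lit 0x600020001e000e80000001000080000000000000000000000000000000) (nat_lit 0x0) (nat_lit 0x100000000000050000000000000000000000000000000000000000) := D_32 (nat_lit 212) (nat_lit 162) (nat_lit 160) (nat_lit 6) (nat_lit 8) (nat_lit 13) (nat_lit 4) (nat_lit 8) (nat_lit 13) (by decide +kernel)
theorem L85511 : W_32 (nat_lit 3) (nat_lit 0x400020001e000e80000001000080000000000000000000000000000000) (nat_lit 0x0) (nat_lit 0x40002000100000000000050000000000000000000000000000000000000000) := T_32 (nat_lit 229) (nat_lit 246) (nat_lit 5) (nat_lit 9) (nat_lit 10) L85510 (by decide +kernel)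
theorem L85512 : W_32 (nat_lit 4) (nat_lit 0x20001e000e80000001000080000000000000000000000000000000) (nat_lit 0x0) (nat_lit 0xc0006000100000000000050000000000000000000000000000000000000000) := T_32 (nat_lit 230) (nat_lit 247) (nat_lit 4) (nat_lit 9) (nat_lit 14) L85511 (by decide +kernel)
theorem L85513 : W_32 (nat_lit 5) (nat_lit 0x1e000e80000001000080000000000000000000000000000000) (nat_lit 0x0) (nat_lit 0xc0006000700000000000050000000000000000000000000000000000000000) := T_32 (nat_lit 213) (nat_lit 214) (nat_lit 3) (nat_lit 6) (nat_lit 11) L85512 (by decide +kernel)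
theorem L85514 : W_32 (nat_lit 6) (nat_lit 0x1e000680000001000080000000000000000000000000000000) (nat_lit 0x0) (nat_lit 0xc0006000700000001800050000000000000000000000000000000000000000) := T_32 (nat_lit 179) (nat_lit 180) (nat_lit 2) (nat_lit 6) (nat_lit 11) L85513 (by decide +kernel)
theorem L85515 : W_32 (nat_lit 7) (nat_lit 0x1e000600000001000080000000000000000000000000000000) (nat_lit 0x0) (nat_lit 0xc0006000700000001980050000000000000000000000000000000000000000) := T_32 (nat_lit 175) (nat_lit 176) (nat_lit 3) (nat_lit 5) (nat_lit 10) L85514 (by decide +kernel)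
theorem L85517 : W_32 (nat_lit 2) (nat_lit 0xc0012000f000300010001000080000000000000000000000000000000) (nat_lit 0x0) (nat_lit 0x100000000000000000c0000000000000000000000000000000000000000000) := D_32 (nat_lit 175) (nat_lit 174) (nat_lit 244) (nat_lit 3) (nat_lit 4) (nat_lit 10) (nat_lit 7) (nat_lit 5) (nat_lit 10) (by decide +kernel)
theorem L85518 : W_32 (nat_lit 3) (nat_lit 0x80012000f000300010001000080000000000000000000000000000000) (nat_lit 0x0) (nat_lit 0x180004000000000000c0000000000000000000000000000000000000000000) := T_32 (nat_lit 226) (nat_lit 243) (nat_lit 6) (nat_lit 5) (nat_lit 14) L85517 (by decide +kernel)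
theorem L85519 : W_32 (nat_lit 4) (nat_lit 0x80002000f000300010001000080000000000000000000000000000000) (nat_lit 0x0) (nat_lit 0x180004003000000000c0000000000000000000000000000000000000000000) := T_32 (nat_lit 212) (nat_lit 213) (nat_lit 3) (nat_lit 5) (nat_lit 11) L85518 (by decide +kernel)
theorem L85520 : W_32 (nat_lit 5) (nat_lit 0x80000000f000300010001000080000000000000000000000000000000) (nat_lit 0x0) (nat_lit 0x180004003300000000c0000000000000000000000000000000000000000000) := T_32 (nat_lit 209) (nat_lit 208) (nat_lit 1) (nat_lit 8) (nat_lit 11) L85519 (by decide +kernel)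
theorem L85521 : W_32 (nat_lit 6) (nat_lit 0xf000300010001000080000000000000000000000000000000) (nat_lit 0x0) (nat_lit 0x18000c003700000000c0000000000000000000000000000000000000000000) := T_32 (nat_lit 227) (nat_lit 210) (nat_lit 6) (nat_lit 6) (nat_lit 13) L85520 (by decide +kernel)
theorem L85522 : W_32 (nat_lit 7) (nat_lit 0xf000300000001000080000000000000000000000000000000) (nat_lit 0x0) (nat_lit 0x18000c003700000000c0010000800000000000000000000000000000000000) := T_32 (nat_lit 160) (nat_lit 143) (nat_lit 6) (nat_lit 7) (nat_lit 11) L85521 (by decide +kernel)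
theorem L85598 : W_32 (nat_lit 8) (nat_lit 0xd000300000001000080000000000000000000000000000000) (nat_lit 0x0) (nat_lit 0x48002c00370002000cc000e000600000000000000000000000000000000000) := Q_32 (nat_lit 193) (C_32 L84231 (C_32 L82205 (C_32 L82222 N_32))) (by decide +kernel)
theorem L85830 : W_32 (nat_lit 2) (nat_lit 0x4000000110007c000200000001000080000000000000000000000000000000) (nat_lit 0x0) (nat_lit 0x2200080000000000000000000000000000000000000000000000000) := D_32 (nat_lit 199) (nat_lit 213) (nat_lit 217) (nat_lit 1) (nat_lit 12) (nat_lit 11) (nat_lit 3) (nat_lit 9) (nat_lit 11) (by decide +kernel)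
theorem L85831 : W_32 (nat_lit 3) (nat_lit 0x4000000010007c000200000001000080000000000000000000000000000000) (nat_lit 0x0) (nat_lit 0x3a00080000000000000000000000000000000000000000000000000) := T_32 (nat_lit 216) (nat_lit 215) (nat_lit 3) (nat_lit 8) (nat_lit 11) L85830 (by decide +kernel)
theorem L86000 : W_32 (nat_lit 2) (nat_lit 0x20001e000a00002001e00088000000000000000000000000000000) (nat_lit 0x0) (nat_lit 0x1000100004000000000000000000000000000000) := D_32 (nat_lit 140) (nat_lit 156) (nat_lit 122) (nat_lit 1) (nat_lit 7) (nat_lit 8) (nat_lit 0) (nat_lit 7) (nat_lit 8) (by decide +kernel)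
theorem L86001 : W_32 (nat_lit 3) (nat_lit 0x20001e000a00002001e00080000000000000000000000000000000) (nat_lit 0x0) (nat_lit 0x100010001c000000000000000000000000000000) := T_32 (nat_lit 123) (nat_lit 124) (nat_lit 0) (nat_lit 8) (nat_lit 8) L86000 (by decide +kernel)
theorem L86002 : W_32 (nat_lit 4) (nat_lit 0x20001e000a00000001e00080000000000000000000000000000000) (nat_lit 0x0) (nat_lit 0x700010001c000000000000000000000000000000) := T_32 (nat_lit 157) (nat_lit 158) (nat_lit 1) (nat_lit 8) (nat_lit 8) L86001 (by decide +kernel)
theorem L86082 : W_32 (nat_lit 2) (nat_lit 0x2000f000380000001000080000000000000000000000000000000) (nat_lit 0x0) (nat_lit 0x8000400000000000000008000000000000000000000000000000000000000) := D_32 (nat_lit 226) (nat_lit 159) (nat_lit 243) (nat_lit 6) (nat_lit 5) (nat_lit 13) (nat_lit 6) (nat_lit 5) (nat_lit 14) (by decide +kernel)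
theorem L86083 : W_32 (nat_lit 3) (nat_lit 0x2000f000380010001000080000000000000000000000000000000) (nat_lit 0x0) (nat_lit 0x18000c00040000000000000000000000000000000000000000000000000000) := T_32 (nat_lit 227) (nat_lit 210) (nat_lit 6) (nat_lit 6) (nat_lit 13) L11685 (by decide +kernel)
theorem L86086 : W_32 (nat_lit 2) (nat_lit 0x4000f000380000001000080000000000000000000000000000000) (nat_lit 0x0) (nat_lit 0x10000800000000000000010000000000000000000000000000000000000000) := D_32 (nat_lit 227) (nat_lit 160) (nat_lit 244) (nat_lit 6) (nat_lit 6) (nat_lit 13) (nat_lit 6) (nat_lit 6) (nat_lit 14) (by decide +kernel)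
theorem L86095 : W_32 (nat_lit 4) (nat_lit 0x2000d000380010001000080000000000000000000000000000000) (nat_lit 0x0) (nat_lit 0x18000c00050002000000000000000000000000000000000000000000000000) := T_32 (nat_lit 193) (nat_lit 208) (nat_lit 1) (nat_lit 8) (nat_lit 11) L86083 (by decide +kernel)
theorem L86096 : W_32 (nat_lit 5) (nat_lit 0x2000d000380000001000080000000000000000000000000000000) (nat_lit 0x0) (nat_lit 0x18000c00050002000000010000800000000000000000000000000000000000) := T_32 (nat_lit 160) (nat_lit 143) (nat_lit 6) (nat_lit 7) (nat_lit 11) L86095 (by decide +kernel)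
theorem L86097 : W_32 (nat_lit 3) (nat_lit 0x2000d000380000001000080000000000000000000000000000000) (nat_lit 0x0) (nat_lit 0x8000400010002000000008000000000000000000000000000000000000000) := T_32 (nat_lit 193) (nat_lit 208) (nat_lit 1) (nat_lit 8) (nat_lit 11) L86082 (by decide +kernel)
theorem L86098 : W_32 (nat_lit 2) (nat_lit 0xe0002000d000380014001300080000000000000000000000000000000) (nat_lit 0x0) (nat_lit 0x8000000000002000000000000000010000000000000000000000000000000) := D_32 (nat_lit 193) (nat_lit 243) (nat_lit 124) (nat_lit 6) (nat_lit 5) (nat_lit 14) (nat_lit 7) (nat_lit 5) (nat_lit 7) (by decide +kernel)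
theorem L86099 : W_32 (nat_lit 3) (nat_lit 0xe0002000d000380014001100080000000000000000000000000000000) (nat_lit 0x0) (nat_lit 0x8000000000002000000000000200018000000000000000000000000000000) := T_32 (nat_lit 141) (nat_lit 123) (nat_lit 4) (nat_lit 5) (nat_lit 11) L86098 (by decide +kernel)
theorem L86100 : W_32 (nat_lit 4) (nat_lit 0xe0002000d000380004001100080000000000000000000000000000000) (nat_lit 0x0) (nat_lit 0x8000000000002000000010000a00018000000000000000000000000000000) := T_32 (nat_lit 160) (nat_lit 143) (nat_lit 6) (nat_lit 7) (nat_lit 11) L86099 (by decide +kernel)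
theorem L86101 : W_32 (nat_lit 5) (nat_lit 0xe0002000d000380004001000080000000000000000000000000000000) (nat_lit 0x0) (nat_lit 0x8000000000002000000012000b00018000000000000000000000000000000) := T_32 (nat_lit 140) (nat_lit 157) (nat_lit 4) (nat_lit 5) (nat_lit 12) L86100 (by decide +kernel)
theorem L86102 : W_32 (nat_lit 6) (nat_lit 0xe0002000d000380000001000080000000000000000000000000000000) (nat_lit 0x0) (nat_lit 0x8000000040002000000016000b00018000000000000000000000000000000) := T_32 (nat_lit 158) (nat_lit 210) (nat_lit 7) (nat_lit 5) (nat_lit 9) L86101 (by decide +kernel)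
theorem L86103 : W_32 (nat_lit 7) (nat_lit 0x60002000d000380000001000080000000000000000000000000000000) (nat_lit 0x0) (nat_lit 0x18000800040002000000016000b00018000000000000000000000000000000) := T_32 (nat_lit 227) (nat_lit 244) (nat_lit 7) (nat_lit 5) (nat_lit 10) L86102 (by decide +kernel)
theorem L86104 : W_32 (nat_lit 8) (nat_lit 0x40002000d000380000001000080000000000000000000000000000000) (nat_lit 0x0) (nat_lit 0x1c000a00040002000000016000b00018000000000000000000000000000000) := T_32 (nat_lit 225) (nat_lit 242) (nat_lit 5) (nat_lit 5) (nat_lit 10) L86103 (by decide +kernel)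
theorem L86105 : W_32 (nat_lit 9) (nat_lit 0x2000d000380000001000080000000000000000000000000000000) (nat_lit 0x0) (nat_lit 0x1c000e0004000200000001e000b00018000000000000000000000000000000) := T_32 (nat_lit 226) (nat_lit 159) (nat_lit 6) (nat_lit 5) (nat_lit 13) L86104 (by decide +kernel)
theorem L86106 : W_32 (nat_lit 2) (nat_lit 0x4000000016000f000380016001000080000000000000000000000000000000) (nat_lit 0x0) (nat_lit 0x9800000000000000000000000000000000000000) := D_32 (nat_lit 156) (nat_lit 159) (nat_lit 155) (nat_lit 3) (nat_lit 3) (nat_lit 9) (nat_lit 3) (nat_lit 2) (nat_lit 9) (by decide +kernel)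
theorem L86107 : W_32 (nat_lit 3) (nat_lit 0x4000000016000f000380014001000080000000000000000000000000000000) (nat_lit 0x0) (nat_lit 0xb800100000000000000000000000000000000000) := T_32 (nat_lit 157) (nat_lit 140) (nat_lit 4) (nat_lit 5) (nat_lit 12) L86106 (by decide +kernel)
theorem L86108 : W_32 (nat_lit 4) (nat_lit 0x16000f000380014001000080000000000000000000000000000000) (nat_lit 0x0) (nat_lit 0x4000200000000000000000b800100000000000000000000000000000000000) := T_32 (nat_lit 246) (nat_lit 229) (nat_lit 4) (nat_lit 8) (nat_lit 14) L86107 (by decide +kernel)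
theorem L86109 : W_32 (nat_lit 5) (nat_lit 0x16000f000380010001000080000000000000000000000000000000) (nat_lit 0x0) (nat_lit 0x4000200000000000000000f800300000000000000000000000000000000000) := T_32 (nat_lit 158) (nat_lit 141) (nat_lit 7) (nat_lit 5) (nat_lit 8) L86108 (by decide +kernel)
theorem L86110 : W_32 (nat_lit 6) (nat_lit 0x6000f000380010001000080000000000000000000000000000000) (nat_lit 0x0) (nat_lit 0x4000200030000000000000f800300000000000000000000000000000000000) := T_32 (nat_lit 212) (nat_lit 213) (nat_lit 3) (nat_lit 5) (nat_lit 11) L86109 (by decide +kernel)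
theorem L86111 : W_32 (nat_lit 7) (nat_lit 0x2000f000380010001000080000000000000000000000000000000) (nat_lit 0x0) (nat_lit 0x4000280034000000000000f800300000000000000000000000000000000000) := T_32 (nat_lit 210) (nat_lit 227) (nat_lit 6) (nat_lit 6) (nat_lit 13) L86110 (by decide +kernel)
theorem L86112 : W_32 (nat_lit 8) (nat_lit 0x2000f000380000001000080000000000000000000000000000000) (nat_lit 0x0) (nat_lit 0x4000280034000000000001f800b00000000000000000000000000000000000) := T_32 (nat_lit 160) (nat_lit 143) (nat_lit 6) (nat_lit 7) (nat_lit 11) L86111 (by decide +kernel)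
theorem L86113 : W_32 (nat_lit 9) (nat_lit 0x2000d000380000001000080000000000000000000000000000000) (nat_lit 0x0) (nat_lit 0x4000280035000200000001f800b00000000000000000000000000000000000) := T_32 (nat_lit 193) (nat_lit 208) (nat_lit 1) (nat_lit 8) (nat_lit 11) L86112 (by decide +kernel)
theorem L86114 : W_32 (nat_lit 10) (nat_lit 0xd000380000001000080000000000000000000000000000000) (nat_lit 0x0) (nat_lit 0x5c002e0037000200000001f800b00018000000000000000000000000000000) := Q_32 (nat_lit 209) (C_32 L82679 (C_32 L86096 (C_32 L86097 (C_32 L86105 (C_32 L86113 N_32))))) (by decide +kernel)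
theorem L86115 : W_32 (nat_lit 2) (nat_lit 0x1400040002000d000380010001000080000000000000000000000000000000) (nat_lit 0x0) (nat_lit 0x280008000000000000000000000000000000000000000000000000000000000000) := D_32 (nat_lit 243) (nat_lit 259) (nat_lit 261) (nat_lit 5) (nat_lit 5) (nat_lit 11) (nat_lit 7) (nat_lit 5) (nat_lit 11) (by decide +kernel)
theorem L86116 : W_32 (nat_lit 3) (nat_lit 0x400040002000d000380010001000080000000000000000000000000000000) (nat_lit 0x0) (nat_lit 0x280018000800000000000000000000000000000000000000000000000000000000) := T_32 (nat_lit 244) (nat_lit 227) (nat_lit 7) (nat_lit 5) (nat_lit 10) L86115 (by decide +kernel)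
theorem L86117 : W_32 (nat_lit 4) (nat_lit 0x40002000d000380010001000080000000000000000000000000000000) (nat_lit 0x0) (nat_lit 0x28001c000a00000000000000000000000000000000000000000000000000000000) := T_32 (nat_lit 242) (nat_lit 225) (nat_lit 5) (nat_lit 5) (nat_lit 10) L86116 (by decide +kernel)
theorem L86118 : W_32 (nat_lit 5) (nat_lit 0x2000d000380010001000080000000000000000000000000000000) (nat_lit 0x0) (nat_lit 0x28001c000e00000000000000008000000000000000000000000000000000000000) := T_32 (nat_lit 226) (nat_lit 159) (nat_lit 6) (nat_lit 5) (nat_lit 13) L86117 (by decide +kernel)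
theorem L86119 : W_32 (nat_lit 6) (nat_lit 0x2000d000380000001000080000000000000000000000000000000) (nat_lit 0x0) (nat_lit 0x28001c000e00000000000000018000800000000000000000000000000000000000) := T_32 (nat_lit 160) (nat_lit 143) (nat_lit 6) (nat_lit 7) (nat_lit 11) L86118 (by decide +kernel)
theorem L86120 : W_32 (nat_lit 2) (nat_lit 0x6000d000380004001b00080000000000000000000000000000000) (nat_lit 0x0) (nat_lit 0x400120000000000000000000000000000000) := D_32 (nat_lit 142) (nat_lit 128) (nat_lit 125) (nat_lit 2) (nat_lit 5) (nat_lit 8) (nat_lit 6) (nat_lit 5) (nat_lit 11) (by decide +kernel)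
theorem L86121 : W_32 (nat_lit 3) (nat_lit 0x6000d000380004001900080000000000000000000000000000000) (nat_lit 0x0) (nat_lit 0x600128000000000000000000000000000000) := T_32 (nat_lit 141) (nat_lit 123) (nat_lit 4) (nat_lit 5) (nat_lit 11) L86120 (by decide +kernel)
theorem L86122 : W_32 (nat_lit 4) (nat_lit 0x6000d000380004001800080000000000000000000000000000000) (nat_lit 0x0) (nat_lit 0x2000700128000000000000000000000000000000) := T_32 (nat_lit 140) (nat_lit 157) (nat_lit 4) (nat_lit 5) (nat_lit 12) L86121 (by decide +kernel)
theorem L86123 : W_32 (nat_lit 5) (nat_lit 0x2000d000380004001800080000000000000000000000000000000) (nat_lit 0x0) (nat_lit 0x800040000000000002000700128000000000000000000000000000000) := T_32 (nat_lit 210) (nat_lit 227) (nat_lit 7) (nat_lit 5) (nat_lit 9) L86122 (by decide +kernel)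
theorem L86124 : W_32 (nat_lit 6) (nat_lit 0x2000d000380004001000080000000000000000000000000000000) (nat_lit 0x0) (nat_lit 0x800040000000000012000f00128000000000000000000000000000000) := T_32 (nat_lit 143) (nat_lit 160) (nat_lit 6) (nat_lit 7) (nat_lit 11) L86123 (by decide +kernel)
theorem L86125 : W_32 (nat_lit 7) (nat_lit 0xf000380000001000080000000000000000000000000000000) (nat_lit 0x0) (nat_lit 0x1000080034000000000001c000e00118000000000000000000000000000000) := Q_32 (nat_lit 210) (C_32 L86086 (C_32 L82846 (C_32 L84882 N_32))) (by decide +kernel)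
theorem L86126 : W_32 (nat_lit 2) (nat_lit 0xa00020005000380014001400080000000000000000000000000000000) (nat_lit 0x0) (nat_lit 0x14000400000000000000000000000000000000000000000000000000000000) := D_32 (nat_lit 226) (nat_lit 244) (nat_lit 242) (nat_lit 7) (nat_lit 5) (nat_lit 10) (nat_lit 5) (nat_lit 5) (nat_lit 10) (by decide +kernel)
theorem L86127 : W_32 (nat_lit 3) (nat_lit 0x800020005000380014001400080000000000000000000000000000000) (nat_lit 0x0) (nat_lit 0x14000600010000000000000000000000000000000000000000000000000000) := T_32 (nat_lit 225) (nat_lit 208) (nat_lit 5) (nat_lit 5) (nat_lit 9) L86126 (by decide +kernel)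
theorem L86128 : W_32 (nat_lit 4) (nat_lit 0x20005000380014001400080000000000000000000000000000000) (nat_lit 0x0) (nat_lit 0x14000e00050000000000000000000000000000000000000000000000000000) := T_32 (nat_lit 227) (nat_lit 210) (nat_lit 7) (nat_lit 5) (nat_lit 9) L86127 (by decide +kernel)
theorem L86129 : W_32 (nat_lit 2) (nat_lit 0x600020005000380004001000080000000000000000000000000000000) (nat_lit 0x0) (nat_lit 0x10000800040000000000000000000000000000000000000000000000000000) := D_32 (nat_lit 227) (nat_lit 244) (nat_lit 210) (nat_lit 7) (nat_lit 5) (nat_lit 10) (nat_lit 7) (nat_lit 5) (nat_lit 9) (by decide +kernel)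
theorem L86130 : W_32 (nat_lit 3) (nat_lit 0x600020005000380000001000080000000000000000000000000000000) (nat_lit 0x0) (nat_lit 0x10000800050000000000004000000000000000000000000000000000000000) := T_32 (nat_lit 158) (nat_lit 208) (nat_lit 5) (nat_lit 5) (nat_lit 9) L86129 (by decide +kernel)
theorem L86131 : W_32 (nat_lit 4) (nat_lit 0x400020005000380000001000080000000000000000000000000000000) (nat_lit 0x0) (nat_lit 0x14000a00050000000000004000000000000000000000000000000000000000) := T_32 (nat_lit 225) (nat_lit 242) (nat_lit 5) (nat_lit 5) (nat_lit 10) L86130 (by decide +kernel)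
theorem L86132 : W_32 (nat_lit 5) (nat_lit 0x20005000380000001000080000000000000000000000000000000) (nat_lit 0x0) (nat_lit 0x14000e0005000000000000c000000000000000000000000000000000000000) := T_32 (nat_lit 226) (nat_lit 159) (nat_lit 6) (nat_lit 5) (nat_lit 13) L86131 (by decide +kernel)
theorem L86133 : W_32 (nat_lit 3) (nat_lit 0x20005000380004001000080000000000000000000000000000000) (nat_lit 0x0) (nat_lit 0xb000500000000000000000000000000000000000) := T_32 (nat_lit 159) (nat_lit 142) (nat_lit 6) (nat_lit 5) (nat_lit 12) L82904 (by decide +kernel)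
theorem L86134 : W_32 (nat_lit 2) (nat_lit 0x60005000380004001b00080000000000000000000000000000000) (nat_lit 0x0) (nat_lit 0x400120000000000000000000000000000000) := D_32 (nat_lit 142) (nat_lit 128) (nat_lit 125) (nat_lit 2) (nat_lit 5) (nat_lit 8) (nat_lit 6) (nat_lit 5) (nat_lit 11) (by decide +kernel)
theorem L86135 : W_32 (nat_lit 3) (nat_lit 0x60005000380004001900080000000000000000000000000000000) (nat_lit 0x0) (nat_lit 0x600128000000000000000000000000000000) := T_32 (nat_lit 141) (nat_lit 123) (nat_lit 4) (nat_lit 5) (nat_lit 11) L86134 (by decide +kernel)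
theorem L86136 : W_32 (nat_lit 4) (nat_lit 0x60005000380004001800080000000000000000000000000000000) (nat_lit 0x0) (nat_lit 0x2000700128000000000000000000000000000000) := T_32 (nat_lit 140) (nat_lit 157) (nat_lit 4) (nat_lit 5) (nat_lit 12) L86135 (by decide +kernel)
theorem L86137 : W_32 (nat_lit 5) (nat_lit 0x20005000380004001800080000000000000000000000000000000) (nat_lit 0x0) (nat_lit 0x800040000000000002000700128000000000000000000000000000000) := T_32 (nat_lit 210) (nat_lit 227) (nat_lit 7) (nat_lit 5) (nat_lit 9) L86136 (by decide +kernel)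
theorem L86138 : W_32 (nat_lit 6) (nat_lit 0x20005000380004001000080000000000000000000000000000000) (nat_lit 0x0) (nat_lit 0x800040000000000012000f00128000000000000000000000000000000) := T_32 (nat_lit 143) (nat_lit 160) (nat_lit 6) (nat_lit 7) (nat_lit 11) L86137 (by decide +kernel)
theorem L86139 : W_32 (nat_lit 2) (nat_lit 0x30005000380006801200080000000000000000000000000000000) (nat_lit 0x0) (nat_lit 0x10000c00000000000000000000000000000000000) := D_32 (nat_lit 143) (nat_lit 142) (nat_lit 160) (nat_lit 1) (nat_lit 8) (nat_lit 8) (nat_lit 6) (nat_lit 7) (nat_lit 11) (by decide +kernel)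
theorem L86140 : W_32 (nat_lit 3) (nat_lit 0x30005000380006801000080000000000000000000000000000000) (nat_lit 0x0) (nat_lit 0x800000010000e00000000000000000000000000000000000) := T_32 (nat_lit 141) (nat_lit 191) (nat_lit 5) (nat_lit 5) (nat_lit 8) L86139 (by decide +kernel)
theorem L86141 : W_32 (nat_lit 4) (nat_lit 0x20005000380006801000080000000000000000000000000000000) (nat_lit 0x0) (nat_lit 0x200010000800000010000e00000000000000000000000000000000000) := T_32 (nat_lit 208) (nat_lit 225) (nat_lit 5) (nat_lit 5) (nat_lit 9) L86140 (by decide +kernel)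
theorem L86142 : W_32 (nat_lit 5) (nat_lit 0x20005000380006001000080000000000000000000000000000000) (nat_lit 0x0) (nat_lit 0x200010000800000011800e00000000000000000000000000000000000) := T_32 (nat_lit 155) (nat_lit 156) (nat_lit 3) (nat_lit 2) (nat_lit 9) L86141 (by decide +kernel)
theorem L86143 : W_32 (nat_lit 6) (nat_lit 0x20005000380004001000080000000000000000000000000000000) (nat_lit 0x0) (nat_lit 0x200010000800000013800f00000000000000000000000000000000000) := T_32 (nat_lit 157) (nat_lit 140) (nat_lit 4) (nat_lit 5) (nat_lit 12) L86142 (by decide +kernel)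
theorem L86144 : W_32 (nat_lit 2) (nat_lit 0xa00020005000380006801000080000000000000000000000000000000) (nat_lit 0x0) (nat_lit 0x14000400000000000000000000000000000000000000000000000000000000) := D_32 (nat_lit 226) (nat_lit 242) (nat_lit 244) (nat_lit 5) (nat_lit 5) (nat_lit 10) (nat_lit 7) (nat_lit 5) (nat_lit 10) (by decide +kernel)
theorem L86145 : W_32 (nat_lit 3) (nat_lit 0x200020005000380006801000080000000000000000000000000000000) (nat_lit 0x0) (nat_lit 0x14000c00040000000000000000000000000000000000000000000000000000) := T_32 (nat_lit 227) (nat_lit 210) (nat_lit 7) (nat_lit 5) (nat_lit 9) L86144 (by decide +kernel)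
theorem L86146 : W_32 (nat_lit 4) (nat_lit 0x20005000380006801000080000000000000000000000000000000) (nat_lit 0x0) (nat_lit 0x14000e00050000000000000000000000000000000000000000000000000000) := T_32 (nat_lit 225) (nat_lit 208) (nat_lit 5) (nat_lit 5) (nat_lit 9) L86145 (by decide +kernel)
theorem L86147 : W_32 (nat_lit 5) (nat_lit 0x20005000380006001000080000000000000000000000000000000) (nat_lit 0x0) (nat_lit 0x14000e00050000000000001800000000000000000000000000000000000000) := T_32 (nat_lit 155) (nat_lit 156) (nat_lit 3) (nat_lit 2) (nat_lit 9) L86146 (by decide +kernel)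
theorem L86148 : W_32 (nat_lit 6) (nat_lit 0x20005000380004001000080000000000000000000000000000000) (nat_lit 0x0) (nat_lit 0x14000e00050000000000003800100000000000000000000000000000000000) := T_32 (nat_lit 157) (nat_lit 140) (nat_lit 4) (nat_lit 5) (nat_lit 12) L86147 (by decide +kernel)
theorem L86149 : W_32 (nat_lit 2) (nat_lit 0x30005000380004001700080000000000000000000000000000000) (nat_lit 0x0) (nat_lit 0x10000800100000000000000000000000000000000) := D_32 (nat_lit 143) (nat_lit 128) (nat_lit 160) (nat_lit 2) (nat_lit 5) (nat_lit 8) (nat_lit 6) (nat_lit 7) (nat_lit 11) (by decide +kernel)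
theorem L86150 : W_32 (nat_lit 3) (nat_lit 0x30005000380004001300080000000000000000000000000000000) (nat_lit 0x0) (nat_lit 0x10000c00120000000000000000000000000000000) := T_32 (nat_lit 142) (nat_lit 125) (nat_lit 6) (nat_lit 5) (nat_lit 11) L86149 (by decide +kernel)
theorem L86151 : W_32 (nat_lit 4) (nat_lit 0x30005000380004001200080000000000000000000000000000000) (nat_lit 0x0) (nat_lit 0x10000d00128000000000000000000000000000000) := T_32 (nat_lit 140) (nat_lit 123) (nat_lit 4) (nat_lit 5) (nat_lit 11) L86150 (by decide +kernel)
theorem L86152 : W_32 (nat_lit 5) (nat_lit 0x30005000380004001000080000000000000000000000000000000) (nat_lit 0x0) (nat_lit 0x800000010000f00128000000000000000000000000000000) := T_32 (nat_lit 141) (nat_lit 191) (nat_lit 5) (nat_lit 5) (nat_lit 8) L86151 (by decide +kernel)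
theorem L86153 : W_32 (nat_lit 6) (nat_lit 0x20005000380004001000080000000000000000000000000000000) (nat_lit 0x0) (nat_lit 0x200010000800000010000f00128000000000000000000000000000000) := T_32 (nat_lit 208) (nat_lit 225) (nat_lit 5) (nat_lit 5) (nat_lit 9) L86152 (by decide +kernel)
theorem L86154 : W_32 (nat_lit 2) (nat_lit 0xa00020005000380014001000080000000000000000000000000000000) (nat_lit 0x0) (nat_lit 0x14000400000000000000000000000000000000000000000000000000000000) := D_32 (nat_lit 226) (nat_lit 242) (nat_lit 244) (nat_lit 5) (nat_lit 5) (nat_lit 10) (nat_lit 7) (nat_lit 5) (nat_lit 10) (by decide +kernel)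
theorem L86155 : W_32 (nat_lit 3) (nat_lit 0x200020005000380014001000080000000000000000000000000000000) (nat_lit 0x0) (nat_lit 0x14000c00040000000000000000000000000000000000000000000000000000) := T_32 (nat_lit 227) (nat_lit 210) (nat_lit 7) (nat_lit 5) (nat_lit 9) L86154 (by decide +kernel)
theorem L86156 : W_32 (nat_lit 4) (nat_lit 0x20005000380014001000080000000000000000000000000000000) (nat_lit 0x0) (nat_lit 0x14000e00050000000000000000000000000000000000000000000000000000) := T_32 (nat_lit 225) (nat_lit 208) (nat_lit 5) (nat_lit 5) (nat_lit 9) L86155 (by decide +kernel)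
theorem L86157 : W_32 (nat_lit 5) (nat_lit 0x20005000380004001000080000000000000000000000000000000) (nat_lit 0x0) (nat_lit 0x14000e00050000000000010000800000000000000000000000000000000000) := T_32 (nat_lit 160) (nat_lit 143) (nat_lit 6) (nat_lit 7) (nat_lit 11) L86156 (by decide +kernel)
theorem L86158 : W_32 (nat_lit 7) (nat_lit 0x20005000380000001000080000000000000000000000000000000) (nat_lit 0x0) (nat_lit 0x14000e00050000800000017800f00128000000000000000000000000000000) := Q_32 (nat_lit 158) (C_32 L86138 (C_32 L86143 (C_32 L86148 (C_32 L86153 (C_32 L86157 N_32))))) (by decide +kernel)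
theorem L86159 : W_32 (nat_lit 2) (nat_lit 0x14000400020005000380010001000080000000000000000000000000000000) (nat_lit 0x0) (nat_lit 0x280008000000000000000000000000000000000000000000000000000000000000) := D_32 (nat_lit 243) (nat_lit 259) (nat_lit 261) (nat_lit 5) (nat_lit 5) (nat_lit 11) (nat_lit 7) (nat_lit 5) (nat_lit 11) (by decide +kernel)
theorem L86160 : W_32 (nat_lit 3) (nat_lit 0x4000400020005000380010001000080000000000000000000000000000000) (nat_lit 0x0) (nat_lit 0x280018000800000000000000000000000000000000000000000000000000000000) := T_32 (nat_lit 244) (nat_lit 227) (nat_lit 7) (nat_lit 5) (nat_lit 10) L86159 (by decide +kernel)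
theorem L86161 : W_32 (nat_lit 4) (nat_lit 0x400020005000380010001000080000000000000000000000000000000) (nat_lit 0x0) (nat_lit 0x28001c000a00000000000000000000000000000000000000000000000000000000) := T_32 (nat_lit 242) (nat_lit 225) (nat_lit 5) (nat_lit 5) (nat_lit 10) L86160 (by decide +kernel)
theorem L86162 : W_32 (nat_lit 5) (nat_lit 0x20005000380010001000080000000000000000000000000000000) (nat_lit 0x0) (nat_lit 0x28001c000e00000000000000008000000000000000000000000000000000000000) := T_32 (nat_lit 226) (nat_lit 159) (nat_lit 6) (nat_lit 5) (nat_lit 13) L86161 (by decide +kernel)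
theorem L86163 : W_32 (nat_lit 6) (nat_lit 0x20005000380000001000080000000000000000000000000000000) (nat_lit 0x0) (nat_lit 0x28001c000e00000000000000018000800000000000000000000000000000000000) := T_32 (nat_lit 160) (nat_lit 143) (nat_lit 6) (nat_lit 7) (nat_lit 11) L86162 (by decide +kernel)
theorem L86164 : W_32 (nat_lit 2) (nat_lit 0x600020005000380004001b00080000000000000000000000000000000) (nat_lit 0x0) (nat_lit 0x400120000000000000000000000000000000) := D_32 (nat_lit 142) (nat_lit 128) (nat_lit 125) (nat_lit 2) (nat_lit 5) (nat_lit 8) (nat_lit 6) (nat_lit 5) (nat_lit 11) (by decide +kernel)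
theorem L86165 : W_32 (nat_lit 3) (nat_lit 0x600020005000380004001900080000000000000000000000000000000) (nat_lit 0x0) (nat_lit 0x600128000000000000000000000000000000) := T_32 (nat_lit 141) (nat_lit 123) (nat_lit 4) (nat_lit 5) (nat_lit 11) L86164 (by decide +kernel)
theorem L86166 : W_32 (nat_lit 4) (nat_lit 0x600020005000380004001100080000000000000000000000000000000) (nat_lit 0x0) (nat_lit 0x10000e00128000000000000000000000000000000) := T_32 (nat_lit 143) (nat_lit 160) (nat_lit 6) (nat_lit 7) (nat_lit 11) L86165 (by decide +kernel)
theorem L86167 : W_32 (nat_lit 5) (nat_lit 0x600020005000380004001000080000000000000000000000000000000) (nat_lit 0x0) (nat_lit 0x12000f00128000000000000000000000000000000) := T_32 (nat_lit 140) (nat_lit 157) (nat_lit 4) (nat_lit 5) (nat_lit 12) L86166 (by decide +kernel)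
theorem L86168 : W_32 (nat_lit 6) (nat_lit 0x600020005000380000001000080000000000000000000000000000000) (nat_lit 0x0) (nat_lit 0x10000000000016000f00128000000000000000000000000000000) := T_32 (nat_lit 158) (nat_lit 208) (nat_lit 5) (nat_lit 5) (nat_lit 9) L86167 (by decide +kernel)
theorem L86169 : W_32 (nat_lit 7) (nat_lit 0x400020005000380000001000080000000000000000000000000000000) (nat_lit 0x0) (nat_lit 0x4000200010000000000016000f00128000000000000000000000000000000) := T_32 (nat_lit 225) (nat_lit 242) (nat_lit 5) (nat_lit 5) (nat_lit 10) L86168 (by decide +kernel)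
theorem L86170 : W_32 (nat_lit 8) (nat_lit 0x20005000380000001000080000000000000000000000000000000) (nat_lit 0x0) (nat_lit 0x400060001000000000001e000f00128000000000000000000000000000000) := T_32 (nat_lit 226) (nat_lit 159) (nat_lit 6) (nat_lit 5) (nat_lit 13) L86169 (by decide +kernel)
theorem L86171 : W_32 (nat_lit 2) (nat_lit 0x30005000380004001200080000000000000000000000000000000) (nat_lit 0x0) (nat_lit 0x2000100008000000000000000000000000000000) := D_32 (nat_lit 140) (nat_lit 123) (nat_lit 157) (nat_lit 4) (nat_lit 5) (nat_lit 11) (nat_lit 4) (nat_lit 5) (nat_lit 12) (by decide +kernel)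
theorem L86172 : W_32 (nat_lit 3) (nat_lit 0x30005000380004001000080000000000000000000000000000000) (nat_lit 0x0) (nat_lit 0x800000002000300008000000000000000000000000000000) := T_32 (nat_lit 141) (nat_lit 191) (nat_lit 5) (nat_lit 5) (nat_lit 8) L86171 (by decide +kernel)
theorem L86173 : W_32 (nat_lit 4) (nat_lit 0x20005000380004001000080000000000000000000000000000000) (nat_lit 0x0) (nat_lit 0x200010000800000002000300008000000000000000000000000000000) := T_32 (nat_lit 208) (nat_lit 225) (nat_lit 5) (nat_lit 5) (nat_lit 9) L86172 (by decide +kernel)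
theorem L86174 : W_32 (nat_lit 2) (nat_lit 0x30005000380014001200080000000000000000000000000000000) (nat_lit 0x0) (nat_lit 0x8000400020000000000000000000000000000000) := D_32 (nat_lit 142) (nat_lit 159) (nat_lit 125) (nat_lit 6) (nat_lit 5) (nat_lit 12) (nat_lit 6) (nat_lit 5) (nat_lit 11) (by decide +kernel)
theorem L86175 : W_32 (nat_lit 3) (nat_lit 0x30005000380014001000080000000000000000000000000000000) (nat_lit 0x0) (nat_lit 0x800000008000600020000000000000000000000000000000) := T_32 (nat_lit 141) (nat_lit 191) (nat_lit 5) (nat_lit 5) (nat_lit 8) L86174 (by decide +kernel)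
theorem L86176 : W_32 (nat_lit 4) (nat_lit 0x20005000380014001000080000000000000000000000000000000) (nat_lit 0x0) (nat_lit 0x200010000800000008000600020000000000000000000000000000000) := T_32 (nat_lit 208) (nat_lit 225) (nat_lit 5) (nat_lit 5) (nat_lit 9) L86175 (by decide +kernel)
theorem L86177 : W_32 (nat_lit 5) (nat_lit 0x20005000380004001000080000000000000000000000000000000) (nat_lit 0x0) (nat_lit 0x200010000800000018000e00020000000000000000000000000000000) := T_32 (nat_lit 160) (nat_lit 143) (nat_lit 6) (nat_lit 7) (nat_lit 11) L86176 (by decide +kernel)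
theorem L86178 : W_32 (nat_lit 7) (nat_lit 0x20005000380000001000080000000000000000000000000000000) (nat_lit 0x0) (nat_lit 0xa0005000080000001f800f00128000000000000000000000000000000) := Q_32 (nat_lit 158) (C_32 L86138 (C_32 L86153 (C_32 L86143 (C_32 L86133 (C_32 L86173 (C_32 L86177 N_32)))))) (by decide +kernel)
theorem L86179 : W_32 (nat_lit 2) (nat_lit 0x20005000380018001000080000000000000000000000000000000) (nat_lit 0x0) (nat_lit 0x4000400020000000000000000000000000000000) := D_32 (nat_lit 142) (nat_lit 158) (nat_lit 125) (nat_lit 6) (nat_lit 5) (nat_lit 12) (nat_lit 7) (nat_lit 6) (nat_lit 7) (by decide +kernel)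
theorem L86180 : W_32 (nat_lit 3) (nat_lit 0x20005000380010001000080000000000000000000000000000000) (nat_lit 0x0) (nat_lit 0x40000000000000000c000400020000000000000000000000000000000) := T_32 (nat_lit 159) (nat_lit 226) (nat_lit 6) (nat_lit 5) (nat_lit 13) L86179 (by decide +kernel)
theorem L86181 : W_32 (nat_lit 4) (nat_lit 0x20005000380000001000080000000000000000000000000000000) (nat_lit 0x0) (nat_lit 0x40000000000000001c000c00020000000000000000000000000000000) := T_32 (nat_lit 160) (nat_lit 143) (nat_lit 6) (nat_lit 7) (nat_lit 11) L86180 (by decide +kernel)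
theorem L86182 : W_32 (nat_lit 9) (nat_lit 0x5000380000001000080000000000000000000000000000000) (nat_lit 0x0) (nat_lit 0x28001c000e0007000080000001f800f00128000000000000000000000000000000) := Q_32 (nat_lit 209) (C_32 L86132 (C_32 L86158 (C_32 L86163 (C_32 L86170 (C_32 L86178 (C_32 L86181 N_32)))))) (by decide +kernel)
theorem L86183 : W_32 (nat_lit 2) (nat_lit 0x500038001e001100080000000000000000000000000000000) (nat_lit 0x0) (nat_lit 0x200008000400000000000000000000000000) := D_32 (nat_lit 123) (nat_lit 141) (nat_lit 106) (nat_lit 4) (nat_lit 5) (nat_lit 11) (nat_lit 7) (nat_lit 4) (nat_lit 6) (by decide +kernel)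
theorem L86184 : W_32 (nat_lit 3) (nat_lit 0x500038001e001000080000000000000000000000000000000) (nat_lit 0x0) (nat_lit 0x380008000400000000000000000000000000) := T_32 (nat_lit 140) (nat_lit 139) (nat_lit 0) (nat_lit 7) (nat_lit 9) L86183 (by decide +kernel)
theorem L86185 : W_32 (nat_lit 4) (nat_lit 0x500038001c001000080000000000000000000000000000000) (nat_lit 0x0) (nat_lit 0x3000380008000400000000000000000000000000) := T_32 (nat_lit 157) (nat_lit 156) (nat_lit 3) (nat_lit 3) (nat_lit 9) L86184 (by decide +kernel)
theorem L86186 : W_32 (nat_lit 5) (nat_lit 0x500038000c001000080000000000000000000000000000000) (nat_lit 0x0) (nat_lit 0x13000b80008000400000000000000000000000000) := T_32 (nat_lit 160) (nat_lit 143) (nat_lit 6) (nat_lit 7) (nat_lit 11) L86185 (by decide +kernel)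
theorem L86187 : W_32 (nat_lit 2) (nat_lit 0x5c00380001001f000a8000000000000000000000000000000) (nat_lit 0x0) (nat_lit 0x20000800080000000000000000000000000000000000) := D_32 (nat_lit 139) (nat_lit 155) (nat_lit 173) (nat_lit 1) (nat_lit 6) (nat_lit 8) (nat_lit 6) (nat_lit 3) (nat_lit 11) (by decide +kernel)
theorem L86188 : W_32 (nat_lit 3) (nat_lit 0x5c00380000001f000a8000000000000000000000000000000) (nat_lit 0x0) (nat_lit 0x20003800080000000000000000000000000000000000) := T_32 (nat_lit 156) (nat_lit 157) (nat_lit 1) (nat_lit 7) (nat_lit 8) L86187 (by decide +kernel)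
theorem L86189 : W_32 (nat_lit 4) (nat_lit 0x5c00380000001e000a8000000000000000000000000000000) (nat_lit 0x0) (nat_lit 0x20003800180004000000000000000000000000000000) := T_32 (nat_lit 140) (nat_lit 122) (nat_lit 0) (nat_lit 7) (nat_lit 8) L86188 (by decide +kernel)
theorem L86190 : W_32 (nat_lit 5) (nat_lit 0x5c00380000001e00088000000000000000000000000000000) (nat_lit 0x0) (nat_lit 0x2000b800180024000000000000000000000000000000) := T_32 (nat_lit 125) (nat_lit 159) (nat_lit 7) (nat_lit 6) (nat_lit 7) L86189 (by decide +kernel)
theorem L86191 : W_32 (nat_lit 6) (nat_lit 0x5c00380000001e00080000000000000000000000000000000) (nat_lit 0x0) (nat_lit 0x2000b80018003c000000000000000000000000000000) := T_32 (nat_lit 123) (nat_lit 124) (nat_lit 0) (nat_lit 8) (nat_lit 8) L86190 (by decide +kernel)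
theorem L86192 : W_32 (nat_lit 7) (nat_lit 0x5c00380000001a00080000000000000000000000000000000) (nat_lit 0x0) (nat_lit 0x2000b80058013c000000000000000000000000000000) := T_32 (nat_lit 142) (nat_lit 128) (nat_lit 2) (nat_lit 5) (nat_lit 8) L86191 (by decide +kernel)
theorem L86193 : W_32 (nat_lit 8) (nat_lit 0x5800380000001a00080000000000000000000000000000000) (nat_lit 0x0) (nat_lit 0x60002000b80058013c000000000000000000000000000000) := T_32 (nat_lit 190) (nat_lit 189) (nat_lit 2) (nat_lit 2) (nat_lit 11) L86192 (by decide +kernel)
theorem L86194 : W_32 (nat_lit 9) (nat_lit 0x5800380000001200080000000000000000000000000000000) (nat_lit 0x0) (nat_lit 0x60002001b800d8013c000000000000000000000000000000) := T_32 (nat_lit 143) (nat_lit 160) (nat_lit 6) (nat_lit 7) (nat_lit 11) L86193 (by decide +kernel)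
theorem L86195 : W_32 (nat_lit 2) (nat_lit 0x5a00380004001700080000000000000000000000000000000) (nat_lit 0x0) (nat_lit 0x12000800000000000000000000000000000000000) := D_32 (nat_lit 143) (nat_lit 157) (nat_lit 160) (nat_lit 1) (nat_lit 8) (nat_lit 8) (nat_lit 6) (nat_lit 7) (nat_lit 11) (by decide +kernel)
theorem L86196 : W_32 (nat_lit 3) (nat_lit 0x5a00380004001300080000000000000000000000000000000) (nat_lit 0x0) (nat_lit 0x12000c00020000000000000000000000000000000) := T_32 (nat_lit 142) (nat_lit 125) (nat_lit 6) (nat_lit 5) (nat_lit 11) L86195 (by decide +kernel)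
theorem L86197 : W_32 (nat_lit 4) (nat_lit 0x5a00380004001200080000000000000000000000000000000) (nat_lit 0x0) (nat_lit 0x12000d00028000000000000000000000000000000) := T_32 (nat_lit 140) (nat_lit 123) (nat_lit 4) (nat_lit 5) (nat_lit 11) L86196 (by decide +kernel)
theorem L86198 : W_32 (nat_lit 5) (nat_lit 0x5a00380000001200080000000000000000000000000000000) (nat_lit 0x0) (nat_lit 0x10000000000016000d00028000000000000000000000000000000) := T_32 (nat_lit 158) (nat_lit 208) (nat_lit 5) (nat_lit 5) (nat_lit 8) L86197 (by decide +kernel)
theorem L86199 : W_32 (nat_lit 6) (nat_lit 0x5800380000001200080000000000000000000000000000000) (nat_lit 0x0) (nat_lit 0x10000600000016000d00028000000000000000000000000000000) := T_32 (nat_lit 189) (nat_lit 190) (nat_lit 2) (nat_lit 2) (nat_lit 11) L86198 (by decide +kernel)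
theorem L86200 : W_32 (nat_lit 2) (nat_lit 0x5a003800040013400b0000800040000000000000000000000) (nat_lit 0x0) (nat_lit 0x400020001000000000000000000) := D_32 (nat_lit 89) (nat_lit 72) (nat_lit 106) (nat_lit 4) (nat_lit 5) (nat_lit 8) (nat_lit 4) (nat_lit 5) (nat_lit 9) (by decide +kernel)
theorem L86201 : W_32 (nat_lit 3) (nat_lit 0x5a003800040013400b0000800000000000000000000000000) (nat_lit 0x0) (nat_lit 0x2000000000000400060001000000000000000000) := T_32 (nat_lit 90) (nat_lit 157) (nat_lit 5) (nat_lit 5) (nat_lit 5) L86200 (by decide +kernel)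
theorem L86202 : W_32 (nat_lit 4) (nat_lit 0x5a003800040013400b0000000000000000000000000000000) (nat_lit 0x0) (nat_lit 0xa000000000000c00060001000000000000000000) := T_32 (nat_lit 107) (nat_lit 159) (nat_lit 7) (nat_lit 5) (nat_lit 6) L86201 (by decide +kernel)
theorem L86203 : W_32 (nat_lit 5) (nat_lit 0x5a003800040013000b0000000000000000000000000000000) (nat_lit 0x0) (nat_lit 0xa0000c0000000c00060001000000000000000000) := T_32 (nat_lit 138) (nat_lit 139) (nat_lit 2) (nat_lit 2) (nat_lit 8) L86202 (by decide +kernel)
theorem L86204 : W_32 (nat_lit 6) (nat_lit 0x5a003800040013000a0000000000000000000000000000000) (nat_lit 0x0) (nat_lit 0xa0000c0010001c00060001000000000000000000) := T_32 (nat_lit 124) (nat_lit 108) (nat_lit 6) (nat_lit 5) (nat_lit 10) L86203 (by decide +kernel)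
theorem L86205 : W_32 (nat_lit 7) (nat_lit 0x58003800040013000a0000000000000000000000000000000) (nat_lit 0x0) (nat_lit 0x60000000a0000c0010001c00060001000000000000000000) := T_32 (nat_lit 189) (nat_lit 190) (nat_lit 2) (nat_lit 2) (nat_lit 11) L86204 (by decide +kernel)
theorem L86206 : W_32 (nat_lit 8) (nat_lit 0x5800380004001300080000000000000000000000000000000) (nat_lit 0x0) (nat_lit 0x60000000a0004c0030001c00060001000000000000000000) := T_32 (nat_lit 125) (nat_lit 142) (nat_lit 6) (nat_lit 5) (nat_lit 11) L86205 (by decide +kernel)
theorem L86207 : W_32 (nat_lit 9) (nat_lit 0x5800380004001200080000000000000000000000000000000) (nat_lit 0x0) (nat_lit 0x60000000a0005c0038001c00060001000000000000000000) := T_32 (nat_lit 140) (nat_lit 123) (nat_lit 4) (nat_lit 5) (nat_lit 11) L86206 (by decide +kernel)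
theorem L86208 : W_32 (nat_lit 10) (nat_lit 0x5800380000001200080000000000000000000000000000000) (nat_lit 0x0) (nat_lit 0x1000060000000e0005c0038001c00060001000000000000000000) := T_32 (nat_lit 158) (nat_lit 208) (nat_lit 5) (nat_lit 5) (nat_lit 8) L86207 (by decide +kernel)
theorem L86209 : W_32 (nat_lit 2) (nat_lit 0x5a00380014001200098000800000000000000000000000000) (nat_lit 0x0) (nat_lit 0x20001000080000000000000000000000) := D_32 (nat_lit 108) (nat_lit 91) (nat_lit 125) (nat_lit 6) (nat_lit 5) (nat_lit 9) (nat_lit 6) (nat_lit 5) (nat_lit 10) (by decide +kernel)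
theorem L86210 : W_32 (nat_lit 3) (nat_lit 0x5a00380014001200098000000000000000000000000000000) (nat_lit 0x0) (nat_lit 0x8000000020001800080000000000000000000000) := T_32 (nat_lit 107) (nat_lit 159) (nat_lit 7) (nat_lit 5) (nat_lit 6) L86209 (by decide +kernel)
theorem L86211 : W_32 (nat_lit 4) (nat_lit 0x5800380014001200098000000000000000000000000000000) (nat_lit 0x0) (nat_lit 0x600000008000000020001800080000000000000000000000) := T_32 (nat_lit 189) (nat_lit 190) (nat_lit 2) (nat_lit 2) (nat_lit 11) L86210 (by decide +kernel)
theorem L86212 : W_32 (nat_lit 5) (nat_lit 0x5800380014001200088000000000000000000000000000000) (nat_lit 0x0) (nat_lit 0x600000008000000030001c00080000000000000000000000) := T_32 (nat_lit 124) (nat_lit 106) (nat_lit 4) (nat_lit 5) (nat_lit 10) L86211 (by decide +kernel)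
theorem L86213 : W_32 (nat_lit 6) (nat_lit 0x5800380004001200088000000000000000000000000000000) (nat_lit 0x0) (nat_lit 0x600000018000800030001c00080000000000000000000000) := T_32 (nat_lit 160) (nat_lit 143) (nat_lit 6) (nat_lit 7) (nat_lit 11) L86212 (by decide +kernel)
theorem L86214 : W_32 (nat_lit 7) (nat_lit 0x5800380004001200080000000000000000000000000000000) (nat_lit 0x0) (nat_lit 0x600000018000900038001c00080000000000000000000000) := T_32 (nat_lit 123) (nat_lit 140) (nat_lit 4) (nat_lit 5) (nat_lit 11) L86213 (by decide +kernel)
theorem L86215 : W_32 (nat_lit 8) (nat_lit 0x5800380000001200080000000000000000000000000000000) (nat_lit 0x0) (nat_lit 0x1000060000001c000900038001c00080000000000000000000000) := T_32 (nat_lit 158) (nat_lit 208) (nat_lit 5) (nat_lit 5) (nat_lit 8) L86214 (by decide +kernel)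
theorem L86216 : W_32 (nat_lit 2) (nat_lit 0x5800380004001a00080000000000000000000000000000000) (nat_lit 0x0) (nat_lit 0x2000400100000000000000000000000000000000) := D_32 (nat_lit 142) (nat_lit 157) (nat_lit 128) (nat_lit 1) (nat_lit 8) (nat_lit 8) (nat_lit 2) (nat_lit 5) (nat_lit 8) (by decide +kernel)
theorem L86217 : W_32 (nat_lit 3) (nat_lit 0x5800380000001a00080000000000000000000000000000000) (nat_lit 0x0) (nat_lit 0x10000000000006000400100000000000000000000000000000000) := T_32 (nat_lit 158) (nat_lit 208) (nat_lit 5) (nat_lit 5) (nat_lit 8) L86216 (by decide +kernel)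
theorem L86218 : W_32 (nat_lit 4) (nat_lit 0x5800380000001200080000000000000000000000000000000) (nat_lit 0x0) (nat_lit 0x10000000000016000c00100000000000000000000000000000000) := T_32 (nat_lit 143) (nat_lit 160) (nat_lit 6) (nat_lit 7) (nat_lit 11) L86217 (by decide +kernel)
theorem L86219 : W_32 (nat_lit 11) (nat_lit 0x5800380000001000080000000000000000000000000000000) (nat_lit 0x0) (nat_lit 0x1000060002001f800fc013c001c000e0001000000000000000000) := Q_32 (nat_lit 141) (C_32 L86194 (C_32 L86199 (C_32 L86208 (C_32 L86215 (C_32 L86218 N_32))))) (by decide +kernel)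
theorem L86227 : W_32 (nat_lit 2) (nat_lit 0x10000f800300010001000080000000000000000000000000000000) (nat_lit 0x0) (nat_lit 0xe0000000000000000000000000000000000000000000) := D_32 (nat_lit 174) (nat_lit 175) (nat_lit 173) (nat_lit 3) (nat_lit 4) (nat_lit 10) (nat_lit 0) (nat_lit 7) (nat_lit 11) (by decide +kernel)
theorem L86228 : W_32 (nat_lit 3) (nat_lit 0x10000f000300010001000080000000000000000000000000000000) (nat_lit 0x0) (nat_lit 0xc000e0000000000000000000000000000000000000000000) := T_32 (nat_lit 191) (nat_lit 190) (nat_lit 2) (nat_lit 3) (nat_lit 11) L86227 (by decide +kernel)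
theorem L86230 : W_32 (nat_lit 8) (nat_lit 0xd000300000001000080000000000000000000000000000000) (nat_lit 0x0) (nat_lit 0x18002c00370002000cc0016000a00000000000000000000000000000000000) := Q_32 (nat_lit 193) (C_32 L85522 (C_32 L11732 (C_32 L84231 N_32))) (by decide +kernel)
theorem L86291 : W_32 (nat_lit 4) (nat_lit 0xf000300010001000080000000000000000000000000000000) (nat_lit 0x0) (nat_lit 0x300000c000e0000000000000000000000000000000000000000000) := T_32 (nat_lit 212) (nat_lit 213) (nat_lit 3) (nat_lit 5) (nat_lit 11) L86228 (by decide +kernel)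
theorem L86292 : W_32 (nat_lit 2) (nat_lit 0xf000300010001000080000000000000000000000000000000) (nat_lit 0x0) (nat_lit 0x800c00000000000000000000000000000000000000000000) := D_32 (nat_lit 178) (nat_lit 179) (nat_lit 191) (nat_lit 2) (nat_lit 5) (nat_lit 11) (nat_lit 2) (nat_lit 4) (nat_lit 11) (by decide +kernel)
theorem L86293 : W_32 (nat_lit 5) (nat_lit 0xe000300010001000080000000000000000000000000000000) (nat_lit 0x0) (nat_lit 0x2000300001c00ce0000000000000000000000000000000000000000000) := Q_32 (nat_lit 192) (C_32 L86291 (C_32 L86292 (C_32 L11731 N_32))) (by decide +kernel)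
theorem L86302 : W_32 (nat_lit 2) (nat_lit 0x58003c0012001000080000000000000000000000000000000) (nat_lit 0x0) (nat_lit 0x20000000000000000100008000000000000000000000000000000) := D_32 (nat_lit 140) (nat_lit 209) (nat_lit 123) (nat_lit 7) (nat_lit 4) (nat_lit 8) (nat_lit 7) (nat_lit 4) (nat_lit 7) (by decide +kernel)
theorem L86304 : W_32 (nat_lit 7) (nat_lit 0x5000380004001000080000000000000000000000000000000) (nat_lit 0x0) (nat_lit 0xe8003c001ca000000000000000000000000000000000000000) := T_32 (nat_lit 178) (nat_lit 157) (nat_lit 0) (nat_lit 8) (nat_lit 10) L83582 (by decide +kernel)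
theorem L86305 : W_32 (nat_lit 2) (nat_lit 0x5000380004001400080000000000000000000000000000000) (nat_lit 0x0) (nat_lit 0x20000000000008000000020000000000000000000000000000000) := D_32 (nat_lit 159) (nat_lit 125) (nat_lit 209) (nat_lit 7) (nat_lit 6) (nat_lit 7) (nat_lit 6) (nat_lit 5) (nat_lit 12) (by decide +kernel)
theorem L86306 : W_32 (nat_lit 5) (nat_lit 0x5000380014001400080000000000000000000000000000000) (nat_lit 0x0) (nat_lit 0x14000e00070000000000008000000000000000000000000000000000000000) := T_32 (nat_lit 209) (nat_lit 159) (nat_lit 6) (nat_lit 5) (nat_lit 12) L86128 (by decide +kernel)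
theorem L86307 : W_32 (nat_lit 6) (nat_lit 0x5000380004001400080000000000000000000000000000000) (nat_lit 0x0) (nat_lit 0x14000e00070000000000018000800000000000000000000000000000000000) := T_32 (nat_lit 160) (nat_lit 143) (nat_lit 6) (nat_lit 7) (nat_lit 11) L86306 (by decide +kernel)
theorem L86418 : W_32 (nat_lit 2) (nat_lit 0x6000300008001c00080000000000000000000000000000000) (nat_lit 0x0) (nat_lit 0x200110000000000000000000000000000000) := D_32 (nat_lit 141) (nat_lit 124) (nat_lit 128) (nat_lit 4) (nat_lit 6) (nat_lit 11) (nat_lit 2) (nat_lit 5) (nat_lit 8) (by decide +kernel)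
theorem L86419 : W_32 (nat_lit 3) (nat_lit 0x6000300008001800080000000000000000000000000000000) (nat_lit 0x0) (nat_lit 0x600130000000000000000000000000000000) := T_32 (nat_lit 142) (nat_lit 125) (nat_lit 7) (nat_lit 6) (nat_lit 7) L86418 (by decide +kernel)
theorem L86420 : W_32 (nat_lit 4) (nat_lit 0x6000300008001000080000000000000000000000000000000) (nat_lit 0x0) (nat_lit 0x10000e00130000000000000000000000000000000) := T_32 (nat_lit 143) (nat_lit 160) (nat_lit 6) (nat_lit 7) (nat_lit 11) L86419 (by decide +kernel)
theorem L86422 : W_32 (nat_lit 4) (nat_lit 0xe000300018001000080000000000000000000000000000000) (nat_lit 0x0) (nat_lit 0x800040000000000004000600030000000000000000000000000000000) := T_32 (nat_lit 210) (nat_lit 227) (nat_lit 6) (nat_lit 6) (nat_lit 13) L85491 (by decide +kernel)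
theorem L86425 : W_32 (nat_lit 2) (nat_lit 0x6000e000300018001000080000000000000000000000000000000) (nat_lit 0x0) (nat_lit 0x18001000000000000000000000000000000000000000000000000) := D_32 (nat_lit 208) (nat_lit 207) (nat_lit 192) (nat_lit 2) (nat_lit 3) (nat_lit 12) (nat_lit 1) (nat_lit 8) (nat_lit 11) (by decide +kernel)
theorem L86426 : W_32 (nat_lit 3) (nat_lit 0x4000e000300018001000080000000000000000000000000000000) (nat_lit 0x0) (nat_lit 0x400038001000000000000000000000000000000000000000000000000) := T_32 (nat_lit 209) (nat_lit 226) (nat_lit 5) (nat_lit 6) (nat_lit 9) L86425 (by decide +kernel)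
theorem L86427 : W_32 (nat_lit 4) (nat_lit 0xe000300018001000080000000000000000000000000000000) (nat_lit 0x0) (nat_lit 0xc00078001000000000000000000000000000000000000000000000000) := T_32 (nat_lit 210) (nat_lit 227) (nat_lit 6) (nat_lit 6) (nat_lit 13) L86426 (by decide +kernel)
theorem L86429 : W_32 (nat_lit 2) (nat_lit 0x6000f000300010001000080000000000000000000000000000000) (nat_lit 0x0) (nat_lit 0x8000400000000000000008000000000000000000000000000000000000000) := D_32 (nat_lit 226) (nat_lit 243) (nat_lit 159) (nat_lit 6) (nat_lit 5) (nat_lit 14) (nat_lit 5) (nat_lit 6) (nat_lit 9) (by decide +kernel)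
theorem L86430 : W_32 (nat_lit 3) (nat_lit 0x2000f000300010001000080000000000000000000000000000000) (nat_lit 0x0) (nat_lit 0x8000c00040000000000008000000000000000000000000000000000000000) := T_32 (nat_lit 210) (nat_lit 227) (nat_lit 6) (nat_lit 6) (nat_lit 13) L86429 (by decide +kernel)
theorem L86431 : W_32 (nat_lit 4) (nat_lit 0x2000f000300000001000080000000000000000000000000000000) (nat_lit 0x0) (nat_lit 0x8000c00040000000000018000800000000000000000000000000000000000) := T_32 (nat_lit 160) (nat_lit 143) (nat_lit 6) (nat_lit 7) (nat_lit 11) L86430 (by decide +kernel)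
theorem L86432 : W_32 (nat_lit 5) (nat_lit 0xf000300000001000080000000000000000000000000000000) (nat_lit 0x0) (nat_lit 0x8000c00070000000000018000800000000000000000000000000000000000) := T_32 (nat_lit 209) (nat_lit 208) (nat_lit 1) (nat_lit 8) (nat_lit 11) L86431 (by decide +kernel)
theorem L86433 : W_32 (nat_lit 2) (nat_lit 0x4000000011000f800340018001680080000000000000000000000000000000) (nat_lit 0x0) (nat_lit 0x7000000000000000000000000000000000000000) := D_32 (nat_lit 157) (nat_lit 158) (nat_lit 156) (nat_lit 6) (nat_lit 4) (nat_lit 12) (nat_lit 4) (nat_lit 4) (nat_lit 12) (by decide +kernel)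
theorem L86434 : W_32 (nat_lit 3) (nat_lit 0x4000000011000f800340018001600080000000000000000000000000000000) (nat_lit 0x0) (nat_lit 0x7000180000000000000000000000000000000000) := T_32 (nat_lit 139) (nat_lit 140) (nat_lit 3) (nat_lit 3) (nat_lit 8) L86433 (by decide +kernel)
theorem L86435 : W_32 (nat_lit 4) (nat_lit 0x4000000011000f800340018001400080000000000000000000000000000000) (nat_lit 0x0) (nat_lit 0x7000380010000000000000000000000000000000) := T_32 (nat_lit 141) (nat_lit 124) (nat_lit 4) (nat_lit 6) (nat_lit 11) L86434 (by decide +kernel)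
theorem L86436 : W_32 (nat_lit 5) (nat_lit 0x4000000010000f800340018001400080000000000000000000000000000000) (nat_lit 0x0) (nat_lit 0x18000000000007000380010000000000000000000000000000000) := T_32 (nat_lit 208) (nat_lit 207) (nat_lit 1) (nat_lit 7) (nat_lit 11) L86435 (by decide +kernel)
theorem L86437 : W_32 (nat_lit 6) (nat_lit 0x4000000010000f800300018001400080000000000000000000000000000000) (nat_lit 0x0) (nat_lit 0x18000000060007000380010000000000000000000000000000000) := T_32 (nat_lit 174) (nat_lit 173) (nat_lit 0) (nat_lit 7) (nat_lit 11) L86436 (by decide +kernel)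
theorem L86438 : W_32 (nat_lit 7) (nat_lit 0x10000f800300018001400080000000000000000000000000000000) (nat_lit 0x0) (nat_lit 0x40002000018000000060007000380010000000000000000000000000000000) := T_32 (nat_lit 246) (nat_lit 229) (nat_lit 4) (nat_lit 8) (nat_lit 14) L86437 (by decide +kernel)
theorem L86439 : W_32 (nat_lit 8) (nat_lit 0x10000f000300018001400080000000000000000000000000000000) (nat_lit 0x0) (nat_lit 0x40002000018000c00060007000380010000000000000000000000000000000) := T_32 (nat_lit 191) (nat_lit 190) (nat_lit 2) (nat_lit 3) (nat_lit 11) L86438 (by decide +kernel)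
theorem L86440 : W_32 (nat_lit 9) (nat_lit 0xf000300018001400080000000000000000000000000000000) (nat_lit 0x0) (nat_lit 0x40002000318000c00060007000380010000000000000000000000000000000) := T_32 (nat_lit 212) (nat_lit 213) (nat_lit 3) (nat_lit 5) (nat_lit 11) L86439 (by decide +kernel)
theorem L86441 : W_32 (nat_lit 10) (nat_lit 0xe000300018001400080000000000000000000000000000000) (nat_lit 0x0) (nat_lit 0x40002000338001c00060007000380010000000000000000000000000000000) := T_32 (nat_lit 192) (nat_lit 209) (nat_lit 5) (nat_lit 6) (nat_lit 8) L86440 (by decide +kernel)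
theorem L86442 : W_32 (nat_lit 11) (nat_lit 0xe000300018001000080000000000000000000000000000000) (nat_lit 0x0) (nat_lit 0x40002000338001c00060007000780030000000000000000000000000000000) := T_32 (nat_lit 142) (nat_lit 125) (nat_lit 7) (nat_lit 6) (nat_lit 7) L86441 (by decide +kernel)
theorem L86446 : W_32 (nat_lit 3) (nat_lit 0x40006000300018001000080000000000000000000000000000000) (nat_lit 0x0) (nat_lit 0x400007000200000000000000000000000000000000000) := T_32 (nat_lit 158) (nat_lit 141) (nat_lit 4) (nat_lit 6) (nat_lit 12) L85002 (by decide +kernel)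
theorem L86447 : W_32 (nat_lit 4) (nat_lit 0x6000300018001000080000000000000000000000000000000) (nat_lit 0x0) (nat_lit 0x800040000000400007000200000000000000000000000000000000000) := T_32 (nat_lit 210) (nat_lit 227) (nat_lit 6) (nat_lit 6) (nat_lit 13) L86446 (by decide +kernel)
theorem L86448 : W_32 (nat_lit 5) (nat_lit 0x6000300008001000080000000000000000000000000000000) (nat_lit 0x0) (nat_lit 0x800040000000400017000a00000000000000000000000000000000000) := T_32 (nat_lit 160) (nat_lit 143) (nat_lit 6) (nat_lit 7) (nat_lit 11) L86447 (by decide +kernel)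
theorem L86449 : W_32 (nat_lit 2) (nat_lit 0x4000f000700010001000080000000000000000000000000000000) (nat_lit 0x0) (nat_lit 0x30010000000000000000000000000000000000000000000000000) := D_32 (nat_lit 209) (nat_lit 208) (nat_lit 196) (nat_lit 1) (nat_lit 8) (nat_lit 11) (nat_lit 1) (nat_lit 9) (nat_lit 11) (by decide +kernel)
theorem L86450 : W_32 (nat_lit 3) (nat_lit 0xf000700010001000080000000000000000000000000000000) (nat_lit 0x0) (nat_lit 0x800070010000000000000000000000000000000000000000000000000) := T_32 (nat_lit 210) (nat_lit 227) (nat_lit 6) (nat_lit 6) (nat_lit 13) L86449 (by decide +kernel)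
theorem L86451 : W_32 (nat_lit 4) (nat_lit 0x7000700010001000080000000000000000000000000000000) (nat_lit 0x0) (nat_lit 0x2800370018000000000000000000000000000000000000000000000000) := Q_32 (nat_lit 195) (C_32 L11730 (C_32 L86450 N_32)) (by decide +kernel)
theorem L86452 : W_32 (nat_lit 2) (nat_lit 0x5000300002001e000a8000000000000000000000000000000) (nat_lit 0x0) (nat_lit 0x1000100004000000000000000000000000000000) := D_32 (nat_lit 140) (nat_lit 156) (nat_lit 122) (nat_lit 1) (nat_lit 7) (nat_lit 8) (nat_lit 0) (nat_lit 7) (nat_lit 8) (by decide +kernel)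
theorem L86453 : W_32 (nat_lit 3) (nat_lit 0x5000300002001e000a0000000000000000000000000000000) (nat_lit 0x0) (nat_lit 0x100010001c000000000000000000000000000000) := T_32 (nat_lit 123) (nat_lit 124) (nat_lit 0) (nat_lit 8) (nat_lit 8) L86452 (by decide +kernel)
theorem L86454 : W_32 (nat_lit 4) (nat_lit 0x5000300000001e000a0000000000000000000000000000000) (nat_lit 0x0) (nat_lit 0x700010001c000000000000000000000000000000) := T_32 (nat_lit 157) (nat_lit 158) (nat_lit 1) (nat_lit 8) (nat_lit 8) L86453 (by decide +kernel)
theorem L86455 : W_32 (nat_lit 5) (nat_lit 0x5000300000001c000a0000000000000000000000000000000) (nat_lit 0x0) (nat_lit 0x700030011c000000000000000000000000000000) := T_32 (nat_lit 141) (nat_lit 128) (nat_lit 2) (nat_lit 5) (nat_lit 8) L86454 (by decide +kernel)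
theorem L86456 : W_32 (nat_lit 6) (nat_lit 0x50003000000014000a0000000000000000000000000000000) (nat_lit 0x0) (nat_lit 0x17000b0011c000000000000000000000000000000) := T_32 (nat_lit 143) (nat_lit 160) (nat_lit 6) (nat_lit 7) (nat_lit 11) L86455 (by decide +kernel)
theorem L86457 : W_32 (nat_lit 12) (nat_lit 0xe000300010001000080000000000000000000000000000000) (nat_lit 0x0) (nat_lit 0x40002c00378001c0006000f000780030000000000000000000000000000000) := Q_32 (nat_lit 159) (C_32 L86427 (C_32 L86442 (C_32 L86422 N_32))) (by decide +kernel)
theorem L86458 : W_32 (nat_lit 5) (nat_lit 0xe000300010001000080000000000000000000000000000000) (nat_lit 0x0) (nat_lit 0x700031c00400000000000000000000000000000000000000000000) := T_32 (nat_lit 196) (nat_lit 197) (nat_lit 0) (nat_lit 10) (nat_lit 11) L12443 (by decide +kernel)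
theorem L86459 : W_32 (nat_lit 13) (nat_lit 0xc000300010001000080000000000000000000000000000000) (nat_lit 0x0) (nat_lit 0x40002c00778033c0046000f000780030000000000000000000000000000000) := Q_32 (nat_lit 193) (C_32 L86457 (C_32 L11677 (C_32 L86458 N_32))) (by decide +kernel)
theorem L86460 : W_32 (nat_lit 2) (nat_lit 0x7000300002001e00088000000000000000000000000000000) (nat_lit 0x0) (nat_lit 0x1000100004000000000000000000000000000000) := D_32 (nat_lit 140) (nat_lit 156) (nat_lit 122) (nat_lit 1) (nat_lit 7) (nat_lit 8) (nat_lit 0) (nat_lit 7) (nat_lit 8) (by decide +kernel)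
theorem L86461 : W_32 (nat_lit 3) (nat_lit 0x7000300002001e00080000000000000000000000000000000) (nat_lit 0x0) (nat_lit 0x100010001c000000000000000000000000000000) := T_32 (nat_lit 123) (nat_lit 124) (nat_lit 0) (nat_lit 8) (nat_lit 8) L86460 (by decide +kernel)
theorem L86462 : W_32 (nat_lit 4) (nat_lit 0x7000300000001e00080000000000000000000000000000000) (nat_lit 0x0) (nat_lit 0x700010001c000000000000000000000000000000) := T_32 (nat_lit 157) (nat_lit 158) (nat_lit 1) (nat_lit 8) (nat_lit 8) L86461 (by decide +kernel)
theorem L86463 : W_32 (nat_lit 5) (nat_lit 0x7000300000001c00080000000000000000000000000000000) (nat_lit 0x0) (nat_lit 0x700030011c000000000000000000000000000000) := T_32 (nat_lit 141) (nat_lit 128) (nat_lit 2) (nat_lit 5) (nat_lit 8) L86462 (by decide +kernel)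
theorem L86464 : W_32 (nat_lit 6) (nat_lit 0x7000300000001800080000000000000000000000000000000) (nat_lit 0x0) (nat_lit 0x2000000000000f00070013c000000000000000000000000000000) := Q_32 (nat_lit 142) (C_32 L85190 (C_32 L86463 N_32)) (by decide +kernel)
theorem L86467 : W_32 (nat_lit 2) (nat_lit 0xa00020005800680016001000080000000000000000000000000000000) (nat_lit 0x0) (nat_lit 0x14000400000000000000000000000000000000000000000000000000000000) := D_32 (nat_lit 226) (nat_lit 242) (nat_lit 244) (nat_lit 5) (nat_lit 5) (nat_lit 10) (nat_lit 7) (nat_lit 5) (nat_lit 10) (by decide +kernel)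
theorem L86468 : W_32 (nat_lit 3) (nat_lit 0x200020005800680016001000080000000000000000000000000000000) (nat_lit 0x0) (nat_lit 0x14000c00040000000000000000000000000000000000000000000000000000) := T_32 (nat_lit 227) (nat_lit 210) (nat_lit 7) (nat_lit 5) (nat_lit 9) L86467 (by decide +kernel)
theorem L86469 : W_32 (nat_lit 4) (nat_lit 0x20005800680016001000080000000000000000000000000000000) (nat_lit 0x0) (nat_lit 0x14000e00050000000000000000000000000000000000000000000000000000) := T_32 (nat_lit 225) (nat_lit 208) (nat_lit 5) (nat_lit 5) (nat_lit 9) L86468 (by decide +kernel)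
theorem L86470 : W_32 (nat_lit 5) (nat_lit 0x5800680016001000080000000000000000000000000000000) (nat_lit 0x0) (nat_lit 0x14000e00070000000000000000100000000000000000000000000000000000) := T_32 (nat_lit 209) (nat_lit 140) (nat_lit 4) (nat_lit 5) (nat_lit 12) L86469 (by decide +kernel)
theorem L86471 : W_32 (nat_lit 6) (nat_lit 0x5800680014001000080000000000000000000000000000000) (nat_lit 0x0) (nat_lit 0x14000e0007000000000000a000100000000000000000000000000000000000) := T_32 (nat_lit 157) (nat_lit 159) (nat_lit 3) (nat_lit 4) (nat_lit 9) L86470 (by decide +kernel)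
theorem L86472 : W_32 (nat_lit 12) (nat_lit 0x5000200000001000080000000000000000000000000000000) (nat_lit 0x0) (nat_lit 0xf8007c0077c07ac03df0010000800000000000000000000000000000000000) := Q_32 (nat_lit 193) (C_32 L23864 (C_32 L85435 (C_32 L85428 (C_32 L85298 N_32)))) (by decide +kernel)
theorem L86477 : W_32 (nat_lit 6) (nat_lit 0x10007800240010001000080000000000000000000000000000000) (nat_lit 0x0) (nat_lit 0x720038003900000000000000000000000000000000000000000000) := T_32 (nat_lit 195) (nat_lit 209) (nat_lit 1) (nat_lit 8) (nat_lit 11) L86476 (by decide +kernel)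
theorem L86478 : W_32 (nat_lit 7) (nat_lit 0x10007800240000001000080000000000000000000000000000000) (nat_lit 0x0) (nat_lit 0x720038003900010000800000000000000000000000000000000000) := T_32 (nat_lit 160) (nat_lit 143) (nat_lit 6) (nat_lit 7) (nat_lit 11) L86477 (by decide +kernel)
theorem L86479 : W_32 (nat_lit 8) (nat_lit 0x7800240000001000080000000000000000000000000000000) (nat_lit 0x0) (nat_lit 0x738038003900010000800000000000000000000000000000000000) := T_32 (nat_lit 208) (nat_lit 207) (nat_lit 1) (nat_lit 7) (nat_lit 11) L86478 (by decide +kernel)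
theorem L86480 : W_32 (nat_lit 9) (nat_lit 0x7800200000001000080000000000000000000000000000000) (nat_lit 0x0) (nat_lit 0x738038003960010000800000000000000000000000000000000000) := T_32 (nat_lit 174) (nat_lit 173) (nat_lit 0) (nat_lit 7) (nat_lit 11) L86479 (by decide +kernel)
theorem L86481 : W_32 (nat_lit 10) (nat_lit 0x7000200000001000080000000000000000000000000000000) (nat_lit 0x0) (nat_lit 0x73c038c03970010000800000000000000000000000000000000000) := Q_32 (nat_lit 191) (C_32 L24839 (C_32 L10036 (C_32 L10040 (C_32 L86480 N_32)))) (by decide +kernel)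
theorem L86487 : W_32 (nat_lit 2) (nat_lit 0x20001f000200010001000080000000000000000000000000000000) (nat_lit 0x0) (nat_lit 0x20000180000000000000000000000000000000000000000000) := D_32 (nat_lit 176) (nat_lit 175) (nat_lit 197) (nat_lit 0) (nat_lit 9) (nat_lit 11) (nat_lit 0) (nat_lit 10) (nat_lit 11) (by decide +kernel)
theorem L86488 : W_32 (nat_lit 3) (nat_lit 0x20000f000200010001000080000000000000000000000000000000) (nat_lit 0x0) (nat_lit 0x400030000180000000000000000000000000000000000000000000) := T_32 (nat_lit 196) (nat_lit 214) (nat_lit 3) (nat_lit 6) (nat_lit 11) L86487 (by decide +kernel)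
theorem L86489 : W_32 (nat_lit 4) (nat_lit 0xf000200010001000080000000000000000000000000000000) (nat_lit 0x0) (nat_lit 0x700030000180000000000000000000000000000000000000000000) := T_32 (nat_lit 213) (nat_lit 212) (nat_lit 3) (nat_lit 5) (nat_lit 11) L86488 (by decide +kernel)
theorem L86490 : W_32 (nat_lit 5) (nat_lit 0xf000200000001000080000000000000000000000000000000) (nat_lit 0x0) (nat_lit 0x700030000180010000800000000000000000000000000000000000) := T_32 (nat_lit 160) (nat_lit 143) (nat_lit 6) (nat_lit 7) (nat_lit 11) L86489 (by decide +kernel)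
theorem L86491 : W_32 (nat_lit 9) (nat_lit 0x7000200000001000080000000000000000000000000000000) (nat_lit 0x0) (nat_lit 0x4000200077e038e039b8010000800000000000000000000000000000000000) := Q_32 (nat_lit 195) (C_32 L10288 (C_32 L85434 (C_32 L84919 (C_32 L84831 (C_32 L80179 (C_32 L86490 N_32)))))) (by decide +kernel)
theorem L86492 : W_32 (nat_lit 12) (nat_lit 0x7000200000001000080000000000000000000000000000000) (nat_lit 0x0) (nat_lit 0x58002c007700380039c001f000f00000000000000000000000000000000000) := Q_32 (nat_lit 195) (C_32 L84737 (C_32 L86490 (C_32 L84841 (C_32 L84919 (C_32 L80179 N_32))))) (by decide +kernel)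
theorem L86493 : W_32 (nat_lit 2) (nat_lit 0x24001f000a00010001000080000000000000000000000000000000) (nat_lit 0x0) (nat_lit 0x800000020000100000000000000000000000000000000000000000000) := D_32 (nat_lit 176) (nat_lit 197) (nat_lit 227) (nat_lit 0) (nat_lit 10) (nat_lit 11) (nat_lit 6) (nat_lit 6) (nat_lit 13) (by decide +kernel)
theorem L86494 : W_32 (nat_lit 3) (nat_lit 0x20001f000a00010001000080000000000000000000000000000000) (nat_lit 0x0) (nat_lit 0x800060020000100000000000000000000000000000000000000000000) := T_32 (nat_lit 210) (nat_lit 209) (nat_lit 1) (nat_lit 9) (nat_lit 11) L86493 (by decide +kernel)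
theorem L86495 : W_32 (nat_lit 4) (nat_lit 0x20001f000200010001000080000000000000000000000000000000) (nat_lit 0x0) (nat_lit 0x800060020001900000000000000000000000000000000000000000000) := T_32 (nat_lit 179) (nat_lit 180) (nat_lit 2) (nat_lit 6) (nat_lit 11) L86494 (by decide +kernel)
theorem L86496 : W_32 (nat_lit 5) (nat_lit 0x20000f000200010001000080000000000000000000000000000000) (nat_lit 0x0) (nat_lit 0x800460030001900000000000000000000000000000000000000000000) := T_32 (nat_lit 196) (nat_lit 214) (nat_lit 3) (nat_lit 6) (nat_lit 11) L86495 (by decide +kernel)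
theorem L86497 : W_32 (nat_lit 6) (nat_lit 0x20000f000200000001000080000000000000000000000000000000) (nat_lit 0x0) (nat_lit 0x800460030001900010000800000000000000000000000000000000000) := T_32 (nat_lit 160) (nat_lit 143) (nat_lit 6) (nat_lit 7) (nat_lit 11) L86496 (by decide +kernel)
theorem L86498 : W_32 (nat_lit 7) (nat_lit 0xf000200000001000080000000000000000000000000000000) (nat_lit 0x0) (nat_lit 0x800760030001900010000800000000000000000000000000000000000) := T_32 (nat_lit 213) (nat_lit 212) (nat_lit 3) (nat_lit 5) (nat_lit 11) L86497 (by decide +kernel)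
theorem L86505 : W_32 (nat_lit 2) (nat_lit 0x1f800340010001000080000000000000000000000000000000) (nat_lit 0x0) (nat_lit 0x800060000000000000000000000000000000000000000000000000000) := D_32 (nat_lit 210) (nat_lit 227) (nat_lit 209) (nat_lit 6) (nat_lit 6) (nat_lit 13) (nat_lit 1) (nat_lit 9) (nat_lit 11) (by decide +kernel)
theorem L86506 : W_32 (nat_lit 3) (nat_lit 0xf800340010001000080000000000000000000000000000000) (nat_lit 0x0) (nat_lit 0x800060030000000000000000000000000000000000000000000000000) := T_32 (nat_lit 196) (nat_lit 197) (nat_lit 0) (nat_lit 10) (nat_lit 11) L86505 (by decide +kernel)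
theorem L86507 : W_32 (nat_lit 4) (nat_lit 0xf800240010001000080000000000000000000000000000000) (nat_lit 0x0) (nat_lit 0x800060030400100000000000000000000000000000000000000000000) := T_32 (nat_lit 176) (nat_lit 190) (nat_lit 2) (nat_lit 3) (nat_lit 11) L86506 (by decide +kernel)
theorem L86508 : W_32 (nat_lit 5) (nat_lit 0xf000240010001000080000000000000000000000000000000) (nat_lit 0x0) (nat_lit 0x800060030c00120000000000000000000000000000000000000000000) := T_32 (nat_lit 191) (nat_lit 173) (nat_lit 0) (nat_lit 7) (nat_lit 11) L86507 (by decide +kernel)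
theorem L86509 : W_32 (nat_lit 6) (nat_lit 0xf000240000001000080000000000000000000000000000000) (nat_lit 0x0) (nat_lit 0x800060030c00120010000800000000000000000000000000000000000) := T_32 (nat_lit 160) (nat_lit 143) (nat_lit 6) (nat_lit 7) (nat_lit 11) L86508 (by decide +kernel)
theorem L86510 : W_32 (nat_lit 7) (nat_lit 0xf000200000001000080000000000000000000000000000000) (nat_lit 0x0) (nat_lit 0x800060030c001e0010000800000000000000000000000000000000000) := T_32 (nat_lit 174) (nat_lit 175) (nat_lit 0) (nat_lit 8) (nat_lit 11) L86509 (by decide +kernel)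
theorem L86511 : W_32 (nat_lit 14) (nat_lit 0x7000200000001000080000000000000000000000000000000) (nat_lit 0x0) (nat_lit 0x78003c00f60038c039e001f000f8013c000000000000000000000000000000) := Q_32 (nat_lit 195) (C_32 L84794 (C_32 L86490 (C_32 L84922 (C_32 L84885 (C_32 L86498 (C_32 L86504 (C_32 L86510 N_32))))))) (by decide +kernel)
theorem L86512 : W_32 (nat_lit 15) (nat_lit 0x5000200000001000080000000000000000000000000000000) (nat_lit 0x0) (nat_lit 0x7e003f80f7e03ae039f801f000f8013c000000000000000000000000000000) := Q_32 (nat_lit 193) (C_32 L84990 (C_32 L85435 (C_32 L84923 (C_32 L85296 (C_32 L86481 (C_32 L86486 (C_32 L86491 (C_32 L86492 (C_32 L86511 N_32))))))))) (by decide +kernel)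
theorem L86513 : W_32 (nat_lit 12) (nat_lit 0x5000200000001000080000000000000000000000000000000) (nat_lit 0x0) (nat_lit 0xf8007c0077807ac03df0000000000000000000000000000000000000000000) := Q_32 (nat_lit 193) (C_32 L10037 (C_32 L85428 (C_32 L84923 (C_32 L85298 N_32)))) (by decide +kernel)
theorem L86514 : W_32 (nat_lit 7) (nat_lit 0x7000300000001000080000000000000000000000000000000) (nat_lit 0x0) (nat_lit 0x2000000000001f000f0013c000000000000000000000000000000) := T_32 (nat_lit 143) (nat_lit 160) (nat_lit 6) (nat_lit 7) (nat_lit 11) L86464 (by decide +kernel)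
theorem L86546 : W_32 (nat_lit 13) (nat_lit 0x5800200000001000080000000000000000000000000000000) (nat_lit 0x0) (nat_lit 0x1e000f8007c0024001f001f000f8011c000000000000000000000000000000) := Q_32 (nat_lit 193) (C_32 L24839 (C_32 L84989 (C_32 L10036 (C_32 L10040 N_32)))) (by decide +kernel)
theorem L86547 : W_32 (nat_lit 4) (nat_lit 0x5800200000001000080000000000000000000000000000000) (nat_lit 0x0) (nat_lit 0x2400570000000000000000000000000000000000000000000) := T_32 (nat_lit 193) (nat_lit 178) (nat_lit 2) (nat_lit 4) (nat_lit 11) L10036 (by decide +kernel)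
theorem L86548 : W_32 (nat_lit 2) (nat_lit 0x5800380010001000080000000000000000000000000000000) (nat_lit 0x0) (nat_lit 0x600040000000000000000000000000000000000000000000) := D_32 (nat_lit 190) (nat_lit 174) (nat_lit 189) (nat_lit 1) (nat_lit 7) (nat_lit 10) (nat_lit 2) (nat_lit 2) (nat_lit 11) (by decide +kernel)
theorem L86549 : W_32 (nat_lit 3) (nat_lit 0x5800280010001000080000000000000000000000000000000) (nat_lit 0x0) (nat_lit 0x600540000000000000000000000000000000000000000000) := T_32 (nat_lit 176) (nat_lit 178) (nat_lit 1) (nat_lit 8) (nat_lit 10) L86548 (by decide +kernel)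
theorem L86550 : W_32 (nat_lit 4) (nat_lit 0x5800280000001000080000000000000000000000000000000) (nat_lit 0x0) (nat_lit 0x600540010000800000000000000000000000000000000000) := T_32 (nat_lit 160) (nat_lit 143) (nat_lit 6) (nat_lit 7) (nat_lit 11) L86549 (by decide +kernel)
theorem L86551 : W_32 (nat_lit 2) (nat_lit 0x5800280014001200090000000000000000000000000000000) (nat_lit 0x0) (nat_lit 0x100008000400000000000000000000000000) := D_32 (nat_lit 123) (nat_lit 106) (nat_lit 140) (nat_lit 4) (nat_lit 5) (nat_lit 10) (nat_lit 4) (nat_lit 5) (nat_lit 11) (by decide +kernel)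
theorem L86552 : W_32 (nat_lit 3) (nat_lit 0x5800280014001200080000000000000000000000000000000) (nat_lit 0x0) (nat_lit 0x40000000100018000400000000000000000000000000) := T_32 (nat_lit 124) (nat_lit 174) (nat_lit 5) (nat_lit 5) (nat_lit 7) L86551 (by decide +kernel)
theorem L86553 : W_32 (nat_lit 4) (nat_lit 0x5800280014001000080000000000000000000000000000000) (nat_lit 0x0) (nat_lit 0x10000000040000000300018000400000000000000000000000000) := T_32 (nat_lit 141) (nat_lit 208) (nat_lit 5) (nat_lit 5) (nat_lit 8) L86552 (by decide +kernel)
theorem L86554 : W_32 (nat_lit 5) (nat_lit 0x5800280004001000080000000000000000000000000000000) (nat_lit 0x0) (nat_lit 0x10000000040010000b00018000400000000000000000000000000) := T_32 (nat_lit 160) (nat_lit 143) (nat_lit 6) (nat_lit 7) (nat_lit 11) L86553 (by decide +kernel)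
theorem L86555 : W_32 (nat_lit 2) (nat_lit 0x5800280004001200090000000000000000000000000000000) (nat_lit 0x0) (nat_lit 0x100008000400000000000000000000000000) := D_32 (nat_lit 123) (nat_lit 106) (nat_lit 140) (nat_lit 4) (nat_lit 5) (nat_lit 10) (nat_lit 4) (nat_lit 5) (nat_lit 11) (by decide +kernel)
theorem L86556 : W_32 (nat_lit 3) (nat_lit 0x5800280004001200080000000000000000000000000000000) (nat_lit 0x0) (nat_lit 0x40000000100018000400000000000000000000000000) := T_32 (nat_lit 124) (nat_lit 174) (nat_lit 5) (nat_lit 5) (nat_lit 7) L86555 (by decide +kernel)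
theorem L86557 : W_32 (nat_lit 4) (nat_lit 0x5800280004001000080000000000000000000000000000000) (nat_lit 0x0) (nat_lit 0x10000000040000000300018000400000000000000000000000000) := T_32 (nat_lit 141) (nat_lit 208) (nat_lit 5) (nat_lit 5) (nat_lit 8) L86556 (by decide +kernel)
theorem L86558 : W_32 (nat_lit 2) (nat_lit 0x5800280004001700080000000000000000000000000000000) (nat_lit 0x0) (nat_lit 0x10000800100000000000000000000000000000000) := D_32 (nat_lit 143) (nat_lit 128) (nat_lit 160) (nat_lit 2) (nat_lit 5) (nat_lit 8) (nat_lit 6) (nat_lit 7) (nat_lit 11) (by decide +kernel)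
theorem L86559 : W_32 (nat_lit 3) (nat_lit 0x5800280004001300080000000000000000000000000000000) (nat_lit 0x0) (nat_lit 0x10000c00120000000000000000000000000000000) := T_32 (nat_lit 142) (nat_lit 125) (nat_lit 6) (nat_lit 5) (nat_lit 11) L86558 (by decide +kernel)
theorem L86560 : W_32 (nat_lit 4) (nat_lit 0x5800280004001200080000000000000000000000000000000) (nat_lit 0x0) (nat_lit 0x10000d00128000000000000000000000000000000) := T_32 (nat_lit 140) (nat_lit 123) (nat_lit 4) (nat_lit 5) (nat_lit 11) L86559 (by decide +kernel)
theorem L86561 : W_32 (nat_lit 5) (nat_lit 0x5800280004001000080000000000000000000000000000000) (nat_lit 0x0) (nat_lit 0x10000000000010000f00128000000000000000000000000000000) := T_32 (nat_lit 141) (nat_lit 208) (nat_lit 5) (nat_lit 5) (nat_lit 8) L86560 (by decide +kernel)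
theorem L86562 : W_32 (nat_lit 2) (nat_lit 0x60005a0028001c001000080000000000000000000000000000000) (nat_lit 0x0) (nat_lit 0x400002000100000000000000000000000000000000000) := D_32 (nat_lit 157) (nat_lit 178) (nat_lit 140) (nat_lit 3) (nat_lit 4) (nat_lit 9) (nat_lit 4) (nat_lit 5) (nat_lit 12) (by decide +kernel)
theorem L86563 : W_32 (nat_lit 3) (nat_lit 0x60005a00280014001000080000000000000000000000000000000) (nat_lit 0x0) (nat_lit 0x40000a000500000000000000000000000000000000000) := T_32 (nat_lit 159) (nat_lit 142) (nat_lit 6) (nat_lit 5) (nat_lit 12) L86562 (by decide +kernel)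
theorem L86564 : W_32 (nat_lit 4) (nat_lit 0x60005800280014001000080000000000000000000000000000000) (nat_lit 0x0) (nat_lit 0x60040000a000500000000000000000000000000000000000) := T_32 (nat_lit 189) (nat_lit 190) (nat_lit 3) (nat_lit 2) (nat_lit 11) L86563 (by decide +kernel)
theorem L86565 : W_32 (nat_lit 5) (nat_lit 0x20005800280014001000080000000000000000000000000000000) (nat_lit 0x0) (nat_lit 0x80004000060040000a000500000000000000000000000000000000000) := T_32 (nat_lit 210) (nat_lit 227) (nat_lit 7) (nat_lit 5) (nat_lit 9) L86564 (by decide +kernel)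
theorem L86566 : W_32 (nat_lit 6) (nat_lit 0x20005800280004001000080000000000000000000000000000000) (nat_lit 0x0) (nat_lit 0x80004000060040001a000d00000000000000000000000000000000000) := T_32 (nat_lit 160) (nat_lit 143) (nat_lit 6) (nat_lit 7) (nat_lit 11) L86565 (by decide +kernel)
theorem L86567 : W_32 (nat_lit 2) (nat_lit 0x70005a0028001e001000080000000000000000000000000000000) (nat_lit 0x0) (nat_lit 0x400000000000060000000000000000000000000000000000000000000) := D_32 (nat_lit 174) (nat_lit 173) (nat_lit 226) (nat_lit 1) (nat_lit 7) (nat_lit 9) (nat_lit 7) (nat_lit 4) (nat_lit 9) (by decide +kernel)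
theorem L86568 : W_32 (nat_lit 3) (nat_lit 0x70005a0028001c001000080000000000000000000000000000000) (nat_lit 0x0) (nat_lit 0x400000000000060002000100000000000000000000000000000000000) := T_32 (nat_lit 157) (nat_lit 140) (nat_lit 4) (nat_lit 5) (nat_lit 12) L86567 (by decide +kernel)
theorem L86569 : W_32 (nat_lit 4) (nat_lit 0x70005a00280014001000080000000000000000000000000000000) (nat_lit 0x0) (nat_lit 0x40000000000006000a000500000000000000000000000000000000000) := T_32 (nat_lit 159) (nat_lit 142) (nat_lit 6) (nat_lit 5) (nat_lit 12) L86568 (by decide +kernel)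
theorem L86570 : W_32 (nat_lit 5) (nat_lit 0x70005800280014001000080000000000000000000000000000000) (nat_lit 0x0) (nat_lit 0x40000000060006000a000500000000000000000000000000000000000) := T_32 (nat_lit 189) (nat_lit 190) (nat_lit 3) (nat_lit 2) (nat_lit 11) L86569 (by decide +kernel)
theorem L86571 : W_32 (nat_lit 6) (nat_lit 0x30005800280014001000080000000000000000000000000000000) (nat_lit 0x0) (nat_lit 0xc0004000060006000a000500000000000000000000000000000000000) := T_32 (nat_lit 210) (nat_lit 227) (nat_lit 7) (nat_lit 5) (nat_lit 9) L86570 (by decide +kernel)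
theorem L86572 : W_32 (nat_lit 7) (nat_lit 0x30005800280004001000080000000000000000000000000000000) (nat_lit 0x0) (nat_lit 0xc0004000060006001a000d00000000000000000000000000000000000) := T_32 (nat_lit 160) (nat_lit 143) (nat_lit 6) (nat_lit 7) (nat_lit 11) L86571 (by decide +kernel)
theorem L86573 : W_32 (nat_lit 8) (nat_lit 0x20005800280004001000080000000000000000000000000000000) (nat_lit 0x0) (nat_lit 0xe0005000060006001a000d00000000000000000000000000000000000) := T_32 (nat_lit 208) (nat_lit 225) (nat_lit 5) (nat_lit 5) (nat_lit 9) L86572 (by decide +kernel)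
theorem L86574 : W_32 (nat_lit 2) (nat_lit 0x400030005800280006001000080000000000000000000000000000000) (nat_lit 0x0) (nat_lit 0x10000800040000000000000000000000000000000000000000000000000000) := D_32 (nat_lit 227) (nat_lit 210) (nat_lit 244) (nat_lit 7) (nat_lit 5) (nat_lit 9) (nat_lit 7) (nat_lit 5) (nat_lit 10) (by decide +kernel)
theorem L86575 : W_32 (nat_lit 3) (nat_lit 0x30005800280006001000080000000000000000000000000000000) (nat_lit 0x0) (nat_lit 0x10000c00040000000040000000000000000000000000000000000000000000) := T_32 (nat_lit 226) (nat_lit 174) (nat_lit 7) (nat_lit 4) (nat_lit 9) L86574 (by decide +kernel)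
theorem L86576 : W_32 (nat_lit 4) (nat_lit 0x20005800280006001000080000000000000000000000000000000) (nat_lit 0x0) (nat_lit 0x10000e00050000000040000000000000000000000000000000000000000000) := T_32 (nat_lit 208) (nat_lit 225) (nat_lit 5) (nat_lit 5) (nat_lit 9) L86575 (by decide +kernel)
theorem L86577 : W_32 (nat_lit 5) (nat_lit 0x20005800280004001000080000000000000000000000000000000) (nat_lit 0x0) (nat_lit 0x10000e00050000000040002000100000000000000000000000000000000000) := T_32 (nat_lit 157) (nat_lit 140) (nat_lit 4) (nat_lit 5) (nat_lit 12) L86576 (by decide +kernel)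
theorem L86578 : W_32 (nat_lit 2) (nat_lit 0x100000002c00034005800280016001000080000000000000000000000000000000) (nat_lit 0x0) (nat_lit 0x400008000400000000000000000000000000000000000) := D_32 (nat_lit 159) (nat_lit 178) (nat_lit 142) (nat_lit 3) (nat_lit 4) (nat_lit 9) (nat_lit 6) (nat_lit 5) (nat_lit 12) (by decide +kernel)
theorem L86579 : W_32 (nat_lit 3) (nat_lit 0x100000002c00034005800280006001000080000000000000000000000000000000) (nat_lit 0x0) (nat_lit 0x400018000c00000000000000000000000000000000000) := T_32 (nat_lit 160) (nat_lit 143) (nat_lit 6) (nat_lit 7) (nat_lit 11) L86578 (by decide +kernel)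
theorem L86580 : W_32 (nat_lit 4) (nat_lit 0x100000000c00034005800280006001000080000000000000000000000000000000) (nat_lit 0x0) (nat_lit 0x3000000000000400018000c00000000000000000000000000000000000) := T_32 (nat_lit 229) (nat_lit 228) (nat_lit 0) (nat_lit 8) (nat_lit 13) L86579 (by decide +kernel)
theorem L86581 : W_32 (nat_lit 5) (nat_lit 0x100000000c00030005800280006001000080000000000000000000000000000000) (nat_lit 0x0) (nat_lit 0x300000c000000400018000c00000000000000000000000000000000000) := T_32 (nat_lit 206) (nat_lit 207) (nat_lit 3) (nat_lit 2) (nat_lit 12) L86580 (by decide +kernel)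
theorem L86582 : W_32 (nat_lit 6) (nat_lit 0x100000000400030005800280006001000080000000000000000000000000000000) (nat_lit 0x0) (nat_lit 0x1000380000c000000400018000c00000000000000000000000000000000000) := T_32 (nat_lit 227) (nat_lit 244) (nat_lit 7) (nat_lit 5) (nat_lit 10) L86581 (by decide +kernel)
theorem L86583 : W_32 (nat_lit 7) (nat_lit 0x400030005800280006001000080000000000000000000000000000000) (nat_lit 0x0) (nat_lit 0x10001800380000c000000400018000c00000000000000000000000000000000000) := T_32 (nat_lit 260) (nat_lit 243) (nat_lit 4) (nat_lit 5) (nat_lit 15) L86582 (by decide +kernel)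
theorem L86584 : W_32 (nat_lit 8) (nat_lit 0x30005800280006001000080000000000000000000000000000000) (nat_lit 0x0) (nat_lit 0x100018003c0000c000000440018000c00000000000000000000000000000000000) := T_32 (nat_lit 226) (nat_lit 174) (nat_lit 7) (nat_lit 4) (nat_lit 9) L86583 (by decide +kernel)
theorem L86585 : W_32 (nat_lit 9) (nat_lit 0x20005800280006001000080000000000000000000000000000000) (nat_lit 0x0) (nat_lit 0x100018003e0001c000000440018000c00000000000000000000000000000000000) := T_32 (nat_lit 208) (nat_lit 225) (nat_lit 5) (nat_lit 5) (nat_lit 9) L86584 (by decide +kernel)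
theorem L86586 : W_32 (nat_lit 10) (nat_lit 0x20005800280004001000080000000000000000000000000000000) (nat_lit 0x0) (nat_lit 0x100018003e0001c00000044001a000d00000000000000000000000000000000000) := T_32 (nat_lit 157) (nat_lit 140) (nat_lit 4) (nat_lit 5) (nat_lit 12) L86585 (by decide +kernel)
theorem L86587 : W_32 (nat_lit 2) (nat_lit 0x2000580028000e001000080000000000000000000000000000000) (nat_lit 0x0) (nat_lit 0x400010000800000000000000000000000000000000000) := D_32 (nat_lit 160) (nat_lit 178) (nat_lit 143) (nat_lit 3) (nat_lit 4) (nat_lit 9) (nat_lit 2) (nat_lit 4) (nat_lit 9) (by decide +kernel)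
theorem L86588 : W_32 (nat_lit 3) (nat_lit 0x2000580028000c001000080000000000000000000000000000000) (nat_lit 0x0) (nat_lit 0x400012000900000000000000000000000000000000000) := T_32 (nat_lit 157) (nat_lit 140) (nat_lit 4) (nat_lit 5) (nat_lit 12) L86587 (by decide +kernel)
theorem L86589 : W_32 (nat_lit 4) (nat_lit 0x20005800280004001000080000000000000000000000000000000) (nat_lit 0x0) (nat_lit 0x40001a000d00000000000000000000000000000000000) := T_32 (nat_lit 159) (nat_lit 142) (nat_lit 6) (nat_lit 5) (nat_lit 12) L86588 (by decide +kernel)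
theorem L86590 : W_32 (nat_lit 2) (nat_lit 0xc00020005800280014001000080000000000000000000000000000000) (nat_lit 0x0) (nat_lit 0x4000200010000000000000000000000000000000000000000000000000000) := D_32 (nat_lit 225) (nat_lit 242) (nat_lit 208) (nat_lit 5) (nat_lit 5) (nat_lit 10) (nat_lit 5) (nat_lit 5) (nat_lit 9) (by decide +kernel)
theorem L86591 : W_32 (nat_lit 3) (nat_lit 0x800020005800280014001000080000000000000000000000000000000) (nat_lit 0x0) (nat_lit 0x14000600010000000000000000000000000000000000000000000000000000) := T_32 (nat_lit 226) (nat_lit 244) (nat_lit 7) (nat_lit 5) (nat_lit 10) L86590 (by decide +kernel)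
theorem L86592 : W_32 (nat_lit 4) (nat_lit 0x800020005800280004001000080000000000000000000000000000000) (nat_lit 0x0) (nat_lit 0x14000600010000000000010000800000000000000000000000000000000000) := T_32 (nat_lit 160) (nat_lit 143) (nat_lit 6) (nat_lit 7) (nat_lit 11) L86591 (by decide +kernel)
theorem L86593 : W_32 (nat_lit 5) (nat_lit 0x20005800280004001000080000000000000000000000000000000) (nat_lit 0x0) (nat_lit 0x14000e00050000000000010000800000000000000000000000000000000000) := T_32 (nat_lit 227) (nat_lit 210) (nat_lit 7) (nat_lit 5) (nat_lit 9) L86592 (by decide +kernel)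
theorem L86594 : W_32 (nat_lit 11) (nat_lit 0x5800280004001000080000000000000000000000000000000) (nat_lit 0x0) (nat_lit 0x10001c003e0007c00060046001a000d00000000000000000000000000000000000) := Q_32 (nat_lit 209) (C_32 L86566 (C_32 L86573 (C_32 L86577 (C_32 L86586 (C_32 L86589 (C_32 L86593 N_32)))))) (by decide +kernel)
theorem L86595 : W_32 (nat_lit 2) (nat_lit 0x5800280014001200090000000000000000000000000000000) (nat_lit 0x0) (nat_lit 0x400020001000000000000000000000000000) := D_32 (nat_lit 125) (nat_lit 142) (nat_lit 108) (nat_lit 6) (nat_lit 5) (nat_lit 11) (nat_lit 6) (nat_lit 5) (nat_lit 10) (by decide +kernel)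
theorem L86596 : W_32 (nat_lit 3) (nat_lit 0x5800280014001200080000000000000000000000000000000) (nat_lit 0x0) (nat_lit 0x40000000400030001000000000000000000000000000) := T_32 (nat_lit 124) (nat_lit 174) (nat_lit 5) (nat_lit 5) (nat_lit 7) L86595 (by decide +kernel)
theorem L86597 : W_32 (nat_lit 4) (nat_lit 0x5800280004001200080000000000000000000000000000000) (nat_lit 0x0) (nat_lit 0x40010000c00030001000000000000000000000000000) := T_32 (nat_lit 160) (nat_lit 143) (nat_lit 6) (nat_lit 7) (nat_lit 11) L86596 (by decide +kernel)
theorem L86598 : W_32 (nat_lit 5) (nat_lit 0x5800280004001000080000000000000000000000000000000) (nat_lit 0x0) (nat_lit 0x40010000f00138001400000000000000000000000000) := Q_32 (nat_lit 141) (C_32 L86560 (C_32 L86556 (C_32 L86597 N_32))) (by decide +kernel)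
theorem L86599 : W_32 (nat_lit 4) (nat_lit 0x5800280014001000080000000000000000000000000000000) (nat_lit 0x0) (nat_lit 0x10000000040000000600030001000000000000000000000000000) := T_32 (nat_lit 141) (nat_lit 208) (nat_lit 5) (nat_lit 5) (nat_lit 8) L86596 (by decide +kernel)
theorem L86600 : W_32 (nat_lit 5) (nat_lit 0x5800280004001000080000000000000000000000000000000) (nat_lit 0x0) (nat_lit 0x10000000040010000e00030001000000000000000000000000000) := T_32 (nat_lit 160) (nat_lit 143) (nat_lit 6) (nat_lit 7) (nat_lit 11) L86599 (by decide +kernel)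
theorem L86601 : W_32 (nat_lit 12) (nat_lit 0x5800280000001000080000000000000000000000000000000) (nat_lit 0x0) (nat_lit 0x10001c003e0007c00060046001e000f00138001400000000000000000000000000) := Q_32 (nat_lit 158) (C_32 L86554 (C_32 L86557 (C_32 L86561 (C_32 L86594 (C_32 L86598 (C_32 L86600 N_32)))))) (by decide +kernel)
theorem L86602 : W_32 (nat_lit 2) (nat_lit 0x100058002c0000001000080000000000000000000000000000000) (nat_lit 0x0) (nat_lit 0x200000000000000004000200000000000000000000000000000000000) := D_32 (nat_lit 158) (nat_lit 141) (nat_lit 225) (nat_lit 5) (nat_lit 5) (nat_lit 8) (nat_lit 6) (nat_lit 4) (nat_lit 13) (by decide +kernel)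
theorem L86603 : W_32 (nat_lit 2) (nat_lit 0x3000100058002c0012001000080000000000000000000000000000000) (nat_lit 0x0) (nat_lit 0x8000400020000000000000000000000000000000000000000000000000000) := D_32 (nat_lit 226) (nat_lit 209) (nat_lit 243) (nat_lit 7) (nat_lit 4) (nat_lit 9) (nat_lit 7) (nat_lit 4) (nat_lit 10) (by decide +kernel)
theorem L86604 : W_32 (nat_lit 3) (nat_lit 0x3000100058002c0010001000080000000000000000000000000000000) (nat_lit 0x0) (nat_lit 0x8000400028000000000002000000000000000000000000000000000000000) := T_32 (nat_lit 157) (nat_lit 207) (nat_lit 5) (nat_lit 4) (nat_lit 9) L86603 (by decide +kernel)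
theorem L86605 : W_32 (nat_lit 4) (nat_lit 0x2000100058002c0010001000080000000000000000000000000000000) (nat_lit 0x0) (nat_lit 0xa000500028000000000002000000000000000000000000000000000000000) := T_32 (nat_lit 224) (nat_lit 241) (nat_lit 5) (nat_lit 4) (nat_lit 10) L86604 (by decide +kernel)
theorem L86606 : W_32 (nat_lit 5) (nat_lit 0x100058002c0010001000080000000000000000000000000000000) (nat_lit 0x0) (nat_lit 0xe000700028000000000002000000000000000000000000000000000000000) := T_32 (nat_lit 225) (nat_lit 242) (nat_lit 6) (nat_lit 4) (nat_lit 14) L86605 (by decide +kernel)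
theorem L86607 : W_32 (nat_lit 6) (nat_lit 0x100058002c0000001000080000000000000000000000000000000) (nat_lit 0x0) (nat_lit 0xe000700028000000000012000800000000000000000000000000000000000) := T_32 (nat_lit 160) (nat_lit 143) (nat_lit 6) (nat_lit 7) (nat_lit 11) L86606 (by decide +kernel)
theorem L86608 : W_32 (nat_lit 2) (nat_lit 0x100058002c0000001e00088000000000000000000000000000000) (nat_lit 0x0) (nat_lit 0x2000100004000000000000000000000000000000) := D_32 (nat_lit 140) (nat_lit 122) (nat_lit 157) (nat_lit 0) (nat_lit 7) (nat_lit 8) (nat_lit 7) (nat_lit 4) (nat_lit 7) (by decide +kernel)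
theorem L86609 : W_32 (nat_lit 3) (nat_lit 0x100058002c0000001e00080000000000000000000000000000000) (nat_lit 0x0) (nat_lit 0x200010001c000000000000000000000000000000) := T_32 (nat_lit 123) (nat_lit 124) (nat_lit 0) (nat_lit 8) (nat_lit 8) L86608 (by decide +kernel)
theorem L86610 : W_32 (nat_lit 4) (nat_lit 0x100058002c0000001a00080000000000000000000000000000000) (nat_lit 0x0) (nat_lit 0x200050011c000000000000000000000000000000) := T_32 (nat_lit 142) (nat_lit 128) (nat_lit 2) (nat_lit 5) (nat_lit 8) L86609 (by decide +kernel)
theorem L86611 : W_32 (nat_lit 5) (nat_lit 0x100058002c0000001200080000000000000000000000000000000) (nat_lit 0x0) (nat_lit 0x12000d0011c000000000000000000000000000000) := T_32 (nat_lit 143) (nat_lit 160) (nat_lit 6) (nat_lit 7) (nat_lit 11) L86610 (by decide +kernel)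
theorem L86612 : W_32 (nat_lit 6) (nat_lit 0x100058002c0000001000080000000000000000000000000000000) (nat_lit 0x0) (nat_lit 0x16000f0011c000000000000000000000000000000) := T_32 (nat_lit 141) (nat_lit 158) (nat_lit 5) (nat_lit 5) (nat_lit 8) L86611 (by decide +kernel)
theorem L86613 : W_32 (nat_lit 7) (nat_lit 0x58002c0000001000080000000000000000000000000000000) (nat_lit 0x0) (nat_lit 0xe000700038000000000016000f0011c000000000000000000000000000000) := Q_32 (nat_lit 208) (C_32 L86602 (C_32 L86607 (C_32 L86612 N_32))) (by decide +kernel)
theorem L86614 : W_32 (nat_lit 3) (nat_lit 0x58003c0010001000080000000000000000000000000000000) (nat_lit 0x0) (nat_lit 0x20000000000003000100008000000000000000000000000000000) := T_32 (nat_lit 157) (nat_lit 156) (nat_lit 0) (nat_lit 7) (nat_lit 10) L86302 (by decide +kernel)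
theorem L86615 : W_32 (nat_lit 4) (nat_lit 0x58002c0010001000080000000000000000000000000000000) (nat_lit 0x0) (nat_lit 0x20000400100003000100008000000000000000000000000000000) := T_32 (nat_lit 176) (nat_lit 190) (nat_lit 1) (nat_lit 7) (nat_lit 10) L86614 (by decide +kernel)
theorem L86616 : W_32 (nat_lit 5) (nat_lit 0x58002c0000001000080000000000000000000000000000000) (nat_lit 0x0) (nat_lit 0x20000400100013000900008000000000000000000000000000000) := T_32 (nat_lit 160) (nat_lit 143) (nat_lit 6) (nat_lit 7) (nat_lit 11) L86615 (by decide +kernel)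
theorem L86617 : W_32 (nat_lit 2) (nat_lit 0x1000100058003e8012001300080000000000000000000000000000000) (nat_lit 0x0) (nat_lit 0x6000200000000000000000000000000000000000000000000000000000000) := D_32 (nat_lit 225) (nat_lit 242) (nat_lit 241) (nat_lit 6) (nat_lit 4) (nat_lit 14) (nat_lit 5) (nat_lit 4) (nat_lit 10) (by decide +kernel)
theorem L86618 : W_32 (nat_lit 3) (nat_lit 0x100058003e8012001300080000000000000000000000000000000) (nat_lit 0x0) (nat_lit 0x6000300008000000000000000000000000000000000000000000000000000) := T_32 (nat_lit 224) (nat_lit 207) (nat_lit 5) (nat_lit 4) (nat_lit 9) L86617 (by decide +kernel)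
theorem L86619 : W_32 (nat_lit 4) (nat_lit 0x58003e8012001300080000000000000000000000000000000) (nat_lit 0x0) (nat_lit 0x6000300018000000000004000000000000000000000000000000000000000) := T_32 (nat_lit 208) (nat_lit 158) (nat_lit 6) (nat_lit 4) (nat_lit 12) L86618 (by decide +kernel)
theorem L86620 : W_32 (nat_lit 5) (nat_lit 0x58003e8012001100080000000000000000000000000000000) (nat_lit 0x0) (nat_lit 0x6000300018000000000004000200010000000000000000000000000000000) := T_32 (nat_lit 141) (nat_lit 124) (nat_lit 6) (nat_lit 4) (nat_lit 11) L86619 (by decide +kernel)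
theorem L86621 : W_32 (nat_lit 6) (nat_lit 0x58003e8012001000080000000000000000000000000000000) (nat_lit 0x0) (nat_lit 0x6000300018000000000004000300018000000000000000000000000000000) := T_32 (nat_lit 140) (nat_lit 123) (nat_lit 7) (nat_lit 4) (nat_lit 7) L86620 (by decide +kernel)
theorem L86622 : W_32 (nat_lit 7) (nat_lit 0x58003e0012001000080000000000000000000000000000000) (nat_lit 0x0) (nat_lit 0x6000300018000000018004000300018000000000000000000000000000000) := T_32 (nat_lit 171) (nat_lit 172) (nat_lit 3) (nat_lit 1) (nat_lit 10) L86621 (by decide +kernel)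
theorem L86623 : W_32 (nat_lit 8) (nat_lit 0x58003c0012001000080000000000000000000000000000000) (nat_lit 0x0) (nat_lit 0x600030001800000003800c000300018000000000000000000000000000000) := T_32 (nat_lit 173) (nat_lit 159) (nat_lit 2) (nat_lit 3) (nat_lit 10) L86622 (by decide +kernel)
theorem L86624 : W_32 (nat_lit 9) (nat_lit 0x58003c0002001000080000000000000000000000000000000) (nat_lit 0x0) (nat_lit 0x600030001800000003801c000b00018000000000000000000000000000000) := T_32 (nat_lit 160) (nat_lit 143) (nat_lit 6) (nat_lit 7) (nat_lit 11) L86623 (by decide +kernel)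
theorem L86625 : W_32 (nat_lit 10) (nat_lit 0x58003c0000001000080000000000000000000000000000000) (nat_lit 0x0) (nat_lit 0x600030001800000003801f000b00018000000000000000000000000000000) := T_32 (nat_lit 157) (nat_lit 156) (nat_lit 0) (nat_lit 7) (nat_lit 10) L86624 (by decide +kernel)
theorem L86626 : W_32 (nat_lit 11) (nat_lit 0x58002c0000001000080000000000000000000000000000000) (nat_lit 0x0) (nat_lit 0x600030001800040013801f000b00018000000000000000000000000000000) := T_32 (nat_lit 176) (nat_lit 190) (nat_lit 1) (nat_lit 7) (nat_lit 10) L86625 (by decide +kernel)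
theorem L86627 : W_32 (nat_lit 2) (nat_lit 0x58003e0010801000080000000000000000000000000000000) (nat_lit 0x0) (nat_lit 0x18000400000000000000000000000000000000000000) := D_32 (nat_lit 172) (nat_lit 171) (nat_lit 154) (nat_lit 3) (nat_lit 1) (nat_lit 10) (nat_lit 0) (nat_lit 5) (nat_lit 10) (by decide +kernel)
theorem L86628 : W_32 (nat_lit 3) (nat_lit 0x58003e0010001000080000000000000000000000000000000) (nat_lit 0x0) (nat_lit 0x18001c00000000000000000000000000000000000000) := T_32 (nat_lit 155) (nat_lit 156) (nat_lit 0) (nat_lit 6) (nat_lit 10) L86627 (by decide +kernel)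
theorem L86629 : W_32 (nat_lit 4) (nat_lit 0x58003c0010001000080000000000000000000000000000000) (nat_lit 0x0) (nat_lit 0x38009c00000000000000000000000000000000000000) := T_32 (nat_lit 173) (nat_lit 159) (nat_lit 2) (nat_lit 3) (nat_lit 10) L86628 (by decide +kernel)
theorem L86630 : W_32 (nat_lit 5) (nat_lit 0x58003c0000001000080000000000000000000000000000000) (nat_lit 0x0) (nat_lit 0x38019c00800000000000000000000000000000000000) := T_32 (nat_lit 160) (nat_lit 143) (nat_lit 6) (nat_lit 7) (nat_lit 11) L86629 (by decide +kernel)
theorem L86631 : W_32 (nat_lit 6) (nat_lit 0x58002c0000001000080000000000000000000000000000000) (nat_lit 0x0) (nat_lit 0x400138019c00800000000000000000000000000000000000) := T_32 (nat_lit 176) (nat_lit 190) (nat_lit 1) (nat_lit 7) (nat_lit 10) L86630 (by decide +kernel)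
theorem L86632 : W_32 (nat_lit 12) (nat_lit 0x5800280000001000080000000000000000000000000000000) (nat_lit 0x0) (nat_lit 0xe00070003800040017801fc00f0011c000000000000000000000000000000) := Q_32 (nat_lit 174) (C_32 L86613 (C_32 L86616 (C_32 L7167 (C_32 L86626 (C_32 L86631 N_32))))) (by decide +kernel)
theorem L86633 : W_32 (nat_lit 2) (nat_lit 0x5800380000001000080000000000000000000000000000000) (nat_lit 0x0) (nat_lit 0x600040000000000000000000000000000000000000000000) := D_32 (nat_lit 190) (nat_lit 174) (nat_lit 189) (nat_lit 1) (nat_lit 7) (nat_lit 10) (nat_lit 2) (nat_lit 2) (nat_lit 11) (by decide +kernel)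
theorem L86634 : W_32 (nat_lit 3) (nat_lit 0x5800280000001000080000000000000000000000000000000) (nat_lit 0x0) (nat_lit 0x600540000000000000000000000000000000000000000000) := T_32 (nat_lit 176) (nat_lit 178) (nat_lit 1) (nat_lit 8) (nat_lit 10) L86633 (by decide +kernel)
theorem L86635 : W_32 (nat_lit 12) (nat_lit 0x5800280000001000080000000000000000000000000000000) (nat_lit 0x0) (nat_lit 0x1000060052001f800fc013c001c000e0001000000000000000000) := T_32 (nat_lit 176) (nat_lit 178) (nat_lit 1) (nat_lit 8) (nat_lit 10) L86219 (by decide +kernel)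
theorem L86636 : W_32 (nat_lit 7) (nat_lit 0x5800680004001000080000000000000000000000000000000) (nat_lit 0x0) (nat_lit 0x14000e0007000000000001a000900000000000000000000000000000000000) := T_32 (nat_lit 160) (nat_lit 143) (nat_lit 6) (nat_lit 7) (nat_lit 11) L86471 (by decide +kernel)
theorem L86637 : W_32 (nat_lit 8) (nat_lit 0x5800280004001000080000000000000000000000000000000) (nat_lit 0x0) (nat_lit 0x14000e0007000000050001a000900000000000000000000000000000000000) := T_32 (nat_lit 178) (nat_lit 176) (nat_lit 1) (nat_lit 8) (nat_lit 10) L86636 (by decide +kernel)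
theorem L86638 : W_32 (nat_lit 9) (nat_lit 0x5800280000001000080000000000000000000000000000000) (nat_lit 0x0) (nat_lit 0x14000e0007000000054001e000f00138001400000000000000000000000000) := Q_32 (nat_lit 158) (C_32 L86600 (C_32 L86557 (C_32 L86561 (C_32 L86637 (C_32 L86598 N_32))))) (by decide +kernel)
theorem L86639 : W_32 (nat_lit 13) (nat_lit 0x5800200000001000080000000000000000000000000000000) (nat_lit 0x0) (nat_lit 0x10001e003f0007c0006005f801fc00fc013c001c000e0001000000000000000000) := Q_32 (nat_lit 175) (C_32 L86550 (C_32 L86601 (C_32 L86632 (C_32 L86634 (C_32 L86635 (C_32 L86638 N_32)))))) (by decide +kernel)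
theorem L86640 : W_32 (nat_lit 4) (nat_lit 0x5800200010001000080000000000000000000000000000000) (nat_lit 0x0) (nat_lit 0x1c002400500000000000000000000000000000000000000000000) := T_32 (nat_lit 193) (nat_lit 178) (nat_lit 2) (nat_lit 4) (nat_lit 11) L10027 (by decide +kernel)
theorem L86641 : W_32 (nat_lit 5) (nat_lit 0x5800200000001000080000000000000000000000000000000) (nat_lit 0x0) (nat_lit 0x1c002400500010000800000000000000000000000000000000000) := T_32 (nat_lit 160) (nat_lit 143) (nat_lit 6) (nat_lit 7) (nat_lit 11) L86640 (by decide +kernel)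
theorem L86642 : W_32 (nat_lit 13) (nat_lit 0x5800200000001000080000000000000000000000000000000) (nat_lit 0x0) (nat_lit 0x1e000f800780020005e001f000f8011c000000000000000000000000000000) := T_32 (nat_lit 193) (nat_lit 178) (nat_lit 2) (nat_lit 4) (nat_lit 11) L84989 (by decide +kernel)
theorem L86643 : W_32 (nat_lit 14) (nat_lit 0x5000200000001000080000000000000000000000000000000) (nat_lit 0x0) (nat_lit 0x10001e003f8007c002e005f801fc00fc013c001c000e0001000000000000000000) := Q_32 (nat_lit 191) (C_32 L25273 (C_32 L86546 (C_32 L86547 (C_32 L86639 (C_32 L86641 (C_32 L86642 N_32)))))) (by decide +kernel)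
theorem L86644 : W_32 (nat_lit 5) (nat_lit 0x5000380000001000080000000000000000000000000000000) (nat_lit 0x0) (nat_lit 0x20008000440007000100008000000000000000000000000000000) := T_32 (nat_lit 174) (nat_lit 195) (nat_lit 3) (nat_lit 4) (nat_lit 10) L7719 (by decide +kernel)
theorem L86645 : W_32 (nat_lit 2) (nat_lit 0x400000005000380008001f00088000000000000000000000000000000) (nat_lit 0x0) (nat_lit 0x40003000000000000000000000000000000000000000) := D_32 (nat_lit 157) (nat_lit 156) (nat_lit 174) (nat_lit 1) (nat_lit 7) (nat_lit 8) (nat_lit 7) (nat_lit 4) (nat_lit 7) (by decide +kernel)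
theorem L86646 : W_32 (nat_lit 3) (nat_lit 0x400000005000380008001e00088000000000000000000000000000000) (nat_lit 0x0) (nat_lit 0x40003000100004000000000000000000000000000000) := T_32 (nat_lit 140) (nat_lit 122) (nat_lit 0) (nat_lit 7) (nat_lit 8) L86645 (by decide +kernel)
theorem L86647 : W_32 (nat_lit 4) (nat_lit 0x400000005000380008001e00080000000000000000000000000000000) (nat_lit 0x0) (nat_lit 0x4000300010001c000000000000000000000000000000) := T_32 (nat_lit 123) (nat_lit 124) (nat_lit 0) (nat_lit 8) (nat_lit 8) L86646 (by decide +kernel)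
theorem L86648 : W_32 (nat_lit 5) (nat_lit 0x400000005000380008001c00080000000000000000000000000000000) (nat_lit 0x0) (nat_lit 0x4000300030011c000000000000000000000000000000) := T_32 (nat_lit 141) (nat_lit 128) (nat_lit 2) (nat_lit 5) (nat_lit 8) L86647 (by decide +kernel)
theorem L86649 : W_32 (nat_lit 6) (nat_lit 0x5000380008001c00080000000000000000000000000000000) (nat_lit 0x0) (nat_lit 0x40002000000004000300030011c000000000000000000000000000000) := T_32 (nat_lit 226) (nat_lit 209) (nat_lit 6) (nat_lit 5) (nat_lit 13) L86648 (by decide +kernel)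
theorem L86650 : W_32 (nat_lit 7) (nat_lit 0x5000380008001800080000000000000000000000000000000) (nat_lit 0x0) (nat_lit 0x40002000000004000300070013c000000000000000000000000000000) := T_32 (nat_lit 142) (nat_lit 125) (nat_lit 7) (nat_lit 6) (nat_lit 7) L86649 (by decide +kernel)
theorem L86651 : W_32 (nat_lit 8) (nat_lit 0x5000380008001000080000000000000000000000000000000) (nat_lit 0x0) (nat_lit 0x400020000000040013000f0013c000000000000000000000000000000) := T_32 (nat_lit 143) (nat_lit 160) (nat_lit 6) (nat_lit 7) (nat_lit 11) L86650 (by decide +kernel)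
theorem L86652 : W_32 (nat_lit 2) (nat_lit 0x4000000050003c001e001000080000000000000000000000000000000) (nat_lit 0x0) (nat_lit 0x180008000000000000000000000000000000) := D_32 (nat_lit 140) (nat_lit 139) (nat_lit 123) (nat_lit 0) (nat_lit 7) (nat_lit 9) (nat_lit 7) (nat_lit 4) (nat_lit 7) (by decide +kernel)
theorem L86653 : W_32 (nat_lit 3) (nat_lit 0x4000000050003c001a001000080000000000000000000000000000000) (nat_lit 0x0) (nat_lit 0x400004000180008000000000000000000000000000000) := T_32 (nat_lit 158) (nat_lit 178) (nat_lit 3) (nat_lit 4) (nat_lit 9) L86652 (by decide +kernel)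
theorem L86654 : W_32 (nat_lit 4) (nat_lit 0x4000000050003c0018001000080000000000000000000000000000000) (nat_lit 0x0) (nat_lit 0x400007000180008000000000000000000000000000000) := T_32 (nat_lit 157) (nat_lit 156) (nat_lit 0) (nat_lit 7) (nat_lit 10) L86653 (by decide +kernel)
theorem L86655 : W_32 (nat_lit 5) (nat_lit 0x400000005000380018001000080000000000000000000000000000000) (nat_lit 0x0) (nat_lit 0x460007000180008000000000000000000000000000000) := T_32 (nat_lit 174) (nat_lit 173) (nat_lit 2) (nat_lit 3) (nat_lit 10) L86654 (by decide +kernel)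
theorem L86656 : W_32 (nat_lit 6) (nat_lit 0x400000005000380008001000080000000000000000000000000000000) (nat_lit 0x0) (nat_lit 0x460017000980008000000000000000000000000000000) := T_32 (nat_lit 160) (nat_lit 143) (nat_lit 6) (nat_lit 7) (nat_lit 11) L86655 (by decide +kernel)
theorem L86657 : W_32 (nat_lit 7) (nat_lit 0x5000380008001000080000000000000000000000000000000) (nat_lit 0x0) (nat_lit 0x400020000000460017000980008000000000000000000000000000000) := T_32 (nat_lit 226) (nat_lit 209) (nat_lit 6) (nat_lit 5) (nat_lit 13) L86656 (by decide +kernel)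
theorem L86658 : W_32 (nat_lit 2) (nat_lit 0x50003c001e0010000a0000000000000000000000000000000) (nat_lit 0x0) (nat_lit 0x180008000000000000000000000000000000) := D_32 (nat_lit 140) (nat_lit 139) (nat_lit 123) (nat_lit 0) (nat_lit 7) (nat_lit 9) (nat_lit 7) (nat_lit 4) (nat_lit 7) (by decide +kernel)
theorem L86659 : W_32 (nat_lit 3) (nat_lit 0x50003c001a0010000a0000000000000000000000000000000) (nat_lit 0x0) (nat_lit 0x400004000180008000000000000000000000000000000) := T_32 (nat_lit 158) (nat_lit 178) (nat_lit 3) (nat_lit 4) (nat_lit 9) L86658 (by decide +kernel)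
theorem L86660 : W_32 (nat_lit 4) (nat_lit 0x50003c00180010000a0000000000000000000000000000000) (nat_lit 0x0) (nat_lit 0x400007000180008000000000000000000000000000000) := T_32 (nat_lit 157) (nat_lit 156) (nat_lit 0) (nat_lit 7) (nat_lit 10) L86659 (by decide +kernel)
theorem L86661 : W_32 (nat_lit 5) (nat_lit 0x50003c0018001000080000000000000000000000000000000) (nat_lit 0x0) (nat_lit 0x400007000580028000000000000000000000000000000) := T_32 (nat_lit 125) (nat_lit 142) (nat_lit 7) (nat_lit 6) (nat_lit 7) L86660 (by decide +kernel)
theorem L86662 : W_32 (nat_lit 6) (nat_lit 0x5000380018001000080000000000000000000000000000000) (nat_lit 0x0) (nat_lit 0x460007000580028000000000000000000000000000000) := T_32 (nat_lit 174) (nat_lit 173) (nat_lit 2) (nat_lit 3) (nat_lit 10) L86661 (by decide +kernel)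
theorem L86663 : W_32 (nat_lit 7) (nat_lit 0x5000380008001000080000000000000000000000000000000) (nat_lit 0x0) (nat_lit 0x460017000d80028000000000000000000000000000000) := T_32 (nat_lit 160) (nat_lit 143) (nat_lit 6) (nat_lit 7) (nat_lit 11) L86662 (by decide +kernel)
theorem L86664 : W_32 (nat_lit 9) (nat_lit 0x5000380000001000080000000000000000000000000000000) (nat_lit 0x0) (nat_lit 0x40002000000046001f000f8013c000000000000000000000000000000) := Q_32 (nat_lit 159) (C_32 L86651 (C_32 L84190 (C_32 L86657 (C_32 L86663 N_32)))) (by decide +kernel)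
theorem L86665 : W_32 (nat_lit 6) (nat_lit 0x5000380004001000080000000000000000000000000000000) (nat_lit 0x0) (nat_lit 0x40002000000000001b000f80028000400000000000000000000000000) := Q_32 (nat_lit 159) (C_32 L86186 (C_32 L82905 (C_32 L82903 N_32))) (by decide +kernel)
theorem L86666 : W_32 (nat_lit 2) (nat_lit 0xa00020005000380016801000080000000000000000000000000000000) (nat_lit 0x0) (nat_lit 0x14000400000000000000000000000000000000000000000000000000000000) := D_32 (nat_lit 226) (nat_lit 242) (nat_lit 244) (nat_lit 5) (nat_lit 5) (nat_lit 10) (nat_lit 7) (nat_lit 5) (nat_lit 10) (by decide +kernel)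
theorem L86667 : W_32 (nat_lit 3) (nat_lit 0x200020005000380016801000080000000000000000000000000000000) (nat_lit 0x0) (nat_lit 0x14000c00040000000000000000000000000000000000000000000000000000) := T_32 (nat_lit 227) (nat_lit 210) (nat_lit 7) (nat_lit 5) (nat_lit 9) L86666 (by decide +kernel)
theorem L86668 : W_32 (nat_lit 4) (nat_lit 0x20005000380016801000080000000000000000000000000000000) (nat_lit 0x0) (nat_lit 0x14000e00050000000000000000000000000000000000000000000000000000) := T_32 (nat_lit 225) (nat_lit 208) (nat_lit 5) (nat_lit 5) (nat_lit 9) L86667 (by decide +kernel)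
theorem L86669 : W_32 (nat_lit 5) (nat_lit 0x5000380016801000080000000000000000000000000000000) (nat_lit 0x0) (nat_lit 0x14000e00070000000000000000100000000000000000000000000000000000) := T_32 (nat_lit 209) (nat_lit 140) (nat_lit 4) (nat_lit 5) (nat_lit 12) L86668 (by decide +kernel)
theorem L86670 : W_32 (nat_lit 6) (nat_lit 0x5000380016001000080000000000000000000000000000000) (nat_lit 0x0) (nat_lit 0x14000e00070000000000001800100000000000000000000000000000000000) := T_32 (nat_lit 155) (nat_lit 156) (nat_lit 3) (nat_lit 2) (nat_lit 9) L86669 (by decide +kernel)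
theorem L86671 : W_32 (nat_lit 7) (nat_lit 0x5000380014001000080000000000000000000000000000000) (nat_lit 0x0) (nat_lit 0x14000e00070000000400003800100000000000000000000000000000000000) := T_32 (nat_lit 157) (nat_lit 178) (nat_lit 0) (nat_lit 8) (nat_lit 10) L86670 (by decide +kernel)
theorem L86672 : W_32 (nat_lit 8) (nat_lit 0x5000380004001000080000000000000000000000000000000) (nat_lit 0x0) (nat_lit 0x14000e00070000000400013800900000000000000000000000000000000000) := T_32 (nat_lit 160) (nat_lit 143) (nat_lit 6) (nat_lit 7) (nat_lit 11) L86671 (by decide +kernel)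
theorem L86673 : W_32 (nat_lit 2) (nat_lit 0x5000380004001c00080000000000000000000000000000000) (nat_lit 0x0) (nat_lit 0x200120000000000000000000000000000000) := D_32 (nat_lit 141) (nat_lit 125) (nat_lit 128) (nat_lit 6) (nat_lit 5) (nat_lit 11) (nat_lit 2) (nat_lit 5) (nat_lit 8) (by decide +kernel)
theorem L86674 : W_32 (nat_lit 3) (nat_lit 0x5000380004001400080000000000000000000000000000000) (nat_lit 0x0) (nat_lit 0x10000a00120000000000000000000000000000000) := T_32 (nat_lit 143) (nat_lit 160) (nat_lit 6) (nat_lit 7) (nat_lit 11) L86673 (by decide +kernel)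
theorem L86675 : W_32 (nat_lit 7) (nat_lit 0x5000380004001000080000000000000000000000000000000) (nat_lit 0x0) (nat_lit 0x14000e00070000000000018000e00120000000000000000000000000000000) := Q_32 (nat_lit 142) (C_32 L86305 (C_32 L86307 (C_32 L86674 N_32))) (by decide +kernel)
theorem L86676 : W_32 (nat_lit 9) (nat_lit 0x5000380000001000080000000000000000000000000000000) (nat_lit 0x0) (nat_lit 0x14000e000700e8003c001df800f80128000400000000000000000000000000) := Q_32 (nat_lit 158) (C_32 L86304 (C_32 L86665 (C_32 L86672 (C_32 L86675 N_32)))) (by decide +kernel)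
theorem L86677 : W_32 (nat_lit 2) (nat_lit 0x52003e0010801000080000000000000000000000000000000) (nat_lit 0x0) (nat_lit 0x100010000400000000000000000000000000000000000000) := D_32 (nat_lit 172) (nat_lit 188) (nat_lit 154) (nat_lit 1) (nat_lit 5) (nat_lit 10) (nat_lit 0) (nat_lit 5) (nat_lit 10) (by decide +kernel)
theorem L86678 : W_32 (nat_lit 3) (nat_lit 0x52003e0010001000080000000000000000000000000000000) (nat_lit 0x0) (nat_lit 0x100010001c00000000000000000000000000000000000000) := T_32 (nat_lit 155) (nat_lit 156) (nat_lit 0) (nat_lit 6) (nat_lit 10) L86677 (by decide +kernel)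
theorem L86679 : W_32 (nat_lit 4) (nat_lit 0x50003e0010001000080000000000000000000000000000000) (nat_lit 0x0) (nat_lit 0x700010001c00000000000000000000000000000000000000) := T_32 (nat_lit 189) (nat_lit 190) (nat_lit 1) (nat_lit 6) (nat_lit 10) L86678 (by decide +kernel)
theorem L86680 : W_32 (nat_lit 5) (nat_lit 0x50003c0010001000080000000000000000000000000000000) (nat_lit 0x0) (nat_lit 0x700030009c00000000000000000000000000000000000000) := T_32 (nat_lit 173) (nat_lit 159) (nat_lit 2) (nat_lit 3) (nat_lit 10) L86679 (by decide +kernel)
theorem L86681 : W_32 (nat_lit 6) (nat_lit 0x5000380010001000080000000000000000000000000000000) (nat_lit 0x0) (nat_lit 0x8700070009c00000000000000000000000000000000000000) := T_32 (nat_lit 174) (nat_lit 195) (nat_lit 3) (nat_lit 4) (nat_lit 10) L86680 (by decide +kernel)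
theorem L86682 : W_32 (nat_lit 7) (nat_lit 0x5000380000001000080000000000000000000000000000000) (nat_lit 0x0) (nat_lit 0x8700070019c00800000000000000000000000000000000000) := T_32 (nat_lit 160) (nat_lit 143) (nat_lit 6) (nat_lit 7) (nat_lit 11) L86681 (by decide +kernel)
theorem L86683 : W_32 (nat_lit 2) (nat_lit 0x50003c0018001400080000000000000000000000000000000) (nat_lit 0x0) (nat_lit 0x400020000000000004000000000000000000000000000000000000000) := D_32 (nat_lit 209) (nat_lit 226) (nat_lit 158) (nat_lit 6) (nat_lit 5) (nat_lit 13) (nat_lit 6) (nat_lit 5) (nat_lit 12) (by decide +kernel)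
theorem L86684 : W_32 (nat_lit 3) (nat_lit 0x50003c0018001000080000000000000000000000000000000) (nat_lit 0x0) (nat_lit 0x400020000000000004000400020000000000000000000000000000000) := T_32 (nat_lit 142) (nat_lit 125) (nat_lit 7) (nat_lit 6) (nat_lit 7) L86683 (by decide +kernel)
theorem L86685 : W_32 (nat_lit 4) (nat_lit 0x50003c0010001000080000000000000000000000000000000) (nat_lit 0x0) (nat_lit 0x40002000000002000c000400020000000000000000000000000000000) := T_32 (nat_lit 159) (nat_lit 173) (nat_lit 2) (nat_lit 3) (nat_lit 10) L86684 (by decide +kernel)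
theorem L86686 : W_32 (nat_lit 5) (nat_lit 0x50003c0000001000080000000000000000000000000000000) (nat_lit 0x0) (nat_lit 0x40002000000002001c000c00020000000000000000000000000000000) := T_32 (nat_lit 160) (nat_lit 143) (nat_lit 6) (nat_lit 7) (nat_lit 11) L86685 (by decide +kernel)
theorem L86687 : W_32 (nat_lit 6) (nat_lit 0x5000380000001000080000000000000000000000000000000) (nat_lit 0x0) (nat_lit 0x40002000800006001c000c00020000000000000000000000000000000) := T_32 (nat_lit 174) (nat_lit 195) (nat_lit 3) (nat_lit 4) (nat_lit 10) L86686 (by decide +kernel)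
theorem L86688 : W_32 (nat_lit 10) (nat_lit 0x5000280000001000080000000000000000000000000000000) (nat_lit 0x0) (nat_lit 0x14000e000700e8703d701dfc00f8013c000400000000000000000000000000) := Q_32 (nat_lit 176) (C_32 L74721 (C_32 L86644 (C_32 L86664 (C_32 L86676 (C_32 L86682 (C_32 L86687 N_32)))))) (by decide +kernel)
theorem L86689 : W_32 (nat_lit 3) (nat_lit 0x5000380010001000080000000000000000000000000000000) (nat_lit 0x0) (nat_lit 0xe00440000000000000000000000000000000000000000000) := T_32 (nat_lit 191) (nat_lit 178) (nat_lit 1) (nat_lit 8) (nat_lit 10) L86548 (by decide +kernel)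
theorem L86690 : W_32 (nat_lit 4) (nat_lit 0x5000380000001000080000000000000000000000000000000) (nat_lit 0x0) (nat_lit 0xe00440010000800000000000000000000000000000000000) := T_32 (nat_lit 160) (nat_lit 143) (nat_lit 6) (nat_lit 7) (nat_lit 11) L86689 (by decide +kernel)
theorem L86691 : W_32 (nat_lit 6) (nat_lit 0x5000780000001000080000000000000000000000000000000) (nat_lit 0x0) (nat_lit 0x700018001ce000000000000000000000000000000000000000) := T_32 (nat_lit 158) (nat_lit 157) (nat_lit 0) (nat_lit 8) (nat_lit 10) L83520 (by decide +kernel)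
theorem L86692 : W_32 (nat_lit 7) (nat_lit 0x5000380000001000080000000000000000000000000000000) (nat_lit 0x0) (nat_lit 0x70801c001ce000000000000000000000000000000000000000) := T_32 (nat_lit 178) (nat_lit 191) (nat_lit 1) (nat_lit 8) (nat_lit 10) L86691 (by decide +kernel)
theorem L86693 : W_32 (nat_lit 10) (nat_lit 0x5000280000001000080000000000000000000000000000000) (nat_lit 0x0) (nat_lit 0x28001c000e00070070e01d601df800f8013c000000000000000000000000000000) := Q_32 (nat_lit 176) (C_32 L86690 (C_32 L86182 (C_32 L86692 (C_32 L86664 N_32)))) (by decide +kernel)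
theorem L86694 : W_32 (nat_lit 8) (nat_lit 0x5000280000001000080000000000000000000000000000000) (nat_lit 0x0) (nat_lit 0x400020078e01d601de000c00020000000000000000000000000000000) := Q_32 (nat_lit 176) (C_32 L86690 (C_32 L86692 (C_32 L86687 N_32))) (by decide +kernel)
theorem L86695 : W_32 (nat_lit 6) (nat_lit 0x50002c0010001000080000000000000000000000000000000) (nat_lit 0x0) (nat_lit 0x8700130009c00000000000000000000000000000000000000) := T_32 (nat_lit 176) (nat_lit 195) (nat_lit 3) (nat_lit 4) (nat_lit 10) L86680 (by decide +kernel)
theorem L86696 : W_32 (nat_lit 7) (nat_lit 0x50002c0000001000080000000000000000000000000000000) (nat_lit 0x0) (nat_lit 0x8700130019c00800000000000000000000000000000000000) := T_32 (nat_lit 160) (nat_lit 143) (nat_lit 6) (nat_lit 7) (nat_lit 11) L86695 (by decide +kernel)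
theorem L86697 : W_32 (nat_lit 2) (nat_lit 0x50002c0012001100080000000000000000000000000000000) (nat_lit 0x0) (nat_lit 0x400020000800000000000000000000000000000000000000000000000) := D_32 (nat_lit 209) (nat_lit 226) (nat_lit 191) (nat_lit 4) (nat_lit 5) (nat_lit 13) (nat_lit 7) (nat_lit 4) (nat_lit 8) (by decide +kernel)
theorem L86698 : W_32 (nat_lit 3) (nat_lit 0x50002c0012001000080000000000000000000000000000000) (nat_lit 0x0) (nat_lit 0x400020000800000000000100008000000000000000000000000000000) := T_32 (nat_lit 140) (nat_lit 123) (nat_lit 7) (nat_lit 4) (nat_lit 7) L86697 (by decide +kernel)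
theorem L86699 : W_32 (nat_lit 4) (nat_lit 0x50002c0002001000080000000000000000000000000000000) (nat_lit 0x0) (nat_lit 0x400020000800000010000900008000000000000000000000000000000) := T_32 (nat_lit 160) (nat_lit 143) (nat_lit 6) (nat_lit 7) (nat_lit 11) L86698 (by decide +kernel)
theorem L86700 : W_32 (nat_lit 2) (nat_lit 0x200050002c0002001000080000000000000000000000000000000) (nat_lit 0x0) (nat_lit 0x4000100008000000000000000000000000000000) := D_32 (nat_lit 140) (nat_lit 123) (nat_lit 158) (nat_lit 7) (nat_lit 4) (nat_lit 7) (nat_lit 4) (nat_lit 5) (nat_lit 12) (by decide +kernel)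
theorem L86701 : W_32 (nat_lit 3) (nat_lit 0x50002c0002001000080000000000000000000000000000000) (nat_lit 0x0) (nat_lit 0x400020000000000004000100008000000000000000000000000000000) := T_32 (nat_lit 209) (nat_lit 226) (nat_lit 4) (nat_lit 5) (nat_lit 13) L86700 (by decide +kernel)
theorem L86702 : W_32 (nat_lit 2) (nat_lit 0x50002c0002001a00088000000000000000000000000000000) (nat_lit 0x0) (nat_lit 0x400110000000000000000000000000000000) := D_32 (nat_lit 142) (nat_lit 128) (nat_lit 124) (nat_lit 2) (nat_lit 5) (nat_lit 8) (nat_lit 0) (nat_lit 8) (nat_lit 8) (by decide +kernel)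
theorem L86703 : W_32 (nat_lit 3) (nat_lit 0x50002c0002001200088000000000000000000000000000000) (nat_lit 0x0) (nat_lit 0x10000c00110000000000000000000000000000000) := T_32 (nat_lit 143) (nat_lit 160) (nat_lit 6) (nat_lit 7) (nat_lit 11) L86702 (by decide +kernel)
theorem L86704 : W_32 (nat_lit 4) (nat_lit 0x50002c0002001200080000000000000000000000000000000) (nat_lit 0x0) (nat_lit 0x10000d00118000000000000000000000000000000) := T_32 (nat_lit 123) (nat_lit 140) (nat_lit 7) (nat_lit 4) (nat_lit 7) L86703 (by decide +kernel)
theorem L86705 : W_32 (nat_lit 2) (nat_lit 0x58002c0016001300080000000000000000000000000000000) (nat_lit 0x0) (nat_lit 0x20008000080000000000000000000000000000000000) := D_32 (nat_lit 159) (nat_lit 173) (nat_lit 139) (nat_lit 1) (nat_lit 7) (nat_lit 9) (nat_lit 0) (nat_lit 7) (nat_lit 9) (by decide +kernel)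
theorem L86706 : W_32 (nat_lit 3) (nat_lit 0x58002c0012001300080000000000000000000000000000000) (nat_lit 0x0) (nat_lit 0x1000000002000c000080000000000000000000000000000000000) := T_32 (nat_lit 158) (nat_lit 208) (nat_lit 6) (nat_lit 4) (nat_lit 12) L86705 (by decide +kernel)
theorem L86707 : W_32 (nat_lit 4) (nat_lit 0x50002c0012001300080000000000000000000000000000000) (nat_lit 0x0) (nat_lit 0x1000080002000c000080010000000000000000000000000000000) := T_32 (nat_lit 191) (nat_lit 124) (nat_lit 6) (nat_lit 4) (nat_lit 11) L86706 (by decide +kernel)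
theorem L86708 : W_32 (nat_lit 5) (nat_lit 0x50002c0012001200080000000000000000000000000000000) (nat_lit 0x0) (nat_lit 0x1000080002000c000180018000000000000000000000000000000) := T_32 (nat_lit 140) (nat_lit 123) (nat_lit 7) (nat_lit 4) (nat_lit 7) L86707 (by decide +kernel)
theorem L86709 : W_32 (nat_lit 6) (nat_lit 0x50002c0002001200080000000000000000000000000000000) (nat_lit 0x0) (nat_lit 0x1000080002001c000980018000000000000000000000000000000) := T_32 (nat_lit 160) (nat_lit 143) (nat_lit 6) (nat_lit 7) (nat_lit 11) L86708 (by decide +kernel)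
theorem L86710 : W_32 (nat_lit 2) (nat_lit 0x5d002c0006801780080000000000000000000000000000000) (nat_lit 0x0) (nat_lit 0x18000040000000000000000000000000000000000) := D_32 (nat_lit 159) (nat_lit 160) (nat_lit 138) (nat_lit 3) (nat_lit 3) (nat_lit 8) (nat_lit 3) (nat_lit 2) (nat_lit 8) (by decide +kernel)
theorem L86711 : W_32 (nat_lit 3) (nat_lit 0x5d002c0006801700080000000000000000000000000000000) (nat_lit 0x0) (nat_lit 0x180000c0004000000000000000000000000000000) := T_32 (nat_lit 139) (nat_lit 122) (nat_lit 4) (nat_lit 4) (nat_lit 11) L86710 (by decide +kernel)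
theorem L86712 : W_32 (nat_lit 4) (nat_lit 0x5d002c0006001700080000000000000000000000000000000) (nat_lit 0x0) (nat_lit 0x198000c0004000000000000000000000000000000) := T_32 (nat_lit 155) (nat_lit 156) (nat_lit 2) (nat_lit 2) (nat_lit 9) L86711 (by decide +kernel)
theorem L86713 : W_32 (nat_lit 5) (nat_lit 0x5d002c0006001300080000000000000000000000000000000) (nat_lit 0x0) (nat_lit 0x198004c0024000000000000000000000000000000) := T_32 (nat_lit 142) (nat_lit 125) (nat_lit 6) (nat_lit 5) (nat_lit 11) L86712 (by decide +kernel)
theorem L86714 : W_32 (nat_lit 6) (nat_lit 0x5c002c0006001300080000000000000000000000000000000) (nat_lit 0x0) (nat_lit 0x3000000198004c0024000000000000000000000000000000) := T_32 (nat_lit 188) (nat_lit 189) (nat_lit 2) (nat_lit 1) (nat_lit 11) L86713 (by decide +kernel)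
theorem L86715 : W_32 (nat_lit 7) (nat_lit 0x58002c0006001300080000000000000000000000000000000) (nat_lit 0x0) (nat_lit 0x80007000000198004c0024000000000000000000000000000000) := T_32 (nat_lit 190) (nat_lit 207) (nat_lit 5) (nat_lit 4) (nat_lit 8) L86714 (by decide +kernel)
theorem L86716 : W_32 (nat_lit 8) (nat_lit 0x58002c0002001300080000000000000000000000000000000) (nat_lit 0x0) (nat_lit 0x1800070000001d8004c0024000000000000000000000000000000) := T_32 (nat_lit 158) (nat_lit 208) (nat_lit 6) (nat_lit 4) (nat_lit 12) L86715 (by decide +kernel)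
theorem L86717 : W_32 (nat_lit 9) (nat_lit 0x50002c0002001300080000000000000000000000000000000) (nat_lit 0x0) (nat_lit 0x18000f0000001d8004c0034000000000000000000000000000000) := T_32 (nat_lit 191) (nat_lit 124) (nat_lit 6) (nat_lit 4) (nat_lit 11) L86716 (by decide +kernel)
theorem L86718 : W_32 (nat_lit 10) (nat_lit 0x50002c0002001200080000000000000000000000000000000) (nat_lit 0x0) (nat_lit 0x18000f0000001d8005c003c000000000000000000000000000000) := T_32 (nat_lit 140) (nat_lit 123) (nat_lit 7) (nat_lit 4) (nat_lit 7) L86717 (by decide +kernel)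
theorem L86719 : W_32 (nat_lit 2) (nat_lit 0x58002c0006001300080000000000000000000000000000000) (nat_lit 0x0) (nat_lit 0xc00020000000000000000000000000000000) := D_32 (nat_lit 142) (nat_lit 143) (nat_lit 125) (nat_lit 1) (nat_lit 8) (nat_lit 8) (nat_lit 6) (nat_lit 5) (nat_lit 11) (by decide +kernel)
theorem L86720 : W_32 (nat_lit 3) (nat_lit 0x58002c0002001300080000000000000000000000000000000) (nat_lit 0x0) (nat_lit 0x10000000000004000c00020000000000000000000000000000000) := T_32 (nat_lit 158) (nat_lit 208) (nat_lit 6) (nat_lit 4) (nat_lit 12) L86719 (by decide +kernel)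
theorem L86721 : W_32 (nat_lit 4) (nat_lit 0x50002c0002001300080000000000000000000000000000000) (nat_lit 0x0) (nat_lit 0x10000800000004000c00030000000000000000000000000000000) := T_32 (nat_lit 191) (nat_lit 124) (nat_lit 6) (nat_lit 4) (nat_lit 11) L86720 (by decide +kernel)
theorem L86722 : W_32 (nat_lit 5) (nat_lit 0x50002c0002001200080000000000000000000000000000000) (nat_lit 0x0) (nat_lit 0x10000800000004000d00038000000000000000000000000000000) := T_32 (nat_lit 140) (nat_lit 123) (nat_lit 7) (nat_lit 4) (nat_lit 7) L86721 (by decide +kernel)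
theorem L86723 : W_32 (nat_lit 2) (nat_lit 0x50002c0002001a00080000000000000000000000000000000) (nat_lit 0x0) (nat_lit 0x4000400100000000000000000000000000000000) := D_32 (nat_lit 142) (nat_lit 128) (nat_lit 158) (nat_lit 2) (nat_lit 5) (nat_lit 8) (nat_lit 1) (nat_lit 8) (nat_lit 8) (by decide +kernel)
theorem L86724 : W_32 (nat_lit 3) (nat_lit 0x50002c0002001200080000000000000000000000000000000) (nat_lit 0x0) (nat_lit 0x14000c00100000000000000000000000000000000) := T_32 (nat_lit 143) (nat_lit 160) (nat_lit 6) (nat_lit 7) (nat_lit 11) L86723 (by decide +kernel)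
theorem L86725 : W_32 (nat_lit 11) (nat_lit 0x50002c0002001000080000000000000000000000000000000) (nat_lit 0x0) (nat_lit 0x18000f0002001d800fc013c000000000000000000000000000000) := Q_32 (nat_lit 141) (C_32 L86704 (C_32 L86709 (C_32 L86718 (C_32 L86722 (C_32 L86724 N_32))))) (by decide +kernel)
theorem L86726 : W_32 (nat_lit 2) (nat_lit 0x200050002c0012001000080000000000000000000000000000000) (nat_lit 0x0) (nat_lit 0x800000004000100000000000000000000000000000000000) := D_32 (nat_lit 140) (nat_lit 158) (nat_lit 191) (nat_lit 4) (nat_lit 5) (nat_lit 12) (nat_lit 7) (nat_lit 4) (nat_lit 8) (by decide +kernel)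
theorem L86727 : W_32 (nat_lit 3) (nat_lit 0x50002c0012001000080000000000000000000000000000000) (nat_lit 0x0) (nat_lit 0x400020000800000004000100000000000000000000000000000000000) := T_32 (nat_lit 209) (nat_lit 226) (nat_lit 4) (nat_lit 5) (nat_lit 13) L86726 (by decide +kernel)
theorem L86728 : W_32 (nat_lit 4) (nat_lit 0x50002c0002001000080000000000000000000000000000000) (nat_lit 0x0) (nat_lit 0x400020000800000014000900000000000000000000000000000000000) := T_32 (nat_lit 160) (nat_lit 143) (nat_lit 6) (nat_lit 7) (nat_lit 11) L86727 (by decide +kernel)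
theorem L86729 : W_32 (nat_lit 2) (nat_lit 0x78005a002c001e001000080000000000000000000000000000000) (nat_lit 0x0) (nat_lit 0x6000100000000000000000000000000000000000000000000000) := D_32 (nat_lit 206) (nat_lit 205) (nat_lit 188) (nat_lit 2) (nat_lit 1) (nat_lit 12) (nat_lit 0) (nat_lit 5) (nat_lit 12) (by decide +kernel)
theorem L86730 : W_32 (nat_lit 3) (nat_lit 0x70005a002c001e001000080000000000000000000000000000000) (nat_lit 0x0) (nat_lit 0x10000e000100000000000000000000000000000000000000000000000) := T_32 (nat_lit 207) (nat_lit 224) (nat_lit 5) (nat_lit 4) (nat_lit 9) L86729 (by decide +kernel)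
theorem L86731 : W_32 (nat_lit 4) (nat_lit 0x700058002c001e001000080000000000000000000000000000000) (nat_lit 0x0) (nat_lit 0x10000e000700000000000000000000000000000000000000000000000) := T_32 (nat_lit 189) (nat_lit 190) (nat_lit 3) (nat_lit 2) (nat_lit 11) L86730 (by decide +kernel)
theorem L86732 : W_32 (nat_lit 5) (nat_lit 0x300058002c001e001000080000000000000000000000000000000) (nat_lit 0x0) (nat_lit 0x90004e000700000000000000000000000000000000000000000000000) := T_32 (nat_lit 210) (nat_lit 227) (nat_lit 7) (nat_lit 5) (nat_lit 9) L86731 (by decide +kernel)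
theorem L86733 : W_32 (nat_lit 6) (nat_lit 0x300050002c001e001000080000000000000000000000000000000) (nat_lit 0x0) (nat_lit 0x90004e000f00000000000200000000000000000000000000000000000) := T_32 (nat_lit 191) (nat_lit 141) (nat_lit 6) (nat_lit 4) (nat_lit 12) L86732 (by decide +kernel)
theorem L86734 : W_32 (nat_lit 7) (nat_lit 0x200050002c001e001000080000000000000000000000000000000) (nat_lit 0x0) (nat_lit 0xb0005e000f00000000000200000000000000000000000000000000000) := T_32 (nat_lit 208) (nat_lit 225) (nat_lit 5) (nat_lit 5) (nat_lit 9) L86733 (by decide +kernel)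
theorem L86735 : W_32 (nat_lit 8) (nat_lit 0x50002c001e001000080000000000000000000000000000000) (nat_lit 0x0) (nat_lit 0xb0007e000f00000000000600000000000000000000000000000000000) := T_32 (nat_lit 209) (nat_lit 142) (nat_lit 6) (nat_lit 5) (nat_lit 12) L86734 (by decide +kernel)
theorem L86736 : W_32 (nat_lit 9) (nat_lit 0x50002c0016001000080000000000000000000000000000000) (nat_lit 0x0) (nat_lit 0xb0007e000f00020008000600000000000000000000000000000000000) := T_32 (nat_lit 159) (nat_lit 173) (nat_lit 1) (nat_lit 7) (nat_lit 9) L86735 (by decide +kernel)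
theorem L86737 : W_32 (nat_lit 10) (nat_lit 0x50002c0006001000080000000000000000000000000000000) (nat_lit 0x0) (nat_lit 0xb0007e000f00020018000e00000000000000000000000000000000000) := T_32 (nat_lit 160) (nat_lit 143) (nat_lit 6) (nat_lit 7) (nat_lit 11) L86736 (by decide +kernel)
theorem L86738 : W_32 (nat_lit 2) (nat_lit 0x300050002c0006001200080000000000000000000000000000000) (nat_lit 0x0) (nat_lit 0x8000400020000000000000000000000000000000) := D_32 (nat_lit 142) (nat_lit 159) (nat_lit 125) (nat_lit 6) (nat_lit 5) (nat_lit 12) (nat_lit 6) (nat_lit 5) (nat_lit 11) (by decide +kernel)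
theorem L86739 : W_32 (nat_lit 3) (nat_lit 0x300050002c0006001000080000000000000000000000000000000) (nat_lit 0x0) (nat_lit 0x800000008000600020000000000000000000000000000000) := T_32 (nat_lit 141) (nat_lit 191) (nat_lit 6) (nat_lit 4) (nat_lit 12) L86738 (by decide +kernel)
theorem L86740 : W_32 (nat_lit 4) (nat_lit 0x200050002c0006001000080000000000000000000000000000000) (nat_lit 0x0) (nat_lit 0x200010000800000008000600020000000000000000000000000000000) := T_32 (nat_lit 208) (nat_lit 225) (nat_lit 5) (nat_lit 5) (nat_lit 9) L86739 (by decide +kernel)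
theorem L86741 : W_32 (nat_lit 5) (nat_lit 0x50002c0006001000080000000000000000000000000000000) (nat_lit 0x0) (nat_lit 0x600030000800000008000600020000000000000000000000000000000) := T_32 (nat_lit 209) (nat_lit 226) (nat_lit 4) (nat_lit 5) (nat_lit 13) L86740 (by decide +kernel)
theorem L86742 : W_32 (nat_lit 2) (nat_lit 0x4000000050002c0006001a00080000000000000000000000000000000) (nat_lit 0x0) (nat_lit 0x10000800000000000000010000000000000000000000000000000) := D_32 (nat_lit 191) (nat_lit 208) (nat_lit 124) (nat_lit 6) (nat_lit 4) (nat_lit 12) (nat_lit 5) (nat_lit 5) (nat_lit 7) (by decide +kernel)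
theorem L86743 : W_32 (nat_lit 3) (nat_lit 0x4000000050002c0006001800080000000000000000000000000000000) (nat_lit 0x0) (nat_lit 0x10000800000000000600010000000000000000000000000000000) := T_32 (nat_lit 141) (nat_lit 142) (nat_lit 1) (nat_lit 8) (nat_lit 8) L86742 (by decide +kernel)
theorem L86744 : W_32 (nat_lit 4) (nat_lit 0x4000000050002c0006001000080000000000000000000000000000000) (nat_lit 0x0) (nat_lit 0x10000800000010000e00010000000000000000000000000000000) := T_32 (nat_lit 143) (nat_lit 160) (nat_lit 6) (nat_lit 7) (nat_lit 11) L86743 (by decide +kernel)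
theorem L86745 : W_32 (nat_lit 5) (nat_lit 0x50002c0006001000080000000000000000000000000000000) (nat_lit 0x0) (nat_lit 0x400030000800000010000e00010000000000000000000000000000000) := T_32 (nat_lit 226) (nat_lit 209) (nat_lit 4) (nat_lit 5) (nat_lit 13) L86744 (by decide +kernel)
theorem L86746 : W_32 (nat_lit 8) (nat_lit 0x50002c001e001000080000000000000000000000000000000) (nat_lit 0x0) (nat_lit 0xf0007e000f00000000000200000000000000000000000000000000000) := T_32 (nat_lit 209) (nat_lit 226) (nat_lit 4) (nat_lit 5) (nat_lit 13) L86734 (by decide +kernel)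
theorem L86747 : W_32 (nat_lit 9) (nat_lit 0x50002c0016001000080000000000000000000000000000000) (nat_lit 0x0) (nat_lit 0xf0007e000f00020008000200000000000000000000000000000000000) := T_32 (nat_lit 159) (nat_lit 173) (nat_lit 1) (nat_lit 7) (nat_lit 9) L86746 (by decide +kernel)
theorem L86748 : W_32 (nat_lit 10) (nat_lit 0x50002c0006001000080000000000000000000000000000000) (nat_lit 0x0) (nat_lit 0xf0007e000f00020018000a00000000000000000000000000000000000) := T_32 (nat_lit 160) (nat_lit 143) (nat_lit 6) (nat_lit 7) (nat_lit 11) L86747 (by decide +kernel)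
theorem L86749 : W_32 (nat_lit 2) (nat_lit 0x50002c0006001a00080000000000000000000000000000000) (nat_lit 0x0) (nat_lit 0x10000800000000000000010000000000000000000000000000000) := D_32 (nat_lit 191) (nat_lit 208) (nat_lit 124) (nat_lit 6) (nat_lit 4) (nat_lit 12) (nat_lit 5) (nat_lit 5) (nat_lit 7) (by decide +kernel)
theorem L86750 : W_32 (nat_lit 3) (nat_lit 0x50002c0006001800080000000000000000000000000000000) (nat_lit 0x0) (nat_lit 0x10000800000000000600010000000000000000000000000000000) := T_32 (nat_lit 141) (nat_lit 142) (nat_lit 1) (nat_lit 8) (nat_lit 8) L86749 (by decide +kernel)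
theorem L86751 : W_32 (nat_lit 4) (nat_lit 0x50002c0006001000080000000000000000000000000000000) (nat_lit 0x0) (nat_lit 0x10000800000010000e00010000000000000000000000000000000) := T_32 (nat_lit 143) (nat_lit 160) (nat_lit 6) (nat_lit 7) (nat_lit 11) L86750 (by decide +kernel)
theorem L86752 : W_32 (nat_lit 2) (nat_lit 0x50002c001e001000080000000000000000000000000000000) (nat_lit 0x0) (nat_lit 0x400020000000000000000400000000000000000000000000000000000) := D_32 (nat_lit 209) (nat_lit 226) (nat_lit 142) (nat_lit 4) (nat_lit 5) (nat_lit 13) (nat_lit 6) (nat_lit 5) (nat_lit 12) (by decide +kernel)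
theorem L86753 : W_32 (nat_lit 3) (nat_lit 0x50002c0016001000080000000000000000000000000000000) (nat_lit 0x0) (nat_lit 0x400020000000020008000400000000000000000000000000000000000) := T_32 (nat_lit 159) (nat_lit 173) (nat_lit 1) (nat_lit 7) (nat_lit 9) L86752 (by decide +kernel)
theorem L86754 : W_32 (nat_lit 4) (nat_lit 0x50002c0006001000080000000000000000000000000000000) (nat_lit 0x0) (nat_lit 0x400020000000020018000c00000000000000000000000000000000000) := T_32 (nat_lit 160) (nat_lit 143) (nat_lit 6) (nat_lit 7) (nat_lit 11) L86753 (by decide +kernel)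
theorem L86755 : W_32 (nat_lit 11) (nat_lit 0x50002c0002001000080000000000000000000000000000000) (nat_lit 0x0) (nat_lit 0xf0007e000f0002001c000e00030000000000000000000000000000000) := Q_32 (nat_lit 158) (C_32 L86737 (C_32 L86741 (C_32 L86745 (C_32 L86748 (C_32 L86751 (C_32 L86754 N_32)))))) (by decide +kernel)
theorem L86756 : W_32 (nat_lit 12) (nat_lit 0x50002c0000001000080000000000000000000000000000000) (nat_lit 0x0) (nat_lit 0xf0007e000f0002001f800fc013c000000000000000000000000000000) := Q_32 (nat_lit 157) (C_32 L86699 (C_32 L86701 (C_32 L86725 (C_32 L86728 (C_32 L86755 N_32))))) (by decide +kernel)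
theorem L86757 : W_32 (nat_lit 4) (nat_lit 0x50003c0000001000080000000000000000000000000000000) (nat_lit 0x0) (nat_lit 0x400020000c00000003000100000000000000000000000000000000000) := T_32 (nat_lit 191) (nat_lit 190) (nat_lit 1) (nat_lit 7) (nat_lit 10) L7166 (by decide +kernel)
theorem L86758 : W_32 (nat_lit 5) (nat_lit 0x50002c0000001000080000000000000000000000000000000) (nat_lit 0x0) (nat_lit 0x400020008c00100003000100000000000000000000000000000000000) := T_32 (nat_lit 176) (nat_lit 195) (nat_lit 3) (nat_lit 4) (nat_lit 10) L86757 (by decide +kernel)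
theorem L86759 : W_32 (nat_lit 6) (nat_lit 0x50002c0000001000080000000000000000000000000000000) (nat_lit 0x0) (nat_lit 0x40002000800012001c000c00020000000000000000000000000000000) := T_32 (nat_lit 176) (nat_lit 195) (nat_lit 3) (nat_lit 4) (nat_lit 10) L86686 (by decide +kernel)
theorem L86760 : W_32 (nat_lit 13) (nat_lit 0x5000280000001000080000000000000000000000000000000) (nat_lit 0x0) (nat_lit 0xf0007e008f0017001fc00fc013c000000000000000000000000000000) := Q_32 (nat_lit 174) (C_32 L86696 (C_32 L86756 (C_32 L86758 (C_32 L86759 N_32)))) (by decide +kernel)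
theorem L86761 : W_32 (nat_lit 3) (nat_lit 0x5000380000001000080000000000000000000000000000000) (nat_lit 0x0) (nat_lit 0x18800440000000000000000000000000000000000000000000) := T_32 (nat_lit 178) (nat_lit 191) (nat_lit 1) (nat_lit 8) (nat_lit 10) L77210 (by decide +kernel)
theorem L86762 : W_32 (nat_lit 5) (nat_lit 0x5000380000001000080000000000000000000000000000000) (nat_lit 0x0) (nat_lit 0x400020008c00040003000100000000000000000000000000000000000) := T_32 (nat_lit 174) (nat_lit 195) (nat_lit 3) (nat_lit 4) (nat_lit 10) L86757 (by decide +kernel)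
theorem L86763 : W_32 (nat_lit 8) (nat_lit 0x5000280000001000080000000000000000000000000000000) (nat_lit 0x0) (nat_lit 0x400020078c01d401cf000100008000000000000000000000000000000) := Q_32 (nat_lit 176) (C_32 L86761 (C_32 L86762 (C_32 L86692 (C_32 L86644 N_32)))) (by decide +kernel)
theorem L86764 : W_32 (nat_lit 2) (nat_lit 0x10005000380014001700080000000000000000000000000000000) (nat_lit 0x0) (nat_lit 0x200020000000000002000000000000000000000000000000000000000) := D_32 (nat_lit 209) (nat_lit 225) (nat_lit 157) (nat_lit 5) (nat_lit 5) (nat_lit 9) (nat_lit 4) (nat_lit 5) (nat_lit 12) (by decide +kernel)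
theorem L86765 : W_32 (nat_lit 3) (nat_lit 0x10005000380014001600080000000000000000000000000000000) (nat_lit 0x0) (nat_lit 0x200020000000000002000100008000000000000000000000000000000) := T_32 (nat_lit 140) (nat_lit 123) (nat_lit 4) (nat_lit 5) (nat_lit 11) L86764 (by decide +kernel)
theorem L86766 : W_32 (nat_lit 4) (nat_lit 0x5000380014001600080000000000000000000000000000000) (nat_lit 0x0) (nat_lit 0x200030000800000002000100008000000000000000000000000000000) := T_32 (nat_lit 208) (nat_lit 191) (nat_lit 5) (nat_lit 5) (nat_lit 8) L86765 (by decide +kernel)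
theorem L86767 : W_32 (nat_lit 5) (nat_lit 0x5000380014001200080000000000000000000000000000000) (nat_lit 0x0) (nat_lit 0x200030000800000002000500028000000000000000000000000000000) := T_32 (nat_lit 142) (nat_lit 125) (nat_lit 6) (nat_lit 5) (nat_lit 11) L86766 (by decide +kernel)
theorem L86768 : W_32 (nat_lit 6) (nat_lit 0x5000380004001200080000000000000000000000000000000) (nat_lit 0x0) (nat_lit 0x200030000800000012000d00028000000000000000000000000000000) := T_32 (nat_lit 160) (nat_lit 143) (nat_lit 6) (nat_lit 7) (nat_lit 11) L86767 (by decide +kernel)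
theorem L86769 : W_32 (nat_lit 2) (nat_lit 0x5a003800040012000a8000000000000000000000000000000) (nat_lit 0x0) (nat_lit 0x10001400000000000000000000000000) := D_32 (nat_lit 124) (nat_lit 108) (nat_lit 106) (nat_lit 6) (nat_lit 5) (nat_lit 10) (nat_lit 4) (nat_lit 5) (nat_lit 10) (by decide +kernel)
theorem L86770 : W_32 (nat_lit 3) (nat_lit 0x5a003800040012000a0000000000000000000000000000000) (nat_lit 0x0) (nat_lit 0x100018001400000000000000000000000000) := T_32 (nat_lit 123) (nat_lit 140) (nat_lit 4) (nat_lit 5) (nat_lit 11) L86769 (by decide +kernel)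
theorem L86771 : W_32 (nat_lit 4) (nat_lit 0x5a00380004001200080000000000000000000000000000000) (nat_lit 0x0) (nat_lit 0x500038001400000000000000000000000000) := T_32 (nat_lit 125) (nat_lit 142) (nat_lit 6) (nat_lit 5) (nat_lit 11) L86770 (by decide +kernel)
theorem L86772 : W_32 (nat_lit 5) (nat_lit 0x5800380004001200080000000000000000000000000000000) (nat_lit 0x0) (nat_lit 0x600000000000500038001400000000000000000000000000) := T_32 (nat_lit 189) (nat_lit 190) (nat_lit 2) (nat_lit 2) (nat_lit 11) L86771 (by decide +kernel)
theorem L86773 : W_32 (nat_lit 6) (nat_lit 0x5000380004001200080000000000000000000000000000000) (nat_lit 0x0) (nat_lit 0x10000e00000000000500038001400000000000000000000000000) := T_32 (nat_lit 191) (nat_lit 208) (nat_lit 5) (nat_lit 5) (nat_lit 8) L86772 (by decide +kernel)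
theorem L86774 : W_32 (nat_lit 2) (nat_lit 0x10005000380004001300080000000000000000000000000000000) (nat_lit 0x0) (nat_lit 0x200020000000000002000000000000000000000000000000000000000) := D_32 (nat_lit 209) (nat_lit 157) (nat_lit 225) (nat_lit 4) (nat_lit 5) (nat_lit 12) (nat_lit 5) (nat_lit 5) (nat_lit 9) (by decide +kernel)
theorem L86775 : W_32 (nat_lit 3) (nat_lit 0x5000380004001300080000000000000000000000000000000) (nat_lit 0x0) (nat_lit 0x200030000800000002000000000000000000000000000000000000000) := T_32 (nat_lit 208) (nat_lit 191) (nat_lit 5) (nat_lit 5) (nat_lit 8) L86774 (by decide +kernel)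
theorem L86776 : W_32 (nat_lit 4) (nat_lit 0x5000380004001200080000000000000000000000000000000) (nat_lit 0x0) (nat_lit 0x200030000800000002000100008000000000000000000000000000000) := T_32 (nat_lit 140) (nat_lit 123) (nat_lit 4) (nat_lit 5) (nat_lit 11) L86775 (by decide +kernel)
theorem L86777 : W_32 (nat_lit 2) (nat_lit 0xa00020005000380014001700080000000000000000000000000000000) (nat_lit 0x0) (nat_lit 0x14000400000000000000000000000000000000000000000000000000000000) := D_32 (nat_lit 226) (nat_lit 242) (nat_lit 244) (nat_lit 5) (nat_lit 5) (nat_lit 10) (nat_lit 7) (nat_lit 5) (nat_lit 10) (by decide +kernel)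
theorem L86778 : W_32 (nat_lit 3) (nat_lit 0x200020005000380014001700080000000000000000000000000000000) (nat_lit 0x0) (nat_lit 0x14000c00040000000000000000000000000000000000000000000000000000) := T_32 (nat_lit 227) (nat_lit 210) (nat_lit 7) (nat_lit 5) (nat_lit 9) L86777 (by decide +kernel)
theorem L86779 : W_32 (nat_lit 4) (nat_lit 0x20005000380014001700080000000000000000000000000000000) (nat_lit 0x0) (nat_lit 0x14000e00050000000000000000000000000000000000000000000000000000) := T_32 (nat_lit 225) (nat_lit 208) (nat_lit 5) (nat_lit 5) (nat_lit 9) L86778 (by decide +kernel)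
theorem L86780 : W_32 (nat_lit 5) (nat_lit 0x5000380014001700080000000000000000000000000000000) (nat_lit 0x0) (nat_lit 0x14000e00070000000000002000000000000000000000000000000000000000) := T_32 (nat_lit 209) (nat_lit 157) (nat_lit 4) (nat_lit 5) (nat_lit 12) L86779 (by decide +kernel)
theorem L86781 : W_32 (nat_lit 6) (nat_lit 0x5000380014001600080000000000000000000000000000000) (nat_lit 0x0) (nat_lit 0x14000e00070000000000002000100008000000000000000000000000000000) := T_32 (nat_lit 140) (nat_lit 123) (nat_lit 4) (nat_lit 5) (nat_lit 11) L86780 (by decide +kernel)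
theorem L86782 : W_32 (nat_lit 7) (nat_lit 0x5000380014001200080000000000000000000000000000000) (nat_lit 0x0) (nat_lit 0x14000e00070000000000002000500028000000000000000000000000000000) := T_32 (nat_lit 142) (nat_lit 125) (nat_lit 6) (nat_lit 5) (nat_lit 11) L86781 (by decide +kernel)
theorem L86783 : W_32 (nat_lit 8) (nat_lit 0x5000380004001200080000000000000000000000000000000) (nat_lit 0x0) (nat_lit 0x14000e00070000000000012000d00028000000000000000000000000000000) := T_32 (nat_lit 160) (nat_lit 143) (nat_lit 6) (nat_lit 7) (nat_lit 11) L86782 (by decide +kernel)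
theorem L86784 : W_32 (nat_lit 2) (nat_lit 0x5000380004001b00080000000000000000000000000000000) (nat_lit 0x0) (nat_lit 0x20000000000002000400000000000000000000000000000000000) := D_32 (nat_lit 157) (nat_lit 209) (nat_lit 142) (nat_lit 4) (nat_lit 5) (nat_lit 12) (nat_lit 1) (nat_lit 8) (nat_lit 8) (by decide +kernel)
theorem L86785 : W_32 (nat_lit 3) (nat_lit 0x5000380004001300080000000000000000000000000000000) (nat_lit 0x0) (nat_lit 0x20000000000012000c00000000000000000000000000000000000) := T_32 (nat_lit 143) (nat_lit 160) (nat_lit 6) (nat_lit 7) (nat_lit 11) L86784 (by decide +kernel)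
theorem L86786 : W_32 (nat_lit 4) (nat_lit 0x5000380004001200080000000000000000000000000000000) (nat_lit 0x0) (nat_lit 0x20000000000012000d00008000000000000000000000000000000) := T_32 (nat_lit 140) (nat_lit 123) (nat_lit 4) (nat_lit 5) (nat_lit 11) L86785 (by decide +kernel)
theorem L86787 : W_32 (nat_lit 2) (nat_lit 0x5a00380004001a00080000000000000000000000000000000) (nat_lit 0x0) (nat_lit 0x400120000000000000000000000000000000) := D_32 (nat_lit 142) (nat_lit 125) (nat_lit 128) (nat_lit 6) (nat_lit 5) (nat_lit 11) (nat_lit 2) (nat_lit 5) (nat_lit 8) (by decide +kernel)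
theorem L86788 : W_32 (nat_lit 3) (nat_lit 0x5a00380004001200080000000000000000000000000000000) (nat_lit 0x0) (nat_lit 0x10000c00120000000000000000000000000000000) := T_32 (nat_lit 143) (nat_lit 160) (nat_lit 6) (nat_lit 7) (nat_lit 11) L86787 (by decide +kernel)
theorem L86789 : W_32 (nat_lit 4) (nat_lit 0x5800380004001200080000000000000000000000000000000) (nat_lit 0x0) (nat_lit 0x600000010000c00120000000000000000000000000000000) := T_32 (nat_lit 189) (nat_lit 190) (nat_lit 2) (nat_lit 2) (nat_lit 11) L86788 (by decide +kernel)
theorem L86790 : W_32 (nat_lit 5) (nat_lit 0x5000380004001200080000000000000000000000000000000) (nat_lit 0x0) (nat_lit 0x10000e00000010000c00120000000000000000000000000000000) := T_32 (nat_lit 191) (nat_lit 208) (nat_lit 5) (nat_lit 5) (nat_lit 8) L86789 (by decide +kernel)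
theorem L86791 : W_32 (nat_lit 9) (nat_lit 0x5000380004001000080000000000000000000000000000000) (nat_lit 0x0) (nat_lit 0x14000e00070000e00000012000f00138001400000000000000000000000000) := Q_32 (nat_lit 141) (C_32 L86768 (C_32 L86773 (C_32 L86776 (C_32 L86783 (C_32 L86786 (C_32 L86790 N_32)))))) (by decide +kernel)
theorem L86792 : W_32 (nat_lit 2) (nat_lit 0x5000380004001000080000000000000000000000000000000) (nat_lit 0x0) (nat_lit 0x800400002000000000000000000000000000000000000000) := D_32 (nat_lit 178) (nat_lit 191) (nat_lit 157) (nat_lit 1) (nat_lit 8) (nat_lit 10) (nat_lit 0) (nat_lit 8) (nat_lit 10) (by decide +kernel)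
theorem L86793 : W_32 (nat_lit 2) (nat_lit 0x58003800140012000a8000000000000000000000000000000) (nat_lit 0x0) (nat_lit 0x10001400000000000000000000000000) := D_32 (nat_lit 124) (nat_lit 106) (nat_lit 108) (nat_lit 4) (nat_lit 5) (nat_lit 10) (nat_lit 6) (nat_lit 5) (nat_lit 10) (by decide +kernel)
theorem L86794 : W_32 (nat_lit 3) (nat_lit 0x5800380014001200088000000000000000000000000000000) (nat_lit 0x0) (nat_lit 0x400030001400000000000000000000000000) := T_32 (nat_lit 125) (nat_lit 142) (nat_lit 6) (nat_lit 5) (nat_lit 11) L86793 (by decide +kernel)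
theorem L86795 : W_32 (nat_lit 4) (nat_lit 0x5800380014001200080000000000000000000000000000000) (nat_lit 0x0) (nat_lit 0x500038001400000000000000000000000000) := T_32 (nat_lit 123) (nat_lit 140) (nat_lit 4) (nat_lit 5) (nat_lit 11) L86794 (by decide +kernel)
theorem L86796 : W_32 (nat_lit 5) (nat_lit 0x5800380014001000080000000000000000000000000000000) (nat_lit 0x0) (nat_lit 0x10000000000000000700038001400000000000000000000000000) := T_32 (nat_lit 141) (nat_lit 208) (nat_lit 5) (nat_lit 5) (nat_lit 8) L86795 (by decide +kernel)
theorem L86797 : W_32 (nat_lit 6) (nat_lit 0x5800380004001000080000000000000000000000000000000) (nat_lit 0x0) (nat_lit 0x10000000000010000f00038001400000000000000000000000000) := T_32 (nat_lit 160) (nat_lit 143) (nat_lit 6) (nat_lit 7) (nat_lit 11) L86796 (by decide +kernel)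
theorem L86798 : W_32 (nat_lit 7) (nat_lit 0x5000380004001000080000000000000000000000000000000) (nat_lit 0x0) (nat_lit 0x10000800400010000f00038001400000000000000000000000000) := T_32 (nat_lit 191) (nat_lit 178) (nat_lit 1) (nat_lit 8) (nat_lit 10) L86797 (by decide +kernel)
theorem L86799 : W_32 (nat_lit 10) (nat_lit 0x5000380000001000080000000000000000000000000000000) (nat_lit 0x0) (nat_lit 0x14000e00070000e00400017800f00138001400000000000000000000000000) := Q_32 (nat_lit 158) (C_32 L86672 (C_32 L86791 (C_32 L86792 (C_32 L86798 N_32)))) (by decide +kernel)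
theorem L86800 : W_32 (nat_lit 11) (nat_lit 0x5000280000001000080000000000000000000000000000000) (nat_lit 0x0) (nat_lit 0x14000e00070008e00540017800f00138001400000000000000000000000000) := Q_32 (nat_lit 176) (C_32 L86762 (C_32 L86690 (C_32 L86799 (C_32 L86644 N_32)))) (by decide +kernel)
theorem L86801 : W_32 (nat_lit 2) (nat_lit 0x15000f80090001000080000000000000000000000000000000) (nat_lit 0x0) (nat_lit 0x1000108000000000000000000000000000000000000000) := D_32 (nat_lit 180) (nat_lit 159) (nat_lit 164) (nat_lit 0) (nat_lit 10) (nat_lit 10) (nat_lit 2) (nat_lit 7) (nat_lit 10) (by decide +kernel)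
theorem L86802 : W_32 (nat_lit 3) (nat_lit 0x15000f80010001000080000000000000000000000000000000) (nat_lit 0x0) (nat_lit 0x10001c8000000000000000000000000000000000000000) := T_32 (nat_lit 163) (nat_lit 162) (nat_lit 2) (nat_lit 6) (nat_lit 10) L86801 (by decide +kernel)
theorem L86803 : W_32 (nat_lit 4) (nat_lit 0x15000780010001000080000000000000000000000000000000) (nat_lit 0x0) (nat_lit 0x200018001c8000000000000000000000000000000000000000) := T_32 (nat_lit 179) (nat_lit 197) (nat_lit 3) (nat_lit 6) (nat_lit 10) L86802 (by decide +kernel)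
theorem L86804 : W_32 (nat_lit 5) (nat_lit 0x5000780010001000080000000000000000000000000000000) (nat_lit 0x0) (nat_lit 0x380018001c8000000000000000000000000000000000000000) := T_32 (nat_lit 196) (nat_lit 195) (nat_lit 3) (nat_lit 5) (nat_lit 10) L86803 (by decide +kernel)
theorem L86805 : W_32 (nat_lit 6) (nat_lit 0x5000380010001000080000000000000000000000000000000) (nat_lit 0x0) (nat_lit 0x38801c001c8000000000000000000000000000000000000000) := T_32 (nat_lit 178) (nat_lit 191) (nat_lit 1) (nat_lit 8) (nat_lit 10) L86804 (by decide +kernel)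
theorem L86806 : W_32 (nat_lit 7) (nat_lit 0x5000380000001000080000000000000000000000000000000) (nat_lit 0x0) (nat_lit 0x38801c001d8000800000000000000000000000000000000000) := T_32 (nat_lit 160) (nat_lit 143) (nat_lit 6) (nat_lit 7) (nat_lit 11) L86805 (by decide +kernel)
theorem L86807 : W_32 (nat_lit 8) (nat_lit 0x5000280000001000080000000000000000000000000000000) (nat_lit 0x0) (nat_lit 0x400020038f01d701dbc00900000000000000000000000000000000000) := Q_32 (nat_lit 176) (C_32 L86762 (C_32 L86690 (C_32 L86806 (C_32 L86682 N_32)))) (by decide +kernel)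
theorem L86808 : W_32 (nat_lit 2) (nat_lit 0x6000500028001c001000080000000000000000000000000000000) (nat_lit 0x0) (nat_lit 0x400002000100000000000000000000000000000000000) := D_32 (nat_lit 157) (nat_lit 178) (nat_lit 140) (nat_lit 3) (nat_lit 4) (nat_lit 9) (nat_lit 4) (nat_lit 5) (nat_lit 12) (by decide +kernel)
theorem L86809 : W_32 (nat_lit 3) (nat_lit 0x60005000280014001000080000000000000000000000000000000) (nat_lit 0x0) (nat_lit 0x40000a000500000000000000000000000000000000000) := T_32 (nat_lit 159) (nat_lit 142) (nat_lit 6) (nat_lit 5) (nat_lit 12) L86808 (by decide +kernel)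
theorem L86810 : W_32 (nat_lit 4) (nat_lit 0x20005000280014001000080000000000000000000000000000000) (nat_lit 0x0) (nat_lit 0x80004000000040000a000500000000000000000000000000000000000) := T_32 (nat_lit 210) (nat_lit 227) (nat_lit 7) (nat_lit 5) (nat_lit 9) L86809 (by decide +kernel)
theorem L86811 : W_32 (nat_lit 5) (nat_lit 0x20005000280004001000080000000000000000000000000000000) (nat_lit 0x0) (nat_lit 0x80004000000040001a000d00000000000000000000000000000000000) := T_32 (nat_lit 160) (nat_lit 143) (nat_lit 6) (nat_lit 7) (nat_lit 11) L86810 (by decide +kernel)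
theorem L86812 : W_32 (nat_lit 2) (nat_lit 0x70005000280014001400080000000000000000000000000000000) (nat_lit 0x0) (nat_lit 0x800000000000200020000000000000000000000000000000) := D_32 (nat_lit 141) (nat_lit 191) (nat_lit 125) (nat_lit 5) (nat_lit 5) (nat_lit 8) (nat_lit 6) (nat_lit 5) (nat_lit 11) (by decide +kernel)
theorem L86813 : W_32 (nat_lit 3) (nat_lit 0x60005000280014001400080000000000000000000000000000000) (nat_lit 0x0) (nat_lit 0x200010000800000000000200020000000000000000000000000000000) := T_32 (nat_lit 208) (nat_lit 225) (nat_lit 5) (nat_lit 5) (nat_lit 9) L86812 (by decide +kernel)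
theorem L86814 : W_32 (nat_lit 4) (nat_lit 0x60005000280014001000080000000000000000000000000000000) (nat_lit 0x0) (nat_lit 0x200010000800000008000600020000000000000000000000000000000) := T_32 (nat_lit 142) (nat_lit 159) (nat_lit 6) (nat_lit 5) (nat_lit 12) L86813 (by decide +kernel)
theorem L86815 : W_32 (nat_lit 5) (nat_lit 0x20005000280014001000080000000000000000000000000000000) (nat_lit 0x0) (nat_lit 0xa00050000800000008000600020000000000000000000000000000000) := T_32 (nat_lit 210) (nat_lit 227) (nat_lit 7) (nat_lit 5) (nat_lit 9) L86814 (by decide +kernel)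
theorem L86816 : W_32 (nat_lit 6) (nat_lit 0x20005000280004001000080000000000000000000000000000000) (nat_lit 0x0) (nat_lit 0xa00050000800000018000e00020000000000000000000000000000000) := T_32 (nat_lit 160) (nat_lit 143) (nat_lit 6) (nat_lit 7) (nat_lit 11) L86815 (by decide +kernel)
theorem L86817 : W_32 (nat_lit 7) (nat_lit 0x5000280004001000080000000000000000000000000000000) (nat_lit 0x0) (nat_lit 0xa0007000080040001a000f00028000000000000000000000000000000) := Q_32 (nat_lit 209) (C_32 L86811 (C_32 L7075 (C_32 L86816 N_32))) (by decide +kernel)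
theorem L86818 : W_32 (nat_lit 2) (nat_lit 0x5800280014001600090000000000000000000000000000000) (nat_lit 0x0) (nat_lit 0x100008000400000000000000000000000000) := D_32 (nat_lit 123) (nat_lit 106) (nat_lit 140) (nat_lit 4) (nat_lit 5) (nat_lit 10) (nat_lit 4) (nat_lit 5) (nat_lit 11) (by decide +kernel)
theorem L86819 : W_32 (nat_lit 3) (nat_lit 0x5800280014001600080000000000000000000000000000000) (nat_lit 0x0) (nat_lit 0x40000000100018000400000000000000000000000000) := T_32 (nat_lit 124) (nat_lit 174) (nat_lit 5) (nat_lit 5) (nat_lit 7) L86818 (by decide +kernel)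
theorem L86820 : W_32 (nat_lit 4) (nat_lit 0x5000280014001600080000000000000000000000000000000) (nat_lit 0x0) (nat_lit 0x10000800040000000100018000400000000000000000000000000) := T_32 (nat_lit 191) (nat_lit 208) (nat_lit 5) (nat_lit 5) (nat_lit 8) L86819 (by decide +kernel)
theorem L86821 : W_32 (nat_lit 5) (nat_lit 0x5000280014001200080000000000000000000000000000000) (nat_lit 0x0) (nat_lit 0x10000800040000000500038000400000000000000000000000000) := T_32 (nat_lit 142) (nat_lit 125) (nat_lit 6) (nat_lit 5) (nat_lit 11) L86820 (by decide +kernel)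
theorem L86822 : W_32 (nat_lit 6) (nat_lit 0x5000280004001200080000000000000000000000000000000) (nat_lit 0x0) (nat_lit 0x10000800040010000d00038000400000000000000000000000000) := T_32 (nat_lit 160) (nat_lit 143) (nat_lit 6) (nat_lit 7) (nat_lit 11) L86821 (by decide +kernel)
theorem L86823 : W_32 (nat_lit 2) (nat_lit 0x5800280004001600090000000000000000000000000000000) (nat_lit 0x0) (nat_lit 0x100008000400000000000000000000000000) := D_32 (nat_lit 123) (nat_lit 106) (nat_lit 140) (nat_lit 4) (nat_lit 5) (nat_lit 10) (nat_lit 4) (nat_lit 5) (nat_lit 11) (by decide +kernel)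
theorem L86824 : W_32 (nat_lit 3) (nat_lit 0x5800280004001600080000000000000000000000000000000) (nat_lit 0x0) (nat_lit 0x40000000100018000400000000000000000000000000) := T_32 (nat_lit 124) (nat_lit 174) (nat_lit 5) (nat_lit 5) (nat_lit 7) L86823 (by decide +kernel)
theorem L86825 : W_32 (nat_lit 4) (nat_lit 0x5000280004001600080000000000000000000000000000000) (nat_lit 0x0) (nat_lit 0x10000800040000000100018000400000000000000000000000000) := T_32 (nat_lit 191) (nat_lit 208) (nat_lit 5) (nat_lit 5) (nat_lit 8) L86824 (by decide +kernel)
theorem L86826 : W_32 (nat_lit 5) (nat_lit 0x5000280004001200080000000000000000000000000000000) (nat_lit 0x0) (nat_lit 0x10000800040000000500038000400000000000000000000000000) := T_32 (nat_lit 142) (nat_lit 125) (nat_lit 6) (nat_lit 5) (nat_lit 11) L86825 (by decide +kernel)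
theorem L86827 : W_32 (nat_lit 4) (nat_lit 0x5000280014001200080000000000000000000000000000000) (nat_lit 0x0) (nat_lit 0x10000800040000000100018000400000000000000000000000000) := T_32 (nat_lit 191) (nat_lit 208) (nat_lit 5) (nat_lit 5) (nat_lit 8) L86552 (by decide +kernel)
theorem L86828 : W_32 (nat_lit 5) (nat_lit 0x5000280004001200080000000000000000000000000000000) (nat_lit 0x0) (nat_lit 0x10000800040010000900018000400000000000000000000000000) := T_32 (nat_lit 160) (nat_lit 143) (nat_lit 6) (nat_lit 7) (nat_lit 11) L86827 (by decide +kernel)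
theorem L86829 : W_32 (nat_lit 2) (nat_lit 0x5000280004001700080000000000000000000000000000000) (nat_lit 0x0) (nat_lit 0x10000800100000000000000000000000000000000) := D_32 (nat_lit 143) (nat_lit 128) (nat_lit 160) (nat_lit 2) (nat_lit 5) (nat_lit 8) (nat_lit 6) (nat_lit 7) (nat_lit 11) (by decide +kernel)
theorem L86830 : W_32 (nat_lit 3) (nat_lit 0x5000280004001300080000000000000000000000000000000) (nat_lit 0x0) (nat_lit 0x10000c00120000000000000000000000000000000) := T_32 (nat_lit 142) (nat_lit 125) (nat_lit 6) (nat_lit 5) (nat_lit 11) L86829 (by decide +kernel)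
theorem L86831 : W_32 (nat_lit 4) (nat_lit 0x5000280004001200080000000000000000000000000000000) (nat_lit 0x0) (nat_lit 0x10000d00128000000000000000000000000000000) := T_32 (nat_lit 140) (nat_lit 123) (nat_lit 4) (nat_lit 5) (nat_lit 11) L86830 (by decide +kernel)
theorem L86832 : W_32 (nat_lit 2) (nat_lit 0x5000280004001600080000000000000000000000000000000) (nat_lit 0x0) (nat_lit 0x10000800100000000000000000000000000000000) := D_32 (nat_lit 143) (nat_lit 128) (nat_lit 160) (nat_lit 2) (nat_lit 5) (nat_lit 8) (nat_lit 6) (nat_lit 7) (nat_lit 11) (by decide +kernel)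
theorem L86833 : W_32 (nat_lit 3) (nat_lit 0x5000280004001200080000000000000000000000000000000) (nat_lit 0x0) (nat_lit 0x10000c00120000000000000000000000000000000) := T_32 (nat_lit 142) (nat_lit 125) (nat_lit 6) (nat_lit 5) (nat_lit 11) L86832 (by decide +kernel)
theorem L86834 : W_32 (nat_lit 7) (nat_lit 0x5000280004001000080000000000000000000000000000000) (nat_lit 0x0) (nat_lit 0x10000800040010000f00138000400000000000000000000000000) := Q_32 (nat_lit 141) (C_32 L86822 (C_32 L86826 (C_32 L86828 (C_32 L86831 (C_32 L86833 N_32))))) (by decide +kernel)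
theorem L86835 : W_32 (nat_lit 2) (nat_lit 0xc0003000580028000c001000080000000000000000000000000000000) (nat_lit 0x0) (nat_lit 0x100008000000000000000040000000000000000000000000000000000000000000) := D_32 (nat_lit 243) (nat_lit 260) (nat_lit 174) (nat_lit 4) (nat_lit 5) (nat_lit 15) (nat_lit 4) (nat_lit 5) (nat_lit 14) (by decide +kernel)
theorem L86836 : W_32 (nat_lit 3) (nat_lit 0x80003000580028000c001000080000000000000000000000000000000) (nat_lit 0x0) (nat_lit 0x100018000400000000000040000000000000000000000000000000000000000000) := T_32 (nat_lit 226) (nat_lit 244) (nat_lit 7) (nat_lit 5) (nat_lit 10) L86835 (by decide +kernel)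
theorem L86837 : W_32 (nat_lit 4) (nat_lit 0x80003000500028000c001000080000000000000000000000000000000) (nat_lit 0x0) (nat_lit 0x100018000400000000800040000000200000000000000000000000000000000000) := T_32 (nat_lit 191) (nat_lit 141) (nat_lit 5) (nat_lit 5) (nat_lit 8) L86836 (by decide +kernel)
theorem L86838 : W_32 (nat_lit 5) (nat_lit 0x80002000500028000c001000080000000000000000000000000000000) (nat_lit 0x0) (nat_lit 0x100018000600010000800040000000200000000000000000000000000000000000) := T_32 (nat_lit 208) (nat_lit 225) (nat_lit 5) (nat_lit 5) (nat_lit 9) L86837 (by decide +kernel)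
theorem L86839 : W_32 (nat_lit 6) (nat_lit 0x2000500028000c001000080000000000000000000000000000000) (nat_lit 0x0) (nat_lit 0x100018000e00050000800040000000200000000000000000000000000000000000) := T_32 (nat_lit 227) (nat_lit 210) (nat_lit 7) (nat_lit 5) (nat_lit 9) L86838 (by decide +kernel)
theorem L86840 : W_32 (nat_lit 7) (nat_lit 0x20005000280004001000080000000000000000000000000000000) (nat_lit 0x0) (nat_lit 0x100018000e00050000800040008000600000000000000000000000000000000000) := T_32 (nat_lit 159) (nat_lit 142) (nat_lit 6) (nat_lit 5) (nat_lit 12) L86839 (by decide +kernel)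
theorem L86841 : W_32 (nat_lit 2) (nat_lit 0x6000500028001e001000080000000000000000000000000000000) (nat_lit 0x0) (nat_lit 0x400000000000060000000000000000000000000000000000000000000) := D_32 (nat_lit 174) (nat_lit 173) (nat_lit 226) (nat_lit 1) (nat_lit 7) (nat_lit 9) (nat_lit 4) (nat_lit 5) (nat_lit 13) (by decide +kernel)
theorem L86842 : W_32 (nat_lit 3) (nat_lit 0x6000500028000e001000080000000000000000000000000000000) (nat_lit 0x0) (nat_lit 0x400000000000460010000000000000000000000000000000000000000) := T_32 (nat_lit 160) (nat_lit 178) (nat_lit 3) (nat_lit 4) (nat_lit 9) L86841 (by decide +kernel)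
theorem L86843 : W_32 (nat_lit 4) (nat_lit 0x6000500028000c001000080000000000000000000000000000000) (nat_lit 0x0) (nat_lit 0x400000000000460012000100000000000000000000000000000000000) := T_32 (nat_lit 157) (nat_lit 140) (nat_lit 4) (nat_lit 5) (nat_lit 12) L86842 (by decide +kernel)
theorem L86844 : W_32 (nat_lit 5) (nat_lit 0x60005000280004001000080000000000000000000000000000000) (nat_lit 0x0) (nat_lit 0x40000000000046001a000500000000000000000000000000000000000) := T_32 (nat_lit 159) (nat_lit 142) (nat_lit 6) (nat_lit 5) (nat_lit 12) L86843 (by decide +kernel)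
theorem L86845 : W_32 (nat_lit 6) (nat_lit 0x20005000280004001000080000000000000000000000000000000) (nat_lit 0x0) (nat_lit 0xc0004000000046001a000500000000000000000000000000000000000) := T_32 (nat_lit 210) (nat_lit 227) (nat_lit 7) (nat_lit 5) (nat_lit 9) L86844 (by decide +kernel)
theorem L86846 : W_32 (nat_lit 8) (nat_lit 0x5000280004001000080000000000000000000000000000000) (nat_lit 0x0) (nat_lit 0x10001c000e0007000080046001a000700008000000000000000000000000000000) := Q_32 (nat_lit 209) (C_32 L7075 (C_32 L6829 (C_32 L86840 (C_32 L86845 N_32)))) (by decide +kernel)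
theorem L86847 : W_32 (nat_lit 2) (nat_lit 0x40002000500028000e001000080000000000000000000000000000000) (nat_lit 0x0) (nat_lit 0x10000800040000000000000000000000000000000000000000000000000000) := D_32 (nat_lit 227) (nat_lit 210) (nat_lit 244) (nat_lit 7) (nat_lit 5) (nat_lit 9) (nat_lit 7) (nat_lit 5) (nat_lit 10) (by decide +kernel)
theorem L86848 : W_32 (nat_lit 3) (nat_lit 0x2000500028000e001000080000000000000000000000000000000) (nat_lit 0x0) (nat_lit 0x10000c00040000000040000000000000000000000000000000000000000000) := T_32 (nat_lit 226) (nat_lit 174) (nat_lit 4) (nat_lit 5) (nat_lit 13) L86847 (by decide +kernel)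
theorem L86849 : W_32 (nat_lit 4) (nat_lit 0x20005000280006001000080000000000000000000000000000000) (nat_lit 0x0) (nat_lit 0x10000c00040000000040008000400000000000000000000000000000000000) := T_32 (nat_lit 159) (nat_lit 142) (nat_lit 6) (nat_lit 5) (nat_lit 12) L86848 (by decide +kernel)
theorem L86850 : W_32 (nat_lit 5) (nat_lit 0x20005000280004001000080000000000000000000000000000000) (nat_lit 0x0) (nat_lit 0x10000c0004000000004000a000500000000000000000000000000000000000) := T_32 (nat_lit 157) (nat_lit 140) (nat_lit 4) (nat_lit 5) (nat_lit 12) L86849 (by decide +kernel)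
theorem L86851 : W_32 (nat_lit 8) (nat_lit 0x5000280004001000080000000000000000000000000000000) (nat_lit 0x0) (nat_lit 0x10001c000e0007000080004000a000700008000000000000000000000000000000) := Q_32 (nat_lit 209) (C_32 L86840 (C_32 L6829 (C_32 L7075 (C_32 L86850 N_32)))) (by decide +kernel)
theorem L86852 : W_32 (nat_lit 2) (nat_lit 0xc00030005800280014001000080000000000000000000000000000000) (nat_lit 0x0) (nat_lit 0x100008000000000000000040000000000000000000000000000000000000000000) := D_32 (nat_lit 243) (nat_lit 260) (nat_lit 174) (nat_lit 4) (nat_lit 5) (nat_lit 15) (nat_lit 4) (nat_lit 5) (nat_lit 14) (by decide +kernel)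
theorem L86853 : W_32 (nat_lit 3) (nat_lit 0x800030005800280014001000080000000000000000000000000000000) (nat_lit 0x0) (nat_lit 0x100018000400000000000040000000000000000000000000000000000000000000) := T_32 (nat_lit 226) (nat_lit 244) (nat_lit 7) (nat_lit 5) (nat_lit 10) L86852 (by decide +kernel)
theorem L86854 : W_32 (nat_lit 4) (nat_lit 0x30005800280014001000080000000000000000000000000000000) (nat_lit 0x0) (nat_lit 0x100018000c00040000000040000000000000000000000000000000000000000000) := T_32 (nat_lit 227) (nat_lit 210) (nat_lit 7) (nat_lit 5) (nat_lit 9) L86853 (by decide +kernel)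
theorem L86855 : W_32 (nat_lit 5) (nat_lit 0x30005000280014001000080000000000000000000000000000000) (nat_lit 0x0) (nat_lit 0x100018000c00040000800040000000200000000000000000000000000000000000) := T_32 (nat_lit 191) (nat_lit 141) (nat_lit 5) (nat_lit 5) (nat_lit 8) L86854 (by decide +kernel)
theorem L86856 : W_32 (nat_lit 6) (nat_lit 0x20005000280014001000080000000000000000000000000000000) (nat_lit 0x0) (nat_lit 0x100018000e00050000800040000000200000000000000000000000000000000000) := T_32 (nat_lit 208) (nat_lit 225) (nat_lit 5) (nat_lit 5) (nat_lit 9) L86855 (by decide +kernel)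
theorem L86857 : W_32 (nat_lit 7) (nat_lit 0x20005000280004001000080000000000000000000000000000000) (nat_lit 0x0) (nat_lit 0x100018000e00050000800040010000a00000000000000000000000000000000000) := T_32 (nat_lit 160) (nat_lit 143) (nat_lit 6) (nat_lit 7) (nat_lit 11) L86856 (by decide +kernel)
theorem L86858 : W_32 (nat_lit 3) (nat_lit 0x60005000280016001000080000000000000000000000000000000) (nat_lit 0x0) (nat_lit 0x400000000000460008000000000000000000000000000000000000000) := T_32 (nat_lit 159) (nat_lit 178) (nat_lit 3) (nat_lit 4) (nat_lit 9) L86841 (by decide +kernel)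
theorem L86859 : W_32 (nat_lit 4) (nat_lit 0x60005000280014001000080000000000000000000000000000000) (nat_lit 0x0) (nat_lit 0x40000000000046000a000100000000000000000000000000000000000) := T_32 (nat_lit 157) (nat_lit 140) (nat_lit 4) (nat_lit 5) (nat_lit 12) L86858 (by decide +kernel)
theorem L86860 : W_32 (nat_lit 5) (nat_lit 0x60005000280004001000080000000000000000000000000000000) (nat_lit 0x0) (nat_lit 0x40000000000046001a000900000000000000000000000000000000000) := T_32 (nat_lit 160) (nat_lit 143) (nat_lit 6) (nat_lit 7) (nat_lit 11) L86859 (by decide +kernel)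
theorem L86861 : W_32 (nat_lit 6) (nat_lit 0x20005000280004001000080000000000000000000000000000000) (nat_lit 0x0) (nat_lit 0xc0004000000046001a000900000000000000000000000000000000000) := T_32 (nat_lit 210) (nat_lit 227) (nat_lit 7) (nat_lit 5) (nat_lit 9) L86860 (by decide +kernel)
theorem L86862 : W_32 (nat_lit 8) (nat_lit 0x5000280004001000080000000000000000000000000000000) (nat_lit 0x0) (nat_lit 0x10001c000e0007000080046001a000b00008000000000000000000000000000000) := Q_32 (nat_lit 209) (C_32 L6829 (C_32 L7075 (C_32 L86857 (C_32 L86861 N_32)))) (by decide +kernel)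
theorem L86863 : W_32 (nat_lit 2) (nat_lit 0x2000500028001c001000080000000000000000000000000000000) (nat_lit 0x0) (nat_lit 0x400002000100000000000000000000000000000000000) := D_32 (nat_lit 157) (nat_lit 178) (nat_lit 140) (nat_lit 3) (nat_lit 4) (nat_lit 9) (nat_lit 4) (nat_lit 5) (nat_lit 12) (by decide +kernel)
theorem L86864 : W_32 (nat_lit 3) (nat_lit 0x20005000280014001000080000000000000000000000000000000) (nat_lit 0x0) (nat_lit 0x40000a000500000000000000000000000000000000000) := T_32 (nat_lit 159) (nat_lit 142) (nat_lit 6) (nat_lit 5) (nat_lit 12) L86863 (by decide +kernel)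
theorem L86865 : W_32 (nat_lit 4) (nat_lit 0x20005000280004001000080000000000000000000000000000000) (nat_lit 0x0) (nat_lit 0x40001a000d00000000000000000000000000000000000) := T_32 (nat_lit 160) (nat_lit 143) (nat_lit 6) (nat_lit 7) (nat_lit 11) L86864 (by decide +kernel)
theorem L86866 : W_32 (nat_lit 2) (nat_lit 0x600020005000280014001000080000000000000000000000000000000) (nat_lit 0x0) (nat_lit 0x10000800040000000000000000000000000000000000000000000000000000) := D_32 (nat_lit 227) (nat_lit 210) (nat_lit 244) (nat_lit 7) (nat_lit 5) (nat_lit 9) (nat_lit 7) (nat_lit 5) (nat_lit 10) (by decide +kernel)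
theorem L86867 : W_32 (nat_lit 3) (nat_lit 0x200020005000280014001000080000000000000000000000000000000) (nat_lit 0x0) (nat_lit 0x14000c00040000000000000000000000000000000000000000000000000000) := T_32 (nat_lit 226) (nat_lit 242) (nat_lit 5) (nat_lit 5) (nat_lit 10) L86866 (by decide +kernel)
theorem L86868 : W_32 (nat_lit 4) (nat_lit 0x200020005000280004001000080000000000000000000000000000000) (nat_lit 0x0) (nat_lit 0x14000c00040000000000010000800000000000000000000000000000000000) := T_32 (nat_lit 160) (nat_lit 143) (nat_lit 6) (nat_lit 7) (nat_lit 11) L86867 (by decide +kernel)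
theorem L86869 : W_32 (nat_lit 5) (nat_lit 0x20005000280004001000080000000000000000000000000000000) (nat_lit 0x0) (nat_lit 0x14000e00050000000000010000800000000000000000000000000000000000) := T_32 (nat_lit 225) (nat_lit 208) (nat_lit 5) (nat_lit 5) (nat_lit 9) L86868 (by decide +kernel)
theorem L86870 : W_32 (nat_lit 7) (nat_lit 0x5000280004001000080000000000000000000000000000000) (nat_lit 0x0) (nat_lit 0x14000e0007000000046001a000d00000000000000000000000000000000000) := Q_32 (nat_lit 209) (C_32 L86861 (C_32 L86850 (C_32 L6829 (C_32 L86865 (C_32 L86869 N_32))))) (by decide +kernel)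
theorem L86871 : W_32 (nat_lit 2) (nat_lit 0x800020005000280016001000080000000000000000000000000000000) (nat_lit 0x0) (nat_lit 0x10000400000000000040000000000000000000000000000000000000000000) := D_32 (nat_lit 226) (nat_lit 244) (nat_lit 174) (nat_lit 7) (nat_lit 5) (nat_lit 10) (nat_lit 4) (nat_lit 5) (nat_lit 13) (by decide +kernel)
theorem L86872 : W_32 (nat_lit 3) (nat_lit 0x800020005000280014001000080000000000000000000000000000000) (nat_lit 0x0) (nat_lit 0x10000400000000000040002000100000000000000000000000000000000000) := T_32 (nat_lit 157) (nat_lit 140) (nat_lit 4) (nat_lit 5) (nat_lit 12) L86871 (by decide +kernel)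
theorem L86873 : W_32 (nat_lit 4) (nat_lit 0x20005000280014001000080000000000000000000000000000000) (nat_lit 0x0) (nat_lit 0x10000c00040000000040002000100000000000000000000000000000000000) := T_32 (nat_lit 227) (nat_lit 210) (nat_lit 7) (nat_lit 5) (nat_lit 9) L86872 (by decide +kernel)
theorem L86874 : W_32 (nat_lit 5) (nat_lit 0x20005000280004001000080000000000000000000000000000000) (nat_lit 0x0) (nat_lit 0x10000c00040000000040012000900000000000000000000000000000000000) := T_32 (nat_lit 160) (nat_lit 143) (nat_lit 6) (nat_lit 7) (nat_lit 11) L86873 (by decide +kernel)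
theorem L86875 : W_32 (nat_lit 2) (nat_lit 0x60005000280004001c00080000000000000000000000000000000) (nat_lit 0x0) (nat_lit 0x200120000000000000000000000000000000) := D_32 (nat_lit 141) (nat_lit 125) (nat_lit 128) (nat_lit 6) (nat_lit 5) (nat_lit 11) (nat_lit 2) (nat_lit 5) (nat_lit 8) (by decide +kernel)
theorem L86876 : W_32 (nat_lit 3) (nat_lit 0x60005000280004001800080000000000000000000000000000000) (nat_lit 0x0) (nat_lit 0x8000600120000000000000000000000000000000) := T_32 (nat_lit 142) (nat_lit 159) (nat_lit 6) (nat_lit 5) (nat_lit 12) L86875 (by decide +kernel)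
theorem L86877 : W_32 (nat_lit 4) (nat_lit 0x60005000280004001000080000000000000000000000000000000) (nat_lit 0x0) (nat_lit 0x18000e00120000000000000000000000000000000) := T_32 (nat_lit 143) (nat_lit 160) (nat_lit 6) (nat_lit 7) (nat_lit 11) L86876 (by decide +kernel)
theorem L86878 : W_32 (nat_lit 5) (nat_lit 0x20005000280004001000080000000000000000000000000000000) (nat_lit 0x0) (nat_lit 0x800040000000000018000e00120000000000000000000000000000000) := T_32 (nat_lit 210) (nat_lit 227) (nat_lit 7) (nat_lit 5) (nat_lit 9) L86877 (by decide +kernel)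
theorem L86879 : W_32 (nat_lit 6) (nat_lit 0x5000280004001000080000000000000000000000000000000) (nat_lit 0x0) (nat_lit 0x10000c0006000000044001a000f00120000000000000000000000000000000) := Q_32 (nat_lit 209) (C_32 L86865 (C_32 L86850 (C_32 L86874 (C_32 L86878 N_32)))) (by decide +kernel)
theorem L86880 : W_32 (nat_lit 2) (nat_lit 0x2000500028001e001000080000000000000000000000000000000) (nat_lit 0x0) (nat_lit 0x400000000000060000000000000000000000000000000000000000000) := D_32 (nat_lit 174) (nat_lit 173) (nat_lit 226) (nat_lit 1) (nat_lit 7) (nat_lit 9) (nat_lit 4) (nat_lit 5) (nat_lit 13) (by decide +kernel)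
theorem L86881 : W_32 (nat_lit 3) (nat_lit 0x2000500028001c001000080000000000000000000000000000000) (nat_lit 0x0) (nat_lit 0x400000000000460002000000000000000000000000000000000000000) := T_32 (nat_lit 157) (nat_lit 178) (nat_lit 3) (nat_lit 4) (nat_lit 9) L86880 (by decide +kernel)
theorem L86882 : W_32 (nat_lit 4) (nat_lit 0x20005000280014001000080000000000000000000000000000000) (nat_lit 0x0) (nat_lit 0x40000000000046000a000400000000000000000000000000000000000) := T_32 (nat_lit 159) (nat_lit 142) (nat_lit 6) (nat_lit 5) (nat_lit 12) L86881 (by decide +kernel)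
theorem L86883 : W_32 (nat_lit 5) (nat_lit 0x20005000280004001000080000000000000000000000000000000) (nat_lit 0x0) (nat_lit 0x40000000000046001a000c00000000000000000000000000000000000) := T_32 (nat_lit 160) (nat_lit 143) (nat_lit 6) (nat_lit 7) (nat_lit 11) L86882 (by decide +kernel)
theorem L86884 : W_32 (nat_lit 8) (nat_lit 0x5000280004001000080000000000000000000000000000000) (nat_lit 0x0) (nat_lit 0x10001c000e0007000080046001a000e00120000000000000000000000000000000) := Q_32 (nat_lit 209) (C_32 L86878 (C_32 L86869 (C_32 L86840 (C_32 L86883 N_32)))) (by decide +kernel)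
theorem L86885 : W_32 (nat_lit 9) (nat_lit 0x5000280000001000080000000000000000000000000000000) (nat_lit 0x0) (nat_lit 0x10001c000e0007000080046001e000f00138000400000000000000000000000000) := Q_32 (nat_lit 158) (C_32 L86817 (C_32 L86834 (C_32 L86846 (C_32 L86851 (C_32 L86862 (C_32 L86870 (C_32 L86879 (C_32 L86884 N_32)))))))) (by decide +kernel)
theorem L86886 : W_32 (nat_lit 8) (nat_lit 0x5000280000001000080000000000000000000000000000000) (nat_lit 0x0) (nat_lit 0x78f01d701dfc00800000000000000000000000000000000000) := Q_32 (nat_lit 176) (C_32 L86806 (C_32 L86682 (C_32 L86761 (C_32 L86692 N_32)))) (by decide +kernel)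
theorem L86887 : W_32 (nat_lit 11) (nat_lit 0x5000280000001000080000000000000000000000000000000) (nat_lit 0x0) (nat_lit 0x28001c000e000700f8e03d001df800f80138001400000000000000000000000000) := Q_32 (nat_lit 176) (C_32 L86806 (C_32 L86182 (C_32 L86692 (C_32 L86799 (C_32 L86676 N_32))))) (by decide +kernel)
theorem L86888 : W_32 (nat_lit 8) (nat_lit 0x5000280000001000080000000000000000000000000000000) (nat_lit 0x0) (nat_lit 0x400020038e01d601dc000c00020000000000000000000000000000000) := Q_32 (nat_lit 176) (C_32 L86806 (C_32 L86687 (C_32 L86761 (C_32 L86690 N_32)))) (by decide +kernel)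
theorem L86889 : W_32 (nat_lit 14) (nat_lit 0x5000200000001000080000000000000000000000000000000) (nat_lit 0x0) (nat_lit 0x38001c000f0007e0f8f03df01dfc00fc013c001400000000000000000000000000) := Q_32 (nat_lit 175) (C_32 L86688 (C_32 L86693 (C_32 L86694 (C_32 L86760 (C_32 L86763 (C_32 L86800 (C_32 L86807 (C_32 L86885 (C_32 L86886 (C_32 L86887 (C_32 L86888 N_32))))))))))) (by decide +kernel)
theorem L86890 : W_32 (nat_lit 15) (nat_lit 0x5000200000001000080000000000000000000000000000000) (nat_lit 0x0) (nat_lit 0x50002800f7c07ac03cf0017000f8013c000000000000000000000000000000) := Q_32 (nat_lit 193) (C_32 L85303 (C_32 L23864 (C_32 L85296 (C_32 L85298 N_32)))) (by decide +kernel)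
theorem L86891 : W_32 (nat_lit 8) (nat_lit 0x7000200000001000080000000000000000000000000000000) (nat_lit 0x0) (nat_lit 0x40002800770038003d00010000800000000000000000000000000000000000) := Q_32 (nat_lit 195) (C_32 L86498 (C_32 L23858 (C_32 L84919 (C_32 L10288 (C_32 L5280 N_32))))) (by decide +kernel)
theorem L86892 : W_32 (nat_lit 11) (nat_lit 0x5000200000001000080000000000000000000000000000000) (nat_lit 0x0) (nat_lit 0x4000280077c03ac03d70010000800000000000000000000000000000000000) := Q_32 (nat_lit 193) (C_32 L86891 (C_32 L23864 (C_32 L86481 (C_32 L85298 N_32)))) (by decide +kernel)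
theorem L86893 : W_32 (nat_lit 11) (nat_lit 0x5000200000001000080000000000000000000000000000000) (nat_lit 0x0) (nat_lit 0x4000200071c03ac03df0010000800000000000000000000000000000000000) := Q_32 (nat_lit 193) (C_32 L80497 (C_32 L23864 (C_32 L86486 (C_32 L85298 N_32)))) (by decide +kernel)
theorem L86894 : W_32 (nat_lit 10) (nat_lit 0x5000200000001000080000000000000000000000000000000) (nat_lit 0x0) (nat_lit 0x4000280077e03ae03db8010000800000000000000000000000000000000000) := Q_32 (nat_lit 193) (C_32 L86891 (C_32 L10059 (C_32 L86491 (C_32 L85298 N_32)))) (by decide +kernel)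
theorem L86895 : W_32 (nat_lit 2) (nat_lit 0x7000300008001c00080000000000000000000000000000000) (nat_lit 0x0) (nat_lit 0x200110000000000000000000000000000000) := D_32 (nat_lit 141) (nat_lit 124) (nat_lit 128) (nat_lit 4) (nat_lit 6) (nat_lit 11) (nat_lit 2) (nat_lit 5) (nat_lit 8) (by decide +kernel)
theorem L86896 : W_32 (nat_lit 3) (nat_lit 0x5000300008001c00080000000000000000000000000000000) (nat_lit 0x0) (nat_lit 0x20002000000000000200110000000000000000000000000000000) := T_32 (nat_lit 193) (nat_lit 209) (nat_lit 5) (nat_lit 6) (nat_lit 8) L86895 (by decide +kernel)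
theorem L86897 : W_32 (nat_lit 2) (nat_lit 0x7000300018001600080000000000000000000000000000000) (nat_lit 0x0) (nat_lit 0x800040000000000004000000000000000000000000000000000000000) := D_32 (nat_lit 210) (nat_lit 227) (nat_lit 158) (nat_lit 6) (nat_lit 6) (nat_lit 13) (nat_lit 4) (nat_lit 6) (nat_lit 12) (by decide +kernel)
theorem L86898 : W_32 (nat_lit 3) (nat_lit 0x7000300018001400080000000000000000000000000000000) (nat_lit 0x0) (nat_lit 0x800040000000000004000200010000000000000000000000000000000) := T_32 (nat_lit 141) (nat_lit 124) (nat_lit 4) (nat_lit 6) (nat_lit 11) L86897 (by decide +kernel)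
theorem L86899 : W_32 (nat_lit 4) (nat_lit 0x5000300018001400080000000000000000000000000000000) (nat_lit 0x0) (nat_lit 0x800060002000000004000200010000000000000000000000000000000) := T_32 (nat_lit 193) (nat_lit 209) (nat_lit 5) (nat_lit 6) (nat_lit 8) L86898 (by decide +kernel)
theorem L86900 : W_32 (nat_lit 2) (nat_lit 0x40007000b00008001600080000000000000000000000000000000) (nat_lit 0x0) (nat_lit 0x10000800000000000000010000000000000000000000000000000000000000) := D_32 (nat_lit 227) (nat_lit 160) (nat_lit 244) (nat_lit 6) (nat_lit 6) (nat_lit 13) (nat_lit 6) (nat_lit 6) (nat_lit 14) (by decide +kernel)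
theorem L86901 : W_32 (nat_lit 3) (nat_lit 0x7000b00008001600080000000000000000000000000000000) (nat_lit 0x0) (nat_lit 0x10000800040000000000014000000000000000000000000000000000000000) := T_32 (nat_lit 210) (nat_lit 158) (nat_lit 4) (nat_lit 6) (nat_lit 12) L86900 (by decide +kernel)
theorem L86902 : W_32 (nat_lit 4) (nat_lit 0x7000300008001600080000000000000000000000000000000) (nat_lit 0x0) (nat_lit 0x10000800040000000c00014000000000000000000000000000000000000000) := T_32 (nat_lit 179) (nat_lit 178) (nat_lit 1) (nat_lit 9) (nat_lit 10) L86901 (by decide +kernel)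
theorem L86903 : W_32 (nat_lit 5) (nat_lit 0x7000300008001400080000000000000000000000000000000) (nat_lit 0x0) (nat_lit 0x10000800040000000c00014000200010000000000000000000000000000000) := T_32 (nat_lit 141) (nat_lit 124) (nat_lit 4) (nat_lit 6) (nat_lit 11) L86902 (by decide +kernel)
theorem L86904 : W_32 (nat_lit 6) (nat_lit 0x5000300008001400080000000000000000000000000000000) (nat_lit 0x0) (nat_lit 0x10000800060002000c00014000200010000000000000000000000000000000) := T_32 (nat_lit 193) (nat_lit 209) (nat_lit 5) (nat_lit 6) (nat_lit 8) L86903 (by decide +kernel)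
theorem L86905 : W_32 (nat_lit 2) (nat_lit 0x7000300008001e00080000000000000000000000000000000) (nat_lit 0x0) (nat_lit 0x40000000000006000000000000000000000000000000000000000) := D_32 (nat_lit 158) (nat_lit 157) (nat_lit 210) (nat_lit 1) (nat_lit 8) (nat_lit 8) (nat_lit 4) (nat_lit 6) (nat_lit 12) (by decide +kernel)
theorem L86906 : W_32 (nat_lit 3) (nat_lit 0x7000300008001600080000000000000000000000000000000) (nat_lit 0x0) (nat_lit 0x40000000000006000800100000000000000000000000000000000) := T_32 (nat_lit 143) (nat_lit 128) (nat_lit 2) (nat_lit 5) (nat_lit 8) L86905 (by decide +kernel)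
theorem L86907 : W_32 (nat_lit 4) (nat_lit 0x7000300008001400080000000000000000000000000000000) (nat_lit 0x0) (nat_lit 0x40000000000006000a00110000000000000000000000000000000) := T_32 (nat_lit 141) (nat_lit 124) (nat_lit 4) (nat_lit 6) (nat_lit 11) L86906 (by decide +kernel)
theorem L86908 : W_32 (nat_lit 5) (nat_lit 0x5000300008001400080000000000000000000000000000000) (nat_lit 0x0) (nat_lit 0x60002000000006000a00110000000000000000000000000000000) := T_32 (nat_lit 193) (nat_lit 209) (nat_lit 5) (nat_lit 6) (nat_lit 8) L86907 (by decide +kernel)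
theorem L86909 : W_32 (nat_lit 2) (nat_lit 0x5000300004001e00090000000000000000000000000000000) (nat_lit 0x0) (nat_lit 0x2000080000000000020000000000000000000000000000000) := D_32 (nat_lit 175) (nat_lit 125) (nat_lit 193) (nat_lit 6) (nat_lit 5) (nat_lit 11) (nat_lit 7) (nat_lit 5) (nat_lit 7) (by decide +kernel)
theorem L86910 : W_32 (nat_lit 3) (nat_lit 0x5000300004001e00080000000000000000000000000000000) (nat_lit 0x0) (nat_lit 0x2000080000000000038000000000000000000000000000000) := T_32 (nat_lit 124) (nat_lit 123) (nat_lit 0) (nat_lit 8) (nat_lit 8) L86909 (by decide +kernel)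
theorem L86911 : W_32 (nat_lit 4) (nat_lit 0x5000300000001e00080000000000000000000000000000000) (nat_lit 0x0) (nat_lit 0x2000080006000000038000000000000000000000000000000) := T_32 (nat_lit 158) (nat_lit 157) (nat_lit 1) (nat_lit 8) (nat_lit 8) L86910 (by decide +kernel)
theorem L86912 : W_32 (nat_lit 5) (nat_lit 0x5000300000001c00080000000000000000000000000000000) (nat_lit 0x0) (nat_lit 0x2000080006000200138000000000000000000000000000000) := T_32 (nat_lit 141) (nat_lit 128) (nat_lit 2) (nat_lit 5) (nat_lit 8) L86911 (by decide +kernel)
theorem L86913 : W_32 (nat_lit 6) (nat_lit 0x5000300000001400080000000000000000000000000000000) (nat_lit 0x0) (nat_lit 0x2000080016000a00138000000000000000000000000000000) := T_32 (nat_lit 143) (nat_lit 160) (nat_lit 6) (nat_lit 7) (nat_lit 11) L86912 (by decide +kernel)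
theorem L86914 : W_32 (nat_lit 5) (nat_lit 0x5000300010001400080000000000000000000000000000000) (nat_lit 0x0) (nat_lit 0x80006000200000000c000200030000000000000000000000000000000) := T_32 (nat_lit 159) (nat_lit 125) (nat_lit 7) (nat_lit 6) (nat_lit 7) L86899 (by decide +kernel)
theorem L86915 : W_32 (nat_lit 6) (nat_lit 0x5000300000001400080000000000000000000000000000000) (nat_lit 0x0) (nat_lit 0x80006000200000001c000a00030000000000000000000000000000000) := T_32 (nat_lit 160) (nat_lit 143) (nat_lit 6) (nat_lit 7) (nat_lit 11) L86914 (by decide +kernel)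
theorem L86916 : W_32 (nat_lit 7) (nat_lit 0x5000300000001400080000000000000000000000000000000) (nat_lit 0x0) (nat_lit 0x10000800060002000c0001c000200030000000000000000000000000000000) := T_32 (nat_lit 159) (nat_lit 125) (nat_lit 7) (nat_lit 6) (nat_lit 7) L86904 (by decide +kernel)
theorem L86917 : W_32 (nat_lit 7) (nat_lit 0x5000300000001400080000000000000000000000000000000) (nat_lit 0x0) (nat_lit 0x1f000b0013c000000000000000000000000000000) := T_32 (nat_lit 125) (nat_lit 159) (nat_lit 7) (nat_lit 6) (nat_lit 7) L86456 (by decide +kernel)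
theorem L86918 : W_32 (nat_lit 4) (nat_lit 0x5000300000001c00080000000000000000000000000000000) (nat_lit 0x0) (nat_lit 0x20002000000008000200130000000000000000000000000000000) := T_32 (nat_lit 159) (nat_lit 125) (nat_lit 7) (nat_lit 6) (nat_lit 7) L86896 (by decide +kernel)
theorem L86919 : W_32 (nat_lit 5) (nat_lit 0x5000300000001400080000000000000000000000000000000) (nat_lit 0x0) (nat_lit 0x20002000000018000a00130000000000000000000000000000000) := T_32 (nat_lit 143) (nat_lit 160) (nat_lit 6) (nat_lit 7) (nat_lit 11) L86918 (by decide +kernel)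
theorem L86920 : W_32 (nat_lit 6) (nat_lit 0x5000300000001400080000000000000000000000000000000) (nat_lit 0x0) (nat_lit 0x6000200000000e000a00130000000000000000000000000000000) := T_32 (nat_lit 159) (nat_lit 125) (nat_lit 7) (nat_lit 6) (nat_lit 7) L86908 (by decide +kernel)
theorem L86921 : W_32 (nat_lit 5) (nat_lit 0x5000300000001400080000000000000000000000000000000) (nat_lit 0x0) (nat_lit 0x40002000200008001c000800020000000000000000000000000000000) := T_32 (nat_lit 159) (nat_lit 125) (nat_lit 7) (nat_lit 6) (nat_lit 7) L74749 (by decide +kernel)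
theorem L86922 : W_32 (nat_lit 2) (nat_lit 0x5000300004001e00090000000000000000000000000000000) (nat_lit 0x0) (nat_lit 0x2000080008000000000000000000000000000000000000000) := D_32 (nat_lit 193) (nat_lit 159) (nat_lit 175) (nat_lit 4) (nat_lit 6) (nat_lit 11) (nat_lit 7) (nat_lit 5) (nat_lit 7) (by decide +kernel)
theorem L86923 : W_32 (nat_lit 3) (nat_lit 0x5000300004001e00080000000000000000000000000000000) (nat_lit 0x0) (nat_lit 0x2000080008000000018000000000000000000000000000000) := T_32 (nat_lit 124) (nat_lit 123) (nat_lit 0) (nat_lit 8) (nat_lit 8) L86922 (by decide +kernel)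
theorem L86924 : W_32 (nat_lit 4) (nat_lit 0x5000300000001e00080000000000000000000000000000000) (nat_lit 0x0) (nat_lit 0x200008000e000000018000000000000000000000000000000) := T_32 (nat_lit 158) (nat_lit 157) (nat_lit 1) (nat_lit 8) (nat_lit 8) L86923 (by decide +kernel)
theorem L86925 : W_32 (nat_lit 5) (nat_lit 0x5000300000001c00080000000000000000000000000000000) (nat_lit 0x0) (nat_lit 0x200008000e000200118000000000000000000000000000000) := T_32 (nat_lit 141) (nat_lit 128) (nat_lit 2) (nat_lit 5) (nat_lit 8) L86924 (by decide +kernel)
theorem L86926 : W_32 (nat_lit 6) (nat_lit 0x5000300000001400080000000000000000000000000000000) (nat_lit 0x0) (nat_lit 0x200008001e000a00118000000000000000000000000000000) := T_32 (nat_lit 143) (nat_lit 160) (nat_lit 6) (nat_lit 7) (nat_lit 11) L86925 (by decide +kernel)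
theorem L86927 : W_32 (nat_lit 8) (nat_lit 0x5000300000001000080000000000000000000000000000000) (nat_lit 0x0) (nat_lit 0x10000c00060002000c8001f000f0013c000000000000000000000000000000) := Q_32 (nat_lit 142) (C_32 L86913 (C_32 L86915 (C_32 L86916 (C_32 L86917 (C_32 L86919 (C_32 L86920 (C_32 L86921 (C_32 L86926 N_32)))))))) (by decide +kernel)
theorem L86928 : W_32 (nat_lit 2) (nat_lit 0xd000380010001000080000000000000000000000000000000) (nat_lit 0x0) (nat_lit 0x32000000000000000000000000000000000000000000000000) := D_32 (nat_lit 196) (nat_lit 197) (nat_lit 193) (nat_lit 0) (nat_lit 10) (nat_lit 11) (nat_lit 0) (nat_lit 9) (nat_lit 11) (by decide +kernel)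
theorem L86929 : W_32 (nat_lit 3) (nat_lit 0xd000300010001000080000000000000000000000000000000) (nat_lit 0x0) (nat_lit 0x320000c0000000000000000000000000000000000000000000) := T_32 (nat_lit 175) (nat_lit 174) (nat_lit 3) (nat_lit 4) (nat_lit 10) L86928 (by decide +kernel)
theorem L86930 : W_32 (nat_lit 4) (nat_lit 0xd000300000001000080000000000000000000000000000000) (nat_lit 0x0) (nat_lit 0x320000c0010000800000000000000000000000000000000000) := T_32 (nat_lit 160) (nat_lit 143) (nat_lit 6) (nat_lit 7) (nat_lit 11) L86929 (by decide +kernel)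
theorem L86931 : W_32 (nat_lit 2) (nat_lit 0x1d000300000001000080000000000000000000000000000000) (nat_lit 0x0) (nat_lit 0x4c0000000000000000000000000000000000000000000) := D_32 (nat_lit 175) (nat_lit 174) (nat_lit 178) (nat_lit 3) (nat_lit 4) (nat_lit 10) (nat_lit 3) (nat_lit 5) (nat_lit 10) (by decide +kernel)
theorem L86932 : W_32 (nat_lit 3) (nat_lit 0xd000300000001000080000000000000000000000000000000) (nat_lit 0x0) (nat_lit 0x300004c0000000000000000000000000000000000000000000) := T_32 (nat_lit 196) (nat_lit 197) (nat_lit 0) (nat_lit 10) (nat_lit 11) L86931 (by decide +kernel)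
theorem L86933 : W_32 (nat_lit 6) (nat_lit 0xd000300000001000080000000000000000000000000000000) (nat_lit 0x0) (nat_lit 0x8002c00770032000c00018000800000000000000000000000000000000000) := Q_32 (nat_lit 193) (C_32 L86432 (C_32 L83626 (C_32 L11732 N_32))) (by decide +kernel)
theorem L86934 : W_32 (nat_lit 9) (nat_lit 0x5000300000001000080000000000000000000000000000000) (nat_lit 0x0) (nat_lit 0x58002c0077003a000cc001e000e00000000000000000000000000000000000) := Q_32 (nat_lit 195) (C_32 L86230 (C_32 L86930 (C_32 L85598 (C_32 L86932 (C_32 L86933 N_32))))) (by decide +kernel)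
theorem L86935 : W_32 (nat_lit 2) (nat_lit 0xd000380000001000080000000000000000000000000000000) (nat_lit 0x0) (nat_lit 0x32000000000000000000000000000000000000000000000000) := D_32 (nat_lit 196) (nat_lit 197) (nat_lit 193) (nat_lit 0) (nat_lit 10) (nat_lit 11) (nat_lit 0) (nat_lit 9) (nat_lit 11) (by decide +kernel)
theorem L86936 : W_32 (nat_lit 3) (nat_lit 0xd000300000001000080000000000000000000000000000000) (nat_lit 0x0) (nat_lit 0x320000c0000000000000000000000000000000000000000000) := T_32 (nat_lit 175) (nat_lit 174) (nat_lit 3) (nat_lit 4) (nat_lit 10) L86935 (by decide +kernel)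
theorem L86937 : W_32 (nat_lit 2) (nat_lit 0x3002d000380004001b00080000000000000000000000000000000) (nat_lit 0x0) (nat_lit 0x400120000000000000000000000000000000) := D_32 (nat_lit 142) (nat_lit 128) (nat_lit 125) (nat_lit 2) (nat_lit 5) (nat_lit 8) (nat_lit 6) (nat_lit 5) (nat_lit 11) (by decide +kernel)
theorem L86938 : W_32 (nat_lit 3) (nat_lit 0x3002d000380004001900080000000000000000000000000000000) (nat_lit 0x0) (nat_lit 0x600128000000000000000000000000000000) := T_32 (nat_lit 141) (nat_lit 123) (nat_lit 4) (nat_lit 5) (nat_lit 11) L86937 (by decide +kernel)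
theorem L86939 : W_32 (nat_lit 4) (nat_lit 0x3000d000380004001900080000000000000000000000000000000) (nat_lit 0x0) (nat_lit 0x30000000000000600128000000000000000000000000000000) := T_32 (nat_lit 197) (nat_lit 196) (nat_lit 0) (nat_lit 10) (nat_lit 11) L86938 (by decide +kernel)
theorem L86940 : W_32 (nat_lit 5) (nat_lit 0x3000d000380004001800080000000000000000000000000000000) (nat_lit 0x0) (nat_lit 0x30000000002000700128000000000000000000000000000000) := T_32 (nat_lit 140) (nat_lit 157) (nat_lit 4) (nat_lit 5) (nat_lit 12) L86939 (by decide +kernel)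
theorem L86941 : W_32 (nat_lit 6) (nat_lit 0x2000d000380004001800080000000000000000000000000000000) (nat_lit 0x0) (nat_lit 0x200010030000000002000700128000000000000000000000000000000) := T_32 (nat_lit 208) (nat_lit 225) (nat_lit 5) (nat_lit 5) (nat_lit 9) L86940 (by decide +kernel)
theorem L86942 : W_32 (nat_lit 7) (nat_lit 0x2000d000380004001000080000000000000000000000000000000) (nat_lit 0x0) (nat_lit 0x200010030000000012000f00128000000000000000000000000000000) := T_32 (nat_lit 143) (nat_lit 160) (nat_lit 6) (nat_lit 7) (nat_lit 11) L86941 (by decide +kernel)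
theorem L86943 : W_32 (nat_lit 2) (nat_lit 0xa0002002d000380014001000080000000000000000000000000000000) (nat_lit 0x0) (nat_lit 0x14000400000000000000000000000000000000000000000000000000000000) := D_32 (nat_lit 226) (nat_lit 242) (nat_lit 244) (nat_lit 5) (nat_lit 5) (nat_lit 10) (nat_lit 7) (nat_lit 5) (nat_lit 10) (by decide +kernel)
theorem L86944 : W_32 (nat_lit 3) (nat_lit 0x20002002d000380014001000080000000000000000000000000000000) (nat_lit 0x0) (nat_lit 0x14000c00040000000000000000000000000000000000000000000000000000) := T_32 (nat_lit 227) (nat_lit 210) (nat_lit 7) (nat_lit 5) (nat_lit 9) L86943 (by decide +kernel)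
theorem L86945 : W_32 (nat_lit 4) (nat_lit 0x2002d000380014001000080000000000000000000000000000000) (nat_lit 0x0) (nat_lit 0x14000e00050000000000000000000000000000000000000000000000000000) := T_32 (nat_lit 225) (nat_lit 208) (nat_lit 5) (nat_lit 5) (nat_lit 9) L86944 (by decide +kernel)
theorem L86946 : W_32 (nat_lit 5) (nat_lit 0x2002d000380004001000080000000000000000000000000000000) (nat_lit 0x0) (nat_lit 0x14000e00050000000000010000800000000000000000000000000000000000) := T_32 (nat_lit 160) (nat_lit 143) (nat_lit 6) (nat_lit 7) (nat_lit 11) L86945 (by decide +kernel)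
theorem L86947 : W_32 (nat_lit 6) (nat_lit 0x2000d000380004001000080000000000000000000000000000000) (nat_lit 0x0) (nat_lit 0x14000e00050030000000010000800000000000000000000000000000000000) := T_32 (nat_lit 197) (nat_lit 196) (nat_lit 0) (nat_lit 10) (nat_lit 11) L86946 (by decide +kernel)
theorem L86948 : W_32 (nat_lit 8) (nat_lit 0x2000d000380000001000080000000000000000000000000000000) (nat_lit 0x0) (nat_lit 0x14000e00050030000000017800f00128000000000000000000000000000000) := Q_32 (nat_lit 158) (C_32 L86124 (C_32 L82691 (C_32 L86942 (C_32 L86947 N_32)))) (by decide +kernel)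
theorem L86949 : W_32 (nat_lit 2) (nat_lit 0x3002d000380016001000080000000000000000000000000000000) (nat_lit 0x0) (nat_lit 0x9800000000000000000000000000000000000000) := D_32 (nat_lit 156) (nat_lit 159) (nat_lit 155) (nat_lit 3) (nat_lit 3) (nat_lit 9) (nat_lit 3) (nat_lit 2) (nat_lit 9) (by decide +kernel)
theorem L86950 : W_32 (nat_lit 3) (nat_lit 0x3002d000380014001000080000000000000000000000000000000) (nat_lit 0x0) (nat_lit 0xb800100000000000000000000000000000000000) := T_32 (nat_lit 157) (nat_lit 140) (nat_lit 4) (nat_lit 5) (nat_lit 12) L86949 (by decide +kernel)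
theorem L86951 : W_32 (nat_lit 4) (nat_lit 0x2002d000380014001000080000000000000000000000000000000) (nat_lit 0x0) (nat_lit 0x20001000000000000b800100000000000000000000000000000000000) := T_32 (nat_lit 208) (nat_lit 225) (nat_lit 5) (nat_lit 5) (nat_lit 9) L86950 (by decide +kernel)
theorem L86952 : W_32 (nat_lit 5) (nat_lit 0x2002d000380004001000080000000000000000000000000000000) (nat_lit 0x0) (nat_lit 0x20001000000000001b800900000000000000000000000000000000000) := T_32 (nat_lit 160) (nat_lit 143) (nat_lit 6) (nat_lit 7) (nat_lit 11) L86951 (by decide +kernel)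
theorem L86953 : W_32 (nat_lit 6) (nat_lit 0x2000d000380004001000080000000000000000000000000000000) (nat_lit 0x0) (nat_lit 0x20001003000000001b800900000000000000000000000000000000000) := T_32 (nat_lit 197) (nat_lit 196) (nat_lit 0) (nat_lit 10) (nat_lit 11) L86952 (by decide +kernel)
theorem L86954 : W_32 (nat_lit 2) (nat_lit 0x7002d000380004001c00080000000000000000000000000000000) (nat_lit 0x0) (nat_lit 0x200120000000000000000000000000000000) := D_32 (nat_lit 141) (nat_lit 125) (nat_lit 128) (nat_lit 6) (nat_lit 5) (nat_lit 11) (nat_lit 2) (nat_lit 5) (nat_lit 8) (by decide +kernel)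
theorem L86955 : W_32 (nat_lit 3) (nat_lit 0x7002d000380004001800080000000000000000000000000000000) (nat_lit 0x0) (nat_lit 0x8000600120000000000000000000000000000000) := T_32 (nat_lit 142) (nat_lit 159) (nat_lit 6) (nat_lit 5) (nat_lit 12) L86954 (by decide +kernel)
theorem L86956 : W_32 (nat_lit 4) (nat_lit 0x6002d000380004001800080000000000000000000000000000000) (nat_lit 0x0) (nat_lit 0x200010000000000008000600120000000000000000000000000000000) := T_32 (nat_lit 208) (nat_lit 225) (nat_lit 5) (nat_lit 5) (nat_lit 9) L86955 (by decide +kernel)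
theorem L86957 : W_32 (nat_lit 5) (nat_lit 0x6002d000380004001000080000000000000000000000000000000) (nat_lit 0x0) (nat_lit 0x200010000000000018000e00120000000000000000000000000000000) := T_32 (nat_lit 143) (nat_lit 160) (nat_lit 6) (nat_lit 7) (nat_lit 11) L86956 (by decide +kernel)
theorem L86958 : W_32 (nat_lit 6) (nat_lit 0x6000d000380004001000080000000000000000000000000000000) (nat_lit 0x0) (nat_lit 0x200010030000000018000e00120000000000000000000000000000000) := T_32 (nat_lit 197) (nat_lit 196) (nat_lit 0) (nat_lit 10) (nat_lit 11) L86957 (by decide +kernel)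
theorem L86959 : W_32 (nat_lit 7) (nat_lit 0x2000d000380004001000080000000000000000000000000000000) (nat_lit 0x0) (nat_lit 0xa00050030000000018000e00120000000000000000000000000000000) := T_32 (nat_lit 210) (nat_lit 227) (nat_lit 7) (nat_lit 5) (nat_lit 9) L86958 (by decide +kernel)
theorem L86960 : W_32 (nat_lit 8) (nat_lit 0x2000d000380000001000080000000000000000000000000000000) (nat_lit 0x0) (nat_lit 0xa0005003000000001f800f00128000000000000000000000000000000) := Q_32 (nat_lit 158) (C_32 L86942 (C_32 L82683 (C_32 L86953 (C_32 L86959 N_32)))) (by decide +kernel)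
theorem L86961 : W_32 (nat_lit 9) (nat_lit 0xd000380000001000080000000000000000000000000000000) (nat_lit 0x0) (nat_lit 0x28001c000e0007003000000001f800f00128000000000000000000000000000000) := Q_32 (nat_lit 209) (C_32 L86119 (C_32 L82681 (C_32 L86948 (C_32 L86960 N_32)))) (by decide +kernel)
theorem L86962 : W_32 (nat_lit 10) (nat_lit 0xd000300000001000080000000000000000000000000000000) (nat_lit 0x0) (nat_lit 0x28001c000e000700300000c001f800f00128000000000000000000000000000000) := T_32 (nat_lit 175) (nat_lit 174) (nat_lit 3) (nat_lit 4) (nat_lit 10) L86961 (by decide +kernel)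
theorem L86963 : W_32 (nat_lit 11) (nat_lit 0xd000300000001000080000000000000000000000000000000) (nat_lit 0x0) (nat_lit 0x5c002e003700020000c001f800b00018000000000000000000000000000000) := T_32 (nat_lit 175) (nat_lit 174) (nat_lit 3) (nat_lit 4) (nat_lit 10) L86114 (by decide +kernel)
theorem L86964 : W_32 (nat_lit 2) (nat_lit 0x20000f000300000001000080000000000000000000000000000000) (nat_lit 0x0) (nat_lit 0x400030000000000000000000000000000000000000000000000000) := D_32 (nat_lit 196) (nat_lit 197) (nat_lit 214) (nat_lit 0) (nat_lit 10) (nat_lit 11) (nat_lit 3) (nat_lit 6) (nat_lit 11) (by decide +kernel)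
theorem L86965 : W_32 (nat_lit 3) (nat_lit 0xf000300000001000080000000000000000000000000000000) (nat_lit 0x0) (nat_lit 0x700030000000000000000000000000000000000000000000000000) := T_32 (nat_lit 213) (nat_lit 212) (nat_lit 3) (nat_lit 5) (nat_lit 11) L86964 (by decide +kernel)
theorem L86966 : W_32 (nat_lit 6) (nat_lit 0xd000300000001000080000000000000000000000000000000) (nat_lit 0x0) (nat_lit 0x8000c00770032000000018000800000000000000000000000000000000000) := Q_32 (nat_lit 193) (C_32 L86432 (C_32 L83626 (C_32 L86965 N_32))) (by decide +kernel)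
theorem L86967 : W_32 (nat_lit 12) (nat_lit 0x5000300000001000080000000000000000000000000000000) (nat_lit 0x0) (nat_lit 0x28005c002e0077003a0000c001f800f00138000000000000000000000000000000) := Q_32 (nat_lit 195) (C_32 L86930 (C_32 L86936 (C_32 L86962 (C_32 L86963 (C_32 L86966 N_32))))) (by decide +kernel)
theorem L86968 : W_32 (nat_lit 6) (nat_lit 0x7000300000001000080000000000000000000000000000000) (nat_lit 0x0) (nat_lit 0x800740038000cc0006000200000000000000000000000000000000000) := Q_32 (nat_lit 195) (C_32 L86965 (C_32 L84231 N_32)) (by decide +kernel)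
theorem L86969 : W_32 (nat_lit 7) (nat_lit 0x7000300000001000080000000000000000000000000000000) (nat_lit 0x0) (nat_lit 0x400024007300380000c0008000400000000000000000000000000000000000) := Q_32 (nat_lit 195) (C_32 L86965 (C_32 L82205 (C_32 L15056 N_32))) (by decide +kernel)
theorem L86970 : W_32 (nat_lit 9) (nat_lit 0x5000300000001000080000000000000000000000000000000) (nat_lit 0x0) (nat_lit 0x78003c0077803a001ce001f000600000000000000000000000000000000000) := Q_32 (nat_lit 193) (C_32 L86968 (C_32 L86969 (C_32 L85057 (C_32 L83605 N_32)))) (by decide +kernel)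
theorem L86971 : W_32 (nat_lit 5) (nat_lit 0xd000300000001000080000000000000000000000000000000) (nat_lit 0x0) (nat_lit 0x2000700032001c00010000800000000000000000000000000000000000) := Q_32 (nat_lit 193) (C_32 L86965 (C_32 L11732 (C_32 L83595 N_32))) (by decide +kernel)
theorem L86972 : W_32 (nat_lit 9) (nat_lit 0x5000300000001000080000000000000000000000000000000) (nat_lit 0x0) (nat_lit 0x18002c0077003a001cc0016000a00000000000000000000000000000000000) := Q_32 (nat_lit 195) (C_32 L86936 (C_32 L86932 (C_32 L86230 (C_32 L86971 N_32)))) (by decide +kernel)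
theorem L86973 : W_32 (nat_lit 10) (nat_lit 0x5000300000001000080000000000000000000000000000000) (nat_lit 0x0) (nat_lit 0x14000e000700e8703cf01dfc00f8013c000400000000000000000000000000) := Q_32 (nat_lit 175) (C_32 L86682 (C_32 L86687 (C_32 L86644 (C_32 L86664 (C_32 L86676 N_32))))) (by decide +kernel)
theorem L86974 : W_32 (nat_lit 11) (nat_lit 0xd000300000001000080000000000000000000000000000000) (nat_lit 0x0) (nat_lit 0xf8007c00370002000cc0018000800000000000000000000000000000000000) := Q_32 (nat_lit 193) (C_32 L86432 (C_32 L83447 (C_32 L11732 N_32))) (by decide +kernel)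
theorem L86975 : W_32 (nat_lit 12) (nat_lit 0x5000300000001000080000000000000000000000000000000) (nat_lit 0x0) (nat_lit 0xf8007c0077003a001cc0018000800000000000000000000000000000000000) := Q_32 (nat_lit 195) (C_32 L86971 (C_32 L86966 (C_32 L86936 (C_32 L86932 (C_32 L86974 N_32))))) (by decide +kernel)
theorem L86976 : W_32 (nat_lit 5) (nat_lit 0x7000300010001000080000000000000000000000000000000) (nat_lit 0x0) (nat_lit 0x2800370018000c00000000000000000000000000000000000000000000) := T_32 (nat_lit 178) (nat_lit 179) (nat_lit 1) (nat_lit 9) (nat_lit 10) L86451 (by decide +kernel)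
theorem L86977 : W_32 (nat_lit 6) (nat_lit 0x7000300000001000080000000000000000000000000000000) (nat_lit 0x0) (nat_lit 0x2800370018000c00010000800000000000000000000000000000000000) := T_32 (nat_lit 160) (nat_lit 143) (nat_lit 6) (nat_lit 7) (nat_lit 11) L86976 (by decide +kernel)
theorem L86978 : W_32 (nat_lit 5) (nat_lit 0x7000300000001000080000000000000000000000000000000) (nat_lit 0x0) (nat_lit 0x2000700038001c00010000800000000000000000000000000000000000) := Q_32 (nat_lit 195) (C_32 L86965 (C_32 L11732 (C_32 L83595 N_32))) (by decide +kernel)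
theorem L86979 : W_32 (nat_lit 9) (nat_lit 0x5000300000001000080000000000000000000000000000000) (nat_lit 0x0) (nat_lit 0x48002c0077003a001c0001f000f0013c000000000000000000000000000000) := Q_32 (nat_lit 193) (C_32 L86977 (C_32 L86514 (C_32 L83605 (C_32 L86978 N_32)))) (by decide +kernel)
theorem L86980 : W_32 (nat_lit 9) (nat_lit 0x5000300000001000080000000000000000000000000000000) (nat_lit 0x0) (nat_lit 0x58002c0077003a001cc000f000e00130000000000000000000000000000000) := Q_32 (nat_lit 193) (C_32 L83605 (C_32 L86968 (C_32 L86969 (C_32 L83267 N_32)))) (by decide +kernel)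
theorem L86981 : W_32 (nat_lit 10) (nat_lit 0xd000300000001000080000000000000000000000000000000) (nat_lit 0x0) (nat_lit 0x40002400330002000cc001f000f0011c000000000000000000000000000000) := Q_32 (nat_lit 193) (C_32 L11732 (C_32 L85427 (C_32 L82205 N_32))) (by decide +kernel)
theorem L86982 : W_32 (nat_lit 11) (nat_lit 0x5000300000001000080000000000000000000000000000000) (nat_lit 0x0) (nat_lit 0x4000240073003a001cc001f000f0011c000000000000000000000000000000) := Q_32 (nat_lit 195) (C_32 L86971 (C_32 L86936 (C_32 L86932 (C_32 L86981 N_32)))) (by decide +kernel)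
theorem L86983 : W_32 (nat_lit 8) (nat_lit 0xf000300000001000080000000000000000000000000000000) (nat_lit 0x0) (nat_lit 0x100008003400000000c001c000e00118000000000000000000000000000000) := T_32 (nat_lit 175) (nat_lit 174) (nat_lit 3) (nat_lit 4) (nat_lit 10) L86125 (by decide +kernel)
theorem L86984 : W_32 (nat_lit 9) (nat_lit 0xd000300000001000080000000000000000000000000000000) (nat_lit 0x0) (nat_lit 0x10002800340002000cc001e000e00118000000000000000000000000000000) := Q_32 (nat_lit 193) (C_32 L11732 (C_32 L86983 (C_32 L84231 N_32))) (by decide +kernel)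
theorem L86985 : W_32 (nat_lit 10) (nat_lit 0x5000300000001000080000000000000000000000000000000) (nat_lit 0x0) (nat_lit 0x1000280074003a001cc001e000e00118000000000000000000000000000000) := Q_32 (nat_lit 195) (C_32 L86971 (C_32 L86936 (C_32 L86932 (C_32 L86984 N_32)))) (by decide +kernel)
theorem L86986 : W_32 (nat_lit 13) (nat_lit 0x5000200000001000080000000000000000000000000000000) (nat_lit 0x0) (nat_lit 0x2800fc007e007780fa703df01dfc00f8013c000400000000000000000000000000) := Q_32 (nat_lit 176) (C_32 L86927 (C_32 L86934 (C_32 L86967 (C_32 L86970 (C_32 L86972 (C_32 L86973 (C_32 L86975 (C_32 L86979 (C_32 L86980 (C_32 L86982 (C_32 L86985 N_32))))))))))) (by decide +kernel)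
theorem L86987 : W_32 (nat_lit 15) (nat_lit 0x5000200000001000080000000000000000000000000000000) (nat_lit 0x0) (nat_lit 0x78003c00f6003ac03df001f000f8013c000000000000000000000000000000) := Q_32 (nat_lit 193) (C_32 L80497 (C_32 L10037 (C_32 L86511 (C_32 L85298 N_32)))) (by decide +kernel)
theorem L86988 : W_32 (nat_lit 13) (nat_lit 0x5000200000001000080000000000000000000000000000000) (nat_lit 0x0) (nat_lit 0x58002c00f7c07ac03dc001f000f00000000000000000000000000000000000) := Q_32 (nat_lit 193) (C_32 L86891 (C_32 L10059 (C_32 L86492 (C_32 L85303 (C_32 L85298 N_32))))) (by decide +kernel)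
theorem L86992 : W_32 (nat_lit 13) (nat_lit 0x5000200000001000080000000000000000000000000000000) (nat_lit 0x0) (nat_lit 0xf8007c0077807a803de001f000f00000000000000000000000000000000000) := Q_32 (nat_lit 193) (C_32 L86891 (C_32 L86991 (C_32 L86492 (C_32 L85428 (C_32 L23868 N_32))))) (by decide +kernel)
theorem L86993 : W_32 (nat_lit 16) (nat_lit 0x4000200000001000080000000000000000000000000000000) (nat_lit 0x0) (nat_lit 0x3800fe007f80f7e0fbf03df81dfc00fc013c001c000e0001000000000000000000) := Q_32 (nat_lit 192) (C_32 L86472 (C_32 L86512 (C_32 L86513 (C_32 L86643 (C_32 L86889 (C_32 L86890 (C_32 L86892 (C_32 L86893 (C_32 L86894 (C_32 L86986 (C_32 L86987 (C_32 L86988 (C_32 L86992 N_32))))))))))))) (by decide +kernel)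
theorem L87178 : W_32 (nat_lit 2) (nat_lit 0x1c000c000b0001c000200000001000080000000000000000000000000000000) (nat_lit 0x0) (nat_lit 0x30010000000000000000000000000000000000000000000000000000000000) := D_32 (nat_lit 245) (nat_lit 232) (nat_lit 244) (nat_lit 2) (nat_lit 7) (nat_lit 14) (nat_lit 2) (nat_lit 6) (nat_lit 14) (by decide +kernel)
theorem L87179 : W_32 (nat_lit 3) (nat_lit 0x1c0004000b0001c000200000001000080000000000000000000000000000000) (nat_lit 0x0) (nat_lit 0x30018000000000000800000000000000000000000000000000000000000000) := T_32 (nat_lit 231) (nat_lit 179) (nat_lit 7) (nat_lit 9) (nat_lit 10) L87178 (by decide +kernel)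
theorem L87180 : W_32 (nat_lit 4) (nat_lit 0xc0004000b0001c000200000001000080000000000000000000000000000000) (nat_lit 0x0) (nat_lit 0x2000130018000000000000800000000000000000000000000000000000000000000) := T_32 (nat_lit 248) (nat_lit 265) (nat_lit 7) (nat_lit 9) (nat_lit 11) L87179 (by decide +kernel)
theorem L87181 : W_32 (nat_lit 5) (nat_lit 0x80004000b0001c000200000001000080000000000000000000000000000000) (nat_lit 0x0) (nat_lit 0x2800170018000000000000800000000000000000000000000000000000000000000) := T_32 (nat_lit 246) (nat_lit 263) (nat_lit 5) (nat_lit 9) (nat_lit 11) L87180 (by decide +kernel)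
theorem L87182 : W_32 (nat_lit 6) (nat_lit 0x4000b0001c000200000001000080000000000000000000000000000000) (nat_lit 0x0) (nat_lit 0x38001f0018000000000000800000000000000000000000000000000000000000000) := T_32 (nat_lit 247) (nat_lit 264) (nat_lit 4) (nat_lit 9) (nat_lit 15) L87181 (by decide +kernel)
theorem L87183 : W_32 (nat_lit 7) (nat_lit 0x400030001c000200000001000080000000000000000000000000000000) (nat_lit 0x0) (nat_lit 0x38001f0018000c00000000800000000000000000000000000000000000000000000) := T_32 (nat_lit 215) (nat_lit 214) (nat_lit 0) (nat_lit 11) (nat_lit 12) L87182 (by decide +kernel)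
theorem L88026 : W_32 (nat_lit 8) (nat_lit 0x30001c000200000001000080000000000000000000000000000000) (nat_lit 0x0) (nat_lit 0x38001f003c000c80020007c00080000000000000000000000000000000000000000) := Q_32 (nat_lit 230) (C_32 L87183 (C_32 L87064 (C_32 L88025 N_32))) (by decide +kernel)
theorem L88041 : W_32 (nat_lit 4) (nat_lit 0x400030001e000200000001000080000000000000000000000000000000) (nat_lit 0x0) (nat_lit 0x3000180008000000000001800000000000000000000000000000000000000000000) := T_32 (nat_lit 179) (nat_lit 180) (nat_lit 2) (nat_lit 6) (nat_lit 11) L85509 (by decide +kernel)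
theorem L88083 : W_32 (nat_lit 2) (nat_lit 0x1c000c00030001e000200010001000080000000000000000000000000000000) (nat_lit 0x0) (nat_lit 0x30010000000000000000000000000000000000000000000000000000000000) := D_32 (nat_lit 245) (nat_lit 232) (nat_lit 244) (nat_lit 2) (nat_lit 7) (nat_lit 14) (nat_lit 2) (nat_lit 6) (nat_lit 14) (by decide +kernel)
theorem L88084 : W_32 (nat_lit 3) (nat_lit 0x1c000400030001e000200010001000080000000000000000000000000000000) (nat_lit 0x0) (nat_lit 0x30018000000000000800000000000000000000000000000000000000000000) := T_32 (nat_lit 231) (nat_lit 179) (nat_lit 7) (nat_lit 9) (nat_lit 10) L88083 (by decide +kernel)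
theorem L88085 : W_32 (nat_lit 4) (nat_lit 0xc000400030001e000200010001000080000000000000000000000000000000) (nat_lit 0x0) (nat_lit 0x2000130018000000000000800000000000000000000000000000000000000000000) := T_32 (nat_lit 248) (nat_lit 265) (nat_lit 7) (nat_lit 9) (nat_lit 11) L88084 (by decide +kernel)
theorem L88086 : W_32 (nat_lit 5) (nat_lit 0x8000400030001e000200010001000080000000000000000000000000000000) (nat_lit 0x0) (nat_lit 0x2800170018000000000000800000000000000000000000000000000000000000000) := T_32 (nat_lit 246) (nat_lit 263) (nat_lit 5) (nat_lit 9) (nat_lit 11) L88085 (by decide +kernel)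
theorem L88087 : W_32 (nat_lit 6) (nat_lit 0x400030001e000200010001000080000000000000000000000000000000) (nat_lit 0x0) (nat_lit 0x38001f0018000000000000800000000000000000000000000000000000000000000) := T_32 (nat_lit 247) (nat_lit 264) (nat_lit 4) (nat_lit 9) (nat_lit 15) L88086 (by decide +kernel)
theorem L88088 : W_32 (nat_lit 7) (nat_lit 0x400030001e000200000001000080000000000000000000000000000000) (nat_lit 0x0) (nat_lit 0x38001f0018000000000000800010000800000000000000000000000000000000000) := T_32 (nat_lit 160) (nat_lit 143) (nat_lit 7) (nat_lit 7) (nat_lit 8) L88087 (by decide +kernel)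
theorem L89506 : W_32 (nat_lit 2) (nat_lit 0x10000400060003c001e001100080000000000000000000000000000000) (nat_lit 0x0) (nat_lit 0x1000000000000000008000400000000000000000000000000) := D_32 (nat_lit 123) (nat_lit 192) (nat_lit 106) (nat_lit 7) (nat_lit 4) (nat_lit 7) (nat_lit 7) (nat_lit 4) (nat_lit 6) (by decide +kernel)
theorem L89507 : W_32 (nat_lit 3) (nat_lit 0x100004000600034001e001100080000000000000000000000000000000) (nat_lit 0x0) (nat_lit 0x9000080000000000008000400000000000000000000000000) := T_32 (nat_lit 175) (nat_lit 195) (nat_lit 3) (nat_lit 4) (nat_lit 10) L89506 (by decide +kernel)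
theorem L89508 : W_32 (nat_lit 4) (nat_lit 0x100004000600034001e001000080000000000000000000000000000000) (nat_lit 0x0) (nat_lit 0x9000080000000180008000400000000000000000000000000) := T_32 (nat_lit 140) (nat_lit 139) (nat_lit 0) (nat_lit 7) (nat_lit 9) L89507 (by decide +kernel)
theorem L89509 : W_32 (nat_lit 5) (nat_lit 0x100004000600030001e001000080000000000000000000000000000000) (nat_lit 0x0) (nat_lit 0x90000e0000000180008000400000000000000000000000000) := T_32 (nat_lit 174) (nat_lit 173) (nat_lit 1) (nat_lit 7) (nat_lit 9) L89508 (by decide +kernel)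
theorem L89510 : W_32 (nat_lit 6) (nat_lit 0x100004000600030001c001000080000000000000000000000000000000) (nat_lit 0x0) (nat_lit 0x90000e0003000180008000400000000000000000000000000) := T_32 (nat_lit 157) (nat_lit 156) (nat_lit 3) (nat_lit 3) (nat_lit 9) L89509 (by decide +kernel)
theorem L89511 : W_32 (nat_lit 7) (nat_lit 0x1000040006000300018001000080000000000000000000000000000000) (nat_lit 0x0) (nat_lit 0x90000e0007000380008000400000000000000000000000000) := T_32 (nat_lit 158) (nat_lit 141) (nat_lit 4) (nat_lit 6) (nat_lit 12) L89510 (by decide +kernel)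
theorem L89512 : W_32 (nat_lit 8) (nat_lit 0x40006000300018001000080000000000000000000000000000000) (nat_lit 0x0) (nat_lit 0x10000800090000e0007000380008000400000000000000000000000000) := T_32 (nat_lit 228) (nat_lit 211) (nat_lit 7) (nat_lit 6) (nat_lit 9) L89511 (by decide +kernel)
theorem L89513 : W_32 (nat_lit 9) (nat_lit 0x40006000300008001000080000000000000000000000000000000) (nat_lit 0x0) (nat_lit 0x10000800090000e0017000b80008000400000000000000000000000000) := T_32 (nat_lit 160) (nat_lit 143) (nat_lit 6) (nat_lit 7) (nat_lit 11) L89512 (by decide +kernel)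
theorem L89514 : W_32 (nat_lit 10) (nat_lit 0x40006000300000001000080000000000000000000000000000000) (nat_lit 0x0) (nat_lit 0x10000800090000e001f000f80138000400000000000000000000000000) := Q_32 (nat_lit 159) (C_32 L85001 (C_32 L84495 (C_32 L89513 N_32))) (by decide +kernel)
theorem L89515 : W_32 (nat_lit 11) (nat_lit 0x6000300000001000080000000000000000000000000000000) (nat_lit 0x0) (nat_lit 0x100018000c00090000e001f000f80138000400000000000000000000000000) := Q_32 (nat_lit 210) (C_32 L89107 (C_32 L12034 (C_32 L89514 N_32))) (by decide +kernel)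
theorem L89516 : W_32 (nat_lit 6) (nat_lit 0x6000300000001000080000000000000000000000000000000) (nat_lit 0x0) (nat_lit 0x100008000c000000040001f000e00130000000000000000000000000000000) := Q_32 (nat_lit 159) (C_32 L86445 (C_32 L86448 (C_32 L86420 (C_32 L83324 (C_32 L15180 N_32))))) (by decide +kernel)
theorem L89603 : W_32 (nat_lit 2) (nat_lit 0x60007000200008001000080000000000000000000000000000000) (nat_lit 0x0) (nat_lit 0x400000000000100000000400000000000000000000000000000000000) := D_32 (nat_lit 176) (nat_lit 142) (nat_lit 226) (nat_lit 5) (nat_lit 6) (nat_lit 8) (nat_lit 5) (nat_lit 6) (nat_lit 9) (by decide +kernel)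
theorem L89777 : W_32 (nat_lit 2) (nat_lit 0x1c000c000200000001000080000000000000000000000000000000) (nat_lit 0x0) (nat_lit 0x2000000000000000010000800000000000000000000000000000000000) := D_32 (nat_lit 160) (nat_lit 143) (nat_lit 229) (nat_lit 7) (nat_lit 7) (nat_lit 8) (nat_lit 7) (nat_lit 7) (nat_lit 9) (by decide +kernel)
theorem L89780 : W_32 (nat_lit 6) (nat_lit 0x1c0004000200000001000080000000000000000000000000000000) (nat_lit 0x0) (nat_lit 0x10000c001e000e30078000400000000000000000000000000000000000000000000) := Q_32 (nat_lit 195) (C_32 L82105 (C_32 L18673 (C_32 L18712 N_32))) (by decide +kernel)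
theorem L89781 : W_32 (nat_lit 2) (nat_lit 0x1c0014000200000001000080000000000000000000000000000000) (nat_lit 0x0) (nat_lit 0x200028000000000000000000000000000000000000000000000000) := D_32 (nat_lit 197) (nat_lit 213) (nat_lit 195) (nat_lit 2) (nat_lit 6) (nat_lit 12) (nat_lit 1) (nat_lit 10) (nat_lit 11) (by decide +kernel)
theorem L89782 : W_32 (nat_lit 2) (nat_lit 0x7c0014000200000001000080000000000000000000000000000000) (nat_lit 0x0) (nat_lit 0x1c000000000000000000000000000000000000000000000000000000000) := D_32 (nat_lit 231) (nat_lit 230) (nat_lit 232) (nat_lit 3) (nat_lit 6) (nat_lit 12) (nat_lit 3) (nat_lit 7) (nat_lit 12) (by decide +kernel)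
theorem L89783 : W_32 (nat_lit 3) (nat_lit 0x3c0014000200000001000080000000000000000000000000000000) (nat_lit 0x0) (nat_lit 0x1c000400002000000000000000000000000000000000000000000000000) := T_32 (nat_lit 214) (nat_lit 193) (nat_lit 0) (nat_lit 10) (nat_lit 12) L89782 (by decide +kernel)
theorem L89784 : W_32 (nat_lit 4) (nat_lit 0x1c0014000200000001000080000000000000000000000000000000) (nat_lit 0x0) (nat_lit 0x1c000600022000000000000000000000000000000000000000000000000) := T_32 (nat_lit 213) (nat_lit 197) (nat_lit 2) (nat_lit 6) (nat_lit 12) L89783 (by decide +kernel)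
theorem L89785 : W_32 (nat_lit 2) (nat_lit 0x1c0014000200000001000080000000000000000000000000000000) (nat_lit 0x0) (nat_lit 0x20028000000000000000000000000000000000000000000000000) := D_32 (nat_lit 195) (nat_lit 209) (nat_lit 197) (nat_lit 2) (nat_lit 5) (nat_lit 12) (nat_lit 1) (nat_lit 10) (nat_lit 11) (by decide +kernel)
theorem L89786 : W_32 (nat_lit 2) (nat_lit 0x2001f0014400200018001000080000000000000000000000000000000) (nat_lit 0x0) (nat_lit 0x8002200000000000000000000000000000000000000000000000) := D_32 (nat_lit 207) (nat_lit 193) (nat_lit 189) (nat_lit 2) (nat_lit 3) (nat_lit 12) (nat_lit 0) (nat_lit 6) (nat_lit 12) (by decide +kernel)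
theorem L89787 : W_32 (nat_lit 3) (nat_lit 0x2001f0014000200018001000080000000000000000000000000000000) (nat_lit 0x0) (nat_lit 0x8002e00000000000000000000000000000000000000000000000) := T_32 (nat_lit 190) (nat_lit 191) (nat_lit 0) (nat_lit 7) (nat_lit 12) L89786 (by decide +kernel)
theorem L89788 : W_32 (nat_lit 4) (nat_lit 0x2001e0014000200018001000080000000000000000000000000000000) (nat_lit 0x0) (nat_lit 0x100018002e00000000000000000000000000000000000000000000000) := T_32 (nat_lit 208) (nat_lit 224) (nat_lit 1) (nat_lit 7) (nat_lit 12) L89787 (by decide +kernel)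
theorem L89789 : W_32 (nat_lit 5) (nat_lit 0x2001e0014000200010001000080000000000000000000000000000000) (nat_lit 0x0) (nat_lit 0x100018002e00000008000400000000000000000000000000000000000) := T_32 (nat_lit 159) (nat_lit 142) (nat_lit 4) (nat_lit 7) (nat_lit 12) L89788 (by decide +kernel)
theorem L89790 : W_32 (nat_lit 6) (nat_lit 0x2001e0014000200000001000080000000000000000000000000000000) (nat_lit 0x0) (nat_lit 0x100018002e00000018000c00000000000000000000000000000000000) := T_32 (nat_lit 160) (nat_lit 143) (nat_lit 6) (nat_lit 7) (nat_lit 11) L89789 (by decide +kernel)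
theorem L89791 : W_32 (nat_lit 7) (nat_lit 0x1e0014000200000001000080000000000000000000000000000000) (nat_lit 0x0) (nat_lit 0x700018002e00000018000c00000000000000000000000000000000000) := T_32 (nat_lit 225) (nat_lit 226) (nat_lit 1) (nat_lit 8) (nat_lit 12) L89790 (by decide +kernel)
theorem L89792 : W_32 (nat_lit 8) (nat_lit 0x1c0014000200000001000080000000000000000000000000000000) (nat_lit 0x0) (nat_lit 0x70003800ae00000018000c00000000000000000000000000000000000) := T_32 (nat_lit 209) (nat_lit 195) (nat_lit 2) (nat_lit 5) (nat_lit 12) L89791 (by decide +kernel)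
theorem L89793 : W_32 (nat_lit 9) (nat_lit 0x1c0004000200000001000080000000000000000000000000000000) (nat_lit 0x0) (nat_lit 0x1c70063803ae00000018000c00000000000000000000000000000000000) := Q_32 (nat_lit 196) (C_32 L89781 (C_32 L89784 (C_32 L89785 (C_32 L89792 N_32)))) (by decide +kernel)
theorem L89794 : W_32 (nat_lit 10) (nat_lit 0xc0004000200000001000080000000000000000000000000000000) (nat_lit 0x0) (nat_lit 0x18000c001e700f3807ae00400018000c00000000000000000000000000000000000) := Q_32 (nat_lit 212) (C_32 L6749 (C_32 L79496 (C_32 L17814 (C_32 L89780 (C_32 L89793 N_32))))) (by decide +kernel)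
theorem L89795 : W_32 (nat_lit 12) (nat_lit 0x80004000200000001000080000000000000000000000000000000) (nat_lit 0x0) (nat_lit 0x1a000d001ef00f7807ae03dc01df000e00000000000000000000000000000000000) := Q_32 (nat_lit 210) (C_32 L6744 (C_32 L78776 (C_32 L89776 (C_32 L89794 N_32)))) (by decide +kernel)
theorem L89823 : W_32 (nat_lit 15) (nat_lit 0x4000200000001000080000000000000000000000000000000) (nat_lit 0x0) (nat_lit 0x1c003f801fe01ff80ff807ae03dc01df000e00000000000000000000000000000000000) := Q_32 (nat_lit 211) (C_32 L80658 (C_32 L79506 (C_32 L79450 (C_32 L89795 (C_32 L89822 (C_32 L79507 (C_32 L79508 (C_32 L79509 (C_32 L79510 (C_32 L79511 N_32)))))))))) (by decide +kernel)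
theorem L89827 : W_32 (nat_lit 2) (nat_lit 0x200010000c0007000200018001000080000000000000000000000000000000) (nat_lit 0x0) (nat_lit 0x800040002000000000000000000000000000000000000000000000000000000000) := D_32 (nat_lit 246) (nat_lit 229) (nat_lit 263) (nat_lit 7) (nat_lit 7) (nat_lit 10) (nat_lit 7) (nat_lit 7) (nat_lit 11) (by decide +kernel)
theorem L89828 : W_32 (nat_lit 3) (nat_lit 0x10000c0007000200018001000080000000000000000000000000000000) (nat_lit 0x0) (nat_lit 0xc00060002000000000000000000000000000000000000000000000000000000000) := T_32 (nat_lit 245) (nat_lit 262) (nat_lit 4) (nat_lit 7) (nat_lit 15) L89827 (by decide +kernel)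
theorem L89829 : W_32 (nat_lit 4) (nat_lit 0xc0007000200018001000080000000000000000000000000000000) (nat_lit 0x0) (nat_lit 0xc00060003000000000000100000000000000000000000000000000000000000000) := T_32 (nat_lit 228) (nat_lit 176) (nat_lit 7) (nat_lit 6) (nat_lit 9) L89828 (by decide +kernel)
theorem L89830 : W_32 (nat_lit 2) (nat_lit 0x4000400060007000280006001800080000000000000000000000000000000) (nat_lit 0x0) (nat_lit 0x180008000000000000000000000000000000000000000000000000000000000000) := D_32 (nat_lit 243) (nat_lit 260) (nat_lit 259) (nat_lit 6) (nat_lit 5) (nat_lit 15) (nat_lit 5) (nat_lit 5) (nat_lit 11) (by decide +kernel)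
theorem L89831 : W_32 (nat_lit 3) (nat_lit 0x400060007000280006001800080000000000000000000000000000000) (nat_lit 0x0) (nat_lit 0x18000c000200000000000000000000000000000000000000000000000000000000) := T_32 (nat_lit 242) (nat_lit 225) (nat_lit 5) (nat_lit 5) (nat_lit 10) L89830 (by decide +kernel)
theorem L89832 : W_32 (nat_lit 4) (nat_lit 0x60007000280006001800080000000000000000000000000000000) (nat_lit 0x0) (nat_lit 0x18000c000600000000000040000000000000000000000000000000000000000000) := T_32 (nat_lit 226) (nat_lit 174) (nat_lit 4) (nat_lit 5) (nat_lit 13) L89831 (by decide +kernel)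
theorem L89833 : W_32 (nat_lit 5) (nat_lit 0x60007000280004001800080000000000000000000000000000000) (nat_lit 0x0) (nat_lit 0x18000c000600000000000040002000100000000000000000000000000000000000) := T_32 (nat_lit 157) (nat_lit 140) (nat_lit 4) (nat_lit 5) (nat_lit 12) L89832 (by decide +kernel)
theorem L89834 : W_32 (nat_lit 6) (nat_lit 0x60007000280004001000080000000000000000000000000000000) (nat_lit 0x0) (nat_lit 0x18000c000600000000000040012000900000000000000000000000000000000000) := T_32 (nat_lit 143) (nat_lit 160) (nat_lit 6) (nat_lit 7) (nat_lit 11) L89833 (by decide +kernel)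
theorem L89835 : W_32 (nat_lit 7) (nat_lit 0x60007000200004001000080000000000000000000000000000000) (nat_lit 0x0) (nat_lit 0x18000c0006000000000000c0012000b00000000000000000000000000000000000) := T_32 (nat_lit 175) (nat_lit 141) (nat_lit 7) (nat_lit 5) (nat_lit 8) L89834 (by decide +kernel)
theorem L89836 : W_32 (nat_lit 2) (nat_lit 0x6800700028001e001000080000000000000000000000000000000) (nat_lit 0x0) (nat_lit 0x400000000000060000000000000000000000000000000000000000000) := D_32 (nat_lit 174) (nat_lit 173) (nat_lit 226) (nat_lit 1) (nat_lit 7) (nat_lit 9) (nat_lit 4) (nat_lit 5) (nat_lit 13) (by decide +kernel)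
theorem L89837 : W_32 (nat_lit 3) (nat_lit 0x68007000280016001000080000000000000000000000000000000) (nat_lit 0x0) (nat_lit 0x400000000000460008000000000000000000000000000000000000000) := T_32 (nat_lit 159) (nat_lit 178) (nat_lit 3) (nat_lit 4) (nat_lit 9) L89836 (by decide +kernel)
theorem L89838 : W_32 (nat_lit 4) (nat_lit 0x68007000280014001000080000000000000000000000000000000) (nat_lit 0x0) (nat_lit 0x40000000000046000a000100000000000000000000000000000000000) := T_32 (nat_lit 157) (nat_lit 140) (nat_lit 4) (nat_lit 5) (nat_lit 12) L89837 (by decide +kernel)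
theorem L89839 : W_32 (nat_lit 5) (nat_lit 0x68007000200014001000080000000000000000000000000000000) (nat_lit 0x0) (nat_lit 0x4000000000004e000a000300000000000000000000000000000000000) := T_32 (nat_lit 175) (nat_lit 141) (nat_lit 7) (nat_lit 5) (nat_lit 8) L89838 (by decide +kernel)
theorem L89840 : W_32 (nat_lit 6) (nat_lit 0x68007000200004001000080000000000000000000000000000000) (nat_lit 0x0) (nat_lit 0x4000000000004e001a000b00000000000000000000000000000000000) := T_32 (nat_lit 160) (nat_lit 143) (nat_lit 6) (nat_lit 7) (nat_lit 11) L89839 (by decide +kernel)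
theorem L89841 : W_32 (nat_lit 7) (nat_lit 0x60007000200004001000080000000000000000000000000000000) (nat_lit 0x0) (nat_lit 0x4000180000004e001a000b00000000000000000000000000000000000) := T_32 (nat_lit 207) (nat_lit 208) (nat_lit 2) (nat_lit 3) (nat_lit 12) L89840 (by decide +kernel)
theorem L89842 : W_32 (nat_lit 3) (nat_lit 0x60007000200004001000080000000000000000000000000000000) (nat_lit 0x0) (nat_lit 0x200018000000080000000200000000000000000000000000000000000) := T_32 (nat_lit 175) (nat_lit 141) (nat_lit 7) (nat_lit 5) (nat_lit 8) L79705 (by decide +kernel)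
theorem L89879 : W_32 (nat_lit 2) (nat_lit 0x1c000700030001c001000080000000000000000000000000000000) (nat_lit 0x0) (nat_lit 0x400003000000000000000000000000000000000000000) := D_32 (nat_lit 157) (nat_lit 178) (nat_lit 156) (nat_lit 3) (nat_lit 4) (nat_lit 9) (nat_lit 3) (nat_lit 3) (nat_lit 9) (by decide +kernel)
theorem L89880 : W_32 (nat_lit 3) (nat_lit 0x1c0007000300018001000080000000000000000000000000000000) (nat_lit 0x0) (nat_lit 0x400007000200000000000000000000000000000000000) := T_32 (nat_lit 158) (nat_lit 141) (nat_lit 4) (nat_lit 6) (nat_lit 12) L89879 (by decide +kernel)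
theorem L89881 : W_32 (nat_lit 4) (nat_lit 0x1c0007000200018001000080000000000000000000000000000000) (nat_lit 0x0) (nat_lit 0x1000000000000500007000200000000000000000000000000000000000) := T_32 (nat_lit 176) (nat_lit 228) (nat_lit 7) (nat_lit 6) (nat_lit 9) L89880 (by decide +kernel)
theorem L89965 : W_32 (nat_lit 2) (nat_lit 0x100000000c001f000a00000001000080000000000000000000000000000000) (nat_lit 0x0) (nat_lit 0x1c0000000000000000000000000000000000000000000) := D_32 (nat_lit 175) (nat_lit 174) (nat_lit 176) (nat_lit 0) (nat_lit 8) (nat_lit 11) (nat_lit 0) (nat_lit 9) (nat_lit 11) (by decide +kernel)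
theorem L89966 : W_32 (nat_lit 3) (nat_lit 0x100000000c001e000a00000001000080000000000000000000000000000000) (nat_lit 0x0) (nat_lit 0x10005c0000000000000000000000000000000000000000000) := T_32 (nat_lit 192) (nat_lit 178) (nat_lit 2) (nat_lit 5) (nat_lit 11) L89965 (by decide +kernel)
theorem L89967 : W_32 (nat_lit 4) (nat_lit 0x100000000c001e000200000001000080000000000000000000000000000000) (nat_lit 0x0) (nat_lit 0x1001dc0000000000000000000000000000000000000000000) := T_32 (nat_lit 179) (nat_lit 180) (nat_lit 2) (nat_lit 6) (nat_lit 11) L89966 (by decide +kernel)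
theorem L89968 : W_32 (nat_lit 5) (nat_lit 0x100000000c000e000200000001000080000000000000000000000000000000) (nat_lit 0x0) (nat_lit 0x31001dc0000000000000000000000000000000000000000000) := T_32 (nat_lit 196) (nat_lit 197) (nat_lit 1) (nat_lit 10) (nat_lit 11) L89967 (by decide +kernel)
theorem L89969 : W_32 (nat_lit 6) (nat_lit 0xc000e000200000001000080000000000000000000000000000000) (nat_lit 0x0) (nat_lit 0x10000800000031001dc0000000000000000000000000000000000000000000) := T_32 (nat_lit 244) (nat_lit 227) (nat_lit 6) (nat_lit 6) (nat_lit 14) L89968 (by decide +kernel)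
theorem L89970 : W_32 (nat_lit 7) (nat_lit 0xc0006000200000001000080000000000000000000000000000000) (nat_lit 0x0) (nat_lit 0x18000c00030039001dc000c000400000000000000000000000000000000000) := Q_32 (nat_lit 195) (C_32 L79375 (C_32 L89456 (C_32 L89969 N_32))) (by decide +kernel)
theorem L89971 : W_32 (nat_lit 2) (nat_lit 0xc000f000200000001000080000000000000000000000000000000) (nat_lit 0x0) (nat_lit 0x30010000000000000000000000000000000000000000000000000) := D_32 (nat_lit 209) (nat_lit 208) (nat_lit 196) (nat_lit 2) (nat_lit 4) (nat_lit 12) (nat_lit 1) (nat_lit 9) (nat_lit 11) (by decide +kernel)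
theorem L89972 : W_32 (nat_lit 2) (nat_lit 0x100006000f0007000200000001000080000000000000000000000000000000) (nat_lit 0x0) (nat_lit 0x80004000000000000000080000000000000000000000000000000000000000000) := D_32 (nat_lit 242) (nat_lit 259) (nat_lit 175) (nat_lit 6) (nat_lit 4) (nat_lit 15) (nat_lit 5) (nat_lit 5) (nat_lit 10) (by decide +kernel)
theorem L89973 : W_32 (nat_lit 3) (nat_lit 0x100002000f0007000200000001000080000000000000000000000000000000) (nat_lit 0x0) (nat_lit 0x80004000400100000000080000000000000000000000000000000000000000000) := T_32 (nat_lit 226) (nat_lit 212) (nat_lit 1) (nat_lit 8) (nat_lit 12) L89972 (by decide +kernel)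
theorem L89974 : W_32 (nat_lit 4) (nat_lit 0x100000000f0007000200000001000080000000000000000000000000000000) (nat_lit 0x0) (nat_lit 0x80004000700100000000080000000000000000000000000000000000000000000) := T_32 (nat_lit 225) (nat_lit 224) (nat_lit 1) (nat_lit 7) (nat_lit 12) L89973 (by decide +kernel)
theorem L89975 : W_32 (nat_lit 5) (nat_lit 0x100000000e0007000200000001000080000000000000000000000000000000) (nat_lit 0x0) (nat_lit 0x80004000700118000000080000000000000000000000000000000000000000000) := T_32 (nat_lit 208) (nat_lit 207) (nat_lit 2) (nat_lit 3) (nat_lit 12) L89974 (by decide +kernel)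
theorem L89976 : W_32 (nat_lit 6) (nat_lit 0xe0007000200000001000080000000000000000000000000000000) (nat_lit 0x0) (nat_lit 0x80014000f00118000000080000000000000000000000000000000000000000000) := T_32 (nat_lit 244) (nat_lit 227) (nat_lit 6) (nat_lit 6) (nat_lit 14) L89975 (by decide +kernel)
theorem L89977 : W_32 (nat_lit 2) (nat_lit 0x1000000006000e0017000200000001000080000000000000000000000000000000) (nat_lit 0x0) (nat_lit 0x10000900000000000000000000000000000000000000000000000000000000) := D_32 (nat_lit 227) (nat_lit 244) (nat_lit 224) (nat_lit 6) (nat_lit 6) (nat_lit 14) (nat_lit 2) (nat_lit 3) (nat_lit 13) (by decide +kernel)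
theorem L89978 : W_32 (nat_lit 3) (nat_lit 0x1000000004000e0017000200000001000080000000000000000000000000000000) (nat_lit 0x0) (nat_lit 0x10000b00100000000000000000000000000000000000000000000000000000) := T_32 (nat_lit 225) (nat_lit 212) (nat_lit 1) (nat_lit 8) (nat_lit 12) L89977 (by decide +kernel)
theorem L89979 : W_32 (nat_lit 4) (nat_lit 0x4000e0017000200000001000080000000000000000000000000000000) (nat_lit 0x0) (nat_lit 0x100018000b00100000000000000000000000000000000000000000000000000000) := T_32 (nat_lit 260) (nat_lit 243) (nat_lit 6) (nat_lit 5) (nat_lit 15) L89978 (by decide +kernel)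
theorem L89980 : W_32 (nat_lit 5) (nat_lit 0x4000e0007000200000001000080000000000000000000000000000000) (nat_lit 0x0) (nat_lit 0x100018000b00100018000000000000000000000000000000000000000000000000) := T_32 (nat_lit 196) (nat_lit 195) (nat_lit 1) (nat_lit 9) (nat_lit 11) L89979 (by decide +kernel)
theorem L89981 : W_32 (nat_lit 2) (nat_lit 0x100006000e0017000b80000001000080000000000000000000000000000000) (nat_lit 0x0) (nat_lit 0x60002000000000000000000000000000000000000000) := D_32 (nat_lit 174) (nat_lit 157) (nat_lit 173) (nat_lit 4) (nat_lit 5) (nat_lit 13) (nat_lit 3) (nat_lit 3) (nat_lit 10) (by decide +kernel)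
theorem L89982 : W_32 (nat_lit 3) (nat_lit 0x100006000e0017000b00000001000080000000000000000000000000000000) (nat_lit 0x0) (nat_lit 0x40000000000000000e0002000000000000000000000000000000000000000) := T_32 (nat_lit 175) (nat_lit 242) (nat_lit 5) (nat_lit 5) (nat_lit 10) L89981 (by decide +kernel)
theorem L89983 : W_32 (nat_lit 4) (nat_lit 0x100006000e0017000300000001000080000000000000000000000000000000) (nat_lit 0x0) (nat_lit 0x4000000000000000ce0002000000000000000000000000000000000000000) := T_32 (nat_lit 179) (nat_lit 178) (nat_lit 1) (nat_lit 9) (nat_lit 10) L89982 (by decide +kernel)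
theorem L89984 : W_32 (nat_lit 5) (nat_lit 0x100004000e0017000300000001000080000000000000000000000000000000) (nat_lit 0x0) (nat_lit 0x4000200100000000ce0002000000000000000000000000000000000000000) := T_32 (nat_lit 225) (nat_lit 212) (nat_lit 1) (nat_lit 8) (nat_lit 12) L89983 (by decide +kernel)
theorem L89985 : W_32 (nat_lit 6) (nat_lit 0x100004000e0017000200000001000080000000000000000000000000000000) (nat_lit 0x0) (nat_lit 0x4000200100000000de000a000000000000000000000000000000000000000) := T_32 (nat_lit 176) (nat_lit 159) (nat_lit 5) (nat_lit 6) (nat_lit 9) L89984 (by decide +kernel)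
theorem L89986 : W_32 (nat_lit 7) (nat_lit 0x100004000e0007000200000001000080000000000000000000000000000000) (nat_lit 0x0) (nat_lit 0x4000200100018000de000a000000000000000000000000000000000000000) := T_32 (nat_lit 196) (nat_lit 195) (nat_lit 1) (nat_lit 9) (nat_lit 11) L89985 (by decide +kernel)
theorem L89987 : W_32 (nat_lit 8) (nat_lit 0x4000e0007000200000001000080000000000000000000000000000000) (nat_lit 0x0) (nat_lit 0x14000a00100018000de000a000000000000000000000000000000000000000) := T_32 (nat_lit 244) (nat_lit 227) (nat_lit 6) (nat_lit 6) (nat_lit 14) L89986 (by decide +kernel)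
theorem L89988 : W_32 (nat_lit 9) (nat_lit 0xe0007000200000001000080000000000000000000000000000000) (nat_lit 0x0) (nat_lit 0x10001c000f00100018000de000a000000000000000000000000000000000000000) := Q_32 (nat_lit 226) (C_32 L79752 (C_32 L89980 (C_32 L89987 N_32))) (by decide +kernel)
theorem L89989 : W_32 (nat_lit 10) (nat_lit 0xc0007000200000001000080000000000000000000000000000000) (nat_lit 0x0) (nat_lit 0x18001c000f00138018000de000a000000000000000000000000000000000000000) := Q_32 (nat_lit 209) (C_32 L81011 (C_32 L89976 (C_32 L89988 N_32))) (by decide +kernel)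
theorem L89990 : W_32 (nat_lit 11) (nat_lit 0xc0006000200000001000080000000000000000000000000000000) (nat_lit 0x0) (nat_lit 0x18001c000f00138019c00de000a000000000000000000000000000000000000000) := Q_32 (nat_lit 192) (C_32 L80979 (C_32 L89989 (C_32 L78778 N_32))) (by decide +kernel)
theorem L89991 : W_32 (nat_lit 2) (nat_lit 0xe0007000200000001000080000000000000000000000000000000) (nat_lit 0x0) (nat_lit 0x100000c00000000000000000000000000000000000000000000000) := D_32 (nat_lit 191) (nat_lit 212) (nat_lit 190) (nat_lit 3) (nat_lit 4) (nat_lit 11) (nat_lit 3) (nat_lit 3) (nat_lit 11) (by decide +kernel)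
theorem L89992 : W_32 (nat_lit 2) (nat_lit 0x100004001e000f000200008001000080000000000000000000000000000000) (nat_lit 0x0) (nat_lit 0x40006000000000000000000000000000000000000000000000000000000000) := D_32 (nat_lit 229) (nat_lit 230) (nat_lit 246) (nat_lit 3) (nat_lit 5) (nat_lit 12) (nat_lit 4) (nat_lit 8) (nat_lit 14) (by decide +kernel)
theorem L89993 : W_32 (nat_lit 3) (nat_lit 0x100004001e0007000200008001000080000000000000000000000000000000) (nat_lit 0x0) (nat_lit 0x40006000000018000000000000000000000000000000000000000000000000) := T_32 (nat_lit 195) (nat_lit 196) (nat_lit 2) (nat_lit 5) (nat_lit 12) L89992 (by decide +kernel)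
theorem L89994 : W_32 (nat_lit 4) (nat_lit 0x100004000e0007000200008001000080000000000000000000000000000000) (nat_lit 0x0) (nat_lit 0x40006200100018000000000000000000000000000000000000000000000000) := T_32 (nat_lit 212) (nat_lit 225) (nat_lit 1) (nat_lit 8) (nat_lit 12) L89993 (by decide +kernel)
theorem L89995 : W_32 (nat_lit 5) (nat_lit 0x100004000e0007000200000001000080000000000000000000000000000000) (nat_lit 0x0) (nat_lit 0x40006200100018000100008000000000000000000000000000000000000000) := T_32 (nat_lit 159) (nat_lit 176) (nat_lit 5) (nat_lit 6) (nat_lit 9) L89994 (by decide +kernel)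
theorem L89996 : W_32 (nat_lit 6) (nat_lit 0x4000e0007000200000001000080000000000000000000000000000000) (nat_lit 0x0) (nat_lit 0x50006a00100018000100008000000000000000000000000000000000000000) := T_32 (nat_lit 244) (nat_lit 227) (nat_lit 6) (nat_lit 6) (nat_lit 14) L89995 (by decide +kernel)
theorem L89997 : W_32 (nat_lit 7) (nat_lit 0xe0007000200000001000080000000000000000000000000000000) (nat_lit 0x0) (nat_lit 0x100058006f00100018000100008000000000000000000000000000000000000000) := Q_32 (nat_lit 226) (C_32 L89980 (C_32 L79752 (C_32 L89996 N_32))) (by decide +kernel)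
theorem L89998 : W_32 (nat_lit 8) (nat_lit 0xe0006000200000001000080000000000000000000000000000000) (nat_lit 0x0) (nat_lit 0x100058006f00100019c00500008000000000000000000000000000000000000000) := Q_32 (nat_lit 192) (C_32 L79202 (C_32 L89991 (C_32 L89997 N_32))) (by decide +kernel)
theorem L89999 : W_32 (nat_lit 9) (nat_lit 0xc0006000200000001000080000000000000000000000000000000) (nat_lit 0x0) (nat_lit 0x100058006f00138019c00500008000000000000000000000000000000000000000) := Q_32 (nat_lit 209) (C_32 L79389 (C_32 L79201 (C_32 L89998 N_32))) (by decide +kernel)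
theorem L90000 : W_32 (nat_lit 2) (nat_lit 0xc000e00160003a0000001000080000000000000000000000000000000) (nat_lit 0x0) (nat_lit 0x300100000000000000000000000000000000000000000000000000000) := D_32 (nat_lit 225) (nat_lit 224) (nat_lit 212) (nat_lit 2) (nat_lit 3) (nat_lit 13) (nat_lit 1) (nat_lit 8) (nat_lit 12) (by decide +kernel)
theorem L90001 : W_32 (nat_lit 3) (nat_lit 0x8000e00160003a0000001000080000000000000000000000000000000) (nat_lit 0x0) (nat_lit 0x8000700100000000000000000000000000000000000000000000000000000) := T_32 (nat_lit 226) (nat_lit 243) (nat_lit 5) (nat_lit 6) (nat_lit 10) L90000 (by decide +kernel)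
theorem L90002 : W_32 (nat_lit 4) (nat_lit 0x8000e0016000380000001000080000000000000000000000000000000) (nat_lit 0x0) (nat_lit 0x8000700100000000060000000000000000000000000000000000000000000) := T_32 (nat_lit 173) (nat_lit 174) (nat_lit 3) (nat_lit 3) (nat_lit 10) L90001 (by decide +kernel)
theorem L90003 : W_32 (nat_lit 5) (nat_lit 0x8000e0016000300000001000080000000000000000000000000000000) (nat_lit 0x0) (nat_lit 0x80007001000000000e0004000000000000000000000000000000000000000) := T_32 (nat_lit 175) (nat_lit 158) (nat_lit 4) (nat_lit 6) (nat_lit 13) L90002 (by decide +kernel)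
theorem L90004 : W_32 (nat_lit 6) (nat_lit 0x8000e0006000300000001000080000000000000000000000000000000) (nat_lit 0x0) (nat_lit 0x80007001000180000e0004000000000000000000000000000000000000000) := T_32 (nat_lit 196) (nat_lit 195) (nat_lit 1) (nat_lit 9) (nat_lit 11) L90003 (by decide +kernel)
theorem L90005 : W_32 (nat_lit 7) (nat_lit 0xe0006000300000001000080000000000000000000000000000000) (nat_lit 0x0) (nat_lit 0x18000f001000180000e0004000000000000000000000000000000000000000) := T_32 (nat_lit 227) (nat_lit 244) (nat_lit 6) (nat_lit 6) (nat_lit 14) L90004 (by decide +kernel)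
theorem L90006 : W_32 (nat_lit 2) (nat_lit 0x100000000e001600030000e001000080000000000000000000000000000000) (nat_lit 0x0) (nat_lit 0xc80000000000000000000000000000000000000000000) := D_32 (nat_lit 178) (nat_lit 179) (nat_lit 175) (nat_lit 0) (nat_lit 9) (nat_lit 10) (nat_lit 0) (nat_lit 8) (nat_lit 10) (by decide +kernel)
theorem L90007 : W_32 (nat_lit 3) (nat_lit 0x100000000e001600030000c001000080000000000000000000000000000000) (nat_lit 0x0) (nat_lit 0xc80003000000000000000000000000000000000000000) := T_32 (nat_lit 157) (nat_lit 156) (nat_lit 3) (nat_lit 3) (nat_lit 9) L90006 (by decide +kernel)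
theorem L90008 : W_32 (nat_lit 4) (nat_lit 0x100000000e0016000300008001000080000000000000000000000000000000) (nat_lit 0x0) (nat_lit 0xc80007000200000000000000000000000000000000000) := T_32 (nat_lit 158) (nat_lit 141) (nat_lit 4) (nat_lit 6) (nat_lit 12) L90007 (by decide +kernel)
theorem L90009 : W_32 (nat_lit 5) (nat_lit 0xe0016000300008001000080000000000000000000000000000000) (nat_lit 0x0) (nat_lit 0x10000800000000000c80007000200000000000000000000000000000000000) := T_32 (nat_lit 244) (nat_lit 227) (nat_lit 6) (nat_lit 6) (nat_lit 14) L90008 (by decide +kernel)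
theorem L90010 : W_32 (nat_lit 6) (nat_lit 0xe0016000300000001000080000000000000000000000000000000) (nat_lit 0x0) (nat_lit 0x10000800000000000c8000f000600000000000000000000000000000000000) := T_32 (nat_lit 159) (nat_lit 142) (nat_lit 7) (nat_lit 6) (nat_lit 8) L90009 (by decide +kernel)
theorem L90011 : W_32 (nat_lit 7) (nat_lit 0xe0006000300000001000080000000000000000000000000000000) (nat_lit 0x0) (nat_lit 0x10000800000018000c8000f000600000000000000000000000000000000000) := T_32 (nat_lit 196) (nat_lit 195) (nat_lit 1) (nat_lit 9) (nat_lit 11) L90010 (by decide +kernel)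
theorem L90012 : W_32 (nat_lit 8) (nat_lit 0xe0006000200000001000080000000000000000000000000000000) (nat_lit 0x0) (nat_lit 0x18000f00100018000de000f000600000000000000000000000000000000000) := Q_32 (nat_lit 176) (C_32 L79132 (C_32 L90005 (C_32 L90011 N_32))) (by decide +kernel)
theorem L90013 : W_32 (nat_lit 9) (nat_lit 0xc0006000200000001000080000000000000000000000000000000) (nat_lit 0x0) (nat_lit 0x18000f00138018c00de000f000600000000000000000000000000000000000) := Q_32 (nat_lit 209) (C_32 L79389 (C_32 L79198 (C_32 L90012 N_32))) (by decide +kernel)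
theorem L90014 : W_32 (nat_lit 2) (nat_lit 0x100000000c001f000280000001200080000000000000000000000000000000) (nat_lit 0x0) (nat_lit 0x1c00000000000000000000000000000000000000000000) := D_32 (nat_lit 179) (nat_lit 178) (nat_lit 180) (nat_lit 2) (nat_lit 5) (nat_lit 11) (nat_lit 2) (nat_lit 6) (nat_lit 11) (by decide +kernel)
theorem L90015 : W_32 (nat_lit 3) (nat_lit 0x100000000c000f000280000001200080000000000000000000000000000000) (nat_lit 0x0) (nat_lit 0x30001c00000000000000000000000000000000000000000000) := T_32 (nat_lit 196) (nat_lit 197) (nat_lit 1) (nat_lit 10) (nat_lit 11) L90014 (by decide +kernel)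
theorem L90016 : W_32 (nat_lit 4) (nat_lit 0x100000000c0007000280000001200080000000000000000000000000000000) (nat_lit 0x0) (nat_lit 0x38001c40000000000000000000000000000000000000000000) := T_32 (nat_lit 195) (nat_lit 174) (nat_lit 0) (nat_lit 8) (nat_lit 11) L90015 (by decide +kernel)
theorem L90017 : W_32 (nat_lit 5) (nat_lit 0x100000000c0007000280000001000080000000000000000000000000000000) (nat_lit 0x0) (nat_lit 0x38001c40004000200000000000000000000000000000000000) := T_32 (nat_lit 141) (nat_lit 158) (nat_lit 7) (nat_lit 5) (nat_lit 8) L90016 (by decide +kernel)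
theorem L90018 : W_32 (nat_lit 6) (nat_lit 0xc0007000280000001000080000000000000000000000000000000) (nat_lit 0x0) (nat_lit 0x10000800000038001c40004000200000000000000000000000000000000000) := T_32 (nat_lit 244) (nat_lit 227) (nat_lit 6) (nat_lit 6) (nat_lit 14) L90017 (by decide +kernel)
theorem L90019 : W_32 (nat_lit 2) (nat_lit 0xc000f000280000001000080000000000000000000000000000000) (nat_lit 0x0) (nat_lit 0x30000100000000000000000000000000000000000000000000) := D_32 (nat_lit 196) (nat_lit 176) (nat_lit 197) (nat_lit 0) (nat_lit 9) (nat_lit 11) (nat_lit 1) (nat_lit 10) (nat_lit 11) (by decide +kernel)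
theorem L90020 : W_32 (nat_lit 3) (nat_lit 0xc0007000280000001000080000000000000000000000000000000) (nat_lit 0x0) (nat_lit 0x38000140000000000000000000000000000000000000000000) := T_32 (nat_lit 195) (nat_lit 174) (nat_lit 0) (nat_lit 8) (nat_lit 11) L90019 (by decide +kernel)
theorem L90021 : W_32 (nat_lit 7) (nat_lit 0xc0007000200000001000080000000000000000000000000000000) (nat_lit 0x0) (nat_lit 0x10000800000038001dc0004000200000000000000000000000000000000000) := Q_32 (nat_lit 175) (C_32 L78823 (C_32 L90018 (C_32 L81781 (C_32 L90020 N_32)))) (by decide +kernel)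
theorem L90022 : W_32 (nat_lit 8) (nat_lit 0xc0006000200000001000080000000000000000000000000000000) (nat_lit 0x0) (nat_lit 0x10000a00018039c01de0004000200000000000000000000000000000000000) := Q_32 (nat_lit 192) (C_32 L79414 (C_32 L90021 (C_32 L78778 N_32))) (by decide +kernel)
theorem L90023 : W_32 (nat_lit 2) (nat_lit 0xe000f000680004001000080000000000000000000000000000000) (nat_lit 0x0) (nat_lit 0x100002000100000000000000000000000000000000000) := D_32 (nat_lit 157) (nat_lit 176) (nat_lit 140) (nat_lit 0) (nat_lit 8) (nat_lit 10) (nat_lit 4) (nat_lit 5) (nat_lit 12) (by decide +kernel)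
theorem L90024 : W_32 (nat_lit 3) (nat_lit 0xc000f000680004001000080000000000000000000000000000000) (nat_lit 0x0) (nat_lit 0x30000000100002000100000000000000000000000000000000000) := T_32 (nat_lit 209) (nat_lit 208) (nat_lit 2) (nat_lit 4) (nat_lit 12) L90023 (by decide +kernel)
theorem L90025 : W_32 (nat_lit 4) (nat_lit 0xc000f000680000001000080000000000000000000000000000000) (nat_lit 0x0) (nat_lit 0x30000000100006000300000000000000000000000000000000000) := T_32 (nat_lit 158) (nat_lit 141) (nat_lit 7) (nat_lit 5) (nat_lit 8) L90024 (by decide +kernel)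
theorem L90026 : W_32 (nat_lit 5) (nat_lit 0xc000f000280000001000080000000000000000000000000000000) (nat_lit 0x0) (nat_lit 0x30000000d00006000300000000000000000000000000000000000) := T_32 (nat_lit 178) (nat_lit 179) (nat_lit 2) (nat_lit 5) (nat_lit 11) L90025 (by decide +kernel)
theorem L90027 : W_32 (nat_lit 6) (nat_lit 0xc000f000200000001000080000000000000000000000000000000) (nat_lit 0x0) (nat_lit 0x30000000dc0006000300000000000000000000000000000000000) := T_32 (nat_lit 175) (nat_lit 174) (nat_lit 0) (nat_lit 8) (nat_lit 11) L90026 (by decide +kernel)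
theorem L90028 : W_32 (nat_lit 2) (nat_lit 0xc000f000680000001000080000000000000000000000000000000) (nat_lit 0x0) (nat_lit 0x30000100000000000000000000000000000000000000000000) := D_32 (nat_lit 196) (nat_lit 197) (nat_lit 176) (nat_lit 1) (nat_lit 10) (nat_lit 11) (nat_lit 3) (nat_lit 5) (nat_lit 10) (by decide +kernel)
theorem L90029 : W_32 (nat_lit 3) (nat_lit 0xc000f000600000001000080000000000000000000000000000000) (nat_lit 0x0) (nat_lit 0x300001c0000000000000000000000000000000000000000000) := T_32 (nat_lit 175) (nat_lit 174) (nat_lit 0) (nat_lit 8) (nat_lit 11) L90028 (by decide +kernel)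
theorem L90030 : W_32 (nat_lit 4) (nat_lit 0xc000f000200000001000080000000000000000000000000000000) (nat_lit 0x0) (nat_lit 0x30000dc0000000000000000000000000000000000000000000) := T_32 (nat_lit 178) (nat_lit 179) (nat_lit 2) (nat_lit 5) (nat_lit 11) L90029 (by decide +kernel)
theorem L90031 : W_32 (nat_lit 7) (nat_lit 0xc0007000200000001000080000000000000000000000000000000) (nat_lit 0x0) (nat_lit 0x30038000dc0006000300000000000000000000000000000000000) := Q_32 (nat_lit 195) (C_32 L90027 (C_32 L89971 (C_32 L90030 N_32))) (by decide +kernel)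
theorem L90032 : W_32 (nat_lit 8) (nat_lit 0xc0006000200000001000080000000000000000000000000000000) (nat_lit 0x0) (nat_lit 0x38039c00de0006000300000000000000000000000000000000000) := Q_32 (nat_lit 192) (C_32 L80979 (C_32 L90031 (C_32 L78778 N_32))) (by decide +kernel)
theorem L90033 : W_32 (nat_lit 8) (nat_lit 0xc0006000200000001000080000000000000000000000000000000) (nat_lit 0x0) (nat_lit 0x10000800020039c01de0004000200000000000000000000000000000000000) := Q_32 (nat_lit 192) (C_32 L80501 (C_32 L90021 (C_32 L78778 N_32))) (by decide +kernel)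
theorem L90034 : W_32 (nat_lit 15) (nat_lit 0xc0004000200000001000080000000000000000000000000000000) (nat_lit 0x0) (nat_lit 0x18005c006f0013803bc01de000f000f8011c000000000000000000000000000000) := Q_32 (nat_lit 193) (C_32 L89970 (C_32 L78893 (C_32 L79408 (C_32 L81054 (C_32 L89990 (C_32 L89999 (C_32 L90013 (C_32 L90022 (C_32 L90032 (C_32 L90033 N_32)))))))))) (by decide +kernel)
theorem L90035 : W_32 (nat_lit 9) (nat_lit 0xc000c000200010001000080000000000000000000000000000000) (nat_lit 0x0) (nat_lit 0x26001300018005c000e000500000000000000000000000000000000000) := T_32 (nat_lit 212) (nat_lit 229) (nat_lit 7) (nat_lit 7) (nat_lit 9) L82102 (by decide +kernel)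
theorem L90036 : W_32 (nat_lit 10) (nat_lit 0xc000c000200000001000080000000000000000000000000000000) (nat_lit 0x0) (nat_lit 0x26001300018005c001e000d00000000000000000000000000000000000) := T_32 (nat_lit 160) (nat_lit 143) (nat_lit 6) (nat_lit 7) (nat_lit 11) L90035 (by decide +kernel)
theorem L90038 : W_32 (nat_lit 2) (nat_lit 0x160001c001c000f00008001000080000000000000000000000000000000) (nat_lit 0x0) (nat_lit 0x3000000000000400000000000000000000000000000000000) := D_32 (nat_lit 193) (nat_lit 192) (nat_lit 142) (nat_lit 2) (nat_lit 5) (nat_lit 11) (nat_lit 7) (nat_lit 6) (nat_lit 8) (by decide +kernel)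
theorem L90039 : W_32 (nat_lit 3) (nat_lit 0x160001c001c000f00000001000080000000000000000000000000000000) (nat_lit 0x0) (nat_lit 0x300000000c000400000000000000000000000000000000000) := T_32 (nat_lit 159) (nat_lit 158) (nat_lit 0) (nat_lit 9) (nat_lit 10) L90038 (by decide +kernel)
theorem L90040 : W_32 (nat_lit 4) (nat_lit 0x60001c001c000f00000001000080000000000000000000000000000000) (nat_lit 0x0) (nat_lit 0x1800000000300000000c000400000000000000000000000000000000000) := T_32 (nat_lit 232) (nat_lit 231) (nat_lit 0) (nat_lit 11) (nat_lit 13) L90039 (by decide +kernel)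
theorem L90041 : W_32 (nat_lit 5) (nat_lit 0x20001c001c000f00000001000080000000000000000000000000000000) (nat_lit 0x0) (nat_lit 0x8001c00000000300000000c000400000000000000000000000000000000000) := T_32 (nat_lit 230) (nat_lit 247) (nat_lit 7) (nat_lit 8) (nat_lit 10) L90040 (by decide +kernel)
theorem L90042 : W_32 (nat_lit 6) (nat_lit 0x20001c001c000e00000001000080000000000000000000000000000000) (nat_lit 0x0) (nat_lit 0x8001c00000000300018000c000400000000000000000000000000000000000) := T_32 (nat_lit 176) (nat_lit 175) (nat_lit 3) (nat_lit 5) (nat_lit 10) L90041 (by decide +kernel)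
theorem L90043 : W_32 (nat_lit 7) (nat_lit 0x20001c001c000a00000001000080000000000000000000000000000000) (nat_lit 0x0) (nat_lit 0x8001c00000000300058004c000400000000000000000000000000000000000) := T_32 (nat_lit 178) (nat_lit 162) (nat_lit 6) (nat_lit 8) (nat_lit 13) L90042 (by decide +kernel)
theorem L90044 : W_32 (nat_lit 8) (nat_lit 0x20001c000c000a00000001000080000000000000000000000000000000) (nat_lit 0x0) (nat_lit 0x8001c00000003300058004c000400000000000000000000000000000000000) := T_32 (nat_lit 196) (nat_lit 197) (nat_lit 1) (nat_lit 10) (nat_lit 11) L90043 (by decide +kernel)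
theorem L90045 : W_32 (nat_lit 9) (nat_lit 0x1c000c000a00000001000080000000000000000000000000000000) (nat_lit 0x0) (nat_lit 0xc001e00000003300058004c000400000000000000000000000000000000000) := T_32 (nat_lit 229) (nat_lit 246) (nat_lit 4) (nat_lit 8) (nat_lit 14) L90044 (by decide +kernel)
theorem L90046 : W_32 (nat_lit 5) (nat_lit 0x1c000c000a00000001000080000000000000000000000000000000) (nat_lit 0x0) (nat_lit 0x338011c0000000000000000000000000000000000000000000) := T_32 (nat_lit 196) (nat_lit 197) (nat_lit 1) (nat_lit 10) (nat_lit 11) L81809 (by decide +kernel)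
theorem L90047 : W_32 (nat_lit 10) (nat_lit 0x1c000c000200000001000080000000000000000000000000000000) (nat_lit 0x0) (nat_lit 0xc001e000000073803dc004c000400000000000000000000000000000000000) := Q_32 (nat_lit 179) (C_32 L81806 (C_32 L81799 (C_32 L81803 (C_32 L90045 (C_32 L90046 N_32))))) (by decide +kernel)
theorem L90048 : W_32 (nat_lit 2) (nat_lit 0x1c002f000680018001000080000000000000000000000000000000) (nat_lit 0x0) (nat_lit 0x6000200000000000000000000000000000000000) := D_32 (nat_lit 158) (nat_lit 157) (nat_lit 141) (nat_lit 3) (nat_lit 4) (nat_lit 9) (nat_lit 7) (nat_lit 5) (nat_lit 8) (by decide +kernel)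
theorem L90049 : W_32 (nat_lit 3) (nat_lit 0x1c002f000280018001000080000000000000000000000000000000) (nat_lit 0x0) (nat_lit 0xc00006000200000000000000000000000000000000000) := T_32 (nat_lit 178) (nat_lit 179) (nat_lit 2) (nat_lit 5) (nat_lit 11) L90048 (by decide +kernel)
theorem L90050 : W_32 (nat_lit 4) (nat_lit 0x1c002f000200018001000080000000000000000000000000000000) (nat_lit 0x0) (nat_lit 0xcc0006000200000000000000000000000000000000000) := T_32 (nat_lit 175) (nat_lit 174) (nat_lit 0) (nat_lit 8) (nat_lit 11) L90049 (by decide +kernel)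
theorem L90051 : W_32 (nat_lit 5) (nat_lit 0x1c002f000200010001000080000000000000000000000000000000) (nat_lit 0x0) (nat_lit 0xcc000e000600000000000000000000000000000000000) := T_32 (nat_lit 159) (nat_lit 142) (nat_lit 4) (nat_lit 7) (nat_lit 12) L90050 (by decide +kernel)
theorem L90052 : W_32 (nat_lit 6) (nat_lit 0x1c002e000200010001000080000000000000000000000000000000) (nat_lit 0x0) (nat_lit 0x1800cc000e000600000000000000000000000000000000000) := T_32 (nat_lit 192) (nat_lit 191) (nat_lit 3) (nat_lit 4) (nat_lit 11) L90051 (by decide +kernel)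
theorem L90053 : W_32 (nat_lit 7) (nat_lit 0x1c002e000200000001000080000000000000000000000000000000) (nat_lit 0x0) (nat_lit 0x1800cc001e000e00000000000000000000000000000000000) := T_32 (nat_lit 160) (nat_lit 143) (nat_lit 7) (nat_lit 7) (nat_lit 8) L90052 (by decide +kernel)
theorem L90054 : W_32 (nat_lit 8) (nat_lit 0x1c000e000200000001000080000000000000000000000000000000) (nat_lit 0x0) (nat_lit 0x31800cc001e000e00000000000000000000000000000000000) := T_32 (nat_lit 197) (nat_lit 196) (nat_lit 1) (nat_lit 10) (nat_lit 11) L90053 (by decide +kernel)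
theorem L90089 : W_32 (nat_lit 11) (nat_lit 0x1c000c000200000001000080000000000000000000000000000000) (nat_lit 0x0) (nat_lit 0x33801dc001f000f0011c000000000000000000000000000000) := Q_32 (nat_lit 193) (C_32 L90054 (C_32 L90063 (C_32 L90069 (C_32 L90073 (C_32 L90079 (C_32 L90088 N_32)))))) (by decide +kernel)
theorem L90090 : W_32 (nat_lit 12) (nat_lit 0xc000c000200000001000080000000000000000000000000000000) (nat_lit 0x0) (nat_lit 0xc001e000100073803dc005f000f0011c000000000000000000000000000000) := Q_32 (nat_lit 212) (C_32 L89777 (C_32 L90037 (C_32 L90047 (C_32 L90089 N_32)))) (by decide +kernel)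
theorem L90091 : W_32 (nat_lit 13) (nat_lit 0xc0004000200000001000080000000000000000000000000000000) (nat_lit 0x0) (nat_lit 0xc001e60013007b803dc005f000f0011c000000000000000000000000000000) := Q_32 (nat_lit 195) (C_32 L19598 (C_32 L90036 (C_32 L9036 (C_32 L90090 N_32)))) (by decide +kernel)
theorem L90092 : W_32 (nat_lit 16) (nat_lit 0x80004000200000001000080000000000000000000000000000000) (nat_lit 0x0) (nat_lit 0x3800dc01ef0017807bc03de005f000f8011c000000000000000000000000000000) := Q_32 (nat_lit 210) (C_32 L6744 (C_32 L78776 (C_32 L90034 (C_32 L90091 N_32)))) (by decide +kernel)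
theorem L90093 : W_32 (nat_lit 17) (nat_lit 0x4000200000001000080000000000000000000000000000000) (nat_lit 0x0) (nat_lit 0x1c000f801fc01ff801f807be03de005f000f8011c000000000000000000000000000000) := Q_32 (nat_lit 211) (C_32 L80658 (C_32 L79506 (C_32 L79450 (C_32 L89964 (C_32 L90092 (C_32 L79507 (C_32 L79508 (C_32 L79509 (C_32 L79510 (C_32 L79511 N_32)))))))))) (by decide +kernel)
theorem L90094 : W_32 (nat_lit 4) (nat_lit 0x70000c0006000200000001000080000000000000000000000000000000) (nat_lit 0x0) (nat_lit 0x10000c00700001000000000000000000000000000000000000000000000000) := T_32 (nat_lit 227) (nat_lit 244) (nat_lit 6) (nat_lit 6) (nat_lit 14) L10223 (by decide +kernel)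
theorem L90095 : W_32 (nat_lit 5) (nat_lit 0x30000c0006000200000001000080000000000000000000000000000000) (nat_lit 0x0) (nat_lit 0x1000cc00700001000000000000000000000000000000000000000000000000) := T_32 (nat_lit 230) (nat_lit 231) (nat_lit 0) (nat_lit 10) (nat_lit 13) L90094 (by decide +kernel)
theorem L90096 : W_32 (nat_lit 6) (nat_lit 0x10000c0006000200000001000080000000000000000000000000000000) (nat_lit 0x0) (nat_lit 0x5000ec00700001000000000000000000000000000000000000000000000000) := T_32 (nat_lit 229) (nat_lit 246) (nat_lit 7) (nat_lit 7) (nat_lit 10) L90095 (by decide +kernel)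
theorem L90097 : W_32 (nat_lit 2) (nat_lit 0xb0002c001f000200000001000080000000000000000000000000000000) (nat_lit 0x0) (nat_lit 0x1c00000000000000000000000000000000000000000000) := D_32 (nat_lit 179) (nat_lit 178) (nat_lit 180) (nat_lit 2) (nat_lit 5) (nat_lit 11) (nat_lit 2) (nat_lit 6) (nat_lit 11) (by decide +kernel)
theorem L90098 : W_32 (nat_lit 3) (nat_lit 0xb0002c001e000200000001000080000000000000000000000000000000) (nat_lit 0x0) (nat_lit 0x100001001c00000000000000000000000000000000000000000000) := T_32 (nat_lit 192) (nat_lit 212) (nat_lit 3) (nat_lit 5) (nat_lit 11) L90097 (by decide +kernel)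
theorem L90099 : W_32 (nat_lit 4) (nat_lit 0xb0000c001e000200000001000080000000000000000000000000000000) (nat_lit 0x0) (nat_lit 0x700001001c00000000000000000000000000000000000000000000) := T_32 (nat_lit 213) (nat_lit 214) (nat_lit 3) (nat_lit 6) (nat_lit 11) L90098 (by decide +kernel)
theorem L90100 : W_32 (nat_lit 5) (nat_lit 0x30000c001e000200000001000080000000000000000000000000000000) (nat_lit 0x0) (nat_lit 0xc000700001001c00000000000000000000000000000000000000000000) := T_32 (nat_lit 231) (nat_lit 230) (nat_lit 0) (nat_lit 10) (nat_lit 13) L90099 (by decide +kernel)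
theorem L90101 : W_32 (nat_lit 6) (nat_lit 0x10000c001e000200000001000080000000000000000000000000000000) (nat_lit 0x0) (nat_lit 0x4000e000700001001c00000000000000000000000000000000000000000000) := T_32 (nat_lit 229) (nat_lit 246) (nat_lit 7) (nat_lit 7) (nat_lit 10) L90100 (by decide +kernel)
theorem L90102 : W_32 (nat_lit 7) (nat_lit 0x10000c000e000200000001000080000000000000000000000000000000) (nat_lit 0x0) (nat_lit 0x4000e000700031001c00000000000000000000000000000000000000000000) := T_32 (nat_lit 196) (nat_lit 197) (nat_lit 1) (nat_lit 10) (nat_lit 11) L90101 (by decide +kernel)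
theorem L90103 : W_32 (nat_lit 2) (nat_lit 0x10000c001e000200000001000080000000000000000000000000000000) (nat_lit 0x0) (nat_lit 0x180008000000000000000000000000000000000000000) := D_32 (nat_lit 176) (nat_lit 159) (nat_lit 175) (nat_lit 7) (nat_lit 6) (nat_lit 9) (nat_lit 0) (nat_lit 9) (nat_lit 11) (by decide +kernel)
theorem L90104 : W_32 (nat_lit 3) (nat_lit 0x10000c000e000200000001000080000000000000000000000000000000) (nat_lit 0x0) (nat_lit 0x30000180008000000000000000000000000000000000000000) := T_32 (nat_lit 196) (nat_lit 197) (nat_lit 1) (nat_lit 10) (nat_lit 11) L90103 (by decide +kernel)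
theorem L90105 : W_32 (nat_lit 2) (nat_lit 0x10001c000e000200000001000080000000000000000000000000000000) (nat_lit 0x0) (nat_lit 0x600001000000000000000000000000000000000000000000000000) := D_32 (nat_lit 213) (nat_lit 192) (nat_lit 214) (nat_lit 3) (nat_lit 5) (nat_lit 11) (nat_lit 0) (nat_lit 10) (nat_lit 12) (by decide +kernel)
theorem L90106 : W_32 (nat_lit 2) (nat_lit 0x70001c000e000740000001000080000000000000000000000000000000) (nat_lit 0x0) (nat_lit 0x1000800040000000000000000000000000000000000000000) := D_32 (nat_lit 179) (nat_lit 162) (nat_lit 192) (nat_lit 6) (nat_lit 8) (nat_lit 13) (nat_lit 2) (nat_lit 5) (nat_lit 11) (by decide +kernel)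
theorem L90107 : W_32 (nat_lit 3) (nat_lit 0x70001c000e000340000001000080000000000000000000000000000000) (nat_lit 0x0) (nat_lit 0x80000000000001000c00040000000000000000000000000000000000000000) := T_32 (nat_lit 178) (nat_lit 247) (nat_lit 7) (nat_lit 8) (nat_lit 10) L90106 (by decide +kernel)
theorem L90108 : W_32 (nat_lit 4) (nat_lit 0x30001c000e000340000001000080000000000000000000000000000000) (nat_lit 0x0) (nat_lit 0x8000c000000001000c00040000000000000000000000000000000000000000) := T_32 (nat_lit 230) (nat_lit 231) (nat_lit 0) (nat_lit 10) (nat_lit 13) L90107 (by decide +kernel)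
theorem L90109 : W_32 (nat_lit 5) (nat_lit 0x10001c000e000340000001000080000000000000000000000000000000) (nat_lit 0x0) (nat_lit 0xc000e000000001000c00040000000000000000000000000000000000000000) := T_32 (nat_lit 229) (nat_lit 246) (nat_lit 7) (nat_lit 7) (nat_lit 10) L90108 (by decide +kernel)
theorem L90110 : W_32 (nat_lit 6) (nat_lit 0x10001c000e000300000001000080000000000000000000000000000000) (nat_lit 0x0) (nat_lit 0xc000e000000001000cc0040000000000000000000000000000000000000000) := T_32 (nat_lit 174) (nat_lit 175) (nat_lit 3) (nat_lit 4) (nat_lit 10) L90109 (by decide +kernel)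
theorem L90111 : W_32 (nat_lit 7) (nat_lit 0x10001c000e000200000001000080000000000000000000000000000000) (nat_lit 0x0) (nat_lit 0xc000e000000001000dc0048000000000000000000000000000000000000000) := T_32 (nat_lit 176) (nat_lit 159) (nat_lit 7) (nat_lit 6) (nat_lit 9) L90110 (by decide +kernel)
theorem L90112 : W_32 (nat_lit 8) (nat_lit 0x10000c000e000200000001000080000000000000000000000000000000) (nat_lit 0x0) (nat_lit 0xc000e000700001001dc0048000000000000000000000000000000000000000) := Q_32 (nat_lit 212) (C_32 L90105 (C_32 L80373 (C_32 L90111 N_32))) (by decide +kernel)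
theorem L90113 : W_32 (nat_lit 9) (nat_lit 0x10000c0006000200000001000080000000000000000000000000000000) (nat_lit 0x0) (nat_lit 0xc000e000700039001dc0048000000000000000000000000000000000000000) := Q_32 (nat_lit 195) (C_32 L90102 (C_32 L90104 (C_32 L90112 N_32))) (by decide +kernel)
theorem L90114 : W_32 (nat_lit 10) (nat_lit 0x1000080006000200000001000080000000000000000000000000000000) (nat_lit 0x0) (nat_lit 0xd000ec00740039001de004c000000000000000000000000000000000000000) := Q_32 (nat_lit 210) (C_32 L90096 (C_32 L79371 (C_32 L90113 N_32))) (by decide +kernel)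
theorem L90119 : W_32 (nat_lit 2) (nat_lit 0x40001a0018001f000280000001000080000000000000000000000000000000) (nat_lit 0x0) (nat_lit 0x40060000000000000000000000000000000000000000000000000) := D_32 (nat_lit 197) (nat_lit 198) (nat_lit 210) (nat_lit 1) (nat_lit 11) (nat_lit 11) (nat_lit 1) (nat_lit 10) (nat_lit 11) (by decide +kernel)
theorem L90120 : W_32 (nat_lit 3) (nat_lit 0x40001a0018000f000280000001000080000000000000000000000000000000) (nat_lit 0x0) (nat_lit 0x40070000100000000000000000000000000000000000000000000) := T_32 (nat_lit 196) (nat_lit 176) (nat_lit 0) (nat_lit 9) (nat_lit 11) L90119 (by decide +kernel)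
theorem L90121 : W_32 (nat_lit 4) (nat_lit 0x40001a0018000f000200000001000080000000000000000000000000000000) (nat_lit 0x0) (nat_lit 0x400700001c0000000000000000000000000000000000000000000) := T_32 (nat_lit 175) (nat_lit 174) (nat_lit 0) (nat_lit 8) (nat_lit 11) L90120 (by decide +kernel)
theorem L90122 : W_32 (nat_lit 5) (nat_lit 0x1a0018000f000200000001000080000000000000000000000000000000) (nat_lit 0x0) (nat_lit 0x400020000400700001c0000000000000000000000000000000000000000000) := T_32 (nat_lit 246) (nat_lit 229) (nat_lit 7) (nat_lit 7) (nat_lit 10) L90121 (by decide +kernel)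
theorem L90123 : W_32 (nat_lit 6) (nat_lit 0x180018000f000200000001000080000000000000000000000000000000) (nat_lit 0x0) (nat_lit 0x400026000400700001c0000000000000000000000000000000000000000000) := T_32 (nat_lit 225) (nat_lit 226) (nat_lit 2) (nat_lit 4) (nat_lit 13) L90122 (by decide +kernel)
theorem L90124 : W_32 (nat_lit 7) (nat_lit 0x180008000f000200000001000080000000000000000000000000000000) (nat_lit 0x0) (nat_lit 0x400026003400700001c0000000000000000000000000000000000000000000) := T_32 (nat_lit 212) (nat_lit 213) (nat_lit 3) (nat_lit 5) (nat_lit 11) L90123 (by decide +kernel)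
theorem L90125 : W_32 (nat_lit 8) (nat_lit 0x100008000f000200000001000080000000000000000000000000000000) (nat_lit 0x0) (nat_lit 0x50002e003400700001c0000000000000000000000000000000000000000000) := T_32 (nat_lit 227) (nat_lit 244) (nat_lit 5) (nat_lit 7) (nat_lit 10) L90124 (by decide +kernel)
theorem L90134 : W_32 (nat_lit 2) (nat_lit 0x40001a0018001f000a00000001000080000000000000000000000000000000) (nat_lit 0x0) (nat_lit 0x60000100000000000000000000000000000000000000000000) := D_32 (nat_lit 197) (nat_lit 198) (nat_lit 176) (nat_lit 1) (nat_lit 11) (nat_lit 11) (nat_lit 0) (nat_lit 10) (nat_lit 11) (by decide +kernel)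
theorem L90135 : W_32 (nat_lit 3) (nat_lit 0x40001a0018000f000a00000001000080000000000000000000000000000000) (nat_lit 0x0) (nat_lit 0x70001100000000000000000000000000000000000000000000) := T_32 (nat_lit 196) (nat_lit 180) (nat_lit 2) (nat_lit 6) (nat_lit 11) L90134 (by decide +kernel)
theorem L90136 : W_32 (nat_lit 4) (nat_lit 0x4000180018000f000a00000001000080000000000000000000000000000000) (nat_lit 0x0) (nat_lit 0x600000070001100000000000000000000000000000000000000000000) := T_32 (nat_lit 225) (nat_lit 226) (nat_lit 2) (nat_lit 4) (nat_lit 13) L90135 (by decide +kernel)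
theorem L90137 : W_32 (nat_lit 5) (nat_lit 0x4000100018000f000a00000001000080000000000000000000000000000000) (nat_lit 0x0) (nat_lit 0x10000e00000070001100000000000000000000000000000000000000000000) := T_32 (nat_lit 227) (nat_lit 244) (nat_lit 5) (nat_lit 7) (nat_lit 10) L90136 (by decide +kernel)
theorem L90138 : W_32 (nat_lit 6) (nat_lit 0x4000100018000f000200000001000080000000000000000000000000000000) (nat_lit 0x0) (nat_lit 0x10000e00000070001d00000000000000000000000000000000000000000000) := T_32 (nat_lit 179) (nat_lit 178) (nat_lit 2) (nat_lit 5) (nat_lit 11) L90137 (by decide +kernel)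
theorem L90139 : W_32 (nat_lit 7) (nat_lit 0x100018000f000200000001000080000000000000000000000000000000) (nat_lit 0x0) (nat_lit 0x50002e00000070001d00000000000000000000000000000000000000000000) := T_32 (nat_lit 246) (nat_lit 229) (nat_lit 7) (nat_lit 7) (nat_lit 10) L90138 (by decide +kernel)
theorem L90140 : W_32 (nat_lit 8) (nat_lit 0x100008000f000200000001000080000000000000000000000000000000) (nat_lit 0x0) (nat_lit 0x50002e00300070001d00000000000000000000000000000000000000000000) := T_32 (nat_lit 212) (nat_lit 213) (nat_lit 3) (nat_lit 5) (nat_lit 11) L90139 (by decide +kernel)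
theorem L90141 : W_32 (nat_lit 2) (nat_lit 0x380008000f000780000001000080000000000000000000000000000000) (nat_lit 0x0) (nat_lit 0x40000000000006000000000000000000000000000000000000000) := D_32 (nat_lit 158) (nat_lit 210) (nat_lit 157) (nat_lit 4) (nat_lit 6) (nat_lit 13) (nat_lit 0) (nat_lit 8) (nat_lit 10) (by decide +kernel)
theorem L90142 : W_32 (nat_lit 3) (nat_lit 0x380008000f000680000001000080000000000000000000000000000000) (nat_lit 0x0) (nat_lit 0x40010000100006000000000000000000000000000000000000000) := T_32 (nat_lit 176) (nat_lit 196) (nat_lit 3) (nat_lit 5) (nat_lit 10) L90141 (by decide +kernel)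
theorem L90143 : W_32 (nat_lit 4) (nat_lit 0x300008000f000680000001000080000000000000000000000000000000) (nat_lit 0x0) (nat_lit 0x10000800040010000100006000000000000000000000000000000000000000) := T_32 (nat_lit 227) (nat_lit 244) (nat_lit 5) (nat_lit 7) (nat_lit 10) L90142 (by decide +kernel)
theorem L90144 : W_32 (nat_lit 5) (nat_lit 0x300008000f000600000001000080000000000000000000000000000000) (nat_lit 0x0) (nat_lit 0x100008000400100001c0006000000000000000000000000000000000000000) := T_32 (nat_lit 175) (nat_lit 174) (nat_lit 0) (nat_lit 8) (nat_lit 11) L90143 (by decide +kernel)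
theorem L90145 : W_32 (nat_lit 6) (nat_lit 0x100008000f000600000001000080000000000000000000000000000000) (nat_lit 0x0) (nat_lit 0x500028000400100001c0006000000000000000000000000000000000000000) := T_32 (nat_lit 229) (nat_lit 246) (nat_lit 7) (nat_lit 7) (nat_lit 10) L90144 (by decide +kernel)
theorem L90146 : W_32 (nat_lit 7) (nat_lit 0x100008000f000200000001000080000000000000000000000000000000) (nat_lit 0x0) (nat_lit 0x50002800040010000dc0006000000000000000000000000000000000000000) := T_32 (nat_lit 178) (nat_lit 179) (nat_lit 2) (nat_lit 5) (nat_lit 11) L90145 (by decide +kernel)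
theorem L90147 : W_32 (nat_lit 2) (nat_lit 0x4000100018001f000680000001000080000000000000000000000000000000) (nat_lit 0x0) (nat_lit 0x40060000000000000000000000000000000000000000000000000) := D_32 (nat_lit 197) (nat_lit 198) (nat_lit 210) (nat_lit 1) (nat_lit 11) (nat_lit 11) (nat_lit 1) (nat_lit 10) (nat_lit 11) (by decide +kernel)
theorem L90148 : W_32 (nat_lit 3) (nat_lit 0x4000100018000f000680000001000080000000000000000000000000000000) (nat_lit 0x0) (nat_lit 0x40070000100000000000000000000000000000000000000000000) := T_32 (nat_lit 196) (nat_lit 176) (nat_lit 3) (nat_lit 5) (nat_lit 10) L90147 (by decide +kernel)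
theorem L90149 : W_32 (nat_lit 4) (nat_lit 0x4000100018000f000600000001000080000000000000000000000000000000) (nat_lit 0x0) (nat_lit 0x400700001c0000000000000000000000000000000000000000000) := T_32 (nat_lit 175) (nat_lit 174) (nat_lit 0) (nat_lit 8) (nat_lit 11) L90148 (by decide +kernel)
theorem L90150 : W_32 (nat_lit 5) (nat_lit 0x4000100018000f000200000001000080000000000000000000000000000000) (nat_lit 0x0) (nat_lit 0x40070000dc0000000000000000000000000000000000000000000) := T_32 (nat_lit 178) (nat_lit 179) (nat_lit 2) (nat_lit 5) (nat_lit 11) L90149 (by decide +kernel)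
theorem L90151 : W_32 (nat_lit 6) (nat_lit 0x100018000f000200000001000080000000000000000000000000000000) (nat_lit 0x0) (nat_lit 0x40002000040070000dc0000000000000000000000000000000000000000000) := T_32 (nat_lit 246) (nat_lit 229) (nat_lit 7) (nat_lit 7) (nat_lit 10) L90150 (by decide +kernel)
theorem L90152 : W_32 (nat_lit 7) (nat_lit 0x100008000f000200000001000080000000000000000000000000000000) (nat_lit 0x0) (nat_lit 0x40002000340070000dc0000000000000000000000000000000000000000000) := T_32 (nat_lit 212) (nat_lit 213) (nat_lit 3) (nat_lit 5) (nat_lit 11) L90151 (by decide +kernel)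
theorem L90157 : W_32 (nat_lit 10) (nat_lit 0x1000080007000200000001000080000000000000000000000000000000) (nat_lit 0x0) (nat_lit 0xd001ee00f40078001dc0006000000000000000000000000000000000000000) := Q_32 (nat_lit 195) (C_32 L80811 (C_32 L90125 (C_32 L90133 (C_32 L90140 (C_32 L90146 (C_32 L90152 (C_32 L90156 N_32))))))) (by decide +kernel)
theorem L90158 : W_32 (nat_lit 11) (nat_lit 0x1000080006000200000001000080000000000000000000000000000000) (nat_lit 0x0) (nat_lit 0xd001ee00f58079c01df0006000000000000000000000000000000000000000) := Q_32 (nat_lit 192) (C_32 L80754 (C_32 L90157 (C_32 L78549 (C_32 L78550 N_32)))) (by decide +kernel)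
theorem L90196 : W_32 (nat_lit 11) (nat_lit 0x1000080006000200000001000080000000000000000000000000000000) (nat_lit 0x0) (nat_lit 0xd001ee01f5c079c01cf0000000000000000000000000000000000000000000) := Q_32 (nat_lit 192) (C_32 L80754 (C_32 L90162 (C_32 L78550 (C_32 L90195 N_32)))) (by decide +kernel)
theorem L90221 : W_32 (nat_lit 2) (nat_lit 0x180008001f000a00000001000080000000000000000000000000000000) (nat_lit 0x0) (nat_lit 0x40020000100000000000000000000000000000000000000000000) := D_32 (nat_lit 197) (nat_lit 210) (nat_lit 176) (nat_lit 1) (nat_lit 10) (nat_lit 11) (nat_lit 0) (nat_lit 10) (nat_lit 11) (by decide +kernel)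
theorem L90222 : W_32 (nat_lit 3) (nat_lit 0x180008000f000a00000001000080000000000000000000000000000000) (nat_lit 0x0) (nat_lit 0x40030001100000000000000000000000000000000000000000000) := T_32 (nat_lit 196) (nat_lit 180) (nat_lit 2) (nat_lit 6) (nat_lit 11) L90221 (by decide +kernel)
theorem L90223 : W_32 (nat_lit 4) (nat_lit 0x100008000f000a00000001000080000000000000000000000000000000) (nat_lit 0x0) (nat_lit 0x10000800040030001100000000000000000000000000000000000000000000) := T_32 (nat_lit 227) (nat_lit 244) (nat_lit 5) (nat_lit 7) (nat_lit 10) L90222 (by decide +kernel)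
theorem L90224 : W_32 (nat_lit 2) (nat_lit 0x380008000f000b80004001600080000000000000000000000000000000) (nat_lit 0x0) (nat_lit 0x2000800100000000000000000000000000000000) := D_32 (nat_lit 143) (nat_lit 128) (nat_lit 157) (nat_lit 2) (nat_lit 5) (nat_lit 8) (nat_lit 1) (nat_lit 8) (nat_lit 8) (by decide +kernel)
theorem L90225 : W_32 (nat_lit 3) (nat_lit 0x380008000f000b80004001200080000000000000000000000000000000) (nat_lit 0x0) (nat_lit 0x2000c00120000000000000000000000000000000) := T_32 (nat_lit 142) (nat_lit 125) (nat_lit 6) (nat_lit 5) (nat_lit 11) L90224 (by decide +kernel)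
theorem L90226 : W_32 (nat_lit 4) (nat_lit 0x380008000f000b80004001000080000000000000000000000000000000) (nat_lit 0x0) (nat_lit 0x2000e00130000000000000000000000000000000) := T_32 (nat_lit 141) (nat_lit 124) (nat_lit 7) (nat_lit 5) (nat_lit 7) L90225 (by decide +kernel)
theorem L90227 : W_32 (nat_lit 5) (nat_lit 0x180008000f000b80004001000080000000000000000000000000000000) (nat_lit 0x0) (nat_lit 0x40002000000000000000002000e00130000000000000000000000000000000) := T_32 (nat_lit 229) (nat_lit 246) (nat_lit 7) (nat_lit 7) (nat_lit 10) L90226 (by decide +kernel)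
theorem L90228 : W_32 (nat_lit 6) (nat_lit 0x180008000f000b80000001000080000000000000000000000000000000) (nat_lit 0x0) (nat_lit 0x40002000040000000000006000e00130000000000000000000000000000000) := T_32 (nat_lit 158) (nat_lit 210) (nat_lit 4) (nat_lit 6) (nat_lit 13) L90227 (by decide +kernel)
theorem L90229 : W_32 (nat_lit 7) (nat_lit 0x180008000f000a80000001000080000000000000000000000000000000) (nat_lit 0x0) (nat_lit 0x4000200004000000010000e000e00130000000000000000000000000000000) := T_32 (nat_lit 176) (nat_lit 159) (nat_lit 4) (nat_lit 7) (nat_lit 13) L90228 (by decide +kernel)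
theorem L90230 : W_32 (nat_lit 8) (nat_lit 0x180008000f000a00000001000080000000000000000000000000000000) (nat_lit 0x0) (nat_lit 0x400020000400000001c000e000e00130000000000000000000000000000000) := T_32 (nat_lit 175) (nat_lit 174) (nat_lit 0) (nat_lit 8) (nat_lit 11) L90229 (by decide +kernel)
theorem L90231 : W_32 (nat_lit 9) (nat_lit 0x100008000f000a00000001000080000000000000000000000000000000) (nat_lit 0x0) (nat_lit 0x500028000400000001c000e000e00130000000000000000000000000000000) := T_32 (nat_lit 227) (nat_lit 244) (nat_lit 5) (nat_lit 7) (nat_lit 10) L90230 (by decide +kernel)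
theorem L90232 : W_32 (nat_lit 2) (nat_lit 0x100008003f000a00000001000080000000000000000000000000000000) (nat_lit 0x0) (nat_lit 0xe00000000000000000000000000000000000000000000000000000) := D_32 (nat_lit 214) (nat_lit 213) (nat_lit 215) (nat_lit 3) (nat_lit 6) (nat_lit 11) (nat_lit 3) (nat_lit 7) (nat_lit 11) (by decide +kernel)
theorem L90233 : W_32 (nat_lit 3) (nat_lit 0x100008001f000a00000001000080000000000000000000000000000000) (nat_lit 0x0) (nat_lit 0xe40020000000000000000000000000000000000000000000000000) := T_32 (nat_lit 197) (nat_lit 210) (nat_lit 1) (nat_lit 10) (nat_lit 11) L90232 (by decide +kernel)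
theorem L90234 : W_32 (nat_lit 4) (nat_lit 0x100008000f000a00000001000080000000000000000000000000000000) (nat_lit 0x0) (nat_lit 0xe40030001000000000000000000000000000000000000000000000) := T_32 (nat_lit 196) (nat_lit 180) (nat_lit 2) (nat_lit 6) (nat_lit 11) L90233 (by decide +kernel)
theorem L90235 : W_32 (nat_lit 2) (nat_lit 0x100008001f000a00000001000080000000000000000000000000000000) (nat_lit 0x0) (nat_lit 0x20000100008000000000000000000000000000000000000000) := D_32 (nat_lit 176) (nat_lit 197) (nat_lit 159) (nat_lit 0) (nat_lit 10) (nat_lit 11) (nat_lit 4) (nat_lit 7) (nat_lit 13) (by decide +kernel)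
theorem L90236 : W_32 (nat_lit 3) (nat_lit 0x100008000f000a00000001000080000000000000000000000000000000) (nat_lit 0x0) (nat_lit 0x30001100008000000000000000000000000000000000000000) := T_32 (nat_lit 196) (nat_lit 180) (nat_lit 2) (nat_lit 6) (nat_lit 11) L90235 (by decide +kernel)
theorem L90237 : W_32 (nat_lit 10) (nat_lit 0x1000080007000a00000001000080000000000000000000000000000000) (nat_lit 0x0) (nat_lit 0x50002800e400380011c000e000e00130000000000000000000000000000000) := Q_32 (nat_lit 195) (C_32 L90223 (C_32 L90231 (C_32 L90234 (C_32 L90236 N_32)))) (by decide +kernel)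
theorem L90238 : W_32 (nat_lit 11) (nat_lit 0x1000080007000200000001000080000000000000000000000000000000) (nat_lit 0x0) (nat_lit 0x50002800e40038001dc000e000e00130000000000000000000000000000000) := Q_32 (nat_lit 179) (C_32 L90197 (C_32 L78555 (C_32 L90237 N_32))) (by decide +kernel)
theorem L90239 : W_32 (nat_lit 12) (nat_lit 0x1000080006000200000001000080000000000000000000000000000000) (nat_lit 0x0) (nat_lit 0x54002a00e58039c01df000e000e00130000000000000000000000000000000) := Q_32 (nat_lit 192) (C_32 L80754 (C_32 L90220 (C_32 L78747 (C_32 L90238 (C_32 L78630 N_32))))) (by decide +kernel)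
theorem L90290 : W_32 (nat_lit 13) (nat_lit 0x1000080004000200000001000080000000000000000000000000000000) (nat_lit 0x0) (nat_lit 0x3dc01ee01f5c0fbc01df00cf000e00130000000000000000000000000000000) := Q_32 (nat_lit 193) (C_32 L90114 (C_32 L82117 (C_32 L90118 (C_32 L90158 (C_32 L90196 (C_32 L90211 (C_32 L90239 (C_32 L90274 (C_32 L90287 (C_32 L78773 (C_32 L90289 N_32))))))))))) (by decide +kernel)
theorem L90291 : W_32 (nat_lit 14) (nat_lit 0x80004000200000001000080000000000000000000000000000000) (nat_lit 0x0) (nat_lit 0x10000e003fc01fe01f5c0fbc01df00cf000e00130000000000000000000000000000000) := Q_32 (nat_lit 228) (C_32 L6805 (C_32 L6067 (C_32 L6682 (C_32 L90290 N_32)))) (by decide +kernel)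
theorem L90343 : W_32 (nat_lit 15) (nat_lit 0x4000200000001000080000000000000000000000000000000) (nat_lit 0x0) (nat_lit 0x54003e003fc03fe01fdc0fbc01df00df000f0013c000000000000000000000000000000) := Q_32 (nat_lit 211) (C_32 L80658 (C_32 L79506 (C_32 L79450 (C_32 L90291 (C_32 L90342 (C_32 L79507 (C_32 L17847 (C_32 L17848 N_32)))))))) (by decide +kernel)
theorem L90344 : W_32 (nat_lit 9) (nat_lit 0x10000c000200000001000080000000000000000000000000000000) (nat_lit 0x0) (nat_lit 0x400030006b00738039c0018000400000000000000000000000000000000000) := Q_32 (nat_lit 211) (C_32 L87105 (C_32 L87124 N_32)) (by decide +kernel)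
theorem L90375 : W_32 (nat_lit 14) (nat_lit 0xc000200000001000080000000000000000000000000000000) (nat_lit 0x0) (nat_lit 0x38007f003f007ff81f3c1f9e01df00cf0073c020000000000000000000000000000) := Q_32 (nat_lit 212) (C_32 L87174 (C_32 L90344 (C_32 L86996 (C_32 L90356 (C_32 L90362 (C_32 L90374 N_32)))))) (by decide +kernel)
theorem L90377 : W_32 (nat_lit 2) (nat_lit 0x600024001e000e00000001000080000000000000000000000000000000) (nat_lit 0x0) (nat_lit 0x100000000000050000000000000000000000000000000000000000) := D_32 (nat_lit 212) (nat_lit 162) (nat_lit 160) (nat_lit 6) (nat_lit 8) (nat_lit 13) (nat_lit 4) (nat_lit 8) (nat_lit 13) (by decide +kernel)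
theorem L90378 : W_32 (nat_lit 3) (nat_lit 0x400024001e000e00000001000080000000000000000000000000000000) (nat_lit 0x0) (nat_lit 0x40002000100000000000050000000000000000000000000000000000000000) := T_32 (nat_lit 229) (nat_lit 246) (nat_lit 5) (nat_lit 9) (nat_lit 10) L90377 (by decide +kernel)
theorem L90379 : W_32 (nat_lit 4) (nat_lit 0x24001e000e00000001000080000000000000000000000000000000) (nat_lit 0x0) (nat_lit 0xc0006000100000000000050000000000000000000000000000000000000000) := T_32 (nat_lit 230) (nat_lit 247) (nat_lit 4) (nat_lit 9) (nat_lit 14) L90378 (by decide +kernel)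
theorem L90380 : W_32 (nat_lit 5) (nat_lit 0x4001e000e00000001000080000000000000000000000000000000) (nat_lit 0x0) (nat_lit 0xc0006000700000000000050000000000000000000000000000000000000000) := T_32 (nat_lit 213) (nat_lit 214) (nat_lit 3) (nat_lit 6) (nat_lit 11) L90379 (by decide +kernel)
theorem L90381 : W_32 (nat_lit 6) (nat_lit 0x1e000e00000001000080000000000000000000000000000000) (nat_lit 0x0) (nat_lit 0xc0006000760000000000050000000000000000000000000000000000000000) := T_32 (nat_lit 210) (nat_lit 209) (nat_lit 1) (nat_lit 9) (nat_lit 11) L90380 (by decide +kernel)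
theorem L90382 : W_32 (nat_lit 7) (nat_lit 0x1e000600000001000080000000000000000000000000000000) (nat_lit 0x0) (nat_lit 0xc0006000760000001800050000000000000000000000000000000000000000) := T_32 (nat_lit 179) (nat_lit 180) (nat_lit 2) (nat_lit 6) (nat_lit 11) L90381 (by decide +kernel)
theorem L90383 : W_32 (nat_lit 2) (nat_lit 0x8000300034001e000700008001400080000000000000000000000000000000) (nat_lit 0x0) (nat_lit 0x4000200010000000000000000000000000000000) := D_32 (nat_lit 141) (nat_lit 158) (nat_lit 124) (nat_lit 4) (nat_lit 6) (nat_lit 12) (nat_lit 4) (nat_lit 6) (nat_lit 11) (by decide +kernel)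
theorem L90384 : W_32 (nat_lit 3) (nat_lit 0x8000300034001e000700008001000080000000000000000000000000000000) (nat_lit 0x0) (nat_lit 0x4000600030000000000000000000000000000000) := T_32 (nat_lit 142) (nat_lit 125) (nat_lit 7) (nat_lit 6) (nat_lit 7) L90383 (by decide +kernel)
theorem L90385 : W_32 (nat_lit 4) (nat_lit 0x8000300030001e000700008001000080000000000000000000000000000000) (nat_lit 0x0) (nat_lit 0x60000000000004000600030000000000000000000000000000000) := T_32 (nat_lit 210) (nat_lit 209) (nat_lit 1) (nat_lit 9) (nat_lit 11) L90384 (by decide +kernel)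
theorem L90386 : W_32 (nat_lit 5) (nat_lit 0x8000300030001e000700000001000080000000000000000000000000000000) (nat_lit 0x0) (nat_lit 0xe000000000000c000600030000000000000000000000000000000) := T_32 (nat_lit 159) (nat_lit 211) (nat_lit 4) (nat_lit 7) (nat_lit 13) L90385 (by decide +kernel)
theorem L90387 : W_32 (nat_lit 6) (nat_lit 0x8000200030001e000700000001000080000000000000000000000000000000) (nat_lit 0x0) (nat_lit 0x200010000e000000000000c000600030000000000000000000000000000000) := T_32 (nat_lit 228) (nat_lit 245) (nat_lit 5) (nat_lit 8) (nat_lit 10) L90386 (by decide +kernel)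
theorem L90388 : W_32 (nat_lit 7) (nat_lit 0x8000200030001e000600000001000080000000000000000000000000000000) (nat_lit 0x0) (nat_lit 0x200010000e000000018000c000600030000000000000000000000000000000) := T_32 (nat_lit 176) (nat_lit 175) (nat_lit 3) (nat_lit 5) (nat_lit 10) L90387 (by decide +kernel)
theorem L90389 : W_32 (nat_lit 8) (nat_lit 0x8000000030001e000600000001000080000000000000000000000000000000) (nat_lit 0x0) (nat_lit 0x200030000e000000018001c000600030000000000000000000000000000000) := T_32 (nat_lit 229) (nat_lit 160) (nat_lit 4) (nat_lit 8) (nat_lit 13) L90388 (by decide +kernel)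
theorem L90390 : W_32 (nat_lit 9) (nat_lit 0x30001e000600000001000080000000000000000000000000000000) (nat_lit 0x0) (nat_lit 0xa00070000e000000018001c000600030000000000000000000000000000000) := T_32 (nat_lit 247) (nat_lit 230) (nat_lit 4) (nat_lit 9) (nat_lit 14) L90389 (by decide +kernel)
theorem L90391 : W_32 (nat_lit 10) (nat_lit 0x10001e000600000001000080000000000000000000000000000000) (nat_lit 0x0) (nat_lit 0xa00070006e000000018001c000600030000000000000000000000000000000) := T_32 (nat_lit 213) (nat_lit 214) (nat_lit 3) (nat_lit 6) (nat_lit 11) L90390 (by decide +kernel)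
theorem L90392 : W_32 (nat_lit 4) (nat_lit 0x8000300034001e000700000001000080000000000000000000000000000000) (nat_lit 0x0) (nat_lit 0x8000000000000c000600030000000000000000000000000000000) := T_32 (nat_lit 159) (nat_lit 211) (nat_lit 7) (nat_lit 6) (nat_lit 9) L90384 (by decide +kernel)
theorem L90393 : W_32 (nat_lit 5) (nat_lit 0x8000200034001e000700000001000080000000000000000000000000000000) (nat_lit 0x0) (nat_lit 0x2000100008000000000000c000600030000000000000000000000000000000) := T_32 (nat_lit 228) (nat_lit 245) (nat_lit 5) (nat_lit 8) (nat_lit 10) L90392 (by decide +kernel)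
theorem L90394 : W_32 (nat_lit 6) (nat_lit 0x8000000034001e000700000001000080000000000000000000000000000000) (nat_lit 0x0) (nat_lit 0x6000300008000000000000c000600030000000000000000000000000000000) := T_32 (nat_lit 229) (nat_lit 246) (nat_lit 4) (nat_lit 8) (nat_lit 14) L90393 (by decide +kernel)
theorem L90395 : W_32 (nat_lit 7) (nat_lit 0x8000000034001e000600000001000080000000000000000000000000000000) (nat_lit 0x0) (nat_lit 0x6000300008000000018000c000600030000000000000000000000000000000) := T_32 (nat_lit 176) (nat_lit 175) (nat_lit 3) (nat_lit 5) (nat_lit 10) L90394 (by decide +kernel)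
theorem L90396 : W_32 (nat_lit 8) (nat_lit 0x34001e000600000001000080000000000000000000000000000000) (nat_lit 0x0) (nat_lit 0xe000700008000000018000c000600030000000000000000000000000000000) := T_32 (nat_lit 247) (nat_lit 230) (nat_lit 4) (nat_lit 9) (nat_lit 14) L90395 (by decide +kernel)
theorem L90397 : W_32 (nat_lit 9) (nat_lit 0x14001e000600000001000080000000000000000000000000000000) (nat_lit 0x0) (nat_lit 0xe000700068000000018000c000600030000000000000000000000000000000) := T_32 (nat_lit 213) (nat_lit 214) (nat_lit 3) (nat_lit 6) (nat_lit 11) L90396 (by decide +kernel)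
theorem L90398 : W_32 (nat_lit 10) (nat_lit 0x10001e000600000001000080000000000000000000000000000000) (nat_lit 0x0) (nat_lit 0xe00070006e000000018000c000600030000000000000000000000000000000) := T_32 (nat_lit 210) (nat_lit 209) (nat_lit 1) (nat_lit 9) (nat_lit 11) L90397 (by decide +kernel)
theorem L90399 : W_32 (nat_lit 2) (nat_lit 0x40003c001e000700000001000080000000000000000000000000000000) (nat_lit 0x0) (nat_lit 0x20001000000000000000008000000000000000000000000000000000000000) := D_32 (nat_lit 228) (nat_lit 159) (nat_lit 245) (nat_lit 7) (nat_lit 6) (nat_lit 9) (nat_lit 6) (nat_lit 7) (nat_lit 14) (by decide +kernel)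
theorem L90400 : W_32 (nat_lit 3) (nat_lit 0x400034001e000700000001000080000000000000000000000000000000) (nat_lit 0x0) (nat_lit 0x20009000080000000000008000000000000000000000000000000000000000) := T_32 (nat_lit 211) (nat_lit 231) (nat_lit 3) (nat_lit 6) (nat_lit 12) L90399 (by decide +kernel)
theorem L90401 : W_32 (nat_lit 4) (nat_lit 0x400034001e000600000001000080000000000000000000000000000000) (nat_lit 0x0) (nat_lit 0x20009000080000000180008000000000000000000000000000000000000000) := T_32 (nat_lit 176) (nat_lit 175) (nat_lit 3) (nat_lit 5) (nat_lit 10) L90400 (by decide +kernel)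
theorem L90402 : W_32 (nat_lit 5) (nat_lit 0x34001e000600000001000080000000000000000000000000000000) (nat_lit 0x0) (nat_lit 0xa000d000080000000180008000000000000000000000000000000000000000) := T_32 (nat_lit 230) (nat_lit 247) (nat_lit 4) (nat_lit 9) (nat_lit 14) L90401 (by decide +kernel)
theorem L90403 : W_32 (nat_lit 6) (nat_lit 0x14001e000600000001000080000000000000000000000000000000) (nat_lit 0x0) (nat_lit 0xa000d000680000000180008000000000000000000000000000000000000000) := T_32 (nat_lit 213) (nat_lit 214) (nat_lit 3) (nat_lit 6) (nat_lit 11) L90402 (by decide +kernel)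
theorem L90404 : W_32 (nat_lit 7) (nat_lit 0x10001e000600000001000080000000000000000000000000000000) (nat_lit 0x0) (nat_lit 0xa000d0006e0000000180008000000000000000000000000000000000000000) := T_32 (nat_lit 210) (nat_lit 209) (nat_lit 1) (nat_lit 9) (nat_lit 11) L90403 (by decide +kernel)
theorem L90405 : W_32 (nat_lit 11) (nat_lit 0x1e000600000001000080000000000000000000000000000000) (nat_lit 0x0) (nat_lit 0xe000f0007e000000018001c000600030000000000000000000000000000000) := Q_32 (nat_lit 212) (C_32 L90391 (C_32 L85470 (C_32 L90398 (C_32 L90404 N_32)))) (by decide +kernel)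
theorem L90406 : W_32 (nat_lit 2) (nat_lit 0x8000000024001e000f00008001000080000000000000000000000000000000) (nat_lit 0x0) (nat_lit 0x1000080000000000000000400000000000000000000000000000000000) := D_32 (nat_lit 211) (nat_lit 228) (nat_lit 142) (nat_lit 7) (nat_lit 6) (nat_lit 9) (nat_lit 7) (nat_lit 6) (nat_lit 8) (by decide +kernel)
theorem L90407 : W_32 (nat_lit 3) (nat_lit 0x8000000024001e000f00000001000080000000000000000000000000000000) (nat_lit 0x0) (nat_lit 0x100008000000000000c000400000000000000000000000000000000000) := T_32 (nat_lit 159) (nat_lit 158) (nat_lit 0) (nat_lit 9) (nat_lit 10) L90406 (by decide +kernel)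
theorem L90408 : W_32 (nat_lit 4) (nat_lit 0x8000000024001e000e00000001000080000000000000000000000000000000) (nat_lit 0x0) (nat_lit 0x100008000000018000c000400000000000000000000000000000000000) := T_32 (nat_lit 176) (nat_lit 175) (nat_lit 3) (nat_lit 5) (nat_lit 10) L90407 (by decide +kernel)
theorem L90409 : W_32 (nat_lit 5) (nat_lit 0x8000000020001e000e00000001000080000000000000000000000000000000) (nat_lit 0x0) (nat_lit 0x10000e000000018000c000400000000000000000000000000000000000) := T_32 (nat_lit 210) (nat_lit 209) (nat_lit 1) (nat_lit 9) (nat_lit 11) L90408 (by decide +kernel)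
theorem L90410 : W_32 (nat_lit 6) (nat_lit 0x20001e000e00000001000080000000000000000000000000000000) (nat_lit 0x0) (nat_lit 0x800050000e000000018000c000400000000000000000000000000000000000) := T_32 (nat_lit 247) (nat_lit 230) (nat_lit 4) (nat_lit 9) (nat_lit 14) L90409 (by decide +kernel)
theorem L90411 : W_32 (nat_lit 7) (nat_lit 0x20001e000600000001000080000000000000000000000000000000) (nat_lit 0x0) (nat_lit 0x800050000e000000198000c000400000000000000000000000000000000000) := T_32 (nat_lit 179) (nat_lit 180) (nat_lit 2) (nat_lit 6) (nat_lit 11) L90410 (by decide +kernel)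
theorem L90412 : W_32 (nat_lit 8) (nat_lit 0x1e000600000001000080000000000000000000000000000000) (nat_lit 0x0) (nat_lit 0x800050006e000000198000c000400000000000000000000000000000000000) := T_32 (nat_lit 213) (nat_lit 214) (nat_lit 3) (nat_lit 6) (nat_lit 11) L90411 (by decide +kernel)
theorem L90413 : W_32 (nat_lit 4) (nat_lit 0x1e000700000001000080000000000000000000000000000000) (nat_lit 0x0) (nat_lit 0x100008000000180000c000400000000000000000000000000000000000) := T_32 (nat_lit 179) (nat_lit 180) (nat_lit 2) (nat_lit 6) (nat_lit 11) L16353 (by decide +kernel)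
theorem L90414 : W_32 (nat_lit 5) (nat_lit 0x1e000600000001000080000000000000000000000000000000) (nat_lit 0x0) (nat_lit 0x100008000000198000c000400000000000000000000000000000000000) := T_32 (nat_lit 176) (nat_lit 175) (nat_lit 3) (nat_lit 5) (nat_lit 10) L90413 (by decide +kernel)
theorem L90415 : W_32 (nat_lit 12) (nat_lit 0x1e000200000001000080000000000000000000000000000000) (nat_lit 0x0) (nat_lit 0xe000f0007e0000001d8005c000600030000000000000000000000000000000) := Q_32 (nat_lit 178) (C_32 L90382 (C_32 L90405 (C_32 L90412 (C_32 L85515 (C_32 L90414 N_32))))) (by decide +kernel)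
theorem L90416 : W_32 (nat_lit 13) (nat_lit 0x1c000200000001000080000000000000000000000000000000) (nat_lit 0x0) (nat_lit 0xe000f0007e0003801dc005c000600030000000000000000000000000000000) := Q_32 (nat_lit 193) (C_32 L9287 (C_32 L8050 (C_32 L87546 (C_32 L90415 N_32)))) (by decide +kernel)
theorem L90417 : W_32 (nat_lit 14) (nat_lit 0xc000200000001000080000000000000000000000000000000) (nat_lit 0x0) (nat_lit 0xe000f001ff0073807de005c000600030000000000000000000000000000000) := Q_32 (nat_lit 196) (C_32 L85590 (C_32 L7817 (C_32 L90376 (C_32 L90416 N_32)))) (by decide +kernel)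
theorem L90603 : W_32 (nat_lit 2) (nat_lit 0x12000d000280018001000080000000000000000000000000000000) (nat_lit 0x0) (nat_lit 0x80000000000004000400000000000000000000000000000000000) := D_32 (nat_lit 142) (nat_lit 211) (nat_lit 158) (nat_lit 4) (nat_lit 7) (nat_lit 12) (nat_lit 6) (nat_lit 5) (nat_lit 12) (by decide +kernel)
theorem L90604 : W_32 (nat_lit 3) (nat_lit 0x12000d000280008001000080000000000000000000000000000000) (nat_lit 0x0) (nat_lit 0x80000000000014000c00000000000000000000000000000000000) := T_32 (nat_lit 160) (nat_lit 143) (nat_lit 7) (nat_lit 7) (nat_lit 8) L90603 (by decide +kernel)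
theorem L90605 : W_32 (nat_lit 4) (nat_lit 0x12000d000280008001000080000000000000000000000000000000) (nat_lit 0x0) (nat_lit 0x400000000000100007000500000000000000000000000000000000000) := T_32 (nat_lit 158) (nat_lit 142) (nat_lit 6) (nat_lit 5) (nat_lit 12) L87943 (by decide +kernel)
theorem L90606 : W_32 (nat_lit 2) (nat_lit 0x12000f000280008001000080000000000000000000000000000000) (nat_lit 0x0) (nat_lit 0x400000000000100000000400000000000000000000000000000000000) := D_32 (nat_lit 176) (nat_lit 226) (nat_lit 142) (nat_lit 6) (nat_lit 5) (nat_lit 13) (nat_lit 5) (nat_lit 6) (nat_lit 8) (by decide +kernel)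
theorem L90607 : W_32 (nat_lit 3) (nat_lit 0x12000d000280008001000080000000000000000000000000000000) (nat_lit 0x0) (nat_lit 0x400200002000100000000400000000000000000000000000000000000) := T_32 (nat_lit 193) (nat_lit 213) (nat_lit 3) (nat_lit 5) (nat_lit 11) L90606 (by decide +kernel)
theorem L90608 : W_32 (nat_lit 2) (nat_lit 0x10000c00040012000f00068001a001000080000000000000000000000000000000) (nat_lit 0x0) (nat_lit 0x4000200010000000000000000000000000000000000000000000000000000000000000) := D_32 (nat_lit 261) (nat_lit 244) (nat_lit 278) (nat_lit 7) (nat_lit 5) (nat_lit 11) (nat_lit 7) (nat_lit 5) (nat_lit 12) (by decide +kernel)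
theorem L90609 : W_32 (nat_lit 3) (nat_lit 0xc00040012000f00068001a001000080000000000000000000000000000000) (nat_lit 0x0) (nat_lit 0x4000300010000000040000000000000000000000000000000000000000000000000000) := T_32 (nat_lit 260) (nat_lit 210) (nat_lit 6) (nat_lit 5) (nat_lit 15) L90608 (by decide +kernel)
theorem L90610 : W_32 (nat_lit 4) (nat_lit 0x400040012000f00068001a001000080000000000000000000000000000000) (nat_lit 0x0) (nat_lit 0x4000380018000000040000000000000000000000000000000000000000000000000000) := T_32 (nat_lit 243) (nat_lit 259) (nat_lit 5) (nat_lit 5) (nat_lit 11) L90609 (by decide +kernel)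
theorem L90611 : W_32 (nat_lit 5) (nat_lit 0x40012000f00068001a001000080000000000000000000000000000000) (nat_lit 0x0) (nat_lit 0x400038001c000200040000000000000000000000000000000000000000000000000000) := T_32 (nat_lit 242) (nat_lit 225) (nat_lit 5) (nat_lit 5) (nat_lit 10) L90610 (by decide +kernel)
theorem L90612 : W_32 (nat_lit 6) (nat_lit 0x12000f00068001a001000080000000000000000000000000000000) (nat_lit 0x0) (nat_lit 0x400038001c000600040000000100000000000000000000000000000000000000000000) := T_32 (nat_lit 226) (nat_lit 176) (nat_lit 6) (nat_lit 5) (nat_lit 13) L90611 (by decide +kernel)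
theorem L90613 : W_32 (nat_lit 7) (nat_lit 0x12000f000680018001000080000000000000000000000000000000) (nat_lit 0x0) (nat_lit 0x400038001c000600040000000100006000000000000000000000000000000000000000) := T_32 (nat_lit 157) (nat_lit 158) (nat_lit 3) (nat_lit 4) (nat_lit 9) L90612 (by decide +kernel)
theorem L90614 : W_32 (nat_lit 8) (nat_lit 0x12000f000680008001000080000000000000000000000000000000) (nat_lit 0x0) (nat_lit 0x400038001c000600040000000100016000800000000000000000000000000000000000) := T_32 (nat_lit 160) (nat_lit 143) (nat_lit 7) (nat_lit 7) (nat_lit 8) L90613 (by decide +kernel)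
theorem L90615 : W_32 (nat_lit 9) (nat_lit 0x12000f000280008001000080000000000000000000000000000000) (nat_lit 0x0) (nat_lit 0x400038001c000600040000000d00016000800000000000000000000000000000000000) := T_32 (nat_lit 178) (nat_lit 179) (nat_lit 2) (nat_lit 5) (nat_lit 11) L90614 (by decide +kernel)
theorem L90616 : W_32 (nat_lit 10) (nat_lit 0x12000d000280008001000080000000000000000000000000000000) (nat_lit 0x0) (nat_lit 0x400038001c000600240002000d00016000800000000000000000000000000000000000) := T_32 (nat_lit 193) (nat_lit 213) (nat_lit 3) (nat_lit 5) (nat_lit 11) L90615 (by decide +kernel)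
theorem L90617 : W_32 (nat_lit 11) (nat_lit 0x12000d000280000001000080000000000000000000000000000000) (nat_lit 0x0) (nat_lit 0x400038001c0006002c0002000d0001f000d00000000000000000000000000000000000) := Q_32 (nat_lit 159) (C_32 L90604 (C_32 L90605 (C_32 L90607 (C_32 L90616 N_32)))) (by decide +kernel)
theorem L90618 : W_32 (nat_lit 12) (nat_lit 0x10000d000280000001000080000000000000000000000000000000) (nat_lit 0x0) (nat_lit 0x400038001c0006002f0002000d0001f000f00128000000000000000000000000000000) := Q_32 (nat_lit 209) (C_32 L87938 (C_32 L87945 (C_32 L90617 N_32))) (by decide +kernel)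
theorem L90619 : W_32 (nat_lit 13) (nat_lit 0x10000d000200000001000080000000000000000000000000000000) (nat_lit 0x0) (nat_lit 0x400038001c0006002f0002000dc001f000f00138000000000000000000000000000000) := Q_32 (nat_lit 175) (C_32 L87523 (C_32 L90601 (C_32 L90618 N_32))) (by decide +kernel)
theorem L90620 : W_32 (nat_lit 15) (nat_lit 0x10000c000200000001000080000000000000000000000000000000) (nat_lit 0x0) (nat_lit 0x400038001c0016002f8003e03de01dfc00fe013f001c000e0000000000000000000000) := Q_32 (nat_lit 192) (C_32 L87411 (C_32 L90602 (C_32 L87409 (C_32 L90619 N_32)))) (by decide +kernel)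
theorem L90621 : W_32 (nat_lit 16) (nat_lit 0xc000200000001000080000000000000000000000000000000) (nat_lit 0x0) (nat_lit 0x40003800fc01f600ff8003e03de01dfc00fe013f001c000e0000000000000000000000) := Q_32 (nat_lit 212) (C_32 L87289 (C_32 L86996 (C_32 L90583 (C_32 L86997 (C_32 L87009 (C_32 L90620 N_32)))))) (by decide +kernel)
theorem L90628 : W_32 (nat_lit 8) (nat_lit 0x30001c000200000001000080000000000000000000000000000000) (nat_lit 0x0) (nat_lit 0x38001f001e000cc0000000c00040000000000000000000000000000000000000000) := Q_32 (nat_lit 230) (C_32 L87183 (C_32 L87064 (C_32 L90627 N_32))) (by decide +kernel)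
theorem L90635 : W_32 (nat_lit 9) (nat_lit 0x30000c000200000001000080000000000000000000000000000000) (nat_lit 0x0) (nat_lit 0x38001f003e001cc00f0007c000c0004000000000000000000000000000000000000) := Q_32 (nat_lit 196) (C_32 L88026 (C_32 L85627 (C_32 L87291 (C_32 L90622 (C_32 L90628 (C_32 L90633 (C_32 L90634 N_32))))))) (by decide +kernel)
theorem L90643 : W_32 (nat_lit 10) (nat_lit 0x10000c000200000001000080000000000000000000000000000000) (nat_lit 0x0) (nat_lit 0x38001f003e001ee00f3007c000c0004000000000000000000000000000000000000) := Q_32 (nat_lit 213) (C_32 L87128 (C_32 L19093 (C_32 L90635 (C_32 L87158 (C_32 L90642 N_32))))) (by decide +kernel)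
theorem L90644 : W_32 (nat_lit 8) (nat_lit 0x30001e000200000001000080000000000000000000000000000000) (nat_lit 0x0) (nat_lit 0x38001f001c0000e0000001c00010000800000000000000000000000000000000000) := Q_32 (nat_lit 230) (C_32 L88088 (C_32 L88041 (C_32 L80294 (C_32 L80303 N_32)))) (by decide +kernel)
theorem L90645 : W_32 (nat_lit 9) (nat_lit 0x10001e000200000001000080000000000000000000000000000000) (nat_lit 0x0) (nat_lit 0x38001f001c0006e0000001c00010000800000000000000000000000000000000000) := T_32 (nat_lit 213) (nat_lit 214) (nat_lit 3) (nat_lit 6) (nat_lit 11) L90644 (by decide +kernel)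
theorem L90646 : W_32 (nat_lit 10) (nat_lit 0x10000e000200000001000080000000000000000000000000000000) (nat_lit 0x0) (nat_lit 0x38001f001c001ee00f0003c00010000800000000000000000000000000000000000) := Q_32 (nat_lit 196) (C_32 L88033 (C_32 L90366 (C_32 L88037 (C_32 L90645 (C_32 L88030 N_32))))) (by decide +kernel)
theorem L90655 : W_32 (nat_lit 11) (nat_lit 0x10000c000200000001000080000000000000000000000000000000) (nat_lit 0x0) (nat_lit 0x38001f001c001ef80f3803cc001e000e00000000000000000000000000000000000) := Q_32 (nat_lit 193) (C_32 L90646 (C_32 L90586 (C_32 L90585 (C_32 L90654 N_32)))) (by decide +kernel)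
theorem L90656 : W_32 (nat_lit 12) (nat_lit 0xc000200000001000080000000000000000000000000000000) (nat_lit 0x0) (nat_lit 0x38001f003f001ff80f3807cc00de004e00000000000000000000000000000000000) := Q_32 (nat_lit 212) (C_32 L87289 (C_32 L86996 (C_32 L90643 (C_32 L86997 (C_32 L87009 (C_32 L90655 N_32)))))) (by decide +kernel)
theorem L90703 : W_32 (nat_lit 9) (nat_lit 0x10001c000200000001000080000000000000000000000000000000) (nat_lit 0x0) (nat_lit 0x38001f001e000ee00e3000c00040000000000000000000000000000000000000000) := Q_32 (nat_lit 213) (C_32 L90640 (C_32 L85608 (C_32 L90628 N_32))) (by decide +kernel)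
theorem L90704 : W_32 (nat_lit 4) (nat_lit 0x4000000010003c000200000001000080000000000000000000000000000000) (nat_lit 0x0) (nat_lit 0x3a000c0000400000000000000000000000000000000000000000000) := T_32 (nat_lit 198) (nat_lit 178) (nat_lit 0) (nat_lit 11) (nat_lit 11) L85831 (by decide +kernel)
theorem L90705 : W_32 (nat_lit 5) (nat_lit 0x4000000010001c000200000001000080000000000000000000000000000000) (nat_lit 0x0) (nat_lit 0x3a000e0000500000000000000000000000000000000000000000000) := T_32 (nat_lit 197) (nat_lit 176) (nat_lit 0) (nat_lit 10) (nat_lit 11) L90704 (by decide +kernel)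
theorem L90706 : W_32 (nat_lit 6) (nat_lit 0x10001c000200000001000080000000000000000000000000000000) (nat_lit 0x0) (nat_lit 0x40002003a000e0000500000000000000000000000000000000000000000000) := T_32 (nat_lit 246) (nat_lit 229) (nat_lit 4) (nat_lit 8) (nat_lit 14) L90705 (by decide +kernel)
theorem L90707 : W_32 (nat_lit 10) (nat_lit 0x10000c000200000001000080000000000000000000000000000000) (nat_lit 0x0) (nat_lit 0x38001f001f003ee00f3800dc0048000400000000000000000000000000000000000) := Q_32 (nat_lit 196) (C_32 L90347 (C_32 L90440 (C_32 L90703 (C_32 L87001 (C_32 L90706 N_32))))) (by decide +kernel)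
theorem L90708 : W_32 (nat_lit 8) (nat_lit 0x10000e000200000001000080000000000000000000000000000000) (nat_lit 0x0) (nat_lit 0x100008000d000ee0070000580018000c00000000000000000000000000000000000) := Q_32 (nat_lit 196) (C_32 L90445 (C_32 L87012 (C_32 L88037 N_32))) (by decide +kernel)
theorem L90709 : W_32 (nat_lit 10) (nat_lit 0x10000c000200000001000080000000000000000000000000000000) (nat_lit 0x0) (nat_lit 0x100008000d000ef8073800dc001e000e00000000000000000000000000000000000) := Q_32 (nat_lit 193) (C_32 L90708 (C_32 L90654 (C_32 L90585 (C_32 L90586 N_32)))) (by decide +kernel)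
theorem L90710 : W_32 (nat_lit 11) (nat_lit 0xc000200000001000080000000000000000000000000000000) (nat_lit 0x0) (nat_lit 0x38001f001f003ff80f3800dc005e000e00000000000000000000000000000000000) := Q_32 (nat_lit 212) (C_32 L90362 (C_32 L87289 (C_32 L90707 (C_32 L85604 (C_32 L90709 N_32))))) (by decide +kernel)
theorem L90726 : W_32 (nat_lit 17) (nat_lit 0x4000200000001000080000000000000000000000000000000) (nat_lit 0x0) (nat_lit 0x4003f807fc03f707ff81fbe1fdf81dfc0cff073f021e000f0000000000000000000000) := Q_32 (nat_lit 195) (C_32 L88828 (C_32 L88833 (C_32 L90375 (C_32 L90417 (C_32 L90453 (C_32 L87548 (C_32 L90557 (C_32 L90621 (C_32 L90656 (C_32 L90676 (C_32 L90702 (C_32 L90710 (C_32 L90724 (C_32 L90725 N_32)))))))))))))) (by decide +kernel)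
theorem L90727 : W_32 (nat_lit 8) (nat_lit 0x40007000200000001000080000000000000000000000000000000) (nat_lit 0x0) (nat_lit 0xe00070007b0018000c00010000800000000000000000000000000000000000) := Q_32 (nat_lit 195) (C_32 L85274 (C_32 L80144 (C_32 L84619 (C_32 L10152 N_32)))) (by decide +kernel)
theorem L90728 : W_32 (nat_lit 10) (nat_lit 0x40006000200000001000080000000000000000000000000000000) (nat_lit 0x0) (nat_lit 0xe00070007bc019f01dfc010000800000000000000000000000000000000000) := Q_32 (nat_lit 192) (C_32 L89724 (C_32 L80211 (C_32 L84933 (C_32 L84431 (C_32 L90727 N_32))))) (by decide +kernel)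
theorem L90729 : W_32 (nat_lit 11) (nat_lit 0x6000200000001000080000000000000000000000000000000) (nat_lit 0x0) (nat_lit 0x3000fc007c007fc019f01dfc018000800000000000000000000000000000000000) := Q_32 (nat_lit 210) (C_32 L85391 (C_32 L85341 (C_32 L80043 (C_32 L10108 (C_32 L90728 N_32))))) (by decide +kernel)
theorem L90731 : W_32 (nat_lit 11) (nat_lit 0x7000200000001000080000000000000000000000000000000) (nat_lit 0x0) (nat_lit 0xf8007c00770018000dc0018000400000000000000000000000000000000000) := Q_32 (nat_lit 195) (C_32 L89356 (C_32 L84922 (C_32 L85419 (C_32 L5280 N_32)))) (by decide +kernel)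
theorem L90732 : W_32 (nat_lit 12) (nat_lit 0x6000200000001000080000000000000000000000000000000) (nat_lit 0x0) (nat_lit 0xf8007c007fc019c01df0018000400000000000000000000000000000000000) := Q_32 (nat_lit 192) (C_32 L85298 (C_32 L80189 (C_32 L10037 (C_32 L90731 N_32)))) (by decide +kernel)
theorem L90735 : W_32 (nat_lit 14) (nat_lit 0x6000200000001000080000000000000000000000000000000) (nat_lit 0x0) (nat_lit 0x1000f800ff007f803fe019f00cfc01f000fc011c000000000000000000000000000000) := Q_32 (nat_lit 210) (C_32 L89184 (C_32 L89191 (C_32 L10108 (C_32 L89186 (C_32 L89173 (C_32 L90734 N_32)))))) (by decide +kernel)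
theorem L90742 : W_32 (nat_lit 6) (nat_lit 0xf000600000001000080000000000000000000000000000000) (nat_lit 0x0) (nat_lit 0xc00060003f0010000000000000000000000000000000000000000000000000) := T_32 (nat_lit 212) (nat_lit 213) (nat_lit 3) (nat_lit 5) (nat_lit 11) L78132 (by decide +kernel)
theorem L90743 : W_32 (nat_lit 7) (nat_lit 0xf000200000001000080000000000000000000000000000000) (nat_lit 0x0) (nat_lit 0xc00060003f0010000c00000000000000000000000000000000000000000000) := T_32 (nat_lit 178) (nat_lit 179) (nat_lit 2) (nat_lit 5) (nat_lit 11) L90742 (by decide +kernel)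
theorem L90744 : W_32 (nat_lit 11) (nat_lit 0x7000200000001000080000000000000000000000000000000) (nat_lit 0x0) (nat_lit 0xf8007c007f0018000dc0008000400000000000000000000000000000000000) := Q_32 (nat_lit 195) (C_32 L89356 (C_32 L84922 (C_32 L85419 (C_32 L90743 N_32)))) (by decide +kernel)
theorem L90745 : W_32 (nat_lit 12) (nat_lit 0x6000200000001000080000000000000000000000000000000) (nat_lit 0x0) (nat_lit 0xf8007c007fc019c01df0008000400000000000000000000000000000000000) := Q_32 (nat_lit 192) (C_32 L85298 (C_32 L80189 (C_32 L10037 (C_32 L90744 N_32)))) (by decide +kernel)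
theorem L90747 : W_32 (nat_lit 2) (nat_lit 0x200030000e0006000200018001000080000000000000000000000000000000) (nat_lit 0x0) (nat_lit 0x18000400000000000000000000000000000000000000000000) := D_32 (nat_lit 195) (nat_lit 178) (nat_lit 196) (nat_lit 6) (nat_lit 7) (nat_lit 14) (nat_lit 1) (nat_lit 9) (nat_lit 11) (by decide +kernel)
theorem L90748 : W_32 (nat_lit 3) (nat_lit 0x200030000c0006000200018001000080000000000000000000000000000000) (nat_lit 0x0) (nat_lit 0x30018000400000000000000000000000000000000000000000000) := T_32 (nat_lit 209) (nat_lit 208) (nat_lit 3) (nat_lit 4) (nat_lit 12) L90747 (by decide +kernel)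
theorem L90749 : W_32 (nat_lit 4) (nat_lit 0x30000c0006000200018001000080000000000000000000000000000000) (nat_lit 0x0) (nat_lit 0x400020000000030018000400000000000000000000000000000000000000000000) := T_32 (nat_lit 245) (nat_lit 262) (nat_lit 4) (nat_lit 7) (nat_lit 15) L90748 (by decide +kernel)
theorem L90750 : W_32 (nat_lit 5) (nat_lit 0x20000c0006000200018001000080000000000000000000000000000000) (nat_lit 0x0) (nat_lit 0x400060001000030018000400000000000000000000000000000000000000000000) := T_32 (nat_lit 228) (nat_lit 246) (nat_lit 7) (nat_lit 7) (nat_lit 10) L90749 (by decide +kernel)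
theorem L90751 : W_32 (nat_lit 6) (nat_lit 0xc0006000200018001000080000000000000000000000000000000) (nat_lit 0x0) (nat_lit 0x400060003000130018000400000000000000000000000000000000000000000000) := T_32 (nat_lit 229) (nat_lit 212) (nat_lit 7) (nat_lit 7) (nat_lit 9) L90750 (by decide +kernel)
theorem L90752 : W_32 (nat_lit 7) (nat_lit 0xc0006000200010001000080000000000000000000000000000000) (nat_lit 0x0) (nat_lit 0x400060003000130018000400008000400000000000000000000000000000000000) := T_32 (nat_lit 159) (nat_lit 142) (nat_lit 4) (nat_lit 7) (nat_lit 12) L90751 (by decide +kernel)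
theorem L90753 : W_32 (nat_lit 8) (nat_lit 0xc0006000200000001000080000000000000000000000000000000) (nat_lit 0x0) (nat_lit 0x400060003000130018000400018000c00000000000000000000000000000000000) := T_32 (nat_lit 160) (nat_lit 143) (nat_lit 6) (nat_lit 7) (nat_lit 11) L90752 (by decide +kernel)
theorem L90754 : W_32 (nat_lit 8) (nat_lit 0xc0006000200000001000080000000000000000000000000000000) (nat_lit 0x0) (nat_lit 0x100008000700138018c0054001f000e00000000000000000000000000000000000) := Q_32 (nat_lit 209) (C_32 L80247 (C_32 L79389 (C_32 L79267 N_32))) (by decide +kernel)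
theorem L90755 : W_32 (nat_lit 9) (nat_lit 0x40006000200000001000080000000000000000000000000000000) (nat_lit 0x0) (nat_lit 0xf0007800f7001b8018c0054001f000e00000000000000000000000000000000000) := Q_32 (nat_lit 211) (C_32 L90736 (C_32 L90739 (C_32 L90753 (C_32 L90754 (C_32 L89433 N_32))))) (by decide +kernel)
theorem L90756 : W_32 (nat_lit 10) (nat_lit 0x6000200000001000080000000000000000000000000000000) (nat_lit 0x0) (nat_lit 0xf0007800ff001f8018c005e001f000e00000000000000000000000000000000000) := Q_32 (nat_lit 210) (C_32 L89640 (C_32 L85341 (C_32 L80043 (C_32 L10108 (C_32 L90755 N_32))))) (by decide +kernel)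
theorem L90763 : W_32 (nat_lit 13) (nat_lit 0x40006000200000001000080000000000000000000000000000000) (nat_lit 0x0) (nat_lit 0x7f401fb01fbc019e00d80004000000000000000000000000000000000000000) := Q_32 (nat_lit 192) (C_32 L84547 (C_32 L79641 (C_32 L79642 (C_32 L90762 N_32)))) (by decide +kernel)
theorem L90764 : W_32 (nat_lit 14) (nat_lit 0x6000200000001000080000000000000000000000000000000) (nat_lit 0x0) (nat_lit 0xe007fc01ff01ffc019e00d8001c000e00000000000000000000000000000000000) := Q_32 (nat_lit 210) (C_32 L90740 (C_32 L90734 (C_32 L85341 (C_32 L90763 (C_32 L84557 N_32))))) (by decide +kernel)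
theorem L90765 : W_32 (nat_lit 6) (nat_lit 0xc000e000200000001000080000000000000000000000000000000) (nat_lit 0x0) (nat_lit 0x400060003000130000000400010000800000000000000000000000000000000000) := T_32 (nat_lit 160) (nat_lit 143) (nat_lit 6) (nat_lit 7) (nat_lit 11) L80384 (by decide +kernel)
theorem L90766 : W_32 (nat_lit 5) (nat_lit 0xd000e000200000001000080000000000000000000000000000000) (nat_lit 0x0) (nat_lit 0x400060003000100000000100010000800000000000000000000000000000000000) := T_32 (nat_lit 160) (nat_lit 143) (nat_lit 6) (nat_lit 7) (nat_lit 11) L80382 (by decide +kernel)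
theorem L90767 : W_32 (nat_lit 6) (nat_lit 0xc000e000200000001000080000000000000000000000000000000) (nat_lit 0x0) (nat_lit 0x400060003000130000000100010000800000000000000000000000000000000000) := T_32 (nat_lit 208) (nat_lit 209) (nat_lit 2) (nat_lit 4) (nat_lit 12) L90766 (by decide +kernel)
theorem L90768 : W_32 (nat_lit 2) (nat_lit 0x1c000e000200018001000080000000000000000000000000000000) (nat_lit 0x0) (nat_lit 0x600001000000000000000000000000000000000000000000000000) := D_32 (nat_lit 213) (nat_lit 192) (nat_lit 214) (nat_lit 3) (nat_lit 5) (nat_lit 11) (nat_lit 0) (nat_lit 10) (nat_lit 12) (by decide +kernel)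
theorem L90769 : W_32 (nat_lit 3) (nat_lit 0xc000e000200018001000080000000000000000000000000000000) (nat_lit 0x0) (nat_lit 0x2000700001000000000000000000000000000000000000000000000000) := T_32 (nat_lit 212) (nat_lit 229) (nat_lit 7) (nat_lit 7) (nat_lit 9) L90768 (by decide +kernel)
theorem L90770 : W_32 (nat_lit 4) (nat_lit 0xc000e000200010001000080000000000000000000000000000000) (nat_lit 0x0) (nat_lit 0x2000700001000000008000400000000000000000000000000000000000) := T_32 (nat_lit 159) (nat_lit 142) (nat_lit 4) (nat_lit 7) (nat_lit 12) L90769 (by decide +kernel)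
theorem L90771 : W_32 (nat_lit 5) (nat_lit 0xc000e000200000001000080000000000000000000000000000000) (nat_lit 0x0) (nat_lit 0x2000700001000000018000c00000000000000000000000000000000000) := T_32 (nat_lit 160) (nat_lit 143) (nat_lit 6) (nat_lit 7) (nat_lit 11) L90770 (by decide +kernel)
theorem L90772 : W_32 (nat_lit 8) (nat_lit 0x4000e000200000001000080000000000000000000000000000000) (nat_lit 0x0) (nat_lit 0x40006000f4007b000100050001f000e00000000000000000000000000000000000) := Q_32 (nat_lit 211) (C_32 L90765 (C_32 L90767 (C_32 L80223 (C_32 L89470 (C_32 L90771 N_32))))) (by decide +kernel)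
theorem L90775 : W_32 (nat_lit 2) (nat_lit 0x4000000014000f000780000001000080000000000000000000000000000000) (nat_lit 0x0) (nat_lit 0x6000200000000000000000000000000000000000) := D_32 (nat_lit 158) (nat_lit 141) (nat_lit 157) (nat_lit 7) (nat_lit 5) (nat_lit 8) (nat_lit 0) (nat_lit 8) (nat_lit 10) (by decide +kernel)
theorem L90776 : W_32 (nat_lit 3) (nat_lit 0x4000000014000f000680000001000080000000000000000000000000000000) (nat_lit 0x0) (nat_lit 0x10000100006000200000000000000000000000000000000000) := T_32 (nat_lit 176) (nat_lit 196) (nat_lit 3) (nat_lit 5) (nat_lit 10) L90775 (by decide +kernel)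
theorem L90777 : W_32 (nat_lit 4) (nat_lit 0x14000f000680000001000080000000000000000000000000000000) (nat_lit 0x0) (nat_lit 0x40002000000010000100006000200000000000000000000000000000000000) := T_32 (nat_lit 246) (nat_lit 229) (nat_lit 4) (nat_lit 8) (nat_lit 14) L90776 (by decide +kernel)
theorem L90778 : W_32 (nat_lit 5) (nat_lit 0x14000f000600000001000080000000000000000000000000000000) (nat_lit 0x0) (nat_lit 0x400020000000100001c0006000200000000000000000000000000000000000) := T_32 (nat_lit 175) (nat_lit 174) (nat_lit 0) (nat_lit 8) (nat_lit 11) L90777 (by decide +kernel)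
theorem L90779 : W_32 (nat_lit 6) (nat_lit 0x14000f000200000001000080000000000000000000000000000000) (nat_lit 0x0) (nat_lit 0x40002000000010000dc0006000200000000000000000000000000000000000) := T_32 (nat_lit 178) (nat_lit 179) (nat_lit 2) (nat_lit 5) (nat_lit 11) L90778 (by decide +kernel)
theorem L90780 : W_32 (nat_lit 7) (nat_lit 0x14000e000200000001000080000000000000000000000000000000) (nat_lit 0x0) (nat_lit 0x40002000200011000dc0006000200000000000000000000000000000000000) := T_32 (nat_lit 192) (nat_lit 213) (nat_lit 3) (nat_lit 5) (nat_lit 11) L90779 (by decide +kernel)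
theorem L90781 : W_32 (nat_lit 2) (nat_lit 0x14000f000780000001800080000000000000000000000000000000) (nat_lit 0x0) (nat_lit 0x6000200000000000000000000000000000000000) := D_32 (nat_lit 158) (nat_lit 141) (nat_lit 157) (nat_lit 7) (nat_lit 5) (nat_lit 8) (nat_lit 0) (nat_lit 8) (nat_lit 10) (by decide +kernel)
theorem L90782 : W_32 (nat_lit 3) (nat_lit 0x14000f000680000001800080000000000000000000000000000000) (nat_lit 0x0) (nat_lit 0x10000100006000200000000000000000000000000000000000) := T_32 (nat_lit 176) (nat_lit 196) (nat_lit 3) (nat_lit 5) (nat_lit 10) L90781 (by decide +kernel)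
theorem L90783 : W_32 (nat_lit 4) (nat_lit 0x14000f000600000001800080000000000000000000000000000000) (nat_lit 0x0) (nat_lit 0x100001c0006000200000000000000000000000000000000000) := T_32 (nat_lit 175) (nat_lit 174) (nat_lit 0) (nat_lit 8) (nat_lit 11) L90782 (by decide +kernel)
theorem L90784 : W_32 (nat_lit 5) (nat_lit 0x14000f000200000001800080000000000000000000000000000000) (nat_lit 0x0) (nat_lit 0x10000dc0006000200000000000000000000000000000000000) := T_32 (nat_lit 178) (nat_lit 179) (nat_lit 2) (nat_lit 5) (nat_lit 11) L90783 (by decide +kernel)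
theorem L90785 : W_32 (nat_lit 6) (nat_lit 0x14000e000200000001800080000000000000000000000000000000) (nat_lit 0x0) (nat_lit 0x200011000dc0006000200000000000000000000000000000000000) := T_32 (nat_lit 192) (nat_lit 213) (nat_lit 3) (nat_lit 5) (nat_lit 11) L90784 (by decide +kernel)
theorem L90786 : W_32 (nat_lit 7) (nat_lit 0x14000e000200000001000080000000000000000000000000000000) (nat_lit 0x0) (nat_lit 0x200011000dc0016000a00000000000000000000000000000000000) := T_32 (nat_lit 143) (nat_lit 160) (nat_lit 7) (nat_lit 7) (nat_lit 8) L90785 (by decide +kernel)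
theorem L90787 : W_32 (nat_lit 8) (nat_lit 0x4000e000200000001000080000000000000000000000000000000) (nat_lit 0x0) (nat_lit 0x40002000380011000dc0016000a00000000000000000000000000000000000) := Q_32 (nat_lit 212) (C_32 L80236 (C_32 L80232 (C_32 L80234 (C_32 L90780 (C_32 L90786 N_32))))) (by decide +kernel)
theorem L90788 : W_32 (nat_lit 9) (nat_lit 0x40006000200000001000080000000000000000000000000000000) (nat_lit 0x0) (nat_lit 0x40006000f4007b8019000dc001f000e00000000000000000000000000000000000) := Q_32 (nat_lit 195) (C_32 L84575 (C_32 L90772 (C_32 L90774 (C_32 L90787 N_32)))) (by decide +kernel)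
theorem L90789 : W_32 (nat_lit 10) (nat_lit 0x6000200000001000080000000000000000000000000000000) (nat_lit 0x0) (nat_lit 0x40007800fc007f8019000de001f000e00000000000000000000000000000000000) := Q_32 (nat_lit 210) (C_32 L89640 (C_32 L85341 (C_32 L80043 (C_32 L10108 (C_32 L90788 N_32))))) (by decide +kernel)
theorem L90792 : W_32 (nat_lit 2) (nat_lit 0xc00078003c0000001e00090000000000000000000000000000000) (nat_lit 0x0) (nat_lit 0x3000100000000000000000000000000000000000) := D_32 (nat_lit 157) (nat_lit 140) (nat_lit 156) (nat_lit 6) (nat_lit 4) (nat_lit 11) (nat_lit 0) (nat_lit 7) (nat_lit 10) (by decide +kernel)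
theorem L90793 : W_32 (nat_lit 3) (nat_lit 0xc00078002c0000001e00090000000000000000000000000000000) (nat_lit 0x0) (nat_lit 0x10000b000100000000000000000000000000000000000) := T_32 (nat_lit 176) (nat_lit 159) (nat_lit 7) (nat_lit 6) (nat_lit 8) L90792 (by decide +kernel)
theorem L90794 : W_32 (nat_lit 4) (nat_lit 0xc00078002c0000001e00080000000000000000000000000000000) (nat_lit 0x0) (nat_lit 0x10000b000100018000000000000000000000000000000) := T_32 (nat_lit 124) (nat_lit 123) (nat_lit 0) (nat_lit 8) (nat_lit 8) L90793 (by decide +kernel)
theorem L90795 : W_32 (nat_lit 5) (nat_lit 0xc00078002c0000001a00080000000000000000000000000000000) (nat_lit 0x0) (nat_lit 0x10000b000500118000000000000000000000000000000) := T_32 (nat_lit 142) (nat_lit 128) (nat_lit 2) (nat_lit 5) (nat_lit 8) L90794 (by decide +kernel)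
theorem L90796 : W_32 (nat_lit 6) (nat_lit 0xc00078002c0000001800080000000000000000000000000000000) (nat_lit 0x0) (nat_lit 0x10000f000700118000000000000000000000000000000) := T_32 (nat_lit 141) (nat_lit 158) (nat_lit 7) (nat_lit 5) (nat_lit 8) L90795 (by decide +kernel)
theorem L90797 : W_32 (nat_lit 7) (nat_lit 0xc0007800240000001800080000000000000000000000000000000) (nat_lit 0x0) (nat_lit 0x800018000f000700118000000000000000000000000000000) := T_32 (nat_lit 175) (nat_lit 195) (nat_lit 0) (nat_lit 8) (nat_lit 11) L90796 (by decide +kernel)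
theorem L90798 : W_32 (nat_lit 8) (nat_lit 0xc0007800200000001800080000000000000000000000000000000) (nat_lit 0x0) (nat_lit 0x80001e000f000700118000000000000000000000000000000) := T_32 (nat_lit 174) (nat_lit 173) (nat_lit 0) (nat_lit 7) (nat_lit 11) L90797 (by decide +kernel)
theorem L90799 : W_32 (nat_lit 9) (nat_lit 0xc0007000200000001800080000000000000000000000000000000) (nat_lit 0x0) (nat_lit 0x8c001e000f000700118000000000000000000000000000000) := T_32 (nat_lit 191) (nat_lit 190) (nat_lit 3) (nat_lit 3) (nat_lit 11) L90798 (by decide +kernel)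
theorem L90800 : W_32 (nat_lit 10) (nat_lit 0xc0007000200000001000080000000000000000000000000000000) (nat_lit 0x0) (nat_lit 0x8c001e001f000f00118000000000000000000000000000000) := T_32 (nat_lit 143) (nat_lit 160) (nat_lit 6) (nat_lit 7) (nat_lit 11) L90799 (by decide +kernel)
theorem L90801 : W_32 (nat_lit 11) (nat_lit 0x40007000200000001000080000000000000000000000000000000) (nat_lit 0x0) (nat_lit 0x2000380008c001e001f000f00118000000000000000000000000000000) := Q_32 (nat_lit 211) (C_32 L24922 (C_32 L78777 (C_32 L90800 N_32))) (by decide +kernel)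
theorem L90802 : W_32 (nat_lit 7) (nat_lit 0x40007000200000001000080000000000000000000000000000000) (nat_lit 0x0) (nat_lit 0x40002000720018000dc001e000a00000000000000000000000000000000000) := Q_32 (nat_lit 195) (C_32 L85274 (C_32 L89567 (C_32 L84619 (C_32 L89556 N_32)))) (by decide +kernel)
theorem L90803 : W_32 (nat_lit 12) (nat_lit 0x40006000200000001000080000000000000000000000000000000) (nat_lit 0x0) (nat_lit 0x400020007a0019f01de001f000f00118000000000000000000000000000000) := Q_32 (nat_lit 192) (C_32 L89724 (C_32 L84431 (C_32 L90801 (C_32 L90802 N_32)))) (by decide +kernel)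
theorem L90804 : W_32 (nat_lit 13) (nat_lit 0x6000200000001000080000000000000000000000000000000) (nat_lit 0x0) (nat_lit 0x78003c007e0019f01de001f000f00138000000000000000000000000000000) := Q_32 (nat_lit 210) (C_32 L90734 (C_32 L89733 (C_32 L84557 (C_32 L90803 N_32)))) (by decide +kernel)
theorem L90805 : W_32 (nat_lit 17) (nat_lit 0x4000200000001000080000000000000000000000000000000) (nat_lit 0x0) (nat_lit 0x1000ff07ff01ff81ffe01bf01dfc01f800fc013c001400020000000000000000000000) := Q_32 (nat_lit 193) (C_32 L89923 (C_32 L90729 (C_32 L90730 (C_32 L90732 (C_32 L84433 (C_32 L80498 (C_32 L90735 (C_32 L90741 (C_32 L90745 (C_32 L90746 (C_32 L90756 (C_32 L90764 (C_32 L90789 (C_32 L90791 (C_32 L90804 N_32))))))))))))))) (by decide +kernel)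
theorem L90813 : W_32 (nat_lit 15) (nat_lit 0x4000200000001000080000000000000000000000000000000) (nat_lit 0x0) (nat_lit 0x1c003f801fe01ff80ff807b003dc01df000e00000000000000000000000000000000000) := Q_32 (nat_lit 211) (C_32 L89822 (C_32 L80658 (C_32 L79506 (C_32 L79450 (C_32 L90812 (C_32 L79507 (C_32 L79508 (C_32 L79509 (C_32 L79510 (C_32 L79511 N_32)))))))))) (by decide +kernel)
theorem L90839 : W_32 (nat_lit 15) (nat_lit 0x6000200000001000080000000000000000000000000000000) (nat_lit 0x0) (nat_lit 0x3f003f80ffc079f03df001a000d00000000000000000000000000000000000) := Q_32 (nat_lit 210) (C_32 L90734 (C_32 L85341 (C_32 L90838 (C_32 L84454 N_32)))) (by decide +kernel)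
theorem L90841 : W_32 (nat_lit 2) (nat_lit 0x5f0016000f000b00000001000080000000000000000000000000000000) (nat_lit 0x0) (nat_lit 0x7000000000000000000000000000000000000000000000000000000000000) := D_32 (nat_lit 241) (nat_lit 242) (nat_lit 240) (nat_lit 1) (nat_lit 7) (nat_lit 13) (nat_lit 1) (nat_lit 6) (nat_lit 13) (by decide +kernel)
theorem L90842 : W_32 (nat_lit 3) (nat_lit 0x5e0016000f000b00000001000080000000000000000000000000000000) (nat_lit 0x0) (nat_lit 0x7000180000000000000000000000000000000000000000000000000000000) := T_32 (nat_lit 224) (nat_lit 223) (nat_lit 2) (nat_lit 2) (nat_lit 13) L90841 (by decide +kernel)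
theorem L90843 : W_32 (nat_lit 4) (nat_lit 0x5c0016000f000b00000001000080000000000000000000000000000000) (nat_lit 0x0) (nat_lit 0x7000380080000000000000000000000000000000000000000000000000000) := T_32 (nat_lit 225) (nat_lit 211) (nat_lit 2) (nat_lit 4) (nat_lit 13) L90842 (by decide +kernel)
theorem L90844 : W_32 (nat_lit 5) (nat_lit 0x5c0006000f000b00000001000080000000000000000000000000000000) (nat_lit 0x0) (nat_lit 0x7000380380000000000000000000000000000000000000000000000000000) := T_32 (nat_lit 212) (nat_lit 213) (nat_lit 3) (nat_lit 5) (nat_lit 11) L90843 (by decide +kernel)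
theorem L90845 : W_32 (nat_lit 6) (nat_lit 0x5c00060007000b00000001000080000000000000000000000000000000) (nat_lit 0x0) (nat_lit 0x7000380380018000000000000000000000000000000000000000000000000) := T_32 (nat_lit 195) (nat_lit 196) (nat_lit 1) (nat_lit 9) (nat_lit 11) L90844 (by decide +kernel)
theorem L90846 : W_32 (nat_lit 7) (nat_lit 0x5c00060007000300000001000080000000000000000000000000000000) (nat_lit 0x0) (nat_lit 0x7000380380018000c00000000000000000000000000000000000000000000) := T_32 (nat_lit 179) (nat_lit 178) (nat_lit 1) (nat_lit 9) (nat_lit 10) L90845 (by decide +kernel)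
theorem L90847 : W_32 (nat_lit 8) (nat_lit 0x1c00060007000300000001000080000000000000000000000000000000) (nat_lit 0x0) (nat_lit 0x7006380380018000c00000000000000000000000000000000000000000000) := T_32 (nat_lit 230) (nat_lit 229) (nat_lit 0) (nat_lit 9) (nat_lit 13) L90846 (by decide +kernel)
theorem L90848 : W_32 (nat_lit 9) (nat_lit 0xc00060007000300000001000080000000000000000000000000000000) (nat_lit 0x0) (nat_lit 0x27007380380018000c00000000000000000000000000000000000000000000) := T_32 (nat_lit 228) (nat_lit 245) (nat_lit 7) (nat_lit 6) (nat_lit 10) L90847 (by decide +kernel)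
theorem L90849 : W_32 (nat_lit 10) (nat_lit 0x800060007000300000001000080000000000000000000000000000000) (nat_lit 0x0) (nat_lit 0x2f007780380018000c00000000000000000000000000000000000000000000) := T_32 (nat_lit 226) (nat_lit 243) (nat_lit 6) (nat_lit 5) (nat_lit 14) L90848 (by decide +kernel)
theorem L90850 : W_32 (nat_lit 11) (nat_lit 0x60007000300000001000080000000000000000000000000000000) (nat_lit 0x0) (nat_lit 0x3f007f80380018000c00000000000000000000000000000000000000000000) := T_32 (nat_lit 227) (nat_lit 244) (nat_lit 6) (nat_lit 6) (nat_lit 14) L90849 (by decide +kernel)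
theorem L90851 : W_32 (nat_lit 2) (nat_lit 0x800060017000300008001000080000000000000000000000000000000) (nat_lit 0x0) (nat_lit 0x20001000080000000000000000000000000000000000000000000000000000) := D_32 (nat_lit 228) (nat_lit 211) (nat_lit 245) (nat_lit 7) (nat_lit 6) (nat_lit 9) (nat_lit 7) (nat_lit 6) (nat_lit 10) (by decide +kernel)
theorem L90852 : W_32 (nat_lit 3) (nat_lit 0x60017000300008001000080000000000000000000000000000000) (nat_lit 0x0) (nat_lit 0x30001800080000000000000000000000000000000000000000000000000000) := T_32 (nat_lit 227) (nat_lit 244) (nat_lit 6) (nat_lit 6) (nat_lit 14) L90851 (by decide +kernel)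
theorem L90853 : W_32 (nat_lit 4) (nat_lit 0x60017000300000001000080000000000000000000000000000000) (nat_lit 0x0) (nat_lit 0x30001800080000000000008000400000000000000000000000000000000000) := T_32 (nat_lit 159) (nat_lit 142) (nat_lit 5) (nat_lit 6) (nat_lit 8) L90852 (by decide +kernel)
theorem L90854 : W_32 (nat_lit 5) (nat_lit 0x60007000300000001000080000000000000000000000000000000) (nat_lit 0x0) (nat_lit 0x30001800080018000000008000400000000000000000000000000000000000) := T_32 (nat_lit 196) (nat_lit 195) (nat_lit 1) (nat_lit 9) (nat_lit 11) L90853 (by decide +kernel)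
theorem L90855 : W_32 (nat_lit 12) (nat_lit 0x60007000200000001000080000000000000000000000000000000) (nat_lit 0x0) (nat_lit 0x3f007f80380018000d00008000400000000000000000000000000000000000) := Q_32 (nat_lit 176) (C_32 L90850 (C_32 L83293 (C_32 L90854 N_32))) (by decide +kernel)
theorem L90856 : W_32 (nat_lit 13) (nat_lit 0x60006000200000001000080000000000000000000000000000000) (nat_lit 0x0) (nat_lit 0x3f007f80380019e00d70008000400000000000000000000000000000000000) := Q_32 (nat_lit 192) (C_32 L89171 (C_32 L80490 (C_32 L85389 (C_32 L90855 N_32)))) (by decide +kernel)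
theorem L90857 : W_32 (nat_lit 14) (nat_lit 0x40006000200000001000080000000000000000000000000000000) (nat_lit 0x0) (nat_lit 0x30003f007f803b8019e00d70008000400000000000000000000000000000000000) := Q_32 (nat_lit 209) (C_32 L89103 (C_32 L85379 (C_32 L85362 (C_32 L80241 (C_32 L90856 N_32))))) (by decide +kernel)
theorem L90858 : W_32 (nat_lit 15) (nat_lit 0x6000200000001000080000000000000000000000000000000) (nat_lit 0x0) (nat_lit 0x30003f007f80ff8039e03d70018000c00000000000000000000000000000000000) := Q_32 (nat_lit 210) (C_32 L90734 (C_32 L85341 (C_32 L90857 (C_32 L84454 (C_32 L80043 N_32))))) (by decide +kernel)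
theorem L90860 : W_32 (nat_lit 6) (nat_lit 0xe000300000001000080000000000000000000000000000000) (nat_lit 0x0) (nat_lit 0x2000300001c00ce0010000800000000000000000000000000000000000) := T_32 (nat_lit 160) (nat_lit 143) (nat_lit 6) (nat_lit 7) (nat_lit 11) L86293 (by decide +kernel)
theorem L90861 : W_32 (nat_lit 7) (nat_lit 0x6000300000001000080000000000000000000000000000000) (nat_lit 0x0) (nat_lit 0x3000780039c01ce001c000c00000000000000000000000000000000000) := Q_32 (nat_lit 195) (C_32 L15642 (C_32 L16356 (C_32 L16013 (C_32 L90860 N_32)))) (by decide +kernel)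
theorem L90862 : W_32 (nat_lit 7) (nat_lit 0x6000300000001000080000000000000000000000000000000) (nat_lit 0x0) (nat_lit 0x2000700039c00ce0010000800000000000000000000000000000000000) := Q_32 (nat_lit 195) (C_32 L90860 (C_32 L16013 (C_32 L15642 N_32))) (by decide +kernel)
theorem L90863 : W_32 (nat_lit 12) (nat_lit 0x6000200000001000080000000000000000000000000000000) (nat_lit 0x0) (nat_lit 0x100038007d0039c01de001f000f80138000400000000000000000000000000) := Q_32 (nat_lit 176) (C_32 L90861 (C_32 L89515 (C_32 L89112 (C_32 L89516 (C_32 L90862 N_32))))) (by decide +kernel)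
theorem L90864 : W_32 (nat_lit 14) (nat_lit 0x6000200000001000080000000000000000000000000000000) (nat_lit 0x0) (nat_lit 0x3c007f80ff8039c03d8001f000e00020000000000000000000000000000000) := Q_32 (nat_lit 210) (C_32 L90734 (C_32 L89602 (C_32 L85341 (C_32 L84454 (C_32 L84557 N_32))))) (by decide +kernel)
theorem L90865 : W_32 (nat_lit 17) (nat_lit 0x4000200000001000080000000000000000000000000000000) (nat_lit 0x0) (nat_lit 0x10003a003f007f80ffc07bf07dfc0df800f8013c003c001e0002000000000000000000) := Q_32 (nat_lit 193) (C_32 L90791 (C_32 L90839 (C_32 L90730 (C_32 L89113 (C_32 L85271 (C_32 L80214 (C_32 L89126 (C_32 L90840 (C_32 L90858 (C_32 L89347 (C_32 L89403 (C_32 L90859 (C_32 L90863 (C_32 L90864 (C_32 L84551 N_32))))))))))))))) (by decide +kernel)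
theorem L90899 : W_32 (nat_lit 8) (nat_lit 0x60007000200004001000080000000000000000000000000000000) (nat_lit 0x0) (nat_lit 0x70039800000047001b000dc0000000000000000000000000000000000) := Q_32 (nat_lit 211) (C_32 L78909 (C_32 L89153 N_32)) (by decide +kernel)
theorem L90900 : W_32 (nat_lit 9) (nat_lit 0x60007000200000001000080000000000000000000000000000000) (nat_lit 0x0) (nat_lit 0x18000c0007003980000004f001f000fc0000000000000000000000000000000000) := Q_32 (nat_lit 158) (C_32 L89835 (C_32 L89841 (C_32 L89842 (C_32 L90899 N_32)))) (by decide +kernel)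
theorem L90901 : W_32 (nat_lit 2) (nat_lit 0x2000f0007000200018001000080000000000000000000000000000000) (nat_lit 0x0) (nat_lit 0x400300000000000000000000000000000000000000000000000000000) := D_32 (nat_lit 212) (nat_lit 213) (nat_lit 226) (nat_lit 0) (nat_lit 9) (nat_lit 12) (nat_lit 1) (nat_lit 8) (nat_lit 12) (by decide +kernel)
theorem L90902 : W_32 (nat_lit 3) (nat_lit 0xf0007000200018001000080000000000000000000000000000000) (nat_lit 0x0) (nat_lit 0x700300000000000000000000000000000000000000000000000000000) := T_32 (nat_lit 225) (nat_lit 224) (nat_lit 1) (nat_lit 7) (nat_lit 12) L90901 (by decide +kernel)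
theorem L90903 : W_32 (nat_lit 4) (nat_lit 0x70007000200018001000080000000000000000000000000000000) (nat_lit 0x0) (nat_lit 0x700380000000000000000400000000000000000000000000000000000) := T_32 (nat_lit 211) (nat_lit 142) (nat_lit 4) (nat_lit 7) (nat_lit 12) L90902 (by decide +kernel)
theorem L90904 : W_32 (nat_lit 5) (nat_lit 0x70007000200008001000080000000000000000000000000000000) (nat_lit 0x0) (nat_lit 0x700380000000000010000c00000000000000000000000000000000000) := T_32 (nat_lit 160) (nat_lit 143) (nat_lit 6) (nat_lit 7) (nat_lit 11) L90903 (by decide +kernel)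
theorem L90905 : W_32 (nat_lit 6) (nat_lit 0x60007000200008001000080000000000000000000000000000000) (nat_lit 0x0) (nat_lit 0x700398000000000010000c00000000000000000000000000000000000) := T_32 (nat_lit 208) (nat_lit 207) (nat_lit 2) (nat_lit 3) (nat_lit 12) L90904 (by decide +kernel)
theorem L90906 : W_32 (nat_lit 2) (nat_lit 0x100006000700030001c001000080000000000000000000000000000000) (nat_lit 0x0) (nat_lit 0x400003000000000000000000000000000000000000000) := D_32 (nat_lit 157) (nat_lit 178) (nat_lit 156) (nat_lit 3) (nat_lit 4) (nat_lit 9) (nat_lit 3) (nat_lit 3) (nat_lit 9) (by decide +kernel)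
theorem L90907 : W_32 (nat_lit 3) (nat_lit 0x1000060007000300018001000080000000000000000000000000000000) (nat_lit 0x0) (nat_lit 0x400007000200000000000000000000000000000000000) := T_32 (nat_lit 158) (nat_lit 141) (nat_lit 4) (nat_lit 6) (nat_lit 12) L90906 (by decide +kernel)
theorem L90908 : W_32 (nat_lit 4) (nat_lit 0x60007000300018001000080000000000000000000000000000000) (nat_lit 0x0) (nat_lit 0x1000080000000400007000200000000000000000000000000000000000) := T_32 (nat_lit 228) (nat_lit 211) (nat_lit 7) (nat_lit 6) (nat_lit 9) L90907 (by decide +kernel)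
theorem L90909 : W_32 (nat_lit 5) (nat_lit 0x60007000200018001000080000000000000000000000000000000) (nat_lit 0x0) (nat_lit 0x1400080000000500007000200000000000000000000000000000000000) := T_32 (nat_lit 176) (nat_lit 226) (nat_lit 5) (nat_lit 6) (nat_lit 9) L90908 (by decide +kernel)
theorem L90910 : W_32 (nat_lit 6) (nat_lit 0x60007000200008001000080000000000000000000000000000000) (nat_lit 0x0) (nat_lit 0x1400080000000500017000a00000000000000000000000000000000000) := T_32 (nat_lit 160) (nat_lit 143) (nat_lit 6) (nat_lit 7) (nat_lit 11) L90909 (by decide +kernel)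
theorem L90911 : W_32 (nat_lit 7) (nat_lit 0x60007000200000001000080000000000000000000000000000000) (nat_lit 0x0) (nat_lit 0x170039800000050001f000e00000000000000000000000000000000000) := Q_32 (nat_lit 159) (C_32 L89603 (C_32 L90905 (C_32 L90910 (C_32 L84396 N_32)))) (by decide +kernel)
theorem L90922 : W_32 (nat_lit 12) (nat_lit 0x40007000200000001000080000000000000000000000000000000) (nat_lit 0x0) (nat_lit 0x38003c0017803b8000400df001f000fc0020001000000000000000000000000000) := Q_32 (nat_lit 209) (C_32 L79768 (C_32 L90900 (C_32 L84365 (C_32 L90911 (C_32 L84394 (C_32 L90921 N_32)))))) (by decide +kernel)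
theorem L90923 : W_32 (nat_lit 13) (nat_lit 0x40006000200000001000080000000000000000000000000000000) (nat_lit 0x0) (nat_lit 0x38003c0017803bc001f01dfc01f000fc0020001000000000000000000000000000) := Q_32 (nat_lit 192) (C_32 L84933 (C_32 L79746 (C_32 L80212 (C_32 L90922 (C_32 L84431 N_32))))) (by decide +kernel)
theorem L90924 : W_32 (nat_lit 14) (nat_lit 0x6000200000001000080000000000000000000000000000000) (nat_lit 0x0) (nat_lit 0x38003c001f803fc001f01dfc01f000fc0020001000000000000000000000000000) := Q_32 (nat_lit 210) (C_32 L80043 (C_32 L84557 (C_32 L10108 (C_32 L84360 (C_32 L90923 N_32))))) (by decide +kernel)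
theorem L90993 : W_32 (nat_lit 9) (nat_lit 0x6000200000001000080000000000000000000000000000000) (nat_lit 0x0) (nat_lit 0x8000c0077c079c01df001e000e00000000000000000000000000000000000) := Q_32 (nat_lit 192) (C_32 L89348 (C_32 L90897 (C_32 L86991 (C_32 L85298 N_32)))) (by decide +kernel)
theorem L90994 : W_32 (nat_lit 2) (nat_lit 0x80002000180008000e000200018001000080000000000000000000000000000000) (nat_lit 0x0) (nat_lit 0x10000400000000000100000000000000000000000000000000000000000000000000000) := D_32 (nat_lit 262) (nat_lit 212) (nat_lit 280) (nat_lit 6) (nat_lit 7) (nat_lit 15) (nat_lit 7) (nat_lit 7) (nat_lit 12) (by decide +kernel)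
theorem L90995 : W_32 (nat_lit 3) (nat_lit 0x2000180008000e000200018001000080000000000000000000000000000000) (nat_lit 0x0) (nat_lit 0x10000c00040000000100000000000000000000000000000000000000000000000000000) := T_32 (nat_lit 263) (nat_lit 246) (nat_lit 7) (nat_lit 7) (nat_lit 11) L90994 (by decide +kernel)
theorem L90996 : W_32 (nat_lit 2) (nat_lit 0x80003000100008000e000200018001000080000000000000000000000000000000) (nat_lit 0x0) (nat_lit 0x10000400000000000100000000000000000000000000000000000000000000000000000) := D_32 (nat_lit 262) (nat_lit 212) (nat_lit 280) (nat_lit 6) (nat_lit 7) (nat_lit 15) (nat_lit 7) (nat_lit 7) (nat_lit 12) (by decide +kernel)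
theorem L90997 : W_32 (nat_lit 3) (nat_lit 0x3000100008000e000200018001000080000000000000000000000000000000) (nat_lit 0x0) (nat_lit 0x10000c00040000000100000000000000000000000000000000000000000000000000000) := T_32 (nat_lit 263) (nat_lit 246) (nat_lit 7) (nat_lit 7) (nat_lit 11) L90996 (by decide +kernel)
theorem L90998 : W_32 (nat_lit 2) (nat_lit 0x40002000100008000e000200018001000080000000000000000000000000000000) (nat_lit 0x0) (nat_lit 0x4000200010000000000000000000000000000000000000000000000000000000000000) := D_32 (nat_lit 261) (nat_lit 278) (nat_lit 244) (nat_lit 5) (nat_lit 7) (nat_lit 12) (nat_lit 5) (nat_lit 7) (nat_lit 11) (by decide +kernel)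
theorem L90999 : W_32 (nat_lit 3) (nat_lit 0x2000100008000e000200018001000080000000000000000000000000000000) (nat_lit 0x0) (nat_lit 0x4000600010000000100000000000000000000000000000000000000000000000000000) := T_32 (nat_lit 262) (nat_lit 212) (nat_lit 6) (nat_lit 7) (nat_lit 15) L90998 (by decide +kernel)
theorem L91000 : W_32 (nat_lit 4) (nat_lit 0x180008000e000200018001000080000000000000000000000000000000) (nat_lit 0x0) (nat_lit 0x10000c00060000000100000000400000000000000000000000000000000000000000000) := T_32 (nat_lit 245) (nat_lit 178) (nat_lit 6) (nat_lit 7) (nat_lit 14) L90995 (by decide +kernel)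
theorem L91001 : W_32 (nat_lit 5) (nat_lit 0x80008000e000200018001000080000000000000000000000000000000) (nat_lit 0x0) (nat_lit 0x10000c00070001000100000000400000000000000000000000000000000000000000000) := T_32 (nat_lit 228) (nat_lit 244) (nat_lit 5) (nat_lit 7) (nat_lit 10) L91000 (by decide +kernel)
theorem L91002 : W_32 (nat_lit 6) (nat_lit 0x80008000e000200010001000080000000000000000000000000000000) (nat_lit 0x0) (nat_lit 0x10000c00070001000100000000400008000400000000000000000000000000000000000) := T_32 (nat_lit 159) (nat_lit 142) (nat_lit 4) (nat_lit 7) (nat_lit 12) L91001 (by decide +kernel)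
theorem L91003 : W_32 (nat_lit 7) (nat_lit 0x8000e000200010001000080000000000000000000000000000000) (nat_lit 0x0) (nat_lit 0x10000c00070001800140000000400008000400000000000000000000000000000000000) := T_32 (nat_lit 227) (nat_lit 210) (nat_lit 5) (nat_lit 7) (nat_lit 9) L91002 (by decide +kernel)
theorem L91004 : W_32 (nat_lit 8) (nat_lit 0x8000e000200000001000080000000000000000000000000000000) (nat_lit 0x0) (nat_lit 0x10000c00070001800140000000400018000c00000000000000000000000000000000000) := T_32 (nat_lit 160) (nat_lit 143) (nat_lit 6) (nat_lit 7) (nat_lit 11) L91003 (by decide +kernel)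
theorem L91005 : W_32 (nat_lit 4) (nat_lit 0x100008000e000200018001000080000000000000000000000000000000) (nat_lit 0x0) (nat_lit 0x4000600030000000100000000400000000000000000000000000000000000000000000) := T_32 (nat_lit 245) (nat_lit 178) (nat_lit 6) (nat_lit 7) (nat_lit 14) L90999 (by decide +kernel)
theorem L91006 : W_32 (nat_lit 4) (nat_lit 0x1000100008000e000200018001000080000000000000000000000000000000) (nat_lit 0x0) (nat_lit 0x10000e00060000000100000000000000000000000000000000000000000000000000000) := T_32 (nat_lit 245) (nat_lit 261) (nat_lit 5) (nat_lit 7) (nat_lit 11) L90997 (by decide +kernel)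
theorem L91007 : W_32 (nat_lit 5) (nat_lit 0x100008000e000200018001000080000000000000000000000000000000) (nat_lit 0x0) (nat_lit 0x10000e00070000800100000000000000000000000000000000000000000000000000000) := T_32 (nat_lit 244) (nat_lit 227) (nat_lit 5) (nat_lit 7) (nat_lit 10) L91006 (by decide +kernel)
theorem L91008 : W_32 (nat_lit 5) (nat_lit 0x20001e000a00000001c00080000000000000000000000000000000) (nat_lit 0x0) (nat_lit 0x700030011c000000000000000000000000000000) := T_32 (nat_lit 141) (nat_lit 128) (nat_lit 2) (nat_lit 5) (nat_lit 8) L86002 (by decide +kernel)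
theorem L91009 : W_32 (nat_lit 6) (nat_lit 0x20001e000a00000001400080000000000000000000000000000000) (nat_lit 0x0) (nat_lit 0x17000b0011c000000000000000000000000000000) := T_32 (nat_lit 143) (nat_lit 160) (nat_lit 6) (nat_lit 7) (nat_lit 11) L91008 (by decide +kernel)
theorem L91010 : W_32 (nat_lit 7) (nat_lit 0x1e000a00000001400080000000000000000000000000000000) (nat_lit 0x0) (nat_lit 0x600000000000017000b0011c000000000000000000000000000000) := T_32 (nat_lit 213) (nat_lit 214) (nat_lit 3) (nat_lit 6) (nat_lit 11) L91009 (by decide +kernel)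
theorem L91011 : W_32 (nat_lit 8) (nat_lit 0x1e000200000001400080000000000000000000000000000000) (nat_lit 0x0) (nat_lit 0x600000001800017000b0011c000000000000000000000000000000) := T_32 (nat_lit 179) (nat_lit 180) (nat_lit 2) (nat_lit 6) (nat_lit 11) L91010 (by decide +kernel)
theorem L91012 : W_32 (nat_lit 9) (nat_lit 0x1e000200000001000080000000000000000000000000000000) (nat_lit 0x0) (nat_lit 0x68000000198001f000f0013c000000000000000000000000000000) := Q_32 (nat_lit 142) (C_32 L91011 (C_32 L90682 N_32)) (by decide +kernel)
theorem L91013 : W_32 (nat_lit 10) (nat_lit 0xe000200000001000080000000000000000000000000000000) (nat_lit 0x0) (nat_lit 0x80004003f800f0003d8001f000f0013c000000000000000000000000000000) := Q_32 (nat_lit 196) (C_32 L22723 (C_32 L17920 (C_32 L8031 (C_32 L91012 N_32)))) (by decide +kernel)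
theorem L91014 : W_32 (nat_lit 9) (nat_lit 0xe000200000001000080000000000000000000000000000000) (nat_lit 0x0) (nat_lit 0x90004803fe00f000fc00010000800000000000000000000000000000000000) := Q_32 (nat_lit 196) (C_32 L85462 (C_32 L84896 (C_32 L85456 (C_32 L22723 (C_32 L80367 N_32))))) (by decide +kernel)
theorem L91015 : W_32 (nat_lit 9) (nat_lit 0xe000200000001000080000000000000000000000000000000) (nat_lit 0x0) (nat_lit 0x90004803f600f0007d80010000000000000000000000000000000000000000) := Q_32 (nat_lit 196) (C_32 L85462 (C_32 L85496 (C_32 L85442 (C_32 L22723 (C_32 L17920 (C_32 L84804 N_32)))))) (by decide +kernel)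
theorem L91016 : W_32 (nat_lit 9) (nat_lit 0x8000e000200000001000080000000000000000000000000000000) (nat_lit 0x0) (nat_lit 0x38001e001780000001c000c000400000000000000000000000000000000000) := Q_32 (nat_lit 176) (C_32 L82230 (C_32 L82227 (C_32 L11830 N_32))) (by decide +kernel)
theorem L91017 : W_32 (nat_lit 7) (nat_lit 0x8000e000200010001000080000000000000000000000000000000) (nat_lit 0x0) (nat_lit 0xc0007000000050000f000600000000000000000000000000000000000) := T_32 (nat_lit 210) (nat_lit 227) (nat_lit 5) (nat_lit 7) (nat_lit 9) L89469 (by decide +kernel)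
theorem L91018 : W_32 (nat_lit 8) (nat_lit 0x8000e000200000001000080000000000000000000000000000000) (nat_lit 0x0) (nat_lit 0xc0007000000050001f000e00000000000000000000000000000000000) := T_32 (nat_lit 160) (nat_lit 143) (nat_lit 6) (nat_lit 7) (nat_lit 11) L91017 (by decide +kernel)
theorem L91019 : W_32 (nat_lit 6) (nat_lit 0x8000e000200018001000080000000000000000000000000000000) (nat_lit 0x0) (nat_lit 0x10000e00070001800100000000100000000000000000000000000000000000000000000) := T_32 (nat_lit 228) (nat_lit 176) (nat_lit 4) (nat_lit 7) (nat_lit 13) L91007 (by decide +kernel)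
theorem L91020 : W_32 (nat_lit 7) (nat_lit 0x8000e000200010001000080000000000000000000000000000000) (nat_lit 0x0) (nat_lit 0x10000e00070001800100000000100008000400000000000000000000000000000000000) := T_32 (nat_lit 159) (nat_lit 142) (nat_lit 4) (nat_lit 7) (nat_lit 12) L91019 (by decide +kernel)
theorem L91021 : W_32 (nat_lit 8) (nat_lit 0x8000e000200000001000080000000000000000000000000000000) (nat_lit 0x0) (nat_lit 0x10000e00070001800100000000100018000c00000000000000000000000000000000000) := T_32 (nat_lit 160) (nat_lit 143) (nat_lit 6) (nat_lit 7) (nat_lit 11) L91020 (by decide +kernel)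
theorem L91022 : W_32 (nat_lit 5) (nat_lit 0x8000e000200018001000080000000000000000000000000000000) (nat_lit 0x0) (nat_lit 0x4000600030001000100000000500000000000000000000000000000000000000000000) := T_32 (nat_lit 228) (nat_lit 176) (nat_lit 4) (nat_lit 7) (nat_lit 13) L91005 (by decide +kernel)
theorem L91023 : W_32 (nat_lit 6) (nat_lit 0x8000e000200010001000080000000000000000000000000000000) (nat_lit 0x0) (nat_lit 0x4000600030001000100000000500008000400000000000000000000000000000000000) := T_32 (nat_lit 159) (nat_lit 142) (nat_lit 4) (nat_lit 7) (nat_lit 12) L91022 (by decide +kernel)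
theorem L91024 : W_32 (nat_lit 7) (nat_lit 0x8000e000200000001000080000000000000000000000000000000) (nat_lit 0x0) (nat_lit 0x4000600030001000100000000500018000c00000000000000000000000000000000000) := T_32 (nat_lit 160) (nat_lit 143) (nat_lit 6) (nat_lit 7) (nat_lit 11) L91023 (by decide +kernel)
theorem L91025 : W_32 (nat_lit 10) (nat_lit 0xe000200000001000080000000000000000000000000000000) (nat_lit 0x0) (nat_lit 0x14000e00078001e001f80000005c001f000e00000000000000000000000000000000000) := Q_32 (nat_lit 211) (C_32 L91004 (C_32 L91016 (C_32 L80379 (C_32 L91018 (C_32 L91021 (C_32 L91024 N_32)))))) (by decide +kernel)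
theorem L91026 : W_32 (nat_lit 7) (nat_lit 0x20001e000300000001000080000000000000000000000000000000) (nat_lit 0x0) (nat_lit 0x300018000e0000001c0000c000200000000000000000000000000000000000) := T_32 (nat_lit 210) (nat_lit 209) (nat_lit 1) (nat_lit 9) (nat_lit 11) L82267 (by decide +kernel)
theorem L91027 : W_32 (nat_lit 8) (nat_lit 0x20001e000200000001000080000000000000000000000000000000) (nat_lit 0x0) (nat_lit 0x300018000e0000001d8000c000200000000000000000000000000000000000) := T_32 (nat_lit 176) (nat_lit 175) (nat_lit 0) (nat_lit 9) (nat_lit 11) L91026 (by decide +kernel)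
theorem L91028 : W_32 (nat_lit 9) (nat_lit 0x1e000200000001000080000000000000000000000000000000) (nat_lit 0x0) (nat_lit 0x300018006e0000001d8000c000200000000000000000000000000000000000) := T_32 (nat_lit 213) (nat_lit 214) (nat_lit 3) (nat_lit 6) (nat_lit 11) L91027 (by decide +kernel)
theorem L91029 : W_32 (nat_lit 10) (nat_lit 0xe000200000001000080000000000000000000000000000000) (nat_lit 0x0) (nat_lit 0xb0005803fe00f0007d8000c000200000000000000000000000000000000000) := Q_32 (nat_lit 196) (C_32 L85462 (C_32 L84804 (C_32 L85442 (C_32 L22723 (C_32 L17920 (C_32 L91028 N_32)))))) (by decide +kernel)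
theorem L91030 : W_32 (nat_lit 11) (nat_lit 0x6000200000001000080000000000000000000000000000000) (nat_lit 0x0) (nat_lit 0x14000e000f8005e03ff80f800fdc001f000f0013c000000000000000000000000000000) := Q_32 (nat_lit 195) (C_32 L91013 (C_32 L91014 (C_32 L84897 (C_32 L91015 (C_32 L80355 (C_32 L91025 (C_32 L91029 N_32))))))) (by decide +kernel)
theorem L91069 : W_32 (nat_lit 16) (nat_lit 0x4000200000001000080000000000000000000000000000000) (nat_lit 0x0) (nat_lit 0x14000f800ff005f83ffe0fbf0fdfc01f000fc013c001000000000000000000000000000) := Q_32 (nat_lit 193) (C_32 L90791 (C_32 L90874 (C_32 L90882 (C_32 L90898 (C_32 L90924 (C_32 L90927 (C_32 L80214 (C_32 L90949 (C_32 L90992 (C_32 L89403 (C_32 L90993 (C_32 L91030 (C_32 L91054 (C_32 L91065 (C_32 L91068 N_32))))))))))))))) (by decide +kernel)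
theorem L91073 : W_32 (nat_lit 17) (nat_lit 0x4000200000001000080000000000000000000000000000000) (nat_lit 0x0) (nat_lit 0xbf00df00ef80fff07bf07dfc05f800f8013c0038001c0002000000000000000000) := Q_32 (nat_lit 193) (C_32 L91054 (C_32 L90746 (C_32 L79610 (C_32 L90898 (C_32 L91072 (C_32 L85295 (C_32 L90949 (C_32 L84455 (C_32 L89403 (C_32 L84543 (C_32 L80214 (C_32 L84549 (C_32 L84551 N_32))))))))))))) (by decide +kernel)
theorem L91074 : W_32 (nat_lit 14) (nat_lit 0x1000080006000200000001000080000000000000000000000000000000) (nat_lit 0x0) (nat_lit 0xde01ef01f6c079f01de0002000100000000000000000000000000000000000) := Q_32 (nat_lit 192) (C_32 L90195 (C_32 L78549 (C_32 L78550 (C_32 L80828 N_32)))) (by decide +kernel)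
theorem L91079 : W_32 (nat_lit 14) (nat_lit 0x1000080006000200000001000080000000000000000000000000000000) (nat_lit 0x0) (nat_lit 0xde01ef01f6c079f01cf0002000100000000000000000000000000000000000) := Q_32 (nat_lit 192) (C_32 L80828 (C_32 L90195 (C_32 L91078 (C_32 L78550 N_32)))) (by decide +kernel)
theorem L91098 : W_32 (nat_lit 15) (nat_lit 0x1000080004000200000001000080000000000000000000000000000000) (nat_lit 0x0) (nat_lit 0x3de01ef01f6c0fbf01df00cf000300010000000000000000000000000000000) := Q_32 (nat_lit 193) (C_32 L90289 (C_32 L90118 (C_32 L91074 (C_32 L91079 (C_32 L90211 (C_32 L91097 (C_32 L90274 (C_32 L78773 N_32)))))))) (by decide +kernel)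
theorem L91099 : W_32 (nat_lit 16) (nat_lit 0x80004000200000001000080000000000000000000000000000000) (nat_lit 0x0) (nat_lit 0x10003e003fe01ff01f6c0fbf01df00cf000300010000000000000000000000000000000) := Q_32 (nat_lit 228) (C_32 L81929 (C_32 L6805 (C_32 L6067 (C_32 L6682 (C_32 L91098 N_32))))) (by decide +kernel)
theorem L91100 : W_32 (nat_lit 17) (nat_lit 0x4000200000001000080000000000000000000000000000000) (nat_lit 0x0) (nat_lit 0x54003e003fe03ff01fec0fbf01df00df000f0011c000000000000000000000000000000) := Q_32 (nat_lit 211) (C_32 L80658 (C_32 L90342 (C_32 L79506 (C_32 L79450 (C_32 L91099 (C_32 L79507 (C_32 L79513 (C_32 L79509 N_32)))))))) (by decide +kernel)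
theorem L91133 : W_32 (nat_lit 6) (nat_lit 0x1000080006000200000001000080000000000000000000000000000000) (nat_lit 0x0) (nat_lit 0x5000e8001700080001e000c000000000000000000000000000000000000000) := Q_32 (nat_lit 210) (C_32 L91082 (C_32 L79371 (C_32 L10198 N_32))) (by decide +kernel)
theorem L91134 : W_32 (nat_lit 12) (nat_lit 0x1000080006000200000001000080000000000000000000000000000000) (nat_lit 0x0) (nat_lit 0x50006800f7c079c07cf0004000000000000000000000000000000000000000) := Q_32 (nat_lit 192) (C_32 L91078 (C_32 L80748 (C_32 L90162 (C_32 L80816 N_32)))) (by decide +kernel)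
theorem L91135 : W_32 (nat_lit 7) (nat_lit 0x1000080007000200000001000080000000000000000000000000000000) (nat_lit 0x0) (nat_lit 0x10000800770038001dc000e000000000000000000000000000000000000000) := Q_32 (nat_lit 195) (C_32 L90276 (C_32 L90285 (C_32 L90156 (C_32 L90281 (C_32 L80815 N_32))))) (by decide +kernel)
theorem L91136 : W_32 (nat_lit 8) (nat_lit 0x1000080006000200000001000080000000000000000000000000000000) (nat_lit 0x0) (nat_lit 0x10000800778039c01df000e000000000000000000000000000000000000000) := Q_32 (nat_lit 192) (C_32 L91078 (C_32 L80748 (C_32 L78632 (C_32 L91135 N_32)))) (by decide +kernel)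
theorem L91137 : W_32 (nat_lit 13) (nat_lit 0x1000080004000200000001000080000000000000000000000000000000) (nat_lit 0x0) (nat_lit 0x3d400ea01f7c07bc07df00cf000200010000000000000000000000000000000) := Q_32 (nat_lit 193) (C_32 L90287 (C_32 L91133 (C_32 L78773 (C_32 L91134 (C_32 L90211 (C_32 L91097 (C_32 L91136 N_32))))))) (by decide +kernel)
theorem L91138 : W_32 (nat_lit 14) (nat_lit 0x80004000200000001000080000000000000000000000000000000) (nat_lit 0x0) (nat_lit 0x18000e003f400fa01f7c07bc07df00cf000200010000000000000000000000000000000) := Q_32 (nat_lit 228) (C_32 L80582 (C_32 L6805 (C_32 L6067 (C_32 L6682 (C_32 L91137 N_32))))) (by decide +kernel)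
theorem L91139 : W_32 (nat_lit 15) (nat_lit 0x4000200000001000080000000000000000000000000000000) (nat_lit 0x0) (nat_lit 0x1c001f803f400fb81ffc07bc07df00df000f0011c000000000000000000000000000000) := Q_32 (nat_lit 211) (C_32 L80658 (C_32 L79506 (C_32 L79450 (C_32 L91132 (C_32 L91138 (C_32 L79507 (C_32 L79508 (C_32 L79509 (C_32 L79510 N_32))))))))) (by decide +kernel)
theorem L91140 : W_32 (nat_lit 2) (nat_lit 0x4000000014001e000b00000001000080000000000000000000000000000000) (nat_lit 0x0) (nat_lit 0x800000000000000010000800000000000000000000000000000000000) := D_32 (nat_lit 160) (nat_lit 143) (nat_lit 227) (nat_lit 7) (nat_lit 7) (nat_lit 8) (nat_lit 6) (nat_lit 6) (nat_lit 13) (by decide +kernel)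
theorem L91141 : W_32 (nat_lit 3) (nat_lit 0x4000000014001e000a00000001000080000000000000000000000000000000) (nat_lit 0x0) (nat_lit 0x800000000000180010000800000000000000000000000000000000000) := T_32 (nat_lit 176) (nat_lit 175) (nat_lit 0) (nat_lit 9) (nat_lit 11) L91140 (by decide +kernel)
theorem L91142 : W_32 (nat_lit 4) (nat_lit 0x4000000010001e000a00000001000080000000000000000000000000000000) (nat_lit 0x0) (nat_lit 0x800060000000180010000800000000000000000000000000000000000) := T_32 (nat_lit 210) (nat_lit 209) (nat_lit 1) (nat_lit 9) (nat_lit 11) L91141 (by decide +kernel)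
theorem L91143 : W_32 (nat_lit 5) (nat_lit 0x4000000010001e000200000001000080000000000000000000000000000000) (nat_lit 0x0) (nat_lit 0x800060000001980010000800000000000000000000000000000000000) := T_32 (nat_lit 179) (nat_lit 180) (nat_lit 2) (nat_lit 6) (nat_lit 11) L91142 (by decide +kernel)
theorem L91144 : W_32 (nat_lit 6) (nat_lit 0x10001e000200000001000080000000000000000000000000000000) (nat_lit 0x0) (nat_lit 0x40002800060000001980010000800000000000000000000000000000000000) := T_32 (nat_lit 246) (nat_lit 229) (nat_lit 4) (nat_lit 8) (nat_lit 14) L91143 (by decide +kernel)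
theorem L91145 : W_32 (nat_lit 7) (nat_lit 0x10001c000200000001000080000000000000000000000000000000) (nat_lit 0x0) (nat_lit 0x40002800660003001980010000800000000000000000000000000000000000) := Q_32 (nat_lit 193) (C_32 L91144 (C_32 L85645 N_32)) (by decide +kernel)
theorem L91146 : W_32 (nat_lit 13) (nat_lit 0x10000c000200000001000080000000000000000000000000000000) (nat_lit 0x0) (nat_lit 0x38007e003f807e601f301f9c01d000c800600020000000000000000000000000000) := Q_32 (nat_lit 196) (C_32 L90355 (C_32 L87169 (C_32 L85794 (C_32 L87173 (C_32 L91145 N_32))))) (by decide +kernel)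
theorem L91147 : W_32 (nat_lit 14) (nat_lit 0xc000200000001000080000000000000000000000000000000) (nat_lit 0x0) (nat_lit 0x38007e003f807ff81f3c1f9e01df00cf0073c020000000000000000000000000000) := Q_32 (nat_lit 212) (C_32 L90362 (C_32 L90374 (C_32 L90356 (C_32 L86996 (C_32 L91146 N_32))))) (by decide +kernel)
theorem L91148 : W_32 (nat_lit 2) (nat_lit 0x16000d000280014001000080000000000000000000000000000000) (nat_lit 0x0) (nat_lit 0x200002000000000000200000000000000000000000000000000000) := D_32 (nat_lit 193) (nat_lit 141) (nat_lit 213) (nat_lit 7) (nat_lit 5) (nat_lit 8) (nat_lit 3) (nat_lit 5) (nat_lit 11) (by decide +kernel)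
theorem L91149 : W_32 (nat_lit 3) (nat_lit 0x12000d000280014001000080000000000000000000000000000000) (nat_lit 0x0) (nat_lit 0x800240002000000000000200000000000000000000000000000000000) := T_32 (nat_lit 210) (nat_lit 227) (nat_lit 7) (nat_lit 5) (nat_lit 9) L91148 (by decide +kernel)
theorem L91150 : W_32 (nat_lit 4) (nat_lit 0x12000d000280004001000080000000000000000000000000000000) (nat_lit 0x0) (nat_lit 0x800240002000000010000a00000000000000000000000000000000000) := T_32 (nat_lit 160) (nat_lit 143) (nat_lit 7) (nat_lit 7) (nat_lit 8) L91149 (by decide +kernel)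
theorem L91151 : W_32 (nat_lit 6) (nat_lit 0x12000d000280000001000080000000000000000000000000000000) (nat_lit 0x0) (nat_lit 0xc0024000200050001f000f00128000000000000000000000000000000) := Q_32 (nat_lit 158) (C_32 L87944 (C_32 L87487 (C_32 L87890 (C_32 L91150 N_32)))) (by decide +kernel)
theorem L91152 : W_32 (nat_lit 7) (nat_lit 0x10000d000280000001000080000000000000000000000000000000) (nat_lit 0x0) (nat_lit 0xe0027000200050001f000f00128000000000000000000000000000000) := Q_32 (nat_lit 209) (C_32 L87945 (C_32 L87938 (C_32 L91151 N_32))) (by decide +kernel)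
theorem L91153 : W_32 (nat_lit 8) (nat_lit 0x10000d000200000001000080000000000000000000000000000000) (nat_lit 0x0) (nat_lit 0xe002f00020005c001f000f00138000000000000000000000000000000) := Q_32 (nat_lit 175) (C_32 L90601 (C_32 L87523 (C_32 L91152 N_32))) (by decide +kernel)
theorem L91154 : W_32 (nat_lit 15) (nat_lit 0x10000c000200000001000080000000000000000000000000000000) (nat_lit 0x0) (nat_lit 0x4001e002f8003e03de01dfc00fe013f001c000e0000000000000000000000) := Q_32 (nat_lit 192) (C_32 L87411 (C_32 L90602 (C_32 L87409 (C_32 L91153 N_32)))) (by decide +kernel)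
theorem L91155 : W_32 (nat_lit 16) (nat_lit 0xc000200000001000080000000000000000000000000000000) (nat_lit 0x0) (nat_lit 0xe401fe00ff8003e03de01dfc00fe013f001c000e0000000000000000000000) := Q_32 (nat_lit 212) (C_32 L87289 (C_32 L90583 (C_32 L86996 (C_32 L86997 (C_32 L87009 (C_32 L91154 N_32)))))) (by decide +kernel)
theorem L91156 : W_32 (nat_lit 7) (nat_lit 0x30001c000200000001000080000000000000000000000000000000) (nat_lit 0x0) (nat_lit 0x10001c001e000cc0000000c00040000000000000000000000000000000000000000) := Q_32 (nat_lit 230) (C_32 L90627 (C_32 L87064 N_32)) (by decide +kernel)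
theorem L91157 : W_32 (nat_lit 8) (nat_lit 0x30000c000200000001000080000000000000000000000000000000) (nat_lit 0x0) (nat_lit 0x30001c003e001cc00f0007c000c0004000000000000000000000000000000000000) := Q_32 (nat_lit 196) (C_32 L90634 (C_32 L85627 (C_32 L87291 (C_32 L90622 (C_32 L91156 (C_32 L90633 N_32)))))) (by decide +kernel)
theorem L91158 : W_32 (nat_lit 9) (nat_lit 0x10000c000200000001000080000000000000000000000000000000) (nat_lit 0x0) (nat_lit 0x30001c003e001ee00f3007c000c0004000000000000000000000000000000000000) := Q_32 (nat_lit 213) (C_32 L90642 (C_32 L19093 (C_32 L87158 (C_32 L91157 N_32)))) (by decide +kernel)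
theorem L91159 : W_32 (nat_lit 2) (nat_lit 0x40003c001e000a00018001000080000000000000000000000000000000) (nat_lit 0x0) (nat_lit 0x1000080000000000000000400000000000000000000000000000000000000000000) := D_32 (nat_lit 247) (nat_lit 178) (nat_lit 264) (nat_lit 4) (nat_lit 9) (nat_lit 14) (nat_lit 4) (nat_lit 9) (nat_lit 15) (by decide +kernel)
theorem L91160 : W_32 (nat_lit 3) (nat_lit 0x3c001e000a00018001000080000000000000000000000000000000) (nat_lit 0x0) (nat_lit 0x100008000c000000000000400000000000000000000000000000000000000000000) := T_32 (nat_lit 230) (nat_lit 231) (nat_lit 3) (nat_lit 6) (nat_lit 12) L91159 (by decide +kernel)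
theorem L91161 : W_32 (nat_lit 4) (nat_lit 0x3c001e000a00010001000080000000000000000000000000000000) (nat_lit 0x0) (nat_lit 0x100008000c000000000000400008000400000000000000000000000000000000000) := T_32 (nat_lit 159) (nat_lit 142) (nat_lit 4) (nat_lit 7) (nat_lit 12) L91160 (by decide +kernel)
theorem L91162 : W_32 (nat_lit 5) (nat_lit 0x34001e000a00010001000080000000000000000000000000000000) (nat_lit 0x0) (nat_lit 0x100008000c800080000000400008000400000000000000000000000000000000000) := T_32 (nat_lit 211) (nat_lit 227) (nat_lit 5) (nat_lit 7) (nat_lit 9) L91161 (by decide +kernel)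
theorem L91163 : W_32 (nat_lit 6) (nat_lit 0x30001e000a00010001000080000000000000000000000000000000) (nat_lit 0x0) (nat_lit 0x100008000c8000e0000000400008000400000000000000000000000000000000000) := T_32 (nat_lit 210) (nat_lit 209) (nat_lit 1) (nat_lit 9) (nat_lit 11) L91162 (by decide +kernel)
theorem L91164 : W_32 (nat_lit 7) (nat_lit 0x30001e000a00000001000080000000000000000000000000000000) (nat_lit 0x0) (nat_lit 0x100008000c8000e0000000400018000c00000000000000000000000000000000000) := T_32 (nat_lit 160) (nat_lit 143) (nat_lit 7) (nat_lit 7) (nat_lit 8) L91163 (by decide +kernel)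
theorem L91165 : W_32 (nat_lit 8) (nat_lit 0x30001e000200000001000080000000000000000000000000000000) (nat_lit 0x0) (nat_lit 0x100008000c8000e0000001c00018000c00000000000000000000000000000000000) := T_32 (nat_lit 179) (nat_lit 180) (nat_lit 2) (nat_lit 6) (nat_lit 11) L91164 (by decide +kernel)
theorem L91166 : W_32 (nat_lit 9) (nat_lit 0x10001e000200000001000080000000000000000000000000000000) (nat_lit 0x0) (nat_lit 0x100008000c8006e0000001c00018000c00000000000000000000000000000000000) := T_32 (nat_lit 213) (nat_lit 214) (nat_lit 3) (nat_lit 6) (nat_lit 11) L91165 (by decide +kernel)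
theorem L91167 : W_32 (nat_lit 10) (nat_lit 0x10000e000200000001000080000000000000000000000000000000) (nat_lit 0x0) (nat_lit 0x100008000c801ee00f0003c00018000c00000000000000000000000000000000000) := Q_32 (nat_lit 196) (C_32 L90366 (C_32 L88033 (C_32 L88037 (C_32 L91166 (C_32 L88030 N_32))))) (by decide +kernel)
theorem L91168 : W_32 (nat_lit 11) (nat_lit 0x10000c000200000001000080000000000000000000000000000000) (nat_lit 0x0) (nat_lit 0x100008000c801ef80f3803cc001e000e00000000000000000000000000000000000) := Q_32 (nat_lit 193) (C_32 L90586 (C_32 L90585 (C_32 L90654 (C_32 L91167 N_32)))) (by decide +kernel)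
theorem L91169 : W_32 (nat_lit 12) (nat_lit 0xc000200000001000080000000000000000000000000000000) (nat_lit 0x0) (nat_lit 0x30001e003f801ff80f3807cc00de004e00000000000000000000000000000000000) := Q_32 (nat_lit 212) (C_32 L87289 (C_32 L86996 (C_32 L91158 (C_32 L86997 (C_32 L87009 (C_32 L91168 N_32)))))) (by decide +kernel)
theorem L91170 : W_32 (nat_lit 14) (nat_lit 0xc000300000001000080000000000000000000000000000000) (nat_lit 0x0) (nat_lit 0x40002c00778033c0046001f000f80030000000000000000000000000000000) := T_32 (nat_lit 160) (nat_lit 143) (nat_lit 6) (nat_lit 7) (nat_lit 11) L86459 (by decide +kernel)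
theorem L91171 : W_32 (nat_lit 16) (nat_lit 0xc000200000001000080000000000000000000000000000000) (nat_lit 0x0) (nat_lit 0xe8007d007f8033c00de005fc00ff013f001e000f0000000000000000000000) := Q_32 (nat_lit 176) (C_32 L84187 (C_32 L88860 (C_32 L87557 (C_32 L91170 (C_32 L14831 N_32))))) (by decide +kernel)
theorem L91172 : W_32 (nat_lit 17) (nat_lit 0x4000200000001000080000000000000000000000000000000) (nat_lit 0x0) (nat_lit 0x3c007ec03ff07ff81fbe1fdf81dfc0cff073f021e000f0000000000000000000000) := Q_32 (nat_lit 195) (C_32 L90676 (C_32 L90453 (C_32 L90725 (C_32 L91147 (C_32 L87548 (C_32 L91155 (C_32 L90557 (C_32 L91169 (C_32 L88828 (C_32 L88833 (C_32 L90702 (C_32 L91171 (C_32 L90724 N_32))))))))))))) (by decide +kernel)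
theorem L91173 : W_32 (nat_lit 17) (nat_lit 0x4000200000001000080000000000000000000000000000000) (nat_lit 0x0) (nat_lit 0x10003f007f003f80ffc07bf03dfc01f800f8013c003c001e0002000000000000000000) := Q_32 (nat_lit 193) (C_32 L91072 (C_32 L90874 (C_32 L90882 (C_32 L90898 (C_32 L90927 (C_32 L90840 (C_32 L90992 (C_32 L90746 (C_32 L90730 (C_32 L90859 (C_32 L91054 (C_32 L91065 (C_32 L91068 N_32))))))))))))) (by decide +kernel)
theorem L91174 : W_32 (nat_lit 2) (nat_lit 0x100010000f0007800200000001000080000000000000000000000000000000) (nat_lit 0x0) (nat_lit 0x20000000000000000100008000000000000000000000000000000000000000) := D_32 (nat_lit 176) (nat_lit 159) (nat_lit 245) (nat_lit 7) (nat_lit 6) (nat_lit 9) (nat_lit 4) (nat_lit 7) (nat_lit 14) (by decide +kernel)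
theorem L91175 : W_32 (nat_lit 3) (nat_lit 0x100000000f0007800200000001000080000000000000000000000000000000) (nat_lit 0x0) (nat_lit 0x20003000000000000100008000000000000000000000000000000000000000) := T_32 (nat_lit 228) (nat_lit 229) (nat_lit 3) (nat_lit 4) (nat_lit 12) L91174 (by decide +kernel)
theorem L91176 : W_32 (nat_lit 4) (nat_lit 0xf0007800200000001000080000000000000000000000000000000) (nat_lit 0x0) (nat_lit 0x30003800000000000100008000000000000000000000000000000000000000) := T_32 (nat_lit 244) (nat_lit 227) (nat_lit 6) (nat_lit 6) (nat_lit 14) L91175 (by decide +kernel)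
theorem L91177 : W_32 (nat_lit 5) (nat_lit 0x70007800200000001000080000000000000000000000000000000) (nat_lit 0x0) (nat_lit 0x30003800180000000100008000000000000000000000000000000000000000) := T_32 (nat_lit 211) (nat_lit 212) (nat_lit 3) (nat_lit 4) (nat_lit 11) L91176 (by decide +kernel)
theorem L91178 : W_32 (nat_lit 6) (nat_lit 0x60007800200000001000080000000000000000000000000000000) (nat_lit 0x0) (nat_lit 0x30003800198000000100008000000000000000000000000000000000000000) := T_32 (nat_lit 208) (nat_lit 207) (nat_lit 2) (nat_lit 3) (nat_lit 12) L91177 (by decide +kernel)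
theorem L91179 : W_32 (nat_lit 7) (nat_lit 0x40007800200000001000080000000000000000000000000000000) (nat_lit 0x0) (nat_lit 0x38003c001b80000001e000a000100000000000000000000000000000000000) := Q_32 (nat_lit 209) (C_32 L84973 (C_32 L79625 (C_32 L91178 (C_32 L79638 N_32)))) (by decide +kernel)
theorem L91180 : W_32 (nat_lit 8) (nat_lit 0x40007000200000001000080000000000000000000000000000000) (nat_lit 0x0) (nat_lit 0x38003c001bc000c001f000a000100000000000000000000000000000000000) := Q_32 (nat_lit 191) (C_32 L89528 (C_32 L84623 (C_32 L79618 (C_32 L91179 N_32)))) (by decide +kernel)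
theorem L91181 : W_32 (nat_lit 9) (nat_lit 0x40006000200000001000080000000000000000000000000000000) (nat_lit 0x0) (nat_lit 0x38003c001bc001c00df000f000700020000000000000000000000000000000) := Q_32 (nat_lit 192) (C_32 L84924 (C_32 L91180 (C_32 L80212 (C_32 L84359 N_32)))) (by decide +kernel)
theorem L91182 : W_32 (nat_lit 2) (nat_lit 0xe000780034001a001000080000000000000000000000000000000) (nat_lit 0x0) (nat_lit 0x5000200000000000000000000000000000000000) := D_32 (nat_lit 158) (nat_lit 141) (nat_lit 156) (nat_lit 4) (nat_lit 6) (nat_lit 12) (nat_lit 3) (nat_lit 3) (nat_lit 9) (by decide +kernel)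
theorem L91183 : W_32 (nat_lit 3) (nat_lit 0xe0007800340018001000080000000000000000000000000000000) (nat_lit 0x0) (nat_lit 0x7000300000000000000000000000000000000000) := T_32 (nat_lit 157) (nat_lit 140) (nat_lit 7) (nat_lit 4) (nat_lit 8) L91182 (by decide +kernel)
theorem L91184 : W_32 (nat_lit 4) (nat_lit 0xc0007800340018001000080000000000000000000000000000000) (nat_lit 0x0) (nat_lit 0x400020000000000007000300000000000000000000000000000000000) := T_32 (nat_lit 209) (nat_lit 226) (nat_lit 5) (nat_lit 6) (nat_lit 9) L91183 (by decide +kernel)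
theorem L91185 : W_32 (nat_lit 5) (nat_lit 0xc0007800240018001000080000000000000000000000000000000) (nat_lit 0x0) (nat_lit 0x1400020000000100007000300000000000000000000000000000000000) := T_32 (nat_lit 176) (nat_lit 228) (nat_lit 7) (nat_lit 6) (nat_lit 9) L91184 (by decide +kernel)
theorem L91186 : W_32 (nat_lit 6) (nat_lit 0xc0007800200018001000080000000000000000000000000000000) (nat_lit 0x0) (nat_lit 0x1400020000000160007000300000000000000000000000000000000000) := T_32 (nat_lit 174) (nat_lit 173) (nat_lit 0) (nat_lit 7) (nat_lit 11) L91185 (by decide +kernel)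
theorem L91187 : W_32 (nat_lit 7) (nat_lit 0xc0007800200010001000080000000000000000000000000000000) (nat_lit 0x0) (nat_lit 0x140002000000016000f000700000000000000000000000000000000000) := T_32 (nat_lit 159) (nat_lit 142) (nat_lit 4) (nat_lit 7) (nat_lit 12) L91186 (by decide +kernel)
theorem L91188 : W_32 (nat_lit 8) (nat_lit 0x40007800200010001000080000000000000000000000000000000) (nat_lit 0x0) (nat_lit 0x14001a000000016000f000700000000000000000000000000000000000) := T_32 (nat_lit 211) (nat_lit 212) (nat_lit 3) (nat_lit 4) (nat_lit 11) L91187 (by decide +kernel)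
theorem L91189 : W_32 (nat_lit 9) (nat_lit 0x40007800200000001000080000000000000000000000000000000) (nat_lit 0x0) (nat_lit 0x14001a000000016001f000f00000000000000000000000000000000000) := T_32 (nat_lit 160) (nat_lit 143) (nat_lit 6) (nat_lit 7) (nat_lit 11) L91188 (by decide +kernel)
theorem L91190 : W_32 (nat_lit 10) (nat_lit 0x40007000200000001000080000000000000000000000000000000) (nat_lit 0x0) (nat_lit 0x14001bc000f001fc01f000f00000000000000000000000000000000000) := Q_32 (nat_lit 191) (C_32 L89528 (C_32 L84932 (C_32 L79618 (C_32 L91189 N_32)))) (by decide +kernel)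
theorem L91191 : W_32 (nat_lit 5) (nat_lit 0xc0007000200010001000080000000000000000000000000000000) (nat_lit 0x0) (nat_lit 0xc00060003000000000000100008000400000000000000000000000000000000000) := T_32 (nat_lit 159) (nat_lit 142) (nat_lit 4) (nat_lit 7) (nat_lit 12) L89829 (by decide +kernel)
theorem L91192 : W_32 (nat_lit 6) (nat_lit 0xc0007000200000001000080000000000000000000000000000000) (nat_lit 0x0) (nat_lit 0xc00060003000000000000100018000c00000000000000000000000000000000000) := T_32 (nat_lit 160) (nat_lit 143) (nat_lit 6) (nat_lit 7) (nat_lit 11) L91191 (by decide +kernel)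
theorem L91193 : W_32 (nat_lit 5) (nat_lit 0x1c0007000200010001000080000000000000000000000000000000) (nat_lit 0x0) (nat_lit 0x100000000000050000f000600000000000000000000000000000000000) := T_32 (nat_lit 159) (nat_lit 142) (nat_lit 4) (nat_lit 7) (nat_lit 12) L89881 (by decide +kernel)
theorem L91194 : W_32 (nat_lit 6) (nat_lit 0x1c0007000200000001000080000000000000000000000000000000) (nat_lit 0x0) (nat_lit 0x300000000000050001f000600000000000000000000000000000000000) := T_32 (nat_lit 160) (nat_lit 229) (nat_lit 7) (nat_lit 7) (nat_lit 9) L91193 (by decide +kernel)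
theorem L91195 : W_32 (nat_lit 7) (nat_lit 0xc0007000200000001000080000000000000000000000000000000) (nat_lit 0x0) (nat_lit 0x300030000000050001f000600000000000000000000000000000000000) := T_32 (nat_lit 212) (nat_lit 213) (nat_lit 0) (nat_lit 9) (nat_lit 12) L91194 (by decide +kernel)
theorem L91196 : W_32 (nat_lit 7) (nat_lit 0xc0007000200000001000080000000000000000000000000000000) (nat_lit 0x0) (nat_lit 0x6000f000330000000d8000f000600000000000000000000000000000000000) := Q_32 (nat_lit 176) (C_32 L83206 (C_32 L79801 (C_32 L78902 N_32))) (by decide +kernel)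
theorem L91197 : W_32 (nat_lit 2) (nat_lit 0x2c000700030001c001000080000000000000000000000000000000) (nat_lit 0x0) (nat_lit 0x400003000000000000000000000000000000000000000) := D_32 (nat_lit 157) (nat_lit 178) (nat_lit 156) (nat_lit 3) (nat_lit 4) (nat_lit 9) (nat_lit 3) (nat_lit 3) (nat_lit 9) (by decide +kernel)
theorem L91198 : W_32 (nat_lit 3) (nat_lit 0x2c0007000300018001000080000000000000000000000000000000) (nat_lit 0x0) (nat_lit 0x400007000200000000000000000000000000000000000) := T_32 (nat_lit 158) (nat_lit 141) (nat_lit 4) (nat_lit 6) (nat_lit 12) L91197 (by decide +kernel)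
theorem L91199 : W_32 (nat_lit 4) (nat_lit 0x2c0007000200018001000080000000000000000000000000000000) (nat_lit 0x0) (nat_lit 0x1000000000000500007000200000000000000000000000000000000000) := T_32 (nat_lit 176) (nat_lit 228) (nat_lit 7) (nat_lit 6) (nat_lit 9) L91198 (by decide +kernel)
theorem L91200 : W_32 (nat_lit 5) (nat_lit 0x2c0007000200010001000080000000000000000000000000000000) (nat_lit 0x0) (nat_lit 0x100000000000050000f000600000000000000000000000000000000000) := T_32 (nat_lit 159) (nat_lit 142) (nat_lit 4) (nat_lit 7) (nat_lit 12) L91199 (by decide +kernel)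
theorem L91201 : W_32 (nat_lit 6) (nat_lit 0x2c0007000200000001000080000000000000000000000000000000) (nat_lit 0x0) (nat_lit 0x100000000000050001f000e00000000000000000000000000000000000) := T_32 (nat_lit 160) (nat_lit 143) (nat_lit 6) (nat_lit 7) (nat_lit 11) L91200 (by decide +kernel)
theorem L91202 : W_32 (nat_lit 7) (nat_lit 0xc0007000200000001000080000000000000000000000000000000) (nat_lit 0x0) (nat_lit 0x100030000000050001f000e00000000000000000000000000000000000) := T_32 (nat_lit 213) (nat_lit 212) (nat_lit 0) (nat_lit 9) (nat_lit 12) L91201 (by decide +kernel)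
theorem L91203 : W_32 (nat_lit 8) (nat_lit 0x40007000200000001000080000000000000000000000000000000) (nat_lit 0x0) (nat_lit 0xc0006000f0003b0000000d8001f000e00000000000000000000000000000000000) := Q_32 (nat_lit 211) (C_32 L91192 (C_32 L24922 (C_32 L91195 (C_32 L91196 (C_32 L91202 N_32))))) (by decide +kernel)
theorem L91204 : W_32 (nat_lit 11) (nat_lit 0x40006000200000001000080000000000000000000000000000000) (nat_lit 0x0) (nat_lit 0xc0006000f4003bc001f00dfc01f000f00000000000000000000000000000000000) := Q_32 (nat_lit 192) (C_32 L84933 (C_32 L91190 (C_32 L80212 (C_32 L91203 N_32)))) (by decide +kernel)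
theorem L91205 : W_32 (nat_lit 12) (nat_lit 0x6000200000001000080000000000000000000000000000000) (nat_lit 0x0) (nat_lit 0xc0007800fc003fc001f00dfc01f000f00020000000000000000000000000000000) := Q_32 (nat_lit 210) (C_32 L90734 (C_32 L85341 (C_32 L91181 (C_32 L91204 (C_32 L84557 N_32))))) (by decide +kernel)
theorem L91206 : W_32 (nat_lit 2) (nat_lit 0xc0007000200000001000080000000000000000000000000000000) (nat_lit 0x0) (nat_lit 0x100000c00000000000000000000000000000000000000000000000) := D_32 (nat_lit 191) (nat_lit 212) (nat_lit 190) (nat_lit 3) (nat_lit 4) (nat_lit 11) (nat_lit 3) (nat_lit 3) (nat_lit 11) (by decide +kernel)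
theorem L91207 : W_32 (nat_lit 2) (nat_lit 0x100000002d001f800b00000001000080000000000000000000000000000000) (nat_lit 0x0) (nat_lit 0x20001000000000000000008000000000000000000000000000000000000000) := D_32 (nat_lit 228) (nat_lit 159) (nat_lit 245) (nat_lit 7) (nat_lit 6) (nat_lit 9) (nat_lit 4) (nat_lit 7) (nat_lit 14) (by decide +kernel)
theorem L91208 : W_32 (nat_lit 3) (nat_lit 0x100000002d001f800a00000001000080000000000000000000000000000000) (nat_lit 0x0) (nat_lit 0x20001000000000000180008000000000000000000000000000000000000000) := T_32 (nat_lit 176) (nat_lit 175) (nat_lit 0) (nat_lit 9) (nat_lit 11) L91207 (by decide +kernel)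
theorem L91209 : W_32 (nat_lit 4) (nat_lit 0x100000002d001f800200000001000080000000000000000000000000000000) (nat_lit 0x0) (nat_lit 0x20001000000000001980008000000000000000000000000000000000000000) := T_32 (nat_lit 179) (nat_lit 180) (nat_lit 2) (nat_lit 6) (nat_lit 11) L91208 (by decide +kernel)
theorem L91210 : W_32 (nat_lit 5) (nat_lit 0x100000000d001f800200000001000080000000000000000000000000000000) (nat_lit 0x0) (nat_lit 0x20001000600000001980008000000000000000000000000000000000000000) := T_32 (nat_lit 213) (nat_lit 214) (nat_lit 3) (nat_lit 6) (nat_lit 11) L91209 (by decide +kernel)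
theorem L91211 : W_32 (nat_lit 6) (nat_lit 0x100000000d000f800200000001000080000000000000000000000000000000) (nat_lit 0x0) (nat_lit 0x20001000600030001980008000000000000000000000000000000000000000) := T_32 (nat_lit 196) (nat_lit 197) (nat_lit 1) (nat_lit 10) (nat_lit 11) L91210 (by decide +kernel)
theorem L91212 : W_32 (nat_lit 7) (nat_lit 0x100000000d0007800200000001000080000000000000000000000000000000) (nat_lit 0x0) (nat_lit 0x20001000620038001980008000000000000000000000000000000000000000) := T_32 (nat_lit 195) (nat_lit 209) (nat_lit 2) (nat_lit 4) (nat_lit 12) L91211 (by decide +kernel)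
theorem L91213 : W_32 (nat_lit 8) (nat_lit 0x100000000c0007800200000001000080000000000000000000000000000000) (nat_lit 0x0) (nat_lit 0x20001000638038001980008000000000000000000000000000000000000000) := T_32 (nat_lit 208) (nat_lit 207) (nat_lit 1) (nat_lit 7) (nat_lit 11) L91212 (by decide +kernel)
theorem L91214 : W_32 (nat_lit 9) (nat_lit 0x100000000c0007000200000001000080000000000000000000000000000000) (nat_lit 0x0) (nat_lit 0x20001000638038c01980008000000000000000000000000000000000000000) := T_32 (nat_lit 191) (nat_lit 190) (nat_lit 3) (nat_lit 3) (nat_lit 11) L91213 (by decide +kernel)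
theorem L91215 : W_32 (nat_lit 10) (nat_lit 0xc0007000200000001000080000000000000000000000000000000) (nat_lit 0x0) (nat_lit 0x30001800638038c01980008000000000000000000000000000000000000000) := T_32 (nat_lit 244) (nat_lit 227) (nat_lit 6) (nat_lit 6) (nat_lit 14) L91214 (by decide +kernel)
theorem L91216 : W_32 (nat_lit 5) (nat_lit 0xc0007000200000001000080000000000000000000000000000000) (nat_lit 0x0) (nat_lit 0x400060007000330000000100000000000000000000000000000000000000000000) := Q_32 (nat_lit 228) (C_32 L79751 (C_32 L78602 N_32)) (by decide +kernel)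
theorem L91217 : W_32 (nat_lit 11) (nat_lit 0x40007000200000001000080000000000000000000000000000000) (nat_lit 0x0) (nat_lit 0x4000700078007b8038c01980008000000000000000000000000000000000000000) := Q_32 (nat_lit 211) (C_32 L91206 (C_32 L91215 (C_32 L91216 N_32))) (by decide +kernel)
theorem L91218 : W_32 (nat_lit 13) (nat_lit 0x40006000200000001000080000000000000000000000000000000) (nat_lit 0x0) (nat_lit 0x4007f001f801fbc039c01d80008000000000000000000000000000000000000000) := Q_32 (nat_lit 192) (C_32 L90762 (C_32 L91217 (C_32 L80212 (C_32 L79641 N_32)))) (by decide +kernel)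
theorem L91219 : W_32 (nat_lit 14) (nat_lit 0x6000200000001000080000000000000000000000000000000) (nat_lit 0x0) (nat_lit 0xe007f801fc01ffc039c01d8001c000e00000000000000000000000000000000000) := Q_32 (nat_lit 210) (C_32 L90740 (C_32 L90734 (C_32 L85341 (C_32 L91218 (C_32 L84557 N_32))))) (by decide +kernel)
theorem L91220 : W_32 (nat_lit 16) (nat_lit 0x4000200000001000080000000000000000000000000000000) (nat_lit 0x0) (nat_lit 0x4000f007fc01fc01ffe07bf03dfc05f000f8013c000000000000000000000000000000) := Q_32 (nat_lit 193) (C_32 L91054 (C_32 L90746 (C_32 L91068 (C_32 L84913 (C_32 L90898 (C_32 L91205 (C_32 L90741 (C_32 L85304 (C_32 L89726 (C_32 L89505 (C_32 L89347 (C_32 L91219 N_32)))))))))))) (by decide +kernel)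
theorem L91221 : W_32 (nat_lit 15) (nat_lit 0x4000200000001000080000000000000000000000000000000) (nat_lit 0x0) (nat_lit 0x1c001e003fc03fe00ff007b803dc01df000f0011c000000000000000000000000000000) := Q_32 (nat_lit 211) (C_32 L90812 (C_32 L80658 (C_32 L91132 (C_32 L79506 (C_32 L80583 (C_32 L79507 (C_32 L79513 (C_32 L79509 N_32)))))))) (by decide +kernel)
theorem L91222 : W_32 (nat_lit 15) (nat_lit 0x4000200000001000080000000000000000000000000000000) (nat_lit 0x0) (nat_lit 0x5c007f007f807ff01ff81fbe03de01df00cf0011c000000000000000000000000000000) := Q_32 (nat_lit 211) (C_32 L90812 (C_32 L82186 (C_32 L91132 (C_32 L89964 (C_32 L79506 (C_32 L81833 (C_32 L82108 (C_32 L80658 (C_32 L79507 (C_32 L79513 (C_32 L79509 N_32))))))))))) (by decide +kernel)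
end Crest.Agent.Helper32.Snaky.R1_0
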