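import Crest.Agent.Helper32.Snaky.Gen.R1_0_p28
set_option autoImplicit false
set_option maxRecDepth 100000
set_option linter.all false
set_option Elab.async false
namespace Crest.Agent.Helper32.Snaky.R1_0
@[reducible] def W_34 (d M Bz Z : Nat) : Prop := Crest.Agent.Helper32.Snaky.Wins (nat_lit 17) d M Bz Z
theorem D_34 {d M Bz Z : Nat} (m t1 t2 o1 x1 y1 o2 x2 y2 : Nat) (h : Crest.Agent.Helper32.Snaky.chkDoubleC (nat_lit 17) d M Bz Z m t1 t2 o1 x1 y1 o2 x2 y2 = true) : W_34 d M Bz Z := Crest.Agent.Helper32.Snaky.doubleC m t1 t2 o1 x1 y1 o2 x2 y2 h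
theorem T_34 {d M Bz Z cd cM cBz cZ : Nat} (m t o x y : Nat) (child : W_34 cd cM cBz cZ) (h : Crest.Agent.Helper32.Snaky.chkThreatC (nat_lit 17) d M Bz Z cd cM cBz cZ m t o x y = true) : W_34 d M Bz Z := Crest.Agent.Helper32.Snaky.threatC m t o x y child h
theorem Q_34 {d M Bz Z : Nat} (m : Nat) {l : List Crest.Agent.Helper32.Snaky.Spec} (kids : Crest.Agent.Helper32.Snaky.AllWins (nat_lit 17) l) (h : Crest.Agent.Helper32.Snaky.chkQuiet d M Bz Z m l = true) : W_34 d M Bz Z := Crest.Agent.Helper32.Snaky.quiet m kids h
theorem C_34 {cd cM cBz cZ : Nat} {l : List Crest.Agent.Helper32.Snaky.Spec} (h : W_34 cd cM cBz cZ) (hl : Crest.Agent.Helper32.Snaky.AllWins (nat_lit 17) l) : Crest.Agent.Helper32.Snaky.AllWins (nat_lit 17) ((cd, cM, cBz, cZ) :: l) := Crest.Agent.Helper32.Snaky.AllWins.cons h hl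
theorem N_34 : Crest.Agent.Helper32.Snaky.AllWins (nat_lit 17) [] := Crest.Agent.Helper32.Snaky.AllWins.nil
theorem L91224 : W_34 (nat_lit 2) (nat_lit 0xc000f0000000200010001000080000000000000000000000000000000) (nat_lit 0x0) (nat_lit 0x3000008000000000000000000000000000000000000000000000000000) := D_34 (nat_lit 228) (nat_lit 229) (nat_lit 207) (nat_lit 3) (nat_lit 4) (nat_lit 12) (nat_lit 3) (nat_lit 3) (nat_lit 12) (by decide +kernel)
theorem L91225 : W_34 (nat_lit 2) (nat_lit 0xd000f0000000200010001000080000000000000000000000000000000) (nat_lit 0x0) (nat_lit 0x8000c000000000000000000000000000000000000000000000000000) := D_34 (nat_lit 207) (nat_lit 223) (nat_lit 206) (nat_lit 1) (nat_lit 6) (nat_lit 12) (nat_lit 3) (nat_lit 2) (nat_lit 12) (by decide +kernel)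
theorem L91226 : W_34 (nat_lit 3) (nat_lit 0xc000f0000000200010001000080000000000000000000000000000000) (nat_lit 0x0) (nat_lit 0x38000c000000000000000000000000000000000000000000000000000) := T_34 (nat_lit 224) (nat_lit 225) (nat_lit 2) (nat_lit 3) (nat_lit 13) L91225 (by decide +kernel)
theorem L91227 : W_34 (nat_lit 2) (nat_lit 0x2e000f0000800200010001000080000000000000000000000000000000) (nat_lit 0x0) (nat_lit 0x100008000000000000000040000000000000000000000000000000000000000000) := D_34 (nat_lit 243) (nat_lit 260) (nat_lit 174) (nat_lit 4) (nat_lit 5) (nat_lit 15) (nat_lit 7) (nat_lit 4) (nat_lit 10) (by decide +kernel)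
theorem L91228 : W_34 (nat_lit 3) (nat_lit 0x2e000f0000000200010001000080000000000000000000000000000000) (nat_lit 0x0) (nat_lit 0x100008000000000000c00040000000000000000000000000000000000000000000) := T_34 (nat_lit 191) (nat_lit 190) (nat_lit 0) (nat_lit 7) (nat_lit 12) L91227 (by decide +kernel)
theorem L91229 : W_34 (nat_lit 4) (nat_lit 0xe000f0000000200010001000080000000000000000000000000000000) (nat_lit 0x0) (nat_lit 0x100008003000000000c00040000000000000000000000000000000000000000000) := T_34 (nat_lit 229) (nat_lit 228) (nat_lit 3) (nat_lit 4) (nat_lit 12) L91228 (by decide +kernel)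
theorem L91230 : W_34 (nat_lit 5) (nat_lit 0xc000f0000000200010001000080000000000000000000000000000000) (nat_lit 0x0) (nat_lit 0x100008003300000000c00040000000000000000000000000000000000000000000) := T_34 (nat_lit 225) (nat_lit 224) (nat_lit 2) (nat_lit 3) (nat_lit 13) L91229 (by decide +kernel)
theorem L91231 : W_34 (nat_lit 6) (nat_lit 0xc000e0000000200010001000080000000000000000000000000000000) (nat_lit 0x0) (nat_lit 0x10000800338001c000c00040000000000000000000000000000000000000000000) := Q_34 (nat_lit 208) (C_34 L91224 (C_34 L91226 (C_34 L91230 N_34))) (by decide +kernel)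
theorem L91232 : W_34 (nat_lit 2) (nat_lit 0xc000f4000800240010001000080000000000000000000000000000000) (nat_lit 0x0) (nat_lit 0x100008000000000001000000000000000000000000000000000000000000000000) := D_34 (nat_lit 243) (nat_lit 260) (nat_lit 192) (nat_lit 4) (nat_lit 5) (nat_lit 15) (nat_lit 4) (nat_lit 5) (nat_lit 14) (by decide +kernel)
theorem L91233 : W_34 (nat_lit 3) (nat_lit 0xc000f4000800200010001000080000000000000000000000000000000) (nat_lit 0x0) (nat_lit 0x100008000000000001000040002000000000000000000000000000000000000000) := T_34 (nat_lit 174) (nat_lit 157) (nat_lit 7) (nat_lit 4) (nat_lit 9) L91232 (by decide +kernel)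
theorem L91234 : W_34 (nat_lit 4) (nat_lit 0xc000f0000800200010001000080000000000000000000000000000000) (nat_lit 0x0) (nat_lit 0x10000800000000c001000040002000000000000000000000000000000000000000) := T_34 (nat_lit 206) (nat_lit 207) (nat_lit 3) (nat_lit 2) (nat_lit 12) L91233 (by decide +kernel)
theorem L91235 : W_34 (nat_lit 5) (nat_lit 0xc000f0000000200010001000080000000000000000000000000000000) (nat_lit 0x0) (nat_lit 0x10000800000000c001c00040002000000000000000000000000000000000000000) := T_34 (nat_lit 191) (nat_lit 190) (nat_lit 0) (nat_lit 7) (nat_lit 12) L91234 (by decide +kernel)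
theorem L91236 : W_34 (nat_lit 2) (nat_lit 0xe000f0000800200010001000080000000000000000000000000000000) (nat_lit 0x0) (nat_lit 0x8000000000000000040002000000000000000000000000000000000000000) := D_34 (nat_lit 174) (nat_lit 157) (nat_lit 243) (nat_lit 7) (nat_lit 4) (nat_lit 9) (nat_lit 7) (nat_lit 4) (nat_lit 10) (by decide +kernel)
theorem L91237 : W_34 (nat_lit 3) (nat_lit 0xc000f0000800200010001000080000000000000000000000000000000) (nat_lit 0x0) (nat_lit 0x8000300000000000040002000000000000000000000000000000000000000) := T_34 (nat_lit 225) (nat_lit 224) (nat_lit 2) (nat_lit 3) (nat_lit 13) L91236 (by decide +kernel)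
theorem L91238 : W_34 (nat_lit 4) (nat_lit 0xc000f0000000200010001000080000000000000000000000000000000) (nat_lit 0x0) (nat_lit 0x8000300000000c00040002000000000000000000000000000000000000000) := T_34 (nat_lit 191) (nat_lit 190) (nat_lit 0) (nat_lit 7) (nat_lit 12) L91237 (by decide +kernel)
theorem L91239 : W_34 (nat_lit 6) (nat_lit 0xc000e0000000200010001000080000000000000000000000000000000) (nat_lit 0x0) (nat_lit 0x10000800038001c001c00040002000000000000000000000000000000000000000) := Q_34 (nat_lit 208) (C_34 L91226 (C_34 L91235 (C_34 L91238 N_34))) (by decide +kernel)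
theorem L91240 : W_34 (nat_lit 2) (nat_lit 0x100020001e000f0000800200010001000080000000000000000000000000000000) (nat_lit 0x0) (nat_lit 0x8000400000000000000002000000000000000000000000000000000000000000000000) := D_34 (nat_lit 262) (nat_lit 193) (nat_lit 279) (nat_lit 4) (nat_lit 7) (nat_lit 15) (nat_lit 4) (nat_lit 7) (nat_lit 16) (by decide +kernel)
theorem L91241 : W_34 (nat_lit 3) (nat_lit 0x100000001e000f0000800200010001000080000000000000000000000000000000) (nat_lit 0x0) (nat_lit 0x8000400060000000000002000000000000000000000000000000000000000000000000) := T_34 (nat_lit 245) (nat_lit 246) (nat_lit 3) (nat_lit 4) (nat_lit 13) L91240 (by decide +kernel)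
theorem L91242 : W_34 (nat_lit 4) (nat_lit 0x1e000f0000800200010001000080000000000000000000000000000000) (nat_lit 0x0) (nat_lit 0x8000500068000000000002000000000000000000000000000000000000000000000000) := T_34 (nat_lit 260) (nat_lit 243) (nat_lit 4) (nat_lit 5) (nat_lit 15) L91241 (by decide +kernel)
theorem L91243 : W_34 (nat_lit 5) (nat_lit 0xe000f0000800200010001000080000000000000000000000000000000) (nat_lit 0x0) (nat_lit 0x8000500068003000000002000000000000000000000000000000000000000000000000) := T_34 (nat_lit 228) (nat_lit 229) (nat_lit 3) (nat_lit 4) (nat_lit 12) L91242 (by decide +kernel)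
theorem L91244 : W_34 (nat_lit 6) (nat_lit 0xe000f0000000200010001000080000000000000000000000000000000) (nat_lit 0x0) (nat_lit 0x8000500068003000000002c00000000000000000000000000000000000000000000000) := T_34 (nat_lit 191) (nat_lit 190) (nat_lit 0) (nat_lit 7) (nat_lit 12) L91243 (by decide +kernel)
theorem L91245 : W_34 (nat_lit 7) (nat_lit 0xc000f0000000200010001000080000000000000000000000000000000) (nat_lit 0x0) (nat_lit 0x8000500068003300000002c00000000000000000000000000000000000000000000000) := T_34 (nat_lit 225) (nat_lit 224) (nat_lit 2) (nat_lit 3) (nat_lit 13) L91244 (by decide +kernel)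
theorem L91246 : W_34 (nat_lit 8) (nat_lit 0xc000e0000000200010001000080000000000000000000000000000000) (nat_lit 0x0) (nat_lit 0x800050006800338001c002c00000000000000000000000000000000000000000000000) := Q_34 (nat_lit 208) (C_34 L91226 (C_34 L91224 (C_34 L91245 N_34))) (by decide +kernel)
theorem L91247 : W_34 (nat_lit 2) (nat_lit 0x1c000e0000000200010001000080000000000000000000000000000000) (nat_lit 0x0) (nat_lit 0x6000010000000000000000000000000000000000000000000000000000) := D_34 (nat_lit 229) (nat_lit 208) (nat_lit 230) (nat_lit 3) (nat_lit 4) (nat_lit 12) (nat_lit 0) (nat_lit 9) (nat_lit 13) (by decide +kernel)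
theorem L91248 : W_34 (nat_lit 2) (nat_lit 0x20001e000e8000000200010001000080000000000000000000000000000000) (nat_lit 0x0) (nat_lit 0x8000400000000000000002000000000000000000000000000000000000000000000000) := D_34 (nat_lit 262) (nat_lit 193) (nat_lit 279) (nat_lit 4) (nat_lit 7) (nat_lit 15) (nat_lit 4) (nat_lit 7) (nat_lit 16) (by decide +kernel)
theorem L91249 : W_34 (nat_lit 3) (nat_lit 0x1e000e8000000200010001000080000000000000000000000000000000) (nat_lit 0x0) (nat_lit 0x8000400060000000000002000000000000000000000000000000000000000000000000) := T_34 (nat_lit 245) (nat_lit 246) (nat_lit 3) (nat_lit 4) (nat_lit 13) L91248 (by decide +kernel)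
theorem L91250 : W_34 (nat_lit 4) (nat_lit 0x1e000e0000000200010001000080000000000000000000000000000000) (nat_lit 0x0) (nat_lit 0x8000400060000000018002000000000000000000000000000000000000000000000000) := T_34 (nat_lit 207) (nat_lit 208) (nat_lit 3) (nat_lit 3) (nat_lit 12) L91249 (by decide +kernel)
theorem L91251 : W_34 (nat_lit 5) (nat_lit 0x1c000e0000000200010001000080000000000000000000000000000000) (nat_lit 0x0) (nat_lit 0x8000400060000300018002000000000000000000000000000000000000000000000000) := T_34 (nat_lit 225) (nat_lit 224) (nat_lit 2) (nat_lit 3) (nat_lit 13) L91250 (by decide +kernel)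
theorem L91252 : W_34 (nat_lit 2) (nat_lit 0x20005e000e0000000200010001000080000000000000000000000000000000) (nat_lit 0x0) (nat_lit 0x8000400000000000000002000000000000000000000000000000000000000000000000) := D_34 (nat_lit 262) (nat_lit 193) (nat_lit 279) (nat_lit 4) (nat_lit 7) (nat_lit 15) (nat_lit 4) (nat_lit 7) (nat_lit 16) (by decide +kernel)
theorem L91253 : W_34 (nat_lit 3) (nat_lit 0x5e000e0000000200010001000080000000000000000000000000000000) (nat_lit 0x0) (nat_lit 0x8000400060000000000002000000000000000000000000000000000000000000000000) := T_34 (nat_lit 245) (nat_lit 246) (nat_lit 3) (nat_lit 4) (nat_lit 13) L91252 (by decide +kernel)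
theorem L91254 : W_34 (nat_lit 4) (nat_lit 0x5c000e0000000200010001000080000000000000000000000000000000) (nat_lit 0x0) (nat_lit 0x8000400060000300000002000000000000000000000000000000000000000000000000) := T_34 (nat_lit 225) (nat_lit 224) (nat_lit 2) (nat_lit 3) (nat_lit 13) L91253 (by decide +kernel)
theorem L91255 : W_34 (nat_lit 5) (nat_lit 0x1c000e0000000200010001000080000000000000000000000000000000) (nat_lit 0x0) (nat_lit 0x8000400060006300000002000000000000000000000000000000000000000000000000) := T_34 (nat_lit 230) (nat_lit 229) (nat_lit 0) (nat_lit 9) (nat_lit 13) L91254 (by decide +kernel)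
theorem L91256 : W_34 (nat_lit 6) (nat_lit 0xc000e0000000200010001000080000000000000000000000000000000) (nat_lit 0x0) (nat_lit 0x8000400060007300018002000000000000000000000000000000000000000000000000) := Q_34 (nat_lit 228) (C_34 L91247 (C_34 L91251 (C_34 L91255 N_34))) (by decide +kernel)
theorem L91257 : W_34 (nat_lit 2) (nat_lit 0x10000c000e0000000200010001000080000000000000000000000000000000) (nat_lit 0x0) (nat_lit 0x4000200000000000000001000000000000000000000000000000000000000000000000) := D_34 (nat_lit 261) (nat_lit 192) (nat_lit 278) (nat_lit 4) (nat_lit 6) (nat_lit 15) (nat_lit 4) (nat_lit 6) (nat_lit 16) (by decide +kernel)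
theorem L91258 : W_34 (nat_lit 2) (nat_lit 0x300010000d000e0002000200010001000080000000000000000000000000000000) (nat_lit 0x0) (nat_lit 0x8000400020000000000000000000000000000000000000000000000000000000000000) := D_34 (nat_lit 262) (nat_lit 279) (nat_lit 245) (nat_lit 7) (nat_lit 6) (nat_lit 12) (nat_lit 7) (nat_lit 6) (nat_lit 11) (by decide +kernel)
theorem L91259 : W_34 (nat_lit 3) (nat_lit 0x300010000d000e0000000200010001000080000000000000000000000000000000) (nat_lit 0x0) (nat_lit 0x8000400028000000000002000000000000000000000000000000000000000000000000) := T_34 (nat_lit 193) (nat_lit 243) (nat_lit 6) (nat_lit 5) (nat_lit 15) L91258 (by decide +kernel)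
theorem L91260 : W_34 (nat_lit 4) (nat_lit 0x200010000d000e0000000200010001000080000000000000000000000000000000) (nat_lit 0x0) (nat_lit 0xa000500028000000000002000000000000000000000000000000000000000000000000) := T_34 (nat_lit 260) (nat_lit 277) (nat_lit 5) (nat_lit 6) (nat_lit 12) L91259 (by decide +kernel)
theorem L91261 : W_34 (nat_lit 5) (nat_lit 0x10000d000e0000000200010001000080000000000000000000000000000000) (nat_lit 0x0) (nat_lit 0xe000700028000000000002000000000000000000000000000000000000000000000000) := T_34 (nat_lit 261) (nat_lit 278) (nat_lit 4) (nat_lit 6) (nat_lit 16) L91260 (by decide +kernel)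
theorem L91262 : W_34 (nat_lit 6) (nat_lit 0x10000c000e0000000200010001000080000000000000000000000000000000) (nat_lit 0x0) (nat_lit 0xe000700028000300000002000000000000000000000000000000000000000000000000) := T_34 (nat_lit 224) (nat_lit 225) (nat_lit 2) (nat_lit 3) (nat_lit 13) L91261 (by decide +kernel)
theorem L91263 : W_34 (nat_lit 2) (nat_lit 0xc000e0001000200010001000080000000000000000000000000000000) (nat_lit 0x0) (nat_lit 0x10000000000000000080004000000000000000000000000000000000000000) := D_34 (nat_lit 175) (nat_lit 244) (nat_lit 158) (nat_lit 7) (nat_lit 5) (nat_lit 10) (nat_lit 7) (nat_lit 5) (nat_lit 9) (by decide +kernel)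
theorem L91264 : W_34 (nat_lit 2) (nat_lit 0x8000c000e0000000200010001000080000000000000000000000000000000) (nat_lit 0x0) (nat_lit 0x2000100000000000000002000000000000000000000000000000000000000000000000) := D_34 (nat_lit 260) (nat_lit 193) (nat_lit 277) (nat_lit 6) (nat_lit 5) (nat_lit 15) (nat_lit 6) (nat_lit 5) (nat_lit 16) (by decide +kernel)
theorem L91265 : W_34 (nat_lit 2) (nat_lit 0x180008000c000e0001000200010001000080000000000000000000000000000000) (nat_lit 0x0) (nat_lit 0x4000200010000000000000000000000000000000000000000000000000000000000000) := D_34 (nat_lit 261) (nat_lit 244) (nat_lit 278) (nat_lit 7) (nat_lit 5) (nat_lit 11) (nat_lit 7) (nat_lit 5) (nat_lit 12) (by decide +kernel)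
theorem L91266 : W_34 (nat_lit 3) (nat_lit 0x180008000c000e0000000200010001000080000000000000000000000000000000) (nat_lit 0x0) (nat_lit 0x4000200014000000000001000000000000000000000000000000000000000000000000) := T_34 (nat_lit 192) (nat_lit 242) (nat_lit 5) (nat_lit 5) (nat_lit 11) L91265 (by decide +kernel)
theorem L91267 : W_34 (nat_lit 4) (nat_lit 0x100008000c000e0000000200010001000080000000000000000000000000000000) (nat_lit 0x0) (nat_lit 0x5000280014000000000001000000000000000000000000000000000000000000000000) := T_34 (nat_lit 259) (nat_lit 276) (nat_lit 5) (nat_lit 5) (nat_lit 12) L91266 (by decide +kernel)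
theorem L91268 : W_34 (nat_lit 2) (nat_lit 0x10000180068003d000e0000000200010001000080000000000000000000000000000000) (nat_lit 0x0) (nat_lit 0x4000600000000000000000000000000000000000000000000000000000000000000000) := D_34 (nat_lit 261) (nat_lit 278) (nat_lit 262) (nat_lit 7) (nat_lit 5) (nat_lit 12) (nat_lit 2) (nat_lit 4) (nat_lit 15) (by decide +kernel)
theorem L91269 : W_34 (nat_lit 3) (nat_lit 0x10000180048003d000e0000000200010001000080000000000000000000000000000000) (nat_lit 0x0) (nat_lit 0x4000600030000000000000000000000000000000000000000000000000000000000000) := T_34 (nat_lit 245) (nat_lit 244) (nat_lit 1) (nat_lit 8) (nat_lit 14) L91268 (by decide +kernel)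
theorem L91270 : W_34 (nat_lit 4) (nat_lit 0x10000100048003d000e0000000200010001000080000000000000000000000000000000) (nat_lit 0x0) (nat_lit 0x5000680030000000000000000000000000000000000000000000000000000000000000) := T_34 (nat_lit 259) (nat_lit 276) (nat_lit 5) (nat_lit 5) (nat_lit 12) L91269 (by decide +kernel)
theorem L91271 : W_34 (nat_lit 5) (nat_lit 0x10000000048003d000e0000000200010001000080000000000000000000000000000000) (nat_lit 0x0) (nat_lit 0x7000780030000000000000000000000000000000000000000000000000000000000000) := T_34 (nat_lit 260) (nat_lit 277) (nat_lit 6) (nat_lit 5) (nat_lit 16) L91270 (by decide +kernel)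
theorem L91272 : W_34 (nat_lit 6) (nat_lit 0x48003d000e0000000200010001000080000000000000000000000000000000) (nat_lit 0x0) (nat_lit 0x17000f80030000000000000000000000000000000000000000000000000000000000000) := T_34 (nat_lit 280) (nat_lit 263) (nat_lit 4) (nat_lit 8) (nat_lit 16) L91271 (by decide +kernel)
theorem L91273 : W_34 (nat_lit 7) (nat_lit 0x40003d000e0000000200010001000080000000000000000000000000000000) (nat_lit 0x0) (nat_lit 0x17000f8003c000000000000000000000000000000000000000000000000000000000000) := T_34 (nat_lit 243) (nat_lit 242) (nat_lit 1) (nat_lit 8) (nat_lit 13) L91272 (by decide +kernel)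
theorem L91274 : W_34 (nat_lit 8) (nat_lit 0x3d000e0000000200010001000080000000000000000000000000000000) (nat_lit 0x0) (nat_lit 0x17000f800fc000000000000000000000000000000000000000000000000000000000000) := T_34 (nat_lit 246) (nat_lit 247) (nat_lit 3) (nat_lit 5) (nat_lit 13) L91273 (by decide +kernel)
theorem L91275 : W_34 (nat_lit 9) (nat_lit 0x1d000e0000000200010001000080000000000000000000000000000000) (nat_lit 0x0) (nat_lit 0x17000f800fc006000000000000000000000000000000000000000000000000000000000) := T_34 (nat_lit 229) (nat_lit 230) (nat_lit 0) (nat_lit 9) (nat_lit 13) L91274 (by decide +kernel)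
theorem L91276 : W_34 (nat_lit 10) (nat_lit 0x1c000e0000000200010001000080000000000000000000000000000000) (nat_lit 0x0) (nat_lit 0x17000f800fc006300000000000000000000000000000000000000000000000000000000) := T_34 (nat_lit 224) (nat_lit 225) (nat_lit 2) (nat_lit 3) (nat_lit 13) L91275 (by decide +kernel)
theorem L91277 : W_34 (nat_lit 2) (nat_lit 0x4005e000e0001000200010001000080000000000000000000000000000000) (nat_lit 0x0) (nat_lit 0x1000080008000000000000000000000000000000000000000000000000000000000000) := D_34 (nat_lit 259) (nat_lit 276) (nat_lit 243) (nat_lit 6) (nat_lit 4) (nat_lit 16) (nat_lit 5) (nat_lit 5) (nat_lit 11) (by decide +kernel)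
theorem L91278 : W_34 (nat_lit 3) (nat_lit 0x4005e000e0000000200010001000080000000000000000000000000000000) (nat_lit 0x0) (nat_lit 0x1000080008000000000001000080000000000000000000000000000000000000000000) := T_34 (nat_lit 192) (nat_lit 175) (nat_lit 5) (nat_lit 5) (nat_lit 10) L91277 (by decide +kernel)
theorem L91279 : W_34 (nat_lit 4) (nat_lit 0x5e000e0000000200010001000080000000000000000000000000000000) (nat_lit 0x0) (nat_lit 0x100008000e000000000001000080000000000000000000000000000000000000000000) := T_34 (nat_lit 242) (nat_lit 241) (nat_lit 1) (nat_lit 7) (nat_lit 13) L91278 (by decide +kernel)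
theorem L91280 : W_34 (nat_lit 5) (nat_lit 0x5c000e0000000200010001000080000000000000000000000000000000) (nat_lit 0x0) (nat_lit 0x100008000e000300000001000080000000000000000000000000000000000000000000) := T_34 (nat_lit 225) (nat_lit 224) (nat_lit 2) (nat_lit 3) (nat_lit 13) L91279 (by decide +kernel)
theorem L91281 : W_34 (nat_lit 6) (nat_lit 0x1c000e0000000200010001000080000000000000000000000000000000) (nat_lit 0x0) (nat_lit 0x100008000e006300000001000080000000000000000000000000000000000000000000) := T_34 (nat_lit 230) (nat_lit 229) (nat_lit 0) (nat_lit 9) (nat_lit 13) L91280 (by decide +kernel)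
theorem L91282 : W_34 (nat_lit 2) (nat_lit 0x20001e000e0000000200010001000080000000000000000000000000000000) (nat_lit 0x0) (nat_lit 0x8000400000000000000002000000000000000000000000000000000000000000000000) := D_34 (nat_lit 262) (nat_lit 193) (nat_lit 279) (nat_lit 4) (nat_lit 7) (nat_lit 15) (nat_lit 4) (nat_lit 7) (nat_lit 16) (by decide +kernel)
theorem L91283 : W_34 (nat_lit 3) (nat_lit 0x1e000e0000000200010001000080000000000000000000000000000000) (nat_lit 0x0) (nat_lit 0x8000400060000000000002000000000000000000000000000000000000000000000000) := T_34 (nat_lit 245) (nat_lit 246) (nat_lit 3) (nat_lit 4) (nat_lit 13) L91282 (by decide +kernel)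
theorem L91284 : W_34 (nat_lit 4) (nat_lit 0x1c000e0000000200010001000080000000000000000000000000000000) (nat_lit 0x0) (nat_lit 0x8000400060000300000002000000000000000000000000000000000000000000000000) := T_34 (nat_lit 225) (nat_lit 224) (nat_lit 2) (nat_lit 3) (nat_lit 13) L91283 (by decide +kernel)
theorem L91285 : W_34 (nat_lit 2) (nat_lit 0x48003c000e0000000200010001000080000000000000000000000000000000) (nat_lit 0x0) (nat_lit 0x2000100000000000000002000000000000000000000000000000000000000000000000) := D_34 (nat_lit 260) (nat_lit 193) (nat_lit 277) (nat_lit 6) (nat_lit 5) (nat_lit 15) (nat_lit 6) (nat_lit 5) (nat_lit 16) (by decide +kernel)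
theorem L91286 : W_34 (nat_lit 3) (nat_lit 0x40003c000e0000000200010001000080000000000000000000000000000000) (nat_lit 0x0) (nat_lit 0x200010000c000000000002000000000000000000000000000000000000000000000000) := T_34 (nat_lit 243) (nat_lit 242) (nat_lit 1) (nat_lit 8) (nat_lit 13) L91285 (by decide +kernel)
theorem L91287 : W_34 (nat_lit 4) (nat_lit 0x3c000e0000000200010001000080000000000000000000000000000000) (nat_lit 0x0) (nat_lit 0x20001000cc000000000002000000000000000000000000000000000000000000000000) := T_34 (nat_lit 246) (nat_lit 247) (nat_lit 3) (nat_lit 5) (nat_lit 13) L91286 (by decide +kernel)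
theorem L91288 : W_34 (nat_lit 5) (nat_lit 0x1c000e0000000200010001000080000000000000000000000000000000) (nat_lit 0x0) (nat_lit 0x20001000cc006000000002000000000000000000000000000000000000000000000000) := T_34 (nat_lit 229) (nat_lit 230) (nat_lit 0) (nat_lit 9) (nat_lit 13) L91287 (by decide +kernel)
theorem L91289 : W_34 (nat_lit 11) (nat_lit 0xc000e0000000200010001000080000000000000000000000000000000) (nat_lit 0x0) (nat_lit 0x1f000f800fe007300000003000080000000000000000000000000000000000000000000) := Q_34 (nat_lit 228) (C_34 L91255 (C_34 L91276 (C_34 L91281 (C_34 L91284 (C_34 L91288 N_34))))) (by decide +kernel)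
theorem L91290 : W_34 (nat_lit 2) (nat_lit 0x8001c000f0000800200010001000080000000000000000000000000000000) (nat_lit 0x0) (nat_lit 0x1000040002000000000000000000000000000000000000000) := D_34 (nat_lit 174) (nat_lit 157) (nat_lit 192) (nat_lit 7) (nat_lit 4) (nat_lit 9) (nat_lit 4) (nat_lit 5) (nat_lit 14) (by decide +kernel)
theorem L91291 : W_34 (nat_lit 3) (nat_lit 0x1c000f0000800200010001000080000000000000000000000000000000) (nat_lit 0x0) (nat_lit 0x100008000000000001000040002000000000000000000000000000000000000000) := T_34 (nat_lit 243) (nat_lit 260) (nat_lit 4) (nat_lit 5) (nat_lit 15) L91290 (by decide +kernel)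
theorem L91292 : W_34 (nat_lit 4) (nat_lit 0xc000f0000800200010001000080000000000000000000000000000000) (nat_lit 0x0) (nat_lit 0x100008003000000001000040002000000000000000000000000000000000000000) := T_34 (nat_lit 228) (nat_lit 229) (nat_lit 3) (nat_lit 4) (nat_lit 12) L91291 (by decide +kernel)
theorem L91293 : W_34 (nat_lit 5) (nat_lit 0xc000f0000000200010001000080000000000000000000000000000000) (nat_lit 0x0) (nat_lit 0x100008003000000001c00040002000000000000000000000000000000000000000) := T_34 (nat_lit 191) (nat_lit 190) (nat_lit 0) (nat_lit 7) (nat_lit 12) L91292 (by decide +kernel)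
theorem L91294 : W_34 (nat_lit 6) (nat_lit 0xc000e0000000200010001000080000000000000000000000000000000) (nat_lit 0x0) (nat_lit 0x10000800300001c001c00040002000000000000000000000000000000000000000) := Q_34 (nat_lit 208) (C_34 L91235 (C_34 L91224 (C_34 L91293 N_34))) (by decide +kernel)
theorem L91295 : W_34 (nat_lit 12) (nat_lit 0xc000c0000000200010001000080000000000000000000000000000000) (nat_lit 0x0) (nat_lit 0x1f000f800fe00738003c003c000c0002000000000000000000000000000000000000000) := Q_34 (nat_lit 209) (C_34 L91231 (C_34 L91239 (C_34 L91246 (C_34 L91256 (C_34 L91289 (C_34 L91294 N_34)))))) (by decide +kernel)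
theorem L91296 : W_34 (nat_lit 2) (nat_lit 0xe000c0000000200010001000080000000000000000000000000000000) (nat_lit 0x0) (nat_lit 0x320000000000000000000000000000000000000000000000000000) := D_34 (nat_lit 212) (nat_lit 213) (nat_lit 209) (nat_lit 1) (nat_lit 9) (nat_lit 12) (nat_lit 1) (nat_lit 8) (nat_lit 12) (by decide +kernel)
theorem L91297 : W_34 (nat_lit 3) (nat_lit 0xc000c0000000200010001000080000000000000000000000000000000) (nat_lit 0x0) (nat_lit 0x300320000000000000000000000000000000000000000000000000000) := T_34 (nat_lit 225) (nat_lit 224) (nat_lit 2) (nat_lit 3) (nat_lit 13) L91296 (by decide +kernel)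
theorem L91298 : W_34 (nat_lit 2) (nat_lit 0xc001c0000000200010001000080000000000000000000000000000000) (nat_lit 0x0) (nat_lit 0x1300000000000000000000000000000000000000000000000000000000) := D_34 (nat_lit 225) (nat_lit 224) (nat_lit 228) (nat_lit 2) (nat_lit 3) (nat_lit 13) (nat_lit 2) (nat_lit 4) (nat_lit 13) (by decide +kernel)
theorem L91299 : W_34 (nat_lit 3) (nat_lit 0xc000c0000000200010001000080000000000000000000000000000000) (nat_lit 0x0) (nat_lit 0x1300300000000000000000000000000000000000000000000000000000) := T_34 (nat_lit 212) (nat_lit 213) (nat_lit 1) (nat_lit 9) (nat_lit 12) L91298 (by decide +kernel)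
theorem L91300 : W_34 (nat_lit 2) (nat_lit 0xc001e0001000200010001000080000000000000000000000000000000) (nat_lit 0x0) (nat_lit 0x200010000000000000000080000000000000000000000000000000000000000000) := D_34 (nat_lit 244) (nat_lit 261) (nat_lit 175) (nat_lit 4) (nat_lit 6) (nat_lit 15) (nat_lit 7) (nat_lit 5) (nat_lit 10) (by decide +kernel)
theorem L91301 : W_34 (nat_lit 3) (nat_lit 0xc001e0000000200010001000080000000000000000000000000000000) (nat_lit 0x0) (nat_lit 0x200010000000000001800080000000000000000000000000000000000000000000) := T_34 (nat_lit 192) (nat_lit 191) (nat_lit 0) (nat_lit 8) (nat_lit 12) L91300 (by decide +kernel)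
theorem L91302 : W_34 (nat_lit 4) (nat_lit 0xc000e0000000200010001000080000000000000000000000000000000) (nat_lit 0x0) (nat_lit 0x200010000000300001800080000000000000000000000000000000000000000000) := T_34 (nat_lit 212) (nat_lit 213) (nat_lit 1) (nat_lit 9) (nat_lit 12) L91301 (by decide +kernel)
theorem L91303 : W_34 (nat_lit 2) (nat_lit 0x2c001f8008000200010001000080000000000000000000000000000000) (nat_lit 0x0) (nat_lit 0xe00000000000000000000000000000000000000000000000) := D_34 (nat_lit 190) (nat_lit 191) (nat_lit 189) (nat_lit 0) (nat_lit 7) (nat_lit 12) (nat_lit 0) (nat_lit 6) (nat_lit 12) (by decide +kernel)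
theorem L91304 : W_34 (nat_lit 3) (nat_lit 0x2c001f0008000200010001000080000000000000000000000000000000) (nat_lit 0x0) (nat_lit 0xc000e00000000000000000000000000000000000000000000000) := T_34 (nat_lit 207) (nat_lit 206) (nat_lit 3) (nat_lit 2) (nat_lit 12) L91303 (by decide +kernel)
theorem L91305 : W_34 (nat_lit 4) (nat_lit 0x2c001e0008000200010001000080000000000000000000000000000000) (nat_lit 0x0) (nat_lit 0x100001c000e00000000000000000000000000000000000000000000000) := T_34 (nat_lit 208) (nat_lit 228) (nat_lit 3) (nat_lit 4) (nat_lit 12) L91304 (by decide +kernel)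
theorem L91306 : W_34 (nat_lit 5) (nat_lit 0xc001e0008000200010001000080000000000000000000000000000000) (nat_lit 0x0) (nat_lit 0x700001c000e00000000000000000000000000000000000000000000000) := T_34 (nat_lit 229) (nat_lit 230) (nat_lit 3) (nat_lit 5) (nat_lit 12) L91305 (by decide +kernel)
theorem L91307 : W_34 (nat_lit 6) (nat_lit 0xc001e0000000200010001000080000000000000000000000000000000) (nat_lit 0x0) (nat_lit 0x700001c018e00000000000000000000000000000000000000000000000) := T_34 (nat_lit 195) (nat_lit 196) (nat_lit 2) (nat_lit 5) (nat_lit 12) L91306 (by decide +kernel)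
theorem L91308 : W_34 (nat_lit 7) (nat_lit 0xc000e0000000200010001000080000000000000000000000000000000) (nat_lit 0x0) (nat_lit 0x700031c018e00000000000000000000000000000000000000000000000) := T_34 (nat_lit 212) (nat_lit 213) (nat_lit 1) (nat_lit 9) (nat_lit 12) L91307 (by decide +kernel)
theorem L91309 : W_34 (nat_lit 2) (nat_lit 0x400040003c001e0008000200010001000080000000000000000000000000000000) (nat_lit 0x0) (nat_lit 0x18000800000000000000000000000000000000000000000000000000000000000000000) := D_34 (nat_lit 263) (nat_lit 280) (nat_lit 279) (nat_lit 4) (nat_lit 8) (nat_lit 16) (nat_lit 5) (nat_lit 8) (nat_lit 12) (by decide +kernel)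
theorem L91310 : W_34 (nat_lit 3) (nat_lit 0x400000003c001e0008000200010001000080000000000000000000000000000000) (nat_lit 0x0) (nat_lit 0x180008000c0000000000000000000000000000000000000000000000000000000000000) := T_34 (nat_lit 246) (nat_lit 247) (nat_lit 3) (nat_lit 5) (nat_lit 13) L91309 (by decide +kernel)
theorem L91311 : W_34 (nat_lit 4) (nat_lit 0x3c001e0008000200010001000080000000000000000000000000000000) (nat_lit 0x0) (nat_lit 0x18000c000e0000000000000000000000000000000000000000000000000000000000000) := T_34 (nat_lit 262) (nat_lit 245) (nat_lit 6) (nat_lit 7) (nat_lit 15) L91310 (by decide +kernel)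
theorem L91312 : W_34 (nat_lit 5) (nat_lit 0x2c001e0008000200010001000080000000000000000000000000000000) (nat_lit 0x0) (nat_lit 0x18000c000e0001000010000000000000000000000000000000000000000000000000000) := T_34 (nat_lit 228) (nat_lit 208) (nat_lit 3) (nat_lit 4) (nat_lit 12) L91311 (by decide +kernel)
theorem L91313 : W_34 (nat_lit 6) (nat_lit 0xc001e0008000200010001000080000000000000000000000000000000) (nat_lit 0x0) (nat_lit 0x18000c000e0007000010000000000000000000000000000000000000000000000000000) := T_34 (nat_lit 229) (nat_lit 230) (nat_lit 3) (nat_lit 5) (nat_lit 12) L91312 (by decide +kernel)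
theorem L91314 : W_34 (nat_lit 7) (nat_lit 0xc001e0000000200010001000080000000000000000000000000000000) (nat_lit 0x0) (nat_lit 0x18000c000e0007000010018000000000000000000000000000000000000000000000000) := T_34 (nat_lit 195) (nat_lit 196) (nat_lit 2) (nat_lit 5) (nat_lit 12) L91313 (by decide +kernel)
theorem L91315 : W_34 (nat_lit 8) (nat_lit 0xc000e0000000200010001000080000000000000000000000000000000) (nat_lit 0x0) (nat_lit 0x18000c000e0007000310018000000000000000000000000000000000000000000000000) := T_34 (nat_lit 212) (nat_lit 213) (nat_lit 1) (nat_lit 9) (nat_lit 12) L91314 (by decide +kernel)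
theorem L91316 : W_34 (nat_lit 9) (nat_lit 0xc000c0000000200010001000080000000000000000000000000000000) (nat_lit 0x0) (nat_lit 0x18000f000f800700033c019e000c0002000000000000000000000000000000000000000) := Q_34 (nat_lit 209) (C_34 L91294 (C_34 L91302 (C_34 L91308 (C_34 L91315 N_34)))) (by decide +kernel)
theorem L91317 : W_34 (nat_lit 13) (nat_lit 0x8000c0000000200010001000080000000000000000000000000000000) (nat_lit 0x0) (nat_lit 0x1f000f800fe00778033c01be000c0002000000000000000000000000000000000000000) := Q_34 (nat_lit 226) (C_34 L91295 (C_34 L91297 (C_34 L91299 (C_34 L91316 N_34)))) (by decide +kernel)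
theorem L91318 : W_34 (nat_lit 2) (nat_lit 0x4001e000f0000000200010001000080000000000000000000000000000000) (nat_lit 0x0) (nat_lit 0x80000000000000001000080000000000000000000000000000000000000000000) := D_34 (nat_lit 192) (nat_lit 175) (nat_lit 259) (nat_lit 5) (nat_lit 5) (nat_lit 10) (nat_lit 6) (nat_lit 4) (nat_lit 15) (by decide +kernel)
theorem L91319 : W_34 (nat_lit 3) (nat_lit 0x1e000f0000000200010001000080000000000000000000000000000000) (nat_lit 0x0) (nat_lit 0x80006000000000001000080000000000000000000000000000000000000000000) := T_34 (nat_lit 242) (nat_lit 241) (nat_lit 1) (nat_lit 7) (nat_lit 13) L91318 (by decide +kernel)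
theorem L91320 : W_34 (nat_lit 4) (nat_lit 0xe000f0000000200010001000080000000000000000000000000000000) (nat_lit 0x0) (nat_lit 0x80006003000000001000080000000000000000000000000000000000000000000) := T_34 (nat_lit 228) (nat_lit 229) (nat_lit 3) (nat_lit 4) (nat_lit 12) L91319 (by decide +kernel)
theorem L91321 : W_34 (nat_lit 5) (nat_lit 0xc000f0000000200010001000080000000000000000000000000000000) (nat_lit 0x0) (nat_lit 0x80006003300000001000080000000000000000000000000000000000000000000) := T_34 (nat_lit 225) (nat_lit 224) (nat_lit 2) (nat_lit 3) (nat_lit 13) L91320 (by decide +kernel)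
theorem L91322 : W_34 (nat_lit 6) (nat_lit 0xc000e0000000200010001000080000000000000000000000000000000) (nat_lit 0x0) (nat_lit 0x8000600338001c001000080000000000000000000000000000000000000000000) := Q_34 (nat_lit 208) (C_34 L91226 (C_34 L91224 (C_34 L91321 N_34))) (by decide +kernel)
theorem L91323 : W_34 (nat_lit 2) (nat_lit 0x8000080024001e000e0000000200010001000080000000000000000000000000000000) (nat_lit 0x0) (nat_lit 0x8000000000001000080000000000000000000000000000000000000000000) := D_34 (nat_lit 192) (nat_lit 175) (nat_lit 243) (nat_lit 5) (nat_lit 5) (nat_lit 10) (nat_lit 5) (nat_lit 5) (nat_lit 11) (by decide +kernel)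
theorem L91324 : W_34 (nat_lit 3) (nat_lit 0x8000000024001e000e0000000200010001000080000000000000000000000000000000) (nat_lit 0x0) (nat_lit 0x1000080008000000000001000080000000000000000000000000000000000000000000) := T_34 (nat_lit 259) (nat_lit 276) (nat_lit 6) (nat_lit 4) (nat_lit 16) L91323 (by decide +kernel)
theorem L91325 : W_34 (nat_lit 4) (nat_lit 0x24001e000e0000000200010001000080000000000000000000000000000000) (nat_lit 0x0) (nat_lit 0x9000480008000000000001000080000000000000000000000000000000000000000000) := T_34 (nat_lit 279) (nat_lit 262) (nat_lit 4) (nat_lit 7) (nat_lit 16) L91324 (by decide +kernel)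
theorem L91326 : W_34 (nat_lit 5) (nat_lit 0x20001e000e0000000200010001000080000000000000000000000000000000) (nat_lit 0x0) (nat_lit 0x900048000e000000000001000080000000000000000000000000000000000000000000) := T_34 (nat_lit 242) (nat_lit 241) (nat_lit 1) (nat_lit 7) (nat_lit 13) L91325 (by decide +kernel)
theorem L91327 : W_34 (nat_lit 6) (nat_lit 0x1e000e0000000200010001000080000000000000000000000000000000) (nat_lit 0x0) (nat_lit 0x900048006e000000000001000080000000000000000000000000000000000000000000) := T_34 (nat_lit 245) (nat_lit 246) (nat_lit 3) (nat_lit 4) (nat_lit 13) L91326 (by decide +kernel)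
theorem L91328 : W_34 (nat_lit 7) (nat_lit 0x1c000e0000000200010001000080000000000000000000000000000000) (nat_lit 0x0) (nat_lit 0x900048006e000300000001000080000000000000000000000000000000000000000000) := T_34 (nat_lit 225) (nat_lit 224) (nat_lit 2) (nat_lit 3) (nat_lit 13) L91327 (by decide +kernel)
theorem L91329 : W_34 (nat_lit 2) (nat_lit 0x10000180068003c000e0000000200010001000080000000000000000000000000000000) (nat_lit 0x0) (nat_lit 0x4000600000000000000000000000000000000000000000000000000000000000000000) := D_34 (nat_lit 261) (nat_lit 278) (nat_lit 262) (nat_lit 7) (nat_lit 5) (nat_lit 12) (nat_lit 2) (nat_lit 4) (nat_lit 15) (by decide +kernel)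
theorem L91330 : W_34 (nat_lit 3) (nat_lit 0x10000180048003c000e0000000200010001000080000000000000000000000000000000) (nat_lit 0x0) (nat_lit 0x4000600030000000000000000000000000000000000000000000000000000000000000) := T_34 (nat_lit 245) (nat_lit 244) (nat_lit 1) (nat_lit 8) (nat_lit 14) L91329 (by decide +kernel)
theorem L91331 : W_34 (nat_lit 4) (nat_lit 0x10000100048003c000e0000000200010001000080000000000000000000000000000000) (nat_lit 0x0) (nat_lit 0x5000680030000000000000000000000000000000000000000000000000000000000000) := T_34 (nat_lit 259) (nat_lit 276) (nat_lit 5) (nat_lit 5) (nat_lit 12) L91330 (by decide +kernel)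
theorem L91332 : W_34 (nat_lit 5) (nat_lit 0x10000000048003c000e0000000200010001000080000000000000000000000000000000) (nat_lit 0x0) (nat_lit 0x7000780030000000000000000000000000000000000000000000000000000000000000) := T_34 (nat_lit 260) (nat_lit 277) (nat_lit 6) (nat_lit 5) (nat_lit 16) L91331 (by decide +kernel)
theorem L91333 : W_34 (nat_lit 6) (nat_lit 0x48003c000e0000000200010001000080000000000000000000000000000000) (nat_lit 0x0) (nat_lit 0x17000f80030000000000000000000000000000000000000000000000000000000000000) := T_34 (nat_lit 280) (nat_lit 263) (nat_lit 4) (nat_lit 8) (nat_lit 16) L91332 (by decide +kernel)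
theorem L91334 : W_34 (nat_lit 7) (nat_lit 0x40003c000e0000000200010001000080000000000000000000000000000000) (nat_lit 0x0) (nat_lit 0x17000f8003c000000000000000000000000000000000000000000000000000000000000) := T_34 (nat_lit 243) (nat_lit 242) (nat_lit 1) (nat_lit 8) (nat_lit 13) L91333 (by decide +kernel)
theorem L91335 : W_34 (nat_lit 8) (nat_lit 0x3c000e0000000200010001000080000000000000000000000000000000) (nat_lit 0x0) (nat_lit 0x17000f800fc000000000000000000000000000000000000000000000000000000000000) := T_34 (nat_lit 246) (nat_lit 247) (nat_lit 3) (nat_lit 5) (nat_lit 13) L91334 (by decide +kernel)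
theorem L91336 : W_34 (nat_lit 9) (nat_lit 0x1c000e0000000200010001000080000000000000000000000000000000) (nat_lit 0x0) (nat_lit 0x17000f800fc006000000000000000000000000000000000000000000000000000000000) := T_34 (nat_lit 229) (nat_lit 230) (nat_lit 0) (nat_lit 9) (nat_lit 13) L91335 (by decide +kernel)
theorem L91337 : W_34 (nat_lit 2) (nat_lit 0x1000e00024005e000e0000000200010001000080000000000000000000000000000000) (nat_lit 0x0) (nat_lit 0x10000000000001000080000000000000000000000000000000000000000000) := D_34 (nat_lit 192) (nat_lit 244) (nat_lit 175) (nat_lit 4) (nat_lit 6) (nat_lit 15) (nat_lit 5) (nat_lit 5) (nat_lit 10) (by decide +kernel)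
theorem L91338 : W_34 (nat_lit 3) (nat_lit 0x1000c00024005e000e0000000200010001000080000000000000000000000000000000) (nat_lit 0x0) (nat_lit 0x4000200010000000000001000080000000000000000000000000000000000000000000) := T_34 (nat_lit 261) (nat_lit 278) (nat_lit 5) (nat_lit 7) (nat_lit 12) L91337 (by decide +kernel)
theorem L91339 : W_34 (nat_lit 4) (nat_lit 0x1000400024005e000e0000000200010001000080000000000000000000000000000000) (nat_lit 0x0) (nat_lit 0x14000a00010000000000001000080000000000000000000000000000000000000000000) := T_34 (nat_lit 263) (nat_lit 280) (nat_lit 7) (nat_lit 7) (nat_lit 12) L91338 (by decide +kernel)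
theorem L91340 : W_34 (nat_lit 5) (nat_lit 0x400024005e000e0000000200010001000080000000000000000000000000000000) (nat_lit 0x0) (nat_lit 0x15000a80010000000000001000080000000000000000000000000000000000000000000) := T_34 (nat_lit 276) (nat_lit 259) (nat_lit 6) (nat_lit 4) (nat_lit 16) L91339 (by decide +kernel)
theorem L91341 : W_34 (nat_lit 6) (nat_lit 0x24005e000e0000000200010001000080000000000000000000000000000000) (nat_lit 0x0) (nat_lit 0x1d000e80010000000000001000080000000000000000000000000000000000000000000) := T_34 (nat_lit 262) (nat_lit 279) (nat_lit 4) (nat_lit 7) (nat_lit 16) L91340 (by decide +kernel)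
theorem L91342 : W_34 (nat_lit 7) (nat_lit 0x20005e000e0000000200010001000080000000000000000000000000000000) (nat_lit 0x0) (nat_lit 0x1d000e80016000000000001000080000000000000000000000000000000000000000000) := T_34 (nat_lit 242) (nat_lit 241) (nat_lit 1) (nat_lit 7) (nat_lit 13) L91341 (by decide +kernel)
theorem L91343 : W_34 (nat_lit 8) (nat_lit 0x5e000e0000000200010001000080000000000000000000000000000000) (nat_lit 0x0) (nat_lit 0x1d000e80076000000000001000080000000000000000000000000000000000000000000) := T_34 (nat_lit 245) (nat_lit 246) (nat_lit 3) (nat_lit 4) (nat_lit 13) L91342 (by decide +kernel)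
theorem L91344 : W_34 (nat_lit 9) (nat_lit 0x5c000e0000000200010001000080000000000000000000000000000000) (nat_lit 0x0) (nat_lit 0x1d000e80076000300000001000080000000000000000000000000000000000000000000) := T_34 (nat_lit 225) (nat_lit 224) (nat_lit 2) (nat_lit 3) (nat_lit 13) L91343 (by decide +kernel)
theorem L91345 : W_34 (nat_lit 10) (nat_lit 0x1c000e0000000200010001000080000000000000000000000000000000) (nat_lit 0x0) (nat_lit 0x1d000e80076006300000001000080000000000000000000000000000000000000000000) := T_34 (nat_lit 230) (nat_lit 229) (nat_lit 0) (nat_lit 9) (nat_lit 13) L91344 (by decide +kernel)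
theorem L91346 : W_34 (nat_lit 2) (nat_lit 0xe00030005e000e0000000200010001000080000000000000000000000000000000) (nat_lit 0x0) (nat_lit 0x3000008000000000000000000000000000000000000000000000000000000000000) := D_34 (nat_lit 264) (nat_lit 265) (nat_lit 243) (nat_lit 0) (nat_lit 10) (nat_lit 15) (nat_lit 0) (nat_lit 9) (nat_lit 15) (by decide +kernel)
theorem L91347 : W_34 (nat_lit 3) (nat_lit 0x600030005e000e0000000200010001000080000000000000000000000000000000) (nat_lit 0x0) (nat_lit 0x10003800008000000000000000000000000000000000000000000000000000000000000) := T_34 (nat_lit 263) (nat_lit 280) (nat_lit 7) (nat_lit 7) (nat_lit 12) L91346 (by decide +kernel)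
theorem L91348 : W_34 (nat_lit 4) (nat_lit 0x600020005e000e0000000200010001000080000000000000000000000000000000) (nat_lit 0x0) (nat_lit 0x10003800018000000000001000000000000000000000000000000000000000000000000) := T_34 (nat_lit 244) (nat_lit 192) (nat_lit 4) (nat_lit 6) (nat_lit 15) L91347 (by decide +kernel)
theorem L91349 : W_34 (nat_lit 5) (nat_lit 0x400020005e000e0000000200010001000080000000000000000000000000000000) (nat_lit 0x0) (nat_lit 0x14003a00018000000000001000000000000000000000000000000000000000000000000) := T_34 (nat_lit 261) (nat_lit 278) (nat_lit 5) (nat_lit 7) (nat_lit 12) L91348 (by decide +kernel)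
theorem L91350 : W_34 (nat_lit 6) (nat_lit 0x20005e000e0000000200010001000080000000000000000000000000000000) (nat_lit 0x0) (nat_lit 0x1c003e00018000000000001000000000000000000000000000000000000000000000000) := T_34 (nat_lit 262) (nat_lit 279) (nat_lit 4) (nat_lit 7) (nat_lit 16) L91349 (by decide +kernel)
theorem L91351 : W_34 (nat_lit 7) (nat_lit 0x5e000e0000000200010001000080000000000000000000000000000000) (nat_lit 0x0) (nat_lit 0x1c003e00078000000000001000000000000000000000000000000000000000000000000) := T_34 (nat_lit 245) (nat_lit 246) (nat_lit 3) (nat_lit 4) (nat_lit 13) L91350 (by decide +kernel)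
theorem L91352 : W_34 (nat_lit 8) (nat_lit 0x1e000e0000000200010001000080000000000000000000000000000000) (nat_lit 0x0) (nat_lit 0x1c003e00078006000000001000000000000000000000000000000000000000000000000) := T_34 (nat_lit 230) (nat_lit 229) (nat_lit 0) (nat_lit 9) (nat_lit 13) L91351 (by decide +kernel)
theorem L91353 : W_34 (nat_lit 9) (nat_lit 0x1c000e0000000200010001000080000000000000000000000000000000) (nat_lit 0x0) (nat_lit 0x1c003e00078006300000001000000000000000000000000000000000000000000000000) := T_34 (nat_lit 225) (nat_lit 224) (nat_lit 2) (nat_lit 3) (nat_lit 13) L91352 (by decide +kernel)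
theorem L91354 : W_34 (nat_lit 11) (nat_lit 0xc000e0000000200010001000080000000000000000000000000000000) (nat_lit 0x0) (nat_lit 0x1f003f800fe007300000001000080000000000000000000000000000000000000000000) := Q_34 (nat_lit 228) (C_34 L91276 (C_34 L91281 (C_34 L91328 (C_34 L91336 (C_34 L91345 (C_34 L91353 N_34)))))) (by decide +kernel)
theorem L91355 : W_34 (nat_lit 12) (nat_lit 0xc000c0000000200010001000080000000000000000000000000000000) (nat_lit 0x0) (nat_lit 0x1f003f800fe00738003c001c000c0002000000000000000000000000000000000000000) := Q_34 (nat_lit 209) (C_34 L91231 (C_34 L91294 (C_34 L91239 (C_34 L91322 (C_34 L91354 N_34))))) (by decide +kernel)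
theorem L91356 : W_34 (nat_lit 13) (nat_lit 0x8000c0000000200010001000080000000000000000000000000000000) (nat_lit 0x0) (nat_lit 0x1f003f800fe00778033c019e000c0002000000000000000000000000000000000000000) := Q_34 (nat_lit 226) (C_34 L91355 (C_34 L91297 (C_34 L91299 (C_34 L91316 N_34)))) (by decide +kernel)
theorem L91357 : W_34 (nat_lit 5) (nat_lit 0x8000c000e0000000200010001000080000000000000000000000000000000) (nat_lit 0x0) (nat_lit 0x7000380014000000000001000000000000000000000000000000000000000000000000) := T_34 (nat_lit 260) (nat_lit 277) (nat_lit 6) (nat_lit 5) (nat_lit 16) L91267 (by decide +kernel)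
theorem L91358 : W_34 (nat_lit 2) (nat_lit 0x24001e000d000c0000000200010001000080000000000000000000000000000000) (nat_lit 0x0) (nat_lit 0x4000000000000000020001000000000000000000000000000000000000000000000000) := D_34 (nat_lit 209) (nat_lit 192) (nat_lit 278) (nat_lit 7) (nat_lit 5) (nat_lit 11) (nat_lit 4) (nat_lit 6) (nat_lit 16) (by decide +kernel)
theorem L91359 : W_34 (nat_lit 3) (nat_lit 0x4001e000d000c0000000200010001000080000000000000000000000000000000) (nat_lit 0x0) (nat_lit 0x4000600000000000020001000000000000000000000000000000000000000000000000) := T_34 (nat_lit 261) (nat_lit 262) (nat_lit 3) (nat_lit 3) (nat_lit 14) L91358 (by decide +kernel)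
theorem L91360 : W_34 (nat_lit 4) (nat_lit 0x1e000d000c0000000200010001000080000000000000000000000000000000) (nat_lit 0x0) (nat_lit 0x4000660000000000020001000000000000000000000000000000000000000000000000) := T_34 (nat_lit 258) (nat_lit 257) (nat_lit 1) (nat_lit 6) (nat_lit 14) L91359 (by decide +kernel)
theorem L91361 : W_34 (nat_lit 5) (nat_lit 0xe000d000c0000000200010001000080000000000000000000000000000000) (nat_lit 0x0) (nat_lit 0x4000660010000080020001000000000000000000000000000000000000000000000000) := T_34 (nat_lit 244) (nat_lit 223) (nat_lit 0) (nat_lit 6) (nat_lit 14) L91360 (by decide +kernel)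
theorem L91362 : W_34 (nat_lit 6) (nat_lit 0xc000d000c0000000200010001000080000000000000000000000000000000) (nat_lit 0x0) (nat_lit 0x4000660013000080020001000000000000000000000000000000000000000000000000) := T_34 (nat_lit 241) (nat_lit 240) (nat_lit 2) (nat_lit 2) (nat_lit 14) L91361 (by decide +kernel)
theorem L91363 : W_34 (nat_lit 7) (nat_lit 0xc000c000c0000000200010001000080000000000000000000000000000000) (nat_lit 0x0) (nat_lit 0x4000660013000380020001000000000000000000000000000000000000000000000000) := T_34 (nat_lit 224) (nat_lit 225) (nat_lit 2) (nat_lit 3) (nat_lit 13) L91362 (by decide +kernel)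
theorem L91364 : W_34 (nat_lit 2) (nat_lit 0x20002c001e000d000c0000000200010001000080000000000000000000000000000000) (nat_lit 0x0) (nat_lit 0x1000000000000000008000400000000000000000000000000000000000000000000000) := D_34 (nat_lit 207) (nat_lit 190) (nat_lit 276) (nat_lit 7) (nat_lit 3) (nat_lit 11) (nat_lit 7) (nat_lit 3) (nat_lit 12) (by decide +kernel)
theorem L91365 : W_34 (nat_lit 3) (nat_lit 0x200024001e000d000c0000000200010001000080000000000000000000000000000000) (nat_lit 0x0) (nat_lit 0x1000080020000000008000400000000000000000000000000000000000000000000000) := T_34 (nat_lit 259) (nat_lit 245) (nat_lit 1) (nat_lit 7) (nat_lit 14) L91364 (by decide +kernel)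
theorem L91366 : W_34 (nat_lit 4) (nat_lit 0x200004001e000d000c0000000200010001000080000000000000000000000000000000) (nat_lit 0x0) (nat_lit 0x1000680020000000008000400000000000000000000000000000000000000000000000) := T_34 (nat_lit 261) (nat_lit 262) (nat_lit 3) (nat_lit 3) (nat_lit 14) L91365 (by decide +kernel)
theorem L91367 : W_34 (nat_lit 5) (nat_lit 0x200000001e000d000c0000000200010001000080000000000000000000000000000000) (nat_lit 0x0) (nat_lit 0x10006e0020000000008000400000000000000000000000000000000000000000000000) := T_34 (nat_lit 258) (nat_lit 257) (nat_lit 1) (nat_lit 6) (nat_lit 14) L91366 (by decide +kernel)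
theorem L91368 : W_34 (nat_lit 6) (nat_lit 0x200000000e000d000c0000000200010001000080000000000000000000000000000000) (nat_lit 0x0) (nat_lit 0x10006e0030000080008000400000000000000000000000000000000000000000000000) := T_34 (nat_lit 244) (nat_lit 223) (nat_lit 0) (nat_lit 6) (nat_lit 14) L91367 (by decide +kernel)
theorem L91369 : W_34 (nat_lit 7) (nat_lit 0x200000000e000c000c0000000200010001000080000000000000000000000000000000) (nat_lit 0x0) (nat_lit 0x10006e0030000380008000400000000000000000000000000000000000000000000000) := T_34 (nat_lit 224) (nat_lit 225) (nat_lit 2) (nat_lit 3) (nat_lit 13) L91368 (by decide +kernel)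
theorem L91370 : W_34 (nat_lit 8) (nat_lit 0xe000c000c0000000200010001000080000000000000000000000000000000) (nat_lit 0x0) (nat_lit 0x30007e0030000380008000400000000000000000000000000000000000000000000000) := T_34 (nat_lit 277) (nat_lit 260) (nat_lit 6) (nat_lit 5) (nat_lit 16) L91369 (by decide +kernel)
theorem L91371 : W_34 (nat_lit 9) (nat_lit 0xc000c000c0000000200010001000080000000000000000000000000000000) (nat_lit 0x0) (nat_lit 0x30007e0033000380008000400000000000000000000000000000000000000000000000) := T_34 (nat_lit 241) (nat_lit 240) (nat_lit 2) (nat_lit 2) (nat_lit 14) L91370 (by decide +kernel)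
theorem L91372 : W_34 (nat_lit 2) (nat_lit 0xc000f8000000200010001000080000000000000000000000000000000) (nat_lit 0x0) (nat_lit 0xe00000000000000000000000000000000000000000000000) := D_34 (nat_lit 190) (nat_lit 191) (nat_lit 189) (nat_lit 0) (nat_lit 7) (nat_lit 12) (nat_lit 0) (nat_lit 6) (nat_lit 12) (by decide +kernel)
theorem L91373 : W_34 (nat_lit 3) (nat_lit 0xc000f0000000200010001000080000000000000000000000000000000) (nat_lit 0x0) (nat_lit 0xc000e00000000000000000000000000000000000000000000000) := T_34 (nat_lit 207) (nat_lit 206) (nat_lit 3) (nat_lit 2) (nat_lit 12) L91372 (by decide +kernel)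
theorem L91374 : W_34 (nat_lit 5) (nat_lit 0xc000e0000000200010001000080000000000000000000000000000000) (nat_lit 0x0) (nat_lit 0x800038001c000e00040002000000000000000000000000000000000000000) := Q_34 (nat_lit 208) (C_34 L91238 (C_34 L91226 (C_34 L91373 N_34))) (by decide +kernel)
theorem L91375 : W_34 (nat_lit 2) (nat_lit 0xd000e0001000280010001000080000000000000000000000000000000) (nat_lit 0x0) (nat_lit 0x2000100008000000000000000000000000000000000000000) := D_34 (nat_lit 176) (nat_lit 193) (nat_lit 159) (nat_lit 6) (nat_lit 6) (nat_lit 13) (nat_lit 6) (nat_lit 5) (nat_lit 13) (by decide +kernel)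
theorem L91376 : W_34 (nat_lit 3) (nat_lit 0xd000e0001000200010001000080000000000000000000000000000000) (nat_lit 0x0) (nat_lit 0x200018000c000000000000000000000000000000000000000) := T_34 (nat_lit 175) (nat_lit 158) (nat_lit 7) (nat_lit 5) (nat_lit 9) L91375 (by decide +kernel)
theorem L91377 : W_34 (nat_lit 4) (nat_lit 0xc000e0001000200010001000080000000000000000000000000000000) (nat_lit 0x0) (nat_lit 0x30000000200018000c000000000000000000000000000000000000000) := T_34 (nat_lit 224) (nat_lit 225) (nat_lit 2) (nat_lit 3) (nat_lit 13) L91376 (by decide +kernel)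
theorem L91378 : W_34 (nat_lit 2) (nat_lit 0x3d000c000e0003400200010001000080000000000000000000000000000000) (nat_lit 0x0) (nat_lit 0x40000300000000000000000000000000000000000000000000000000000000) := D_34 (nat_lit 225) (nat_lit 224) (nat_lit 246) (nat_lit 3) (nat_lit 3) (nat_lit 13) (nat_lit 0) (nat_lit 8) (nat_lit 14) (by decide +kernel)
theorem L91379 : W_34 (nat_lit 3) (nat_lit 0x1d000c000e0003400200010001000080000000000000000000000000000000) (nat_lit 0x0) (nat_lit 0x400060000300000000000000000000000000000000000000000000000000000000) := T_34 (nat_lit 245) (nat_lit 262) (nat_lit 7) (nat_lit 6) (nat_lit 11) L91378 (by decide +kernel)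
theorem L91380 : W_34 (nat_lit 4) (nat_lit 0xd000c000e0003400200010001000080000000000000000000000000000000) (nat_lit 0x0) (nat_lit 0x600070000300000000000000000000000000000000000000000000000000000000) := T_34 (nat_lit 244) (nat_lit 261) (nat_lit 7) (nat_lit 5) (nat_lit 11) L91379 (by decide +kernel)
theorem L91381 : W_34 (nat_lit 5) (nat_lit 0xc000c000e0003400200010001000080000000000000000000000000000000) (nat_lit 0x0) (nat_lit 0x600073000300000000000000000000000000000000000000000000000000000000) := T_34 (nat_lit 240) (nat_lit 241) (nat_lit 2) (nat_lit 2) (nat_lit 14) L91380 (by decide +kernel)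
theorem L91382 : W_34 (nat_lit 6) (nat_lit 0x8000c000e0003400200010001000080000000000000000000000000000000) (nat_lit 0x0) (nat_lit 0x680077000300000000000000000000000000000000000000000000000000000000) := T_34 (nat_lit 242) (nat_lit 259) (nat_lit 5) (nat_lit 5) (nat_lit 11) L91381 (by decide +kernel)
theorem L91383 : W_34 (nat_lit 7) (nat_lit 0x8000c000e0003000200010001000080000000000000000000000000000000) (nat_lit 0x0) (nat_lit 0x680077000300000000c00000000000000000000000000000000000000000000000) := T_34 (nat_lit 190) (nat_lit 191) (nat_lit 3) (nat_lit 3) (nat_lit 11) L91382 (by decide +kernel)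
theorem L91384 : W_34 (nat_lit 8) (nat_lit 0xc000e0003000200010001000080000000000000000000000000000000) (nat_lit 0x0) (nat_lit 0x78007f000300000000c00000000000000000000000000000000000000000000000) := T_34 (nat_lit 243) (nat_lit 260) (nat_lit 6) (nat_lit 5) (nat_lit 15) L91383 (by decide +kernel)
theorem L91385 : W_34 (nat_lit 9) (nat_lit 0xc000e0001000200010001000080000000000000000000000000000000) (nat_lit 0x0) (nat_lit 0x78007f000300000002c00100000000000000000000000000000000000000000000) := T_34 (nat_lit 193) (nat_lit 176) (nat_lit 6) (nat_lit 6) (nat_lit 13) L91384 (by decide +kernel)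
theorem L91386 : W_34 (nat_lit 10) (nat_lit 0xc000e0000000200010001000080000000000000000000000000000000) (nat_lit 0x0) (nat_lit 0x78007f000300000003c0018000c000000000000000000000000000000000000000) := Q_34 (nat_lit 192) (C_34 L91263 (C_34 L91377 (C_34 L91385 N_34))) (by decide +kernel)
theorem L91387 : W_34 (nat_lit 2) (nat_lit 0xbc000d000e0003000200010001000080000000000000000000000000000000) (nat_lit 0x0) (nat_lit 0x3000080000000000000000000000000000000000000000000000000000000) := D_34 (nat_lit 241) (nat_lit 240) (nat_lit 223) (nat_lit 2) (nat_lit 2) (nat_lit 14) (nat_lit 0) (nat_lit 6) (nat_lit 14) (by decide +kernel)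
theorem L91388 : W_34 (nat_lit 3) (nat_lit 0xb8000d000e0003000200010001000080000000000000000000000000000000) (nat_lit 0x0) (nat_lit 0x80007000080000000000000000000000000000000000000000000000000000000) := T_34 (nat_lit 242) (nat_lit 259) (nat_lit 5) (nat_lit 5) (nat_lit 11) L91387 (by decide +kernel)
theorem L91389 : W_34 (nat_lit 4) (nat_lit 0xb8000d000e0002000200010001000080000000000000000000000000000000) (nat_lit 0x0) (nat_lit 0x80007000080000001000080000000000000000000000000000000000000000000) := T_34 (nat_lit 192) (nat_lit 175) (nat_lit 7) (nat_lit 5) (nat_lit 10) L91388 (by decide +kernel)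
theorem L91390 : W_34 (nat_lit 5) (nat_lit 0x38000d000e0002000200010001000080000000000000000000000000000000) (nat_lit 0x0) (nat_lit 0x800c7000080000001000080000000000000000000000000000000000000000000) := T_34 (nat_lit 247) (nat_lit 246) (nat_lit 0) (nat_lit 9) (nat_lit 14) L91389 (by decide +kernel)
theorem L91391 : W_34 (nat_lit 6) (nat_lit 0x18000d000e0002000200010001000080000000000000000000000000000000) (nat_lit 0x0) (nat_lit 0x4800e7000080000001000080000000000000000000000000000000000000000000) := T_34 (nat_lit 245) (nat_lit 262) (nat_lit 7) (nat_lit 6) (nat_lit 11) L91390 (by decide +kernel)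
theorem L91392 : W_34 (nat_lit 7) (nat_lit 0x10000d000e0002000200010001000080000000000000000000000000000000) (nat_lit 0x0) (nat_lit 0x5800ef000080000001000080000000000000000000000000000000000000000000) := T_34 (nat_lit 243) (nat_lit 260) (nat_lit 6) (nat_lit 5) (nat_lit 15) L91391 (by decide +kernel)
theorem L91393 : W_34 (nat_lit 8) (nat_lit 0x10000d000e0000000200010001000080000000000000000000000000000000) (nat_lit 0x0) (nat_lit 0x5800ef000080000003000180000000000000000000000000000000000000000000) := T_34 (nat_lit 193) (nat_lit 176) (nat_lit 6) (nat_lit 6) (nat_lit 13) L91392 (by decide +kernel)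
theorem L91394 : W_34 (nat_lit 9) (nat_lit 0x10000c000e0000000200010001000080000000000000000000000000000000) (nat_lit 0x0) (nat_lit 0x5800ef000380000003000180000000000000000000000000000000000000000000) := T_34 (nat_lit 224) (nat_lit 225) (nat_lit 2) (nat_lit 3) (nat_lit 13) L91393 (by decide +kernel)
theorem L91395 : W_34 (nat_lit 10) (nat_lit 0xc000e0000000200010001000080000000000000000000000000000000) (nat_lit 0x0) (nat_lit 0xe0007800ff000380000003000180000000000000000000000000000000000000000000) := Q_34 (nat_lit 244) (C_34 L91262 (C_34 L91257 (C_34 L91394 N_34))) (by decide +kernel)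
theorem L91396 : W_34 (nat_lit 2) (nat_lit 0x8000c000e0003000200010001000080000000000000000000000000000000) (nat_lit 0x0) (nat_lit 0xc00040000000000000000000000000000000000000000000) := D_34 (nat_lit 191) (nat_lit 190) (nat_lit 174) (nat_lit 3) (nat_lit 3) (nat_lit 11) (nat_lit 4) (nat_lit 5) (nat_lit 14) (by decide +kernel)
theorem L91397 : W_34 (nat_lit 3) (nat_lit 0xc000e0003000200010001000080000000000000000000000000000000) (nat_lit 0x0) (nat_lit 0x100008000000000000c00040000000000000000000000000000000000000000000) := T_34 (nat_lit 243) (nat_lit 260) (nat_lit 6) (nat_lit 5) (nat_lit 15) L91396 (by decide +kernel)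
theorem L91398 : W_34 (nat_lit 4) (nat_lit 0xc000e0001000200010001000080000000000000000000000000000000) (nat_lit 0x0) (nat_lit 0x100008000000000002c00140000000000000000000000000000000000000000000) := T_34 (nat_lit 193) (nat_lit 176) (nat_lit 6) (nat_lit 6) (nat_lit 13) L91397 (by decide +kernel)
theorem L91399 : W_34 (nat_lit 5) (nat_lit 0xc000e0000000200010001000080000000000000000000000000000000) (nat_lit 0x0) (nat_lit 0x100018000000000003c001c0004000000000000000000000000000000000000000) := Q_34 (nat_lit 192) (C_34 L91263 (C_34 L91398 N_34)) (by decide +kernel)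
theorem L91400 : W_34 (nat_lit 2) (nat_lit 0xd000f00008003c0010001000080000000000000000000000000000000) (nat_lit 0x0) (nat_lit 0x1000020008000000000000000000000000000000000000000) := D_34 (nat_lit 159) (nat_lit 173) (nat_lit 192) (nat_lit 2) (nat_lit 3) (nat_lit 10) (nat_lit 6) (nat_lit 5) (nat_lit 13) (by decide +kernel)
theorem L91401 : W_34 (nat_lit 3) (nat_lit 0xd000f0000800340010001000080000000000000000000000000000000) (nat_lit 0x0) (nat_lit 0x10000a0028000000000000000000000000000000000000000) := T_34 (nat_lit 175) (nat_lit 161) (nat_lit 2) (nat_lit 4) (nat_lit 10) L91400 (by decide +kernel)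
theorem L91402 : W_34 (nat_lit 4) (nat_lit 0xd000f0000800300010001000080000000000000000000000000000000) (nat_lit 0x0) (nat_lit 0x10000e002a000000000000000000000000000000000000000) := T_34 (nat_lit 174) (nat_lit 157) (nat_lit 7) (nat_lit 4) (nat_lit 9) L91401 (by decide +kernel)
theorem L91403 : W_34 (nat_lit 5) (nat_lit 0xd000f0000800200010001000080000000000000000000000000000000) (nat_lit 0x0) (nat_lit 0x30001e002a000000000000000000000000000000000000000) := T_34 (nat_lit 176) (nat_lit 193) (nat_lit 6) (nat_lit 6) (nat_lit 13) L91402 (by decide +kernel)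
theorem L91404 : W_34 (nat_lit 6) (nat_lit 0xd000f0000000200010001000080000000000000000000000000000000) (nat_lit 0x0) (nat_lit 0x3c001e002a000000000000000000000000000000000000000) := T_34 (nat_lit 191) (nat_lit 190) (nat_lit 0) (nat_lit 7) (nat_lit 12) L91403 (by decide +kernel)
theorem L91405 : W_34 (nat_lit 7) (nat_lit 0xc000f0000000200010001000080000000000000000000000000000000) (nat_lit 0x0) (nat_lit 0x300000003c001e002a000000000000000000000000000000000000000) := T_34 (nat_lit 224) (nat_lit 225) (nat_lit 2) (nat_lit 3) (nat_lit 13) L91404 (by decide +kernel)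
theorem L91406 : W_34 (nat_lit 8) (nat_lit 0xc000e0000000200010001000080000000000000000000000000000000) (nat_lit 0x0) (nat_lit 0x38001c003e001e002a000000000000000000000000000000000000000) := Q_34 (nat_lit 208) (C_34 L91373 (C_34 L91226 (C_34 L91405 N_34))) (by decide +kernel)
theorem L91407 : W_34 (nat_lit 11) (nat_lit 0xc000c0000000200010001000080000000000000000000000000000000) (nat_lit 0x0) (nat_lit 0xe0007800ff00038003c003e001e002e000000000000000000000000000000000000000) := Q_34 (nat_lit 209) (C_34 L91239 (C_34 L91374 (C_34 L91386 (C_34 L91395 (C_34 L91399 (C_34 L91406 N_34)))))) (by decide +kernel)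
theorem L91408 : W_34 (nat_lit 2) (nat_lit 0x8000c000c0002000200010001000080000000000000000000000000000000) (nat_lit 0x0) (nat_lit 0x2000100010000000000000000000000000000000000000000000000000000000000000) := D_34 (nat_lit 260) (nat_lit 244) (nat_lit 277) (nat_lit 5) (nat_lit 6) (nat_lit 11) (nat_lit 6) (nat_lit 5) (nat_lit 16) (by decide +kernel)
theorem L91409 : W_34 (nat_lit 2) (nat_lit 0xc002c0000000300070001000080000000000000000000000000000000) (nat_lit 0x0) (nat_lit 0xc0008000000000000000000000000000000000000000) := D_34 (nat_lit 175) (nat_lit 159) (nat_lit 174) (nat_lit 1) (nat_lit 9) (nat_lit 9) (nat_lit 2) (nat_lit 4) (nat_lit 10) (by decide +kernel)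
theorem L91410 : W_34 (nat_lit 2) (nat_lit 0x8001c0002000200010001000080000000000000000000000000000000) (nat_lit 0x0) (nat_lit 0x400200001000000000000000000000000000000000000000000000000) := D_34 (nat_lit 213) (nat_lit 192) (nat_lit 226) (nat_lit 0) (nat_lit 9) (nat_lit 12) (nat_lit 1) (nat_lit 9) (nat_lit 12) (by decide +kernel)
theorem L91411 : W_34 (nat_lit 3) (nat_lit 0x8001c0000000200010001000080000000000000000000000000000000) (nat_lit 0x0) (nat_lit 0x400200003000100000000000000000000000000000000000000000000) := T_34 (nat_lit 193) (nat_lit 176) (nat_lit 6) (nat_lit 6) (nat_lit 13) L91410 (by decide +kernel)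
theorem L91412 : W_34 (nat_lit 2) (nat_lit 0x8003e0010000200010001000080000000000000000000000000000000) (nat_lit 0x0) (nat_lit 0xe000000000000000000000000000000000000000000000000000000000) := D_34 (nat_lit 230) (nat_lit 231) (nat_lit 229) (nat_lit 3) (nat_lit 6) (nat_lit 12) (nat_lit 3) (nat_lit 5) (nat_lit 12) (by decide +kernel)
theorem L91413 : W_34 (nat_lit 3) (nat_lit 0x8003c0010000200010001000080000000000000000000000000000000) (nat_lit 0x0) (nat_lit 0xe000020008000000000000000000000000000000000000000000000000) := T_34 (nat_lit 209) (nat_lit 195) (nat_lit 2) (nat_lit 5) (nat_lit 12) L91412 (by decide +kernel)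
theorem L91414 : W_34 (nat_lit 4) (nat_lit 0x8003c0000000200010001000080000000000000000000000000000000) (nat_lit 0x0) (nat_lit 0xe000020038000000000000000000000000000000000000000000000000) := T_34 (nat_lit 196) (nat_lit 197) (nat_lit 2) (nat_lit 6) (nat_lit 12) L91413 (by decide +kernel)
theorem L91415 : W_34 (nat_lit 5) (nat_lit 0x8001c0000000200010001000080000000000000000000000000000000) (nat_lit 0x0) (nat_lit 0xe400220038000000000000000000000000000000000000000000000000) := T_34 (nat_lit 213) (nat_lit 226) (nat_lit 1) (nat_lit 9) (nat_lit 12) L91414 (by decide +kernel)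
theorem L91416 : W_34 (nat_lit 2) (nat_lit 0x2c001e0009000200010001000080000000000000000000000000000000) (nat_lit 0x0) (nat_lit 0x200010000000000000000080000000000000000000000000000000000000000000) := D_34 (nat_lit 244) (nat_lit 261) (nat_lit 175) (nat_lit 4) (nat_lit 6) (nat_lit 15) (nat_lit 7) (nat_lit 5) (nat_lit 10) (by decide +kernel)
theorem L91417 : W_34 (nat_lit 3) (nat_lit 0x2c001e0008000200010001000080000000000000000000000000000000) (nat_lit 0x0) (nat_lit 0x200010000000000001800080000000000000000000000000000000000000000000) := T_34 (nat_lit 192) (nat_lit 191) (nat_lit 0) (nat_lit 8) (nat_lit 12) L91416 (by decide +kernel)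
theorem L91418 : W_34 (nat_lit 4) (nat_lit 0x28001e0008000200010001000080000000000000000000000000000000) (nat_lit 0x0) (nat_lit 0x200010000600000001800080000000000000000000000000000000000000000000) := T_34 (nat_lit 226) (nat_lit 225) (nat_lit 1) (nat_lit 8) (nat_lit 12) L91417 (by decide +kernel)
theorem L91419 : W_34 (nat_lit 5) (nat_lit 0x28001e0000000200010001000080000000000000000000000000000000) (nat_lit 0x0) (nat_lit 0x200010000600000019800080000000000000000000000000000000000000000000) := T_34 (nat_lit 195) (nat_lit 196) (nat_lit 2) (nat_lit 5) (nat_lit 12) L91418 (by decide +kernel)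
theorem L91420 : W_34 (nat_lit 6) (nat_lit 0x8001e0000000200010001000080000000000000000000000000000000) (nat_lit 0x0) (nat_lit 0x200010006600000019800080000000000000000000000000000000000000000000) := T_34 (nat_lit 229) (nat_lit 230) (nat_lit 3) (nat_lit 5) (nat_lit 12) L91419 (by decide +kernel)
theorem L91421 : W_34 (nat_lit 2) (nat_lit 0x38002a001e0003000200014001000080000000000000000000000000000000) (nat_lit 0x0) (nat_lit 0x4000100010000000000000000000000000000000000000000000000000000) := D_34 (nat_lit 224) (nat_lit 208) (nat_lit 242) (nat_lit 1) (nat_lit 7) (nat_lit 12) (nat_lit 0) (nat_lit 7) (nat_lit 14) (by decide +kernel)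
theorem L91422 : W_34 (nat_lit 3) (nat_lit 0x380028001e0003000200014001000080000000000000000000000000000000) (nat_lit 0x0) (nat_lit 0x4000700010000000000000000000000000000000000000000000000000000) := T_34 (nat_lit 225) (nat_lit 226) (nat_lit 1) (nat_lit 8) (nat_lit 12) L91421 (by decide +kernel)
theorem L91423 : W_34 (nat_lit 4) (nat_lit 0x180028001e0003000200014001000080000000000000000000000000000000) (nat_lit 0x0) (nat_lit 0x400024000700010000000000000000000000000000000000000000000000000000) := T_34 (nat_lit 245) (nat_lit 262) (nat_lit 7) (nat_lit 6) (nat_lit 11) L91422 (by decide +kernel)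
theorem L91424 : W_34 (nat_lit 5) (nat_lit 0x100028001e0003000200014001000080000000000000000000000000000000) (nat_lit 0x0) (nat_lit 0x50002c000700010000000000000000000000000000000000000000000000000000) := T_34 (nat_lit 243) (nat_lit 260) (nat_lit 5) (nat_lit 6) (nat_lit 11) L91423 (by decide +kernel)
theorem L91425 : W_34 (nat_lit 6) (nat_lit 0x100028001e0001000200014001000080000000000000000000000000000000) (nat_lit 0x0) (nat_lit 0x50002c000700010002000100000000000000000000000000000000000000000000) := T_34 (nat_lit 193) (nat_lit 176) (nat_lit 6) (nat_lit 6) (nat_lit 13) L91424 (by decide +kernel)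
theorem L91426 : W_34 (nat_lit 7) (nat_lit 0x28001e0001000200014001000080000000000000000000000000000000) (nat_lit 0x0) (nat_lit 0x70003c000700010002000100000000000000000000000000000000000000000000) := T_34 (nat_lit 244) (nat_lit 261) (nat_lit 4) (nat_lit 6) (nat_lit 15) L91425 (by decide +kernel)
theorem L91427 : W_34 (nat_lit 8) (nat_lit 0x28001e0001000200010001000080000000000000000000000000000000) (nat_lit 0x0) (nat_lit 0x70003c000700010002000180004000000000000000000000000000000000000000) := T_34 (nat_lit 158) (nat_lit 175) (nat_lit 7) (nat_lit 5) (nat_lit 9) L91426 (by decide +kernel)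
theorem L91428 : W_34 (nat_lit 9) (nat_lit 0x8001e0001000200010001000080000000000000000000000000000000) (nat_lit 0x0) (nat_lit 0x70003c006700010002000180004000000000000000000000000000000000000000) := T_34 (nat_lit 229) (nat_lit 230) (nat_lit 3) (nat_lit 5) (nat_lit 12) L91427 (by decide +kernel)
theorem L91429 : W_34 (nat_lit 10) (nat_lit 0x8001e0000000200010001000080000000000000000000000000000000) (nat_lit 0x0) (nat_lit 0x70003c006700010003800180004000000000000000000000000000000000000000) := T_34 (nat_lit 192) (nat_lit 191) (nat_lit 0) (nat_lit 8) (nat_lit 12) L91428 (by decide +kernel)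
theorem L91430 : W_34 (nat_lit 2) (nat_lit 0xa001f0002000200010001000080000000000000000000000000000000) (nat_lit 0x0) (nat_lit 0x1c00000000000000000000000000000000000000000000000) := D_34 (nat_lit 191) (nat_lit 190) (nat_lit 192) (nat_lit 0) (nat_lit 7) (nat_lit 12) (nat_lit 0) (nat_lit 8) (nat_lit 12) (by decide +kernel)
theorem L91431 : W_34 (nat_lit 3) (nat_lit 0xa001e0002000200010001000080000000000000000000000000000000) (nat_lit 0x0) (nat_lit 0x100010001c00000000000000000000000000000000000000000000000) := T_34 (nat_lit 208) (nat_lit 224) (nat_lit 1) (nat_lit 7) (nat_lit 12) L91430 (by decide +kernel)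
theorem L91432 : W_34 (nat_lit 4) (nat_lit 0xa001e0000000200010001000080000000000000000000000000000000) (nat_lit 0x0) (nat_lit 0x100010003c00100000000000000000000000000000000000000000000) := T_34 (nat_lit 193) (nat_lit 176) (nat_lit 6) (nat_lit 6) (nat_lit 13) L91431 (by decide +kernel)
theorem L91433 : W_34 (nat_lit 5) (nat_lit 0x8001e0000000200010001000080000000000000000000000000000000) (nat_lit 0x0) (nat_lit 0x700010003c00100000000000000000000000000000000000000000000) := T_34 (nat_lit 225) (nat_lit 226) (nat_lit 1) (nat_lit 8) (nat_lit 12) L91432 (by decide +kernel)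
theorem L91434 : W_34 (nat_lit 2) (nat_lit 0x8001f0000000200010001000080000000000000000000000000000000) (nat_lit 0x0) (nat_lit 0x700000000000000000000000000000000000000000000000000000000) := D_34 (nat_lit 225) (nat_lit 226) (nat_lit 224) (nat_lit 1) (nat_lit 8) (nat_lit 12) (nat_lit 1) (nat_lit 7) (nat_lit 12) (by decide +kernel)
theorem L91435 : W_34 (nat_lit 2) (nat_lit 0x8001f800a400200010001000080000000000000000000000000000000) (nat_lit 0x0) (nat_lit 0x380000000000000000000000000000000000000000000000000000000) := D_34 (nat_lit 224) (nat_lit 225) (nat_lit 223) (nat_lit 1) (nat_lit 7) (nat_lit 12) (nat_lit 1) (nat_lit 6) (nat_lit 12) (by decide +kernel)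
theorem L91436 : W_34 (nat_lit 3) (nat_lit 0x8001f000a400200010001000080000000000000000000000000000000) (nat_lit 0x0) (nat_lit 0x380008000200000000000000000000000000000000000000000000000) := T_34 (nat_lit 207) (nat_lit 189) (nat_lit 0) (nat_lit 6) (nat_lit 12) L91435 (by decide +kernel)
theorem L91437 : W_34 (nat_lit 4) (nat_lit 0x8001f0008400200010001000080000000000000000000000000000000) (nat_lit 0x0) (nat_lit 0x380008002200100000000000000000000000000000000000000000000) := T_34 (nat_lit 193) (nat_lit 176) (nat_lit 6) (nat_lit 6) (nat_lit 13) L91436 (by decide +kernel)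
theorem L91438 : W_34 (nat_lit 5) (nat_lit 0x8001f0008000200010001000080000000000000000000000000000000) (nat_lit 0x0) (nat_lit 0x380008002e00100000000000000000000000000000000000000000000) := T_34 (nat_lit 190) (nat_lit 191) (nat_lit 0) (nat_lit 7) (nat_lit 12) L91437 (by decide +kernel)
theorem L91439 : W_34 (nat_lit 6) (nat_lit 0x8001f0000000200010001000080000000000000000000000000000000) (nat_lit 0x0) (nat_lit 0x38000801ae00100000000000000000000000000000000000000000000) := T_34 (nat_lit 195) (nat_lit 196) (nat_lit 2) (nat_lit 5) (nat_lit 12) L91438 (by decide +kernel)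
theorem L91440 : W_34 (nat_lit 2) (nat_lit 0x28001fc00a400200010001000080000000000000000000000000000000) (nat_lit 0x0) (nat_lit 0x1c0000000000000000000000000000000000000000000000000000000) := D_34 (nat_lit 223) (nat_lit 222) (nat_lit 224) (nat_lit 1) (nat_lit 5) (nat_lit 12) (nat_lit 1) (nat_lit 6) (nat_lit 12) (by decide +kernel)
theorem L91441 : W_34 (nat_lit 3) (nat_lit 0x28001f800a400200010001000080000000000000000000000000000000) (nat_lit 0x0) (nat_lit 0x5c0004000000000000000000000000000000000000000000000000000) := T_34 (nat_lit 206) (nat_lit 226) (nat_lit 3) (nat_lit 2) (nat_lit 12) L91440 (by decide +kernel)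
theorem L91442 : W_34 (nat_lit 4) (nat_lit 0x28001f8002400200010001000080000000000000000000000000000000) (nat_lit 0x0) (nat_lit 0x5c0004018000000000000000000000000000000000000000000000000) := T_34 (nat_lit 195) (nat_lit 196) (nat_lit 2) (nat_lit 5) (nat_lit 12) L91441 (by decide +kernel)
theorem L91443 : W_34 (nat_lit 5) (nat_lit 0x28001f0002400200010001000080000000000000000000000000000000) (nat_lit 0x0) (nat_lit 0x5c000c018200000000000000000000000000000000000000000000000) := T_34 (nat_lit 207) (nat_lit 189) (nat_lit 0) (nat_lit 6) (nat_lit 12) L91442 (by decide +kernel)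
theorem L91444 : W_34 (nat_lit 6) (nat_lit 0x28001f0000400200010001000080000000000000000000000000000000) (nat_lit 0x0) (nat_lit 0x5c000c01a200100000000000000000000000000000000000000000000) := T_34 (nat_lit 193) (nat_lit 176) (nat_lit 6) (nat_lit 6) (nat_lit 13) L91443 (by decide +kernel)
theorem L91445 : W_34 (nat_lit 7) (nat_lit 0x28001f0000000200010001000080000000000000000000000000000000) (nat_lit 0x0) (nat_lit 0x5c000c01ae00100000000000000000000000000000000000000000000) := T_34 (nat_lit 190) (nat_lit 191) (nat_lit 0) (nat_lit 7) (nat_lit 12) L91444 (by decide +kernel)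
theorem L91446 : W_34 (nat_lit 8) (nat_lit 0x8001f0000000200010001000080000000000000000000000000000000) (nat_lit 0x0) (nat_lit 0x65c000c01ae00100000000000000000000000000000000000000000000) := T_34 (nat_lit 229) (nat_lit 230) (nat_lit 3) (nat_lit 5) (nat_lit 12) L91445 (by decide +kernel)
theorem L91447 : W_34 (nat_lit 2) (nat_lit 0x100000002c001f8002000200010001000080000000000000000000000000000000) (nat_lit 0x0) (nat_lit 0xe00000000000000000000000000000000000000000000000) := D_34 (nat_lit 190) (nat_lit 191) (nat_lit 189) (nat_lit 0) (nat_lit 7) (nat_lit 12) (nat_lit 0) (nat_lit 6) (nat_lit 12) (by decide +kernel)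
theorem L91448 : W_34 (nat_lit 3) (nat_lit 0x100000002c001f0002000200010001000080000000000000000000000000000000) (nat_lit 0x0) (nat_lit 0xc000e00000000000000000000000000000000000000000000000) := T_34 (nat_lit 207) (nat_lit 206) (nat_lit 3) (nat_lit 2) (nat_lit 12) L91447 (by decide +kernel)
theorem L91449 : W_34 (nat_lit 4) (nat_lit 0x2c001f0002000200010001000080000000000000000000000000000000) (nat_lit 0x0) (nat_lit 0x10000800000000c000e00000000000000000000000000000000000000000000000) := T_34 (nat_lit 260) (nat_lit 243) (nat_lit 6) (nat_lit 5) (nat_lit 15) L91448 (by decide +kernel)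
theorem L91450 : W_34 (nat_lit 5) (nat_lit 0xc001f0002000200010001000080000000000000000000000000000000) (nat_lit 0x0) (nat_lit 0x10000800600000c000e00000000000000000000000000000000000000000000000) := T_34 (nat_lit 229) (nat_lit 230) (nat_lit 3) (nat_lit 5) (nat_lit 12) L91449 (by decide +kernel)
theorem L91451 : W_34 (nat_lit 6) (nat_lit 0x8001f0002000200010001000080000000000000000000000000000000) (nat_lit 0x0) (nat_lit 0x10000800660000c000e00000000000000000000000000000000000000000000000) := T_34 (nat_lit 226) (nat_lit 225) (nat_lit 1) (nat_lit 8) (nat_lit 12) L91450 (by decide +kernel)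
theorem L91452 : W_34 (nat_lit 7) (nat_lit 0x8001f0000000200010001000080000000000000000000000000000000) (nat_lit 0x0) (nat_lit 0x10000800660000c002e00100000000000000000000000000000000000000000000) := T_34 (nat_lit 193) (nat_lit 176) (nat_lit 6) (nat_lit 6) (nat_lit 13) L91451 (by decide +kernel)
theorem L91453 : W_34 (nat_lit 9) (nat_lit 0x8001e0000000200010001000080000000000000000000000000000000) (nat_lit 0x0) (nat_lit 0x1000080067c001c01ae00100000000000000000000000000000000000000000000) := Q_34 (nat_lit 208) (C_34 L91434 (C_34 L91439 (C_34 L91446 (C_34 L91452 N_34)))) (by decide +kernel)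
theorem L91454 : W_34 (nat_lit 2) (nat_lit 0x38000a001e000b000200010001000080000000000000000000000000000000) (nat_lit 0x0) (nat_lit 0x4000100010000000000000000000000000000000000000000000000000000) := D_34 (nat_lit 224) (nat_lit 208) (nat_lit 242) (nat_lit 1) (nat_lit 7) (nat_lit 12) (nat_lit 0) (nat_lit 7) (nat_lit 14) (by decide +kernel)
theorem L91455 : W_34 (nat_lit 3) (nat_lit 0x380008001e000b000200010001000080000000000000000000000000000000) (nat_lit 0x0) (nat_lit 0x4000700010000000000000000000000000000000000000000000000000000) := T_34 (nat_lit 225) (nat_lit 226) (nat_lit 1) (nat_lit 8) (nat_lit 12) L91454 (by decide +kernel)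
theorem L91456 : W_34 (nat_lit 4) (nat_lit 0x300008001e000b000200010001000080000000000000000000000000000000) (nat_lit 0x0) (nat_lit 0x10000c000700010000000000000000000000000000000000000000000000000000) := T_34 (nat_lit 243) (nat_lit 260) (nat_lit 5) (nat_lit 6) (nat_lit 11) L91455 (by decide +kernel)
theorem L91457 : W_34 (nat_lit 5) (nat_lit 0x100008001e000b000200010001000080000000000000000000000000000000) (nat_lit 0x0) (nat_lit 0x50002c000700010000000000000000000000000000000000000000000000000000) := T_34 (nat_lit 245) (nat_lit 262) (nat_lit 7) (nat_lit 6) (nat_lit 11) L91456 (by decide +kernel)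
theorem L91458 : W_34 (nat_lit 6) (nat_lit 0x100008001e0003000200010001000080000000000000000000000000000000) (nat_lit 0x0) (nat_lit 0x50002c000700010018000000000000000000000000000000000000000000000000) := T_34 (nat_lit 195) (nat_lit 196) (nat_lit 2) (nat_lit 5) (nat_lit 12) L91457 (by decide +kernel)
theorem L91459 : W_34 (nat_lit 7) (nat_lit 0x8001e0003000200010001000080000000000000000000000000000000) (nat_lit 0x0) (nat_lit 0x70003c000700010018000000000000000000000000000000000000000000000000) := T_34 (nat_lit 244) (nat_lit 261) (nat_lit 4) (nat_lit 6) (nat_lit 15) L91458 (by decide +kernel)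
theorem L91460 : W_34 (nat_lit 8) (nat_lit 0x8001e0001000200010001000080000000000000000000000000000000) (nat_lit 0x0) (nat_lit 0x70003c00070001001a000100000000000000000000000000000000000000000000) := T_34 (nat_lit 193) (nat_lit 176) (nat_lit 6) (nat_lit 6) (nat_lit 13) L91459 (by decide +kernel)
theorem L91461 : W_34 (nat_lit 2) (nat_lit 0xc001e0001000300010001000080000000000000000000000000000000) (nat_lit 0x0) (nat_lit 0x8000c000000000000000000000000000000000000000) := D_34 (nat_lit 175) (nat_lit 159) (nat_lit 158) (nat_lit 6) (nat_lit 5) (nat_lit 13) (nat_lit 7) (nat_lit 5) (nat_lit 9) (by decide +kernel)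
theorem L91462 : W_34 (nat_lit 3) (nat_lit 0xc001e0001000200010001000080000000000000000000000000000000) (nat_lit 0x0) (nat_lit 0x200018000c000000000000000000000000000000000000000) := T_34 (nat_lit 176) (nat_lit 193) (nat_lit 6) (nat_lit 6) (nat_lit 13) L91461 (by decide +kernel)
theorem L91463 : W_34 (nat_lit 4) (nat_lit 0x8001e0001000200010001000080000000000000000000000000000000) (nat_lit 0x0) (nat_lit 0x60000000200018000c000000000000000000000000000000000000000) := T_34 (nat_lit 226) (nat_lit 225) (nat_lit 1) (nat_lit 8) (nat_lit 12) L91462 (by decide +kernel)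
theorem L91464 : W_34 (nat_lit 2) (nat_lit 0x200000002c001e00090002c0010001000080000000000000000000000000000000) (nat_lit 0x0) (nat_lit 0x100028000000000000000000000000000000000000000) := D_34 (nat_lit 176) (nat_lit 161) (nat_lit 159) (nat_lit 2) (nat_lit 4) (nat_lit 10) (nat_lit 6) (nat_lit 5) (nat_lit 13) (by decide +kernel)
theorem L91465 : W_34 (nat_lit 3) (nat_lit 0x200000002c001e0009000280010001000080000000000000000000000000000000) (nat_lit 0x0) (nat_lit 0x14002a000000000000000000000000000000000000000) := T_34 (nat_lit 174) (nat_lit 157) (nat_lit 4) (nat_lit 5) (nat_lit 13) L91464 (by decide +kernel)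
theorem L91466 : W_34 (nat_lit 4) (nat_lit 0x200000000c001e0009000280010001000080000000000000000000000000000000) (nat_lit 0x0) (nat_lit 0x600000000000014002a000000000000000000000000000000000000000) := T_34 (nat_lit 229) (nat_lit 230) (nat_lit 3) (nat_lit 5) (nat_lit 12) L91465 (by decide +kernel)
theorem L91467 : W_34 (nat_lit 5) (nat_lit 0x200000000c001e0009000200010001000080000000000000000000000000000000) (nat_lit 0x0) (nat_lit 0x60000000000001c002e000000000000000000000000000000000000000) := T_34 (nat_lit 175) (nat_lit 158) (nat_lit 7) (nat_lit 5) (nat_lit 9) L91466 (by decide +kernel)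
theorem L91468 : W_34 (nat_lit 6) (nat_lit 0x200000000c001e0001000200010001000080000000000000000000000000000000) (nat_lit 0x0) (nat_lit 0x60000000180001c002e000000000000000000000000000000000000000) := T_34 (nat_lit 195) (nat_lit 196) (nat_lit 2) (nat_lit 5) (nat_lit 12) L91467 (by decide +kernel)
theorem L91469 : W_34 (nat_lit 7) (nat_lit 0x2000000008001e0001000200010001000080000000000000000000000000000000) (nat_lit 0x0) (nat_lit 0x66000000180001c002e000000000000000000000000000000000000000) := T_34 (nat_lit 226) (nat_lit 225) (nat_lit 1) (nat_lit 8) (nat_lit 12) L91468 (by decide +kernel)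
theorem L91470 : W_34 (nat_lit 8) (nat_lit 0x8001e0001000200010001000080000000000000000000000000000000) (nat_lit 0x0) (nat_lit 0x2000100066000000180001c002e000000000000000000000000000000000000000) := T_34 (nat_lit 261) (nat_lit 244) (nat_lit 4) (nat_lit 6) (nat_lit 15) L91469 (by decide +kernel)
theorem L91471 : W_34 (nat_lit 2) (nat_lit 0x100028001e0001000200010001000080000000000000000000000000000000) (nat_lit 0x0) (nat_lit 0x2000080004000000000000000000000000000000000000000) := D_34 (nat_lit 175) (nat_lit 158) (nat_lit 193) (nat_lit 7) (nat_lit 5) (nat_lit 9) (nat_lit 4) (nat_lit 6) (nat_lit 14) (by decide +kernel)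
theorem L91472 : W_34 (nat_lit 3) (nat_lit 0x28001e0001000200010001000080000000000000000000000000000000) (nat_lit 0x0) (nat_lit 0x200010000000000002000080004000000000000000000000000000000000000000) := T_34 (nat_lit 244) (nat_lit 261) (nat_lit 4) (nat_lit 6) (nat_lit 15) L91471 (by decide +kernel)
theorem L91473 : W_34 (nat_lit 4) (nat_lit 0x8001e0001000200010001000080000000000000000000000000000000) (nat_lit 0x0) (nat_lit 0x200010006000000002000080004000000000000000000000000000000000000000) := T_34 (nat_lit 229) (nat_lit 230) (nat_lit 3) (nat_lit 5) (nat_lit 12) L91472 (by decide +kernel)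
theorem L91474 : W_34 (nat_lit 9) (nat_lit 0x8001e0000000200010001000080000000000000000000000000000000) (nat_lit 0x0) (nat_lit 0x70003c00670001001b0001c002e000000000000000000000000000000000000000) := Q_34 (nat_lit 192) (C_34 L91460 (C_34 L91463 (C_34 L91470 (C_34 L91473 N_34)))) (by decide +kernel)
theorem L91475 : W_34 (nat_lit 2) (nat_lit 0x28001e000b000200010001000080000000000000000000000000000000) (nat_lit 0x0) (nat_lit 0x10000000000000000080004000000000000000000000000000000000000000) := D_34 (nat_lit 175) (nat_lit 158) (nat_lit 244) (nat_lit 7) (nat_lit 5) (nat_lit 9) (nat_lit 4) (nat_lit 6) (nat_lit 14) (by decide +kernel)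
theorem L91476 : W_34 (nat_lit 3) (nat_lit 0x28001e000a000200010001000080000000000000000000000000000000) (nat_lit 0x0) (nat_lit 0x10000000000001800080004000000000000000000000000000000000000000) := T_34 (nat_lit 192) (nat_lit 191) (nat_lit 0) (nat_lit 8) (nat_lit 12) L91475 (by decide +kernel)
theorem L91477 : W_34 (nat_lit 4) (nat_lit 0x28001e0002000200010001000080000000000000000000000000000000) (nat_lit 0x0) (nat_lit 0x10000000000019800080004000000000000000000000000000000000000000) := T_34 (nat_lit 195) (nat_lit 196) (nat_lit 2) (nat_lit 5) (nat_lit 12) L91476 (by decide +kernel)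
theorem L91478 : W_34 (nat_lit 5) (nat_lit 0x28001e0000000200010001000080000000000000000000000000000000) (nat_lit 0x0) (nat_lit 0x1000000000001b800180004000000000000000000000000000000000000000) := T_34 (nat_lit 193) (nat_lit 176) (nat_lit 6) (nat_lit 6) (nat_lit 13) L91477 (by decide +kernel)
theorem L91479 : W_34 (nat_lit 6) (nat_lit 0x8001e0000000200010001000080000000000000000000000000000000) (nat_lit 0x0) (nat_lit 0x1000600000001b800180004000000000000000000000000000000000000000) := T_34 (nat_lit 229) (nat_lit 230) (nat_lit 3) (nat_lit 5) (nat_lit 12) L91478 (by decide +kernel)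
theorem L91480 : W_34 (nat_lit 11) (nat_lit 0x8001c0000000200010001000080000000000000000000000000000000) (nat_lit 0x0) (nat_lit 0x70003c0067c003c01be001c002e000000000000000000000000000000000000000) := Q_34 (nat_lit 209) (C_34 L91420 (C_34 L91429 (C_34 L91433 (C_34 L91453 (C_34 L91474 (C_34 L91479 N_34)))))) (by decide +kernel)
theorem L91481 : W_34 (nat_lit 2) (nat_lit 0x8003e0012000200010001000080000000000000000000000000000000) (nat_lit 0x0) (nat_lit 0xe000000000000000000000000000000000000000000000000000000000) := D_34 (nat_lit 230) (nat_lit 231) (nat_lit 229) (nat_lit 3) (nat_lit 6) (nat_lit 12) (nat_lit 3) (nat_lit 5) (nat_lit 12) (by decide +kernel)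
theorem L91482 : W_34 (nat_lit 3) (nat_lit 0x8003c0012000200010001000080000000000000000000000000000000) (nat_lit 0x0) (nat_lit 0xe000020008000000000000000000000000000000000000000000000000) := T_34 (nat_lit 209) (nat_lit 195) (nat_lit 2) (nat_lit 5) (nat_lit 12) L91481 (by decide +kernel)
theorem L91483 : W_34 (nat_lit 4) (nat_lit 0x8003c0002000200010001000080000000000000000000000000000000) (nat_lit 0x0) (nat_lit 0xe000020038000000000000000000000000000000000000000000000000) := T_34 (nat_lit 196) (nat_lit 197) (nat_lit 2) (nat_lit 6) (nat_lit 12) L91482 (by decide +kernel)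
theorem L91484 : W_34 (nat_lit 5) (nat_lit 0x8001c0002000200010001000080000000000000000000000000000000) (nat_lit 0x0) (nat_lit 0xe000220039000000000000000000000000000000000000000000000000) := T_34 (nat_lit 213) (nat_lit 192) (nat_lit 0) (nat_lit 9) (nat_lit 12) L91483 (by decide +kernel)
theorem L91485 : W_34 (nat_lit 6) (nat_lit 0x8001c0000000200010001000080000000000000000000000000000000) (nat_lit 0x0) (nat_lit 0xe00022003b000100000000000000000000000000000000000000000000) := T_34 (nat_lit 193) (nat_lit 176) (nat_lit 6) (nat_lit 6) (nat_lit 13) L91484 (by decide +kernel)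
theorem L91486 : W_34 (nat_lit 12) (nat_lit 0x8000c0000000200010001000080000000000000000000000000000000) (nat_lit 0x0) (nat_lit 0x70003c00e7c033c03be001c002e000000000000000000000000000000000000000) := Q_34 (nat_lit 212) (C_34 L91411 (C_34 L91415 (C_34 L91480 (C_34 L91485 N_34)))) (by decide +kernel)
theorem L91487 : W_34 (nat_lit 4) (nat_lit 0x100000002c001e0002000200010001000080000000000000000000000000000000) (nat_lit 0x0) (nat_lit 0x100001c000e00000000000000000000000000000000000000000000000) := T_34 (nat_lit 208) (nat_lit 228) (nat_lit 3) (nat_lit 4) (nat_lit 12) L91448 (by decide +kernel)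
theorem L91488 : W_34 (nat_lit 5) (nat_lit 0x100000000c001e0002000200010001000080000000000000000000000000000000) (nat_lit 0x0) (nat_lit 0x700001c000e00000000000000000000000000000000000000000000000) := T_34 (nat_lit 229) (nat_lit 230) (nat_lit 3) (nat_lit 5) (nat_lit 12) L91487 (by decide +kernel)
theorem L91489 : W_34 (nat_lit 6) (nat_lit 0xc001e0002000200010001000080000000000000000000000000000000) (nat_lit 0x0) (nat_lit 0x10000800700001c000e00000000000000000000000000000000000000000000000) := T_34 (nat_lit 260) (nat_lit 243) (nat_lit 6) (nat_lit 5) (nat_lit 15) L91488 (by decide +kernel)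
theorem L91490 : W_34 (nat_lit 7) (nat_lit 0xc001e0000000200010001000080000000000000000000000000000000) (nat_lit 0x0) (nat_lit 0x10000800700001c002e00100000000000000000000000000000000000000000000) := T_34 (nat_lit 193) (nat_lit 176) (nat_lit 6) (nat_lit 6) (nat_lit 13) L91489 (by decide +kernel)
theorem L91491 : W_34 (nat_lit 8) (nat_lit 0xc000e0000000200010001000080000000000000000000000000000000) (nat_lit 0x0) (nat_lit 0x10000800700031c002e00100000000000000000000000000000000000000000000) := T_34 (nat_lit 212) (nat_lit 213) (nat_lit 1) (nat_lit 9) (nat_lit 12) L91490 (by decide +kernel)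
theorem L91492 : W_34 (nat_lit 2) (nat_lit 0x500040003c001e0002000200010001000080000000000000000000000000000000) (nat_lit 0x0) (nat_lit 0x18000800000000000000000000000000000000000000000000000000000000000000000) := D_34 (nat_lit 263) (nat_lit 280) (nat_lit 279) (nat_lit 4) (nat_lit 8) (nat_lit 16) (nat_lit 5) (nat_lit 8) (nat_lit 12) (by decide +kernel)
theorem L91493 : W_34 (nat_lit 3) (nat_lit 0x500000003c001e0002000200010001000080000000000000000000000000000000) (nat_lit 0x0) (nat_lit 0x180008000c0000000000000000000000000000000000000000000000000000000000000) := T_34 (nat_lit 246) (nat_lit 247) (nat_lit 3) (nat_lit 5) (nat_lit 13) L91492 (by decide +kernel)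
theorem L91494 : W_34 (nat_lit 4) (nat_lit 0x100000003c001e0002000200010001000080000000000000000000000000000000) (nat_lit 0x0) (nat_lit 0x18000c000e0000000000000000000000000000000000000000000000000000000000000) := T_34 (nat_lit 262) (nat_lit 245) (nat_lit 4) (nat_lit 7) (nat_lit 15) L91493 (by decide +kernel)
theorem L91495 : W_34 (nat_lit 5) (nat_lit 0x100000002c001e0002000200010001000080000000000000000000000000000000) (nat_lit 0x0) (nat_lit 0x18000c000e0001000010000000000000000000000000000000000000000000000000000) := T_34 (nat_lit 228) (nat_lit 208) (nat_lit 3) (nat_lit 4) (nat_lit 12) L91494 (by decide +kernel)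
theorem L91496 : W_34 (nat_lit 6) (nat_lit 0x100000000c001e0002000200010001000080000000000000000000000000000000) (nat_lit 0x0) (nat_lit 0x18000c000e0007000010000000000000000000000000000000000000000000000000000) := T_34 (nat_lit 229) (nat_lit 230) (nat_lit 3) (nat_lit 5) (nat_lit 12) L91495 (by decide +kernel)
theorem L91497 : W_34 (nat_lit 7) (nat_lit 0xc001e0002000200010001000080000000000000000000000000000000) (nat_lit 0x0) (nat_lit 0x18000d000e8007000010000000000000000000000000000000000000000000000000000) := T_34 (nat_lit 260) (nat_lit 243) (nat_lit 6) (nat_lit 5) (nat_lit 15) L91496 (by decide +kernel)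
theorem L91498 : W_34 (nat_lit 8) (nat_lit 0xc001e0000000200010001000080000000000000000000000000000000) (nat_lit 0x0) (nat_lit 0x18000d000e8007000010002000100000000000000000000000000000000000000000000) := T_34 (nat_lit 193) (nat_lit 176) (nat_lit 6) (nat_lit 6) (nat_lit 13) L91497 (by decide +kernel)
theorem L91499 : W_34 (nat_lit 9) (nat_lit 0xc000e0000000200010001000080000000000000000000000000000000) (nat_lit 0x0) (nat_lit 0x18000d000e8007000310002000100000000000000000000000000000000000000000000) := T_34 (nat_lit 212) (nat_lit 213) (nat_lit 1) (nat_lit 9) (nat_lit 12) L91498 (by decide +kernel)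
theorem L91500 : W_34 (nat_lit 10) (nat_lit 0xc000c0000000200010001000080000000000000000000000000000000) (nat_lit 0x0) (nat_lit 0x18000f000f800700033c003e001c0006000000000000000000000000000000000000000) := Q_34 (nat_lit 209) (C_34 L91302 (C_34 L91399 (C_34 L91294 (C_34 L91491 (C_34 L91499 N_34))))) (by decide +kernel)
theorem L91501 : W_34 (nat_lit 12) (nat_lit 0x8000c0000000200010001000080000000000000000000000000000000) (nat_lit 0x0) (nat_lit 0x1e000f800ff00778033c003e001e002e000000000000000000000000000000000000000) := Q_34 (nat_lit 226) (C_34 L91299 (C_34 L91407 (C_34 L91500 N_34))) (by decide +kernel)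
theorem L91502 : W_34 (nat_lit 2) (nat_lit 0x24003e000c0000000200010001000080000000000000000000000000000000) (nat_lit 0x0) (nat_lit 0xc000020000000000000000000000000000000000000000000000000000) := D_34 (nat_lit 230) (nat_lit 231) (nat_lit 209) (nat_lit 0) (nat_lit 10) (nat_lit 13) (nat_lit 0) (nat_lit 9) (nat_lit 13) (by decide +kernel)
theorem L91503 : W_34 (nat_lit 3) (nat_lit 0x24001e000c0000000200010001000080000000000000000000000000000000) (nat_lit 0x0) (nat_lit 0x800e000020000000000000000000000000000000000000000000000000000) := T_34 (nat_lit 229) (nat_lit 243) (nat_lit 1) (nat_lit 8) (nat_lit 13) L91502 (by decide +kernel)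
theorem L91504 : W_34 (nat_lit 4) (nat_lit 0x4001e000c0000000200010001000080000000000000000000000000000000) (nat_lit 0x0) (nat_lit 0x6800e000020000000000000000000000000000000000000000000000000000) := T_34 (nat_lit 245) (nat_lit 246) (nat_lit 3) (nat_lit 4) (nat_lit 13) L91503 (by decide +kernel)
theorem L91505 : W_34 (nat_lit 5) (nat_lit 0x1e000c0000000200010001000080000000000000000000000000000000) (nat_lit 0x0) (nat_lit 0x6e00e000020000000000000000000000000000000000000000000000000000) := T_34 (nat_lit 242) (nat_lit 241) (nat_lit 1) (nat_lit 7) (nat_lit 13) L91504 (by decide +kernel)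
theorem L91506 : W_34 (nat_lit 6) (nat_lit 0x1c000c0000000200010001000080000000000000000000000000000000) (nat_lit 0x0) (nat_lit 0x6e00e300020000000000000000000000000000000000000000000000000000) := T_34 (nat_lit 225) (nat_lit 224) (nat_lit 2) (nat_lit 3) (nat_lit 13) L91505 (by decide +kernel)
theorem L91507 : W_34 (nat_lit 2) (nat_lit 0x1e000c0002000200010001000080000000000000000000000000000000) (nat_lit 0x0) (nat_lit 0x400060000000000000000000000000000000000000000000000000000000000000) := D_34 (nat_lit 245) (nat_lit 262) (nat_lit 246) (nat_lit 4) (nat_lit 7) (nat_lit 15) (nat_lit 3) (nat_lit 4) (nat_lit 13) (by decide +kernel)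
theorem L91508 : W_34 (nat_lit 3) (nat_lit 0x1e000c0000000200010001000080000000000000000000000000000000) (nat_lit 0x0) (nat_lit 0x400060000000000002000100000000000000000000000000000000000000000000) := T_34 (nat_lit 193) (nat_lit 176) (nat_lit 6) (nat_lit 6) (nat_lit 13) L91507 (by decide +kernel)
theorem L91509 : W_34 (nat_lit 4) (nat_lit 0x1c000c0000000200010001000080000000000000000000000000000000) (nat_lit 0x0) (nat_lit 0x400060000300000002000100000000000000000000000000000000000000000000) := T_34 (nat_lit 225) (nat_lit 224) (nat_lit 2) (nat_lit 3) (nat_lit 13) L91508 (by decide +kernel)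
theorem L91510 : W_34 (nat_lit 2) (nat_lit 0x4001e000d0002000200010001000080000000000000000000000000000000) (nat_lit 0x0) (nat_lit 0x8002000020000000000000000000000000000000000000000000000000000) := D_34 (nat_lit 229) (nat_lit 243) (nat_lit 209) (nat_lit 1) (nat_lit 8) (nat_lit 13) (nat_lit 3) (nat_lit 4) (nat_lit 12) (by decide +kernel)
theorem L91511 : W_34 (nat_lit 3) (nat_lit 0x4001e000c0002000200010001000080000000000000000000000000000000) (nat_lit 0x0) (nat_lit 0x8002000038000000000000000000000000000000000000000000000000000) := T_34 (nat_lit 208) (nat_lit 207) (nat_lit 0) (nat_lit 7) (nat_lit 13) L91510 (by decide +kernel)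
theorem L91512 : W_34 (nat_lit 4) (nat_lit 0x1e000c0002000200010001000080000000000000000000000000000000) (nat_lit 0x0) (nat_lit 0xe002000038000000000000000000000000000000000000000000000000000) := T_34 (nat_lit 242) (nat_lit 241) (nat_lit 1) (nat_lit 7) (nat_lit 13) L91511 (by decide +kernel)
theorem L91513 : W_34 (nat_lit 5) (nat_lit 0x1c000c0002000200010001000080000000000000000000000000000000) (nat_lit 0x0) (nat_lit 0xe002300038000000000000000000000000000000000000000000000000000) := T_34 (nat_lit 225) (nat_lit 224) (nat_lit 2) (nat_lit 3) (nat_lit 13) L91512 (by decide +kernel)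
theorem L91514 : W_34 (nat_lit 6) (nat_lit 0x1c000c0000000200010001000080000000000000000000000000000000) (nat_lit 0x0) (nat_lit 0xe002300038002000100000000000000000000000000000000000000000000) := T_34 (nat_lit 193) (nat_lit 176) (nat_lit 6) (nat_lit 6) (nat_lit 13) L91513 (by decide +kernel)
theorem L91515 : W_34 (nat_lit 2) (nat_lit 0x3c000c0000000200010001000080000000000000000000000000000000) (nat_lit 0x0) (nat_lit 0x4000030000000000000000000000000000000000000000000000000000) := D_34 (nat_lit 209) (nat_lit 208) (nat_lit 230) (nat_lit 3) (nat_lit 4) (nat_lit 12) (nat_lit 0) (nat_lit 9) (nat_lit 13) (by decide +kernel)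
theorem L91516 : W_34 (nat_lit 2) (nat_lit 0x40000800bc000c0002000200010001000080000000000000000000000000000000) (nat_lit 0x0) (nat_lit 0x2000100010000000000000000000000000000000000000000000000000000000000000) := D_34 (nat_lit 260) (nat_lit 244) (nat_lit 277) (nat_lit 5) (nat_lit 6) (nat_lit 11) (nat_lit 6) (nat_lit 5) (nat_lit 16) (by decide +kernel)
theorem L91517 : W_34 (nat_lit 3) (nat_lit 0x40000000bc000c0002000200010001000080000000000000000000000000000000) (nat_lit 0x0) (nat_lit 0x200010001c000000000000000000000000000000000000000000000000000000000000) := T_34 (nat_lit 243) (nat_lit 242) (nat_lit 1) (nat_lit 8) (nat_lit 13) L91516 (by decide +kernel)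
theorem L91518 : W_34 (nat_lit 4) (nat_lit 0x400000003c000c0002000200010001000080000000000000000000000000000000) (nat_lit 0x0) (nat_lit 0x200010001c00c000000000000000000000000000000000000000000000000000000000) := T_34 (nat_lit 231) (nat_lit 230) (nat_lit 0) (nat_lit 10) (nat_lit 13) L91517 (by decide +kernel)
theorem L91519 : W_34 (nat_lit 5) (nat_lit 0x3c000c0002000200010001000080000000000000000000000000000000) (nat_lit 0x0) (nat_lit 0x200050003c00c000000000000000000000000000000000000000000000000000000000) := T_34 (nat_lit 262) (nat_lit 245) (nat_lit 4) (nat_lit 7) (nat_lit 15) L91518 (by decide +kernel)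
theorem L91520 : W_34 (nat_lit 6) (nat_lit 0x3c000c0000000200010001000080000000000000000000000000000000) (nat_lit 0x0) (nat_lit 0x200050003c00c000000002000100000000000000000000000000000000000000000000) := T_34 (nat_lit 193) (nat_lit 176) (nat_lit 6) (nat_lit 6) (nat_lit 13) L91519 (by decide +kernel)
theorem L91521 : W_34 (nat_lit 8) (nat_lit 0x40003c000c0000000200010001000080000000000000000000000000000000) (nat_lit 0x0) (nat_lit 0x17000f8003c000000030000000000000000000000000000000000000000000000000000) := T_34 (nat_lit 209) (nat_lit 208) (nat_lit 3) (nat_lit 4) (nat_lit 12) L91334 (by decide +kernel)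
theorem L91522 : W_34 (nat_lit 9) (nat_lit 0x3c000c0000000200010001000080000000000000000000000000000000) (nat_lit 0x0) (nat_lit 0x17000f800fc000000030000000000000000000000000000000000000000000000000000) := T_34 (nat_lit 246) (nat_lit 247) (nat_lit 3) (nat_lit 5) (nat_lit 13) L91521 (by decide +kernel)
theorem L91523 : W_34 (nat_lit 10) (nat_lit 0x1c000c0000000200010001000080000000000000000000000000000000) (nat_lit 0x0) (nat_lit 0x17000f800fc00e000030002000100000000000000000000000000000000000000000000) := Q_34 (nat_lit 229) (C_34 L91515 (C_34 L91520 (C_34 L91522 N_34))) (by decide +kernel)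
theorem L91524 : W_34 (nat_lit 11) (nat_lit 0xc000c0000000200010001000080000000000000000000000000000000) (nat_lit 0x0) (nat_lit 0x17000f800fe00f300038002000100000000000000000000000000000000000000000000) := Q_34 (nat_lit 228) (C_34 L91506 (C_34 L91509 (C_34 L91514 (C_34 L91523 N_34)))) (by decide +kernel)
theorem L91525 : W_34 (nat_lit 2) (nat_lit 0x2c001f0000000200010001000080000000000000000000000000000000) (nat_lit 0x0) (nat_lit 0x1c00000000000000000000000000000000000000000000000) := D_34 (nat_lit 191) (nat_lit 192) (nat_lit 190) (nat_lit 0) (nat_lit 8) (nat_lit 12) (nat_lit 0) (nat_lit 7) (nat_lit 12) (by decide +kernel)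
theorem L91526 : W_34 (nat_lit 3) (nat_lit 0x2c001e0000000200010001000080000000000000000000000000000000) (nat_lit 0x0) (nat_lit 0x1000010001c00000000000000000000000000000000000000000000000) := T_34 (nat_lit 208) (nat_lit 228) (nat_lit 3) (nat_lit 4) (nat_lit 12) L91525 (by decide +kernel)
theorem L91527 : W_34 (nat_lit 4) (nat_lit 0x2c001c0000000200010001000080000000000000000000000000000000) (nat_lit 0x0) (nat_lit 0x5000030001c00000000000000000000000000000000000000000000000) := T_34 (nat_lit 209) (nat_lit 230) (nat_lit 3) (nat_lit 5) (nat_lit 12) L91526 (by decide +kernel)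
theorem L91528 : W_34 (nat_lit 5) (nat_lit 0x2c000c0000000200010001000080000000000000000000000000000000) (nat_lit 0x0) (nat_lit 0x5000330001c00000000000000000000000000000000000000000000000) := T_34 (nat_lit 212) (nat_lit 213) (nat_lit 1) (nat_lit 9) (nat_lit 12) L91527 (by decide +kernel)
theorem L91529 : W_34 (nat_lit 2) (nat_lit 0x3c002c0000000200010001000080000000000000000000000000000000) (nat_lit 0x0) (nat_lit 0xc000400000000000000000000000000000000000000000000000000000) := D_34 (nat_lit 230) (nat_lit 231) (nat_lit 214) (nat_lit 0) (nat_lit 10) (nat_lit 13) (nat_lit 2) (nat_lit 6) (nat_lit 13) (by decide +kernel)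
theorem L91530 : W_34 (nat_lit 3) (nat_lit 0x3c000c0000000200010001000080000000000000000000000000000000) (nat_lit 0x0) (nat_lit 0xc000700000000000000000000000000000000000000000000000000000) := T_34 (nat_lit 213) (nat_lit 212) (nat_lit 2) (nat_lit 5) (nat_lit 13) L91529 (by decide +kernel)
theorem L91531 : W_34 (nat_lit 2) (nat_lit 0x10000000048003c002c0002000200010001000080000000000000000000000000000000) (nat_lit 0x0) (nat_lit 0x2000100010000000000000000000000000000000000000000000000000000000000000) := D_34 (nat_lit 260) (nat_lit 244) (nat_lit 277) (nat_lit 5) (nat_lit 6) (nat_lit 11) (nat_lit 6) (nat_lit 5) (nat_lit 16) (by decide +kernel)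
theorem L91532 : W_34 (nat_lit 3) (nat_lit 0x10000000048003c002c0000000200010001000080000000000000000000000000000000) (nat_lit 0x0) (nat_lit 0x2000100010000000000002000100000000000000000000000000000000000000000000) := T_34 (nat_lit 193) (nat_lit 176) (nat_lit 6) (nat_lit 6) (nat_lit 13) L91531 (by decide +kernel)
theorem L91533 : W_34 (nat_lit 4) (nat_lit 0x10000000040003c002c0000000200010001000080000000000000000000000000000000) (nat_lit 0x0) (nat_lit 0x200010001c000000000002000100000000000000000000000000000000000000000000) := T_34 (nat_lit 243) (nat_lit 242) (nat_lit 1) (nat_lit 8) (nat_lit 13) L91532 (by decide +kernel)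
theorem L91534 : W_34 (nat_lit 5) (nat_lit 0x40003c002c0000000200010001000080000000000000000000000000000000) (nat_lit 0x0) (nat_lit 0x1200090001c000000000002000100000000000000000000000000000000000000000000) := T_34 (nat_lit 280) (nat_lit 263) (nat_lit 4) (nat_lit 8) (nat_lit 16) L91533 (by decide +kernel)
theorem L91535 : W_34 (nat_lit 6) (nat_lit 0x40003c000c0000000200010001000080000000000000000000000000000000) (nat_lit 0x0) (nat_lit 0x1200090001c000000300002000100000000000000000000000000000000000000000000) := T_34 (nat_lit 213) (nat_lit 212) (nat_lit 2) (nat_lit 5) (nat_lit 13) L91534 (by decide +kernel)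
theorem L91536 : W_34 (nat_lit 7) (nat_lit 0x3c000c0000000200010001000080000000000000000000000000000000) (nat_lit 0x0) (nat_lit 0x120009000dc000000300002000100000000000000000000000000000000000000000000) := T_34 (nat_lit 246) (nat_lit 247) (nat_lit 3) (nat_lit 5) (nat_lit 13) L91535 (by decide +kernel)
theorem L91537 : W_34 (nat_lit 8) (nat_lit 0x2c000c0000000200010001000080000000000000000000000000000000) (nat_lit 0x0) (nat_lit 0x12000d000fc00d000700002000100000000000000000000000000000000000000000000) := Q_34 (nat_lit 228) (C_34 L91530 (C_34 L91520 (C_34 L91536 N_34))) (by decide +kernel)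
theorem L91538 : W_34 (nat_lit 2) (nat_lit 0x38002c002c0002000200010001000080000000000000000000000000000000) (nat_lit 0x0) (nat_lit 0xc0004000000000000000000000000000000000000000000000000000000000) := D_34 (nat_lit 246) (nat_lit 230) (nat_lit 247) (nat_lit 2) (nat_lit 5) (nat_lit 14) (nat_lit 0) (nat_lit 9) (nat_lit 14) (by decide +kernel)
theorem L91539 : W_34 (nat_lit 3) (nat_lit 0x18002c002c0002000200010001000080000000000000000000000000000000) (nat_lit 0x0) (nat_lit 0x4000e0004000000000000000000000000000000000000000000000000000000000) := T_34 (nat_lit 245) (nat_lit 262) (nat_lit 7) (nat_lit 6) (nat_lit 11) L91538 (by decide +kernel)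
theorem L91540 : W_34 (nat_lit 4) (nat_lit 0x10002c002c0002000200010001000080000000000000000000000000000000) (nat_lit 0x0) (nat_lit 0x5000e8004000000000000000000000000000000000000000000000000000000000) := T_34 (nat_lit 243) (nat_lit 260) (nat_lit 5) (nat_lit 6) (nat_lit 11) L91539 (by decide +kernel)
theorem L91541 : W_34 (nat_lit 5) (nat_lit 0x10002c002c0000000200010001000080000000000000000000000000000000) (nat_lit 0x0) (nat_lit 0x5000e8004000000002000100000000000000000000000000000000000000000000) := T_34 (nat_lit 193) (nat_lit 176) (nat_lit 6) (nat_lit 6) (nat_lit 13) L91540 (by decide +kernel)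
theorem L91542 : W_34 (nat_lit 6) (nat_lit 0x10002c000c0000000200010001000080000000000000000000000000000000) (nat_lit 0x0) (nat_lit 0x5000e8004000300002000100000000000000000000000000000000000000000000) := T_34 (nat_lit 213) (nat_lit 212) (nat_lit 1) (nat_lit 9) (nat_lit 12) L91541 (by decide +kernel)
theorem L91543 : W_34 (nat_lit 2) (nat_lit 0x10002c001e0000000200010001000080000000000000000000000000000000) (nat_lit 0x0) (nat_lit 0x200000000000000001800000000000000000000000000000000000000000000000) := D_34 (nat_lit 192) (nat_lit 191) (nat_lit 261) (nat_lit 0) (nat_lit 8) (nat_lit 12) (nat_lit 4) (nat_lit 6) (nat_lit 15) (by decide +kernel)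
theorem L91544 : W_34 (nat_lit 3) (nat_lit 0x10002c001c0000000200010001000080000000000000000000000000000000) (nat_lit 0x0) (nat_lit 0x200000004000020001800000000000000000000000000000000000000000000000) := T_34 (nat_lit 209) (nat_lit 230) (nat_lit 3) (nat_lit 5) (nat_lit 12) L91543 (by decide +kernel)
theorem L91545 : W_34 (nat_lit 4) (nat_lit 0x10002c000c0000000200010001000080000000000000000000000000000000) (nat_lit 0x0) (nat_lit 0x200000004000320001800000000000000000000000000000000000000000000000) := T_34 (nat_lit 212) (nat_lit 213) (nat_lit 1) (nat_lit 9) (nat_lit 12) L91544 (by decide +kernel)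
theorem L91546 : W_34 (nat_lit 2) (nat_lit 0x38002c000c0002000200010001000080000000000000000000000000000000) (nat_lit 0x0) (nat_lit 0xc0004000000000000000000000000000000000000000000000000000000000) := D_34 (nat_lit 246) (nat_lit 230) (nat_lit 247) (nat_lit 2) (nat_lit 5) (nat_lit 14) (nat_lit 0) (nat_lit 9) (nat_lit 14) (by decide +kernel)
theorem L91547 : W_34 (nat_lit 3) (nat_lit 0x18002c000c0002000200010001000080000000000000000000000000000000) (nat_lit 0x0) (nat_lit 0x4000e0004000000000000000000000000000000000000000000000000000000000) := T_34 (nat_lit 245) (nat_lit 262) (nat_lit 7) (nat_lit 6) (nat_lit 11) L91546 (by decide +kernel)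
theorem L91548 : W_34 (nat_lit 4) (nat_lit 0x10002c000c0002000200010001000080000000000000000000000000000000) (nat_lit 0x0) (nat_lit 0x5000e8004000000000000000000000000000000000000000000000000000000000) := T_34 (nat_lit 243) (nat_lit 260) (nat_lit 5) (nat_lit 6) (nat_lit 11) L91547 (by decide +kernel)
theorem L91549 : W_34 (nat_lit 5) (nat_lit 0x10002c000c0000000200010001000080000000000000000000000000000000) (nat_lit 0x0) (nat_lit 0x5000e8004000000002000100000000000000000000000000000000000000000000) := T_34 (nat_lit 193) (nat_lit 176) (nat_lit 6) (nat_lit 6) (nat_lit 13) L91548 (by decide +kernel)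
theorem L91550 : W_34 (nat_lit 2) (nat_lit 0x600018002c002c0002000200010001000080000000000000000000000000000000) (nat_lit 0x0) (nat_lit 0x4000000000000000020001000000000000000000000000000000000000000000000000) := D_34 (nat_lit 209) (nat_lit 192) (nat_lit 278) (nat_lit 7) (nat_lit 5) (nat_lit 11) (nat_lit 4) (nat_lit 6) (nat_lit 16) (by decide +kernel)
theorem L91551 : W_34 (nat_lit 3) (nat_lit 0x400018002c002c0002000200010001000080000000000000000000000000000000) (nat_lit 0x0) (nat_lit 0xc000200000000000020001000000000000000000000000000000000000000000000000) := T_34 (nat_lit 261) (nat_lit 279) (nat_lit 7) (nat_lit 6) (nat_lit 12) L91550 (by decide +kernel)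
theorem L91552 : W_34 (nat_lit 4) (nat_lit 0x400018002c000c0002000200010001000080000000000000000000000000000000) (nat_lit 0x0) (nat_lit 0xc000200000000000320001000000000000000000000000000000000000000000000000) := T_34 (nat_lit 213) (nat_lit 212) (nat_lit 1) (nat_lit 9) (nat_lit 12) L91551 (by decide +kernel)
theorem L91553 : W_34 (nat_lit 5) (nat_lit 0x18002c000c0002000200010001000080000000000000000000000000000000) (nat_lit 0x0) (nat_lit 0xc000600020000000320001000000000000000000000000000000000000000000000000) := T_34 (nat_lit 262) (nat_lit 245) (nat_lit 7) (nat_lit 6) (nat_lit 11) L91552 (by decide +kernel)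
theorem L91554 : W_34 (nat_lit 6) (nat_lit 0x10002c000c0002000200010001000080000000000000000000000000000000) (nat_lit 0x0) (nat_lit 0xc000700028000000320001000000000000000000000000000000000000000000000000) := T_34 (nat_lit 243) (nat_lit 260) (nat_lit 5) (nat_lit 6) (nat_lit 11) L91553 (by decide +kernel)
theorem L91555 : W_34 (nat_lit 7) (nat_lit 0x10002c000c0000000200010001000080000000000000000000000000000000) (nat_lit 0x0) (nat_lit 0xc000700028000000320003000100000000000000000000000000000000000000000000) := T_34 (nat_lit 193) (nat_lit 176) (nat_lit 6) (nat_lit 6) (nat_lit 13) L91554 (by decide +kernel)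
theorem L91556 : W_34 (nat_lit 8) (nat_lit 0x2c000c0000000200010001000080000000000000000000000000000000) (nat_lit 0x0) (nat_lit 0xc0007000f8004000320003800100000000000000000000000000000000000000000000) := Q_34 (nat_lit 244) (C_34 L91542 (C_34 L91545 (C_34 L91549 (C_34 L91555 N_34)))) (by decide +kernel)
theorem L91557 : W_34 (nat_lit 10) (nat_lit 0x2c000c0000000200010001000080000000000000000000000000000000) (nat_lit 0x0) (nat_lit 0x17000f800fc00d000030002000100000000000000000000000000000000000000000000) := Q_34 (nat_lit 228) (C_34 L91515 (C_34 L91522 (C_34 L91520 N_34))) (by decide +kernel)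
theorem L91558 : W_34 (nat_lit 2) (nat_lit 0x400040003c001d0002000200010001000080000000000000000000000000000000) (nat_lit 0x0) (nat_lit 0x18000800000000000000000000000000000000000000000000000000000000000000000) := D_34 (nat_lit 263) (nat_lit 279) (nat_lit 280) (nat_lit 5) (nat_lit 8) (nat_lit 12) (nat_lit 4) (nat_lit 8) (nat_lit 16) (by decide +kernel)
theorem L91559 : W_34 (nat_lit 3) (nat_lit 0x400040003c000d0002000200010001000080000000000000000000000000000000) (nat_lit 0x0) (nat_lit 0x18000800000000000300000000000000000000000000000000000000000000000000000) := T_34 (nat_lit 212) (nat_lit 213) (nat_lit 2) (nat_lit 5) (nat_lit 13) L91558 (by decide +kernel)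
theorem L91560 : W_34 (nat_lit 4) (nat_lit 0x400040003c000c0002000200010001000080000000000000000000000000000000) (nat_lit 0x0) (nat_lit 0x18000800000000000330000000000000000000000000000000000000000000000000000) := T_34 (nat_lit 208) (nat_lit 209) (nat_lit 3) (nat_lit 4) (nat_lit 12) L91559 (by decide +kernel)
theorem L91561 : W_34 (nat_lit 5) (nat_lit 0x400000003c000c0002000200010001000080000000000000000000000000000000) (nat_lit 0x0) (nat_lit 0x180008000c0000000330000000000000000000000000000000000000000000000000000) := T_34 (nat_lit 246) (nat_lit 247) (nat_lit 3) (nat_lit 5) (nat_lit 13) L91560 (by decide +kernel)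
theorem L91562 : W_34 (nat_lit 6) (nat_lit 0x3c000c0002000200010001000080000000000000000000000000000000) (nat_lit 0x0) (nat_lit 0x18000c000e0000000330000000000000000000000000000000000000000000000000000) := T_34 (nat_lit 262) (nat_lit 245) (nat_lit 4) (nat_lit 7) (nat_lit 15) L91561 (by decide +kernel)
theorem L91563 : W_34 (nat_lit 7) (nat_lit 0x3c000c0000000200010001000080000000000000000000000000000000) (nat_lit 0x0) (nat_lit 0x18000c000e0000000330002000100000000000000000000000000000000000000000000) := T_34 (nat_lit 193) (nat_lit 176) (nat_lit 6) (nat_lit 6) (nat_lit 13) L91562 (by decide +kernel)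
theorem L91564 : W_34 (nat_lit 2) (nat_lit 0x8003c000e0000000200010001000080000000000000000000000000000000) (nat_lit 0x0) (nat_lit 0x2000100000000000000002000000000000000000000000000000000000000000000000) := D_34 (nat_lit 260) (nat_lit 277) (nat_lit 193) (nat_lit 6) (nat_lit 5) (nat_lit 16) (nat_lit 6) (nat_lit 5) (nat_lit 15) (by decide +kernel)
theorem L91565 : W_34 (nat_lit 3) (nat_lit 0x8003c000c0000000200010001000080000000000000000000000000000000) (nat_lit 0x0) (nat_lit 0x2000100000000000030002000000000000000000000000000000000000000000000000) := T_34 (nat_lit 209) (nat_lit 208) (nat_lit 3) (nat_lit 4) (nat_lit 12) L91564 (by decide +kernel)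
theorem L91566 : W_34 (nat_lit 4) (nat_lit 0x3c000c0000000200010001000080000000000000000000000000000000) (nat_lit 0x0) (nat_lit 0x200010000c000000030002000000000000000000000000000000000000000000000000) := T_34 (nat_lit 243) (nat_lit 242) (nat_lit 1) (nat_lit 8) (nat_lit 13) L91565 (by decide +kernel)
theorem L91567 : W_34 (nat_lit 10) (nat_lit 0x2c000c0000000200010001000080000000000000000000000000000000) (nat_lit 0x0) (nat_lit 0x1f000f800fc001000330002000100000000000000000000000000000000000000000000) := Q_34 (nat_lit 228) (C_34 L91563 (C_34 L91522 (C_34 L91536 (C_34 L91566 N_34)))) (by decide +kernel)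
theorem L91568 : W_34 (nat_lit 11) (nat_lit 0xc000c0000000200010001000080000000000000000000000000000000) (nat_lit 0x0) (nat_lit 0x1f000f800fc00f000730003c00100000000000000000000000000000000000000000000) := Q_34 (nat_lit 229) (C_34 L91528 (C_34 L91537 (C_34 L91556 (C_34 L91557 (C_34 L91567 N_34))))) (by decide +kernel)
theorem L91569 : W_34 (nat_lit 12) (nat_lit 0x8000c0000000200010001000080000000000000000000000000000000) (nat_lit 0x0) (nat_lit 0x1f000f800fe00f700738003c00100000000000000000000000000000000000000000000) := Q_34 (nat_lit 226) (C_34 L91299 (C_34 L91524 (C_34 L91297 (C_34 L91568 N_34)))) (by decide +kernel)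
theorem L91570 : W_34 (nat_lit 2) (nat_lit 0x2c001f8000000200010001000080000000000000000000000000000000) (nat_lit 0x0) (nat_lit 0xe00000000000000000000000000000000000000000000000) := D_34 (nat_lit 190) (nat_lit 191) (nat_lit 189) (nat_lit 0) (nat_lit 7) (nat_lit 12) (nat_lit 0) (nat_lit 6) (nat_lit 12) (by decide +kernel)
theorem L91571 : W_34 (nat_lit 3) (nat_lit 0x2c001f0000000200010001000080000000000000000000000000000000) (nat_lit 0x0) (nat_lit 0xc000e00000000000000000000000000000000000000000000000) := T_34 (nat_lit 207) (nat_lit 206) (nat_lit 3) (nat_lit 2) (nat_lit 12) L91570 (by decide +kernel)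
theorem L91572 : W_34 (nat_lit 4) (nat_lit 0x2c001e0000000200010001000080000000000000000000000000000000) (nat_lit 0x0) (nat_lit 0x100001c000e00000000000000000000000000000000000000000000000) := T_34 (nat_lit 208) (nat_lit 228) (nat_lit 3) (nat_lit 4) (nat_lit 12) L91571 (by decide +kernel)
theorem L91573 : W_34 (nat_lit 5) (nat_lit 0x2c001c0000000200010001000080000000000000000000000000000000) (nat_lit 0x0) (nat_lit 0x500003c000e00000000000000000000000000000000000000000000000) := T_34 (nat_lit 209) (nat_lit 230) (nat_lit 3) (nat_lit 5) (nat_lit 12) L91572 (by decide +kernel)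
theorem L91574 : W_34 (nat_lit 6) (nat_lit 0x2c000c0000000200010001000080000000000000000000000000000000) (nat_lit 0x0) (nat_lit 0x500033c000e00000000000000000000000000000000000000000000000) := T_34 (nat_lit 212) (nat_lit 213) (nat_lit 1) (nat_lit 9) (nat_lit 12) L91573 (by decide +kernel)
theorem L91575 : W_34 (nat_lit 2) (nat_lit 0x700050002c001e0008000200010001000080000000000000000000000000000000) (nat_lit 0x0) (nat_lit 0x1800080000000000000000000000000000000000000000000000000000000000000) := D_34 (nat_lit 247) (nat_lit 263) (nat_lit 264) (nat_lit 2) (nat_lit 5) (nat_lit 15) (nat_lit 7) (nat_lit 8) (nat_lit 11) (by decide +kernel)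
theorem L91576 : W_34 (nat_lit 3) (nat_lit 0x700010002c001e0008000200010001000080000000000000000000000000000000) (nat_lit 0x0) (nat_lit 0x18000e0000000000000000000000000000000000000000000000000000000000000) := T_34 (nat_lit 246) (nat_lit 245) (nat_lit 5) (nat_lit 8) (nat_lit 11) L91575 (by decide +kernel)
theorem L91577 : W_34 (nat_lit 4) (nat_lit 0x300010002c001e0008000200010001000080000000000000000000000000000000) (nat_lit 0x0) (nat_lit 0x8001c000e0000000000000000000000000000000000000000000000000000000000000) := T_34 (nat_lit 262) (nat_lit 279) (nat_lit 7) (nat_lit 6) (nat_lit 12) L91576 (by decide +kernel)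
theorem L91578 : W_34 (nat_lit 5) (nat_lit 0x200010002c001e0008000200010001000080000000000000000000000000000000) (nat_lit 0x0) (nat_lit 0xa001d000e0000000000000000000000000000000000000000000000000000000000000) := T_34 (nat_lit 260) (nat_lit 277) (nat_lit 5) (nat_lit 6) (nat_lit 12) L91577 (by decide +kernel)
theorem L91579 : W_34 (nat_lit 6) (nat_lit 0x10002c001e0008000200010001000080000000000000000000000000000000) (nat_lit 0x0) (nat_lit 0xe001f000e0000000000000000000000000000000000000000000000000000000000000) := T_34 (nat_lit 261) (nat_lit 278) (nat_lit 4) (nat_lit 6) (nat_lit 16) L91578 (by decide +kernel)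
theorem L91580 : W_34 (nat_lit 7) (nat_lit 0x10002c001e0000000200010001000080000000000000000000000000000000) (nat_lit 0x0) (nat_lit 0xe001f000e0000000000018000000000000000000000000000000000000000000000000) := T_34 (nat_lit 195) (nat_lit 196) (nat_lit 2) (nat_lit 5) (nat_lit 12) L91579 (by decide +kernel)
theorem L91581 : W_34 (nat_lit 8) (nat_lit 0x10002c001c0000000200010001000080000000000000000000000000000000) (nat_lit 0x0) (nat_lit 0xe001f000e0004000020018000000000000000000000000000000000000000000000000) := T_34 (nat_lit 209) (nat_lit 230) (nat_lit 3) (nat_lit 5) (nat_lit 12) L91580 (by decide +kernel)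
theorem L91582 : W_34 (nat_lit 9) (nat_lit 0x10002c000c0000000200010001000080000000000000000000000000000000) (nat_lit 0x0) (nat_lit 0xe001f000e0004000320018000000000000000000000000000000000000000000000000) := T_34 (nat_lit 212) (nat_lit 213) (nat_lit 1) (nat_lit 9) (nat_lit 12) L91581 (by decide +kernel)
theorem L91583 : W_34 (nat_lit 2) (nat_lit 0x100010002c001e0002000200010001000080000000000000000000000000000000) (nat_lit 0x0) (nat_lit 0x6000200000000000000000000000000000000000000000000000000000000000000000) := D_34 (nat_lit 261) (nat_lit 277) (nat_lit 278) (nat_lit 5) (nat_lit 6) (nat_lit 12) (nat_lit 4) (nat_lit 6) (nat_lit 16) (by decide +kernel)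
theorem L91584 : W_34 (nat_lit 3) (nat_lit 0x100010002c001c0002000200010001000080000000000000000000000000000000) (nat_lit 0x0) (nat_lit 0x6000200000004000020000000000000000000000000000000000000000000000000000) := T_34 (nat_lit 209) (nat_lit 230) (nat_lit 3) (nat_lit 5) (nat_lit 12) L91583 (by decide +kernel)
theorem L91585 : W_34 (nat_lit 4) (nat_lit 0x10002c001c0002000200010001000080000000000000000000000000000000) (nat_lit 0x0) (nat_lit 0x6000300008004000020000000000000000000000000000000000000000000000000000) := T_34 (nat_lit 260) (nat_lit 243) (nat_lit 5) (nat_lit 6) (nat_lit 11) L91584 (by decide +kernel)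
theorem L91586 : W_34 (nat_lit 5) (nat_lit 0x10002c001c0000000200010001000080000000000000000000000000000000) (nat_lit 0x0) (nat_lit 0x6000300008004000020002000100000000000000000000000000000000000000000000) := T_34 (nat_lit 193) (nat_lit 176) (nat_lit 6) (nat_lit 6) (nat_lit 13) L91585 (by decide +kernel)
theorem L91587 : W_34 (nat_lit 6) (nat_lit 0x10002c000c0000000200010001000080000000000000000000000000000000) (nat_lit 0x0) (nat_lit 0x6000300008004000320002000100000000000000000000000000000000000000000000) := T_34 (nat_lit 212) (nat_lit 213) (nat_lit 1) (nat_lit 9) (nat_lit 12) L91586 (by decide +kernel)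
theorem L91588 : W_34 (nat_lit 2) (nat_lit 0x500010002c002c0002000200010001000080000000000000000000000000000000) (nat_lit 0x0) (nat_lit 0xa000200000000000000000000000000000000000000000000000000000000000000000) := D_34 (nat_lit 261) (nat_lit 277) (nat_lit 279) (nat_lit 5) (nat_lit 6) (nat_lit 12) (nat_lit 7) (nat_lit 6) (nat_lit 12) (by decide +kernel)
theorem L91589 : W_34 (nat_lit 3) (nat_lit 0x100010002c002c0002000200010001000080000000000000000000000000000000) (nat_lit 0x0) (nat_lit 0xa000600020000000000000000000000000000000000000000000000000000000000000) := T_34 (nat_lit 262) (nat_lit 245) (nat_lit 7) (nat_lit 6) (nat_lit 11) L91588 (by decide +kernel)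
theorem L91590 : W_34 (nat_lit 4) (nat_lit 0x10002c002c0002000200010001000080000000000000000000000000000000) (nat_lit 0x0) (nat_lit 0xa000700028000000000000000000000000000000000000000000000000000000000000) := T_34 (nat_lit 260) (nat_lit 243) (nat_lit 5) (nat_lit 6) (nat_lit 11) L91589 (by decide +kernel)
theorem L91591 : W_34 (nat_lit 5) (nat_lit 0x10002c002c0000000200010001000080000000000000000000000000000000) (nat_lit 0x0) (nat_lit 0xa000700028000000000002000100000000000000000000000000000000000000000000) := T_34 (nat_lit 193) (nat_lit 176) (nat_lit 6) (nat_lit 6) (nat_lit 13) L91590 (by decide +kernel)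
theorem L91592 : W_34 (nat_lit 6) (nat_lit 0x10002c000c0000000200010001000080000000000000000000000000000000) (nat_lit 0x0) (nat_lit 0xa000700028000000300002000100000000000000000000000000000000000000000000) := T_34 (nat_lit 213) (nat_lit 212) (nat_lit 1) (nat_lit 9) (nat_lit 12) L91591 (by decide +kernel)
theorem L91593 : W_34 (nat_lit 2) (nat_lit 0x70002c001c0002000200010001000080000000000000000000000000000000) (nat_lit 0x0) (nat_lit 0x8004000020000000000000000000000000000000000000000000000000000) := D_34 (nat_lit 230) (nat_lit 243) (nat_lit 209) (nat_lit 2) (nat_lit 5) (nat_lit 14) (nat_lit 3) (nat_lit 5) (nat_lit 12) (by decide +kernel)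
theorem L91594 : W_34 (nat_lit 3) (nat_lit 0x70002c000c0002000200010001000080000000000000000000000000000000) (nat_lit 0x0) (nat_lit 0x8004000320000000000000000000000000000000000000000000000000000) := T_34 (nat_lit 212) (nat_lit 213) (nat_lit 1) (nat_lit 9) (nat_lit 12) L91593 (by decide +kernel)
theorem L91595 : W_34 (nat_lit 4) (nat_lit 0x30002c000c0002000200010001000080000000000000000000000000000000) (nat_lit 0x0) (nat_lit 0xc8004000320000000000000000000000000000000000000000000000000000) := T_34 (nat_lit 246) (nat_lit 247) (nat_lit 0) (nat_lit 9) (nat_lit 14) L91594 (by decide +kernel)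
theorem L91596 : W_34 (nat_lit 5) (nat_lit 0x10002c000c0002000200010001000080000000000000000000000000000000) (nat_lit 0x0) (nat_lit 0x4000e8004000320000000000000000000000000000000000000000000000000000) := T_34 (nat_lit 245) (nat_lit 262) (nat_lit 7) (nat_lit 6) (nat_lit 11) L91595 (by decide +kernel)
theorem L91597 : W_34 (nat_lit 6) (nat_lit 0x10002c000c0000000200010001000080000000000000000000000000000000) (nat_lit 0x0) (nat_lit 0x4000e8004000320002000100000000000000000000000000000000000000000000) := T_34 (nat_lit 193) (nat_lit 176) (nat_lit 6) (nat_lit 6) (nat_lit 13) L91596 (by decide +kernel)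
theorem L91598 : W_34 (nat_lit 10) (nat_lit 0x2c000c0000000200010001000080000000000000000000000000000000) (nat_lit 0x0) (nat_lit 0xe001f000f800400032001a000100000000000000000000000000000000000000000000) := Q_34 (nat_lit 244) (C_34 L91549 (C_34 L91582 (C_34 L91587 (C_34 L91592 (C_34 L91597 N_34))))) (by decide +kernel)
theorem L91599 : W_34 (nat_lit 11) (nat_lit 0xc000c0000000200010001000080000000000000000000000000000000) (nat_lit 0x0) (nat_lit 0x1f001f800fc00f00073c01ae00100000000000000000000000000000000000000000000) := Q_34 (nat_lit 229) (C_34 L91574 (C_34 L91537 (C_34 L91598 (C_34 L91557 (C_34 L91567 N_34))))) (by decide +kernel)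
theorem L91600 : W_34 (nat_lit 12) (nat_lit 0x8000c0000000200010001000080000000000000000000000000000000) (nat_lit 0x0) (nat_lit 0x1f001f800fe00f70073c01ae00100000000000000000000000000000000000000000000) := Q_34 (nat_lit 226) (C_34 L91299 (C_34 L91524 (C_34 L91297 (C_34 L91599 N_34)))) (by decide +kernel)
theorem L91601 : W_34 (nat_lit 2) (nat_lit 0x38000c0000000200010001000080000000000000000000000000000000) (nat_lit 0x0) (nat_lit 0xc000020000000000000000000000000000000000000000000000000000) := D_34 (nat_lit 230) (nat_lit 209) (nat_lit 231) (nat_lit 0) (nat_lit 9) (nat_lit 13) (nat_lit 0) (nat_lit 10) (nat_lit 13) (by decide +kernel)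
theorem L91602 : W_34 (nat_lit 2) (nat_lit 0xd00078002c0000000200010001000080000000000000000000000000000000) (nat_lit 0x0) (nat_lit 0x10000800000000000000010000000000000000000000000000000000000000000000000) := D_34 (nat_lit 263) (nat_lit 280) (nat_lit 196) (nat_lit 6) (nat_lit 8) (nat_lit 16) (nat_lit 5) (nat_lit 9) (nat_lit 11) (by decide +kernel)
theorem L91603 : W_34 (nat_lit 3) (nat_lit 0xd00078000c0000000200010001000080000000000000000000000000000000) (nat_lit 0x0) (nat_lit 0x10000800000000000600010000000000000000000000000000000000000000000000000) := T_34 (nat_lit 213) (nat_lit 214) (nat_lit 2) (nat_lit 6) (nat_lit 13) L91602 (by decide +kernel)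
theorem L91604 : W_34 (nat_lit 4) (nat_lit 0x900078000c0000000200010001000080000000000000000000000000000000) (nat_lit 0x0) (nat_lit 0x10000800040000400600010000000000000000000000000000000000000000000000000) := T_34 (nat_lit 246) (nat_lit 226) (nat_lit 3) (nat_lit 5) (nat_lit 13) L91603 (by decide +kernel)
theorem L91605 : W_34 (nat_lit 5) (nat_lit 0x100078000c0000000200010001000080000000000000000000000000000000) (nat_lit 0x0) (nat_lit 0x100008001c0000400600010000000000000000000000000000000000000000000000000) := T_34 (nat_lit 247) (nat_lit 248) (nat_lit 3) (nat_lit 6) (nat_lit 13) L91604 (by decide +kernel)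
theorem L91606 : W_34 (nat_lit 6) (nat_lit 0x78000c0000000200010001000080000000000000000000000000000000) (nat_lit 0x0) (nat_lit 0x100008001d8000400600010000000000000000000000000000000000000000000000000) := T_34 (nat_lit 244) (nat_lit 243) (nat_lit 1) (nat_lit 9) (nat_lit 13) L91605 (by decide +kernel)
theorem L91607 : W_34 (nat_lit 7) (nat_lit 0x38000c0000000200010001000080000000000000000000000000000000) (nat_lit 0x0) (nat_lit 0x100008001d800c400600010000000000000000000000000000000000000000000000000) := T_34 (nat_lit 230) (nat_lit 231) (nat_lit 0) (nat_lit 10) (nat_lit 13) L91606 (by decide +kernel)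
theorem L91608 : W_34 (nat_lit 2) (nat_lit 0x900058003d000c0000000200010001000080000000000000000000000000000000) (nat_lit 0x0) (nat_lit 0x1080020000000000000000000000000000000000000000000000000000000000000) := D_34 (nat_lit 245) (nat_lit 264) (nat_lit 259) (nat_lit 3) (nat_lit 5) (nat_lit 14) (nat_lit 1) (nat_lit 8) (nat_lit 14) (by decide +kernel)
theorem L91609 : W_34 (nat_lit 3) (nat_lit 0x900048003d000c0000000200010001000080000000000000000000000000000000) (nat_lit 0x0) (nat_lit 0x1080030000000000002000000000000000000000000000000000000000000000000) := T_34 (nat_lit 244) (nat_lit 193) (nat_lit 5) (nat_lit 6) (nat_lit 11) L91608 (by decide +kernel)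
theorem L91610 : W_34 (nat_lit 4) (nat_lit 0x100048003d000c0000000200010001000080000000000000000000000000000000) (nat_lit 0x0) (nat_lit 0x10001880030000000000002000000000000000000000000000000000000000000000000) := T_34 (nat_lit 263) (nat_lit 280) (nat_lit 4) (nat_lit 8) (nat_lit 16) L91609 (by decide +kernel)
theorem L91611 : W_34 (nat_lit 5) (nat_lit 0x48003d000c0000000200010001000080000000000000000000000000000000) (nat_lit 0x0) (nat_lit 0x12001980030000000000002000000000000000000000000000000000000000000000000) := T_34 (nat_lit 260) (nat_lit 277) (nat_lit 6) (nat_lit 5) (nat_lit 16) L91610 (by decide +kernel)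
theorem L91612 : W_34 (nat_lit 6) (nat_lit 0x8003d000c0000000200010001000080000000000000000000000000000000) (nat_lit 0x0) (nat_lit 0x120019800f0000000000002000000000000000000000000000000000000000000000000) := T_34 (nat_lit 246) (nat_lit 247) (nat_lit 3) (nat_lit 5) (nat_lit 13) L91611 (by decide +kernel)
theorem L91613 : W_34 (nat_lit 7) (nat_lit 0x3d000c0000000200010001000080000000000000000000000000000000) (nat_lit 0x0) (nat_lit 0x120019800fc000000000002000000000000000000000000000000000000000000000000) := T_34 (nat_lit 243) (nat_lit 242) (nat_lit 1) (nat_lit 8) (nat_lit 13) L91612 (by decide +kernel)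
theorem L91614 : W_34 (nat_lit 8) (nat_lit 0x3c000c0000000200010001000080000000000000000000000000000000) (nat_lit 0x0) (nat_lit 0x120019800fc000300000002000000000000000000000000000000000000000000000000) := T_34 (nat_lit 224) (nat_lit 225) (nat_lit 2) (nat_lit 3) (nat_lit 13) L91613 (by decide +kernel)
theorem L91615 : W_34 (nat_lit 2) (nat_lit 0x40003c000c0000000200010001000080000000000000000000000000000000) (nat_lit 0x0) (nat_lit 0x20000300000000000000000000000000000000000000000000000000000000) := D_34 (nat_lit 225) (nat_lit 245) (nat_lit 224) (nat_lit 3) (nat_lit 4) (nat_lit 13) (nat_lit 2) (nat_lit 3) (nat_lit 13) (by decide +kernel)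
theorem L91616 : W_34 (nat_lit 3) (nat_lit 0x3c000c0000000200010001000080000000000000000000000000000000) (nat_lit 0x0) (nat_lit 0xe0000300000000000000000000000000000000000000000000000000000000) := T_34 (nat_lit 246) (nat_lit 247) (nat_lit 3) (nat_lit 5) (nat_lit 13) L91615 (by decide +kernel)
theorem L91617 : W_34 (nat_lit 10) (nat_lit 0x38000c0000000200010001000080000000000000000000000000000000) (nat_lit 0x0) (nat_lit 0x17001f800fc000700030002000000000000000000000000000000000000000000000000) := Q_34 (nat_lit 226) (C_34 L91566 (C_34 L91522 (C_34 L91614 (C_34 L91616 N_34)))) (by decide +kernel)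
theorem L91618 : W_34 (nat_lit 11) (nat_lit 0x18000c0000000200010001000080000000000000000000000000000000) (nat_lit 0x0) (nat_lit 0x17001f801fc00e700630012000000000000000000000000000000000000000000000000) := Q_34 (nat_lit 229) (C_34 L91601 (C_34 L91607 (C_34 L91617 N_34))) (by decide +kernel)
theorem L91619 : W_34 (nat_lit 2) (nat_lit 0x80003800300018000c0000000200010001000080000000000000000000000000000000) (nat_lit 0x0) (nat_lit 0xc8000000000000000000000000000000000000000000000000000000000000) := D_34 (nat_lit 246) (nat_lit 247) (nat_lit 243) (nat_lit 1) (nat_lit 9) (nat_lit 14) (nat_lit 1) (nat_lit 8) (nat_lit 14) (by decide +kernel)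
theorem L91620 : W_34 (nat_lit 3) (nat_lit 0x80003000300018000c0000000200010001000080000000000000000000000000000000) (nat_lit 0x0) (nat_lit 0xc00c8000000000000000000000000000000000000000000000000000000000000) := T_34 (nat_lit 259) (nat_lit 258) (nat_lit 2) (nat_lit 3) (nat_lit 15) L91619 (by decide +kernel)
theorem L91621 : W_34 (nat_lit 4) (nat_lit 0x80002000300018000c0000000200010001000080000000000000000000000000000000) (nat_lit 0x0) (nat_lit 0x20001c00c8000000000000000000000000000000000000000000000000000000000000) := T_34 (nat_lit 260) (nat_lit 277) (nat_lit 5) (nat_lit 6) (nat_lit 12) L91620 (by decide +kernel)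
theorem L91622 : W_34 (nat_lit 5) (nat_lit 0x80000000300018000c0000000200010001000080000000000000000000000000000000) (nat_lit 0x0) (nat_lit 0x60003c00c8000000000000000000000000000000000000000000000000000000000000) := T_34 (nat_lit 261) (nat_lit 278) (nat_lit 6) (nat_lit 6) (nat_lit 16) L91621 (by decide +kernel)
theorem L91623 : W_34 (nat_lit 6) (nat_lit 0x300018000c0000000200010001000080000000000000000000000000000000) (nat_lit 0x0) (nat_lit 0xe0007c00c8000000000000000000000000000000000000000000000000000000000000) := T_34 (nat_lit 279) (nat_lit 262) (nat_lit 4) (nat_lit 7) (nat_lit 16) L91622 (by decide +kernel)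
theorem L91624 : W_34 (nat_lit 2) (nat_lit 0xf400300018000c0000000200010001000080000000000000000000000000000000) (nat_lit 0x0) (nat_lit 0x100000c000000000000000000000000000000000000000000000000000000000000) := D_34 (nat_lit 243) (nat_lit 242) (nat_lit 264) (nat_lit 3) (nat_lit 4) (nat_lit 14) (nat_lit 0) (nat_lit 9) (nat_lit 15) (by decide +kernel)
theorem L91625 : W_34 (nat_lit 3) (nat_lit 0x7400300018000c0000000200010001000080000000000000000000000000000000) (nat_lit 0x0) (nat_lit 0x1000180000c000000000000000000000000000000000000000000000000000000000000) := T_34 (nat_lit 263) (nat_lit 280) (nat_lit 7) (nat_lit 7) (nat_lit 12) L91624 (by decide +kernel)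
theorem L91626 : W_34 (nat_lit 4) (nat_lit 0x7000300018000c0000000200010001000080000000000000000000000000000000) (nat_lit 0x0) (nat_lit 0x100018c000c000000000000000000000000000000000000000000000000000000000000) := T_34 (nat_lit 258) (nat_lit 259) (nat_lit 2) (nat_lit 3) (nat_lit 15) L91625 (by decide +kernel)
theorem L91627 : W_34 (nat_lit 5) (nat_lit 0x6000300018000c0000000200010001000080000000000000000000000000000000) (nat_lit 0x0) (nat_lit 0x120019c000c000000000000000000000000000000000000000000000000000000000000) := T_34 (nat_lit 260) (nat_lit 277) (nat_lit 5) (nat_lit 6) (nat_lit 12) L91626 (by decide +kernel)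
theorem L91628 : W_34 (nat_lit 6) (nat_lit 0x2000300018000c0000000200010001000080000000000000000000000000000000) (nat_lit 0x0) (nat_lit 0x1a001dc000c000000000000000000000000000000000000000000000000000000000000) := T_34 (nat_lit 262) (nat_lit 279) (nat_lit 7) (nat_lit 6) (nat_lit 12) L91627 (by decide +kernel)
theorem L91629 : W_34 (nat_lit 7) (nat_lit 0x300018000c0000000200010001000080000000000000000000000000000000) (nat_lit 0x0) (nat_lit 0x1e001fc000c000000000000000000000000000000000000000000000000000000000000) := T_34 (nat_lit 261) (nat_lit 278) (nat_lit 6) (nat_lit 6) (nat_lit 16) L91628 (by decide +kernel)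
theorem L91630 : W_34 (nat_lit 2) (nat_lit 0x3800300018000c0000000200010001000080000000000000000000000000000000) (nat_lit 0x0) (nat_lit 0xc8000000000000000000000000000000000000000000000000000000000000) := D_34 (nat_lit 246) (nat_lit 247) (nat_lit 243) (nat_lit 1) (nat_lit 9) (nat_lit 14) (nat_lit 1) (nat_lit 8) (nat_lit 14) (by decide +kernel)
theorem L91631 : W_34 (nat_lit 3) (nat_lit 0x3000300018000c0000000200010001000080000000000000000000000000000000) (nat_lit 0x0) (nat_lit 0xc00c8000000000000000000000000000000000000000000000000000000000000) := T_34 (nat_lit 259) (nat_lit 258) (nat_lit 2) (nat_lit 3) (nat_lit 15) L91630 (by decide +kernel)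
theorem L91632 : W_34 (nat_lit 4) (nat_lit 0x2000300018000c0000000200010001000080000000000000000000000000000000) (nat_lit 0x0) (nat_lit 0x20001c00c8000000000000000000000000000000000000000000000000000000000000) := T_34 (nat_lit 260) (nat_lit 277) (nat_lit 5) (nat_lit 6) (nat_lit 12) L91631 (by decide +kernel)
theorem L91633 : W_34 (nat_lit 5) (nat_lit 0x300018000c0000000200010001000080000000000000000000000000000000) (nat_lit 0x0) (nat_lit 0x60003c00c8000000000000000000000000000000000000000000000000000000000000) := T_34 (nat_lit 261) (nat_lit 278) (nat_lit 6) (nat_lit 6) (nat_lit 16) L91632 (by decide +kernel)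
theorem L91634 : W_34 (nat_lit 2) (nat_lit 0xc000380018000c0000000200010001000080000000000000000000000000000000) (nat_lit 0x0) (nat_lit 0x3000040000000000000000000000000000000000000000000000000000000000000) := D_34 (nat_lit 264) (nat_lit 265) (nat_lit 246) (nat_lit 0) (nat_lit 10) (nat_lit 15) (nat_lit 3) (nat_lit 5) (nat_lit 14) (by decide +kernel)
theorem L91635 : W_34 (nat_lit 3) (nat_lit 0xc000300018000c0000000200010001000080000000000000000000000000000000) (nat_lit 0x0) (nat_lit 0x300004c000000000000000000000000000000000000000000000000000000000000) := T_34 (nat_lit 243) (nat_lit 242) (nat_lit 3) (nat_lit 4) (nat_lit 14) L91634 (by decide +kernel)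
theorem L91636 : W_34 (nat_lit 4) (nat_lit 0x4000300018000c0000000200010001000080000000000000000000000000000000) (nat_lit 0x0) (nat_lit 0x1000380004c000000000000000000000000000000000000000000000000000000000000) := T_34 (nat_lit 263) (nat_lit 280) (nat_lit 7) (nat_lit 7) (nat_lit 12) L91635 (by decide +kernel)
theorem L91637 : W_34 (nat_lit 5) (nat_lit 0x300018000c0000000200010001000080000000000000000000000000000000) (nat_lit 0x0) (nat_lit 0x18003c0004c000000000000000000000000000000000000000000000000000000000000) := T_34 (nat_lit 262) (nat_lit 279) (nat_lit 4) (nat_lit 7) (nat_lit 16) L91636 (by decide +kernel)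
theorem L91638 : W_34 (nat_lit 2) (nat_lit 0x2f000300018000c0000000200010001000080000000000000000000000000000000) (nat_lit 0x0) (nat_lit 0x800c0000000000000000000000000000000000000000000000000000000000000) := D_34 (nat_lit 246) (nat_lit 247) (nat_lit 259) (nat_lit 2) (nat_lit 5) (nat_lit 15) (nat_lit 2) (nat_lit 4) (nat_lit 15) (by decide +kernel)
theorem L91639 : W_34 (nat_lit 3) (nat_lit 0x2e000300018000c0000000200010001000080000000000000000000000000000000) (nat_lit 0x0) (nat_lit 0x20001800c0000000000000000000000000000000000000000000000000000000000000) := T_34 (nat_lit 260) (nat_lit 277) (nat_lit 5) (nat_lit 6) (nat_lit 12) L91638 (by decide +kernel)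
theorem L91640 : W_34 (nat_lit 4) (nat_lit 0xe000300018000c0000000200010001000080000000000000000000000000000000) (nat_lit 0x0) (nat_lit 0x20031800c0000000000000000000000000000000000000000000000000000000000000) := T_34 (nat_lit 265) (nat_lit 264) (nat_lit 0) (nat_lit 10) (nat_lit 15) L91639 (by decide +kernel)
theorem L91641 : W_34 (nat_lit 5) (nat_lit 0x6000300018000c0000000200010001000080000000000000000000000000000000) (nat_lit 0x0) (nat_lit 0x120039800c0000000000000000000000000000000000000000000000000000000000000) := T_34 (nat_lit 263) (nat_lit 280) (nat_lit 7) (nat_lit 7) (nat_lit 12) L91640 (by decide +kernel)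
theorem L91642 : W_34 (nat_lit 6) (nat_lit 0x4000300018000c0000000200010001000080000000000000000000000000000000) (nat_lit 0x0) (nat_lit 0x16003b800c0000000000000000000000000000000000000000000000000000000000000) := T_34 (nat_lit 261) (nat_lit 278) (nat_lit 6) (nat_lit 6) (nat_lit 16) L91641 (by decide +kernel)
theorem L91643 : W_34 (nat_lit 7) (nat_lit 0x300018000c0000000200010001000080000000000000000000000000000000) (nat_lit 0x0) (nat_lit 0x1e003f800c0000000000000000000000000000000000000000000000000000000000000) := T_34 (nat_lit 262) (nat_lit 279) (nat_lit 4) (nat_lit 7) (nat_lit 16) L91642 (by decide +kernel)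
theorem L91644 : W_34 (nat_lit 8) (nat_lit 0x200018000c0000000200010001000080000000000000000000000000000000) (nat_lit 0x0) (nat_lit 0x1e003fc00dc000000000000000000000000000000000000000000000000000000000000) := Q_34 (nat_lit 244) (C_34 L91623 (C_34 L91629 (C_34 L91633 (C_34 L91637 (C_34 L91643 N_34))))) (by decide +kernel)
theorem L91645 : W_34 (nat_lit 2) (nat_lit 0x200018000c0000000200010001000080000000000000000000000000000000) (nat_lit 0x0) (nat_lit 0x8000400000000000000002000000000000000000000000000000000000000000000000) := D_34 (nat_lit 262) (nat_lit 279) (nat_lit 193) (nat_lit 4) (nat_lit 7) (nat_lit 16) (nat_lit 4) (nat_lit 7) (nat_lit 15) (by decide +kernel)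
theorem L91646 : W_34 (nat_lit 2) (nat_lit 0x6000000018000c0000000200010001000080000000000000000000000000000000) (nat_lit 0x0) (nat_lit 0x8000000030000000000000000000000000000000000000000000000000000000000000) := D_34 (nat_lit 279) (nat_lit 245) (nat_lit 244) (nat_lit 4) (nat_lit 7) (nat_lit 16) (nat_lit 7) (nat_lit 6) (nat_lit 12) (by decide +kernel)
theorem L91647 : W_34 (nat_lit 2) (nat_lit 0x6000000018000c0000000200010001000080000000000000000000000000000000) (nat_lit 0x0) (nat_lit 0xc000000010000000000000000000000000000000000000000000000000000000000000) := D_34 (nat_lit 244) (nat_lit 279) (nat_lit 278) (nat_lit 7) (nat_lit 6) (nat_lit 12) (nat_lit 6) (nat_lit 6) (nat_lit 16) (by decide +kernel)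
theorem L91648 : W_34 (nat_lit 2) (nat_lit 0x6000000018000c0000000200010001000080000000000000000000000000000000) (nat_lit 0x0) (nat_lit 0xc000000020000000000000000000000000000000000000000000000000000000000000) := D_34 (nat_lit 245) (nat_lit 279) (nat_lit 278) (nat_lit 4) (nat_lit 7) (nat_lit 16) (nat_lit 5) (nat_lit 7) (nat_lit 12) (by decide +kernel)
theorem L91649 : W_34 (nat_lit 2) (nat_lit 0x6000000018000c0000000200010001000080000000000000000000000000000000) (nat_lit 0x0) (nat_lit 0x4000000030000000000000000000000000000000000000000000000000000000000000) := D_34 (nat_lit 278) (nat_lit 244) (nat_lit 245) (nat_lit 6) (nat_lit 6) (nat_lit 16) (nat_lit 5) (nat_lit 7) (nat_lit 12) (by decide +kernel)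
theorem L91650 : W_34 (nat_lit 3) (nat_lit 0x4000000018000c0000000200010001000080000000000000000000000000000000) (nat_lit 0x0) (nat_lit 0xc000200030000000000000000000000000000000000000000000000000000000000000) := Q_34 (nat_lit 261) (C_34 L91646 (C_34 L91647 (C_34 L91648 (C_34 L91649 N_34)))) (by decide +kernel)
theorem L91651 : W_34 (nat_lit 2) (nat_lit 0x4000100018000c0000000200010001000080000000000000000000000000000000) (nat_lit 0x0) (nat_lit 0xc000200000000000000000000000000000000000000000000000000000000000000000) := D_34 (nat_lit 261) (nat_lit 279) (nat_lit 278) (nat_lit 7) (nat_lit 6) (nat_lit 12) (nat_lit 6) (nat_lit 6) (nat_lit 16) (by decide +kernel)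
theorem L91652 : W_34 (nat_lit 2) (nat_lit 0x40001c0018000c0002000200010001000080000000000000000000000000000000) (nat_lit 0x0) (nat_lit 0x6400000000000000000000000000000000000000000000000000000000) := D_34 (nat_lit 229) (nat_lit 230) (nat_lit 226) (nat_lit 1) (nat_lit 9) (nat_lit 13) (nat_lit 1) (nat_lit 8) (nat_lit 13) (by decide +kernel)
theorem L91653 : W_34 (nat_lit 3) (nat_lit 0x4000180018000c0002000200010001000080000000000000000000000000000000) (nat_lit 0x0) (nat_lit 0x6006400000000000000000000000000000000000000000000000000000000) := T_34 (nat_lit 242) (nat_lit 241) (nat_lit 2) (nat_lit 3) (nat_lit 14) L91652 (by decide +kernel)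
theorem L91654 : W_34 (nat_lit 4) (nat_lit 0x4000100018000c0002000200010001000080000000000000000000000000000000) (nat_lit 0x0) (nat_lit 0x10000e006400000000000000000000000000000000000000000000000000000000) := T_34 (nat_lit 243) (nat_lit 260) (nat_lit 5) (nat_lit 6) (nat_lit 11) L91653 (by decide +kernel)
theorem L91655 : W_34 (nat_lit 5) (nat_lit 0x4000100018000c0000000200010001000080000000000000000000000000000000) (nat_lit 0x0) (nat_lit 0x10000e006400000002000100000000000000000000000000000000000000000000) := T_34 (nat_lit 193) (nat_lit 176) (nat_lit 6) (nat_lit 6) (nat_lit 13) L91654 (by decide +kernel)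
theorem L91656 : W_34 (nat_lit 6) (nat_lit 0x4000000018000c0000000200010001000080000000000000000000000000000000) (nat_lit 0x0) (nat_lit 0xc00030001e006400000002000100000000000000000000000000000000000000000000) := Q_34 (nat_lit 244) (C_34 L91651 (C_34 L91655 N_34)) (by decide +kernel)
theorem L91657 : W_34 (nat_lit 2) (nat_lit 0x4000000018000c0000000200010001000080000000000000000000000000000000) (nat_lit 0x0) (nat_lit 0x20000000000002000100000000000000000000000000000000000000000000) := D_34 (nat_lit 193) (nat_lit 176) (nat_lit 245) (nat_lit 6) (nat_lit 6) (nat_lit 13) (nat_lit 4) (nat_lit 7) (nat_lit 15) (by decide +kernel)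
theorem L91658 : W_34 (nat_lit 7) (nat_lit 0x18000c0000000200010001000080000000000000000000000000000000) (nat_lit 0x0) (nat_lit 0xc00070003e006400000002000100000000000000000000000000000000000000000000) := Q_34 (nat_lit 262) (C_34 L91650 (C_34 L91656 (C_34 L91657 N_34))) (by decide +kernel)
theorem L91659 : W_34 (nat_lit 2) (nat_lit 0x3c000d0000000200010001000080000000000000000000000000000000) (nat_lit 0x0) (nat_lit 0x300008000000000000000000000000000000000000000000000000000) := D_34 (nat_lit 225) (nat_lit 224) (nat_lit 207) (nat_lit 2) (nat_lit 3) (nat_lit 13) (nat_lit 0) (nat_lit 7) (nat_lit 13) (by decide +kernel)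
theorem L91660 : W_34 (nat_lit 3) (nat_lit 0x3c000c0000000200010001000080000000000000000000000000000000) (nat_lit 0x0) (nat_lit 0x300038000000000000000000000000000000000000000000000000000) := T_34 (nat_lit 208) (nat_lit 209) (nat_lit 3) (nat_lit 4) (nat_lit 12) L91659 (by decide +kernel)
theorem L91661 : W_34 (nat_lit 10) (nat_lit 0x38000c0000000200010001000080000000000000000000000000000000) (nat_lit 0x0) (nat_lit 0x17000f800fc000700038000000000000000000000000000000000000000000000000000) := Q_34 (nat_lit 226) (C_34 L91660 (C_34 L91616 (C_34 L91522 N_34))) (by decide +kernel)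
theorem L91662 : W_34 (nat_lit 11) (nat_lit 0x18000c0000000200010001000080000000000000000000000000000000) (nat_lit 0x0) (nat_lit 0x17000f801fc00e700638010000000000000000000000000000000000000000000000000) := Q_34 (nat_lit 229) (C_34 L91607 (C_34 L91601 (C_34 L91661 N_34))) (by decide +kernel)
theorem L91663 : W_34 (nat_lit 2) (nat_lit 0x18000e0000000200010001000080000000000000000000000000000000) (nat_lit 0x0) (nat_lit 0x6000010000000000000000000000000000000000000000000000000000) := D_34 (nat_lit 229) (nat_lit 230) (nat_lit 208) (nat_lit 0) (nat_lit 9) (nat_lit 13) (nat_lit 3) (nat_lit 4) (nat_lit 12) (by decide +kernel)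
theorem L91664 : W_34 (nat_lit 2) (nat_lit 0x8001d000f0000800200010001000080000000000000000000000000000000) (nat_lit 0x0) (nat_lit 0x1000040002000000000000000000000000000000000000000) := D_34 (nat_lit 174) (nat_lit 157) (nat_lit 192) (nat_lit 7) (nat_lit 4) (nat_lit 9) (nat_lit 4) (nat_lit 5) (nat_lit 14) (by decide +kernel)
theorem L91665 : W_34 (nat_lit 3) (nat_lit 0x1d000f0000800200010001000080000000000000000000000000000000) (nat_lit 0x0) (nat_lit 0x100008000000000001000040002000000000000000000000000000000000000000) := T_34 (nat_lit 243) (nat_lit 260) (nat_lit 4) (nat_lit 5) (nat_lit 15) L91664 (by decide +kernel)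
theorem L91666 : W_34 (nat_lit 4) (nat_lit 0x1d000f0000000200010001000080000000000000000000000000000000) (nat_lit 0x0) (nat_lit 0x100008000000000001c00040002000000000000000000000000000000000000000) := T_34 (nat_lit 191) (nat_lit 190) (nat_lit 0) (nat_lit 7) (nat_lit 12) L91665 (by decide +kernel)
theorem L91667 : W_34 (nat_lit 5) (nat_lit 0x1d000e0000000200010001000080000000000000000000000000000000) (nat_lit 0x0) (nat_lit 0x100008000000018001c00040002000000000000000000000000000000000000000) := T_34 (nat_lit 208) (nat_lit 207) (nat_lit 3) (nat_lit 3) (nat_lit 12) L91666 (by decide +kernel)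
theorem L91668 : W_34 (nat_lit 6) (nat_lit 0x1c000e0000000200010001000080000000000000000000000000000000) (nat_lit 0x0) (nat_lit 0x100008000300018001c00040002000000000000000000000000000000000000000) := T_34 (nat_lit 224) (nat_lit 225) (nat_lit 2) (nat_lit 3) (nat_lit 13) L91667 (by decide +kernel)
theorem L91669 : W_34 (nat_lit 2) (nat_lit 0x100004001e000f0002800200012001000080000000000000000000000000000000) (nat_lit 0x0) (nat_lit 0x3000080000000000000000000000000000000000000000000000000000000000000000) := D_34 (nat_lit 259) (nat_lit 277) (nat_lit 276) (nat_lit 7) (nat_lit 4) (nat_lit 12) (nat_lit 6) (nat_lit 4) (nat_lit 16) (by decide +kernel)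
theorem L91670 : W_34 (nat_lit 3) (nat_lit 0x100000001e000f0002800200012001000080000000000000000000000000000000) (nat_lit 0x0) (nat_lit 0x3000080006000000000000000000000000000000000000000000000000000000000000) := T_34 (nat_lit 242) (nat_lit 241) (nat_lit 1) (nat_lit 7) (nat_lit 13) L91669 (by decide +kernel)
theorem L91671 : W_34 (nat_lit 4) (nat_lit 0x100000001e000f0002800200010001000080000000000000000000000000000000) (nat_lit 0x0) (nat_lit 0x3000080006000000000000000040002000000000000000000000000000000000000000) := T_34 (nat_lit 157) (nat_lit 174) (nat_lit 7) (nat_lit 4) (nat_lit 9) L91670 (by decide +kernel)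
theorem L91672 : W_34 (nat_lit 5) (nat_lit 0x100000001c000f0002800200010001000080000000000000000000000000000000) (nat_lit 0x0) (nat_lit 0x3000080006000300000000000040002000000000000000000000000000000000000000) := T_34 (nat_lit 225) (nat_lit 224) (nat_lit 2) (nat_lit 3) (nat_lit 13) L91671 (by decide +kernel)
theorem L91673 : W_34 (nat_lit 6) (nat_lit 0x100000001c000f0002000200010001000080000000000000000000000000000000) (nat_lit 0x0) (nat_lit 0x3000080006000300000000c00040002000000000000000000000000000000000000000) := T_34 (nat_lit 191) (nat_lit 190) (nat_lit 0) (nat_lit 7) (nat_lit 12) L91672 (by decide +kernel)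
theorem L91674 : W_34 (nat_lit 7) (nat_lit 0x1c000f0002000200010001000080000000000000000000000000000000) (nat_lit 0x0) (nat_lit 0x300018000e000300000000c00040002000000000000000000000000000000000000000) := T_34 (nat_lit 260) (nat_lit 243) (nat_lit 6) (nat_lit 5) (nat_lit 15) L91673 (by decide +kernel)
theorem L91675 : W_34 (nat_lit 8) (nat_lit 0x1c000f0000000200010001000080000000000000000000000000000000) (nat_lit 0x0) (nat_lit 0x300018000e000300000002c00140002000000000000000000000000000000000000000) := T_34 (nat_lit 193) (nat_lit 176) (nat_lit 6) (nat_lit 6) (nat_lit 13) L91674 (by decide +kernel)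
theorem L91676 : W_34 (nat_lit 9) (nat_lit 0x1c000e0000000200010001000080000000000000000000000000000000) (nat_lit 0x0) (nat_lit 0x300018000e000300018002c00140002000000000000000000000000000000000000000) := T_34 (nat_lit 208) (nat_lit 207) (nat_lit 3) (nat_lit 3) (nat_lit 12) L91675 (by decide +kernel)
theorem L91677 : W_34 (nat_lit 2) (nat_lit 0x100004001e000f0002800200010001000080000000000000000000000000000000) (nat_lit 0x0) (nat_lit 0x80000000000000001000080000000000000000000000000000000000000000000) := D_34 (nat_lit 192) (nat_lit 175) (nat_lit 259) (nat_lit 6) (nat_lit 4) (nat_lit 14) (nat_lit 6) (nat_lit 4) (nat_lit 15) (by decide +kernel)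
theorem L91678 : W_34 (nat_lit 3) (nat_lit 0x100000001e000f0002800200010001000080000000000000000000000000000000) (nat_lit 0x0) (nat_lit 0x80006000000000001000080000000000000000000000000000000000000000000) := T_34 (nat_lit 242) (nat_lit 241) (nat_lit 1) (nat_lit 7) (nat_lit 13) L91677 (by decide +kernel)
theorem L91679 : W_34 (nat_lit 4) (nat_lit 0x100000001e000f0002000200010001000080000000000000000000000000000000) (nat_lit 0x0) (nat_lit 0x80006000000000001c00080000000000000000000000000000000000000000000) := T_34 (nat_lit 191) (nat_lit 190) (nat_lit 0) (nat_lit 7) (nat_lit 12) L91678 (by decide +kernel)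
theorem L91680 : W_34 (nat_lit 5) (nat_lit 0x100000001c000f0002000200010001000080000000000000000000000000000000) (nat_lit 0x0) (nat_lit 0x80006000300000001c00080000000000000000000000000000000000000000000) := T_34 (nat_lit 225) (nat_lit 224) (nat_lit 2) (nat_lit 3) (nat_lit 13) L91679 (by decide +kernel)
theorem L91681 : W_34 (nat_lit 6) (nat_lit 0x100000001c000e0002000200010001000080000000000000000000000000000000) (nat_lit 0x0) (nat_lit 0x80006000300018001c00080000000000000000000000000000000000000000000) := T_34 (nat_lit 208) (nat_lit 207) (nat_lit 3) (nat_lit 3) (nat_lit 12) L91680 (by decide +kernel)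
theorem L91682 : W_34 (nat_lit 7) (nat_lit 0x1c000e0002000200010001000080000000000000000000000000000000) (nat_lit 0x0) (nat_lit 0x18000e000300018001c00080000000000000000000000000000000000000000000) := T_34 (nat_lit 260) (nat_lit 243) (nat_lit 6) (nat_lit 5) (nat_lit 15) L91681 (by decide +kernel)
theorem L91683 : W_34 (nat_lit 8) (nat_lit 0x1c000e0000000200010001000080000000000000000000000000000000) (nat_lit 0x0) (nat_lit 0x18000e000300018003c00180000000000000000000000000000000000000000000) := T_34 (nat_lit 193) (nat_lit 176) (nat_lit 6) (nat_lit 6) (nat_lit 13) L91682 (by decide +kernel)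
theorem L91684 : W_34 (nat_lit 2) (nat_lit 0x100004001e000f0002000200010001000080000000000000000000000000000000) (nat_lit 0x0) (nat_lit 0x80000000000000001000080000000000000000000000000000000000000000000) := D_34 (nat_lit 192) (nat_lit 175) (nat_lit 259) (nat_lit 5) (nat_lit 5) (nat_lit 10) (nat_lit 6) (nat_lit 4) (nat_lit 15) (by decide +kernel)
theorem L91685 : W_34 (nat_lit 3) (nat_lit 0x100000001e000f0002000200010001000080000000000000000000000000000000) (nat_lit 0x0) (nat_lit 0x80006000000000001000080000000000000000000000000000000000000000000) := T_34 (nat_lit 242) (nat_lit 241) (nat_lit 1) (nat_lit 7) (nat_lit 13) L91684 (by decide +kernel)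
theorem L91686 : W_34 (nat_lit 4) (nat_lit 0x100000001e000e0002000200010001000080000000000000000000000000000000) (nat_lit 0x0) (nat_lit 0x80006000000018001000080000000000000000000000000000000000000000000) := T_34 (nat_lit 208) (nat_lit 207) (nat_lit 3) (nat_lit 3) (nat_lit 12) L91685 (by decide +kernel)
theorem L91687 : W_34 (nat_lit 5) (nat_lit 0x1e000e0002000200010001000080000000000000000000000000000000) (nat_lit 0x0) (nat_lit 0x18000e000000018001000080000000000000000000000000000000000000000000) := T_34 (nat_lit 260) (nat_lit 243) (nat_lit 6) (nat_lit 5) (nat_lit 15) L91686 (by decide +kernel)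
theorem L91688 : W_34 (nat_lit 6) (nat_lit 0x1e000e0000000200010001000080000000000000000000000000000000) (nat_lit 0x0) (nat_lit 0x18000e000000018003000180000000000000000000000000000000000000000000) := T_34 (nat_lit 193) (nat_lit 176) (nat_lit 6) (nat_lit 6) (nat_lit 13) L91687 (by decide +kernel)
theorem L91689 : W_34 (nat_lit 7) (nat_lit 0x1c000e0000000200010001000080000000000000000000000000000000) (nat_lit 0x0) (nat_lit 0x18000e000300018003000180000000000000000000000000000000000000000000) := T_34 (nat_lit 225) (nat_lit 224) (nat_lit 2) (nat_lit 3) (nat_lit 13) L91688 (by decide +kernel)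
theorem L91690 : W_34 (nat_lit 2) (nat_lit 0xc001e000e0002000200010001000080000000000000000000000000000000) (nat_lit 0x0) (nat_lit 0x1000080000000000000001000000000000000000000000000000000000000000000000) := D_34 (nat_lit 259) (nat_lit 276) (nat_lit 192) (nat_lit 6) (nat_lit 4) (nat_lit 16) (nat_lit 5) (nat_lit 5) (nat_lit 11) (by decide +kernel)
theorem L91691 : W_34 (nat_lit 3) (nat_lit 0x8001e000e0002000200010001000080000000000000000000000000000000) (nat_lit 0x0) (nat_lit 0x1000080006000000000001000000000000000000000000000000000000000000000000) := T_34 (nat_lit 242) (nat_lit 241) (nat_lit 1) (nat_lit 7) (nat_lit 13) L91690 (by decide +kernel)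
theorem L91692 : W_34 (nat_lit 4) (nat_lit 0x8001c000e0002000200010001000080000000000000000000000000000000) (nat_lit 0x0) (nat_lit 0x1000080006000300000001000000000000000000000000000000000000000000000000) := T_34 (nat_lit 225) (nat_lit 224) (nat_lit 2) (nat_lit 3) (nat_lit 13) L91691 (by decide +kernel)
theorem L91693 : W_34 (nat_lit 5) (nat_lit 0x1c000e0002000200010001000080000000000000000000000000000000) (nat_lit 0x0) (nat_lit 0x100018000e000300000001000000000000000000000000000000000000000000000000) := T_34 (nat_lit 243) (nat_lit 260) (nat_lit 6) (nat_lit 5) (nat_lit 15) L91692 (by decide +kernel)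
theorem L91694 : W_34 (nat_lit 6) (nat_lit 0x1c000e0000000200010001000080000000000000000000000000000000) (nat_lit 0x0) (nat_lit 0x100018000e000300000003000100000000000000000000000000000000000000000000) := T_34 (nat_lit 193) (nat_lit 176) (nat_lit 6) (nat_lit 6) (nat_lit 13) L91693 (by decide +kernel)
theorem L91695 : W_34 (nat_lit 2) (nat_lit 0x8001c000f0002800200010001000080000000000000000000000000000000) (nat_lit 0x0) (nat_lit 0x1000040002000000000000000000000000000000000000000) := D_34 (nat_lit 174) (nat_lit 157) (nat_lit 192) (nat_lit 7) (nat_lit 4) (nat_lit 9) (nat_lit 4) (nat_lit 5) (nat_lit 14) (by decide +kernel)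
theorem L91696 : W_34 (nat_lit 3) (nat_lit 0x8001c000f0002000200010001000080000000000000000000000000000000) (nat_lit 0x0) (nat_lit 0x1c00040002000000000000000000000000000000000000000) := T_34 (nat_lit 191) (nat_lit 190) (nat_lit 0) (nat_lit 7) (nat_lit 12) L91695 (by decide +kernel)
theorem L91697 : W_34 (nat_lit 4) (nat_lit 0x1c000f0002000200010001000080000000000000000000000000000000) (nat_lit 0x0) (nat_lit 0x100008000000000001c00040002000000000000000000000000000000000000000) := T_34 (nat_lit 243) (nat_lit 260) (nat_lit 6) (nat_lit 5) (nat_lit 15) L91696 (by decide +kernel)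
theorem L91698 : W_34 (nat_lit 5) (nat_lit 0x1c000f0000000200010001000080000000000000000000000000000000) (nat_lit 0x0) (nat_lit 0x100008000000000003c00140002000000000000000000000000000000000000000) := T_34 (nat_lit 193) (nat_lit 176) (nat_lit 6) (nat_lit 6) (nat_lit 13) L91697 (by decide +kernel)
theorem L91699 : W_34 (nat_lit 6) (nat_lit 0x1c000e0000000200010001000080000000000000000000000000000000) (nat_lit 0x0) (nat_lit 0x100008000000018003c00140002000000000000000000000000000000000000000) := T_34 (nat_lit 208) (nat_lit 207) (nat_lit 3) (nat_lit 3) (nat_lit 12) L91698 (by decide +kernel)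
theorem L91700 : W_34 (nat_lit 2) (nat_lit 0x4001e000f0002000200010001000080000000000000000000000000000000) (nat_lit 0x0) (nat_lit 0x80000000000000001000080000000000000000000000000000000000000000000) := D_34 (nat_lit 192) (nat_lit 175) (nat_lit 259) (nat_lit 5) (nat_lit 5) (nat_lit 10) (nat_lit 6) (nat_lit 4) (nat_lit 15) (by decide +kernel)
theorem L91701 : W_34 (nat_lit 3) (nat_lit 0x1e000f0002000200010001000080000000000000000000000000000000) (nat_lit 0x0) (nat_lit 0x80006000000000001000080000000000000000000000000000000000000000000) := T_34 (nat_lit 242) (nat_lit 241) (nat_lit 1) (nat_lit 7) (nat_lit 13) L91700 (by decide +kernel)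
theorem L91702 : W_34 (nat_lit 4) (nat_lit 0x1e000e0002000200010001000080000000000000000000000000000000) (nat_lit 0x0) (nat_lit 0x80006000000018001000080000000000000000000000000000000000000000000) := T_34 (nat_lit 208) (nat_lit 207) (nat_lit 3) (nat_lit 3) (nat_lit 12) L91701 (by decide +kernel)
theorem L91703 : W_34 (nat_lit 5) (nat_lit 0x1c000e0002000200010001000080000000000000000000000000000000) (nat_lit 0x0) (nat_lit 0x80006000300018001000080000000000000000000000000000000000000000000) := T_34 (nat_lit 225) (nat_lit 224) (nat_lit 2) (nat_lit 3) (nat_lit 13) L91702 (by decide +kernel)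
theorem L91704 : W_34 (nat_lit 6) (nat_lit 0x1c000e0000000200010001000080000000000000000000000000000000) (nat_lit 0x0) (nat_lit 0x80006000300018003000180000000000000000000000000000000000000000000) := T_34 (nat_lit 193) (nat_lit 176) (nat_lit 6) (nat_lit 6) (nat_lit 13) L91703 (by decide +kernel)
theorem L91705 : W_34 (nat_lit 10) (nat_lit 0x18000e0000000200010001000080000000000000000000000000000000) (nat_lit 0x0) (nat_lit 0x300018000e000700018003c001c0002000000000000000000000000000000000000000) := Q_34 (nat_lit 226) (C_34 L91668 (C_34 L91676 (C_34 L91683 (C_34 L91689 (C_34 L91694 (C_34 L91699 (C_34 L91704 N_34))))))) (by decide +kernel)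
theorem L91706 : W_34 (nat_lit 2) (nat_lit 0x100018000e0000000200010001000080000000000000000000000000000000) (nat_lit 0x0) (nat_lit 0x4000200000000000000001000000000000000000000000000000000000000000000000) := D_34 (nat_lit 261) (nat_lit 192) (nat_lit 278) (nat_lit 4) (nat_lit 6) (nat_lit 15) (nat_lit 6) (nat_lit 6) (nat_lit 16) (by decide +kernel)
theorem L91707 : W_34 (nat_lit 2) (nat_lit 0x2000100058000e0002000200010001000080000000000000000000000000000000) (nat_lit 0x0) (nat_lit 0x2000100008000000000000000000000000000000000000000000000000000000000000) := D_34 (nat_lit 260) (nat_lit 243) (nat_lit 277) (nat_lit 5) (nat_lit 6) (nat_lit 11) (nat_lit 5) (nat_lit 6) (nat_lit 12) (by decide +kernel)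
theorem L91708 : W_34 (nat_lit 3) (nat_lit 0x2000100058000e0000000200010001000080000000000000000000000000000000) (nat_lit 0x0) (nat_lit 0x2000100008000000000002000100000000000000000000000000000000000000000000) := T_34 (nat_lit 193) (nat_lit 176) (nat_lit 6) (nat_lit 6) (nat_lit 13) L91707 (by decide +kernel)
theorem L91709 : W_34 (nat_lit 4) (nat_lit 0x100058000e0000000200010001000080000000000000000000000000000000) (nat_lit 0x0) (nat_lit 0x6000300008000000000002000100000000000000000000000000000000000000000000) := T_34 (nat_lit 261) (nat_lit 278) (nat_lit 6) (nat_lit 6) (nat_lit 16) L91708 (by decide +kernel)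
theorem L91710 : W_34 (nat_lit 5) (nat_lit 0x100018000e0000000200010001000080000000000000000000000000000000) (nat_lit 0x0) (nat_lit 0x6000300008006000000002000100000000000000000000000000000000000000000000) := T_34 (nat_lit 230) (nat_lit 229) (nat_lit 0) (nat_lit 9) (nat_lit 13) L91709 (by decide +kernel)
theorem L91711 : W_34 (nat_lit 2) (nat_lit 0x1c0018000e0002000200010001000080000000000000000000000000000000) (nat_lit 0x0) (nat_lit 0x6400000000000000000000000000000000000000000000000000000000) := D_34 (nat_lit 229) (nat_lit 230) (nat_lit 226) (nat_lit 1) (nat_lit 9) (nat_lit 13) (nat_lit 1) (nat_lit 8) (nat_lit 13) (by decide +kernel)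
theorem L91712 : W_34 (nat_lit 3) (nat_lit 0x180018000e0002000200010001000080000000000000000000000000000000) (nat_lit 0x0) (nat_lit 0x6006400000000000000000000000000000000000000000000000000000000) := T_34 (nat_lit 242) (nat_lit 241) (nat_lit 2) (nat_lit 3) (nat_lit 14) L91711 (by decide +kernel)
theorem L91713 : W_34 (nat_lit 4) (nat_lit 0x100018000e0002000200010001000080000000000000000000000000000000) (nat_lit 0x0) (nat_lit 0x10000e006400000000000000000000000000000000000000000000000000000000) := T_34 (nat_lit 243) (nat_lit 260) (nat_lit 5) (nat_lit 6) (nat_lit 11) L91712 (by decide +kernel)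
theorem L91714 : W_34 (nat_lit 5) (nat_lit 0x100018000e0000000200010001000080000000000000000000000000000000) (nat_lit 0x0) (nat_lit 0x10000e006400000002000100000000000000000000000000000000000000000000) := T_34 (nat_lit 193) (nat_lit 176) (nat_lit 6) (nat_lit 6) (nat_lit 13) L91713 (by decide +kernel)
theorem L91715 : W_34 (nat_lit 6) (nat_lit 0x18000e0000000200010001000080000000000000000000000000000000) (nat_lit 0x0) (nat_lit 0x600030001e006400000003000100000000000000000000000000000000000000000000) := Q_34 (nat_lit 244) (C_34 L91706 (C_34 L91710 (C_34 L91714 N_34))) (by decide +kernel)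
theorem L91716 : W_34 (nat_lit 11) (nat_lit 0x18000c0000000200010001000080000000000000000000000000000000) (nat_lit 0x0) (nat_lit 0x700038001e006700038003c001c0002000000000000000000000000000000000000000) := Q_34 (nat_lit 209) (C_34 L91663 (C_34 L91705 (C_34 L91715 N_34))) (by decide +kernel)
theorem L91717 : W_34 (nat_lit 2) (nat_lit 0x340030001a000f0000800300010001000080000000000000000000000000000000) (nat_lit 0x0) (nat_lit 0xc000400000000000000000000000000000000000000000000000000000000) := D_34 (nat_lit 243) (nat_lit 226) (nat_lit 242) (nat_lit 4) (nat_lit 5) (nat_lit 15) (nat_lit 7) (nat_lit 4) (nat_lit 11) (by decide +kernel)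
theorem L91718 : W_34 (nat_lit 3) (nat_lit 0x340030001a000f0000000300010001000080000000000000000000000000000000) (nat_lit 0x0) (nat_lit 0xc000400000000c00000000000000000000000000000000000000000000000) := T_34 (nat_lit 191) (nat_lit 190) (nat_lit 0) (nat_lit 7) (nat_lit 12) L91717 (by decide +kernel)
theorem L91719 : W_34 (nat_lit 4) (nat_lit 0x3400300018000f0000000300010001000080000000000000000000000000000000) (nat_lit 0x0) (nat_lit 0xc000700000000c00000000000000000000000000000000000000000000000) := T_34 (nat_lit 225) (nat_lit 224) (nat_lit 1) (nat_lit 7) (nat_lit 12) L91718 (by decide +kernel)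
theorem L91720 : W_34 (nat_lit 5) (nat_lit 0x3400300018000e0000000300010001000080000000000000000000000000000000) (nat_lit 0x0) (nat_lit 0xc000700018000c00000000000000000000000000000000000000000000000) := T_34 (nat_lit 208) (nat_lit 207) (nat_lit 3) (nat_lit 3) (nat_lit 12) L91719 (by decide +kernel)
theorem L91721 : W_34 (nat_lit 6) (nat_lit 0x3400300018000c0000000300010001000080000000000000000000000000000000) (nat_lit 0x0) (nat_lit 0xc000700038001c00000000000000000000000000000000000000000000000) := T_34 (nat_lit 209) (nat_lit 192) (nat_lit 4) (nat_lit 6) (nat_lit 15) L91720 (by decide +kernel)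
theorem L91722 : W_34 (nat_lit 7) (nat_lit 0x3000300018000c0000000300010001000080000000000000000000000000000000) (nat_lit 0x0) (nat_lit 0xc000c000700038001c00000000000000000000000000000000000000000000000) := T_34 (nat_lit 258) (nat_lit 259) (nat_lit 2) (nat_lit 3) (nat_lit 15) L91721 (by decide +kernel)
theorem L91723 : W_34 (nat_lit 8) (nat_lit 0x2000300018000c0000000300010001000080000000000000000000000000000000) (nat_lit 0x0) (nat_lit 0x20001c000c000700038001c00000000000000000000000000000000000000000000000) := T_34 (nat_lit 260) (nat_lit 277) (nat_lit 5) (nat_lit 6) (nat_lit 12) L91722 (by decide +kernel)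
theorem L91724 : W_34 (nat_lit 9) (nat_lit 0x300018000c0000000300010001000080000000000000000000000000000000) (nat_lit 0x0) (nat_lit 0x60003c000c000700038001c00000000000000000000000000000000000000000000000) := T_34 (nat_lit 261) (nat_lit 278) (nat_lit 6) (nat_lit 6) (nat_lit 16) L91723 (by decide +kernel)
theorem L91725 : W_34 (nat_lit 10) (nat_lit 0x300018000c0000000200010001000080000000000000000000000000000000) (nat_lit 0x0) (nat_lit 0x60003c000c000700038003c00100000000000000000000000000000000000000000000) := T_34 (nat_lit 176) (nat_lit 193) (nat_lit 7) (nat_lit 6) (nat_lit 10) L91724 (by decide +kernel)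
theorem L91726 : W_34 (nat_lit 2) (nat_lit 0x8003c001a000c0003400200010001000080000000000000000000000000000000) (nat_lit 0x0) (nat_lit 0x40000400020000000000000000000000000000000000000000000000000000) := D_34 (nat_lit 226) (nat_lit 246) (nat_lit 209) (nat_lit 3) (nat_lit 4) (nat_lit 13) (nat_lit 5) (nat_lit 5) (nat_lit 11) (by decide +kernel)
theorem L91727 : W_34 (nat_lit 3) (nat_lit 0x3c001a000c0003400200010001000080000000000000000000000000000000) (nat_lit 0x0) (nat_lit 0xc0040000400020000000000000000000000000000000000000000000000000000) := T_34 (nat_lit 259) (nat_lit 258) (nat_lit 1) (nat_lit 7) (nat_lit 14) L91726 (by decide +kernel)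
theorem L91728 : W_34 (nat_lit 4) (nat_lit 0x3c0018000c0003400200010001000080000000000000000000000000000000) (nat_lit 0x0) (nat_lit 0xc0040000700020000000000000000000000000000000000000000000000000000) := T_34 (nat_lit 225) (nat_lit 224) (nat_lit 0) (nat_lit 7) (nat_lit 14) L91727 (by decide +kernel)
theorem L91729 : W_34 (nat_lit 5) (nat_lit 0x3c0018000c0003000200010001000080000000000000000000000000000000) (nat_lit 0x0) (nat_lit 0xc0040000700020000c00000000000000000000000000000000000000000000000) := T_34 (nat_lit 190) (nat_lit 191) (nat_lit 3) (nat_lit 3) (nat_lit 11) L91728 (by decide +kernel)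
theorem L91730 : W_34 (nat_lit 6) (nat_lit 0x3c0018000c0002000200010001000080000000000000000000000000000000) (nat_lit 0x0) (nat_lit 0xc0040000700020001c00080000000000000000000000000000000000000000000) := T_34 (nat_lit 192) (nat_lit 175) (nat_lit 4) (nat_lit 6) (nat_lit 14) L91729 (by decide +kernel)
theorem L91731 : W_34 (nat_lit 7) (nat_lit 0x380018000c0002000200010001000080000000000000000000000000000000) (nat_lit 0x0) (nat_lit 0xc0046000700020001c00080000000000000000000000000000000000000000000) := T_34 (nat_lit 242) (nat_lit 241) (nat_lit 2) (nat_lit 3) (nat_lit 14) L91730 (by decide +kernel)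
theorem L91732 : W_34 (nat_lit 8) (nat_lit 0x300018000c0002000200010001000080000000000000000000000000000000) (nat_lit 0x0) (nat_lit 0x1c004e000700020001c00080000000000000000000000000000000000000000000) := T_34 (nat_lit 243) (nat_lit 260) (nat_lit 5) (nat_lit 6) (nat_lit 11) L91731 (by decide +kernel)
theorem L91733 : W_34 (nat_lit 9) (nat_lit 0x300018000c0000000200010001000080000000000000000000000000000000) (nat_lit 0x0) (nat_lit 0x1c004e000700020003c00180000000000000000000000000000000000000000000) := T_34 (nat_lit 193) (nat_lit 176) (nat_lit 7) (nat_lit 6) (nat_lit 10) L91732 (by decide +kernel)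
theorem L91734 : W_34 (nat_lit 2) (nat_lit 0x300018000c0003000200010001000080000000000000000000000000000000) (nat_lit 0x0) (nat_lit 0x4000200000000000020000000000000000000000000000000000000000000000000000) := D_34 (nat_lit 261) (nat_lit 278) (nat_lit 209) (nat_lit 6) (nat_lit 6) (nat_lit 16) (nat_lit 4) (nat_lit 6) (nat_lit 15) (by decide +kernel)
theorem L91735 : W_34 (nat_lit 3) (nat_lit 0x300018000c0002000200010001000080000000000000000000000000000000) (nat_lit 0x0) (nat_lit 0x4000200000000000020001000080000000000000000000000000000000000000000000) := T_34 (nat_lit 192) (nat_lit 175) (nat_lit 4) (nat_lit 6) (nat_lit 14) L91734 (by decide +kernel)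
theorem L91736 : W_34 (nat_lit 4) (nat_lit 0x300018000c0000000200010001000080000000000000000000000000000000) (nat_lit 0x0) (nat_lit 0x4000200000000000020003000180000000000000000000000000000000000000000000) := T_34 (nat_lit 193) (nat_lit 176) (nat_lit 7) (nat_lit 6) (nat_lit 10) L91735 (by decide +kernel)
theorem L91737 : W_34 (nat_lit 11) (nat_lit 0x200018000c0000000200010001000080000000000000000000000000000000) (nat_lit 0x0) (nat_lit 0x60003c00de000700038003c00180000000000000000000000000000000000000000000) := Q_34 (nat_lit 244) (C_34 L91725 (C_34 L91633 (C_34 L91733 (C_34 L91736 N_34)))) (by decide +kernel)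
theorem L91738 : W_34 (nat_lit 12) (nat_lit 0x18000c0000000200010001000080000000000000000000000000000000) (nat_lit 0x0) (nat_lit 0x1e003fc00fe000700038003c00180000000000000000000000000000000000000000000) := Q_34 (nat_lit 245) (C_34 L91737 (C_34 L91644 (C_34 L91645 N_34))) (by decide +kernel)
theorem L91739 : W_34 (nat_lit 2) (nat_lit 0x400080007e002c0002000200010001000080000000000000000000000000000000) (nat_lit 0x0) (nat_lit 0xe000000000000000000000000000000000000000000000000000000000000) := D_34 (nat_lit 242) (nat_lit 243) (nat_lit 241) (nat_lit 1) (nat_lit 8) (nat_lit 13) (nat_lit 1) (nat_lit 7) (nat_lit 13) (by decide +kernel)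
theorem L91740 : W_34 (nat_lit 3) (nat_lit 0x400080007c002c0002000200010001000080000000000000000000000000000000) (nat_lit 0x0) (nat_lit 0xe000300000000000000000000000000000000000000000000000000000000) := T_34 (nat_lit 225) (nat_lit 224) (nat_lit 2) (nat_lit 3) (nat_lit 13) L91739 (by decide +kernel)
theorem L91741 : W_34 (nat_lit 4) (nat_lit 0x4000800078002c0002000200010001000080000000000000000000000000000000) (nat_lit 0x0) (nat_lit 0x4e000700000000000000000000000000000000000000000000000000000000) := T_34 (nat_lit 226) (nat_lit 246) (nat_lit 3) (nat_lit 5) (nat_lit 13) L91740 (by decide +kernel)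
theorem L91742 : W_34 (nat_lit 5) (nat_lit 0x4000000078002c0002000200010001000080000000000000000000000000000000) (nat_lit 0x0) (nat_lit 0x1ce000700000000000000000000000000000000000000000000000000000000) := T_34 (nat_lit 247) (nat_lit 248) (nat_lit 3) (nat_lit 6) (nat_lit 13) L91741 (by decide +kernel)
theorem L91743 : W_34 (nat_lit 6) (nat_lit 0x4000000078000c0002000200010001000080000000000000000000000000000000) (nat_lit 0x0) (nat_lit 0x1ce000700600000000000000000000000000000000000000000000000000000) := T_34 (nat_lit 213) (nat_lit 214) (nat_lit 2) (nat_lit 6) (nat_lit 13) L91742 (by decide +kernel)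
theorem L91744 : W_34 (nat_lit 7) (nat_lit 0x4000000038000c0002000200010001000080000000000000000000000000000000) (nat_lit 0x0) (nat_lit 0x1ce00c700600000000000000000000000000000000000000000000000000000) := T_34 (nat_lit 230) (nat_lit 231) (nat_lit 0) (nat_lit 10) (nat_lit 13) L91743 (by decide +kernel)
theorem L91745 : W_34 (nat_lit 8) (nat_lit 0x38000c0002000200010001000080000000000000000000000000000000) (nat_lit 0x0) (nat_lit 0x4001ee00c700600000000000000000000000000000000000000000000000000000) := T_34 (nat_lit 262) (nat_lit 245) (nat_lit 4) (nat_lit 7) (nat_lit 15) L91744 (by decide +kernel)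
theorem L91746 : W_34 (nat_lit 9) (nat_lit 0x38000c0000000200010001000080000000000000000000000000000000) (nat_lit 0x0) (nat_lit 0x4001ee00c700600002000100000000000000000000000000000000000000000000) := T_34 (nat_lit 193) (nat_lit 176) (nat_lit 6) (nat_lit 6) (nat_lit 13) L91745 (by decide +kernel)
theorem L91747 : W_34 (nat_lit 5) (nat_lit 0x38000c0000000200010001000080000000000000000000000000000000) (nat_lit 0x0) (nat_lit 0x20001000ec000700038002000000000000000000000000000000000000000000000000) := Q_34 (nat_lit 226) (C_34 L91660 (C_34 L91616 (C_34 L91566 N_34))) (by decide +kernel)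
theorem L91748 : W_34 (nat_lit 10) (nat_lit 0x18000c0000000200010001000080000000000000000000000000000000) (nat_lit 0x0) (nat_lit 0x20005001ee00e700638002000100000000000000000000000000000000000000000000) := Q_34 (nat_lit 229) (C_34 L91601 (C_34 L91746 (C_34 L91747 N_34))) (by decide +kernel)
theorem L91749 : W_34 (nat_lit 2) (nat_lit 0x4000100078000c0002000200010001000080000000000000000000000000000000) (nat_lit 0x0) (nat_lit 0xc000200000000000000000000000000000000000000000000000000000000000000000) := D_34 (nat_lit 261) (nat_lit 279) (nat_lit 278) (nat_lit 7) (nat_lit 6) (nat_lit 12) (nat_lit 6) (nat_lit 6) (nat_lit 16) (by decide +kernel)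
theorem L91750 : W_34 (nat_lit 3) (nat_lit 0x4000000078000c0002000200010001000080000000000000000000000000000000) (nat_lit 0x0) (nat_lit 0xc000200018000000000000000000000000000000000000000000000000000000000000) := T_34 (nat_lit 244) (nat_lit 243) (nat_lit 1) (nat_lit 9) (nat_lit 13) L91749 (by decide +kernel)
theorem L91751 : W_34 (nat_lit 4) (nat_lit 0x4000000038000c0002000200010001000080000000000000000000000000000000) (nat_lit 0x0) (nat_lit 0xc00020001800c000000000000000000000000000000000000000000000000000000000) := T_34 (nat_lit 230) (nat_lit 231) (nat_lit 0) (nat_lit 10) (nat_lit 13) L91750 (by decide +kernel)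
theorem L91752 : W_34 (nat_lit 5) (nat_lit 0x38000c0002000200010001000080000000000000000000000000000000) (nat_lit 0x0) (nat_lit 0xc00060003800c000000000000000000000000000000000000000000000000000000000) := T_34 (nat_lit 262) (nat_lit 245) (nat_lit 4) (nat_lit 7) (nat_lit 15) L91751 (by decide +kernel)
theorem L91753 : W_34 (nat_lit 6) (nat_lit 0x38000c0000000200010001000080000000000000000000000000000000) (nat_lit 0x0) (nat_lit 0xc00060003800c000000002000100000000000000000000000000000000000000000000) := T_34 (nat_lit 193) (nat_lit 176) (nat_lit 6) (nat_lit 6) (nat_lit 13) L91752 (by decide +kernel)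
theorem L91754 : W_34 (nat_lit 2) (nat_lit 0x2000100038000d0002000200010001000080000000000000000000000000000000) (nat_lit 0x0) (nat_lit 0x2000100008000000000000000000000000000000000000000000000000000000000000) := D_34 (nat_lit 260) (nat_lit 243) (nat_lit 277) (nat_lit 5) (nat_lit 6) (nat_lit 11) (nat_lit 5) (nat_lit 6) (nat_lit 12) (by decide +kernel)
theorem L91755 : W_34 (nat_lit 3) (nat_lit 0x2000100038000d0000000200010001000080000000000000000000000000000000) (nat_lit 0x0) (nat_lit 0x2000100008000000000002000100000000000000000000000000000000000000000000) := T_34 (nat_lit 193) (nat_lit 176) (nat_lit 6) (nat_lit 6) (nat_lit 13) L91754 (by decide +kernel)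
theorem L91756 : W_34 (nat_lit 4) (nat_lit 0x100038000d0000000200010001000080000000000000000000000000000000) (nat_lit 0x0) (nat_lit 0x6000300008000000000002000100000000000000000000000000000000000000000000) := T_34 (nat_lit 261) (nat_lit 278) (nat_lit 6) (nat_lit 6) (nat_lit 16) L91755 (by decide +kernel)
theorem L91757 : W_34 (nat_lit 5) (nat_lit 0x100038000c0000000200010001000080000000000000000000000000000000) (nat_lit 0x0) (nat_lit 0x6000300008000000030002000100000000000000000000000000000000000000000000) := T_34 (nat_lit 208) (nat_lit 209) (nat_lit 3) (nat_lit 4) (nat_lit 12) L91756 (by decide +kernel)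
theorem L91758 : W_34 (nat_lit 2) (nat_lit 0x100038000e0000000200010001000080000000000000000000000000000000) (nat_lit 0x0) (nat_lit 0x4000200000000000000001000000000000000000000000000000000000000000000000) := D_34 (nat_lit 261) (nat_lit 278) (nat_lit 192) (nat_lit 6) (nat_lit 6) (nat_lit 16) (nat_lit 4) (nat_lit 6) (nat_lit 15) (by decide +kernel)
theorem L91759 : W_34 (nat_lit 3) (nat_lit 0x100038000c0000000200010001000080000000000000000000000000000000) (nat_lit 0x0) (nat_lit 0x4000200000000000030001000000000000000000000000000000000000000000000000) := T_34 (nat_lit 209) (nat_lit 208) (nat_lit 3) (nat_lit 4) (nat_lit 12) L91758 (by decide +kernel)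
theorem L91760 : W_34 (nat_lit 2) (nat_lit 0x40000000180038000c0002000200010001000080000000000000000000000000000000) (nat_lit 0x0) (nat_lit 0x26000000000000000000000000000000000000000000000000000000000000) := D_34 (nat_lit 242) (nat_lit 245) (nat_lit 241) (nat_lit 2) (nat_lit 4) (nat_lit 14) (nat_lit 2) (nat_lit 3) (nat_lit 14) (by decide +kernel)
theorem L91761 : W_34 (nat_lit 3) (nat_lit 0x40000000100038000c0002000200010001000080000000000000000000000000000000) (nat_lit 0x0) (nat_lit 0x10002e000000000000000000000000000000000000000000000000000000000000) := T_34 (nat_lit 243) (nat_lit 260) (nat_lit 5) (nat_lit 6) (nat_lit 11) L91760 (by decide +kernel)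
theorem L91762 : W_34 (nat_lit 4) (nat_lit 0x40000000100038000c0000000200010001000080000000000000000000000000000000) (nat_lit 0x0) (nat_lit 0x10002e000000000002000100000000000000000000000000000000000000000000) := T_34 (nat_lit 193) (nat_lit 176) (nat_lit 6) (nat_lit 6) (nat_lit 13) L91761 (by decide +kernel)
theorem L91763 : W_34 (nat_lit 5) (nat_lit 0x100038000c0000000200010001000080000000000000000000000000000000) (nat_lit 0x0) (nat_lit 0x400030002e000000000002000100000000000000000000000000000000000000000000) := T_34 (nat_lit 278) (nat_lit 261) (nat_lit 6) (nat_lit 6) (nat_lit 16) L91762 (by decide +kernel)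
theorem L91764 : W_34 (nat_lit 2) (nat_lit 0x180038000c0002000200010001000080000000000000000000000000000000) (nat_lit 0x0) (nat_lit 0x26000000000000000000000000000000000000000000000000000000000000) := D_34 (nat_lit 242) (nat_lit 245) (nat_lit 241) (nat_lit 2) (nat_lit 4) (nat_lit 14) (nat_lit 2) (nat_lit 3) (nat_lit 14) (by decide +kernel)
theorem L91765 : W_34 (nat_lit 3) (nat_lit 0x100038000c0002000200010001000080000000000000000000000000000000) (nat_lit 0x0) (nat_lit 0x10002e000000000000000000000000000000000000000000000000000000000000) := T_34 (nat_lit 243) (nat_lit 260) (nat_lit 5) (nat_lit 6) (nat_lit 11) L91764 (by decide +kernel)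
theorem L91766 : W_34 (nat_lit 4) (nat_lit 0x100038000c0000000200010001000080000000000000000000000000000000) (nat_lit 0x0) (nat_lit 0x10002e000000000002000100000000000000000000000000000000000000000000) := T_34 (nat_lit 193) (nat_lit 176) (nat_lit 6) (nat_lit 6) (nat_lit 13) L91765 (by decide +kernel)
theorem L91767 : W_34 (nat_lit 6) (nat_lit 0x38000c0000000200010001000080000000000000000000000000000000) (nat_lit 0x0) (nat_lit 0x600030003e000000030003000100000000000000000000000000000000000000000000) := Q_34 (nat_lit 244) (C_34 L91757 (C_34 L91759 (C_34 L91763 (C_34 L91766 N_34)))) (by decide +kernel)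
theorem L91768 : W_34 (nat_lit 7) (nat_lit 0x18000c0000000200010001000080000000000000000000000000000000) (nat_lit 0x0) (nat_lit 0xe00070003e00e000030003000100000000000000000000000000000000000000000000) := Q_34 (nat_lit 229) (C_34 L91601 (C_34 L91753 (C_34 L91767 N_34))) (by decide +kernel)
theorem L91769 : W_34 (nat_lit 2) (nat_lit 0x24001e000f0002800200010001000080000000000000000000000000000000) (nat_lit 0x0) (nat_lit 0x80000000000000001000080000000000000000000000000000000000000000000) := D_34 (nat_lit 192) (nat_lit 175) (nat_lit 259) (nat_lit 6) (nat_lit 4) (nat_lit 14) (nat_lit 6) (nat_lit 4) (nat_lit 15) (by decide +kernel)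
theorem L91770 : W_34 (nat_lit 3) (nat_lit 0x20001e000f0002800200010001000080000000000000000000000000000000) (nat_lit 0x0) (nat_lit 0x80006000000000001000080000000000000000000000000000000000000000000) := T_34 (nat_lit 242) (nat_lit 241) (nat_lit 1) (nat_lit 7) (nat_lit 13) L91769 (by decide +kernel)
theorem L91771 : W_34 (nat_lit 4) (nat_lit 0x20001a000f0002800200010001000080000000000000000000000000000000) (nat_lit 0x0) (nat_lit 0x80046000400000001000080000000000000000000000000000000000000000000) := T_34 (nat_lit 226) (nat_lit 246) (nat_lit 3) (nat_lit 4) (nat_lit 13) L91770 (by decide +kernel)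
theorem L91772 : W_34 (nat_lit 5) (nat_lit 0x20001a000f0002000200010001000080000000000000000000000000000000) (nat_lit 0x0) (nat_lit 0x80046000400000001c00080000000000000000000000000000000000000000000) := T_34 (nat_lit 191) (nat_lit 190) (nat_lit 0) (nat_lit 7) (nat_lit 12) L91771 (by decide +kernel)
theorem L91773 : W_34 (nat_lit 6) (nat_lit 0x200018000f0002000200010001000080000000000000000000000000000000) (nat_lit 0x0) (nat_lit 0x80046000700000001c00080000000000000000000000000000000000000000000) := T_34 (nat_lit 225) (nat_lit 224) (nat_lit 1) (nat_lit 7) (nat_lit 12) L91772 (by decide +kernel)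
theorem L91774 : W_34 (nat_lit 7) (nat_lit 0x200018000e0002000200010001000080000000000000000000000000000000) (nat_lit 0x0) (nat_lit 0x80046000700018001c00080000000000000000000000000000000000000000000) := T_34 (nat_lit 208) (nat_lit 207) (nat_lit 3) (nat_lit 3) (nat_lit 12) L91773 (by decide +kernel)
theorem L91775 : W_34 (nat_lit 8) (nat_lit 0x18000e0002000200010001000080000000000000000000000000000000) (nat_lit 0x0) (nat_lit 0x480066000700018001c00080000000000000000000000000000000000000000000) := T_34 (nat_lit 245) (nat_lit 262) (nat_lit 4) (nat_lit 7) (nat_lit 15) L91774 (by decide +kernel)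
theorem L91776 : W_34 (nat_lit 9) (nat_lit 0x18000e0000000200010001000080000000000000000000000000000000) (nat_lit 0x0) (nat_lit 0x480066000700018003c00180000000000000000000000000000000000000000000) := T_34 (nat_lit 193) (nat_lit 176) (nat_lit 6) (nat_lit 6) (nat_lit 13) L91775 (by decide +kernel)
theorem L91777 : W_34 (nat_lit 2) (nat_lit 0x18000e0002000280010001000080000000000000000000000000000000) (nat_lit 0x0) (nat_lit 0x10000000000001000000004000000000000000000000000000000000000000) := D_34 (nat_lit 192) (nat_lit 158) (nat_lit 244) (nat_lit 7) (nat_lit 5) (nat_lit 9) (nat_lit 4) (nat_lit 6) (nat_lit 14) (by decide +kernel)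
theorem L91778 : W_34 (nat_lit 3) (nat_lit 0x18000e0000000280010001000080000000000000000000000000000000) (nat_lit 0x0) (nat_lit 0x10000000000003000100004000000000000000000000000000000000000000) := T_34 (nat_lit 193) (nat_lit 176) (nat_lit 6) (nat_lit 6) (nat_lit 13) L91777 (by decide +kernel)
theorem L91779 : W_34 (nat_lit 2) (nat_lit 0x18000e0001000280010001000080000000000000000000000000000000) (nat_lit 0x0) (nat_lit 0x200010000400000000000000000000000000000000000000000000000000000000) := D_34 (nat_lit 244) (nat_lit 261) (nat_lit 226) (nat_lit 4) (nat_lit 6) (nat_lit 15) (nat_lit 7) (nat_lit 5) (nat_lit 10) (by decide +kernel)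
theorem L91780 : W_34 (nat_lit 3) (nat_lit 0x18000e0000000280010001000080000000000000000000000000000000) (nat_lit 0x0) (nat_lit 0x200010000400000001000000004000000000000000000000000000000000000000) := T_34 (nat_lit 192) (nat_lit 158) (nat_lit 7) (nat_lit 5) (nat_lit 9) L91779 (by decide +kernel)
theorem L91781 : W_34 (nat_lit 2) (nat_lit 0x4000100058000e0002000280010001000080000000000000000000000000000000) (nat_lit 0x0) (nat_lit 0xc000200000000000000000000000000000000000000000000000000000000000000000) := D_34 (nat_lit 261) (nat_lit 279) (nat_lit 278) (nat_lit 7) (nat_lit 6) (nat_lit 12) (nat_lit 6) (nat_lit 6) (nat_lit 16) (by decide +kernel)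
theorem L91782 : W_34 (nat_lit 3) (nat_lit 0x4000000058000e0002000280010001000080000000000000000000000000000000) (nat_lit 0x0) (nat_lit 0xc000200010000000000001000000000000000000000000000000000000000000000000) := T_34 (nat_lit 244) (nat_lit 192) (nat_lit 4) (nat_lit 6) (nat_lit 14) L91781 (by decide +kernel)
theorem L91783 : W_34 (nat_lit 4) (nat_lit 0x58000e0002000280010001000080000000000000000000000000000000) (nat_lit 0x0) (nat_lit 0xc000600030000000000001000000000000000000000000000000000000000000000000) := T_34 (nat_lit 262) (nat_lit 245) (nat_lit 4) (nat_lit 7) (nat_lit 15) L91782 (by decide +kernel)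
theorem L91784 : W_34 (nat_lit 5) (nat_lit 0x58000e0000000280010001000080000000000000000000000000000000) (nat_lit 0x0) (nat_lit 0xc000600030000000000003000100000000000000000000000000000000000000000000) := T_34 (nat_lit 193) (nat_lit 176) (nat_lit 6) (nat_lit 6) (nat_lit 13) L91783 (by decide +kernel)
theorem L91785 : W_34 (nat_lit 6) (nat_lit 0x18000e0000000280010001000080000000000000000000000000000000) (nat_lit 0x0) (nat_lit 0xc000600030006000000003000100000000000000000000000000000000000000000000) := T_34 (nat_lit 230) (nat_lit 229) (nat_lit 0) (nat_lit 9) (nat_lit 13) L91784 (by decide +kernel)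
theorem L91786 : W_34 (nat_lit 2) (nat_lit 0x18000e00000003e0010001000080000000000000000000000000000000) (nat_lit 0x0) (nat_lit 0xe00000000000000000000000000000000000000000000000) := D_34 (nat_lit 190) (nat_lit 189) (nat_lit 191) (nat_lit 1) (nat_lit 6) (nat_lit 10) (nat_lit 1) (nat_lit 7) (nat_lit 10) (by decide +kernel)
theorem L91787 : W_34 (nat_lit 3) (nat_lit 0x18000e00000003c0010001000080000000000000000000000000000000) (nat_lit 0x0) (nat_lit 0xe00020008000000000000000000000000000000000000000) := T_34 (nat_lit 173) (nat_lit 159) (nat_lit 2) (nat_lit 3) (nat_lit 10) L91786 (by decide +kernel)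
theorem L91788 : W_34 (nat_lit 4) (nat_lit 0x18000e0000000380010001000080000000000000000000000000000000) (nat_lit 0x0) (nat_lit 0xe00060028000000000000000000000000000000000000000) := T_34 (nat_lit 174) (nat_lit 161) (nat_lit 2) (nat_lit 4) (nat_lit 10) L91787 (by decide +kernel)
theorem L91789 : W_34 (nat_lit 5) (nat_lit 0x18000e0000000280010001000080000000000000000000000000000000) (nat_lit 0x0) (nat_lit 0x2e00160028000000000000000000000000000000000000000) := T_34 (nat_lit 176) (nat_lit 193) (nat_lit 6) (nat_lit 6) (nat_lit 13) L91788 (by decide +kernel)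
theorem L91790 : W_34 (nat_lit 7) (nat_lit 0x18000e0000000200010001000080000000000000000000000000000000) (nat_lit 0x0) (nat_lit 0xc000600030006400000003e001e002c000000000000000000000000000000000000000) := Q_34 (nat_lit 175) (C_34 L91778 (C_34 L91780 (C_34 L91785 (C_34 L91789 N_34)))) (by decide +kernel)
theorem L91791 : W_34 (nat_lit 10) (nat_lit 0x18000c0000000200010001000080000000000000000000000000000000) (nat_lit 0x0) (nat_lit 0xc000680076006700038003e001e002c000000000000000000000000000000000000000) := Q_34 (nat_lit 209) (C_34 L91663 (C_34 L91776 (C_34 L91790 N_34))) (by decide +kernel)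
theorem L91792 : W_34 (nat_lit 2) (nat_lit 0x20001e000f0002800200010001000080000000000000000000000000000000) (nat_lit 0x0) (nat_lit 0x100008000000000000000040000000000000000000000000000000000000000000) := D_34 (nat_lit 243) (nat_lit 260) (nat_lit 174) (nat_lit 6) (nat_lit 5) (nat_lit 15) (nat_lit 7) (nat_lit 4) (nat_lit 10) (by decide +kernel)
theorem L91793 : W_34 (nat_lit 3) (nat_lit 0x20001a000f0002800200010001000080000000000000000000000000000000) (nat_lit 0x0) (nat_lit 0x100048000400000000000040000000000000000000000000000000000000000000) := T_34 (nat_lit 226) (nat_lit 246) (nat_lit 3) (nat_lit 4) (nat_lit 13) L91792 (by decide +kernel)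
theorem L91794 : W_34 (nat_lit 4) (nat_lit 0x20001a000f0002000200010001000080000000000000000000000000000000) (nat_lit 0x0) (nat_lit 0x100048000400000000c00040000000000000000000000000000000000000000000) := T_34 (nat_lit 191) (nat_lit 190) (nat_lit 0) (nat_lit 7) (nat_lit 12) L91793 (by decide +kernel)
theorem L91795 : W_34 (nat_lit 5) (nat_lit 0x200018000f0002000200010001000080000000000000000000000000000000) (nat_lit 0x0) (nat_lit 0x100048000700000000c00040000000000000000000000000000000000000000000) := T_34 (nat_lit 225) (nat_lit 224) (nat_lit 1) (nat_lit 7) (nat_lit 12) L91794 (by decide +kernel)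
theorem L91796 : W_34 (nat_lit 6) (nat_lit 0x200018000e0002000200010001000080000000000000000000000000000000) (nat_lit 0x0) (nat_lit 0x100048000700018000c00040000000000000000000000000000000000000000000) := T_34 (nat_lit 208) (nat_lit 207) (nat_lit 3) (nat_lit 3) (nat_lit 12) L91795 (by decide +kernel)
theorem L91797 : W_34 (nat_lit 7) (nat_lit 0x18000e0002000200010001000080000000000000000000000000000000) (nat_lit 0x0) (nat_lit 0x500068000700018000c00040000000000000000000000000000000000000000000) := T_34 (nat_lit 245) (nat_lit 262) (nat_lit 4) (nat_lit 7) (nat_lit 15) L91796 (by decide +kernel)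
theorem L91798 : W_34 (nat_lit 8) (nat_lit 0x18000e0000000200010001000080000000000000000000000000000000) (nat_lit 0x0) (nat_lit 0x500068000700018002c00140000000000000000000000000000000000000000000) := T_34 (nat_lit 193) (nat_lit 176) (nat_lit 6) (nat_lit 6) (nat_lit 13) L91797 (by decide +kernel)
theorem L91799 : W_34 (nat_lit 9) (nat_lit 0x18000c0000000200010001000080000000000000000000000000000000) (nat_lit 0x0) (nat_lit 0xc000700078006700038003e001e002c000000000000000000000000000000000000000) := Q_34 (nat_lit 209) (C_34 L91663 (C_34 L91790 (C_34 L91798 N_34))) (by decide +kernel)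
theorem L91800 : W_34 (nat_lit 13) (nat_lit 0x8000c0000000200010001000080000000000000000000000000000000) (nat_lit 0x0) (nat_lit 0x1f003fc01fe00f700638013e001e002e000000000000000000000000000000000000000) := Q_34 (nat_lit 228) (C_34 L91618 (C_34 L91658 (C_34 L91662 (C_34 L91716 (C_34 L91738 (C_34 L91748 (C_34 L91768 (C_34 L91791 (C_34 L91799 N_34))))))))) (by decide +kernel)
theorem L91801 : W_34 (nat_lit 3) (nat_lit 0x8000c000c0000000200010001000080000000000000000000000000000000) (nat_lit 0x0) (nat_lit 0x2000100010000000000002000100000000000000000000000000000000000000000000) := T_34 (nat_lit 193) (nat_lit 176) (nat_lit 6) (nat_lit 6) (nat_lit 13) L91408 (by decide +kernel)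
theorem L91802 : W_34 (nat_lit 2) (nat_lit 0x2000000008003c000c0000000200010001000080000000000000000000000000000000) (nat_lit 0x0) (nat_lit 0x1000c000000000000000000000000000000000000000000000000000000000) := D_34 (nat_lit 230) (nat_lit 231) (nat_lit 244) (nat_lit 0) (nat_lit 10) (nat_lit 13) (nat_lit 1) (nat_lit 9) (nat_lit 13) (by decide +kernel)
theorem L91803 : W_34 (nat_lit 3) (nat_lit 0x2000000008001c000c0000000200010001000080000000000000000000000000000000) (nat_lit 0x0) (nat_lit 0x1400e000000000000000000000000000000000000000000000000000000000) := T_34 (nat_lit 229) (nat_lit 242) (nat_lit 1) (nat_lit 8) (nat_lit 13) L91802 (by decide +kernel)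
theorem L91804 : W_34 (nat_lit 4) (nat_lit 0x8001c000c0000000200010001000080000000000000000000000000000000) (nat_lit 0x0) (nat_lit 0x200010001400e000000000000000000000000000000000000000000000000000000000) := T_34 (nat_lit 277) (nat_lit 260) (nat_lit 6) (nat_lit 5) (nat_lit 16) L91803 (by decide +kernel)
theorem L91805 : W_34 (nat_lit 2) (nat_lit 0x2000c00028001e000d0000000200010001000080000000000000000000000000000000) (nat_lit 0x0) (nat_lit 0x16000000000000000000000000000000000000000000000000000000000000) := D_34 (nat_lit 242) (nat_lit 244) (nat_lit 241) (nat_lit 3) (nat_lit 4) (nat_lit 14) (nat_lit 1) (nat_lit 7) (nat_lit 13) (by decide +kernel)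
theorem L91806 : W_34 (nat_lit 3) (nat_lit 0x2000400028001e000d0000000200010001000080000000000000000000000000000000) (nat_lit 0x0) (nat_lit 0x10000800016000000000000000000000000000000000000000000000000000000000000) := T_34 (nat_lit 263) (nat_lit 280) (nat_lit 7) (nat_lit 7) (nat_lit 12) L91805 (by decide +kernel)
theorem L91807 : W_34 (nat_lit 4) (nat_lit 0x2000400028001e000c0000000200010001000080000000000000000000000000000000) (nat_lit 0x0) (nat_lit 0x10000800016000000018000000000000000000000000000000000000000000000000000) := T_34 (nat_lit 208) (nat_lit 207) (nat_lit 0) (nat_lit 7) (nat_lit 13) L91806 (by decide +kernel)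
theorem L91808 : W_34 (nat_lit 5) (nat_lit 0x2000000028001e000c0000000200010001000080000000000000000000000000000000) (nat_lit 0x0) (nat_lit 0x18000c00016000000018000000000000000000000000000000000000000000000000000) := T_34 (nat_lit 262) (nat_lit 279) (nat_lit 4) (nat_lit 7) (nat_lit 16) L91807 (by decide +kernel)
theorem L91809 : W_34 (nat_lit 6) (nat_lit 0x2000000008001e000c0000000200010001000080000000000000000000000000000000) (nat_lit 0x0) (nat_lit 0x18000c00076000000018000000000000000000000000000000000000000000000000000) := T_34 (nat_lit 245) (nat_lit 246) (nat_lit 3) (nat_lit 4) (nat_lit 13) L91808 (by decide +kernel)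
theorem L91810 : W_34 (nat_lit 7) (nat_lit 0x8001e000c0000000200010001000080000000000000000000000000000000) (nat_lit 0x0) (nat_lit 0x1a000d00076000000018000000000000000000000000000000000000000000000000000) := T_34 (nat_lit 277) (nat_lit 260) (nat_lit 6) (nat_lit 5) (nat_lit 16) L91809 (by decide +kernel)
theorem L91811 : W_34 (nat_lit 8) (nat_lit 0x8001c000c0000000200010001000080000000000000000000000000000000) (nat_lit 0x0) (nat_lit 0x1a000d00076000300018000000000000000000000000000000000000000000000000000) := T_34 (nat_lit 225) (nat_lit 224) (nat_lit 2) (nat_lit 3) (nat_lit 13) L91810 (by decide +kernel)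
theorem L91812 : W_34 (nat_lit 2) (nat_lit 0x200000004800bc000c0000000200010001000080000000000000000000000000000000) (nat_lit 0x0) (nat_lit 0x20000300000000000000000000000000000000000000000000000000000000) := D_34 (nat_lit 225) (nat_lit 245) (nat_lit 224) (nat_lit 3) (nat_lit 4) (nat_lit 13) (nat_lit 2) (nat_lit 3) (nat_lit 13) (by decide +kernel)
theorem L91813 : W_34 (nat_lit 3) (nat_lit 0x200000000800bc000c0000000200010001000080000000000000000000000000000000) (nat_lit 0x0) (nat_lit 0xe0000300000000000000000000000000000000000000000000000000000000) := T_34 (nat_lit 246) (nat_lit 247) (nat_lit 3) (nat_lit 5) (nat_lit 13) L91812 (by decide +kernel)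
theorem L91814 : W_34 (nat_lit 4) (nat_lit 0x2000000008003c000c0000000200010001000080000000000000000000000000000000) (nat_lit 0x0) (nat_lit 0xe000c300000000000000000000000000000000000000000000000000000000) := T_34 (nat_lit 231) (nat_lit 230) (nat_lit 0) (nat_lit 10) (nat_lit 13) L91813 (by decide +kernel)
theorem L91815 : W_34 (nat_lit 5) (nat_lit 0x2000000008001c000c0000000200010001000080000000000000000000000000000000) (nat_lit 0x0) (nat_lit 0xe400e300000000000000000000000000000000000000000000000000000000) := T_34 (nat_lit 229) (nat_lit 242) (nat_lit 1) (nat_lit 8) (nat_lit 13) L91814 (by decide +kernel)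
theorem L91816 : W_34 (nat_lit 6) (nat_lit 0x8001c000c0000000200010001000080000000000000000000000000000000) (nat_lit 0x0) (nat_lit 0x20001000e400e300000000000000000000000000000000000000000000000000000000) := T_34 (nat_lit 277) (nat_lit 260) (nat_lit 6) (nat_lit 5) (nat_lit 16) L91815 (by decide +kernel)
theorem L91817 : W_34 (nat_lit 2) (nat_lit 0x2000000048003e000d0000000200010001000080000000000000000000000000000000) (nat_lit 0x0) (nat_lit 0x1000c000000000000000000000000000000000000000000000000000000000) := D_34 (nat_lit 230) (nat_lit 244) (nat_lit 231) (nat_lit 1) (nat_lit 9) (nat_lit 13) (nat_lit 0) (nat_lit 10) (nat_lit 13) (by decide +kernel)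
theorem L91818 : W_34 (nat_lit 3) (nat_lit 0x2000000048001e000d0000000200010001000080000000000000000000000000000000) (nat_lit 0x0) (nat_lit 0x9000e000000000000000000000000000000000000000000000000000000000) := T_34 (nat_lit 229) (nat_lit 247) (nat_lit 3) (nat_lit 5) (nat_lit 13) L91817 (by decide +kernel)
theorem L91819 : W_34 (nat_lit 4) (nat_lit 0x2000000008001e000d0000000200010001000080000000000000000000000000000000) (nat_lit 0x0) (nat_lit 0xf000e000000000000000000000000000000000000000000000000000000000) := T_34 (nat_lit 246) (nat_lit 245) (nat_lit 3) (nat_lit 4) (nat_lit 13) L91818 (by decide +kernel)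
theorem L91820 : W_34 (nat_lit 5) (nat_lit 0x2000000008001e000c0000000200010001000080000000000000000000000000000000) (nat_lit 0x0) (nat_lit 0xf000e000018000000000000000000000000000000000000000000000000000) := T_34 (nat_lit 208) (nat_lit 207) (nat_lit 0) (nat_lit 7) (nat_lit 13) L91819 (by decide +kernel)
theorem L91821 : W_34 (nat_lit 6) (nat_lit 0x2000000008001c000c0000000200010001000080000000000000000000000000000000) (nat_lit 0x0) (nat_lit 0xf000e300018000000000000000000000000000000000000000000000000000) := T_34 (nat_lit 225) (nat_lit 224) (nat_lit 2) (nat_lit 3) (nat_lit 13) L91820 (by decide +kernel)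
theorem L91822 : W_34 (nat_lit 7) (nat_lit 0x8001c000c0000000200010001000080000000000000000000000000000000) (nat_lit 0x0) (nat_lit 0x20001000f000e300018000000000000000000000000000000000000000000000000000) := T_34 (nat_lit 277) (nat_lit 260) (nat_lit 6) (nat_lit 5) (nat_lit 16) L91821 (by decide +kernel)
theorem L91823 : W_34 (nat_lit 2) (nat_lit 0x8003d000c0000000200010001000080000000000000000000000000000000) (nat_lit 0x0) (nat_lit 0x1000c000000000000000000000000000000000000000000000000000000000) := D_34 (nat_lit 230) (nat_lit 231) (nat_lit 244) (nat_lit 0) (nat_lit 10) (nat_lit 13) (nat_lit 1) (nat_lit 9) (nat_lit 13) (by decide +kernel)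
theorem L91824 : W_34 (nat_lit 3) (nat_lit 0x8001d000c0000000200010001000080000000000000000000000000000000) (nat_lit 0x0) (nat_lit 0x1400e000000000000000000000000000000000000000000000000000000000) := T_34 (nat_lit 229) (nat_lit 242) (nat_lit 1) (nat_lit 8) (nat_lit 13) L91823 (by decide +kernel)
theorem L91825 : W_34 (nat_lit 4) (nat_lit 0x8001c000c0000000200010001000080000000000000000000000000000000) (nat_lit 0x0) (nat_lit 0x1400e300000000000000000000000000000000000000000000000000000000) := T_34 (nat_lit 224) (nat_lit 225) (nat_lit 2) (nat_lit 3) (nat_lit 13) L91824 (by decide +kernel)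
theorem L91826 : W_34 (nat_lit 9) (nat_lit 0x8000c000c0000000200010001000080000000000000000000000000000000) (nat_lit 0x0) (nat_lit 0x1a000d000f600f300018000000000000000000000000000000000000000000000000000) := Q_34 (nat_lit 228) (C_34 L91804 (C_34 L91811 (C_34 L91816 (C_34 L91822 (C_34 L91825 N_34))))) (by decide +kernel)
theorem L91827 : W_34 (nat_lit 2) (nat_lit 0x2000400008007c000c0002000200010001000080000000000000000000000000000000) (nat_lit 0x0) (nat_lit 0x1c0000000000000000000000000000000000000000000000000000000000000) := D_34 (nat_lit 247) (nat_lit 246) (nat_lit 248) (nat_lit 3) (nat_lit 5) (nat_lit 13) (nat_lit 3) (nat_lit 6) (nat_lit 13) (by decide +kernel)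
theorem L91828 : W_34 (nat_lit 3) (nat_lit 0x2000400008003c000c0002000200010001000080000000000000000000000000000000) (nat_lit 0x0) (nat_lit 0x1c000c000000000000000000000000000000000000000000000000000000000) := T_34 (nat_lit 230) (nat_lit 231) (nat_lit 0) (nat_lit 10) (nat_lit 13) L91827 (by decide +kernel)
theorem L91829 : W_34 (nat_lit 4) (nat_lit 0x2000400008001c000c0002000200010001000080000000000000000000000000000000) (nat_lit 0x0) (nat_lit 0x1c400e000000000000000000000000000000000000000000000000000000000) := T_34 (nat_lit 229) (nat_lit 242) (nat_lit 1) (nat_lit 8) (nat_lit 13) L91828 (by decide +kernel)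
theorem L91830 : W_34 (nat_lit 5) (nat_lit 0x2000000008001c000c0002000200010001000080000000000000000000000000000000) (nat_lit 0x0) (nat_lit 0x4001e400e000000000000000000000000000000000000000000000000000000000) := T_34 (nat_lit 262) (nat_lit 245) (nat_lit 4) (nat_lit 7) (nat_lit 15) L91829 (by decide +kernel)
theorem L91831 : W_34 (nat_lit 6) (nat_lit 0x2000000008001c000c0000000200010001000080000000000000000000000000000000) (nat_lit 0x0) (nat_lit 0x4001e400e000000002000100000000000000000000000000000000000000000000) := T_34 (nat_lit 193) (nat_lit 176) (nat_lit 6) (nat_lit 6) (nat_lit 13) L91830 (by decide +kernel)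
theorem L91832 : W_34 (nat_lit 7) (nat_lit 0x8001c000c0000000200010001000080000000000000000000000000000000) (nat_lit 0x0) (nat_lit 0x20005001e400e000000002000100000000000000000000000000000000000000000000) := T_34 (nat_lit 277) (nat_lit 260) (nat_lit 6) (nat_lit 5) (nat_lit 16) L91831 (by decide +kernel)
theorem L91833 : W_34 (nat_lit 2) (nat_lit 0x8003c000c0000000300010001000080000000000000000000000000000000) (nat_lit 0x0) (nat_lit 0x1000c000000000000000000000000000000000000000000000000000000000) := D_34 (nat_lit 230) (nat_lit 231) (nat_lit 244) (nat_lit 0) (nat_lit 10) (nat_lit 13) (nat_lit 1) (nat_lit 9) (nat_lit 13) (by decide +kernel)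
theorem L91834 : W_34 (nat_lit 3) (nat_lit 0x8001c000c0000000300010001000080000000000000000000000000000000) (nat_lit 0x0) (nat_lit 0x1400e000000000000000000000000000000000000000000000000000000000) := T_34 (nat_lit 229) (nat_lit 242) (nat_lit 1) (nat_lit 8) (nat_lit 13) L91833 (by decide +kernel)
theorem L91835 : W_34 (nat_lit 4) (nat_lit 0x8001c000c0000000200010001000080000000000000000000000000000000) (nat_lit 0x0) (nat_lit 0x1400e000000002000100000000000000000000000000000000000000000000) := T_34 (nat_lit 176) (nat_lit 193) (nat_lit 6) (nat_lit 6) (nat_lit 13) L91834 (by decide +kernel)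
theorem L91836 : W_34 (nat_lit 2) (nat_lit 0x40000c001e000d0002800200010001000080000000000000000000000000000000) (nat_lit 0x0) (nat_lit 0x1400080000000000000000000000000000000000000000000) := D_34 (nat_lit 192) (nat_lit 175) (nat_lit 190) (nat_lit 6) (nat_lit 4) (nat_lit 14) (nat_lit 3) (nat_lit 3) (nat_lit 11) (by decide +kernel)
theorem L91837 : W_34 (nat_lit 3) (nat_lit 0x40000c001e000d0002000200010001000080000000000000000000000000000000) (nat_lit 0x0) (nat_lit 0x1c000c0000000000000000000000000000000000000000000) := T_34 (nat_lit 191) (nat_lit 174) (nat_lit 7) (nat_lit 4) (nat_lit 10) L91836 (by decide +kernel)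
theorem L91838 : W_34 (nat_lit 4) (nat_lit 0x40000c001e000c0002000200010001000080000000000000000000000000000000) (nat_lit 0x0) (nat_lit 0x18001c000c0000000000000000000000000000000000000000000) := T_34 (nat_lit 208) (nat_lit 207) (nat_lit 0) (nat_lit 7) (nat_lit 13) L91837 (by decide +kernel)
theorem L91839 : W_34 (nat_lit 5) (nat_lit 0x400008001e000c0002000200010001000080000000000000000000000000000000) (nat_lit 0x0) (nat_lit 0x6000000018001c000c0000000000000000000000000000000000000000000) := T_34 (nat_lit 242) (nat_lit 241) (nat_lit 1) (nat_lit 7) (nat_lit 13) L91838 (by decide +kernel)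
theorem L91840 : W_34 (nat_lit 6) (nat_lit 0x400008001c000c0002000200010001000080000000000000000000000000000000) (nat_lit 0x0) (nat_lit 0x6000300018001c000c0000000000000000000000000000000000000000000) := T_34 (nat_lit 225) (nat_lit 224) (nat_lit 2) (nat_lit 3) (nat_lit 13) L91839 (by decide +kernel)
theorem L91841 : W_34 (nat_lit 7) (nat_lit 0x8001c000c0002000200010001000080000000000000000000000000000000) (nat_lit 0x0) (nat_lit 0x400026000300018001c000c0000000000000000000000000000000000000000000) := T_34 (nat_lit 262) (nat_lit 245) (nat_lit 4) (nat_lit 7) (nat_lit 15) L91840 (by decide +kernel)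
theorem L91842 : W_34 (nat_lit 8) (nat_lit 0x8001c000c0000000200010001000080000000000000000000000000000000) (nat_lit 0x0) (nat_lit 0x400026000300018003c001c0000000000000000000000000000000000000000000) := T_34 (nat_lit 193) (nat_lit 176) (nat_lit 6) (nat_lit 6) (nat_lit 13) L91841 (by decide +kernel)
theorem L91843 : W_34 (nat_lit 2) (nat_lit 0x8001e000c0002000200010001000080000000000000000000000000000000) (nat_lit 0x0) (nat_lit 0x400060000000000000000000000000000000000000000000000000000000000000) := D_34 (nat_lit 245) (nat_lit 246) (nat_lit 262) (nat_lit 3) (nat_lit 4) (nat_lit 13) (nat_lit 4) (nat_lit 7) (nat_lit 15) (by decide +kernel)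
theorem L91844 : W_34 (nat_lit 3) (nat_lit 0x8001e000c0000000200010001000080000000000000000000000000000000) (nat_lit 0x0) (nat_lit 0x400060000000000002000100000000000000000000000000000000000000000000) := T_34 (nat_lit 193) (nat_lit 176) (nat_lit 6) (nat_lit 6) (nat_lit 13) L91843 (by decide +kernel)
theorem L91845 : W_34 (nat_lit 4) (nat_lit 0x8001c000c0000000200010001000080000000000000000000000000000000) (nat_lit 0x0) (nat_lit 0x400060000300000002000100000000000000000000000000000000000000000000) := T_34 (nat_lit 225) (nat_lit 224) (nat_lit 2) (nat_lit 3) (nat_lit 13) L91844 (by decide +kernel)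
theorem L91846 : W_34 (nat_lit 2) (nat_lit 0x1c000c0000000200010001000080000000000000000000000000000000) (nat_lit 0x0) (nat_lit 0x200300000000000000000000000000000000000000000000000000000) := D_34 (nat_lit 212) (nat_lit 213) (nat_lit 225) (nat_lit 1) (nat_lit 9) (nat_lit 12) (nat_lit 2) (nat_lit 4) (nat_lit 13) (by decide +kernel)
theorem L91847 : W_34 (nat_lit 2) (nat_lit 0x800010002c001e000c0000000200010001000080000000000000000000000000000000) (nat_lit 0x0) (nat_lit 0x18000800000000000000000000000000000000000000000000000) := D_34 (nat_lit 208) (nat_lit 207) (nat_lit 191) (nat_lit 0) (nat_lit 7) (nat_lit 13) (nat_lit 7) (nat_lit 4) (nat_lit 11) (by decide +kernel)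
theorem L91848 : W_34 (nat_lit 3) (nat_lit 0x800000002c001e000c0000000200010001000080000000000000000000000000000000) (nat_lit 0x0) (nat_lit 0x2000100000000000018000800000000000000000000000000000000000000000000000) := T_34 (nat_lit 260) (nat_lit 277) (nat_lit 6) (nat_lit 5) (nat_lit 16) L91847 (by decide +kernel)
theorem L91849 : W_34 (nat_lit 4) (nat_lit 0x2c001e000c0000000200010001000080000000000000000000000000000000) (nat_lit 0x0) (nat_lit 0xa000500000000000018000800000000000000000000000000000000000000000000000) := T_34 (nat_lit 279) (nat_lit 262) (nat_lit 4) (nat_lit 7) (nat_lit 16) L91848 (by decide +kernel)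
theorem L91850 : W_34 (nat_lit 5) (nat_lit 0x24001e000c0000000200010001000080000000000000000000000000000000) (nat_lit 0x0) (nat_lit 0xa000500008002000018000800000000000000000000000000000000000000000000000) := T_34 (nat_lit 243) (nat_lit 229) (nat_lit 1) (nat_lit 8) (nat_lit 13) L91849 (by decide +kernel)
theorem L91851 : W_34 (nat_lit 6) (nat_lit 0x4001e000c0000000200010001000080000000000000000000000000000000) (nat_lit 0x0) (nat_lit 0xa000500068002000018000800000000000000000000000000000000000000000000000) := T_34 (nat_lit 245) (nat_lit 246) (nat_lit 3) (nat_lit 4) (nat_lit 13) L91850 (by decide +kernel)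
theorem L91852 : W_34 (nat_lit 7) (nat_lit 0x1e000c0000000200010001000080000000000000000000000000000000) (nat_lit 0x0) (nat_lit 0xa00050006e002000018000800000000000000000000000000000000000000000000000) := T_34 (nat_lit 242) (nat_lit 241) (nat_lit 1) (nat_lit 7) (nat_lit 13) L91851 (by decide +kernel)
theorem L91853 : W_34 (nat_lit 8) (nat_lit 0x1c000c0000000200010001000080000000000000000000000000000000) (nat_lit 0x0) (nat_lit 0xa00050006e002300018000800000000000000000000000000000000000000000000000) := T_34 (nat_lit 225) (nat_lit 224) (nat_lit 2) (nat_lit 3) (nat_lit 13) L91852 (by decide +kernel)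
theorem L91854 : W_34 (nat_lit 2) (nat_lit 0x48003c000c0000000200010001000080000000000000000000000000000000) (nat_lit 0x0) (nat_lit 0x1000c000000000000000000000000000000000000000000000000000000000) := D_34 (nat_lit 230) (nat_lit 231) (nat_lit 244) (nat_lit 0) (nat_lit 10) (nat_lit 13) (nat_lit 1) (nat_lit 9) (nat_lit 13) (by decide +kernel)
theorem L91855 : W_34 (nat_lit 3) (nat_lit 0x40003c000c0000000200010001000080000000000000000000000000000000) (nat_lit 0x0) (nat_lit 0x1c00c000000000000000000000000000000000000000000000000000000000) := T_34 (nat_lit 243) (nat_lit 242) (nat_lit 1) (nat_lit 8) (nat_lit 13) L91854 (by decide +kernel)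
theorem L91856 : W_34 (nat_lit 4) (nat_lit 0x3c000c0000000200010001000080000000000000000000000000000000) (nat_lit 0x0) (nat_lit 0xdc00c000000000000000000000000000000000000000000000000000000000) := T_34 (nat_lit 246) (nat_lit 247) (nat_lit 3) (nat_lit 5) (nat_lit 13) L91855 (by decide +kernel)
theorem L91857 : W_34 (nat_lit 2) (nat_lit 0x1800058003c001c0000000200010001000080000000000000000000000000000000) (nat_lit 0x0) (nat_lit 0x8000600000000000000000000000000000000000000000000000000000000000000000) := D_34 (nat_lit 262) (nat_lit 261) (nat_lit 279) (nat_lit 0) (nat_lit 9) (nat_lit 15) (nat_lit 5) (nat_lit 8) (nat_lit 12) (by decide +kernel)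
theorem L91858 : W_34 (nat_lit 3) (nat_lit 0x1800048003c001c0000000200010001000080000000000000000000000000000000) (nat_lit 0x0) (nat_lit 0x8000600030000000000000000000000000000000000000000000000000000000000000) := T_34 (nat_lit 244) (nat_lit 245) (nat_lit 3) (nat_lit 5) (nat_lit 14) L91857 (by decide +kernel)
theorem L91859 : W_34 (nat_lit 4) (nat_lit 0x800048003c001c0000000200010001000080000000000000000000000000000000) (nat_lit 0x0) (nat_lit 0x28001600030000000000000000000000000000000000000000000000000000000000000) := T_34 (nat_lit 264) (nat_lit 281) (nat_lit 7) (nat_lit 8) (nat_lit 12) L91858 (by decide +kernel)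
theorem L91860 : W_34 (nat_lit 5) (nat_lit 0x800040003c001c0000000200010001000080000000000000000000000000000000) (nat_lit 0x0) (nat_lit 0x2800160003c000000000000000000000000000000000000000000000000000000000000) := T_34 (nat_lit 243) (nat_lit 242) (nat_lit 1) (nat_lit 8) (nat_lit 13) L91859 (by decide +kernel)
theorem L91861 : W_34 (nat_lit 6) (nat_lit 0x40003c001c0000000200010001000080000000000000000000000000000000) (nat_lit 0x0) (nat_lit 0x38001e0003c000000000000000000000000000000000000000000000000000000000000) := T_34 (nat_lit 263) (nat_lit 280) (nat_lit 4) (nat_lit 8) (nat_lit 16) L91860 (by decide +kernel)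
theorem L91862 : W_34 (nat_lit 7) (nat_lit 0x40003c000c0000000200010001000080000000000000000000000000000000) (nat_lit 0x0) (nat_lit 0x38001e0003c000000300000000000000000000000000000000000000000000000000000) := T_34 (nat_lit 212) (nat_lit 213) (nat_lit 2) (nat_lit 5) (nat_lit 13) L91861 (by decide +kernel)
theorem L91863 : W_34 (nat_lit 8) (nat_lit 0x3c000c0000000200010001000080000000000000000000000000000000) (nat_lit 0x0) (nat_lit 0x38001e000fc000000300000000000000000000000000000000000000000000000000000) := T_34 (nat_lit 246) (nat_lit 247) (nat_lit 3) (nat_lit 5) (nat_lit 13) L91862 (by decide +kernel)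
theorem L91864 : W_34 (nat_lit 9) (nat_lit 0x1c000c0000000200010001000080000000000000000000000000000000) (nat_lit 0x0) (nat_lit 0x38001e000fc00e000700000000000000000000000000000000000000000000000000000) := Q_34 (nat_lit 229) (C_34 L91530 (C_34 L91856 (C_34 L91863 N_34))) (by decide +kernel)
theorem L91865 : W_34 (nat_lit 10) (nat_lit 0x18000c0000000200010001000080000000000000000000000000000000) (nat_lit 0x0) (nat_lit 0x3a001f000fe00e700718000800000000000000000000000000000000000000000000000) := Q_34 (nat_lit 226) (C_34 L91846 (C_34 L91853 (C_34 L91864 N_34))) (by decide +kernel)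
theorem L91866 : W_34 (nat_lit 2) (nat_lit 0x4007e000d0002000200010001000080000000000000000000000000000000) (nat_lit 0x0) (nat_lit 0x1c0000000000000000000000000000000000000000000000000000000000000) := D_34 (nat_lit 247) (nat_lit 246) (nat_lit 248) (nat_lit 3) (nat_lit 5) (nat_lit 13) (nat_lit 3) (nat_lit 6) (nat_lit 13) (by decide +kernel)
theorem L91867 : W_34 (nat_lit 3) (nat_lit 0x4003e000d0002000200010001000080000000000000000000000000000000) (nat_lit 0x0) (nat_lit 0x1c000c000000000000000000000000000000000000000000000000000000000) := T_34 (nat_lit 230) (nat_lit 231) (nat_lit 0) (nat_lit 10) (nat_lit 13) L91866 (by decide +kernel)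
theorem L91868 : W_34 (nat_lit 4) (nat_lit 0x4001e000d0002000200010001000080000000000000000000000000000000) (nat_lit 0x0) (nat_lit 0x1c800e000000000000000000000000000000000000000000000000000000000) := T_34 (nat_lit 229) (nat_lit 243) (nat_lit 1) (nat_lit 8) (nat_lit 13) L91867 (by decide +kernel)
theorem L91869 : W_34 (nat_lit 5) (nat_lit 0x4001e000c0002000200010001000080000000000000000000000000000000) (nat_lit 0x0) (nat_lit 0x1c800e000018000000000000000000000000000000000000000000000000000) := T_34 (nat_lit 208) (nat_lit 207) (nat_lit 0) (nat_lit 7) (nat_lit 13) L91868 (by decide +kernel)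
theorem L91870 : W_34 (nat_lit 6) (nat_lit 0x1e000c0002000200010001000080000000000000000000000000000000) (nat_lit 0x0) (nat_lit 0x1ce00e000018000000000000000000000000000000000000000000000000000) := T_34 (nat_lit 242) (nat_lit 241) (nat_lit 1) (nat_lit 7) (nat_lit 13) L91869 (by decide +kernel)
theorem L91871 : W_34 (nat_lit 7) (nat_lit 0x1c000c0002000200010001000080000000000000000000000000000000) (nat_lit 0x0) (nat_lit 0x1ce00e300018000000000000000000000000000000000000000000000000000) := T_34 (nat_lit 225) (nat_lit 224) (nat_lit 2) (nat_lit 3) (nat_lit 13) L91870 (by decide +kernel)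
theorem L91872 : W_34 (nat_lit 8) (nat_lit 0x1c000c0000000200010001000080000000000000000000000000000000) (nat_lit 0x0) (nat_lit 0x1ce00e300018002000100000000000000000000000000000000000000000000) := T_34 (nat_lit 193) (nat_lit 176) (nat_lit 6) (nat_lit 6) (nat_lit 13) L91871 (by decide +kernel)
theorem L91873 : W_34 (nat_lit 8) (nat_lit 0x1c000c0000000200010001000080000000000000000000000000000000) (nat_lit 0x0) (nat_lit 0x120009000dc00e000700002000100000000000000000000000000000000000000000000) := Q_34 (nat_lit 229) (C_34 L91856 (C_34 L91530 (C_34 L91536 N_34))) (by decide +kernel)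
theorem L91874 : W_34 (nat_lit 9) (nat_lit 0x18000c0000000200010001000080000000000000000000000000000000) (nat_lit 0x0) (nat_lit 0x120009001de00e700718002000100000000000000000000000000000000000000000000) := Q_34 (nat_lit 226) (C_34 L91846 (C_34 L91872 (C_34 L91873 N_34))) (by decide +kernel)
theorem L91875 : W_34 (nat_lit 2) (nat_lit 0xe000b0001c001c0000000200010001000080000000000000000000000000000000) (nat_lit 0x0) (nat_lit 0x100000c000000000000000000000000000000000000000000000000000000000000) := D_34 (nat_lit 243) (nat_lit 242) (nat_lit 264) (nat_lit 3) (nat_lit 4) (nat_lit 14) (nat_lit 0) (nat_lit 9) (nat_lit 15) (by decide +kernel)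
theorem L91876 : W_34 (nat_lit 3) (nat_lit 0x6000b0001c001c0000000200010001000080000000000000000000000000000000) (nat_lit 0x0) (nat_lit 0x1000180000c000000000000000000000000000000000000000000000000000000000000) := T_34 (nat_lit 263) (nat_lit 280) (nat_lit 7) (nat_lit 7) (nat_lit 12) L91875 (by decide +kernel)
theorem L91877 : W_34 (nat_lit 4) (nat_lit 0x600030001c001c0000000200010001000080000000000000000000000000000000) (nat_lit 0x0) (nat_lit 0x100018000cc000000000000000000000000000000000000000000000000000000000000) := T_34 (nat_lit 247) (nat_lit 246) (nat_lit 0) (nat_lit 9) (nat_lit 14) L91876 (by decide +kernel)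
theorem L91878 : W_34 (nat_lit 5) (nat_lit 0x600010001c001c0000000200010001000080000000000000000000000000000000) (nat_lit 0x0) (nat_lit 0x100018000ec000000000008000000000000000000000000000000000000000000000000) := T_34 (nat_lit 245) (nat_lit 195) (nat_lit 6) (nat_lit 7) (nat_lit 15) L91877 (by decide +kernel)
theorem L91879 : W_34 (nat_lit 6) (nat_lit 0x200010001c001c0000000200010001000080000000000000000000000000000000) (nat_lit 0x0) (nat_lit 0x18001c000ec000000000008000000000000000000000000000000000000000000000000) := T_34 (nat_lit 262) (nat_lit 279) (nat_lit 7) (nat_lit 6) (nat_lit 12) L91878 (by decide +kernel)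
theorem L91880 : W_34 (nat_lit 7) (nat_lit 0x200010001c000c0000000200010001000080000000000000000000000000000000) (nat_lit 0x0) (nat_lit 0x18001c000ec000000300008000000000000000000000000000000000000000000000000) := T_34 (nat_lit 212) (nat_lit 213) (nat_lit 1) (nat_lit 9) (nat_lit 12) L91879 (by decide +kernel)
theorem L91881 : W_34 (nat_lit 8) (nat_lit 0x10001c000c0000000200010001000080000000000000000000000000000000) (nat_lit 0x0) (nat_lit 0x1c001e000ec000000300008000000000000000000000000000000000000000000000000) := T_34 (nat_lit 261) (nat_lit 278) (nat_lit 6) (nat_lit 6) (nat_lit 16) L91880 (by decide +kernel)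
theorem L91882 : W_34 (nat_lit 2) (nat_lit 0x100010001c002c0002000200010001000080000000000000000000000000000000) (nat_lit 0x0) (nat_lit 0x6000200000000000000000000000000000000000000000000000000000000000000000) := D_34 (nat_lit 261) (nat_lit 278) (nat_lit 277) (nat_lit 6) (nat_lit 6) (nat_lit 16) (nat_lit 5) (nat_lit 6) (nat_lit 12) (by decide +kernel)
theorem L91883 : W_34 (nat_lit 3) (nat_lit 0x10001c002c0002000200010001000080000000000000000000000000000000) (nat_lit 0x0) (nat_lit 0x6000300008000000000000000000000000000000000000000000000000000000000000) := T_34 (nat_lit 260) (nat_lit 243) (nat_lit 5) (nat_lit 6) (nat_lit 11) L91882 (by decide +kernel)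
theorem L91884 : W_34 (nat_lit 4) (nat_lit 0x10001c002c0000000200010001000080000000000000000000000000000000) (nat_lit 0x0) (nat_lit 0x6000300008000000000002000100000000000000000000000000000000000000000000) := T_34 (nat_lit 193) (nat_lit 176) (nat_lit 6) (nat_lit 6) (nat_lit 13) L91883 (by decide +kernel)
theorem L91885 : W_34 (nat_lit 5) (nat_lit 0x10001c000c0000000200010001000080000000000000000000000000000000) (nat_lit 0x0) (nat_lit 0x6000300008000000300002000100000000000000000000000000000000000000000000) := T_34 (nat_lit 213) (nat_lit 212) (nat_lit 1) (nat_lit 9) (nat_lit 12) L91884 (by decide +kernel)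
theorem L91886 : W_34 (nat_lit 2) (nat_lit 0x40001a001c000c0002000200010001000080000000000000000000000000000000) (nat_lit 0x0) (nat_lit 0xc000200000000000000000000000000000000000000000000000000000000000000000) := D_34 (nat_lit 261) (nat_lit 279) (nat_lit 278) (nat_lit 7) (nat_lit 6) (nat_lit 12) (nat_lit 6) (nat_lit 6) (nat_lit 16) (by decide +kernel)
theorem L91887 : W_34 (nat_lit 3) (nat_lit 0x1a001c000c0002000200010001000080000000000000000000000000000000) (nat_lit 0x0) (nat_lit 0xc000600020000000000000000000000000000000000000000000000000000000000000) := T_34 (nat_lit 262) (nat_lit 245) (nat_lit 7) (nat_lit 6) (nat_lit 11) L91886 (by decide +kernel)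
theorem L91888 : W_34 (nat_lit 4) (nat_lit 0x18001c000c0002000200010001000080000000000000000000000000000000) (nat_lit 0x0) (nat_lit 0xc000600026000000000000000000000000000000000000000000000000000000000000) := T_34 (nat_lit 241) (nat_lit 242) (nat_lit 2) (nat_lit 3) (nat_lit 14) L91887 (by decide +kernel)
theorem L91889 : W_34 (nat_lit 5) (nat_lit 0x10001c000c0002000200010001000080000000000000000000000000000000) (nat_lit 0x0) (nat_lit 0xc00070002e000000000000000000000000000000000000000000000000000000000000) := T_34 (nat_lit 243) (nat_lit 260) (nat_lit 5) (nat_lit 6) (nat_lit 11) L91888 (by decide +kernel)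
theorem L91890 : W_34 (nat_lit 6) (nat_lit 0x10001c000c0000000200010001000080000000000000000000000000000000) (nat_lit 0x0) (nat_lit 0xc00070002e000000000002000100000000000000000000000000000000000000000000) := T_34 (nat_lit 193) (nat_lit 176) (nat_lit 6) (nat_lit 6) (nat_lit 13) L91889 (by decide +kernel)
theorem L91891 : W_34 (nat_lit 2) (nat_lit 0x18001c0000000200010001000080000000000000000000000000000000) (nat_lit 0x0) (nat_lit 0x400600000000000000000000000000000000000000000000000000000) := D_34 (nat_lit 213) (nat_lit 226) (nat_lit 214) (nat_lit 1) (nat_lit 9) (nat_lit 12) (nat_lit 1) (nat_lit 10) (nat_lit 12) (by decide +kernel)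
theorem L91892 : W_34 (nat_lit 2) (nat_lit 0x1000100018001c0002000200010001000080000000000000000000000000000000) (nat_lit 0x0) (nat_lit 0x6000200000000000000000000000000000000000000000000000000000000000000000) := D_34 (nat_lit 261) (nat_lit 278) (nat_lit 277) (nat_lit 6) (nat_lit 6) (nat_lit 16) (nat_lit 5) (nat_lit 6) (nat_lit 12) (by decide +kernel)
theorem L91893 : W_34 (nat_lit 3) (nat_lit 0x100018001c0002000200010001000080000000000000000000000000000000) (nat_lit 0x0) (nat_lit 0x6000300008000000000000000000000000000000000000000000000000000000000000) := T_34 (nat_lit 260) (nat_lit 243) (nat_lit 5) (nat_lit 6) (nat_lit 11) L91892 (by decide +kernel)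
theorem L91894 : W_34 (nat_lit 4) (nat_lit 0x100018001c0000000200010001000080000000000000000000000000000000) (nat_lit 0x0) (nat_lit 0x6000300008000000000002000100000000000000000000000000000000000000000000) := T_34 (nat_lit 193) (nat_lit 176) (nat_lit 6) (nat_lit 6) (nat_lit 13) L91893 (by decide +kernel)
theorem L91895 : W_34 (nat_lit 2) (nat_lit 0x700030001a001c0000000200010001000080000000000000000000000000000000) (nat_lit 0x0) (nat_lit 0xc0040000000000000000000000000000000000000000000000000000000000000) := D_34 (nat_lit 259) (nat_lit 246) (nat_lit 258) (nat_lit 2) (nat_lit 4) (nat_lit 15) (nat_lit 2) (nat_lit 3) (nat_lit 15) (by decide +kernel)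
theorem L91896 : W_34 (nat_lit 3) (nat_lit 0x700010001a001c0000000200010001000080000000000000000000000000000000) (nat_lit 0x0) (nat_lit 0xc0060000000000008000000000000000000000000000000000000000000000000) := T_34 (nat_lit 245) (nat_lit 195) (nat_lit 6) (nat_lit 7) (nat_lit 15) L91895 (by decide +kernel)
theorem L91897 : W_34 (nat_lit 4) (nat_lit 0x300010001a001c0000000200010001000080000000000000000000000000000000) (nat_lit 0x0) (nat_lit 0x80004c0060000000000008000000000000000000000000000000000000000000000000) := T_34 (nat_lit 262) (nat_lit 279) (nat_lit 7) (nat_lit 6) (nat_lit 12) L91896 (by decide +kernel)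
theorem L91898 : W_34 (nat_lit 5) (nat_lit 0x200010001a001c0000000200010001000080000000000000000000000000000000) (nat_lit 0x0) (nat_lit 0xa0005c0060000000000008000000000000000000000000000000000000000000000000) := T_34 (nat_lit 260) (nat_lit 277) (nat_lit 5) (nat_lit 6) (nat_lit 12) L91897 (by decide +kernel)
theorem L91899 : W_34 (nat_lit 6) (nat_lit 0x10001a001c0000000200010001000080000000000000000000000000000000) (nat_lit 0x0) (nat_lit 0xe0007c0060000000000008000000000000000000000000000000000000000000000000) := T_34 (nat_lit 261) (nat_lit 278) (nat_lit 6) (nat_lit 6) (nat_lit 16) L91898 (by decide +kernel)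
theorem L91900 : W_34 (nat_lit 7) (nat_lit 0x100018001c0000000200010001000080000000000000000000000000000000) (nat_lit 0x0) (nat_lit 0xe0007c0060000600000008000000000000000000000000000000000000000000000000) := T_34 (nat_lit 225) (nat_lit 226) (nat_lit 2) (nat_lit 4) (nat_lit 13) L91899 (by decide +kernel)
theorem L91901 : W_34 (nat_lit 2) (nat_lit 0x3c0018001c0002000200010001000080000000000000000000000000000000) (nat_lit 0x0) (nat_lit 0x700000000000000000000000000000000000000000000000000000000) := D_34 (nat_lit 225) (nat_lit 224) (nat_lit 226) (nat_lit 0) (nat_lit 7) (nat_lit 14) (nat_lit 2) (nat_lit 4) (nat_lit 13) (by decide +kernel)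
theorem L91902 : W_34 (nat_lit 3) (nat_lit 0x1c0018001c0002000200010001000080000000000000000000000000000000) (nat_lit 0x0) (nat_lit 0x400020000700000000000000000000000000000000000000000000000000000000) := T_34 (nat_lit 245) (nat_lit 262) (nat_lit 7) (nat_lit 6) (nat_lit 11) L91901 (by decide +kernel)
theorem L91903 : W_34 (nat_lit 4) (nat_lit 0x180018001c0002000200010001000080000000000000000000000000000000) (nat_lit 0x0) (nat_lit 0x400026000700000000000000000000000000000000000000000000000000000000) := T_34 (nat_lit 242) (nat_lit 241) (nat_lit 2) (nat_lit 3) (nat_lit 14) L91902 (by decide +kernel)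
theorem L91904 : W_34 (nat_lit 5) (nat_lit 0x100018001c0002000200010001000080000000000000000000000000000000) (nat_lit 0x0) (nat_lit 0x50002e000700000000000000000000000000000000000000000000000000000000) := T_34 (nat_lit 243) (nat_lit 260) (nat_lit 5) (nat_lit 6) (nat_lit 11) L91903 (by decide +kernel)
theorem L91905 : W_34 (nat_lit 6) (nat_lit 0x100018001c0000000200010001000080000000000000000000000000000000) (nat_lit 0x0) (nat_lit 0x50002e000700000002000100000000000000000000000000000000000000000000) := T_34 (nat_lit 193) (nat_lit 176) (nat_lit 6) (nat_lit 6) (nat_lit 13) L91904 (by decide +kernel)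
theorem L91906 : W_34 (nat_lit 2) (nat_lit 0x200010001a001c0002000200010001000080000000000000000000000000000000) (nat_lit 0x0) (nat_lit 0x8000400020000000000000000000000000000000000000000000000000000000000000) := D_34 (nat_lit 262) (nat_lit 245) (nat_lit 279) (nat_lit 7) (nat_lit 6) (nat_lit 11) (nat_lit 7) (nat_lit 6) (nat_lit 12) (by decide +kernel)
theorem L91907 : W_34 (nat_lit 3) (nat_lit 0x200010001a001c0000000200010001000080000000000000000000000000000000) (nat_lit 0x0) (nat_lit 0x8000400020000000000002000100000000000000000000000000000000000000000000) := T_34 (nat_lit 193) (nat_lit 176) (nat_lit 6) (nat_lit 6) (nat_lit 13) L91906 (by decide +kernel)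
theorem L91908 : W_34 (nat_lit 4) (nat_lit 0x10001a001c0000000200010001000080000000000000000000000000000000) (nat_lit 0x0) (nat_lit 0xc000600020000000000002000100000000000000000000000000000000000000000000) := T_34 (nat_lit 261) (nat_lit 278) (nat_lit 6) (nat_lit 6) (nat_lit 16) L91907 (by decide +kernel)
theorem L91909 : W_34 (nat_lit 5) (nat_lit 0x100018001c0000000200010001000080000000000000000000000000000000) (nat_lit 0x0) (nat_lit 0xc000600020000600000002000100000000000000000000000000000000000000000000) := T_34 (nat_lit 225) (nat_lit 226) (nat_lit 2) (nat_lit 4) (nat_lit 13) L91908 (by decide +kernel)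
theorem L91910 : W_34 (nat_lit 8) (nat_lit 0x18001c0000000200010001000080000000000000000000000000000000) (nat_lit 0x0) (nat_lit 0xe0007c007e00070000000a000100000000000000000000000000000000000000000000) := Q_34 (nat_lit 244) (C_34 L91894 (C_34 L91900 (C_34 L91905 (C_34 L91909 N_34)))) (by decide +kernel)
theorem L91911 : W_34 (nat_lit 2) (nat_lit 0x18001c0002000200010001000080000000000000000000000000000000) (nat_lit 0x0) (nat_lit 0x600001000000000000000000000000000000000000000000000000) := D_34 (nat_lit 213) (nat_lit 214) (nat_lit 192) (nat_lit 1) (nat_lit 10) (nat_lit 12) (nat_lit 0) (nat_lit 9) (nat_lit 12) (by decide +kernel)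
theorem L91912 : W_34 (nat_lit 3) (nat_lit 0x18001c0000000200010001000080000000000000000000000000000000) (nat_lit 0x0) (nat_lit 0x600003000100000000000000000000000000000000000000000000) := T_34 (nat_lit 193) (nat_lit 176) (nat_lit 6) (nat_lit 6) (nat_lit 13) L91911 (by decide +kernel)
theorem L91913 : W_34 (nat_lit 9) (nat_lit 0x18000c0000000200010001000080000000000000000000000000000000) (nat_lit 0x0) (nat_lit 0xe0007c007e00070070000b000100000000000000000000000000000000000000000000) := Q_34 (nat_lit 212) (C_34 L91891 (C_34 L91910 (C_34 L91912 N_34))) (by decide +kernel)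
theorem L91914 : W_34 (nat_lit 2) (nat_lit 0x400008007c000c0002000200010001000080000000000000000000000000000000) (nat_lit 0x0) (nat_lit 0x1c0000000000000000000000000000000000000000000000000000000000000) := D_34 (nat_lit 247) (nat_lit 246) (nat_lit 248) (nat_lit 3) (nat_lit 5) (nat_lit 13) (nat_lit 3) (nat_lit 6) (nat_lit 13) (by decide +kernel)
theorem L91915 : W_34 (nat_lit 3) (nat_lit 0x400008003c000c0002000200010001000080000000000000000000000000000000) (nat_lit 0x0) (nat_lit 0x1c000c000000000000000000000000000000000000000000000000000000000) := T_34 (nat_lit 230) (nat_lit 231) (nat_lit 0) (nat_lit 10) (nat_lit 13) L91914 (by decide +kernel)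
theorem L91916 : W_34 (nat_lit 4) (nat_lit 0x400000003c000c0002000200010001000080000000000000000000000000000000) (nat_lit 0x0) (nat_lit 0x1cc00c000000000000000000000000000000000000000000000000000000000) := T_34 (nat_lit 243) (nat_lit 242) (nat_lit 1) (nat_lit 8) (nat_lit 13) L91915 (by decide +kernel)
theorem L91917 : W_34 (nat_lit 5) (nat_lit 0x3c000c0002000200010001000080000000000000000000000000000000) (nat_lit 0x0) (nat_lit 0x4001ec00c000000000000000000000000000000000000000000000000000000000) := T_34 (nat_lit 262) (nat_lit 245) (nat_lit 4) (nat_lit 7) (nat_lit 15) L91916 (by decide +kernel)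
theorem L91918 : W_34 (nat_lit 6) (nat_lit 0x3c000c0000000200010001000080000000000000000000000000000000) (nat_lit 0x0) (nat_lit 0x4001ec00c000000002000100000000000000000000000000000000000000000000) := T_34 (nat_lit 193) (nat_lit 176) (nat_lit 6) (nat_lit 6) (nat_lit 13) L91917 (by decide +kernel)
theorem L91919 : W_34 (nat_lit 2) (nat_lit 0x800048003c001c0002000200010001000080000000000000000000000000000000) (nat_lit 0x0) (nat_lit 0x8000400020000000000000000000000000000000000000000000000000000000000000) := D_34 (nat_lit 262) (nat_lit 245) (nat_lit 279) (nat_lit 4) (nat_lit 7) (nat_lit 15) (nat_lit 5) (nat_lit 8) (nat_lit 12) (by decide +kernel)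
theorem L91920 : W_34 (nat_lit 3) (nat_lit 0x48003c001c0002000200010001000080000000000000000000000000000000) (nat_lit 0x0) (nat_lit 0x18000c00020000000000000000000000000000000000000000000000000000000000000) := T_34 (nat_lit 263) (nat_lit 280) (nat_lit 4) (nat_lit 8) (nat_lit 16) L91919 (by decide +kernel)
theorem L91921 : W_34 (nat_lit 4) (nat_lit 0x48003c001c0000000200010001000080000000000000000000000000000000) (nat_lit 0x0) (nat_lit 0x18000c00020000000000002000100000000000000000000000000000000000000000000) := T_34 (nat_lit 193) (nat_lit 176) (nat_lit 6) (nat_lit 6) (nat_lit 13) L91920 (by decide +kernel)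
theorem L91922 : W_34 (nat_lit 5) (nat_lit 0x8003c001c0000000200010001000080000000000000000000000000000000) (nat_lit 0x0) (nat_lit 0x18000c000e0000000000002000100000000000000000000000000000000000000000000) := T_34 (nat_lit 246) (nat_lit 247) (nat_lit 3) (nat_lit 5) (nat_lit 13) L91921 (by decide +kernel)
theorem L91923 : W_34 (nat_lit 6) (nat_lit 0x8003c000c0000000200010001000080000000000000000000000000000000) (nat_lit 0x0) (nat_lit 0x18000c000e0000000300002000100000000000000000000000000000000000000000000) := T_34 (nat_lit 212) (nat_lit 213) (nat_lit 2) (nat_lit 5) (nat_lit 13) L91922 (by decide +kernel)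
theorem L91924 : W_34 (nat_lit 7) (nat_lit 0x3c000c0000000200010001000080000000000000000000000000000000) (nat_lit 0x0) (nat_lit 0x18000c000ec000000300002000100000000000000000000000000000000000000000000) := T_34 (nat_lit 243) (nat_lit 242) (nat_lit 1) (nat_lit 8) (nat_lit 13) L91923 (by decide +kernel)
theorem L91925 : W_34 (nat_lit 8) (nat_lit 0x1c000c0000000200010001000080000000000000000000000000000000) (nat_lit 0x0) (nat_lit 0x18000c001ec00e000700002000100000000000000000000000000000000000000000000) := Q_34 (nat_lit 229) (C_34 L91530 (C_34 L91918 (C_34 L91924 N_34))) (by decide +kernel)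
theorem L91926 : W_34 (nat_lit 9) (nat_lit 0x18000c0000000200010001000080000000000000000000000000000000) (nat_lit 0x0) (nat_lit 0x1a000d001ee00e700718002800100000000000000000000000000000000000000000000) := Q_34 (nat_lit 226) (C_34 L91925 (C_34 L91872 (C_34 L91853 (C_34 L91846 N_34)))) (by decide +kernel)
theorem L91927 : W_34 (nat_lit 2) (nat_lit 0x4000800078003c0002000200010001000080000000000000000000000000000000) (nat_lit 0x0) (nat_lit 0x20001000000000000000008000000000000000000000000000000000000000000000000) := D_34 (nat_lit 264) (nat_lit 195) (nat_lit 281) (nat_lit 4) (nat_lit 9) (nat_lit 15) (nat_lit 4) (nat_lit 9) (nat_lit 16) (by decide +kernel)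
theorem L91928 : W_34 (nat_lit 3) (nat_lit 0x4000800078002c0002000200010001000080000000000000000000000000000000) (nat_lit 0x0) (nat_lit 0x20001000000000000100009000000000000000000000000000000000000000000000000) := T_34 (nat_lit 212) (nat_lit 192) (nat_lit 0) (nat_lit 9) (nat_lit 12) L91927 (by decide +kernel)
theorem L91929 : W_34 (nat_lit 4) (nat_lit 0x4000800078000c0002000200010001000080000000000000000000000000000000) (nat_lit 0x0) (nat_lit 0x20001000000000000700009000000000000000000000000000000000000000000000000) := T_34 (nat_lit 213) (nat_lit 214) (nat_lit 2) (nat_lit 6) (nat_lit 13) L91928 (by decide +kernel)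
theorem L91930 : W_34 (nat_lit 5) (nat_lit 0x4000000078000c0002000200010001000080000000000000000000000000000000) (nat_lit 0x0) (nat_lit 0x20001000180000000700009000000000000000000000000000000000000000000000000) := T_34 (nat_lit 247) (nat_lit 248) (nat_lit 3) (nat_lit 6) (nat_lit 13) L91929 (by decide +kernel)
theorem L91931 : W_34 (nat_lit 2) (nat_lit 0x1000100018000c0002000200010001000080000000000000000000000000000000) (nat_lit 0x0) (nat_lit 0x6000200000000000000000000000000000000000000000000000000000000000000000) := D_34 (nat_lit 261) (nat_lit 278) (nat_lit 277) (nat_lit 6) (nat_lit 6) (nat_lit 16) (nat_lit 5) (nat_lit 6) (nat_lit 12) (by decide +kernel)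
theorem L91932 : W_34 (nat_lit 3) (nat_lit 0x100018000c0002000200010001000080000000000000000000000000000000) (nat_lit 0x0) (nat_lit 0x6000300008000000000000000000000000000000000000000000000000000000000000) := T_34 (nat_lit 260) (nat_lit 243) (nat_lit 5) (nat_lit 6) (nat_lit 11) L91931 (by decide +kernel)
theorem L91933 : W_34 (nat_lit 4) (nat_lit 0x100018000c0000000200010001000080000000000000000000000000000000) (nat_lit 0x0) (nat_lit 0x6000300008000000000002000100000000000000000000000000000000000000000000) := T_34 (nat_lit 193) (nat_lit 176) (nat_lit 6) (nat_lit 6) (nat_lit 13) L91932 (by decide +kernel)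
theorem L91934 : W_34 (nat_lit 8) (nat_lit 0x100018000c0000000200010001000080000000000000000000000000000000) (nat_lit 0x0) (nat_lit 0x1e003fc00ec000000000000000000000000000000000000000000000000000000000000) := Q_34 (nat_lit 245) (C_34 L91633 (C_34 L91643 (C_34 L91629 (C_34 L91637 N_34)))) (by decide +kernel)
theorem L91935 : W_34 (nat_lit 2) (nat_lit 0x1c0018000c0002000200010001000080000000000000000000000000000000) (nat_lit 0x0) (nat_lit 0x20006000000000000000000000000000000000000000000000000000000000) := D_34 (nat_lit 229) (nat_lit 230) (nat_lit 245) (nat_lit 1) (nat_lit 9) (nat_lit 13) (nat_lit 2) (nat_lit 4) (nat_lit 14) (by decide +kernel)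
theorem L91936 : W_34 (nat_lit 3) (nat_lit 0x180018000c0002000200010001000080000000000000000000000000000000) (nat_lit 0x0) (nat_lit 0x26006000000000000000000000000000000000000000000000000000000000) := T_34 (nat_lit 242) (nat_lit 241) (nat_lit 2) (nat_lit 3) (nat_lit 14) L91935 (by decide +kernel)
theorem L91937 : W_34 (nat_lit 4) (nat_lit 0x100018000c0002000200010001000080000000000000000000000000000000) (nat_lit 0x0) (nat_lit 0x10002e006000000000000000000000000000000000000000000000000000000000) := T_34 (nat_lit 243) (nat_lit 260) (nat_lit 5) (nat_lit 6) (nat_lit 11) L91936 (by decide +kernel)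
theorem L91938 : W_34 (nat_lit 5) (nat_lit 0x100018000c0000000200010001000080000000000000000000000000000000) (nat_lit 0x0) (nat_lit 0x10002e006000000002000100000000000000000000000000000000000000000000) := T_34 (nat_lit 193) (nat_lit 176) (nat_lit 6) (nat_lit 6) (nat_lit 13) L91937 (by decide +kernel)
theorem L91939 : W_34 (nat_lit 2) (nat_lit 0x4000100018000c0002000200010001000080000000000000000000000000000000) (nat_lit 0x0) (nat_lit 0xc000200000000000000000000000000000000000000000000000000000000000000000) := D_34 (nat_lit 261) (nat_lit 279) (nat_lit 278) (nat_lit 7) (nat_lit 6) (nat_lit 12) (nat_lit 6) (nat_lit 6) (nat_lit 16) (by decide +kernel)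
theorem L91940 : W_34 (nat_lit 3) (nat_lit 0x100018000c0002000200010001000080000000000000000000000000000000) (nat_lit 0x0) (nat_lit 0xc000600020000000000000000000000000000000000000000000000000000000000000) := T_34 (nat_lit 262) (nat_lit 245) (nat_lit 7) (nat_lit 6) (nat_lit 11) L91939 (by decide +kernel)
theorem L91941 : W_34 (nat_lit 4) (nat_lit 0x100018000c0000000200010001000080000000000000000000000000000000) (nat_lit 0x0) (nat_lit 0xc000600020000000000002000100000000000000000000000000000000000000000000) := T_34 (nat_lit 193) (nat_lit 176) (nat_lit 6) (nat_lit 6) (nat_lit 13) L91940 (by decide +kernel)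
theorem L91942 : W_34 (nat_lit 9) (nat_lit 0x18000c0000000200010001000080000000000000000000000000000000) (nat_lit 0x0) (nat_lit 0x1e003fc00fe006000000002000100000000000000000000000000000000000000000000) := Q_34 (nat_lit 244) (C_34 L91933 (C_34 L91934 (C_34 L91938 (C_34 L91941 N_34)))) (by decide +kernel)
theorem L91943 : W_34 (nat_lit 2) (nat_lit 0x400000007c000c0002000200010001000080000000000000000000000000000000) (nat_lit 0x0) (nat_lit 0x1c0000000000000000000000000000000000000000000000000000000000000) := D_34 (nat_lit 247) (nat_lit 246) (nat_lit 248) (nat_lit 3) (nat_lit 5) (nat_lit 13) (nat_lit 3) (nat_lit 6) (nat_lit 13) (by decide +kernel)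
theorem L91944 : W_34 (nat_lit 3) (nat_lit 0x400000003c000c0002000200010001000080000000000000000000000000000000) (nat_lit 0x0) (nat_lit 0x1c000c000000000000000000000000000000000000000000000000000000000) := T_34 (nat_lit 230) (nat_lit 231) (nat_lit 0) (nat_lit 10) (nat_lit 13) L91943 (by decide +kernel)
theorem L91945 : W_34 (nat_lit 4) (nat_lit 0x3c000c0002000200010001000080000000000000000000000000000000) (nat_lit 0x0) (nat_lit 0x4001e000c000000000000000000000000000000000000000000000000000000000) := T_34 (nat_lit 262) (nat_lit 245) (nat_lit 4) (nat_lit 7) (nat_lit 15) L91944 (by decide +kernel)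
theorem L91946 : W_34 (nat_lit 5) (nat_lit 0x3c000c0000000200010001000080000000000000000000000000000000) (nat_lit 0x0) (nat_lit 0x4001e000c000000002000100000000000000000000000000000000000000000000) := T_34 (nat_lit 193) (nat_lit 176) (nat_lit 6) (nat_lit 6) (nat_lit 13) L91945 (by decide +kernel)
theorem L91947 : W_34 (nat_lit 2) (nat_lit 0x800040003c001c0002000200010001000080000000000000000000000000000000) (nat_lit 0x0) (nat_lit 0x8000400020000000000000000000000000000000000000000000000000000000000000) := D_34 (nat_lit 262) (nat_lit 245) (nat_lit 279) (nat_lit 4) (nat_lit 7) (nat_lit 15) (nat_lit 5) (nat_lit 8) (nat_lit 12) (by decide +kernel)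
theorem L91948 : W_34 (nat_lit 3) (nat_lit 0x800040003c001c0000000200010001000080000000000000000000000000000000) (nat_lit 0x0) (nat_lit 0x8000400020000000000002000100000000000000000000000000000000000000000000) := T_34 (nat_lit 193) (nat_lit 176) (nat_lit 6) (nat_lit 6) (nat_lit 13) L91947 (by decide +kernel)
theorem L91949 : W_34 (nat_lit 4) (nat_lit 0x40003c001c0000000200010001000080000000000000000000000000000000) (nat_lit 0x0) (nat_lit 0x18000c00020000000000002000100000000000000000000000000000000000000000000) := T_34 (nat_lit 263) (nat_lit 280) (nat_lit 4) (nat_lit 8) (nat_lit 16) L91948 (by decide +kernel)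
theorem L91950 : W_34 (nat_lit 5) (nat_lit 0x40003c000c0000000200010001000080000000000000000000000000000000) (nat_lit 0x0) (nat_lit 0x18000c00020000000300002000100000000000000000000000000000000000000000000) := T_34 (nat_lit 212) (nat_lit 213) (nat_lit 2) (nat_lit 5) (nat_lit 13) L91949 (by decide +kernel)
theorem L91951 : W_34 (nat_lit 6) (nat_lit 0x3c000c0000000200010001000080000000000000000000000000000000) (nat_lit 0x0) (nat_lit 0x18000c000e0000000300002000100000000000000000000000000000000000000000000) := T_34 (nat_lit 246) (nat_lit 247) (nat_lit 3) (nat_lit 5) (nat_lit 13) L91950 (by decide +kernel)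
theorem L91952 : W_34 (nat_lit 7) (nat_lit 0x1c000c0000000200010001000080000000000000000000000000000000) (nat_lit 0x0) (nat_lit 0x18000c001e000e000700002000100000000000000000000000000000000000000000000) := Q_34 (nat_lit 229) (C_34 L91530 (C_34 L91946 (C_34 L91951 N_34))) (by decide +kernel)
theorem L91953 : W_34 (nat_lit 8) (nat_lit 0x18000c0000000200010001000080000000000000000000000000000000) (nat_lit 0x0) (nat_lit 0x18000c001e000e700700002000100000000000000000000000000000000000000000000) := Q_34 (nat_lit 226) (C_34 L91509 (C_34 L91846 (C_34 L91952 N_34))) (by decide +kernel)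
theorem L91954 : W_34 (nat_lit 11) (nat_lit 0x8000c0000000200010001000080000000000000000000000000000000) (nat_lit 0x0) (nat_lit 0x3e003fc01fe00f70071800b800100000000000000000000000000000000000000000000) := Q_34 (nat_lit 228) (C_34 L91658 (C_34 L91865 (C_34 L91874 (C_34 L91913 (C_34 L91926 (C_34 L91942 (C_34 L91953 N_34))))))) (by decide +kernel)
theorem L91955 : W_34 (nat_lit 2) (nat_lit 0x8000e0003000200010001000080000000000000000000000000000000) (nat_lit 0x0) (nat_lit 0x200010000000000000000080000000000000000000000000000000000000000000) := D_34 (nat_lit 244) (nat_lit 175) (nat_lit 261) (nat_lit 4) (nat_lit 6) (nat_lit 14) (nat_lit 4) (nat_lit 6) (nat_lit 15) (by decide +kernel)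
theorem L91956 : W_34 (nat_lit 3) (nat_lit 0x8000e0001000200010001000080000000000000000000000000000000) (nat_lit 0x0) (nat_lit 0x200010000000000002000180000000000000000000000000000000000000000000) := T_34 (nat_lit 193) (nat_lit 176) (nat_lit 6) (nat_lit 6) (nat_lit 13) L91955 (by decide +kernel)
theorem L91957 : W_34 (nat_lit 2) (nat_lit 0x2000000008000e0001800200014001000080000000000000000000000000000000) (nat_lit 0x0) (nat_lit 0x10000600000000000000000000000000000000000000000000000) := D_34 (nat_lit 190) (nat_lit 208) (nat_lit 189) (nat_lit 0) (nat_lit 7) (nat_lit 12) (nat_lit 3) (nat_lit 2) (nat_lit 11) (by decide +kernel)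
theorem L91958 : W_34 (nat_lit 3) (nat_lit 0x2000000008000e0001000200014001000080000000000000000000000000000000) (nat_lit 0x0) (nat_lit 0x110000e00000000000000000000000000000000000000000000000) := T_34 (nat_lit 191) (nat_lit 212) (nat_lit 0) (nat_lit 8) (nat_lit 12) L91957 (by decide +kernel)
theorem L91959 : W_34 (nat_lit 4) (nat_lit 0x8000e0001000200014001000080000000000000000000000000000000) (nat_lit 0x0) (nat_lit 0x200010000000110000e00000000000000000000000000000000000000000000000) := T_34 (nat_lit 261) (nat_lit 244) (nat_lit 4) (nat_lit 6) (nat_lit 15) L91958 (by decide +kernel)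
theorem L91960 : W_34 (nat_lit 5) (nat_lit 0x8000e0001000200010001000080000000000000000000000000000000) (nat_lit 0x0) (nat_lit 0x200010000000110000e00080004000000000000000000000000000000000000000) := T_34 (nat_lit 158) (nat_lit 175) (nat_lit 7) (nat_lit 5) (nat_lit 9) L91959 (by decide +kernel)
theorem L91961 : W_34 (nat_lit 9) (nat_lit 0x8000e0001000200010001000080000000000000000000000000000000) (nat_lit 0x0) (nat_lit 0x70003c00070011001a800100000000000000000000000000000000000000000000) := T_34 (nat_lit 212) (nat_lit 191) (nat_lit 0) (nat_lit 8) (nat_lit 12) L91460 (by decide +kernel)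
theorem L91962 : W_34 (nat_lit 2) (nat_lit 0x8000e0003000200010001000080000000000000000000000000000000) (nat_lit 0x0) (nat_lit 0x100000c00000000000000000000000000000000000000000000000) := D_34 (nat_lit 191) (nat_lit 190) (nat_lit 212) (nat_lit 3) (nat_lit 3) (nat_lit 11) (nat_lit 0) (nat_lit 8) (nat_lit 12) (by decide +kernel)
theorem L91963 : W_34 (nat_lit 3) (nat_lit 0x8000e0001000200010001000080000000000000000000000000000000) (nat_lit 0x0) (nat_lit 0x100002c00100000000000000000000000000000000000000000000) := T_34 (nat_lit 193) (nat_lit 176) (nat_lit 6) (nat_lit 6) (nat_lit 13) L91962 (by decide +kernel)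
theorem L91964 : W_34 (nat_lit 10) (nat_lit 0x8000e0000000200010001000080000000000000000000000000000000) (nat_lit 0x0) (nat_lit 0x70003c00070011001be00180004000000000000000000000000000000000000000) := Q_34 (nat_lit 192) (C_34 L91956 (C_34 L91960 (C_34 L91961 (C_34 L91963 N_34)))) (by decide +kernel)
theorem L91965 : W_34 (nat_lit 2) (nat_lit 0x8000f0000000200010001000080000000000000000000000000000000) (nat_lit 0x0) (nat_lit 0x3000008000000000000000000000000000000000000000000000000000) := D_34 (nat_lit 228) (nat_lit 207) (nat_lit 229) (nat_lit 3) (nat_lit 3) (nat_lit 12) (nat_lit 3) (nat_lit 4) (nat_lit 12) (by decide +kernel)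
theorem L91966 : W_34 (nat_lit 2) (nat_lit 0xa000f0000800200010001000080000000000000000000000000000000) (nat_lit 0x0) (nat_lit 0x400100001000000000000000000000000000000000000000000000000) := D_34 (nat_lit 212) (nat_lit 192) (nat_lit 226) (nat_lit 0) (nat_lit 8) (nat_lit 12) (nat_lit 1) (nat_lit 8) (nat_lit 12) (by decide +kernel)
theorem L91967 : W_34 (nat_lit 3) (nat_lit 0x8000f0000800200010001000080000000000000000000000000000000) (nat_lit 0x0) (nat_lit 0x700100001000000000000000000000000000000000000000000000000) := T_34 (nat_lit 225) (nat_lit 224) (nat_lit 1) (nat_lit 7) (nat_lit 12) L91966 (by decide +kernel)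
theorem L91968 : W_34 (nat_lit 4) (nat_lit 0x8000f0000000200010001000080000000000000000000000000000000) (nat_lit 0x0) (nat_lit 0x700100001c00000000000000000000000000000000000000000000000) := T_34 (nat_lit 191) (nat_lit 190) (nat_lit 0) (nat_lit 7) (nat_lit 12) L91967 (by decide +kernel)
theorem L91969 : W_34 (nat_lit 5) (nat_lit 0x8000e0000000200010001000080000000000000000000000000000000) (nat_lit 0x0) (nat_lit 0x3700118001c00000000000000000000000000000000000000000000000) := Q_34 (nat_lit 208) (C_34 L91965 (C_34 L91968 N_34)) (by decide +kernel)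
theorem L91970 : W_34 (nat_lit 2) (nat_lit 0x1c000e0000000200010001000080000000000000000000000000000000) (nat_lit 0x0) (nat_lit 0x300100000000000000000000000000000000000000000000000000000) := D_34 (nat_lit 225) (nat_lit 212) (nat_lit 224) (nat_lit 2) (nat_lit 4) (nat_lit 13) (nat_lit 2) (nat_lit 3) (nat_lit 13) (by decide +kernel)
theorem L91971 : W_34 (nat_lit 10) (nat_lit 0x18000e0000000200010001000080000000000000000000000000000000) (nat_lit 0x0) (nat_lit 0x1f000f800fc006700100002000000000000000000000000000000000000000000000000) := Q_34 (nat_lit 226) (C_34 L91288 (C_34 L91336 (C_34 L91284 (C_34 L91970 N_34)))) (by decide +kernel)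
theorem L91972 : W_34 (nat_lit 11) (nat_lit 0x8000e0000000200010001000080000000000000000000000000000000) (nat_lit 0x0) (nat_lit 0x1f000f800fc007700118002c00140000000000000000000000000000000000000000000) := Q_34 (nat_lit 228) (C_34 L91663 (C_34 L91798 (C_34 L91971 N_34))) (by decide +kernel)
theorem L91973 : W_34 (nat_lit 2) (nat_lit 0xa000f8002400200010001000080000000000000000000000000000000) (nat_lit 0x0) (nat_lit 0x400004001000000000000000000000000000000000000000000000000) := D_34 (nat_lit 206) (nat_lit 192) (nat_lit 226) (nat_lit 2) (nat_lit 2) (nat_lit 12) (nat_lit 3) (nat_lit 2) (nat_lit 12) (by decide +kernel)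
theorem L91974 : W_34 (nat_lit 3) (nat_lit 0xa000f0002400200010001000080000000000000000000000000000000) (nat_lit 0x0) (nat_lit 0x40000c001200000000000000000000000000000000000000000000000) := T_34 (nat_lit 207) (nat_lit 189) (nat_lit 0) (nat_lit 6) (nat_lit 12) L91973 (by decide +kernel)
theorem L91975 : W_34 (nat_lit 4) (nat_lit 0xa000f0002000200010001000080000000000000000000000000000000) (nat_lit 0x0) (nat_lit 0x40000c001e00000000000000000000000000000000000000000000000) := T_34 (nat_lit 190) (nat_lit 191) (nat_lit 0) (nat_lit 7) (nat_lit 12) L91974 (by decide +kernel)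
theorem L91976 : W_34 (nat_lit 5) (nat_lit 0x8000f0002000200010001000080000000000000000000000000000000) (nat_lit 0x0) (nat_lit 0x70000c001e00000000000000000000000000000000000000000000000) := T_34 (nat_lit 225) (nat_lit 224) (nat_lit 1) (nat_lit 7) (nat_lit 12) L91975 (by decide +kernel)
theorem L91977 : W_34 (nat_lit 6) (nat_lit 0x8000f0000000200010001000080000000000000000000000000000000) (nat_lit 0x0) (nat_lit 0x70000c003e00100000000000000000000000000000000000000000000) := T_34 (nat_lit 193) (nat_lit 176) (nat_lit 6) (nat_lit 6) (nat_lit 13) L91976 (by decide +kernel)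
theorem L91978 : W_34 (nat_lit 4) (nat_lit 0x200018000f0002800200010001000080000000000000000000000000000000) (nat_lit 0x0) (nat_lit 0x100048000700000000000040000000000000000000000000000000000000000000) := T_34 (nat_lit 225) (nat_lit 224) (nat_lit 1) (nat_lit 7) (nat_lit 12) L91793 (by decide +kernel)
theorem L91979 : W_34 (nat_lit 5) (nat_lit 0x18000f0002800200010001000080000000000000000000000000000000) (nat_lit 0x0) (nat_lit 0x500068000700000000000040000000000000000000000000000000000000000000) := T_34 (nat_lit 245) (nat_lit 262) (nat_lit 4) (nat_lit 7) (nat_lit 15) L91978 (by decide +kernel)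
theorem L91980 : W_34 (nat_lit 6) (nat_lit 0x18000f0000800200010001000080000000000000000000000000000000) (nat_lit 0x0) (nat_lit 0x500068000700000002000140000000000000000000000000000000000000000000) := T_34 (nat_lit 193) (nat_lit 176) (nat_lit 6) (nat_lit 6) (nat_lit 13) L91979 (by decide +kernel)
theorem L91981 : W_34 (nat_lit 7) (nat_lit 0x8000f0000800200010001000080000000000000000000000000000000) (nat_lit 0x0) (nat_lit 0x500068003700000002000140000000000000000000000000000000000000000000) := T_34 (nat_lit 228) (nat_lit 229) (nat_lit 3) (nat_lit 4) (nat_lit 12) L91980 (by decide +kernel)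
theorem L91982 : W_34 (nat_lit 8) (nat_lit 0x8000f0000000200010001000080000000000000000000000000000000) (nat_lit 0x0) (nat_lit 0x500068003700000002c00140000000000000000000000000000000000000000000) := T_34 (nat_lit 191) (nat_lit 190) (nat_lit 0) (nat_lit 7) (nat_lit 12) L91981 (by decide +kernel)
theorem L91983 : W_34 (nat_lit 9) (nat_lit 0x8000e0000000200010001000080000000000000000000000000000000) (nat_lit 0x0) (nat_lit 0x50006800370001c003e00140000000000000000000000000000000000000000000) := Q_34 (nat_lit 208) (C_34 L91965 (C_34 L91977 (C_34 L91982 N_34))) (by decide +kernel)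
theorem L91984 : W_34 (nat_lit 2) (nat_lit 0x400004001e000f0002000200010001000080000000000000000000000000000000) (nat_lit 0x0) (nat_lit 0x80000000000000001000080000000000000000000000000000000000000000000) := D_34 (nat_lit 192) (nat_lit 175) (nat_lit 259) (nat_lit 5) (nat_lit 5) (nat_lit 10) (nat_lit 6) (nat_lit 4) (nat_lit 15) (by decide +kernel)
theorem L91985 : W_34 (nat_lit 3) (nat_lit 0x400000001e000f0002000200010001000080000000000000000000000000000000) (nat_lit 0x0) (nat_lit 0x80006000000000001000080000000000000000000000000000000000000000000) := T_34 (nat_lit 242) (nat_lit 241) (nat_lit 1) (nat_lit 7) (nat_lit 13) L91984 (by decide +kernel)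
theorem L91986 : W_34 (nat_lit 4) (nat_lit 0x400000001a000f0002000200010001000080000000000000000000000000000000) (nat_lit 0x0) (nat_lit 0x80006000400100001000080000000000000000000000000000000000000000000) := T_34 (nat_lit 226) (nat_lit 212) (nat_lit 2) (nat_lit 4) (nat_lit 13) L91985 (by decide +kernel)
theorem L91987 : W_34 (nat_lit 5) (nat_lit 0x4000000018000f0002000200010001000080000000000000000000000000000000) (nat_lit 0x0) (nat_lit 0x80006000700100001000080000000000000000000000000000000000000000000) := T_34 (nat_lit 225) (nat_lit 224) (nat_lit 1) (nat_lit 7) (nat_lit 12) L91986 (by decide +kernel)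
theorem L91988 : W_34 (nat_lit 6) (nat_lit 0x18000f0002000200010001000080000000000000000000000000000000) (nat_lit 0x0) (nat_lit 0x480026000700100001000080000000000000000000000000000000000000000000) := T_34 (nat_lit 262) (nat_lit 245) (nat_lit 4) (nat_lit 7) (nat_lit 15) L91987 (by decide +kernel)
theorem L91989 : W_34 (nat_lit 7) (nat_lit 0x18000f0000000200010001000080000000000000000000000000000000) (nat_lit 0x0) (nat_lit 0x480026000700100003000180000000000000000000000000000000000000000000) := T_34 (nat_lit 193) (nat_lit 176) (nat_lit 6) (nat_lit 6) (nat_lit 13) L91988 (by decide +kernel)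
theorem L91990 : W_34 (nat_lit 8) (nat_lit 0x18000e0000000200010001000080000000000000000000000000000000) (nat_lit 0x0) (nat_lit 0x480026000700118003000180000000000000000000000000000000000000000000) := T_34 (nat_lit 208) (nat_lit 207) (nat_lit 3) (nat_lit 3) (nat_lit 12) L91989 (by decide +kernel)
theorem L91991 : W_34 (nat_lit 11) (nat_lit 0x8000e0000000200010001000080000000000000000000000000000000) (nat_lit 0x0) (nat_lit 0x1f000f800fe007700118003000180000000000000000000000000000000000000000000) := Q_34 (nat_lit 228) (C_34 L91715 (C_34 L91971 (C_34 L91663 (C_34 L91990 N_34)))) (by decide +kernel)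
theorem L91992 : W_34 (nat_lit 2) (nat_lit 0xc000e0000000200010001000080000000000000000000000000000000) (nat_lit 0x0) (nat_lit 0x300100000000000000000000000000000000000000000000000000000) := D_34 (nat_lit 225) (nat_lit 224) (nat_lit 212) (nat_lit 2) (nat_lit 3) (nat_lit 13) (nat_lit 1) (nat_lit 8) (nat_lit 12) (by decide +kernel)
theorem L91993 : W_34 (nat_lit 12) (nat_lit 0x8000e0000000200010001000080000000000000000000000000000000) (nat_lit 0x0) (nat_lit 0x1f003f800fe007700100003c001c0004000000000000000000000000000000000000000) := Q_34 (nat_lit 226) (C_34 L91399 (C_34 L91354 (C_34 L91992 N_34))) (by decide +kernel)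
theorem L91994 : W_34 (nat_lit 2) (nat_lit 0xa000f0003800200010001000080000000000000000000000000000000) (nat_lit 0x0) (nat_lit 0x200010000000000000000080000000000000000000000000000000000000000000) := D_34 (nat_lit 244) (nat_lit 175) (nat_lit 261) (nat_lit 4) (nat_lit 6) (nat_lit 14) (nat_lit 4) (nat_lit 6) (nat_lit 15) (by decide +kernel)
theorem L91995 : W_34 (nat_lit 3) (nat_lit 0xa000f0002800200010001000080000000000000000000000000000000) (nat_lit 0x0) (nat_lit 0x200010000000100001000080000000000000000000000000000000000000000000) := T_34 (nat_lit 192) (nat_lit 212) (nat_lit 0) (nat_lit 8) (nat_lit 12) L91994 (by decide +kernel)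
theorem L91996 : W_34 (nat_lit 4) (nat_lit 0xa000f0002000200010001000080000000000000000000000000000000) (nat_lit 0x0) (nat_lit 0x200010000000100001c00080000000000000000000000000000000000000000000) := T_34 (nat_lit 191) (nat_lit 190) (nat_lit 0) (nat_lit 7) (nat_lit 12) L91995 (by decide +kernel)
theorem L91997 : W_34 (nat_lit 5) (nat_lit 0x8000f0002000200010001000080000000000000000000000000000000) (nat_lit 0x0) (nat_lit 0x200010000300100001c00080000000000000000000000000000000000000000000) := T_34 (nat_lit 225) (nat_lit 224) (nat_lit 1) (nat_lit 7) (nat_lit 12) L91996 (by decide +kernel)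
theorem L91998 : W_34 (nat_lit 6) (nat_lit 0x8000f0000000200010001000080000000000000000000000000000000) (nat_lit 0x0) (nat_lit 0x200010000300100003c00180000000000000000000000000000000000000000000) := T_34 (nat_lit 193) (nat_lit 176) (nat_lit 6) (nat_lit 6) (nat_lit 13) L91997 (by decide +kernel)
theorem L91999 : W_34 (nat_lit 7) (nat_lit 0x8000e0000000200010001000080000000000000000000000000000000) (nat_lit 0x0) (nat_lit 0x200010003300118003c00180000000000000000000000000000000000000000000) := Q_34 (nat_lit 208) (C_34 L91965 (C_34 L91998 N_34)) (by decide +kernel)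
theorem L92000 : W_34 (nat_lit 2) (nat_lit 0x4000000018000f0003800200010001000080000000000000000000000000000000) (nat_lit 0x0) (nat_lit 0x200010000000000000000080000000000000000000000000000000000000000000) := D_34 (nat_lit 244) (nat_lit 175) (nat_lit 261) (nat_lit 4) (nat_lit 6) (nat_lit 14) (nat_lit 4) (nat_lit 6) (nat_lit 15) (by decide +kernel)
theorem L92001 : W_34 (nat_lit 3) (nat_lit 0x4000000018000f0002800200010001000080000000000000000000000000000000) (nat_lit 0x0) (nat_lit 0x200010000000100001000080000000000000000000000000000000000000000000) := T_34 (nat_lit 192) (nat_lit 212) (nat_lit 0) (nat_lit 8) (nat_lit 12) L92000 (by decide +kernel)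
theorem L92002 : W_34 (nat_lit 4) (nat_lit 0x4000000018000f0002000200010001000080000000000000000000000000000000) (nat_lit 0x0) (nat_lit 0x200010000000100001c00080000000000000000000000000000000000000000000) := T_34 (nat_lit 191) (nat_lit 190) (nat_lit 0) (nat_lit 7) (nat_lit 12) L92001 (by decide +kernel)
theorem L92003 : W_34 (nat_lit 5) (nat_lit 0x18000f0002000200010001000080000000000000000000000000000000) (nat_lit 0x0) (nat_lit 0x600030000000100001c00080000000000000000000000000000000000000000000) := T_34 (nat_lit 262) (nat_lit 245) (nat_lit 4) (nat_lit 7) (nat_lit 15) L92002 (by decide +kernel)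
theorem L92004 : W_34 (nat_lit 6) (nat_lit 0x18000f0000000200010001000080000000000000000000000000000000) (nat_lit 0x0) (nat_lit 0x600030000000100003c00180000000000000000000000000000000000000000000) := T_34 (nat_lit 193) (nat_lit 176) (nat_lit 6) (nat_lit 6) (nat_lit 13) L92003 (by decide +kernel)
theorem L92005 : W_34 (nat_lit 7) (nat_lit 0x18000e0000000200010001000080000000000000000000000000000000) (nat_lit 0x0) (nat_lit 0x600030000000118003c00180000000000000000000000000000000000000000000) := T_34 (nat_lit 208) (nat_lit 207) (nat_lit 3) (nat_lit 3) (nat_lit 12) L92004 (by decide +kernel)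
theorem L92006 : W_34 (nat_lit 8) (nat_lit 0x8000e0000000200010001000080000000000000000000000000000000) (nat_lit 0x0) (nat_lit 0xe00070003e007400118003e001e002c000000000000000000000000000000000000000) := Q_34 (nat_lit 228) (C_34 L91715 (C_34 L91790 (C_34 L91663 (C_34 L92005 N_34)))) (by decide +kernel)
theorem L92007 : W_34 (nat_lit 13) (nat_lit 0x8000c0000000200010001000080000000000000000000000000000000) (nat_lit 0x0) (nat_lit 0x1f003f800fe00770013c01be001e002c000000000000000000000000000000000000000) := Q_34 (nat_lit 209) (C_34 L91964 (C_34 L91969 (C_34 L91972 (C_34 L91983 (C_34 L91991 (C_34 L91993 (C_34 L91999 (C_34 L92006 N_34)))))))) (by decide +kernel)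
theorem L92008 : W_34 (nat_lit 9) (nat_lit 0xc000c0000000200010001000080000000000000000000000000000000) (nat_lit 0x0) (nat_lit 0x18001e00338003c003e001e002e000000000000000000000000000000000000000) := Q_34 (nat_lit 209) (C_34 L91406 (C_34 L91374 (C_34 L91322 (C_34 L91399 N_34)))) (by decide +kernel)
theorem L92009 : W_34 (nat_lit 2) (nat_lit 0x8002c001e0002000200010001000080000000000000000000000000000000) (nat_lit 0x0) (nat_lit 0x4001000010000000000000000000000000000000000000000000000000000) := D_34 (nat_lit 228) (nat_lit 208) (nat_lit 242) (nat_lit 3) (nat_lit 4) (nat_lit 12) (nat_lit 1) (nat_lit 8) (nat_lit 13) (by decide +kernel)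
theorem L92010 : W_34 (nat_lit 3) (nat_lit 0x8000c001e0002000200010001000080000000000000000000000000000000) (nat_lit 0x0) (nat_lit 0x4007000010000000000000000000000000000000000000000000000000000) := T_34 (nat_lit 229) (nat_lit 230) (nat_lit 3) (nat_lit 5) (nat_lit 12) L92009 (by decide +kernel)
theorem L92011 : W_34 (nat_lit 4) (nat_lit 0xc001e0002000200010001000080000000000000000000000000000000) (nat_lit 0x0) (nat_lit 0x10000c007000010000000000000000000000000000000000000000000000000000) := T_34 (nat_lit 243) (nat_lit 260) (nat_lit 6) (nat_lit 5) (nat_lit 15) L92010 (by decide +kernel)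
theorem L92012 : W_34 (nat_lit 5) (nat_lit 0xc001e0000000200010001000080000000000000000000000000000000) (nat_lit 0x0) (nat_lit 0x10000c007000010002000100000000000000000000000000000000000000000000) := T_34 (nat_lit 193) (nat_lit 176) (nat_lit 6) (nat_lit 6) (nat_lit 13) L92011 (by decide +kernel)
theorem L92013 : W_34 (nat_lit 6) (nat_lit 0xc000e0000000200010001000080000000000000000000000000000000) (nat_lit 0x0) (nat_lit 0x10000c007000310002000100000000000000000000000000000000000000000000) := T_34 (nat_lit 212) (nat_lit 213) (nat_lit 1) (nat_lit 9) (nat_lit 12) L92012 (by decide +kernel)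
theorem L92014 : W_34 (nat_lit 9) (nat_lit 0xc000c0000000200010001000080000000000000000000000000000000) (nat_lit 0x0) (nat_lit 0x10001c00700033c01be001c0004000000000000000000000000000000000000000) := Q_34 (nat_lit 209) (C_34 L91399 (C_34 L91491 (C_34 L91308 (C_34 L92013 N_34)))) (by decide +kernel)
theorem L92015 : W_34 (nat_lit 10) (nat_lit 0x8000c0000000200010001000080000000000000000000000000000000) (nat_lit 0x0) (nat_lit 0x18001e00778033c01be001e002e000000000000000000000000000000000000000) := Q_34 (nat_lit 226) (C_34 L91297 (C_34 L91299 (C_34 L92008 (C_34 L92014 N_34)))) (by decide +kernel)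
theorem L92016 : W_34 (nat_lit 2) (nat_lit 0x3c001c002c0003000200010001000080000000000000000000000000000000) (nat_lit 0x0) (nat_lit 0xc0000000000020000000000000000000000000000000000000000000000000000) := D_34 (nat_lit 259) (nat_lit 258) (nat_lit 209) (nat_lit 1) (nat_lit 7) (nat_lit 14) (nat_lit 5) (nat_lit 5) (nat_lit 11) (by decide +kernel)
theorem L92017 : W_34 (nat_lit 3) (nat_lit 0x3c001c002c0002000200010001000080000000000000000000000000000000) (nat_lit 0x0) (nat_lit 0xc0000000000020001000080000000000000000000000000000000000000000000) := T_34 (nat_lit 192) (nat_lit 175) (nat_lit 4) (nat_lit 6) (nat_lit 14) L92016 (by decide +kernel)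
theorem L92018 : W_34 (nat_lit 4) (nat_lit 0x1c001c002c0002000200010001000080000000000000000000000000000000) (nat_lit 0x0) (nat_lit 0x4c0020000000020001000080000000000000000000000000000000000000000000) := T_34 (nat_lit 245) (nat_lit 262) (nat_lit 7) (nat_lit 6) (nat_lit 11) L92017 (by decide +kernel)
theorem L92019 : W_34 (nat_lit 5) (nat_lit 0x18001c002c0002000200010001000080000000000000000000000000000000) (nat_lit 0x0) (nat_lit 0x4c0026000000020001000080000000000000000000000000000000000000000000) := T_34 (nat_lit 242) (nat_lit 241) (nat_lit 2) (nat_lit 3) (nat_lit 14) L92018 (by decide +kernel)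
theorem L92020 : W_34 (nat_lit 6) (nat_lit 0x10001c002c0002000200010001000080000000000000000000000000000000) (nat_lit 0x0) (nat_lit 0x5c002e000000020001000080000000000000000000000000000000000000000000) := T_34 (nat_lit 243) (nat_lit 260) (nat_lit 5) (nat_lit 6) (nat_lit 11) L92019 (by decide +kernel)
theorem L92021 : W_34 (nat_lit 7) (nat_lit 0x10001c002c0000000200010001000080000000000000000000000000000000) (nat_lit 0x0) (nat_lit 0x5c002e000000020003000180000000000000000000000000000000000000000000) := T_34 (nat_lit 193) (nat_lit 176) (nat_lit 6) (nat_lit 6) (nat_lit 13) L92020 (by decide +kernel)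
theorem L92022 : W_34 (nat_lit 8) (nat_lit 0x10001c000c0000000200010001000080000000000000000000000000000000) (nat_lit 0x0) (nat_lit 0x5c002e000000320003000180000000000000000000000000000000000000000000) := T_34 (nat_lit 213) (nat_lit 212) (nat_lit 1) (nat_lit 9) (nat_lit 12) L92021 (by decide +kernel)
theorem L92023 : W_34 (nat_lit 2) (nat_lit 0x400010001c000c0002000200010001000080000000000000000000000000000000) (nat_lit 0x0) (nat_lit 0xc000200000000000000000000000000000000000000000000000000000000000000000) := D_34 (nat_lit 261) (nat_lit 279) (nat_lit 278) (nat_lit 7) (nat_lit 6) (nat_lit 12) (nat_lit 6) (nat_lit 6) (nat_lit 16) (by decide +kernel)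
theorem L92024 : W_34 (nat_lit 3) (nat_lit 0x10001c000c0002000200010001000080000000000000000000000000000000) (nat_lit 0x0) (nat_lit 0xc000600020000000000000000000000000000000000000000000000000000000000000) := T_34 (nat_lit 262) (nat_lit 245) (nat_lit 7) (nat_lit 6) (nat_lit 11) L92023 (by decide +kernel)
theorem L92025 : W_34 (nat_lit 4) (nat_lit 0x10001c000c0000000200010001000080000000000000000000000000000000) (nat_lit 0x0) (nat_lit 0xc000600020000000000002000100000000000000000000000000000000000000000000) := T_34 (nat_lit 193) (nat_lit 176) (nat_lit 6) (nat_lit 6) (nat_lit 13) L92024 (by decide +kernel)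
theorem L92026 : W_34 (nat_lit 9) (nat_lit 0x1c000c0000000200010001000080000000000000000000000000000000) (nat_lit 0x0) (nat_lit 0x1e001fc00fe00000032000b000180000000000000000000000000000000000000000000) := Q_34 (nat_lit 244) (C_34 L91885 (C_34 L91890 (C_34 L91881 (C_34 L92022 (C_34 L92025 N_34))))) (by decide +kernel)
theorem L92027 : W_34 (nat_lit 5) (nat_lit 0x1c000c0000000200010001000080000000000000000000000000000000) (nat_lit 0x0) (nat_lit 0x200010000c00e000730002000000000000000000000000000000000000000000000000) := Q_34 (nat_lit 229) (C_34 L91566 (C_34 L91530 N_34)) (by decide +kernel)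
theorem L92028 : W_34 (nat_lit 11) (nat_lit 0xc000c0000000200010001000080000000000000000000000000000000) (nat_lit 0x0) (nat_lit 0x3f001fc01fe00f00073000b000180000000000000000000000000000000000000000000) := Q_34 (nat_lit 228) (C_34 L91523 (C_34 L91873 (C_34 L91952 (C_34 L91864 (C_34 L92026 (C_34 L92027 N_34)))))) (by decide +kernel)
theorem L92029 : W_34 (nat_lit 12) (nat_lit 0x8000c0000000200010001000080000000000000000000000000000000) (nat_lit 0x0) (nat_lit 0x3f001fc01fe00f70073800b000180000000000000000000000000000000000000000000) := Q_34 (nat_lit 226) (C_34 L91297 (C_34 L91299 (C_34 L91524 (C_34 L92028 N_34)))) (by decide +kernel)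
theorem L92030 : W_34 (nat_lit 2) (nat_lit 0x100000000c001f000a800200010001000080000000000000000000000000000000) (nat_lit 0x0) (nat_lit 0x100000c000000000000000000000000000000000000000000000000000) := D_34 (nat_lit 207) (nat_lit 206) (nat_lit 228) (nat_lit 3) (nat_lit 2) (nat_lit 12) (nat_lit 3) (nat_lit 3) (nat_lit 12) (by decide +kernel)
theorem L92031 : W_34 (nat_lit 3) (nat_lit 0x100000000c001e000a800200010001000080000000000000000000000000000000) (nat_lit 0x0) (nat_lit 0x100001c000400000000000000000000000000000000000000000000000) := T_34 (nat_lit 208) (nat_lit 190) (nat_lit 0) (nat_lit 7) (nat_lit 12) L92030 (by decide +kernel)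
theorem L92032 : W_34 (nat_lit 4) (nat_lit 0x100000000c001e000a000200010001000080000000000000000000000000000000) (nat_lit 0x0) (nat_lit 0x100001c001c00000000000000000000000000000000000000000000000) := T_34 (nat_lit 191) (nat_lit 192) (nat_lit 0) (nat_lit 8) (nat_lit 12) L92031 (by decide +kernel)
theorem L92033 : W_34 (nat_lit 5) (nat_lit 0x100000000c001e0002000200010001000080000000000000000000000000000000) (nat_lit 0x0) (nat_lit 0x100001c019c00000000000000000000000000000000000000000000000) := T_34 (nat_lit 195) (nat_lit 196) (nat_lit 2) (nat_lit 5) (nat_lit 12) L92032 (by decide +kernel)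
theorem L92034 : W_34 (nat_lit 6) (nat_lit 0xc001e0002000200010001000080000000000000000000000000000000) (nat_lit 0x0) (nat_lit 0x10000800100001c019c00000000000000000000000000000000000000000000000) := T_34 (nat_lit 260) (nat_lit 243) (nat_lit 6) (nat_lit 5) (nat_lit 15) L92033 (by decide +kernel)
theorem L92035 : W_34 (nat_lit 7) (nat_lit 0xc001e0000000200010001000080000000000000000000000000000000) (nat_lit 0x0) (nat_lit 0x10000800100001c01bc00100000000000000000000000000000000000000000000) := T_34 (nat_lit 193) (nat_lit 176) (nat_lit 6) (nat_lit 6) (nat_lit 13) L92034 (by decide +kernel)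
theorem L92036 : W_34 (nat_lit 8) (nat_lit 0xc000e0000000200010001000080000000000000000000000000000000) (nat_lit 0x0) (nat_lit 0x10000800100031c01bc00100000000000000000000000000000000000000000000) := T_34 (nat_lit 212) (nat_lit 213) (nat_lit 1) (nat_lit 9) (nat_lit 12) L92035 (by decide +kernel)
theorem L92037 : W_34 (nat_lit 2) (nat_lit 0x300008000c002f0000000200010001000080000000000000000000000000000000) (nat_lit 0x0) (nat_lit 0x100000c000000000000000000000000000000000000000000000000000) := D_34 (nat_lit 207) (nat_lit 228) (nat_lit 206) (nat_lit 3) (nat_lit 3) (nat_lit 12) (nat_lit 3) (nat_lit 2) (nat_lit 12) (by decide +kernel)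
theorem L92038 : W_34 (nat_lit 3) (nat_lit 0x300008000c002e0000000200010001000080000000000000000000000000000000) (nat_lit 0x0) (nat_lit 0x100001c000800000000000000000000000000000000000000000000000) := T_34 (nat_lit 208) (nat_lit 191) (nat_lit 4) (nat_lit 5) (nat_lit 15) L92037 (by decide +kernel)
theorem L92039 : W_34 (nat_lit 4) (nat_lit 0x100008000c002e0000000200010001000080000000000000000000000000000000) (nat_lit 0x0) (nat_lit 0x400020000000100001c000800000000000000000000000000000000000000000000000) := T_34 (nat_lit 261) (nat_lit 278) (nat_lit 7) (nat_lit 5) (nat_lit 12) L92038 (by decide +kernel)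
theorem L92040 : W_34 (nat_lit 5) (nat_lit 0x100008000c000e0000000200010001000080000000000000000000000000000000) (nat_lit 0x0) (nat_lit 0x400020000000100031c000800000000000000000000000000000000000000000000000) := T_34 (nat_lit 213) (nat_lit 212) (nat_lit 1) (nat_lit 9) (nat_lit 12) L92039 (by decide +kernel)
theorem L92041 : W_34 (nat_lit 6) (nat_lit 0x8000c000e0000000200010001000080000000000000000000000000000000) (nat_lit 0x0) (nat_lit 0x600030000000100031c000800000000000000000000000000000000000000000000000) := T_34 (nat_lit 260) (nat_lit 277) (nat_lit 6) (nat_lit 5) (nat_lit 16) L92040 (by decide +kernel)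
theorem L92042 : W_34 (nat_lit 2) (nat_lit 0x8000c002c0002000200010001000080000000000000000000000000000000) (nat_lit 0x0) (nat_lit 0x2000100000000000020000000000000000000000000000000000000000000000000000) := D_34 (nat_lit 260) (nat_lit 277) (nat_lit 209) (nat_lit 6) (nat_lit 5) (nat_lit 16) (nat_lit 6) (nat_lit 5) (nat_lit 15) (by decide +kernel)
theorem L92043 : W_34 (nat_lit 3) (nat_lit 0x8000c002c0000000200010001000080000000000000000000000000000000) (nat_lit 0x0) (nat_lit 0x2000100000000000020002000100000000000000000000000000000000000000000000) := T_34 (nat_lit 193) (nat_lit 176) (nat_lit 6) (nat_lit 6) (nat_lit 13) L92042 (by decide +kernel)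
theorem L92044 : W_34 (nat_lit 4) (nat_lit 0x8000c000c0000000200010001000080000000000000000000000000000000) (nat_lit 0x0) (nat_lit 0x2000100000000000320002000100000000000000000000000000000000000000000000) := T_34 (nat_lit 213) (nat_lit 212) (nat_lit 1) (nat_lit 9) (nat_lit 12) L92043 (by decide +kernel)
theorem L92045 : W_34 (nat_lit 2) (nat_lit 0x8000c001f0000800200010001000080000000000000000000000000000000) (nat_lit 0x0) (nat_lit 0x100000c000000000000000000000000000000000000000000000000000) := D_34 (nat_lit 207) (nat_lit 206) (nat_lit 228) (nat_lit 3) (nat_lit 2) (nat_lit 12) (nat_lit 3) (nat_lit 3) (nat_lit 12) (by decide +kernel)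
theorem L92046 : W_34 (nat_lit 3) (nat_lit 0x8000c001e0000800200010001000080000000000000000000000000000000) (nat_lit 0x0) (nat_lit 0x100001c000400000000000000000000000000000000000000000000000) := T_34 (nat_lit 208) (nat_lit 190) (nat_lit 0) (nat_lit 7) (nat_lit 12) L92045 (by decide +kernel)
theorem L92047 : W_34 (nat_lit 4) (nat_lit 0x8000c001c0000800200010001000080000000000000000000000000000000) (nat_lit 0x0) (nat_lit 0x100003c001400000000000000000000000000000000000000000000000) := T_34 (nat_lit 209) (nat_lit 192) (nat_lit 0) (nat_lit 8) (nat_lit 12) L92046 (by decide +kernel)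
theorem L92048 : W_34 (nat_lit 5) (nat_lit 0x8000c000c0000800200010001000080000000000000000000000000000000) (nat_lit 0x0) (nat_lit 0x100033c001400000000000000000000000000000000000000000000000) := T_34 (nat_lit 212) (nat_lit 213) (nat_lit 1) (nat_lit 9) (nat_lit 12) L92047 (by decide +kernel)
theorem L92049 : W_34 (nat_lit 2) (nat_lit 0xb0000c000c0003800200010001000080000000000000000000000000000000) (nat_lit 0x0) (nat_lit 0x200000000000120000000000000000000000000000000000000000000000000000) := D_34 (nat_lit 209) (nat_lit 261) (nat_lit 212) (nat_lit 4) (nat_lit 6) (nat_lit 15) (nat_lit 0) (nat_lit 8) (nat_lit 12) (by decide +kernel)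
theorem L92050 : W_34 (nat_lit 3) (nat_lit 0xb0000c000c0003000200010001000080000000000000000000000000000000) (nat_lit 0x0) (nat_lit 0x200000000000120000c00000000000000000000000000000000000000000000000) := T_34 (nat_lit 191) (nat_lit 190) (nat_lit 3) (nat_lit 3) (nat_lit 11) L92049 (by decide +kernel)
theorem L92051 : W_34 (nat_lit 4) (nat_lit 0xb0000c000c0002000200010001000080000000000000000000000000000000) (nat_lit 0x0) (nat_lit 0x200000000000120001c00080000000000000000000000000000000000000000000) := T_34 (nat_lit 192) (nat_lit 175) (nat_lit 4) (nat_lit 6) (nat_lit 14) L92050 (by decide +kernel)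
theorem L92052 : W_34 (nat_lit 5) (nat_lit 0x30000c000c0002000200010001000080000000000000000000000000000000) (nat_lit 0x0) (nat_lit 0x2000c0000000120001c00080000000000000000000000000000000000000000000) := T_34 (nat_lit 247) (nat_lit 246) (nat_lit 0) (nat_lit 9) (nat_lit 14) L92051 (by decide +kernel)
theorem L92053 : W_34 (nat_lit 6) (nat_lit 0x10000c000c0002000200010001000080000000000000000000000000000000) (nat_lit 0x0) (nat_lit 0x6000e0000000120001c00080000000000000000000000000000000000000000000) := T_34 (nat_lit 245) (nat_lit 262) (nat_lit 7) (nat_lit 6) (nat_lit 11) L92052 (by decide +kernel)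
theorem L92054 : W_34 (nat_lit 7) (nat_lit 0x10000c000c0000000200010001000080000000000000000000000000000000) (nat_lit 0x0) (nat_lit 0x6000e0000000120003c00180000000000000000000000000000000000000000000) := T_34 (nat_lit 193) (nat_lit 176) (nat_lit 6) (nat_lit 6) (nat_lit 13) L92053 (by decide +kernel)
theorem L92055 : W_34 (nat_lit 2) (nat_lit 0x600018000c002c0002000200010001000080000000000000000000000000000000) (nat_lit 0x0) (nat_lit 0x4000000000001000020000000000000000000000000000000000000000000000000000) := D_34 (nat_lit 278) (nat_lit 228) (nat_lit 209) (nat_lit 6) (nat_lit 6) (nat_lit 16) (nat_lit 4) (nat_lit 6) (nat_lit 16) (by decide +kernel)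
theorem L92056 : W_34 (nat_lit 3) (nat_lit 0x400018000c002c0002000200010001000080000000000000000000000000000000) (nat_lit 0x0) (nat_lit 0xc000200000001000020000000000000000000000000000000000000000000000000000) := T_34 (nat_lit 261) (nat_lit 279) (nat_lit 7) (nat_lit 6) (nat_lit 12) L92055 (by decide +kernel)
theorem L92057 : W_34 (nat_lit 4) (nat_lit 0x400018000c000c0002000200010001000080000000000000000000000000000000) (nat_lit 0x0) (nat_lit 0xc000200000001000320000000000000000000000000000000000000000000000000000) := T_34 (nat_lit 213) (nat_lit 212) (nat_lit 1) (nat_lit 9) (nat_lit 12) L92056 (by decide +kernel)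
theorem L92058 : W_34 (nat_lit 5) (nat_lit 0x18000c000c0002000200010001000080000000000000000000000000000000) (nat_lit 0x0) (nat_lit 0xc000600020001000320000000000000000000000000000000000000000000000000000) := T_34 (nat_lit 262) (nat_lit 245) (nat_lit 7) (nat_lit 6) (nat_lit 11) L92057 (by decide +kernel)
theorem L92059 : W_34 (nat_lit 6) (nat_lit 0x10000c000c0002000200010001000080000000000000000000000000000000) (nat_lit 0x0) (nat_lit 0xc000700028001000320000000000000000000000000000000000000000000000000000) := T_34 (nat_lit 243) (nat_lit 260) (nat_lit 5) (nat_lit 6) (nat_lit 11) L92058 (by decide +kernel)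
theorem L92060 : W_34 (nat_lit 7) (nat_lit 0x10000c000c0000000200010001000080000000000000000000000000000000) (nat_lit 0x0) (nat_lit 0xc000700028001000320002000100000000000000000000000000000000000000000000) := T_34 (nat_lit 193) (nat_lit 176) (nat_lit 6) (nat_lit 6) (nat_lit 13) L92059 (by decide +kernel)
theorem L92061 : W_34 (nat_lit 2) (nat_lit 0x200010000c000c0000000200010001000080000000000000000000000000000000) (nat_lit 0x0) (nat_lit 0x4000000000001000020000000000000000000000000000000000000000000000000000) := D_34 (nat_lit 278) (nat_lit 209) (nat_lit 228) (nat_lit 4) (nat_lit 6) (nat_lit 16) (nat_lit 6) (nat_lit 6) (nat_lit 16) (by decide +kernel)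
theorem L92062 : W_34 (nat_lit 2) (nat_lit 0x200010000c000c0000000200010001000080000000000000000000000000000000) (nat_lit 0x0) (nat_lit 0x4000000000000000020001000000000000000000000000000000000000000000000000) := D_34 (nat_lit 209) (nat_lit 278) (nat_lit 192) (nat_lit 4) (nat_lit 6) (nat_lit 16) (nat_lit 4) (nat_lit 6) (nat_lit 15) (by decide +kernel)
theorem L92063 : W_34 (nat_lit 6) (nat_lit 0x600010000c001c0000000200010001000080000000000000000000000000000000) (nat_lit 0x0) (nat_lit 0x140018000ec001000000008000000000000000000000000000000000000000000000000) := T_34 (nat_lit 228) (nat_lit 278) (nat_lit 6) (nat_lit 6) (nat_lit 16) L91878 (by decide +kernel)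
theorem L92064 : W_34 (nat_lit 7) (nat_lit 0x200010000c001c0000000200010001000080000000000000000000000000000000) (nat_lit 0x0) (nat_lit 0x1c001c000ec001000000008000000000000000000000000000000000000000000000000) := T_34 (nat_lit 262) (nat_lit 279) (nat_lit 7) (nat_lit 6) (nat_lit 12) L92063 (by decide +kernel)
theorem L92065 : W_34 (nat_lit 8) (nat_lit 0x200010000c000c0000000200010001000080000000000000000000000000000000) (nat_lit 0x0) (nat_lit 0x1c001c000ec001000300008000000000000000000000000000000000000000000000000) := T_34 (nat_lit 212) (nat_lit 213) (nat_lit 1) (nat_lit 9) (nat_lit 12) L92064 (by decide +kernel)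
theorem L92066 : W_34 (nat_lit 2) (nat_lit 0x700030000c001e0008000200010001000080000000000000000000000000000000) (nat_lit 0x0) (nat_lit 0xc0040000000000000000000000000000000000000000000000000000000000000) := D_34 (nat_lit 259) (nat_lit 246) (nat_lit 258) (nat_lit 2) (nat_lit 4) (nat_lit 15) (nat_lit 2) (nat_lit 3) (nat_lit 15) (by decide +kernel)
theorem L92067 : W_34 (nat_lit 3) (nat_lit 0x700010000c001e0008000200010001000080000000000000000000000000000000) (nat_lit 0x0) (nat_lit 0xc0060001000000000000000000000000000000000000000000000000000000000) := T_34 (nat_lit 245) (nat_lit 228) (nat_lit 6) (nat_lit 7) (nat_lit 15) L92066 (by decide +kernel)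
theorem L92068 : W_34 (nat_lit 4) (nat_lit 0x700010000c001e0000000200010001000080000000000000000000000000000000) (nat_lit 0x0) (nat_lit 0xc0060001000000018000000000000000000000000000000000000000000000000) := T_34 (nat_lit 195) (nat_lit 196) (nat_lit 2) (nat_lit 5) (nat_lit 12) L92067 (by decide +kernel)
theorem L92069 : W_34 (nat_lit 5) (nat_lit 0x700010000c001c0000000200010001000080000000000000000000000000000000) (nat_lit 0x0) (nat_lit 0xc0060001000020019000000000000000000000000000000000000000000000000) := T_34 (nat_lit 209) (nat_lit 192) (nat_lit 4) (nat_lit 6) (nat_lit 15) L92068 (by decide +kernel)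
theorem L92070 : W_34 (nat_lit 6) (nat_lit 0x300010000c001c0000000200010001000080000000000000000000000000000000) (nat_lit 0x0) (nat_lit 0x80004c0060001000020019000000000000000000000000000000000000000000000000) := T_34 (nat_lit 262) (nat_lit 279) (nat_lit 7) (nat_lit 6) (nat_lit 12) L92069 (by decide +kernel)
theorem L92071 : W_34 (nat_lit 7) (nat_lit 0x300010000c000c0000000200010001000080000000000000000000000000000000) (nat_lit 0x0) (nat_lit 0x80004c0060001000320019000000000000000000000000000000000000000000000000) := T_34 (nat_lit 212) (nat_lit 213) (nat_lit 1) (nat_lit 9) (nat_lit 12) L92070 (by decide +kernel)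
theorem L92072 : W_34 (nat_lit 8) (nat_lit 0x200010000c000c0000000200010001000080000000000000000000000000000000) (nat_lit 0x0) (nat_lit 0xa0005c0060001000320019000000000000000000000000000000000000000000000000) := T_34 (nat_lit 260) (nat_lit 277) (nat_lit 5) (nat_lit 6) (nat_lit 12) L92071 (by decide +kernel)
theorem L92073 : W_34 (nat_lit 9) (nat_lit 0x10000c000c0000000200010001000080000000000000000000000000000000) (nat_lit 0x0) (nat_lit 0x1e001fc00ec001000320019000000000000000000000000000000000000000000000000) := Q_34 (nat_lit 261) (C_34 L92061 (C_34 L92062 (C_34 L92065 (C_34 L92072 N_34)))) (by decide +kernel)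
theorem L92074 : W_34 (nat_lit 2) (nat_lit 0xbc000c000e0003400200010001000080000000000000000000000000000000) (nat_lit 0x0) (nat_lit 0x3001000000000000000000000000000000000000000000000000000000000) := D_34 (nat_lit 241) (nat_lit 228) (nat_lit 240) (nat_lit 2) (nat_lit 3) (nat_lit 14) (nat_lit 2) (nat_lit 2) (nat_lit 14) (by decide +kernel)
theorem L92075 : W_34 (nat_lit 3) (nat_lit 0xb8000c000e0003400200010001000080000000000000000000000000000000) (nat_lit 0x0) (nat_lit 0x80007001000000000000000000000000000000000000000000000000000000000) := T_34 (nat_lit 242) (nat_lit 259) (nat_lit 5) (nat_lit 5) (nat_lit 11) L92074 (by decide +kernel)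
theorem L92076 : W_34 (nat_lit 4) (nat_lit 0xb8000c000c0003400200010001000080000000000000000000000000000000) (nat_lit 0x0) (nat_lit 0x280007001000020000000000000000000000000000000000000000000000000000) := T_34 (nat_lit 209) (nat_lit 261) (nat_lit 7) (nat_lit 5) (nat_lit 11) L92075 (by decide +kernel)
theorem L92077 : W_34 (nat_lit 5) (nat_lit 0xb8000c000c0003000200010001000080000000000000000000000000000000) (nat_lit 0x0) (nat_lit 0x280007001000020000c00000000000000000000000000000000000000000000000) := T_34 (nat_lit 190) (nat_lit 191) (nat_lit 3) (nat_lit 3) (nat_lit 11) L92076 (by decide +kernel)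
theorem L92078 : W_34 (nat_lit 6) (nat_lit 0xb8000c000c0002000200010001000080000000000000000000000000000000) (nat_lit 0x0) (nat_lit 0x280007001000020001c00080000000000000000000000000000000000000000000) := T_34 (nat_lit 192) (nat_lit 175) (nat_lit 4) (nat_lit 6) (nat_lit 14) L92077 (by decide +kernel)
theorem L92079 : W_34 (nat_lit 7) (nat_lit 0x38000c000c0002000200010001000080000000000000000000000000000000) (nat_lit 0x0) (nat_lit 0x2800c7001000020001c00080000000000000000000000000000000000000000000) := T_34 (nat_lit 247) (nat_lit 246) (nat_lit 0) (nat_lit 9) (nat_lit 14) L92078 (by decide +kernel)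
theorem L92080 : W_34 (nat_lit 8) (nat_lit 0x18000c000c0002000200010001000080000000000000000000000000000000) (nat_lit 0x0) (nat_lit 0x6800e7001000020001c00080000000000000000000000000000000000000000000) := T_34 (nat_lit 245) (nat_lit 262) (nat_lit 7) (nat_lit 6) (nat_lit 11) L92079 (by decide +kernel)
theorem L92081 : W_34 (nat_lit 9) (nat_lit 0x10000c000c0002000200010001000080000000000000000000000000000000) (nat_lit 0x0) (nat_lit 0x7800ef001000020001c00080000000000000000000000000000000000000000000) := T_34 (nat_lit 243) (nat_lit 260) (nat_lit 5) (nat_lit 6) (nat_lit 11) L92080 (by decide +kernel)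
theorem L92082 : W_34 (nat_lit 10) (nat_lit 0x10000c000c0000000200010001000080000000000000000000000000000000) (nat_lit 0x0) (nat_lit 0x7800ef001000020003c00180000000000000000000000000000000000000000000) := T_34 (nat_lit 193) (nat_lit 176) (nat_lit 6) (nat_lit 6) (nat_lit 13) L92081 (by decide +kernel)
theorem L92083 : W_34 (nat_lit 2) (nat_lit 0x500010000c000c0002000200010001000080000000000000000000000000000000) (nat_lit 0x0) (nat_lit 0xa000200000000000000000000000000000000000000000000000000000000000000000) := D_34 (nat_lit 261) (nat_lit 277) (nat_lit 279) (nat_lit 5) (nat_lit 6) (nat_lit 12) (nat_lit 7) (nat_lit 6) (nat_lit 12) (by decide +kernel)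
theorem L92084 : W_34 (nat_lit 3) (nat_lit 0x100010000c000c0002000200010001000080000000000000000000000000000000) (nat_lit 0x0) (nat_lit 0xa000600020000000000000000000000000000000000000000000000000000000000000) := T_34 (nat_lit 262) (nat_lit 245) (nat_lit 7) (nat_lit 6) (nat_lit 11) L92083 (by decide +kernel)
theorem L92085 : W_34 (nat_lit 4) (nat_lit 0x10000c000c0002000200010001000080000000000000000000000000000000) (nat_lit 0x0) (nat_lit 0xa000700028000000000000000000000000000000000000000000000000000000000000) := T_34 (nat_lit 260) (nat_lit 243) (nat_lit 5) (nat_lit 6) (nat_lit 11) L92084 (by decide +kernel)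
theorem L92086 : W_34 (nat_lit 5) (nat_lit 0x10000c000c0000000200010001000080000000000000000000000000000000) (nat_lit 0x0) (nat_lit 0xa000700028000000000002000100000000000000000000000000000000000000000000) := T_34 (nat_lit 193) (nat_lit 176) (nat_lit 6) (nat_lit 6) (nat_lit 13) L92085 (by decide +kernel)
theorem L92087 : W_34 (nat_lit 2) (nat_lit 0x1c000c000e0003400200010001000080000000000000000000000000000000) (nat_lit 0x0) (nat_lit 0x3001000000000000000000000000000000000000000000000000000000000) := D_34 (nat_lit 241) (nat_lit 228) (nat_lit 240) (nat_lit 2) (nat_lit 3) (nat_lit 14) (nat_lit 2) (nat_lit 2) (nat_lit 14) (by decide +kernel)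
theorem L92088 : W_34 (nat_lit 3) (nat_lit 0x18000c000e0003400200010001000080000000000000000000000000000000) (nat_lit 0x0) (nat_lit 0x80007001000000000000000000000000000000000000000000000000000000000) := T_34 (nat_lit 242) (nat_lit 259) (nat_lit 5) (nat_lit 5) (nat_lit 11) L92087 (by decide +kernel)
theorem L92089 : W_34 (nat_lit 4) (nat_lit 0x18000c000c0003400200010001000080000000000000000000000000000000) (nat_lit 0x0) (nat_lit 0x280007001000020000000000000000000000000000000000000000000000000000) := T_34 (nat_lit 209) (nat_lit 261) (nat_lit 7) (nat_lit 5) (nat_lit 11) L92088 (by decide +kernel)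
theorem L92090 : W_34 (nat_lit 5) (nat_lit 0x18000c000c0003000200010001000080000000000000000000000000000000) (nat_lit 0x0) (nat_lit 0x280007001000020000c00000000000000000000000000000000000000000000000) := T_34 (nat_lit 190) (nat_lit 191) (nat_lit 3) (nat_lit 3) (nat_lit 11) L92089 (by decide +kernel)
theorem L92091 : W_34 (nat_lit 6) (nat_lit 0x18000c000c0002000200010001000080000000000000000000000000000000) (nat_lit 0x0) (nat_lit 0x280007001000020001c00080000000000000000000000000000000000000000000) := T_34 (nat_lit 192) (nat_lit 175) (nat_lit 4) (nat_lit 6) (nat_lit 14) L92090 (by decide +kernel)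
theorem L92092 : W_34 (nat_lit 7) (nat_lit 0x10000c000c0002000200010001000080000000000000000000000000000000) (nat_lit 0x0) (nat_lit 0x38000f001000020001c00080000000000000000000000000000000000000000000) := T_34 (nat_lit 243) (nat_lit 260) (nat_lit 5) (nat_lit 6) (nat_lit 11) L92091 (by decide +kernel)
theorem L92093 : W_34 (nat_lit 8) (nat_lit 0x10000c000c0000000200010001000080000000000000000000000000000000) (nat_lit 0x0) (nat_lit 0x38000f001000020003c00180000000000000000000000000000000000000000000) := T_34 (nat_lit 193) (nat_lit 176) (nat_lit 6) (nat_lit 6) (nat_lit 13) L92092 (by decide +kernel)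
theorem L92094 : W_34 (nat_lit 2) (nat_lit 0xbc000c002e0003800200010001000080000000000000000000000000000000) (nat_lit 0x0) (nat_lit 0x3001000000000000000000000000000000000000000000000000000000000) := D_34 (nat_lit 241) (nat_lit 228) (nat_lit 240) (nat_lit 2) (nat_lit 3) (nat_lit 14) (nat_lit 2) (nat_lit 2) (nat_lit 14) (by decide +kernel)
theorem L92095 : W_34 (nat_lit 3) (nat_lit 0xb8000c002e0003800200010001000080000000000000000000000000000000) (nat_lit 0x0) (nat_lit 0x80007001000000000000000000000000000000000000000000000000000000000) := T_34 (nat_lit 242) (nat_lit 259) (nat_lit 5) (nat_lit 5) (nat_lit 11) L92094 (by decide +kernel)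
theorem L92096 : W_34 (nat_lit 4) (nat_lit 0xb8000c002c0003800200010001000080000000000000000000000000000000) (nat_lit 0x0) (nat_lit 0x80007001000020000000040000000000000000000000000000000000000000000) := T_34 (nat_lit 209) (nat_lit 174) (nat_lit 4) (nat_lit 5) (nat_lit 14) L92095 (by decide +kernel)
theorem L92097 : W_34 (nat_lit 5) (nat_lit 0xb8000c002c0003000200010001000080000000000000000000000000000000) (nat_lit 0x0) (nat_lit 0x80007001000020000c00040000000000000000000000000000000000000000000) := T_34 (nat_lit 191) (nat_lit 190) (nat_lit 3) (nat_lit 3) (nat_lit 11) L92096 (by decide +kernel)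
theorem L92098 : W_34 (nat_lit 6) (nat_lit 0xb8000c002c0002000200010001000080000000000000000000000000000000) (nat_lit 0x0) (nat_lit 0x80007001000020001c000c0000000000000000000000000000000000000000000) := T_34 (nat_lit 192) (nat_lit 175) (nat_lit 4) (nat_lit 6) (nat_lit 14) L92097 (by decide +kernel)
theorem L92099 : W_34 (nat_lit 7) (nat_lit 0x38000c002c0002000200010001000080000000000000000000000000000000) (nat_lit 0x0) (nat_lit 0x800c7001000020001c000c0000000000000000000000000000000000000000000) := T_34 (nat_lit 247) (nat_lit 246) (nat_lit 0) (nat_lit 9) (nat_lit 14) L92098 (by decide +kernel)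
theorem L92100 : W_34 (nat_lit 8) (nat_lit 0x18000c002c0002000200010001000080000000000000000000000000000000) (nat_lit 0x0) (nat_lit 0x4800e7001000020001c000c0000000000000000000000000000000000000000000) := T_34 (nat_lit 245) (nat_lit 262) (nat_lit 7) (nat_lit 6) (nat_lit 11) L92099 (by decide +kernel)
theorem L92101 : W_34 (nat_lit 9) (nat_lit 0x10000c002c0002000200010001000080000000000000000000000000000000) (nat_lit 0x0) (nat_lit 0x5800ef001000020001c000c0000000000000000000000000000000000000000000) := T_34 (nat_lit 243) (nat_lit 260) (nat_lit 5) (nat_lit 6) (nat_lit 11) L92100 (by decide +kernel)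
theorem L92102 : W_34 (nat_lit 10) (nat_lit 0x10000c002c0000000200010001000080000000000000000000000000000000) (nat_lit 0x0) (nat_lit 0x5800ef001000020003c001c0000000000000000000000000000000000000000000) := T_34 (nat_lit 193) (nat_lit 176) (nat_lit 6) (nat_lit 6) (nat_lit 13) L92101 (by decide +kernel)
theorem L92103 : W_34 (nat_lit 11) (nat_lit 0x10000c000c0000000200010001000080000000000000000000000000000000) (nat_lit 0x0) (nat_lit 0x5800ef001000320003c001c0000000000000000000000000000000000000000000) := T_34 (nat_lit 213) (nat_lit 212) (nat_lit 1) (nat_lit 9) (nat_lit 12) L92102 (by decide +kernel)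
theorem L92104 : W_34 (nat_lit 12) (nat_lit 0xc000c0000000200010001000080000000000000000000000000000000) (nat_lit 0x0) (nat_lit 0x1e001fc00ff00100032001bc001c0000000000000000000000000000000000000000000) := Q_34 (nat_lit 244) (C_34 L92054 (C_34 L92060 (C_34 L92073 (C_34 L92082 (C_34 L92086 (C_34 L92093 (C_34 L92103 N_34))))))) (by decide +kernel)
theorem L92105 : W_34 (nat_lit 13) (nat_lit 0x8000c0000000200010001000080000000000000000000000000000000) (nat_lit 0x0) (nat_lit 0x1e001fc00ff00178033c01be001e002e000000000000000000000000000000000000000) := Q_34 (nat_lit 226) (C_34 L91407 (C_34 L91299 (C_34 L92104 N_34))) (by decide +kernel)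
theorem L92106 : W_34 (nat_lit 5) (nat_lit 0x8000c000c0000000200010001000080000000000000000000000000000000) (nat_lit 0x0) (nat_lit 0x40007400f300000002000100000000000000000000000000000000000000000000) := Q_34 (nat_lit 228) (C_34 L91845 (C_34 L91825 (C_34 L91835 N_34))) (by decide +kernel)
theorem L92107 : W_34 (nat_lit 2) (nat_lit 0xc000e000c0000000200010001000080000000000000000000000000000000) (nat_lit 0x0) (nat_lit 0x3001000000000000000000000000000000000000000000000000000000000) := D_34 (nat_lit 241) (nat_lit 240) (nat_lit 228) (nat_lit 2) (nat_lit 2) (nat_lit 14) (nat_lit 1) (nat_lit 7) (nat_lit 13) (by decide +kernel)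
theorem L92108 : W_34 (nat_lit 3) (nat_lit 0xc000c000c0000000200010001000080000000000000000000000000000000) (nat_lit 0x0) (nat_lit 0x3001300000000000000000000000000000000000000000000000000000000) := T_34 (nat_lit 225) (nat_lit 224) (nat_lit 2) (nat_lit 3) (nat_lit 13) L92107 (by decide +kernel)
theorem L92109 : W_34 (nat_lit 2) (nat_lit 0x200000000c001c000c0000000200010001000080000000000000000000000000000000) (nat_lit 0x0) (nat_lit 0x13000000000000000000000000000000000000000000000000000000000000) := D_34 (nat_lit 241) (nat_lit 240) (nat_lit 244) (nat_lit 2) (nat_lit 2) (nat_lit 14) (nat_lit 2) (nat_lit 3) (nat_lit 14) (by decide +kernel)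
theorem L92110 : W_34 (nat_lit 3) (nat_lit 0x200000000c000c000c0000000200010001000080000000000000000000000000000000) (nat_lit 0x0) (nat_lit 0x13003000000000000000000000000000000000000000000000000000000000) := T_34 (nat_lit 228) (nat_lit 229) (nat_lit 1) (nat_lit 8) (nat_lit 13) L92109 (by decide +kernel)
theorem L92111 : W_34 (nat_lit 4) (nat_lit 0xc000c000c0000000200010001000080000000000000000000000000000000) (nat_lit 0x0) (nat_lit 0x2000100013003000000000000000000000000000000000000000000000000000000000) := T_34 (nat_lit 277) (nat_lit 260) (nat_lit 6) (nat_lit 5) (nat_lit 16) L92110 (by decide +kernel)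
theorem L92112 : W_34 (nat_lit 2) (nat_lit 0x200040002c001e000c0000000200010001000080000000000000000000000000000000) (nat_lit 0x0) (nat_lit 0x10000800010000000000000000000000000000000000000000000000000000000000000) := D_34 (nat_lit 263) (nat_lit 244) (nat_lit 280) (nat_lit 3) (nat_lit 4) (nat_lit 14) (nat_lit 7) (nat_lit 7) (nat_lit 12) (by decide +kernel)
theorem L92113 : W_34 (nat_lit 3) (nat_lit 0x200000002c001e000c0000000200010001000080000000000000000000000000000000) (nat_lit 0x0) (nat_lit 0x18000c00010000000000000000000000000000000000000000000000000000000000000) := T_34 (nat_lit 262) (nat_lit 279) (nat_lit 4) (nat_lit 7) (nat_lit 16) L92112 (by decide +kernel)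
theorem L92114 : W_34 (nat_lit 4) (nat_lit 0x200000000c001e000c0000000200010001000080000000000000000000000000000000) (nat_lit 0x0) (nat_lit 0x18000c00070000000000000000000000000000000000000000000000000000000000000) := T_34 (nat_lit 245) (nat_lit 246) (nat_lit 3) (nat_lit 4) (nat_lit 13) L92113 (by decide +kernel)
theorem L92115 : W_34 (nat_lit 5) (nat_lit 0x200000000c000e000c0000000200010001000080000000000000000000000000000000) (nat_lit 0x0) (nat_lit 0x18000c00070003000000000000000000000000000000000000000000000000000000000) := T_34 (nat_lit 228) (nat_lit 229) (nat_lit 1) (nat_lit 8) (nat_lit 13) L92114 (by decide +kernel)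
theorem L92116 : W_34 (nat_lit 6) (nat_lit 0xc000e000c0000000200010001000080000000000000000000000000000000) (nat_lit 0x0) (nat_lit 0x1a000d00070003000000000000000000000000000000000000000000000000000000000) := T_34 (nat_lit 277) (nat_lit 260) (nat_lit 6) (nat_lit 5) (nat_lit 16) L92115 (by decide +kernel)
theorem L92117 : W_34 (nat_lit 7) (nat_lit 0xc000c000c0000000200010001000080000000000000000000000000000000) (nat_lit 0x0) (nat_lit 0x1a000d00070003300000000000000000000000000000000000000000000000000000000) := T_34 (nat_lit 225) (nat_lit 224) (nat_lit 2) (nat_lit 3) (nat_lit 13) L92116 (by decide +kernel)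
theorem L92118 : W_34 (nat_lit 10) (nat_lit 0x8000c000c0000000200010001000080000000000000000000000000000000) (nat_lit 0x0) (nat_lit 0x1f000fe0077003380028001400000000000000000000000000000000000000000000000) := Q_34 (nat_lit 242) (C_34 L91371 (C_34 L91363 (C_34 L92108 (C_34 L92111 (C_34 L92117 N_34))))) (by decide +kernel)
theorem L92119 : W_34 (nat_lit 2) (nat_lit 0x8000d000c0002000200010001000080000000000000000000000000000000) (nat_lit 0x0) (nat_lit 0x2000100000000000020000000000000000000000000000000000000000000000000000) := D_34 (nat_lit 260) (nat_lit 277) (nat_lit 209) (nat_lit 6) (nat_lit 5) (nat_lit 16) (nat_lit 6) (nat_lit 5) (nat_lit 15) (by decide +kernel)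
theorem L92120 : W_34 (nat_lit 3) (nat_lit 0x8000d000c0000000200010001000080000000000000000000000000000000) (nat_lit 0x0) (nat_lit 0x2000100000000000020002000100000000000000000000000000000000000000000000) := T_34 (nat_lit 193) (nat_lit 176) (nat_lit 6) (nat_lit 6) (nat_lit 13) L92119 (by decide +kernel)
theorem L92121 : W_34 (nat_lit 4) (nat_lit 0x8000c000c0000000200010001000080000000000000000000000000000000) (nat_lit 0x0) (nat_lit 0x2000100000000300020002000100000000000000000000000000000000000000000000) := T_34 (nat_lit 224) (nat_lit 225) (nat_lit 2) (nat_lit 3) (nat_lit 13) L92120 (by decide +kernel)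
theorem L92122 : W_34 (nat_lit 11) (nat_lit 0xc000c0000000200010001000080000000000000000000000000000000) (nat_lit 0x0) (nat_lit 0x1f000fe007f00f380028003400100000000000000000000000000000000000000000000) := Q_34 (nat_lit 243) (C_34 L92106 (C_34 L92118 (C_34 L91801 (C_34 L92121 N_34)))) (by decide +kernel)
theorem L92123 : W_34 (nat_lit 13) (nat_lit 0x8000c0000000200010001000080000000000000000000000000000000) (nat_lit 0x0) (nat_lit 0x1f001fe00ff00f78032801bc001c0000000000000000000000000000000000000000000) := Q_34 (nat_lit 226) (C_34 L91297 (C_34 L91299 (C_34 L92104 (C_34 L92122 N_34)))) (by decide +kernel)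
theorem L92124 : W_34 (nat_lit 6) (nat_lit 0x1c000c0000000200010001000080000000000000000000000000000000) (nat_lit 0x0) (nat_lit 0x20005001ec00e000030002000100000000000000000000000000000000000000000000) := Q_34 (nat_lit 229) (C_34 L91946 (C_34 L91515 (C_34 L91566 N_34))) (by decide +kernel)
theorem L92125 : W_34 (nat_lit 9) (nat_lit 0xc000c0000000200010001000080000000000000000000000000000000) (nat_lit 0x0) (nat_lit 0xa0005001ee00f300038002800100000000000000000000000000000000000000000000) := Q_34 (nat_lit 228) (C_34 L91872 (C_34 L91853 (C_34 L91509 (C_34 L91514 (C_34 L92124 N_34))))) (by decide +kernel)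
theorem L92126 : W_34 (nat_lit 3) (nat_lit 0xc001e0000000300010001000080000000000000000000000000000000) (nat_lit 0x0) (nat_lit 0x180008000c000000000000000000000000000000000000000) := T_34 (nat_lit 192) (nat_lit 191) (nat_lit 0) (nat_lit 8) (nat_lit 12) L91461 (by decide +kernel)
theorem L92127 : W_34 (nat_lit 4) (nat_lit 0xc000e0000000300010001000080000000000000000000000000000000) (nat_lit 0x0) (nat_lit 0x30000180008000c000000000000000000000000000000000000000) := T_34 (nat_lit 212) (nat_lit 213) (nat_lit 1) (nat_lit 9) (nat_lit 12) L92126 (by decide +kernel)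
theorem L92128 : W_34 (nat_lit 5) (nat_lit 0xc000e0000000200010001000080000000000000000000000000000000) (nat_lit 0x0) (nat_lit 0x30000380018000c000000000000000000000000000000000000000) := T_34 (nat_lit 176) (nat_lit 193) (nat_lit 6) (nat_lit 6) (nat_lit 13) L92127 (by decide +kernel)
theorem L92129 : W_34 (nat_lit 9) (nat_lit 0xc000c0000000200010001000080000000000000000000000000000000) (nat_lit 0x0) (nat_lit 0x18000d000e800700033c01bc001c000e000000000000000000000000000000000000000) := Q_34 (nat_lit 209) (C_34 L91315 (C_34 L92036 (C_34 L92128 (C_34 L91294 N_34)))) (by decide +kernel)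
theorem L92130 : W_34 (nat_lit 10) (nat_lit 0x8000c0000000200010001000080000000000000000000000000000000) (nat_lit 0x0) (nat_lit 0x1a000d001ee00f70033c01bc001c000e000000000000000000000000000000000000000) := Q_34 (nat_lit 226) (C_34 L91297 (C_34 L91299 (C_34 L92125 (C_34 L92129 N_34)))) (by decide +kernel)
theorem L92131 : W_34 (nat_lit 2) (nat_lit 0x7000900078002c0000000200010001000080000000000000000000000000000000) (nat_lit 0x0) (nat_lit 0x800060000000000000000000000000000000000000000000000000000000000000) := D_34 (nat_lit 246) (nat_lit 263) (nat_lit 245) (nat_lit 2) (nat_lit 5) (nat_lit 15) (nat_lit 1) (nat_lit 9) (nat_lit 14) (by decide +kernel)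
theorem L92132 : W_34 (nat_lit 3) (nat_lit 0x6000900078002c0000000200010001000080000000000000000000000000000000) (nat_lit 0x0) (nat_lit 0x2000900060000000000000000000000000000000000000000000000000000000000000) := T_34 (nat_lit 260) (nat_lit 277) (nat_lit 5) (nat_lit 6) (nat_lit 12) L92131 (by decide +kernel)
theorem L92133 : W_34 (nat_lit 4) (nat_lit 0x2000900078002c0000000200010001000080000000000000000000000000000000) (nat_lit 0x0) (nat_lit 0xa000d00060000000000000000000000000000000000000000000000000000000000000) := T_34 (nat_lit 262) (nat_lit 279) (nat_lit 7) (nat_lit 6) (nat_lit 12) L92132 (by decide +kernel)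
theorem L92134 : W_34 (nat_lit 5) (nat_lit 0x2000900078000c0000000200010001000080000000000000000000000000000000) (nat_lit 0x0) (nat_lit 0xa000d00060000000600000000000000000000000000000000000000000000000000000) := T_34 (nat_lit 213) (nat_lit 214) (nat_lit 2) (nat_lit 6) (nat_lit 13) L92133 (by decide +kernel)
theorem L92135 : W_34 (nat_lit 6) (nat_lit 0x900078000c0000000200010001000080000000000000000000000000000000) (nat_lit 0x0) (nat_lit 0xe000f00060000000600000000000000000000000000000000000000000000000000000) := T_34 (nat_lit 261) (nat_lit 278) (nat_lit 6) (nat_lit 6) (nat_lit 16) L92134 (by decide +kernel)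
theorem L92136 : W_34 (nat_lit 7) (nat_lit 0x100078000c0000000200010001000080000000000000000000000000000000) (nat_lit 0x0) (nat_lit 0xe000f001e0000000600000000000000000000000000000000000000000000000000000) := T_34 (nat_lit 247) (nat_lit 248) (nat_lit 3) (nat_lit 6) (nat_lit 13) L92135 (by decide +kernel)
theorem L92137 : W_34 (nat_lit 8) (nat_lit 0x78000c0000000200010001000080000000000000000000000000000000) (nat_lit 0x0) (nat_lit 0xe000f001f8000000600000000000000000000000000000000000000000000000000000) := T_34 (nat_lit 244) (nat_lit 243) (nat_lit 1) (nat_lit 9) (nat_lit 13) L92136 (by decide +kernel)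
theorem L92138 : W_34 (nat_lit 9) (nat_lit 0x38000c0000000200010001000080000000000000000000000000000000) (nat_lit 0x0) (nat_lit 0xe000f001f800c000600000000000000000000000000000000000000000000000000000) := T_34 (nat_lit 230) (nat_lit 231) (nat_lit 0) (nat_lit 10) (nat_lit 13) L92137 (by decide +kernel)
theorem L92139 : W_34 (nat_lit 2) (nat_lit 0x38003c0010000a00010001000080000000000000000000000000000000) (nat_lit 0x0) (nat_lit 0x800040000000000008000000000000000000000000000000000000000000000000) := D_34 (nat_lit 246) (nat_lit 263) (nat_lit 195) (nat_lit 6) (nat_lit 8) (nat_lit 15) (nat_lit 6) (nat_lit 8) (nat_lit 14) (by decide +kernel)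
theorem L92140 : W_34 (nat_lit 3) (nat_lit 0x38003c0010000200010001000080000000000000000000000000000000) (nat_lit 0x0) (nat_lit 0x800040000000000008000800040000000000000000000000000000000000000000) := T_34 (nat_lit 179) (nat_lit 162) (nat_lit 5) (nat_lit 9) (nat_lit 9) L92139 (by decide +kernel)
theorem L92141 : W_34 (nat_lit 4) (nat_lit 0x38003c0000000200010001000080000000000000000000000000000000) (nat_lit 0x0) (nat_lit 0x800040000000000038000800040000000000000000000000000000000000000000) := T_34 (nat_lit 196) (nat_lit 197) (nat_lit 2) (nat_lit 6) (nat_lit 12) L92140 (by decide +kernel)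
theorem L92142 : W_34 (nat_lit 5) (nat_lit 0x38001c0000000200010001000080000000000000000000000000000000) (nat_lit 0x0) (nat_lit 0x800040000000600038000800040000000000000000000000000000000000000000) := T_34 (nat_lit 213) (nat_lit 214) (nat_lit 1) (nat_lit 10) (nat_lit 12) L92141 (by decide +kernel)
theorem L92143 : W_34 (nat_lit 2) (nat_lit 0x4a001f0010800200010001000080000000000000000000000000000000) (nat_lit 0x0) (nat_lit 0x8000200020000000000000000000000000000000000000000000000000) := D_34 (nat_lit 213) (nat_lit 197) (nat_lit 231) (nat_lit 2) (nat_lit 6) (nat_lit 12) (nat_lit 3) (nat_lit 6) (nat_lit 12) (by decide +kernel)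
theorem L92144 : W_34 (nat_lit 3) (nat_lit 0xa001f0010800200010001000080000000000000000000000000000000) (nat_lit 0x0) (nat_lit 0xe000200020000000000000000000000000000000000000000000000000) := T_34 (nat_lit 230) (nat_lit 229) (nat_lit 3) (nat_lit 5) (nat_lit 12) L92143 (by decide +kernel)
theorem L92145 : W_34 (nat_lit 4) (nat_lit 0xa001f0000800200010001000080000000000000000000000000000000) (nat_lit 0x0) (nat_lit 0xe000200038000000000000000000000000000000000000000000000000) := T_34 (nat_lit 196) (nat_lit 195) (nat_lit 2) (nat_lit 5) (nat_lit 12) L92144 (by decide +kernel)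
theorem L92146 : W_34 (nat_lit 5) (nat_lit 0xa000f0000800200010001000080000000000000000000000000000000) (nat_lit 0x0) (nat_lit 0xe000300039000000000000000000000000000000000000000000000000) := T_34 (nat_lit 212) (nat_lit 192) (nat_lit 0) (nat_lit 8) (nat_lit 12) L92145 (by decide +kernel)
theorem L92147 : W_34 (nat_lit 6) (nat_lit 0x8000f0000800200010001000080000000000000000000000000000000) (nat_lit 0x0) (nat_lit 0xe300300039000000000000000000000000000000000000000000000000) := T_34 (nat_lit 225) (nat_lit 224) (nat_lit 1) (nat_lit 7) (nat_lit 12) L92146 (by decide +kernel)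
theorem L92148 : W_34 (nat_lit 7) (nat_lit 0x8000f0000000200010001000080000000000000000000000000000000) (nat_lit 0x0) (nat_lit 0xe300300039c00000000000000000000000000000000000000000000000) := T_34 (nat_lit 191) (nat_lit 190) (nat_lit 0) (nat_lit 7) (nat_lit 12) L92147 (by decide +kernel)
theorem L92149 : W_34 (nat_lit 2) (nat_lit 0x8000f8000800200010001000080000000000000000000000000000000) (nat_lit 0x0) (nat_lit 0x380000000000000000000000000000000000000000000000000000000) := D_34 (nat_lit 224) (nat_lit 223) (nat_lit 225) (nat_lit 1) (nat_lit 6) (nat_lit 12) (nat_lit 1) (nat_lit 7) (nat_lit 12) (by decide +kernel)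
theorem L92150 : W_34 (nat_lit 3) (nat_lit 0x8000f0000800200010001000080000000000000000000000000000000) (nat_lit 0x0) (nat_lit 0x1380008000000000000000000000000000000000000000000000000000) := T_34 (nat_lit 207) (nat_lit 228) (nat_lit 3) (nat_lit 3) (nat_lit 12) L92149 (by decide +kernel)
theorem L92151 : W_34 (nat_lit 4) (nat_lit 0x8000f0000000200010001000080000000000000000000000000000000) (nat_lit 0x0) (nat_lit 0x1380008000c00000000000000000000000000000000000000000000000) := T_34 (nat_lit 191) (nat_lit 190) (nat_lit 0) (nat_lit 7) (nat_lit 12) L92150 (by decide +kernel)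
theorem L92152 : W_34 (nat_lit 8) (nat_lit 0x8000e0000000200010001000080000000000000000000000000000000) (nat_lit 0x0) (nat_lit 0xf380318039c00000000000000000000000000000000000000000000000) := Q_34 (nat_lit 208) (C_34 L91965 (C_34 L92148 (C_34 L92151 N_34))) (by decide +kernel)
theorem L92153 : W_34 (nat_lit 6) (nat_lit 0x8000e0000000200010001000080000000000000000000000000000000) (nat_lit 0x0) (nat_lit 0x200010000000110003e00180004000000000000000000000000000000000000000) := Q_34 (nat_lit 192) (C_34 L91963 (C_34 L91956 (C_34 L91960 N_34))) (by decide +kernel)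
theorem L92154 : W_34 (nat_lit 2) (nat_lit 0x2000100018000e0002000200010001000080000000000000000000000000000000) (nat_lit 0x0) (nat_lit 0x2000100008000000000000000000000000000000000000000000000000000000000000) := D_34 (nat_lit 260) (nat_lit 243) (nat_lit 277) (nat_lit 5) (nat_lit 6) (nat_lit 11) (nat_lit 5) (nat_lit 6) (nat_lit 12) (by decide +kernel)
theorem L92155 : W_34 (nat_lit 3) (nat_lit 0x2000100018000e0000000200010001000080000000000000000000000000000000) (nat_lit 0x0) (nat_lit 0x2000100008000000000002000100000000000000000000000000000000000000000000) := T_34 (nat_lit 193) (nat_lit 176) (nat_lit 6) (nat_lit 6) (nat_lit 13) L92154 (by decide +kernel)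
theorem L92156 : W_34 (nat_lit 4) (nat_lit 0x100018000e0000000200010001000080000000000000000000000000000000) (nat_lit 0x0) (nat_lit 0x6000300008000000000002000100000000000000000000000000000000000000000000) := T_34 (nat_lit 261) (nat_lit 278) (nat_lit 6) (nat_lit 6) (nat_lit 16) L92155 (by decide +kernel)
theorem L92157 : W_34 (nat_lit 2) (nat_lit 0x9000f0002400200010001000080000000000000000000000000000000) (nat_lit 0x0) (nat_lit 0x80008000200000000000000000000000000000000000000000000000) := D_34 (nat_lit 207) (nat_lit 223) (nat_lit 189) (nat_lit 1) (nat_lit 6) (nat_lit 12) (nat_lit 0) (nat_lit 6) (nat_lit 12) (by decide +kernel)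
theorem L92158 : W_34 (nat_lit 3) (nat_lit 0x9000f0002000200010001000080000000000000000000000000000000) (nat_lit 0x0) (nat_lit 0x80008000e00000000000000000000000000000000000000000000000) := T_34 (nat_lit 190) (nat_lit 191) (nat_lit 0) (nat_lit 7) (nat_lit 12) L92157 (by decide +kernel)
theorem L92159 : W_34 (nat_lit 4) (nat_lit 0x8000f0002000200010001000080000000000000000000000000000000) (nat_lit 0x0) (nat_lit 0x380008000e00000000000000000000000000000000000000000000000) := T_34 (nat_lit 224) (nat_lit 225) (nat_lit 1) (nat_lit 7) (nat_lit 12) L92158 (by decide +kernel)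
theorem L92160 : W_34 (nat_lit 5) (nat_lit 0x8000f0000000200010001000080000000000000000000000000000000) (nat_lit 0x0) (nat_lit 0x380008002e00100000000000000000000000000000000000000000000) := T_34 (nat_lit 193) (nat_lit 176) (nat_lit 6) (nat_lit 6) (nat_lit 13) L92159 (by decide +kernel)
theorem L92161 : W_34 (nat_lit 2) (nat_lit 0x800000002a003f0010800300070001000080000000000000000000000000000000) (nat_lit 0x0) (nat_lit 0xc0008000000000000000000000000000000000000000) := D_34 (nat_lit 175) (nat_lit 159) (nat_lit 174) (nat_lit 1) (nat_lit 9) (nat_lit 9) (nat_lit 2) (nat_lit 4) (nat_lit 10) (by decide +kernel)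
theorem L92162 : W_34 (nat_lit 3) (nat_lit 0x800000002a003f0010800300050001000080000000000000000000000000000000) (nat_lit 0x0) (nat_lit 0xc00a8000000000000000000000000000000000000000) := T_34 (nat_lit 161) (nat_lit 163) (nat_lit 1) (nat_lit 10) (nat_lit 9) L92161 (by decide +kernel)
theorem L92163 : W_34 (nat_lit 4) (nat_lit 0x800000002a003f0010800300010001000080000000000000000000000000000000) (nat_lit 0x0) (nat_lit 0x8c00e8000000000000000000000000000000000000000) := T_34 (nat_lit 162) (nat_lit 179) (nat_lit 5) (nat_lit 9) (nat_lit 9) L92162 (by decide +kernel)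
theorem L92164 : W_34 (nat_lit 5) (nat_lit 0x2a003f0010800300010001000080000000000000000000000000000000) (nat_lit 0x0) (nat_lit 0x8000400000000000000008c00e8000000000000000000000000000000000000000) := T_34 (nat_lit 263) (nat_lit 246) (nat_lit 6) (nat_lit 8) (nat_lit 15) L92163 (by decide +kernel)
theorem L92165 : W_34 (nat_lit 6) (nat_lit 0x28003f0010800300010001000080000000000000000000000000000000) (nat_lit 0x0) (nat_lit 0x8000400003000000000008c00e8000000000000000000000000000000000000000) := T_34 (nat_lit 225) (nat_lit 224) (nat_lit 1) (nat_lit 7) (nat_lit 12) L92164 (by decide +kernel)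
theorem L92166 : W_34 (nat_lit 7) (nat_lit 0x28001f0010800300010001000080000000000000000000000000000000) (nat_lit 0x0) (nat_lit 0x8000400003002000200008c00e8000000000000000000000000000000000000000) := T_34 (nat_lit 213) (nat_lit 197) (nat_lit 2) (nat_lit 6) (nat_lit 12) L92165 (by decide +kernel)
theorem L92167 : W_34 (nat_lit 8) (nat_lit 0x28001f0010800200010001000080000000000000000000000000000000) (nat_lit 0x0) (nat_lit 0x8000400003002000220009c00e8000000000000000000000000000000000000000) := T_34 (nat_lit 176) (nat_lit 193) (nat_lit 6) (nat_lit 6) (nat_lit 13) L92166 (by decide +kernel)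
theorem L92168 : W_34 (nat_lit 9) (nat_lit 0x28001f0000800200010001000080000000000000000000000000000000) (nat_lit 0x0) (nat_lit 0x80004000030020003a0009c00e8000000000000000000000000000000000000000) := T_34 (nat_lit 196) (nat_lit 195) (nat_lit 2) (nat_lit 5) (nat_lit 12) L92167 (by decide +kernel)
theorem L92169 : W_34 (nat_lit 10) (nat_lit 0x28000f0000800200010001000080000000000000000000000000000000) (nat_lit 0x0) (nat_lit 0x80004000430030003a0009c00e8000000000000000000000000000000000000000) := T_34 (nat_lit 212) (nat_lit 230) (nat_lit 3) (nat_lit 5) (nat_lit 12) L92168 (by decide +kernel)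
theorem L92170 : W_34 (nat_lit 11) (nat_lit 0x28000f0000000200010001000080000000000000000000000000000000) (nat_lit 0x0) (nat_lit 0x80004000430030003ac009c00e8000000000000000000000000000000000000000) := T_34 (nat_lit 191) (nat_lit 190) (nat_lit 0) (nat_lit 7) (nat_lit 12) L92169 (by decide +kernel)
theorem L92171 : W_34 (nat_lit 12) (nat_lit 0x8000f0000000200010001000080000000000000000000000000000000) (nat_lit 0x0) (nat_lit 0x80004000730030003ac009c00e8000000000000000000000000000000000000000) := T_34 (nat_lit 229) (nat_lit 228) (nat_lit 3) (nat_lit 4) (nat_lit 12) L92170 (by decide +kernel)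
theorem L92172 : W_34 (nat_lit 13) (nat_lit 0x8000e0000000200010001000080000000000000000000000000000000) (nat_lit 0x0) (nat_lit 0x80004000738031803ae009c00e8000000000000000000000000000000000000000) := Q_34 (nat_lit 208) (C_34 L92151 (C_34 L92160 (C_34 L91965 (C_34 L92171 N_34)))) (by decide +kernel)
theorem L92173 : W_34 (nat_lit 2) (nat_lit 0x18001a000f0003000200014001000080000000000000000000000000000000) (nat_lit 0x0) (nat_lit 0x80006000000000000000000000000000000000000000000000000000000000000) := D_34 (nat_lit 242) (nat_lit 241) (nat_lit 259) (nat_lit 2) (nat_lit 3) (nat_lit 14) (nat_lit 6) (nat_lit 4) (nat_lit 15) (by decide +kernel)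
theorem L92174 : W_34 (nat_lit 3) (nat_lit 0x10001a000f0003000200014001000080000000000000000000000000000000) (nat_lit 0x0) (nat_lit 0x18000e000000000000000000000000000000000000000000000000000000000000) := T_34 (nat_lit 243) (nat_lit 260) (nat_lit 5) (nat_lit 6) (nat_lit 11) L92173 (by decide +kernel)
theorem L92175 : W_34 (nat_lit 4) (nat_lit 0x10001a000f0001000200014001000080000000000000000000000000000000) (nat_lit 0x0) (nat_lit 0x18000e000000000002000100000000000000000000000000000000000000000000) := T_34 (nat_lit 193) (nat_lit 176) (nat_lit 6) (nat_lit 6) (nat_lit 13) L92174 (by decide +kernel)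
theorem L92176 : W_34 (nat_lit 5) (nat_lit 0x100018000f0001000200014001000080000000000000000000000000000000) (nat_lit 0x0) (nat_lit 0x18000e000300000002000100000000000000000000000000000000000000000000) := T_34 (nat_lit 225) (nat_lit 224) (nat_lit 1) (nat_lit 7) (nat_lit 12) L92175 (by decide +kernel)
theorem L92177 : W_34 (nat_lit 6) (nat_lit 0x18000f0001000200014001000080000000000000000000000000000000) (nat_lit 0x0) (nat_lit 0x38001e000300000002000100000000000000000000000000000000000000000000) := T_34 (nat_lit 244) (nat_lit 261) (nat_lit 4) (nat_lit 6) (nat_lit 15) L92176 (by decide +kernel)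
theorem L92178 : W_34 (nat_lit 7) (nat_lit 0x18000f0001000200010001000080000000000000000000000000000000) (nat_lit 0x0) (nat_lit 0x38001e000300000002000180004000000000000000000000000000000000000000) := T_34 (nat_lit 158) (nat_lit 175) (nat_lit 7) (nat_lit 5) (nat_lit 9) L92177 (by decide +kernel)
theorem L92179 : W_34 (nat_lit 8) (nat_lit 0x8000f0001000200010001000080000000000000000000000000000000) (nat_lit 0x0) (nat_lit 0x38001e003300000002000180004000000000000000000000000000000000000000) := T_34 (nat_lit 228) (nat_lit 229) (nat_lit 3) (nat_lit 4) (nat_lit 12) L92178 (by decide +kernel)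
theorem L92180 : W_34 (nat_lit 2) (nat_lit 0x14001a000f0001800200014001000080000000000000000000000000000000) (nat_lit 0x0) (nat_lit 0x4000a000000000000000000000000000000000000000000000000000000000000) := D_34 (nat_lit 241) (nat_lit 258) (nat_lit 243) (nat_lit 5) (nat_lit 4) (nat_lit 11) (nat_lit 2) (nat_lit 3) (nat_lit 14) (by decide +kernel)
theorem L92181 : W_34 (nat_lit 3) (nat_lit 0x10001a000f0001800200014001000080000000000000000000000000000000) (nat_lit 0x0) (nat_lit 0xc000e000000000000000000000000000000000000000000000000000000000000) := T_34 (nat_lit 242) (nat_lit 259) (nat_lit 6) (nat_lit 4) (nat_lit 15) L92180 (by decide +kernel)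
theorem L92182 : W_34 (nat_lit 4) (nat_lit 0x10001a000f0001000200014001000080000000000000000000000000000000) (nat_lit 0x0) (nat_lit 0xc000e000000000000c00000000000000000000000000000000000000000000000) := T_34 (nat_lit 191) (nat_lit 190) (nat_lit 0) (nat_lit 7) (nat_lit 12) L92181 (by decide +kernel)
theorem L92183 : W_34 (nat_lit 5) (nat_lit 0x100018000f0001000200014001000080000000000000000000000000000000) (nat_lit 0x0) (nat_lit 0xc000e000300000000c00000000000000000000000000000000000000000000000) := T_34 (nat_lit 225) (nat_lit 224) (nat_lit 1) (nat_lit 7) (nat_lit 12) L92182 (by decide +kernel)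
theorem L92184 : W_34 (nat_lit 6) (nat_lit 0x18000f0001000200014001000080000000000000000000000000000000) (nat_lit 0x0) (nat_lit 0x2c001e000300000000c00000000000000000000000000000000000000000000000) := T_34 (nat_lit 244) (nat_lit 261) (nat_lit 4) (nat_lit 6) (nat_lit 15) L92183 (by decide +kernel)
theorem L92185 : W_34 (nat_lit 7) (nat_lit 0x18000f0001000200010001000080000000000000000000000000000000) (nat_lit 0x0) (nat_lit 0x2c001e000300000000c00080004000000000000000000000000000000000000000) := T_34 (nat_lit 158) (nat_lit 175) (nat_lit 7) (nat_lit 5) (nat_lit 9) L92184 (by decide +kernel)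
theorem L92186 : W_34 (nat_lit 8) (nat_lit 0x8000f0001000200010001000080000000000000000000000000000000) (nat_lit 0x0) (nat_lit 0x2c001e003300000000c00080004000000000000000000000000000000000000000) := T_34 (nat_lit 228) (nat_lit 229) (nat_lit 3) (nat_lit 4) (nat_lit 12) L92185 (by decide +kernel)
theorem L92187 : W_34 (nat_lit 2) (nat_lit 0xa000f0003000200010001000080000000000000000000000000000000) (nat_lit 0x0) (nat_lit 0x200010000000000000000080000000000000000000000000000000000000000000) := D_34 (nat_lit 244) (nat_lit 175) (nat_lit 261) (nat_lit 4) (nat_lit 6) (nat_lit 14) (nat_lit 4) (nat_lit 6) (nat_lit 15) (by decide +kernel)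
theorem L92188 : W_34 (nat_lit 3) (nat_lit 0xa000f0001000200010001000080000000000000000000000000000000) (nat_lit 0x0) (nat_lit 0x200010000000000002000180000000000000000000000000000000000000000000) := T_34 (nat_lit 193) (nat_lit 176) (nat_lit 6) (nat_lit 6) (nat_lit 13) L92187 (by decide +kernel)
theorem L92189 : W_34 (nat_lit 4) (nat_lit 0x8000f0001000200010001000080000000000000000000000000000000) (nat_lit 0x0) (nat_lit 0x200010000300000002000180000000000000000000000000000000000000000000) := T_34 (nat_lit 225) (nat_lit 224) (nat_lit 1) (nat_lit 7) (nat_lit 12) L92188 (by decide +kernel)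
theorem L92190 : W_34 (nat_lit 2) (nat_lit 0x400018001a000f0003400200010001000080000000000000000000000000000000) (nat_lit 0x0) (nat_lit 0x80006000000000000000000000000000000000000000000000000000000000000) := D_34 (nat_lit 242) (nat_lit 241) (nat_lit 259) (nat_lit 2) (nat_lit 3) (nat_lit 14) (nat_lit 6) (nat_lit 4) (nat_lit 15) (by decide +kernel)
theorem L92191 : W_34 (nat_lit 3) (nat_lit 0x400010001a000f0003400200010001000080000000000000000000000000000000) (nat_lit 0x0) (nat_lit 0x18000e000000000000000000000000000000000000000000000000000000000000) := T_34 (nat_lit 243) (nat_lit 260) (nat_lit 5) (nat_lit 6) (nat_lit 11) L92190 (by decide +kernel)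
theorem L92192 : W_34 (nat_lit 4) (nat_lit 0x4000100018000f0003400200010001000080000000000000000000000000000000) (nat_lit 0x0) (nat_lit 0x18000e000300000000000000000000000000000000000000000000000000000000) := T_34 (nat_lit 225) (nat_lit 224) (nat_lit 1) (nat_lit 7) (nat_lit 12) L92191 (by decide +kernel)
theorem L92193 : W_34 (nat_lit 5) (nat_lit 0x4000000018000f0003400200010001000080000000000000000000000000000000) (nat_lit 0x0) (nat_lit 0x38001e000300000000000000000000000000000000000000000000000000000000) := T_34 (nat_lit 244) (nat_lit 261) (nat_lit 4) (nat_lit 6) (nat_lit 15) L92192 (by decide +kernel)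
theorem L92194 : W_34 (nat_lit 6) (nat_lit 0x18000f0003400200010001000080000000000000000000000000000000) (nat_lit 0x0) (nat_lit 0x78003e000300000000000000000000000000000000000000000000000000000000) := T_34 (nat_lit 262) (nat_lit 245) (nat_lit 4) (nat_lit 7) (nat_lit 15) L92193 (by decide +kernel)
theorem L92195 : W_34 (nat_lit 7) (nat_lit 0x8000f0003400200010001000080000000000000000000000000000000) (nat_lit 0x0) (nat_lit 0x78003e003300000000000000000000000000000000000000000000000000000000) := T_34 (nat_lit 228) (nat_lit 229) (nat_lit 3) (nat_lit 4) (nat_lit 12) L92194 (by decide +kernel)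
theorem L92196 : W_34 (nat_lit 8) (nat_lit 0x8000f0003000200010001000080000000000000000000000000000000) (nat_lit 0x0) (nat_lit 0x78003e003300000000c00000000000000000000000000000000000000000000000) := T_34 (nat_lit 190) (nat_lit 191) (nat_lit 3) (nat_lit 3) (nat_lit 11) L92195 (by decide +kernel)
theorem L92197 : W_34 (nat_lit 9) (nat_lit 0x8000f0001000200010001000080000000000000000000000000000000) (nat_lit 0x0) (nat_lit 0x78003e003300000002c00100000000000000000000000000000000000000000000) := T_34 (nat_lit 193) (nat_lit 176) (nat_lit 6) (nat_lit 6) (nat_lit 13) L92196 (by decide +kernel)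
theorem L92198 : W_34 (nat_lit 2) (nat_lit 0xa000f0003800200010001000080000000000000000000000000000000) (nat_lit 0x0) (nat_lit 0x4000000000000000080004000000000000000000000000000000000000000) := D_34 (nat_lit 175) (nat_lit 158) (nat_lit 242) (nat_lit 7) (nat_lit 5) (nat_lit 9) (nat_lit 6) (nat_lit 4) (nat_lit 14) (by decide +kernel)
theorem L92199 : W_34 (nat_lit 3) (nat_lit 0xa000f0003000200010001000080000000000000000000000000000000) (nat_lit 0x0) (nat_lit 0x4000000000000c00080004000000000000000000000000000000000000000) := T_34 (nat_lit 191) (nat_lit 190) (nat_lit 3) (nat_lit 3) (nat_lit 11) L92198 (by decide +kernel)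
theorem L92200 : W_34 (nat_lit 4) (nat_lit 0xa000f0001000200010001000080000000000000000000000000000000) (nat_lit 0x0) (nat_lit 0x4000000000002c00180004000000000000000000000000000000000000000) := T_34 (nat_lit 193) (nat_lit 176) (nat_lit 6) (nat_lit 6) (nat_lit 13) L92199 (by decide +kernel)
theorem L92201 : W_34 (nat_lit 5) (nat_lit 0x8000f0001000200010001000080000000000000000000000000000000) (nat_lit 0x0) (nat_lit 0x4000300000002c00180004000000000000000000000000000000000000000) := T_34 (nat_lit 225) (nat_lit 224) (nat_lit 1) (nat_lit 7) (nat_lit 12) L92200 (by decide +kernel)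
theorem L92202 : W_34 (nat_lit 2) (nat_lit 0x18000f0003800200010001000080000000000000000000000000000000) (nat_lit 0x0) (nat_lit 0x200010000000000000000080000000000000000000000000000000000000000000) := D_34 (nat_lit 244) (nat_lit 261) (nat_lit 175) (nat_lit 4) (nat_lit 6) (nat_lit 15) (nat_lit 4) (nat_lit 6) (nat_lit 14) (by decide +kernel)
theorem L92203 : W_34 (nat_lit 3) (nat_lit 0x18000f0001800200010001000080000000000000000000000000000000) (nat_lit 0x0) (nat_lit 0x200010000000000002000180000000000000000000000000000000000000000000) := T_34 (nat_lit 193) (nat_lit 176) (nat_lit 6) (nat_lit 6) (nat_lit 13) L92202 (by decide +kernel)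
theorem L92204 : W_34 (nat_lit 4) (nat_lit 0x18000f0001000200010001000080000000000000000000000000000000) (nat_lit 0x0) (nat_lit 0x200010000000000002c00180000000000000000000000000000000000000000000) := T_34 (nat_lit 191) (nat_lit 190) (nat_lit 0) (nat_lit 7) (nat_lit 12) L92203 (by decide +kernel)
theorem L92205 : W_34 (nat_lit 5) (nat_lit 0x8000f0001000200010001000080000000000000000000000000000000) (nat_lit 0x0) (nat_lit 0x200010003000000002c00180000000000000000000000000000000000000000000) := T_34 (nat_lit 228) (nat_lit 229) (nat_lit 3) (nat_lit 4) (nat_lit 12) L92204 (by decide +kernel)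
theorem L92206 : W_34 (nat_lit 10) (nat_lit 0x8000f0000000200010001000080000000000000000000000000000000) (nat_lit 0x0) (nat_lit 0x7c003e003300000003c00180004000000000000000000000000000000000000000) := Q_34 (nat_lit 192) (C_34 L92179 (C_34 L92186 (C_34 L92189 (C_34 L92197 (C_34 L92201 (C_34 L92205 N_34)))))) (by decide +kernel)
theorem L92207 : W_34 (nat_lit 11) (nat_lit 0x8000e0000000200010001000080000000000000000000000000000000) (nat_lit 0x0) (nat_lit 0x7c003e003380018003e00180004000000000000000000000000000000000000000) := Q_34 (nat_lit 208) (C_34 L92160 (C_34 L92151 (C_34 L91965 (C_34 L92206 N_34)))) (by decide +kernel)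
theorem L92208 : W_34 (nat_lit 2) (nat_lit 0x3c001a000e0003000200010001000080000000000000000000000000000000) (nat_lit 0x0) (nat_lit 0xc0000000000010000000000000000000000000000000000000000000000000000) := D_34 (nat_lit 259) (nat_lit 258) (nat_lit 208) (nat_lit 1) (nat_lit 7) (nat_lit 14) (nat_lit 6) (nat_lit 4) (nat_lit 15) (by decide +kernel)
theorem L92209 : W_34 (nat_lit 3) (nat_lit 0x3c001a000e0002000200010001000080000000000000000000000000000000) (nat_lit 0x0) (nat_lit 0xc0000000000010001000080000000000000000000000000000000000000000000) := T_34 (nat_lit 192) (nat_lit 175) (nat_lit 4) (nat_lit 6) (nat_lit 14) L92208 (by decide +kernel)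
theorem L92210 : W_34 (nat_lit 4) (nat_lit 0x3c0018000e0002000200010001000080000000000000000000000000000000) (nat_lit 0x0) (nat_lit 0xc0000000300010001000080000000000000000000000000000000000000000000) := T_34 (nat_lit 225) (nat_lit 224) (nat_lit 0) (nat_lit 7) (nat_lit 14) L92209 (by decide +kernel)
theorem L92211 : W_34 (nat_lit 5) (nat_lit 0x1c0018000e0002000200010001000080000000000000000000000000000000) (nat_lit 0x0) (nat_lit 0x4c0020000300010001000080000000000000000000000000000000000000000000) := T_34 (nat_lit 245) (nat_lit 262) (nat_lit 7) (nat_lit 6) (nat_lit 11) L92210 (by decide +kernel)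
theorem L92212 : W_34 (nat_lit 6) (nat_lit 0x180018000e0002000200010001000080000000000000000000000000000000) (nat_lit 0x0) (nat_lit 0x4c0026000300010001000080000000000000000000000000000000000000000000) := T_34 (nat_lit 242) (nat_lit 241) (nat_lit 2) (nat_lit 3) (nat_lit 14) L92211 (by decide +kernel)
theorem L92213 : W_34 (nat_lit 7) (nat_lit 0x100018000e0002000200010001000080000000000000000000000000000000) (nat_lit 0x0) (nat_lit 0x5c002e000300010001000080000000000000000000000000000000000000000000) := T_34 (nat_lit 243) (nat_lit 260) (nat_lit 5) (nat_lit 6) (nat_lit 11) L92212 (by decide +kernel)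
theorem L92214 : W_34 (nat_lit 8) (nat_lit 0x100018000e0000000200010001000080000000000000000000000000000000) (nat_lit 0x0) (nat_lit 0x5c002e000300010003000180000000000000000000000000000000000000000000) := T_34 (nat_lit 193) (nat_lit 176) (nat_lit 6) (nat_lit 6) (nat_lit 13) L92213 (by decide +kernel)
theorem L92215 : W_34 (nat_lit 9) (nat_lit 0x18000e0000000200010001000080000000000000000000000000000000) (nat_lit 0x0) (nat_lit 0x60007c003e000300010003000180000000000000000000000000000000000000000000) := Q_34 (nat_lit 244) (C_34 L92156 (C_34 L91706 (C_34 L92214 N_34))) (by decide +kernel)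
theorem L92216 : W_34 (nat_lit 2) (nat_lit 0x1c0018000e0002000200010001000080000000000000000000000000000000) (nat_lit 0x0) (nat_lit 0x20006000000000000000000000000000000000000000000000000000000000) := D_34 (nat_lit 229) (nat_lit 230) (nat_lit 245) (nat_lit 1) (nat_lit 9) (nat_lit 13) (nat_lit 2) (nat_lit 4) (nat_lit 14) (by decide +kernel)
theorem L92217 : W_34 (nat_lit 3) (nat_lit 0x180018000e0002000200010001000080000000000000000000000000000000) (nat_lit 0x0) (nat_lit 0x26006000000000000000000000000000000000000000000000000000000000) := T_34 (nat_lit 242) (nat_lit 241) (nat_lit 2) (nat_lit 3) (nat_lit 14) L92216 (by decide +kernel)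
theorem L92218 : W_34 (nat_lit 4) (nat_lit 0x100018000e0002000200010001000080000000000000000000000000000000) (nat_lit 0x0) (nat_lit 0x10002e006000000000000000000000000000000000000000000000000000000000) := T_34 (nat_lit 243) (nat_lit 260) (nat_lit 5) (nat_lit 6) (nat_lit 11) L92217 (by decide +kernel)
theorem L92219 : W_34 (nat_lit 5) (nat_lit 0x100018000e0000000200010001000080000000000000000000000000000000) (nat_lit 0x0) (nat_lit 0x10002e006000000002000100000000000000000000000000000000000000000000) := T_34 (nat_lit 193) (nat_lit 176) (nat_lit 6) (nat_lit 6) (nat_lit 13) L92218 (by decide +kernel)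
theorem L92220 : W_34 (nat_lit 6) (nat_lit 0x18000e0000000200010001000080000000000000000000000000000000) (nat_lit 0x0) (nat_lit 0x600030003e006000000003000100000000000000000000000000000000000000000000) := Q_34 (nat_lit 244) (C_34 L92156 (C_34 L91706 (C_34 L92219 N_34))) (by decide +kernel)
theorem L92221 : W_34 (nat_lit 10) (nat_lit 0x8000e0000000200010001000080000000000000000000000000000000) (nat_lit 0x0) (nat_lit 0x60007c003e007300010003000180000000000000000000000000000000000000000000) := Q_34 (nat_lit 228) (C_34 L92215 (C_34 L91663 (C_34 L92220 N_34))) (by decide +kernel)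
theorem L92222 : W_34 (nat_lit 2) (nat_lit 0x2000000048001e0011000200014001000080000000000000000000000000000000) (nat_lit 0x0) (nat_lit 0x8000200020000000000000000000000000000000000000000000000000) := D_34 (nat_lit 213) (nat_lit 197) (nat_lit 231) (nat_lit 2) (nat_lit 6) (nat_lit 12) (nat_lit 3) (nat_lit 6) (nat_lit 12) (by decide +kernel)
theorem L92223 : W_34 (nat_lit 3) (nat_lit 0x2000000008001e0011000200014001000080000000000000000000000000000000) (nat_lit 0x0) (nat_lit 0xe000200020000000000000000000000000000000000000000000000000) := T_34 (nat_lit 230) (nat_lit 229) (nat_lit 3) (nat_lit 5) (nat_lit 12) L92222 (by decide +kernel)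
theorem L92224 : W_34 (nat_lit 4) (nat_lit 0x2000000008001e0001000200014001000080000000000000000000000000000000) (nat_lit 0x0) (nat_lit 0xe000200038000000000000000000000000000000000000000000000000) := T_34 (nat_lit 196) (nat_lit 195) (nat_lit 2) (nat_lit 5) (nat_lit 12) L92223 (by decide +kernel)
theorem L92225 : W_34 (nat_lit 5) (nat_lit 0x2000000008000e0001000200014001000080000000000000000000000000000000) (nat_lit 0x0) (nat_lit 0xe000300038800000000000000000000000000000000000000000000000) := T_34 (nat_lit 212) (nat_lit 191) (nat_lit 0) (nat_lit 8) (nat_lit 12) L92224 (by decide +kernel)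
theorem L92226 : W_34 (nat_lit 6) (nat_lit 0x8000e0001000200014001000080000000000000000000000000000000) (nat_lit 0x0) (nat_lit 0x20001000e000300038800000000000000000000000000000000000000000000000) := T_34 (nat_lit 261) (nat_lit 244) (nat_lit 4) (nat_lit 6) (nat_lit 15) L92225 (by decide +kernel)
theorem L92227 : W_34 (nat_lit 7) (nat_lit 0x8000e0001000200010001000080000000000000000000000000000000) (nat_lit 0x0) (nat_lit 0x20001000e000300038800080004000000000000000000000000000000000000000) := T_34 (nat_lit 158) (nat_lit 175) (nat_lit 7) (nat_lit 5) (nat_lit 9) L92226 (by decide +kernel)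
theorem L92228 : W_34 (nat_lit 8) (nat_lit 0x8000e0000000200010001000080000000000000000000000000000000) (nat_lit 0x0) (nat_lit 0x20001000e00030003bc00180004000000000000000000000000000000000000000) := Q_34 (nat_lit 192) (C_34 L91963 (C_34 L92227 (C_34 L91956 N_34))) (by decide +kernel)
theorem L92229 : W_34 (nat_lit 14) (nat_lit 0x8000c0000000200010001000080000000000000000000000000000000) (nat_lit 0x0) (nat_lit 0x6000fc007e00f38033803be009c00ec000000000000000000000000000000000000000) := Q_34 (nat_lit 209) (C_34 L92152 (C_34 L92153 (C_34 L92172 (C_34 L92207 (C_34 L92221 (C_34 L92228 N_34)))))) (by decide +kernel)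
theorem L92230 : W_34 (nat_lit 2) (nat_lit 0x12000000048003c001e0009000200010001000080000000000000000000000000000000) (nat_lit 0x0) (nat_lit 0x200010000000000000000080000000000000000000000000000000000000000000) := D_34 (nat_lit 244) (nat_lit 261) (nat_lit 175) (nat_lit 7) (nat_lit 5) (nat_lit 11) (nat_lit 7) (nat_lit 5) (nat_lit 10) (by decide +kernel)
theorem L92231 : W_34 (nat_lit 3) (nat_lit 0x12000000048003c001e0008000200010001000080000000000000000000000000000000) (nat_lit 0x0) (nat_lit 0x200010000000000001800080000000000000000000000000000000000000000000) := T_34 (nat_lit 192) (nat_lit 191) (nat_lit 0) (nat_lit 8) (nat_lit 12) L92230 (by decide +kernel)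
theorem L92232 : W_34 (nat_lit 4) (nat_lit 0x12000000048003c001e0000000200010001000080000000000000000000000000000000) (nat_lit 0x0) (nat_lit 0x200010000000000019800080000000000000000000000000000000000000000000) := T_34 (nat_lit 195) (nat_lit 196) (nat_lit 2) (nat_lit 5) (nat_lit 12) L92231 (by decide +kernel)
theorem L92233 : W_34 (nat_lit 5) (nat_lit 0x12000000048003c000e0000000200010001000080000000000000000000000000000000) (nat_lit 0x0) (nat_lit 0x200010000000300019800080000000000000000000000000000000000000000000) := T_34 (nat_lit 212) (nat_lit 213) (nat_lit 2) (nat_lit 5) (nat_lit 13) L92232 (by decide +kernel)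
theorem L92234 : W_34 (nat_lit 6) (nat_lit 0x10000000048003c000e0000000200010001000080000000000000000000000000000000) (nat_lit 0x0) (nat_lit 0x2000300010000000300019800080000000000000000000000000000000000000000000) := T_34 (nat_lit 277) (nat_lit 260) (nat_lit 6) (nat_lit 5) (nat_lit 16) L92233 (by decide +kernel)
theorem L92235 : W_34 (nat_lit 7) (nat_lit 0x48003c000e0000000200010001000080000000000000000000000000000000) (nat_lit 0x0) (nat_lit 0x12000b00010000000300019800080000000000000000000000000000000000000000000) := T_34 (nat_lit 280) (nat_lit 263) (nat_lit 4) (nat_lit 8) (nat_lit 16) L92234 (by decide +kernel)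
theorem L92236 : W_34 (nat_lit 8) (nat_lit 0x40003c000e0000000200010001000080000000000000000000000000000000) (nat_lit 0x0) (nat_lit 0x12000b0001c000000300019800080000000000000000000000000000000000000000000) := T_34 (nat_lit 243) (nat_lit 242) (nat_lit 1) (nat_lit 8) (nat_lit 13) L92235 (by decide +kernel)
theorem L92237 : W_34 (nat_lit 9) (nat_lit 0x3c000e0000000200010001000080000000000000000000000000000000) (nat_lit 0x0) (nat_lit 0x12000b000dc000000300019800080000000000000000000000000000000000000000000) := T_34 (nat_lit 246) (nat_lit 247) (nat_lit 3) (nat_lit 5) (nat_lit 13) L92236 (by decide +kernel)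
theorem L92238 : W_34 (nat_lit 10) (nat_lit 0x3c000c0000000200010001000080000000000000000000000000000000) (nat_lit 0x0) (nat_lit 0x12000b000dc000000330019800080000000000000000000000000000000000000000000) := T_34 (nat_lit 209) (nat_lit 208) (nat_lit 3) (nat_lit 4) (nat_lit 12) L92237 (by decide +kernel)
theorem L92239 : W_34 (nat_lit 2) (nat_lit 0x380008003c002e0001000280010001000080000000000000000000000000000000) (nat_lit 0x0) (nat_lit 0x800040002000000000000000000000000000000000000000) := D_34 (nat_lit 174) (nat_lit 191) (nat_lit 157) (nat_lit 4) (nat_lit 5) (nat_lit 14) (nat_lit 4) (nat_lit 5) (nat_lit 13) (by decide +kernel)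
theorem L92240 : W_34 (nat_lit 3) (nat_lit 0x380008003c002e0001000200010001000080000000000000000000000000000000) (nat_lit 0x0) (nat_lit 0x8000c0006000000000000000000000000000000000000000) := T_34 (nat_lit 175) (nat_lit 158) (nat_lit 7) (nat_lit 5) (nat_lit 9) L92239 (by decide +kernel)
theorem L92241 : W_34 (nat_lit 4) (nat_lit 0x380008003c002e0000000200010001000080000000000000000000000000000000) (nat_lit 0x0) (nat_lit 0x100000000000018000c0006000000000000000000000000000000000000000) := T_34 (nat_lit 192) (nat_lit 244) (nat_lit 7) (nat_lit 5) (nat_lit 11) L92240 (by decide +kernel)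
theorem L92242 : W_34 (nat_lit 5) (nat_lit 0x180008003c002e0000000200010001000080000000000000000000000000000000) (nat_lit 0x0) (nat_lit 0x40002000100000000000018000c0006000000000000000000000000000000000000000) := T_34 (nat_lit 261) (nat_lit 278) (nat_lit 7) (nat_lit 5) (nat_lit 12) L92241 (by decide +kernel)
theorem L92243 : W_34 (nat_lit 6) (nat_lit 0x100008003c002e0000000200010001000080000000000000000000000000000000) (nat_lit 0x0) (nat_lit 0x50002800100000000000018000c0006000000000000000000000000000000000000000) := T_34 (nat_lit 259) (nat_lit 276) (nat_lit 5) (nat_lit 5) (nat_lit 12) L92242 (by decide +kernel)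
theorem L92244 : W_34 (nat_lit 7) (nat_lit 0x8003c002e0000000200010001000080000000000000000000000000000000) (nat_lit 0x0) (nat_lit 0x70003800100000000000018000c0006000000000000000000000000000000000000000) := T_34 (nat_lit 260) (nat_lit 277) (nat_lit 6) (nat_lit 5) (nat_lit 16) L92243 (by decide +kernel)
theorem L92245 : W_34 (nat_lit 8) (nat_lit 0x3c002e0000000200010001000080000000000000000000000000000000) (nat_lit 0x0) (nat_lit 0x700038001c0000000000018000c0006000000000000000000000000000000000000000) := T_34 (nat_lit 243) (nat_lit 242) (nat_lit 1) (nat_lit 8) (nat_lit 13) L92244 (by decide +kernel)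
theorem L92246 : W_34 (nat_lit 9) (nat_lit 0x3c002c0000000200010001000080000000000000000000000000000000) (nat_lit 0x0) (nat_lit 0x700038001c0000000300018000c0006000000000000000000000000000000000000000) := T_34 (nat_lit 209) (nat_lit 208) (nat_lit 3) (nat_lit 4) (nat_lit 12) L92245 (by decide +kernel)
theorem L92247 : W_34 (nat_lit 10) (nat_lit 0x3c000c0000000200010001000080000000000000000000000000000000) (nat_lit 0x0) (nat_lit 0x700038001c0000003300018000c0006000000000000000000000000000000000000000) := T_34 (nat_lit 213) (nat_lit 212) (nat_lit 2) (nat_lit 5) (nat_lit 13) L92246 (by decide +kernel)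
theorem L92248 : W_34 (nat_lit 2) (nat_lit 0x12000000048003c001e0001000380010001000080000000000000000000000000000000) (nat_lit 0x0) (nat_lit 0x40022000000000000000000000000000000000000000) := D_34 (nat_lit 174) (nat_lit 157) (nat_lit 161) (nat_lit 4) (nat_lit 5) (nat_lit 13) (nat_lit 2) (nat_lit 4) (nat_lit 10) (by decide +kernel)
theorem L92249 : W_34 (nat_lit 3) (nat_lit 0x12000000048003c001e0001000280010001000080000000000000000000000000000000) (nat_lit 0x0) (nat_lit 0x14002a000000000000000000000000000000000000000) := T_34 (nat_lit 176) (nat_lit 159) (nat_lit 6) (nat_lit 5) (nat_lit 13) L92248 (by decide +kernel)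
theorem L92250 : W_34 (nat_lit 4) (nat_lit 0x12000000048003c001e0001000200010001000080000000000000000000000000000000) (nat_lit 0x0) (nat_lit 0x1c002e000000000000000000000000000000000000000) := T_34 (nat_lit 175) (nat_lit 158) (nat_lit 7) (nat_lit 5) (nat_lit 9) L92249 (by decide +kernel)
theorem L92251 : W_34 (nat_lit 5) (nat_lit 0x12000000048003c001e0000000200010001000080000000000000000000000000000000) (nat_lit 0x0) (nat_lit 0x18001c002e000000000000000000000000000000000000000) := T_34 (nat_lit 192) (nat_lit 191) (nat_lit 0) (nat_lit 8) (nat_lit 12) L92250 (by decide +kernel)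
theorem L92252 : W_34 (nat_lit 6) (nat_lit 0x12000000048003c001c0000000200010001000080000000000000000000000000000000) (nat_lit 0x0) (nat_lit 0x300018001c002e000000000000000000000000000000000000000) := T_34 (nat_lit 209) (nat_lit 208) (nat_lit 3) (nat_lit 4) (nat_lit 12) L92251 (by decide +kernel)
theorem L92253 : W_34 (nat_lit 7) (nat_lit 0x12000000048003c000c0000000200010001000080000000000000000000000000000000) (nat_lit 0x0) (nat_lit 0x3300018001c002e000000000000000000000000000000000000000) := T_34 (nat_lit 212) (nat_lit 213) (nat_lit 2) (nat_lit 5) (nat_lit 13) L92252 (by decide +kernel)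
theorem L92254 : W_34 (nat_lit 8) (nat_lit 0x2000000048003c000c0000000200010001000080000000000000000000000000000000) (nat_lit 0x0) (nat_lit 0x100008000000000003300018001c002e000000000000000000000000000000000000000) := T_34 (nat_lit 280) (nat_lit 263) (nat_lit 4) (nat_lit 8) (nat_lit 16) L92253 (by decide +kernel)
theorem L92255 : W_34 (nat_lit 9) (nat_lit 0x48003c000c0000000200010001000080000000000000000000000000000000) (nat_lit 0x0) (nat_lit 0x120009000000000003300018001c002e000000000000000000000000000000000000000) := T_34 (nat_lit 277) (nat_lit 260) (nat_lit 6) (nat_lit 5) (nat_lit 16) L92254 (by decide +kernel)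
theorem L92256 : W_34 (nat_lit 10) (nat_lit 0x8003c000c0000000200010001000080000000000000000000000000000000) (nat_lit 0x0) (nat_lit 0x120009000c00000003300018001c002e000000000000000000000000000000000000000) := T_34 (nat_lit 246) (nat_lit 247) (nat_lit 3) (nat_lit 5) (nat_lit 13) L92255 (by decide +kernel)
theorem L92257 : W_34 (nat_lit 11) (nat_lit 0x3c000c0000000200010001000080000000000000000000000000000000) (nat_lit 0x0) (nat_lit 0x120009000cc0000003300018001c002e000000000000000000000000000000000000000) := T_34 (nat_lit 243) (nat_lit 242) (nat_lit 1) (nat_lit 8) (nat_lit 13) L92256 (by decide +kernel)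
theorem L92258 : W_34 (nat_lit 2) (nat_lit 0x10000000040003c001e0009000200010001000080000000000000000000000000000000) (nat_lit 0x0) (nat_lit 0x200010000000000000000080000000000000000000000000000000000000000000) := D_34 (nat_lit 244) (nat_lit 261) (nat_lit 175) (nat_lit 4) (nat_lit 6) (nat_lit 15) (nat_lit 7) (nat_lit 5) (nat_lit 10) (by decide +kernel)
theorem L92259 : W_34 (nat_lit 3) (nat_lit 0x10000000040003c001e0008000200010001000080000000000000000000000000000000) (nat_lit 0x0) (nat_lit 0x200010000000000001800080000000000000000000000000000000000000000000) := T_34 (nat_lit 192) (nat_lit 191) (nat_lit 0) (nat_lit 8) (nat_lit 12) L92258 (by decide +kernel)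
theorem L92260 : W_34 (nat_lit 4) (nat_lit 0x10000000040003c001e0000000200010001000080000000000000000000000000000000) (nat_lit 0x0) (nat_lit 0x200010000000000019800080000000000000000000000000000000000000000000) := T_34 (nat_lit 195) (nat_lit 196) (nat_lit 2) (nat_lit 5) (nat_lit 12) L92259 (by decide +kernel)
theorem L92261 : W_34 (nat_lit 5) (nat_lit 0x40003c001e0000000200010001000080000000000000000000000000000000) (nat_lit 0x0) (nat_lit 0x10000a00010000000000019800080000000000000000000000000000000000000000000) := T_34 (nat_lit 280) (nat_lit 263) (nat_lit 4) (nat_lit 8) (nat_lit 16) L92260 (by decide +kernel)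
theorem L92262 : W_34 (nat_lit 6) (nat_lit 0x40003c000e0000000200010001000080000000000000000000000000000000) (nat_lit 0x0) (nat_lit 0x10000a00010000000300019800080000000000000000000000000000000000000000000) := T_34 (nat_lit 212) (nat_lit 213) (nat_lit 2) (nat_lit 5) (nat_lit 13) L92261 (by decide +kernel)
theorem L92263 : W_34 (nat_lit 7) (nat_lit 0x3c000e0000000200010001000080000000000000000000000000000000) (nat_lit 0x0) (nat_lit 0x10000a000d0000000300019800080000000000000000000000000000000000000000000) := T_34 (nat_lit 246) (nat_lit 247) (nat_lit 3) (nat_lit 5) (nat_lit 13) L92262 (by decide +kernel)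
theorem L92264 : W_34 (nat_lit 8) (nat_lit 0x3c000c0000000200010001000080000000000000000000000000000000) (nat_lit 0x0) (nat_lit 0x10000a000d0000000330019800080000000000000000000000000000000000000000000) := T_34 (nat_lit 209) (nat_lit 208) (nat_lit 3) (nat_lit 4) (nat_lit 12) L92263 (by decide +kernel)
theorem L92265 : W_34 (nat_lit 12) (nat_lit 0x38000c0000000200010001000080000000000000000000000000000000) (nat_lit 0x0) (nat_lit 0x3f001f800fc0004003300198001c002e000000000000000000000000000000000000000) := Q_34 (nat_lit 226) (C_34 L91522 (C_34 L92238 (C_34 L91863 (C_34 L92247 (C_34 L92257 (C_34 L92264 N_34)))))) (by decide +kernel)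
theorem L92266 : W_34 (nat_lit 13) (nat_lit 0x18000c0000000200010001000080000000000000000000000000000000) (nat_lit 0x0) (nat_lit 0x3f001f801fc00e4007300198001c002e000000000000000000000000000000000000000) := Q_34 (nat_lit 229) (C_34 L91601 (C_34 L92138 (C_34 L92265 N_34))) (by decide +kernel)
theorem L92267 : W_34 (nat_lit 9) (nat_lit 0x38000c0000000200010001000080000000000000000000000000000000) (nat_lit 0x0) (nat_lit 0x3a001f000fc00040033001b800080000000000000000000000000000000000000000000) := Q_34 (nat_lit 226) (C_34 L91566 (C_34 L92264 (C_34 L91863 N_34))) (by decide +kernel)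
theorem L92268 : W_34 (nat_lit 10) (nat_lit 0x18000c0000000200010001000080000000000000000000000000000000) (nat_lit 0x0) (nat_lit 0x3e001f001fc00e40073001b800080000000000000000000000000000000000000000000) := Q_34 (nat_lit 229) (C_34 L91601 (C_34 L92138 (C_34 L92267 N_34))) (by decide +kernel)
theorem L92269 : W_34 (nat_lit 9) (nat_lit 0x38000c0000000200010001000080000000000000000000000000000000) (nat_lit 0x0) (nat_lit 0x12000b000dc00040033001b800180000000000000000000000000000000000000000000) := Q_34 (nat_lit 226) (C_34 L91566 (C_34 L92264 (C_34 L91536 N_34))) (by decide +kernel)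
theorem L92270 : W_34 (nat_lit 10) (nat_lit 0x18000c0000000200010001000080000000000000000000000000000000) (nat_lit 0x0) (nat_lit 0x12000b001dc00e40073001b800180000000000000000000000000000000000000000000) := Q_34 (nat_lit 229) (C_34 L91601 (C_34 L91607 (C_34 L92269 N_34))) (by decide +kernel)
theorem L92271 : W_34 (nat_lit 2) (nat_lit 0x3a0018000c0003800200010001000080000000000000000000000000000000) (nat_lit 0x0) (nat_lit 0x320000000000000000000000000000000000000000000000000000) := D_34 (nat_lit 212) (nat_lit 213) (nat_lit 209) (nat_lit 0) (nat_lit 9) (nat_lit 12) (nat_lit 0) (nat_lit 8) (nat_lit 12) (by decide +kernel)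
theorem L92272 : W_34 (nat_lit 3) (nat_lit 0x3a0018000c0003000200010001000080000000000000000000000000000000) (nat_lit 0x0) (nat_lit 0x320000c00000000000000000000000000000000000000000000000) := T_34 (nat_lit 191) (nat_lit 190) (nat_lit 3) (nat_lit 3) (nat_lit 11) L92271 (by decide +kernel)
theorem L92273 : W_34 (nat_lit 4) (nat_lit 0x3a0018000c0002000200010001000080000000000000000000000000000000) (nat_lit 0x0) (nat_lit 0x320001c00080000000000000000000000000000000000000000000) := T_34 (nat_lit 192) (nat_lit 175) (nat_lit 4) (nat_lit 6) (nat_lit 14) L92272 (by decide +kernel)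
theorem L92274 : W_34 (nat_lit 5) (nat_lit 0x380018000c0002000200010001000080000000000000000000000000000000) (nat_lit 0x0) (nat_lit 0x6000000320001c00080000000000000000000000000000000000000000000) := T_34 (nat_lit 241) (nat_lit 242) (nat_lit 2) (nat_lit 3) (nat_lit 14) L92273 (by decide +kernel)
theorem L92275 : W_34 (nat_lit 6) (nat_lit 0x300018000c0002000200010001000080000000000000000000000000000000) (nat_lit 0x0) (nat_lit 0x10000e000000320001c00080000000000000000000000000000000000000000000) := T_34 (nat_lit 243) (nat_lit 260) (nat_lit 5) (nat_lit 6) (nat_lit 11) L92274 (by decide +kernel)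
theorem L92276 : W_34 (nat_lit 7) (nat_lit 0x300018000c0000000200010001000080000000000000000000000000000000) (nat_lit 0x0) (nat_lit 0x10000e000000320003c00180000000000000000000000000000000000000000000) := T_34 (nat_lit 193) (nat_lit 176) (nat_lit 7) (nat_lit 6) (nat_lit 10) L92275 (by decide +kernel)
theorem L92277 : W_34 (nat_lit 8) (nat_lit 0x200018000c0000000200010001000080000000000000000000000000000000) (nat_lit 0x0) (nat_lit 0x60003c00de000000320003c00180000000000000000000000000000000000000000000) := Q_34 (nat_lit 244) (C_34 L91736 (C_34 L91633 (C_34 L92276 N_34))) (by decide +kernel)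
theorem L92278 : W_34 (nat_lit 9) (nat_lit 0x18000c0000000200010001000080000000000000000000000000000000) (nat_lit 0x0) (nat_lit 0x1e003fc00fe000000320003c00180000000000000000000000000000000000000000000) := Q_34 (nat_lit 245) (C_34 L91645 (C_34 L91644 (C_34 L92277 N_34))) (by decide +kernel)
theorem L92279 : W_34 (nat_lit 6) (nat_lit 0x4000000038000c0002000200010001000080000000000000000000000000000000) (nat_lit 0x0) (nat_lit 0x2000100018000c000700009000000000000000000000000000000000000000000000000) := T_34 (nat_lit 230) (nat_lit 231) (nat_lit 0) (nat_lit 10) (nat_lit 13) L91930 (by decide +kernel)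
theorem L92280 : W_34 (nat_lit 7) (nat_lit 0x38000c0002000200010001000080000000000000000000000000000000) (nat_lit 0x0) (nat_lit 0x200014001a000c000700009000000000000000000000000000000000000000000000000) := T_34 (nat_lit 262) (nat_lit 245) (nat_lit 4) (nat_lit 7) (nat_lit 15) L92279 (by decide +kernel)
theorem L92281 : W_34 (nat_lit 8) (nat_lit 0x38000c0000000200010001000080000000000000000000000000000000) (nat_lit 0x0) (nat_lit 0x200014001a000c00070000b000100000000000000000000000000000000000000000000) := T_34 (nat_lit 193) (nat_lit 176) (nat_lit 6) (nat_lit 6) (nat_lit 13) L92280 (by decide +kernel)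
theorem L92282 : W_34 (nat_lit 12) (nat_lit 0x38000c0000000200010001000080000000000000000000000000000000) (nat_lit 0x0) (nat_lit 0x1a000d000ec0004003300038001c002e000000000000000000000000000000000000000) := Q_34 (nat_lit 226) (C_34 L91566 (C_34 L92257 (C_34 L91951 N_34))) (by decide +kernel)
theorem L92283 : W_34 (nat_lit 13) (nat_lit 0x18000c0000000200010001000080000000000000000000000000000000) (nat_lit 0x0) (nat_lit 0x3a001d001ec00e40073000b8001c002e000000000000000000000000000000000000000) := Q_34 (nat_lit 229) (C_34 L91601 (C_34 L92281 (C_34 L92282 N_34))) (by decide +kernel)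
theorem L92284 : W_34 (nat_lit 2) (nat_lit 0x4000000038001e0003000200010001000080000000000000000000000000000000) (nat_lit 0x0) (nat_lit 0x10000000000000000080004000000000000000000000000000000000000000) := D_34 (nat_lit 175) (nat_lit 158) (nat_lit 244) (nat_lit 7) (nat_lit 5) (nat_lit 9) (nat_lit 4) (nat_lit 6) (nat_lit 14) (by decide +kernel)
theorem L92285 : W_34 (nat_lit 3) (nat_lit 0x4000000038001e0002000200010001000080000000000000000000000000000000) (nat_lit 0x0) (nat_lit 0x10000000000001800080004000000000000000000000000000000000000000) := T_34 (nat_lit 192) (nat_lit 191) (nat_lit 0) (nat_lit 8) (nat_lit 12) L92284 (by decide +kernel)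
theorem L92286 : W_34 (nat_lit 4) (nat_lit 0x38001e0002000200010001000080000000000000000000000000000000) (nat_lit 0x0) (nat_lit 0x400030000000000001800080004000000000000000000000000000000000000000) := T_34 (nat_lit 262) (nat_lit 245) (nat_lit 4) (nat_lit 7) (nat_lit 15) L92285 (by decide +kernel)
theorem L92287 : W_34 (nat_lit 5) (nat_lit 0x38001e0000000200010001000080000000000000000000000000000000) (nat_lit 0x0) (nat_lit 0x400030000000000003800180004000000000000000000000000000000000000000) := T_34 (nat_lit 193) (nat_lit 176) (nat_lit 6) (nat_lit 6) (nat_lit 13) L92286 (by decide +kernel)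
theorem L92288 : W_34 (nat_lit 6) (nat_lit 0x38001c0000000200010001000080000000000000000000000000000000) (nat_lit 0x0) (nat_lit 0x400030000000030003800180004000000000000000000000000000000000000000) := T_34 (nat_lit 209) (nat_lit 208) (nat_lit 3) (nat_lit 4) (nat_lit 12) L92287 (by decide +kernel)
theorem L92289 : W_34 (nat_lit 7) (nat_lit 0x38000c0000000200010001000080000000000000000000000000000000) (nat_lit 0x0) (nat_lit 0xc0007000000073003b800980044000000000000000000000000000000000000000) := Q_34 (nat_lit 212) (C_34 L92288 (C_34 L92142 N_34)) (by decide +kernel)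
theorem L92290 : W_34 (nat_lit 9) (nat_lit 0x18000c0000000200010001000080000000000000000000000000000000) (nat_lit 0x0) (nat_lit 0x20001c001f000e00073003b800980044000000000000000000000000000000000000000) := Q_34 (nat_lit 229) (C_34 L92281 (C_34 L91601 (C_34 L92289 N_34))) (by decide +kernel)
theorem L92291 : W_34 (nat_lit 14) (nat_lit 0x8000c0000000200010001000080000000000000000000000000000000) (nat_lit 0x0) (nat_lit 0x3f003fc01fe00f40073003bc009c006e000000000000000000000000000000000000000) := Q_34 (nat_lit 228) (C_34 L92266 (C_34 L92268 (C_34 L91942 (C_34 L92270 (C_34 L92278 (C_34 L91768 (C_34 L92283 (C_34 L92290 N_34)))))))) (by decide +kernel)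
theorem L92292 : W_34 (nat_lit 8) (nat_lit 0x28001e0000000200010001000080000000000000000000000000000000) (nat_lit 0x0) (nat_lit 0x15c001c01ae00100000000000000000000000000000000000000000000) := T_34 (nat_lit 208) (nat_lit 228) (nat_lit 3) (nat_lit 4) (nat_lit 12) L91445 (by decide +kernel)
theorem L92293 : W_34 (nat_lit 9) (nat_lit 0x8001e0000000200010001000080000000000000000000000000000000) (nat_lit 0x0) (nat_lit 0x75c001c01ae00100000000000000000000000000000000000000000000) := T_34 (nat_lit 229) (nat_lit 230) (nat_lit 3) (nat_lit 5) (nat_lit 12) L92292 (by decide +kernel)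
theorem L92294 : W_34 (nat_lit 2) (nat_lit 0x28001f0008000200010001000080000000000000000000000000000000) (nat_lit 0x0) (nat_lit 0x700000000000000000000000000000000000000000000000000000000) := D_34 (nat_lit 225) (nat_lit 224) (nat_lit 226) (nat_lit 1) (nat_lit 7) (nat_lit 12) (nat_lit 1) (nat_lit 8) (nat_lit 12) (by decide +kernel)
theorem L92295 : W_34 (nat_lit 3) (nat_lit 0x28001e0008000200010001000080000000000000000000000000000000) (nat_lit 0x0) (nat_lit 0x1700010000000000000000000000000000000000000000000000000000) := T_34 (nat_lit 208) (nat_lit 228) (nat_lit 3) (nat_lit 4) (nat_lit 12) L92294 (by decide +kernel)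
theorem L92296 : W_34 (nat_lit 4) (nat_lit 0x8001e0008000200010001000080000000000000000000000000000000) (nat_lit 0x0) (nat_lit 0x7700010000000000000000000000000000000000000000000000000000) := T_34 (nat_lit 229) (nat_lit 230) (nat_lit 3) (nat_lit 5) (nat_lit 12) L92295 (by decide +kernel)
theorem L92297 : W_34 (nat_lit 5) (nat_lit 0x8001e0000000200010001000080000000000000000000000000000000) (nat_lit 0x0) (nat_lit 0x7700010018000000000000000000000000000000000000000000000000) := T_34 (nat_lit 195) (nat_lit 196) (nat_lit 2) (nat_lit 5) (nat_lit 12) L92296 (by decide +kernel)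
theorem L92298 : W_34 (nat_lit 10) (nat_lit 0x8001c0000000200010001000080000000000000000000000000000000) (nat_lit 0x0) (nat_lit 0x2000100077c003c01be00180004000000000000000000000000000000000000000) := Q_34 (nat_lit 209) (C_34 L91433 (C_34 L91479 (C_34 L91420 (C_34 L92293 (C_34 L92297 N_34))))) (by decide +kernel)
theorem L92299 : W_34 (nat_lit 11) (nat_lit 0x8000c0000000200010001000080000000000000000000000000000000) (nat_lit 0x0) (nat_lit 0x20001000f7c033c03be00180004000000000000000000000000000000000000000) := Q_34 (nat_lit 212) (C_34 L91415 (C_34 L91485 (C_34 L91411 (C_34 L92298 N_34)))) (by decide +kernel)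
theorem L92300 : W_34 (nat_lit 15) (nat_lit 0xc0000000200010001000080000000000000000000000000000000) (nat_lit 0x0) (nat_lit 0x3f003fe01ff00ffc073c03be009e00ee000000000000000000000000000000000000000) := Q_34 (nat_lit 227) (C_34 L91317 (C_34 L91356 (C_34 L91486 (C_34 L91501 (C_34 L91569 (C_34 L91600 (C_34 L91800 (C_34 L91954 (C_34 L92007 (C_34 L92015 (C_34 L92029 (C_34 L92105 (C_34 L92123 (C_34 L92130 (C_34 L92229 (C_34 L92291 (C_34 L92299 N_34))))))))))))))))) (by decide +kernel)
theorem L92301 : W_34 (nat_lit 2) (nat_lit 0x20001f0000000200010001000080004000000000000000000000000000) (nat_lit 0x0) (nat_lit 0x700000000000000000000000000000000000000000000000000000000) := D_34 (nat_lit 225) (nat_lit 224) (nat_lit 226) (nat_lit 1) (nat_lit 7) (nat_lit 12) (nat_lit 1) (nat_lit 8) (nat_lit 12) (by decide +kernel)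
theorem L92302 : W_34 (nat_lit 3) (nat_lit 0x20001e0000000200010001000080004000000000000000000000000000) (nat_lit 0x0) (nat_lit 0x1700010000000000000000000000000000000000000000000000000000) := T_34 (nat_lit 208) (nat_lit 228) (nat_lit 3) (nat_lit 4) (nat_lit 12) L92301 (by decide +kernel)
theorem L92303 : W_34 (nat_lit 4) (nat_lit 0x1e0000000200010001000080004000000000000000000000000000) (nat_lit 0x0) (nat_lit 0x7700010000000000000000000000000000000000000000000000000000) := T_34 (nat_lit 229) (nat_lit 230) (nat_lit 3) (nat_lit 5) (nat_lit 12) L92302 (by decide +kernel)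
theorem L92304 : W_34 (nat_lit 5) (nat_lit 0x1e0000000200010001000080000000000000000000000000000000) (nat_lit 0x0) (nat_lit 0x7700010000000000020000000000004000000000000000000000000000) := T_34 (nat_lit 110) (nat_lit 161) (nat_lit 5) (nat_lit 8) (nat_lit 6) L92303 (by decide +kernel)
theorem L92305 : W_34 (nat_lit 2) (nat_lit 0x24001e0009000200010001000080004000000000000000000000000000) (nat_lit 0x0) (nat_lit 0x800200002000000000000000000000000000000000000000000000000) := D_34 (nat_lit 213) (nat_lit 227) (nat_lit 193) (nat_lit 1) (nat_lit 9) (nat_lit 12) (nat_lit 0) (nat_lit 9) (nat_lit 12) (by decide +kernel)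
theorem L92306 : W_34 (nat_lit 3) (nat_lit 0x24001e0008000200010001000080004000000000000000000000000000) (nat_lit 0x0) (nat_lit 0x800200003800000000000000000000000000000000000000000000000) := T_34 (nat_lit 192) (nat_lit 191) (nat_lit 0) (nat_lit 8) (nat_lit 12) L92305 (by decide +kernel)
theorem L92307 : W_34 (nat_lit 4) (nat_lit 0x20001e0008000200010001000080004000000000000000000000000000) (nat_lit 0x0) (nat_lit 0xe00200003800000000000000000000000000000000000000000000000) := T_34 (nat_lit 226) (nat_lit 225) (nat_lit 1) (nat_lit 8) (nat_lit 12) L92306 (by decide +kernel)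
theorem L92308 : W_34 (nat_lit 5) (nat_lit 0x1e0008000200010001000080004000000000000000000000000000) (nat_lit 0x0) (nat_lit 0x6e00200003800000000000000000000000000000000000000000000000) := T_34 (nat_lit 229) (nat_lit 230) (nat_lit 3) (nat_lit 5) (nat_lit 12) L92307 (by decide +kernel)
theorem L92309 : W_34 (nat_lit 6) (nat_lit 0x1e0008000200010001000080000000000000000000000000000000) (nat_lit 0x0) (nat_lit 0x6e00200003800000020000000000004000000000000000000000000000) := T_34 (nat_lit 110) (nat_lit 161) (nat_lit 5) (nat_lit 8) (nat_lit 6) L92308 (by decide +kernel)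
theorem L92310 : W_34 (nat_lit 7) (nat_lit 0x1e0000000200010001000080000000000000000000000000000000) (nat_lit 0x0) (nat_lit 0x6e0020001b800000020000000000004000000000000000000000000000) := T_34 (nat_lit 195) (nat_lit 196) (nat_lit 2) (nat_lit 5) (nat_lit 12) L92309 (by decide +kernel)
theorem L92311 : W_34 (nat_lit 2) (nat_lit 0x4003e0008000200010001000080000000000000000000000000000000) (nat_lit 0x0) (nat_lit 0x3800000000000000000000000000000000000000000000000) := D_34 (nat_lit 192) (nat_lit 193) (nat_lit 191) (nat_lit 0) (nat_lit 9) (nat_lit 12) (nat_lit 0) (nat_lit 8) (nat_lit 12) (by decide +kernel)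
theorem L92312 : W_34 (nat_lit 3) (nat_lit 0x4001e0008000200010001000080000000000000000000000000000000) (nat_lit 0x0) (nat_lit 0x800200003800000000000000000000000000000000000000000000000) := T_34 (nat_lit 213) (nat_lit 227) (nat_lit 1) (nat_lit 9) (nat_lit 12) L92311 (by decide +kernel)
theorem L92313 : W_34 (nat_lit 4) (nat_lit 0x4001e0000000200010001000080000000000000000000000000000000) (nat_lit 0x0) (nat_lit 0x80020001b800000000000000000000000000000000000000000000000) := T_34 (nat_lit 195) (nat_lit 196) (nat_lit 2) (nat_lit 5) (nat_lit 12) L92312 (by decide +kernel)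
theorem L92314 : W_34 (nat_lit 5) (nat_lit 0x1e0000000200010001000080000000000000000000000000000000) (nat_lit 0x0) (nat_lit 0xe0020001b800000000000000000000000000000000000000000000000) := T_34 (nat_lit 226) (nat_lit 225) (nat_lit 1) (nat_lit 8) (nat_lit 12) L92313 (by decide +kernel)
theorem L92315 : W_34 (nat_lit 2) (nat_lit 0x20001f0008000200010001000080004000000000000000000000000000) (nat_lit 0x0) (nat_lit 0x1c00000000000000000000000000000000000000000000000) := D_34 (nat_lit 191) (nat_lit 192) (nat_lit 190) (nat_lit 0) (nat_lit 8) (nat_lit 12) (nat_lit 0) (nat_lit 7) (nat_lit 12) (by decide +kernel)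
theorem L92316 : W_34 (nat_lit 3) (nat_lit 0x20001e0008000200010001000080004000000000000000000000000000) (nat_lit 0x0) (nat_lit 0x1000010001c00000000000000000000000000000000000000000000000) := T_34 (nat_lit 208) (nat_lit 228) (nat_lit 3) (nat_lit 4) (nat_lit 12) L92315 (by decide +kernel)
theorem L92317 : W_34 (nat_lit 4) (nat_lit 0x1e0008000200010001000080004000000000000000000000000000) (nat_lit 0x0) (nat_lit 0x7000010001c00000000000000000000000000000000000000000000000) := T_34 (nat_lit 229) (nat_lit 230) (nat_lit 3) (nat_lit 5) (nat_lit 12) L92316 (by decide +kernel)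
theorem L92318 : W_34 (nat_lit 5) (nat_lit 0x1e0000000200010001000080004000000000000000000000000000) (nat_lit 0x0) (nat_lit 0x7000010019c00000000000000000000000000000000000000000000000) := T_34 (nat_lit 195) (nat_lit 196) (nat_lit 2) (nat_lit 5) (nat_lit 12) L92317 (by decide +kernel)
theorem L92319 : W_34 (nat_lit 6) (nat_lit 0x1e0000000200010001000080000000000000000000000000000000) (nat_lit 0x0) (nat_lit 0x7000010019c00000020000000000004000000000000000000000000000) := T_34 (nat_lit 110) (nat_lit 161) (nat_lit 5) (nat_lit 8) (nat_lit 6) L92318 (by decide +kernel)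
theorem L92320 : W_34 (nat_lit 8) (nat_lit 0xe0000000200010001000080000000000000000000000000000000) (nat_lit 0x0) (nat_lit 0x7f0031001bc00000020000000000004000000000000000000000000000) := Q_34 (nat_lit 212) (C_34 L92304 (C_34 L92310 (C_34 L92314 (C_34 L92319 N_34)))) (by decide +kernel)
theorem L92321 : W_34 (nat_lit 2) (nat_lit 0x2c001e0009000200010001000080004000000000000000000000000000) (nat_lit 0x0) (nat_lit 0x200010000000000000000080000000000000000000000000000000000000000000) := D_34 (nat_lit 244) (nat_lit 261) (nat_lit 175) (nat_lit 4) (nat_lit 6) (nat_lit 15) (nat_lit 7) (nat_lit 5) (nat_lit 10) (by decide +kernel)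
theorem L92322 : W_34 (nat_lit 3) (nat_lit 0x24001e0009000200010001000080004000000000000000000000000000) (nat_lit 0x0) (nat_lit 0x200010000800200000000080000000000000000000000000000000000000000000) := T_34 (nat_lit 227) (nat_lit 213) (nat_lit 1) (nat_lit 9) (nat_lit 12) L92321 (by decide +kernel)
theorem L92323 : W_34 (nat_lit 4) (nat_lit 0x24001e0008000200010001000080004000000000000000000000000000) (nat_lit 0x0) (nat_lit 0x200010000800200001800080000000000000000000000000000000000000000000) := T_34 (nat_lit 192) (nat_lit 191) (nat_lit 0) (nat_lit 8) (nat_lit 12) L92322 (by decide +kernel)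
theorem L92324 : W_34 (nat_lit 5) (nat_lit 0x20001e0008000200010001000080004000000000000000000000000000) (nat_lit 0x0) (nat_lit 0x200010000e00200001800080000000000000000000000000000000000000000000) := T_34 (nat_lit 226) (nat_lit 225) (nat_lit 1) (nat_lit 8) (nat_lit 12) L92323 (by decide +kernel)
theorem L92325 : W_34 (nat_lit 6) (nat_lit 0x20001e0000000200010001000080004000000000000000000000000000) (nat_lit 0x0) (nat_lit 0x200010000e00200019800080000000000000000000000000000000000000000000) := T_34 (nat_lit 195) (nat_lit 196) (nat_lit 2) (nat_lit 5) (nat_lit 12) L92324 (by decide +kernel)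
theorem L92326 : W_34 (nat_lit 7) (nat_lit 0x1e0000000200010001000080004000000000000000000000000000) (nat_lit 0x0) (nat_lit 0x200010006e00200019800080000000000000000000000000000000000000000000) := T_34 (nat_lit 229) (nat_lit 230) (nat_lit 3) (nat_lit 5) (nat_lit 12) L92325 (by decide +kernel)
theorem L92327 : W_34 (nat_lit 8) (nat_lit 0x1e0000000200010001000080000000000000000000000000000000) (nat_lit 0x0) (nat_lit 0x200010006e00200019800080020000000000004000000000000000000000000000) := T_34 (nat_lit 110) (nat_lit 161) (nat_lit 5) (nat_lit 8) (nat_lit 6) L92326 (by decide +kernel)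
theorem L92328 : W_34 (nat_lit 2) (nat_lit 0x24001f0000000200010001000080000000000000000000000000000000) (nat_lit 0x0) (nat_lit 0x1c00000000000000000000000000000000000000000000000) := D_34 (nat_lit 191) (nat_lit 190) (nat_lit 192) (nat_lit 0) (nat_lit 7) (nat_lit 12) (nat_lit 0) (nat_lit 8) (nat_lit 12) (by decide +kernel)
theorem L92329 : W_34 (nat_lit 3) (nat_lit 0x24001e0000000200010001000080000000000000000000000000000000) (nat_lit 0x0) (nat_lit 0x1000010001c00000000000000000000000000000000000000000000000) := T_34 (nat_lit 208) (nat_lit 228) (nat_lit 3) (nat_lit 4) (nat_lit 12) L92328 (by decide +kernel)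
theorem L92330 : W_34 (nat_lit 4) (nat_lit 0x4001e0000000200010001000080000000000000000000000000000000) (nat_lit 0x0) (nat_lit 0x7000010001c00000000000000000000000000000000000000000000000) := T_34 (nat_lit 229) (nat_lit 230) (nat_lit 3) (nat_lit 5) (nat_lit 12) L92329 (by decide +kernel)
theorem L92331 : W_34 (nat_lit 5) (nat_lit 0x1e0000000200010001000080000000000000000000000000000000) (nat_lit 0x0) (nat_lit 0x7600010001c00000000000000000000000000000000000000000000000) := T_34 (nat_lit 226) (nat_lit 225) (nat_lit 1) (nat_lit 8) (nat_lit 12) L92330 (by decide +kernel)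
theorem L92332 : W_34 (nat_lit 2) (nat_lit 0x4003e0001000200010001000080000000000000000000000000000000) (nat_lit 0x0) (nat_lit 0x38000000000000000000000000000000000000000000000000) := D_34 (nat_lit 196) (nat_lit 195) (nat_lit 197) (nat_lit 2) (nat_lit 5) (nat_lit 12) (nat_lit 2) (nat_lit 6) (nat_lit 12) (by decide +kernel)
theorem L92333 : W_34 (nat_lit 3) (nat_lit 0x4001e0001000200010001000080000000000000000000000000000000) (nat_lit 0x0) (nat_lit 0x800200038000000000000000000000000000000000000000000000000) := T_34 (nat_lit 213) (nat_lit 227) (nat_lit 1) (nat_lit 9) (nat_lit 12) L92332 (by decide +kernel)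
theorem L92334 : W_34 (nat_lit 4) (nat_lit 0x4001e0000000200010001000080000000000000000000000000000000) (nat_lit 0x0) (nat_lit 0x800200039800000000000000000000000000000000000000000000000) := T_34 (nat_lit 192) (nat_lit 191) (nat_lit 0) (nat_lit 8) (nat_lit 12) L92333 (by decide +kernel)
theorem L92335 : W_34 (nat_lit 5) (nat_lit 0x1e0000000200010001000080000000000000000000000000000000) (nat_lit 0x0) (nat_lit 0xe00200039800000000000000000000000000000000000000000000000) := T_34 (nat_lit 226) (nat_lit 225) (nat_lit 1) (nat_lit 8) (nat_lit 12) L92334 (by decide +kernel)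
theorem L92336 : W_34 (nat_lit 9) (nat_lit 0xe0000000200010001000080000000000000000000000000000000) (nat_lit 0x0) (nat_lit 0x200010007f00310039c00080020000000000004000000000000000000000000000) := Q_34 (nat_lit 212) (C_34 L92327 (C_34 L92331 (C_34 L92304 (C_34 L92335 (C_34 L92319 N_34))))) (by decide +kernel)
theorem L92337 : W_34 (nat_lit 2) (nat_lit 0x24001e0001000200010001000080004000000000000000000000000000) (nat_lit 0x0) (nat_lit 0x800200002000000000000000000000000000000000000000000000000) := D_34 (nat_lit 213) (nat_lit 227) (nat_lit 193) (nat_lit 1) (nat_lit 9) (nat_lit 12) (nat_lit 0) (nat_lit 9) (nat_lit 12) (by decide +kernel)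
theorem L92338 : W_34 (nat_lit 3) (nat_lit 0x24001e0000000200010001000080004000000000000000000000000000) (nat_lit 0x0) (nat_lit 0x800200003800000000000000000000000000000000000000000000000) := T_34 (nat_lit 192) (nat_lit 191) (nat_lit 0) (nat_lit 8) (nat_lit 12) L92337 (by decide +kernel)
theorem L92339 : W_34 (nat_lit 4) (nat_lit 0x20001e0000000200010001000080004000000000000000000000000000) (nat_lit 0x0) (nat_lit 0xe00200003800000000000000000000000000000000000000000000000) := T_34 (nat_lit 226) (nat_lit 225) (nat_lit 1) (nat_lit 8) (nat_lit 12) L92338 (by decide +kernel)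
theorem L92340 : W_34 (nat_lit 5) (nat_lit 0x1e0000000200010001000080004000000000000000000000000000) (nat_lit 0x0) (nat_lit 0x6e00200003800000000000000000000000000000000000000000000000) := T_34 (nat_lit 229) (nat_lit 230) (nat_lit 3) (nat_lit 5) (nat_lit 12) L92339 (by decide +kernel)
theorem L92341 : W_34 (nat_lit 6) (nat_lit 0x1e0000000200010001000080000000000000000000000000000000) (nat_lit 0x0) (nat_lit 0x6e00200003800000020000000000004000000000000000000000000000) := T_34 (nat_lit 110) (nat_lit 161) (nat_lit 5) (nat_lit 8) (nat_lit 6) L92340 (by decide +kernel)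
theorem L92342 : W_34 (nat_lit 2) (nat_lit 0x4003e0000000200010001000080004000000000000000000000000000) (nat_lit 0x0) (nat_lit 0xe000000000000000000000000000000000000000000000000000000000) := D_34 (nat_lit 230) (nat_lit 229) (nat_lit 231) (nat_lit 3) (nat_lit 5) (nat_lit 12) (nat_lit 3) (nat_lit 6) (nat_lit 12) (by decide +kernel)
theorem L92343 : W_34 (nat_lit 3) (nat_lit 0x4001e0000000200010001000080004000000000000000000000000000) (nat_lit 0x0) (nat_lit 0xe800200000000000000000000000000000000000000000000000000000) := T_34 (nat_lit 213) (nat_lit 227) (nat_lit 1) (nat_lit 9) (nat_lit 12) L92342 (by decide +kernel)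
theorem L92344 : W_34 (nat_lit 4) (nat_lit 0x4001e0000000200010001000080000000000000000000000000000000) (nat_lit 0x0) (nat_lit 0xe800200000000000020000000000004000000000000000000000000000) := T_34 (nat_lit 110) (nat_lit 161) (nat_lit 5) (nat_lit 8) (nat_lit 6) L92343 (by decide +kernel)
theorem L92345 : W_34 (nat_lit 5) (nat_lit 0x1e0000000200010001000080000000000000000000000000000000) (nat_lit 0x0) (nat_lit 0xee00200000000000020000000000004000000000000000000000000000) := T_34 (nat_lit 226) (nat_lit 225) (nat_lit 1) (nat_lit 8) (nat_lit 12) L92344 (by decide +kernel)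
theorem L92346 : W_34 (nat_lit 2) (nat_lit 0x20001f0000800200010001000080004000000000000000000000000000) (nat_lit 0x0) (nat_lit 0x700000000000000000000000000000000000000000000000000000000) := D_34 (nat_lit 225) (nat_lit 226) (nat_lit 224) (nat_lit 1) (nat_lit 8) (nat_lit 12) (nat_lit 1) (nat_lit 7) (nat_lit 12) (by decide +kernel)
theorem L92347 : W_34 (nat_lit 3) (nat_lit 0x20001e0000800200010001000080004000000000000000000000000000) (nat_lit 0x0) (nat_lit 0x700010000400000000000000000000000000000000000000000000000) := T_34 (nat_lit 208) (nat_lit 190) (nat_lit 0) (nat_lit 7) (nat_lit 12) L92346 (by decide +kernel)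
theorem L92348 : W_34 (nat_lit 4) (nat_lit 0x20001e0000800200010001000080000000000000000000000000000000) (nat_lit 0x0) (nat_lit 0x700010000400000020000000000004000000000000000000000000000) := T_34 (nat_lit 110) (nat_lit 161) (nat_lit 5) (nat_lit 8) (nat_lit 6) L92347 (by decide +kernel)
theorem L92349 : W_34 (nat_lit 5) (nat_lit 0x20001e0000000200010001000080000000000000000000000000000000) (nat_lit 0x0) (nat_lit 0x700010001c00000020000000000004000000000000000000000000000) := T_34 (nat_lit 191) (nat_lit 192) (nat_lit 0) (nat_lit 8) (nat_lit 12) L92348 (by decide +kernel)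
theorem L92350 : W_34 (nat_lit 6) (nat_lit 0x1e0000000200010001000080000000000000000000000000000000) (nat_lit 0x0) (nat_lit 0x6700010001c00000020000000000004000000000000000000000000000) := T_34 (nat_lit 229) (nat_lit 230) (nat_lit 3) (nat_lit 5) (nat_lit 12) L92349 (by decide +kernel)
theorem L92351 : W_34 (nat_lit 2) (nat_lit 0x20003e0001000200010001000080004000000000000000000000000000) (nat_lit 0x0) (nat_lit 0x38000000000000000000000000000000000000000000000000) := D_34 (nat_lit 196) (nat_lit 195) (nat_lit 197) (nat_lit 2) (nat_lit 5) (nat_lit 12) (nat_lit 2) (nat_lit 6) (nat_lit 12) (by decide +kernel)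
theorem L92352 : W_34 (nat_lit 3) (nat_lit 0x20001e0001000200010001000080004000000000000000000000000000) (nat_lit 0x0) (nat_lit 0x20003a000000000000000000000000000000000000000000000000) := T_34 (nat_lit 213) (nat_lit 193) (nat_lit 0) (nat_lit 9) (nat_lit 12) L92351 (by decide +kernel)
theorem L92353 : W_34 (nat_lit 4) (nat_lit 0x20001e0001000200010001000080000000000000000000000000000000) (nat_lit 0x0) (nat_lit 0x20003a000000020000000000004000000000000000000000000000) := T_34 (nat_lit 110) (nat_lit 161) (nat_lit 5) (nat_lit 8) (nat_lit 6) L92352 (by decide +kernel)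
theorem L92354 : W_34 (nat_lit 5) (nat_lit 0x20001e0000000200010001000080000000000000000000000000000000) (nat_lit 0x0) (nat_lit 0x20003b800000020000000000004000000000000000000000000000) := T_34 (nat_lit 192) (nat_lit 191) (nat_lit 0) (nat_lit 8) (nat_lit 12) L92353 (by decide +kernel)
theorem L92355 : W_34 (nat_lit 6) (nat_lit 0x1e0000000200010001000080000000000000000000000000000000) (nat_lit 0x0) (nat_lit 0x600020003b800000020000000000004000000000000000000000000000) := T_34 (nat_lit 229) (nat_lit 230) (nat_lit 3) (nat_lit 5) (nat_lit 12) L92354 (by decide +kernel)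
theorem L92356 : W_34 (nat_lit 7) (nat_lit 0xe0000000200010001000080000000000000000000000000000000) (nat_lit 0x0) (nat_lit 0xef0031003bc00000020000000000004000000000000000000000000000) := Q_34 (nat_lit 212) (C_34 L92335 (C_34 L92341 (C_34 L92345 (C_34 L92350 (C_34 L92355 N_34))))) (by decide +kernel)
theorem L92357 : W_34 (nat_lit 2) (nat_lit 0x20001f0008000200010001000080000000000000000000000000000000) (nat_lit 0x0) (nat_lit 0x700000000000000000000000000000000000000000000000000000000) := D_34 (nat_lit 225) (nat_lit 224) (nat_lit 226) (nat_lit 1) (nat_lit 7) (nat_lit 12) (nat_lit 1) (nat_lit 8) (nat_lit 12) (by decide +kernel)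
theorem L92358 : W_34 (nat_lit 3) (nat_lit 0x20001e0008000200010001000080000000000000000000000000000000) (nat_lit 0x0) (nat_lit 0x1700010000000000000000000000000000000000000000000000000000) := T_34 (nat_lit 208) (nat_lit 228) (nat_lit 3) (nat_lit 4) (nat_lit 12) L92357 (by decide +kernel)
theorem L92359 : W_34 (nat_lit 4) (nat_lit 0x1e0008000200010001000080000000000000000000000000000000) (nat_lit 0x0) (nat_lit 0x7700010000000000000000000000000000000000000000000000000000) := T_34 (nat_lit 229) (nat_lit 230) (nat_lit 3) (nat_lit 5) (nat_lit 12) L92358 (by decide +kernel)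
theorem L92360 : W_34 (nat_lit 5) (nat_lit 0x1e0000000200010001000080000000000000000000000000000000) (nat_lit 0x0) (nat_lit 0x7700010018000000000000000000000000000000000000000000000000) := T_34 (nat_lit 195) (nat_lit 196) (nat_lit 2) (nat_lit 5) (nat_lit 12) L92359 (by decide +kernel)
theorem L92361 : W_34 (nat_lit 2) (nat_lit 0x3e0009000200010001000080000000000000000000000000000000) (nat_lit 0x0) (nat_lit 0xe000000000000000000000000000000000000000000000000000000000) := D_34 (nat_lit 230) (nat_lit 229) (nat_lit 231) (nat_lit 3) (nat_lit 5) (nat_lit 12) (nat_lit 3) (nat_lit 6) (nat_lit 12) (by decide +kernel)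
theorem L92362 : W_34 (nat_lit 3) (nat_lit 0x1e0009000200010001000080000000000000000000000000000000) (nat_lit 0x0) (nat_lit 0xe000200002000000000000000000000000000000000000000000000000) := T_34 (nat_lit 213) (nat_lit 193) (nat_lit 0) (nat_lit 9) (nat_lit 12) L92361 (by decide +kernel)
theorem L92363 : W_34 (nat_lit 4) (nat_lit 0x1e0001000200010001000080000000000000000000000000000000) (nat_lit 0x0) (nat_lit 0xe00020001a000000000000000000000000000000000000000000000000) := T_34 (nat_lit 195) (nat_lit 196) (nat_lit 2) (nat_lit 5) (nat_lit 12) L92362 (by decide +kernel)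
theorem L92364 : W_34 (nat_lit 5) (nat_lit 0x1e0000000200010001000080000000000000000000000000000000) (nat_lit 0x0) (nat_lit 0xe00020001b800000000000000000000000000000000000000000000000) := T_34 (nat_lit 192) (nat_lit 191) (nat_lit 0) (nat_lit 8) (nat_lit 12) L92363 (by decide +kernel)
theorem L92365 : W_34 (nat_lit 6) (nat_lit 0xe0000000200010001000080000000000000000000000000000000) (nat_lit 0x0) (nat_lit 0xff0031003bc00000000000000000000000000000000000000000000000) := Q_34 (nat_lit 212) (C_34 L92335 (C_34 L92331 (C_34 L92360 (C_34 L92364 N_34)))) (by decide +kernel)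
theorem L92366 : W_34 (nat_lit 2) (nat_lit 0x10000f8000000200010001000080004000000000000000000000000000) (nat_lit 0x0) (nat_lit 0x380000000000000000000000000000000000000000000000000000000) := D_34 (nat_lit 224) (nat_lit 223) (nat_lit 225) (nat_lit 1) (nat_lit 6) (nat_lit 12) (nat_lit 1) (nat_lit 7) (nat_lit 12) (by decide +kernel)
theorem L92367 : W_34 (nat_lit 3) (nat_lit 0x10000f0000000200010001000080004000000000000000000000000000) (nat_lit 0x0) (nat_lit 0xb80008000000000000000000000000000000000000000000000000000) := T_34 (nat_lit 207) (nat_lit 227) (nat_lit 3) (nat_lit 3) (nat_lit 12) L92366 (by decide +kernel)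
theorem L92368 : W_34 (nat_lit 4) (nat_lit 0xf0000000200010001000080004000000000000000000000000000) (nat_lit 0x0) (nat_lit 0x3b80008000000000000000000000000000000000000000000000000000) := T_34 (nat_lit 228) (nat_lit 229) (nat_lit 3) (nat_lit 4) (nat_lit 12) L92367 (by decide +kernel)
theorem L92369 : W_34 (nat_lit 5) (nat_lit 0xf0000000200010001000080000000000000000000000000000000) (nat_lit 0x0) (nat_lit 0x3b80008000000000020000000000004000000000000000000000000000) := T_34 (nat_lit 110) (nat_lit 161) (nat_lit 5) (nat_lit 8) (nat_lit 6) L92368 (by decide +kernel)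
theorem L92370 : W_34 (nat_lit 2) (nat_lit 0x2001f0000000200010001000080004000000000000000000000000000) (nat_lit 0x0) (nat_lit 0x1c00000000000000000000000000000000000000000000000) := D_34 (nat_lit 191) (nat_lit 192) (nat_lit 190) (nat_lit 0) (nat_lit 8) (nat_lit 12) (nat_lit 0) (nat_lit 7) (nat_lit 12) (by decide +kernel)
theorem L92371 : W_34 (nat_lit 3) (nat_lit 0x2000f0000000200010001000080004000000000000000000000000000) (nat_lit 0x0) (nat_lit 0x400100001c00000000000000000000000000000000000000000000000) := T_34 (nat_lit 212) (nat_lit 226) (nat_lit 1) (nat_lit 8) (nat_lit 12) L92370 (by decide +kernel)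
theorem L92372 : W_34 (nat_lit 4) (nat_lit 0x2000f0000000200010001000080000000000000000000000000000000) (nat_lit 0x0) (nat_lit 0x400100001c00000020000000000004000000000000000000000000000) := T_34 (nat_lit 110) (nat_lit 161) (nat_lit 5) (nat_lit 8) (nat_lit 6) L92371 (by decide +kernel)
theorem L92373 : W_34 (nat_lit 5) (nat_lit 0xf0000000200010001000080000000000000000000000000000000) (nat_lit 0x0) (nat_lit 0x700100001c00000020000000000004000000000000000000000000000) := T_34 (nat_lit 225) (nat_lit 224) (nat_lit 1) (nat_lit 7) (nat_lit 12) L92372 (by decide +kernel)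
theorem L92374 : W_34 (nat_lit 2) (nat_lit 0x12000f8000000200010001000080000000000000000000000000000000) (nat_lit 0x0) (nat_lit 0xe00000000000000000000000000000000000000000000000) := D_34 (nat_lit 190) (nat_lit 189) (nat_lit 191) (nat_lit 0) (nat_lit 6) (nat_lit 12) (nat_lit 0) (nat_lit 7) (nat_lit 12) (by decide +kernel)
theorem L92375 : W_34 (nat_lit 3) (nat_lit 0x12000f0000000200010001000080000000000000000000000000000000) (nat_lit 0x0) (nat_lit 0x800008000e00000000000000000000000000000000000000000000000) := T_34 (nat_lit 207) (nat_lit 227) (nat_lit 3) (nat_lit 3) (nat_lit 12) L92374 (by decide +kernel)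
theorem L92376 : W_34 (nat_lit 4) (nat_lit 0x2000f0000000200010001000080000000000000000000000000000000) (nat_lit 0x0) (nat_lit 0x3800008000e00000000000000000000000000000000000000000000000) := T_34 (nat_lit 228) (nat_lit 229) (nat_lit 3) (nat_lit 4) (nat_lit 12) L92375 (by decide +kernel)
theorem L92377 : W_34 (nat_lit 5) (nat_lit 0xf0000000200010001000080000000000000000000000000000000) (nat_lit 0x0) (nat_lit 0x3b00008000e00000000000000000000000000000000000000000000000) := T_34 (nat_lit 225) (nat_lit 224) (nat_lit 1) (nat_lit 7) (nat_lit 12) L92376 (by decide +kernel)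
theorem L92378 : W_34 (nat_lit 2) (nat_lit 0x10000f8000000200010001000080004000000000000000000000000000) (nat_lit 0x0) (nat_lit 0xe00000000000000000000000000000000000000000000000) := D_34 (nat_lit 190) (nat_lit 191) (nat_lit 189) (nat_lit 0) (nat_lit 7) (nat_lit 12) (nat_lit 0) (nat_lit 6) (nat_lit 12) (by decide +kernel)
theorem L92379 : W_34 (nat_lit 3) (nat_lit 0x10000f0000000200010001000080004000000000000000000000000000) (nat_lit 0x0) (nat_lit 0x800008000e00000000000000000000000000000000000000000000000) := T_34 (nat_lit 207) (nat_lit 227) (nat_lit 3) (nat_lit 3) (nat_lit 12) L92378 (by decide +kernel)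
theorem L92380 : W_34 (nat_lit 4) (nat_lit 0xf0000000200010001000080004000000000000000000000000000) (nat_lit 0x0) (nat_lit 0x3800008000e00000000000000000000000000000000000000000000000) := T_34 (nat_lit 228) (nat_lit 229) (nat_lit 3) (nat_lit 4) (nat_lit 12) L92379 (by decide +kernel)
theorem L92381 : W_34 (nat_lit 5) (nat_lit 0xf0000000200010001000080000000000000000000000000000000) (nat_lit 0x0) (nat_lit 0x3800008000e00000020000000000004000000000000000000000000000) := T_34 (nat_lit 110) (nat_lit 161) (nat_lit 5) (nat_lit 8) (nat_lit 6) L92380 (by decide +kernel)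
theorem L92382 : W_34 (nat_lit 6) (nat_lit 0xe0000000200010001000080000000000000000000000000000000) (nat_lit 0x0) (nat_lit 0x3f80118001e00000020000000000004000000000000000000000000000) := Q_34 (nat_lit 208) (C_34 L92369 (C_34 L92373 (C_34 L92377 (C_34 L92381 N_34)))) (by decide +kernel)
theorem L92383 : W_34 (nat_lit 2) (nat_lit 0x42001f0010800200010001000080004000000000000000000000000000) (nat_lit 0x0) (nat_lit 0x8000200020000000000000000000000000000000000000000000000000) := D_34 (nat_lit 213) (nat_lit 197) (nat_lit 231) (nat_lit 2) (nat_lit 6) (nat_lit 12) (nat_lit 3) (nat_lit 6) (nat_lit 12) (by decide +kernel)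
theorem L92384 : W_34 (nat_lit 3) (nat_lit 0x2001f0010800200010001000080004000000000000000000000000000) (nat_lit 0x0) (nat_lit 0xe000200020000000000000000000000000000000000000000000000000) := T_34 (nat_lit 230) (nat_lit 229) (nat_lit 3) (nat_lit 5) (nat_lit 12) L92383 (by decide +kernel)
theorem L92385 : W_34 (nat_lit 4) (nat_lit 0x2001f0000800200010001000080004000000000000000000000000000) (nat_lit 0x0) (nat_lit 0xe000200038000000000000000000000000000000000000000000000000) := T_34 (nat_lit 196) (nat_lit 195) (nat_lit 2) (nat_lit 5) (nat_lit 12) L92384 (by decide +kernel)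
theorem L92386 : W_34 (nat_lit 5) (nat_lit 0x2000f0000800200010001000080004000000000000000000000000000) (nat_lit 0x0) (nat_lit 0xe400300038000000000000000000000000000000000000000000000000) := T_34 (nat_lit 212) (nat_lit 226) (nat_lit 1) (nat_lit 8) (nat_lit 12) L92385 (by decide +kernel)
theorem L92387 : W_34 (nat_lit 6) (nat_lit 0x2000f0000000200010001000080004000000000000000000000000000) (nat_lit 0x0) (nat_lit 0xe400300038c00000000000000000000000000000000000000000000000) := T_34 (nat_lit 191) (nat_lit 190) (nat_lit 0) (nat_lit 7) (nat_lit 12) L92386 (by decide +kernel)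
theorem L92388 : W_34 (nat_lit 7) (nat_lit 0xf0000000200010001000080004000000000000000000000000000) (nat_lit 0x0) (nat_lit 0xe700300038c00000000000000000000000000000000000000000000000) := T_34 (nat_lit 225) (nat_lit 224) (nat_lit 1) (nat_lit 7) (nat_lit 12) L92387 (by decide +kernel)
theorem L92389 : W_34 (nat_lit 8) (nat_lit 0xf0000000200010001000080000000000000000000000000000000) (nat_lit 0x0) (nat_lit 0xe700300038c00000020000000000004000000000000000000000000000) := T_34 (nat_lit 110) (nat_lit 161) (nat_lit 5) (nat_lit 8) (nat_lit 6) L92388 (by decide +kernel)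
theorem L92390 : W_34 (nat_lit 2) (nat_lit 0x6000f0000800200010001000080000000000000000000000000000000) (nat_lit 0x0) (nat_lit 0x100008000000000000000040000000000000000000000000000000000000000000) := D_34 (nat_lit 243) (nat_lit 260) (nat_lit 174) (nat_lit 4) (nat_lit 5) (nat_lit 15) (nat_lit 7) (nat_lit 4) (nat_lit 10) (by decide +kernel)
theorem L92391 : W_34 (nat_lit 3) (nat_lit 0x2000f0000800200010001000080000000000000000000000000000000) (nat_lit 0x0) (nat_lit 0x100008000400100000000040000000000000000000000000000000000000000000) := T_34 (nat_lit 226) (nat_lit 212) (nat_lit 1) (nat_lit 8) (nat_lit 12) L92390 (by decide +kernel)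
theorem L92392 : W_34 (nat_lit 4) (nat_lit 0x2000f0000000200010001000080000000000000000000000000000000) (nat_lit 0x0) (nat_lit 0x100008000400100000c00040000000000000000000000000000000000000000000) := T_34 (nat_lit 191) (nat_lit 190) (nat_lit 0) (nat_lit 7) (nat_lit 12) L92391 (by decide +kernel)
theorem L92393 : W_34 (nat_lit 5) (nat_lit 0xf0000000200010001000080000000000000000000000000000000) (nat_lit 0x0) (nat_lit 0x100008000700100000c00040000000000000000000000000000000000000000000) := T_34 (nat_lit 225) (nat_lit 224) (nat_lit 1) (nat_lit 7) (nat_lit 12) L92392 (by decide +kernel)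
theorem L92394 : W_34 (nat_lit 9) (nat_lit 0xe0000000200010001000080000000000000000000000000000000) (nat_lit 0x0) (nat_lit 0x10000800ff80318038e00040020000000000004000000000000000000000000000) := Q_34 (nat_lit 208) (C_34 L92381 (C_34 L92389 (C_34 L92377 (C_34 L92369 (C_34 L92393 N_34))))) (by decide +kernel)
theorem L92395 : W_34 (nat_lit 2) (nat_lit 0x1000f0000400200010001000080004000000000000000000000000000) (nat_lit 0x0) (nat_lit 0x80008000200000000000000000000000000000000000000000000000) := D_34 (nat_lit 207) (nat_lit 223) (nat_lit 189) (nat_lit 1) (nat_lit 6) (nat_lit 12) (nat_lit 0) (nat_lit 6) (nat_lit 12) (by decide +kernel)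
theorem L92396 : W_34 (nat_lit 3) (nat_lit 0x1000f0000000200010001000080004000000000000000000000000000) (nat_lit 0x0) (nat_lit 0x80008000e00000000000000000000000000000000000000000000000) := T_34 (nat_lit 190) (nat_lit 191) (nat_lit 0) (nat_lit 7) (nat_lit 12) L92395 (by decide +kernel)
theorem L92397 : W_34 (nat_lit 4) (nat_lit 0xf0000000200010001000080004000000000000000000000000000) (nat_lit 0x0) (nat_lit 0x380008000e00000000000000000000000000000000000000000000000) := T_34 (nat_lit 224) (nat_lit 225) (nat_lit 1) (nat_lit 7) (nat_lit 12) L92396 (by decide +kernel)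
theorem L92398 : W_34 (nat_lit 5) (nat_lit 0xf0000000200010001000080000000000000000000000000000000) (nat_lit 0x0) (nat_lit 0x380008000e00000020000000000004000000000000000000000000000) := T_34 (nat_lit 110) (nat_lit 161) (nat_lit 5) (nat_lit 8) (nat_lit 6) L92397 (by decide +kernel)
theorem L92399 : W_34 (nat_lit 2) (nat_lit 0xf0001000280014001000080004000000000000000000000000000) (nat_lit 0x0) (nat_lit 0x2800000000000200000000000000000000000000000000000) := D_34 (nat_lit 141) (nat_lit 193) (nat_lit 191) (nat_lit 7) (nat_lit 5) (nat_lit 8) (nat_lit 5) (nat_lit 5) (nat_lit 8) (by decide +kernel)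
theorem L92400 : W_34 (nat_lit 3) (nat_lit 0xf0000000280014001000080004000000000000000000000000000) (nat_lit 0x0) (nat_lit 0x800000003800000000000200000000000000000000000000000000000) := T_34 (nat_lit 192) (nat_lit 227) (nat_lit 7) (nat_lit 5) (nat_lit 9) L92399 (by decide +kernel)
theorem L92401 : W_34 (nat_lit 4) (nat_lit 0xf0000000280014001000080000000000000000000000000000000) (nat_lit 0x0) (nat_lit 0x800000003800000020000200000004000000000000000000000000000) := T_34 (nat_lit 110) (nat_lit 161) (nat_lit 5) (nat_lit 8) (nat_lit 6) L92400 (by decide +kernel)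
theorem L92402 : W_34 (nat_lit 2) (nat_lit 0x10000f0001000280014001000080004000000000000000000000000000) (nat_lit 0x0) (nat_lit 0xc00000000000200000000000000000000000000000000000) := D_34 (nat_lit 191) (nat_lit 190) (nat_lit 141) (nat_lit 0) (nat_lit 7) (nat_lit 12) (nat_lit 5) (nat_lit 5) (nat_lit 8) (by decide +kernel)
theorem L92403 : W_34 (nat_lit 3) (nat_lit 0x10000f0000000280014001000080004000000000000000000000000000) (nat_lit 0x0) (nat_lit 0x800000001c00000000000200000000000000000000000000000000000) := T_34 (nat_lit 192) (nat_lit 227) (nat_lit 7) (nat_lit 5) (nat_lit 9) L92402 (by decide +kernel)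
theorem L92404 : W_34 (nat_lit 4) (nat_lit 0x10000f0000000280014001000080000000000000000000000000000000) (nat_lit 0x0) (nat_lit 0x800000001c00000020000200000004000000000000000000000000000) := T_34 (nat_lit 110) (nat_lit 161) (nat_lit 5) (nat_lit 8) (nat_lit 6) L92403 (by decide +kernel)
theorem L92405 : W_34 (nat_lit 5) (nat_lit 0xf0000000280014001000080000000000000000000000000000000) (nat_lit 0x0) (nat_lit 0x3800000001c00000020000200000004000000000000000000000000000) := T_34 (nat_lit 228) (nat_lit 229) (nat_lit 3) (nat_lit 4) (nat_lit 12) L92404 (by decide +kernel)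
theorem L92406 : W_34 (nat_lit 2) (nat_lit 0xf0000800280014001000080000000000000000000000000000000) (nat_lit 0x0) (nat_lit 0x800000001000000000000200000000000000000000000000000000000) := D_34 (nat_lit 192) (nat_lit 227) (nat_lit 141) (nat_lit 7) (nat_lit 5) (nat_lit 9) (nat_lit 5) (nat_lit 5) (nat_lit 8) (by decide +kernel)
theorem L92407 : W_34 (nat_lit 3) (nat_lit 0xf0000000280014001000080000000000000000000000000000000) (nat_lit 0x0) (nat_lit 0x800000001c00000000000200000000000000000000000000000000000) := T_34 (nat_lit 191) (nat_lit 190) (nat_lit 0) (nat_lit 7) (nat_lit 12) L92406 (by decide +kernel)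
theorem L92408 : W_34 (nat_lit 2) (nat_lit 0x10000f000180028001e001000080004000000000000000000000000000) (nat_lit 0x0) (nat_lit 0x400000000000060000000000000000000000000000000000000000000) := D_34 (nat_lit 174) (nat_lit 173) (nat_lit 226) (nat_lit 1) (nat_lit 7) (nat_lit 9) (nat_lit 7) (nat_lit 4) (nat_lit 9) (by decide +kernel)
theorem L92409 : W_34 (nat_lit 3) (nat_lit 0x10000f000180028001c001000080004000000000000000000000000000) (nat_lit 0x0) (nat_lit 0x400000000000060002000100000000000000000000000000000000000) := T_34 (nat_lit 157) (nat_lit 140) (nat_lit 4) (nat_lit 5) (nat_lit 12) L92408 (by decide +kernel)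
theorem L92410 : W_34 (nat_lit 4) (nat_lit 0x10000f0001800280014001000080004000000000000000000000000000) (nat_lit 0x0) (nat_lit 0x40000000000006000a000500000000000000000000000000000000000) := T_34 (nat_lit 159) (nat_lit 142) (nat_lit 6) (nat_lit 5) (nat_lit 12) L92409 (by decide +kernel)
theorem L92411 : W_34 (nat_lit 5) (nat_lit 0x10000f0000800280014001000080004000000000000000000000000000) (nat_lit 0x0) (nat_lit 0xc0000000100006000a000500000000000000000000000000000000000) := T_34 (nat_lit 192) (nat_lit 227) (nat_lit 7) (nat_lit 5) (nat_lit 9) L92410 (by decide +kernel)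
theorem L92412 : W_34 (nat_lit 6) (nat_lit 0x10000f0000000280014001000080004000000000000000000000000000) (nat_lit 0x0) (nat_lit 0xc00000001c0006000a000500000000000000000000000000000000000) := T_34 (nat_lit 191) (nat_lit 190) (nat_lit 0) (nat_lit 7) (nat_lit 12) L92411 (by decide +kernel)
theorem L92413 : W_34 (nat_lit 7) (nat_lit 0x10000f0000000280014001000080000000000000000000000000000000) (nat_lit 0x0) (nat_lit 0xc00000001c0006002a000500000004000000000000000000000000000) := T_34 (nat_lit 110) (nat_lit 161) (nat_lit 5) (nat_lit 8) (nat_lit 6) L92412 (by decide +kernel)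
theorem L92414 : W_34 (nat_lit 8) (nat_lit 0xf0000000280014001000080000000000000000000000000000000) (nat_lit 0x0) (nat_lit 0x3c00000001c0006002a000500000004000000000000000000000000000) := T_34 (nat_lit 228) (nat_lit 229) (nat_lit 3) (nat_lit 4) (nat_lit 12) L92413 (by decide +kernel)
theorem L92415 : W_34 (nat_lit 2) (nat_lit 0x10000f00008002c0034001000080000000000000000000000000000000) (nat_lit 0x0) (nat_lit 0x2000200010000000000000000000000000000000) := D_34 (nat_lit 141) (nat_lit 124) (nat_lit 157) (nat_lit 5) (nat_lit 5) (nat_lit 7) (nat_lit 6) (nat_lit 4) (nat_lit 12) (by decide +kernel)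
theorem L92416 : W_34 (nat_lit 3) (nat_lit 0x10000f0000800280034001000080000000000000000000000000000000) (nat_lit 0x0) (nat_lit 0x4000a000200010000000000000000000000000000000) := T_34 (nat_lit 174) (nat_lit 159) (nat_lit 1) (nat_lit 8) (nat_lit 9) L92415 (by decide +kernel)
theorem L92417 : W_34 (nat_lit 4) (nat_lit 0x10000f0000000280034001000080000000000000000000000000000000) (nat_lit 0x0) (nat_lit 0xc0004000a000200010000000000000000000000000000000) := T_34 (nat_lit 191) (nat_lit 190) (nat_lit 0) (nat_lit 7) (nat_lit 12) L92416 (by decide +kernel)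
theorem L92418 : W_34 (nat_lit 5) (nat_lit 0x10000f0000000280014001000080000000000000000000000000000000) (nat_lit 0x0) (nat_lit 0xc0004002a000200010004000000000000000000000000000) := T_34 (nat_lit 161) (nat_lit 110) (nat_lit 5) (nat_lit 8) (nat_lit 6) L92417 (by decide +kernel)
theorem L92419 : W_34 (nat_lit 6) (nat_lit 0xf0000000280014001000080000000000000000000000000000000) (nat_lit 0x0) (nat_lit 0x3000000000c0004002a000200010004000000000000000000000000000) := T_34 (nat_lit 228) (nat_lit 229) (nat_lit 3) (nat_lit 4) (nat_lit 12) L92418 (by decide +kernel)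
theorem L92420 : W_34 (nat_lit 2) (nat_lit 0xf0001000280014001200080000000000000000000000000000000) (nat_lit 0x0) (nat_lit 0x8000400020000000000000000000000000000000) := D_34 (nat_lit 142) (nat_lit 125) (nat_lit 159) (nat_lit 6) (nat_lit 5) (nat_lit 11) (nat_lit 6) (nat_lit 5) (nat_lit 12) (by decide +kernel)
theorem L92421 : W_34 (nat_lit 3) (nat_lit 0xf0001000280014001000080000000000000000000000000000000) (nat_lit 0x0) (nat_lit 0x2000000008000600020000000000000000000000000000000) := T_34 (nat_lit 141) (nat_lit 193) (nat_lit 7) (nat_lit 5) (nat_lit 8) L92420 (by decide +kernel)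
theorem L92422 : W_34 (nat_lit 4) (nat_lit 0xf0000000280014001000080000000000000000000000000000000) (nat_lit 0x0) (nat_lit 0x800000003000000008000600020000000000000000000000000000000) := T_34 (nat_lit 192) (nat_lit 227) (nat_lit 7) (nat_lit 5) (nat_lit 9) L92421 (by decide +kernel)
theorem L92423 : W_34 (nat_lit 9) (nat_lit 0xf0000000280010001000080000000000000000000000000000000) (nat_lit 0x0) (nat_lit 0x3c00000003c0006002e000700030004000000000000000000000000000) := Q_34 (nat_lit 158) (C_34 L92401 (C_34 L92405 (C_34 L92407 (C_34 L92414 (C_34 L92419 (C_34 L92422 N_34)))))) (by decide +kernel)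
theorem L92424 : W_34 (nat_lit 2) (nat_lit 0x12000f0001000280010001000080004000000000000000000000000000) (nat_lit 0x0) (nat_lit 0x80004000400000000000000000000000000000000000000000000000000000000) := D_34 (nat_lit 242) (nat_lit 226) (nat_lit 259) (nat_lit 5) (nat_lit 5) (nat_lit 10) (nat_lit 6) (nat_lit 4) (nat_lit 15) (by decide +kernel)
theorem L92425 : W_34 (nat_lit 3) (nat_lit 0x12000f0000000280010001000080004000000000000000000000000000) (nat_lit 0x0) (nat_lit 0x80004000400000001000000004000000000000000000000000000000000000000) := T_34 (nat_lit 192) (nat_lit 158) (nat_lit 5) (nat_lit 5) (nat_lit 9) L92424 (by decide +kernel)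
theorem L92426 : W_34 (nat_lit 4) (nat_lit 0x12000f0000000280010001000080000000000000000000000000000000) (nat_lit 0x0) (nat_lit 0x80004000400000001000000024000000000004000000000000000000000000000) := T_34 (nat_lit 110) (nat_lit 161) (nat_lit 5) (nat_lit 8) (nat_lit 6) L92425 (by decide +kernel)
theorem L92427 : W_34 (nat_lit 5) (nat_lit 0x10000f0000000280010001000080000000000000000000000000000000) (nat_lit 0x0) (nat_lit 0x80004000700000001000000024000000000004000000000000000000000000000) := T_34 (nat_lit 225) (nat_lit 224) (nat_lit 1) (nat_lit 7) (nat_lit 12) L92426 (by decide +kernel)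
theorem L92428 : W_34 (nat_lit 6) (nat_lit 0xf0000000280010001000080000000000000000000000000000000) (nat_lit 0x0) (nat_lit 0x80004003700000001000000024000000000004000000000000000000000000000) := T_34 (nat_lit 228) (nat_lit 229) (nat_lit 3) (nat_lit 4) (nat_lit 12) L92427 (by decide +kernel)
theorem L92429 : W_34 (nat_lit 2) (nat_lit 0x2000f0000800280010001000080000000000000000000000000000000) (nat_lit 0x0) (nat_lit 0x1000040004000000000000000000000000000000000000000) := D_34 (nat_lit 158) (nat_lit 192) (nat_lit 174) (nat_lit 5) (nat_lit 5) (nat_lit 9) (nat_lit 6) (nat_lit 4) (nat_lit 13) (by decide +kernel)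
theorem L92430 : W_34 (nat_lit 3) (nat_lit 0x2000f0000000280010001000080000000000000000000000000000000) (nat_lit 0x0) (nat_lit 0x1c00040004000000000000000000000000000000000000000) := T_34 (nat_lit 191) (nat_lit 190) (nat_lit 0) (nat_lit 7) (nat_lit 12) L92429 (by decide +kernel)
theorem L92431 : W_34 (nat_lit 4) (nat_lit 0xf0000000280010001000080000000000000000000000000000000) (nat_lit 0x0) (nat_lit 0x300000001c00040004000000000000000000000000000000000000000) := T_34 (nat_lit 225) (nat_lit 224) (nat_lit 1) (nat_lit 7) (nat_lit 12) L92430 (by decide +kernel)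
theorem L92432 : W_34 (nat_lit 2) (nat_lit 0x6001a000f0000800280010001000080004000000000000000000000000000) (nat_lit 0x0) (nat_lit 0x100018000000000000000000000000000000000000000000000000000000000000) := D_34 (nat_lit 243) (nat_lit 260) (nat_lit 244) (nat_lit 7) (nat_lit 4) (nat_lit 11) (nat_lit 2) (nat_lit 3) (nat_lit 14) (by decide +kernel)
theorem L92433 : W_34 (nat_lit 3) (nat_lit 0x60012000f0000800280010001000080004000000000000000000000000000) (nat_lit 0x0) (nat_lit 0x100018000c00000000000000000000000000000000000000000000000000000000) := T_34 (nat_lit 227) (nat_lit 226) (nat_lit 1) (nat_lit 7) (nat_lit 13) L92432 (by decide +kernel)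
theorem L92434 : W_34 (nat_lit 4) (nat_lit 0x40012000f0000800280010001000080004000000000000000000000000000) (nat_lit 0x0) (nat_lit 0x14001a000c00000000000000000000000000000000000000000000000000000000) := T_34 (nat_lit 241) (nat_lit 258) (nat_lit 5) (nat_lit 4) (nat_lit 11) L92433 (by decide +kernel)
theorem L92435 : W_34 (nat_lit 5) (nat_lit 0x12000f0000800280010001000080004000000000000000000000000000) (nat_lit 0x0) (nat_lit 0x14001e000c00000001000000000000000000000000000000000000000000000000) := T_34 (nat_lit 242) (nat_lit 192) (nat_lit 6) (nat_lit 4) (nat_lit 14) L92434 (by decide +kernel)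
theorem L92436 : W_34 (nat_lit 6) (nat_lit 0x12000f0000800280010001000080000000000000000000000000000000) (nat_lit 0x0) (nat_lit 0x14001e000c00000001000000020000000000004000000000000000000000000000) := T_34 (nat_lit 110) (nat_lit 161) (nat_lit 5) (nat_lit 8) (nat_lit 6) L92435 (by decide +kernel)
theorem L92437 : W_34 (nat_lit 7) (nat_lit 0x12000f0000000280010001000080000000000000000000000000000000) (nat_lit 0x0) (nat_lit 0x14001e000c00000001c00000020000000000004000000000000000000000000000) := T_34 (nat_lit 191) (nat_lit 190) (nat_lit 0) (nat_lit 7) (nat_lit 12) L92436 (by decide +kernel)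
theorem L92438 : W_34 (nat_lit 8) (nat_lit 0x2000f0000000280010001000080000000000000000000000000000000) (nat_lit 0x0) (nat_lit 0x14001e003c00000001c00000020000000000004000000000000000000000000000) := T_34 (nat_lit 228) (nat_lit 229) (nat_lit 3) (nat_lit 4) (nat_lit 12) L92437 (by decide +kernel)
theorem L92439 : W_34 (nat_lit 9) (nat_lit 0xf0000000280010001000080000000000000000000000000000000) (nat_lit 0x0) (nat_lit 0x14001e003f00000001c00000020000000000004000000000000000000000000000) := T_34 (nat_lit 225) (nat_lit 224) (nat_lit 1) (nat_lit 7) (nat_lit 12) L92438 (by decide +kernel)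
theorem L92440 : W_34 (nat_lit 2) (nat_lit 0x12000f00008002c0010001000080000000000000000000000000000000) (nat_lit 0x0) (nat_lit 0x8000400000000000000002000000000000000000000000000000000000000) := D_34 (nat_lit 226) (nat_lit 157) (nat_lit 243) (nat_lit 7) (nat_lit 4) (nat_lit 9) (nat_lit 7) (nat_lit 4) (nat_lit 10) (by decide +kernel)
theorem L92441 : W_34 (nat_lit 3) (nat_lit 0x12000f0000800280010001000080000000000000000000000000000000) (nat_lit 0x0) (nat_lit 0x8000400000000000040006000000000000000000000000000000000000000) := T_34 (nat_lit 174) (nat_lit 158) (nat_lit 6) (nat_lit 4) (nat_lit 13) L92440 (by decide +kernel)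
theorem L92442 : W_34 (nat_lit 4) (nat_lit 0x2000f0000800280010001000080000000000000000000000000000000) (nat_lit 0x0) (nat_lit 0x8003400000000000040006000000000000000000000000000000000000000) := T_34 (nat_lit 228) (nat_lit 229) (nat_lit 3) (nat_lit 4) (nat_lit 12) L92441 (by decide +kernel)
theorem L92443 : W_34 (nat_lit 5) (nat_lit 0xf0000800280010001000080000000000000000000000000000000) (nat_lit 0x0) (nat_lit 0x8003700000000000040006000000000000000000000000000000000000000) := T_34 (nat_lit 225) (nat_lit 224) (nat_lit 1) (nat_lit 7) (nat_lit 12) L92442 (by decide +kernel)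
theorem L92444 : W_34 (nat_lit 6) (nat_lit 0xf0000000280010001000080000000000000000000000000000000) (nat_lit 0x0) (nat_lit 0x8003700000000c00040006000000000000000000000000000000000000000) := T_34 (nat_lit 191) (nat_lit 190) (nat_lit 0) (nat_lit 7) (nat_lit 12) L92443 (by decide +kernel)
theorem L92445 : W_34 (nat_lit 10) (nat_lit 0xf0000000200010001000080000000000000000000000000000000) (nat_lit 0x0) (nat_lit 0x1c001e003f00000003c000e002e000700030004000000000000000000000000000) := Q_34 (nat_lit 175) (C_34 L92423 (C_34 L92428 (C_34 L92431 (C_34 L92439 (C_34 L92444 N_34))))) (by decide +kernel)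
theorem L92446 : W_34 (nat_lit 11) (nat_lit 0xe0000000200010001000080000000000000000000000000000000) (nat_lit 0x0) (nat_lit 0x1c001e003f80018003e000e002e000700030004000000000000000000000000000) := Q_34 (nat_lit 208) (C_34 L92381 (C_34 L92398 (C_34 L92377 (C_34 L92369 (C_34 L92445 N_34))))) (by decide +kernel)
theorem L92447 : W_34 (nat_lit 2) (nat_lit 0x4001e0010000200010001000080004000000000000000000000000000) (nat_lit 0x0) (nat_lit 0x800200020000000000000000000000000000000000000000000000000) := D_34 (nat_lit 213) (nat_lit 197) (nat_lit 227) (nat_lit 2) (nat_lit 6) (nat_lit 12) (nat_lit 1) (nat_lit 9) (nat_lit 12) (by decide +kernel)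
theorem L92448 : W_34 (nat_lit 3) (nat_lit 0x1e0010000200010001000080004000000000000000000000000000) (nat_lit 0x0) (nat_lit 0xe00200020000000000000000000000000000000000000000000000000) := T_34 (nat_lit 226) (nat_lit 225) (nat_lit 1) (nat_lit 8) (nat_lit 12) L92447 (by decide +kernel)
theorem L92449 : W_34 (nat_lit 4) (nat_lit 0x1e0000000200010001000080004000000000000000000000000000) (nat_lit 0x0) (nat_lit 0xe00200038000000000000000000000000000000000000000000000000) := T_34 (nat_lit 196) (nat_lit 195) (nat_lit 2) (nat_lit 5) (nat_lit 12) L92448 (by decide +kernel)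
theorem L92450 : W_34 (nat_lit 5) (nat_lit 0x1e0000000200010001000080000000000000000000000000000000) (nat_lit 0x0) (nat_lit 0xe00200038000000020000000000004000000000000000000000000000) := T_34 (nat_lit 110) (nat_lit 161) (nat_lit 5) (nat_lit 8) (nat_lit 6) L92449 (by decide +kernel)
theorem L92451 : W_34 (nat_lit 2) (nat_lit 0x3e0010000200010001000080004000000000000000000000000000) (nat_lit 0x0) (nat_lit 0xe000000000000000000000000000000000000000000000000000000000) := D_34 (nat_lit 230) (nat_lit 229) (nat_lit 231) (nat_lit 3) (nat_lit 5) (nat_lit 12) (nat_lit 3) (nat_lit 6) (nat_lit 12) (by decide +kernel)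
theorem L92452 : W_34 (nat_lit 3) (nat_lit 0x1e0010000200010001000080004000000000000000000000000000) (nat_lit 0x0) (nat_lit 0xe000200020000000000000000000000000000000000000000000000000) := T_34 (nat_lit 213) (nat_lit 197) (nat_lit 2) (nat_lit 6) (nat_lit 12) L92451 (by decide +kernel)
theorem L92453 : W_34 (nat_lit 4) (nat_lit 0x1e0010000200010001000080000000000000000000000000000000) (nat_lit 0x0) (nat_lit 0xe000200020000000020000000000004000000000000000000000000000) := T_34 (nat_lit 110) (nat_lit 161) (nat_lit 5) (nat_lit 8) (nat_lit 6) L92452 (by decide +kernel)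
theorem L92454 : W_34 (nat_lit 5) (nat_lit 0x1e0000000200010001000080000000000000000000000000000000) (nat_lit 0x0) (nat_lit 0xe000200038000000020000000000004000000000000000000000000000) := T_34 (nat_lit 196) (nat_lit 195) (nat_lit 2) (nat_lit 5) (nat_lit 12) L92453 (by decide +kernel)
theorem L92455 : W_34 (nat_lit 6) (nat_lit 0xe0000000200010001000080000000000000000000000000000000) (nat_lit 0x0) (nat_lit 0xff00310038000000020000000000004000000000000000000000000000) := Q_34 (nat_lit 212) (C_34 L92360 (C_34 L92345 (C_34 L92450 (C_34 L92454 N_34)))) (by decide +kernel)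
theorem L92456 : W_34 (nat_lit 2) (nat_lit 0x2001e0008800200010001000080004000000000000000000000000000) (nat_lit 0x0) (nat_lit 0x100010000400000000000000000000000000000000000000000000000) := D_34 (nat_lit 208) (nat_lit 224) (nat_lit 190) (nat_lit 1) (nat_lit 7) (nat_lit 12) (nat_lit 0) (nat_lit 7) (nat_lit 12) (by decide +kernel)
theorem L92457 : W_34 (nat_lit 3) (nat_lit 0x2001e0008000200010001000080004000000000000000000000000000) (nat_lit 0x0) (nat_lit 0x100010001c00000000000000000000000000000000000000000000000) := T_34 (nat_lit 191) (nat_lit 192) (nat_lit 0) (nat_lit 8) (nat_lit 12) L92456 (by decide +kernel)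
theorem L92458 : W_34 (nat_lit 4) (nat_lit 0x1e0008000200010001000080004000000000000000000000000000) (nat_lit 0x0) (nat_lit 0x700010001c00000000000000000000000000000000000000000000000) := T_34 (nat_lit 225) (nat_lit 226) (nat_lit 1) (nat_lit 8) (nat_lit 12) L92457 (by decide +kernel)
theorem L92459 : W_34 (nat_lit 5) (nat_lit 0x1e0008000200010001000080000000000000000000000000000000) (nat_lit 0x0) (nat_lit 0x700010001c00000020000000000004000000000000000000000000000) := T_34 (nat_lit 110) (nat_lit 161) (nat_lit 5) (nat_lit 8) (nat_lit 6) L92458 (by decide +kernel)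
theorem L92460 : W_34 (nat_lit 6) (nat_lit 0x1e0000000200010001000080000000000000000000000000000000) (nat_lit 0x0) (nat_lit 0x700010019c00000020000000000004000000000000000000000000000) := T_34 (nat_lit 195) (nat_lit 196) (nat_lit 2) (nat_lit 5) (nat_lit 12) L92459 (by decide +kernel)
theorem L92461 : W_34 (nat_lit 7) (nat_lit 0xe0000000200010001000080000000000000000000000000000000) (nat_lit 0x0) (nat_lit 0xe70031003bc00000020000000000004000000000000000000000000000) := Q_34 (nat_lit 212) (C_34 L92454 (C_34 L92364 (C_34 L92350 (C_34 L92460 N_34)))) (by decide +kernel)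
theorem L92462 : W_34 (nat_lit 2) (nat_lit 0x4001e0001000200010001000080004000000000000000000000000000) (nat_lit 0x0) (nat_lit 0x800200002000000000000000000000000000000000000000000000000) := D_34 (nat_lit 213) (nat_lit 227) (nat_lit 193) (nat_lit 1) (nat_lit 9) (nat_lit 12) (nat_lit 0) (nat_lit 9) (nat_lit 12) (by decide +kernel)
theorem L92463 : W_34 (nat_lit 3) (nat_lit 0x4001e0000000200010001000080004000000000000000000000000000) (nat_lit 0x0) (nat_lit 0x800200003800000000000000000000000000000000000000000000000) := T_34 (nat_lit 192) (nat_lit 191) (nat_lit 0) (nat_lit 8) (nat_lit 12) L92462 (by decide +kernel)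
theorem L92464 : W_34 (nat_lit 4) (nat_lit 0x1e0000000200010001000080004000000000000000000000000000) (nat_lit 0x0) (nat_lit 0xe00200003800000000000000000000000000000000000000000000000) := T_34 (nat_lit 226) (nat_lit 225) (nat_lit 1) (nat_lit 8) (nat_lit 12) L92463 (by decide +kernel)
theorem L92465 : W_34 (nat_lit 5) (nat_lit 0x1e0000000200010001000080000000000000000000000000000000) (nat_lit 0x0) (nat_lit 0xe00200003800000020000000000004000000000000000000000000000) := T_34 (nat_lit 110) (nat_lit 161) (nat_lit 5) (nat_lit 8) (nat_lit 6) L92464 (by decide +kernel)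
theorem L92466 : W_34 (nat_lit 2) (nat_lit 0x3e0001000200010001000080004000000000000000000000000000) (nat_lit 0x0) (nat_lit 0x38000000000000000000000000000000000000000000000000) := D_34 (nat_lit 196) (nat_lit 195) (nat_lit 197) (nat_lit 2) (nat_lit 5) (nat_lit 12) (nat_lit 2) (nat_lit 6) (nat_lit 12) (by decide +kernel)
theorem L92467 : W_34 (nat_lit 3) (nat_lit 0x1e0001000200010001000080004000000000000000000000000000) (nat_lit 0x0) (nat_lit 0x20003a000000000000000000000000000000000000000000000000) := T_34 (nat_lit 213) (nat_lit 193) (nat_lit 0) (nat_lit 9) (nat_lit 12) L92466 (by decide +kernel)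
theorem L92468 : W_34 (nat_lit 4) (nat_lit 0x1e0001000200010001000080000000000000000000000000000000) (nat_lit 0x0) (nat_lit 0x20003a000000020000000000004000000000000000000000000000) := T_34 (nat_lit 110) (nat_lit 161) (nat_lit 5) (nat_lit 8) (nat_lit 6) L92467 (by decide +kernel)
theorem L92469 : W_34 (nat_lit 5) (nat_lit 0x1e0000000200010001000080000000000000000000000000000000) (nat_lit 0x0) (nat_lit 0x20003b800000020000000000004000000000000000000000000000) := T_34 (nat_lit 192) (nat_lit 191) (nat_lit 0) (nat_lit 8) (nat_lit 12) L92468 (by decide +kernel)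
theorem L92470 : W_34 (nat_lit 7) (nat_lit 0xe0000000200010001000080000000000000000000000000000000) (nat_lit 0x0) (nat_lit 0xf0031003bc00000020000000000004000000000000000000000000000) := Q_34 (nat_lit 212) (C_34 L92460 (C_34 L92335 (C_34 L92465 (C_34 L92450 (C_34 L92469 N_34))))) (by decide +kernel)
theorem L92471 : W_34 (nat_lit 2) (nat_lit 0x4001e0001000280010001000080000000000000000000000000000000) (nat_lit 0x0) (nat_lit 0x10000800000000000000004000000000000000000000000000000000000000) := D_34 (nat_lit 227) (nat_lit 158) (nat_lit 244) (nat_lit 7) (nat_lit 5) (nat_lit 9) (nat_lit 7) (nat_lit 5) (nat_lit 10) (by decide +kernel)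
theorem L92472 : W_34 (nat_lit 3) (nat_lit 0x1e0001000280010001000080000000000000000000000000000000) (nat_lit 0x0) (nat_lit 0x10000e00000000000000004000000000000000000000000000000000000000) := T_34 (nat_lit 226) (nat_lit 225) (nat_lit 1) (nat_lit 8) (nat_lit 12) L92471 (by decide +kernel)
theorem L92473 : W_34 (nat_lit 2) (nat_lit 0x1000180024001e00010002c0010001000080000000000000000000000000000000) (nat_lit 0x0) (nat_lit 0x1000080004000000000000000000000000000000000000000000000000000000000000) := D_34 (nat_lit 259) (nat_lit 276) (nat_lit 242) (nat_lit 5) (nat_lit 5) (nat_lit 12) (nat_lit 5) (nat_lit 5) (nat_lit 11) (by decide +kernel)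
theorem L92474 : W_34 (nat_lit 3) (nat_lit 0x180024001e00010002c0010001000080000000000000000000000000000000) (nat_lit 0x0) (nat_lit 0x1000180004000000000002000000000000000000000000000000000000000000000000) := T_34 (nat_lit 260) (nat_lit 193) (nat_lit 6) (nat_lit 5) (nat_lit 15) L92473 (by decide +kernel)
theorem L92475 : W_34 (nat_lit 4) (nat_lit 0x100024001e00010002c0010001000080000000000000000000000000000000) (nat_lit 0x0) (nat_lit 0x100038000c000000000002000000000000000000000000000000000000000000000000) := T_34 (nat_lit 243) (nat_lit 261) (nat_lit 7) (nat_lit 5) (nat_lit 11) L92474 (by decide +kernel)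
theorem L92476 : W_34 (nat_lit 5) (nat_lit 0x100024001e0001000280010001000080000000000000000000000000000000) (nat_lit 0x0) (nat_lit 0x100038000c000000000002000040002000000000000000000000000000000000000000) := T_34 (nat_lit 174) (nat_lit 157) (nat_lit 4) (nat_lit 5) (nat_lit 13) L92475 (by decide +kernel)
theorem L92477 : W_34 (nat_lit 6) (nat_lit 0x24001e0001000280010001000080000000000000000000000000000000) (nat_lit 0x0) (nat_lit 0x100038001c000800000002000040002000000000000000000000000000000000000000) := T_34 (nat_lit 244) (nat_lit 227) (nat_lit 7) (nat_lit 5) (nat_lit 10) L92476 (by decide +kernel)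
theorem L92478 : W_34 (nat_lit 7) (nat_lit 0x4001e0001000280010001000080000000000000000000000000000000) (nat_lit 0x0) (nat_lit 0x100038001c006800000002000040002000000000000000000000000000000000000000) := T_34 (nat_lit 229) (nat_lit 230) (nat_lit 3) (nat_lit 5) (nat_lit 12) L92477 (by decide +kernel)
theorem L92479 : W_34 (nat_lit 8) (nat_lit 0x1e0001000280010001000080000000000000000000000000000000) (nat_lit 0x0) (nat_lit 0x100038001c006e00000002000040002000000000000000000000000000000000000000) := T_34 (nat_lit 226) (nat_lit 225) (nat_lit 1) (nat_lit 8) (nat_lit 12) L92478 (by decide +kernel)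
theorem L92480 : W_34 (nat_lit 2) (nat_lit 0x24001e00090002c00340012000a8000000000000000000000000000000) (nat_lit 0x0) (nat_lit 0x10001400000000000000000000000000) := D_34 (nat_lit 124) (nat_lit 108) (nat_lit 106) (nat_lit 6) (nat_lit 5) (nat_lit 10) (nat_lit 4) (nat_lit 5) (nat_lit 10) (by decide +kernel)
theorem L92481 : W_34 (nat_lit 3) (nat_lit 0x24001e00090002c00340012000a0000000000000000000000000000000) (nat_lit 0x0) (nat_lit 0x100018001400000000000000000000000000) := T_34 (nat_lit 123) (nat_lit 140) (nat_lit 4) (nat_lit 5) (nat_lit 11) L92480 (by decide +kernel)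
theorem L92482 : W_34 (nat_lit 4) (nat_lit 0x24001e00090002c0034001200080000000000000000000000000000000) (nat_lit 0x0) (nat_lit 0x500038001400000000000000000000000000) := T_34 (nat_lit 125) (nat_lit 142) (nat_lit 6) (nat_lit 5) (nat_lit 11) L92481 (by decide +kernel)
theorem L92483 : W_34 (nat_lit 5) (nat_lit 0x24001e00090002c0034001000080000000000000000000000000000000) (nat_lit 0x0) (nat_lit 0x2000000000000700038001400000000000000000000000000) := T_34 (nat_lit 141) (nat_lit 193) (nat_lit 7) (nat_lit 5) (nat_lit 8) L92482 (by decide +kernel)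
theorem L92484 : W_34 (nat_lit 6) (nat_lit 0x24001e00090002c0030001000080000000000000000000000000000000) (nat_lit 0x0) (nat_lit 0x200000000c000700038001400000000000000000000000000) := T_34 (nat_lit 158) (nat_lit 159) (nat_lit 1) (nat_lit 8) (nat_lit 9) L92483 (by decide +kernel)
theorem L92485 : W_34 (nat_lit 7) (nat_lit 0x24001e00090002c0010001000080000000000000000000000000000000) (nat_lit 0x0) (nat_lit 0x200000002c000700038005400000000000000000000000000) := T_34 (nat_lit 161) (nat_lit 110) (nat_lit 5) (nat_lit 8) (nat_lit 6) L92484 (by decide +kernel)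
theorem L92486 : W_34 (nat_lit 8) (nat_lit 0x24001e0009000280010001000080000000000000000000000000000000) (nat_lit 0x0) (nat_lit 0x200004002e000700038005400000000000000000000000000) := T_34 (nat_lit 174) (nat_lit 157) (nat_lit 4) (nat_lit 5) (nat_lit 13) L92485 (by decide +kernel)
theorem L92487 : W_34 (nat_lit 9) (nat_lit 0x4001e0009000280010001000080000000000000000000000000000000) (nat_lit 0x0) (nat_lit 0x600000000200004002e000700038005400000000000000000000000000) := T_34 (nat_lit 229) (nat_lit 230) (nat_lit 3) (nat_lit 5) (nat_lit 12) L92486 (by decide +kernel)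
theorem L92488 : W_34 (nat_lit 10) (nat_lit 0x1e0009000280010001000080000000000000000000000000000000) (nat_lit 0x0) (nat_lit 0x660000000200004002e000700038005400000000000000000000000000) := T_34 (nat_lit 226) (nat_lit 225) (nat_lit 1) (nat_lit 8) (nat_lit 12) L92487 (by decide +kernel)
theorem L92489 : W_34 (nat_lit 11) (nat_lit 0x1e0001000280010001000080000000000000000000000000000000) (nat_lit 0x0) (nat_lit 0x660000001a00004002e000700038005400000000000000000000000000) := T_34 (nat_lit 195) (nat_lit 196) (nat_lit 2) (nat_lit 5) (nat_lit 12) L92488 (by decide +kernel)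
theorem L92490 : W_34 (nat_lit 2) (nat_lit 0x20001e0009000280014001200080004000000000000000000000000000) (nat_lit 0x0) (nat_lit 0x8000400020000000000000000000000000000000) := D_34 (nat_lit 142) (nat_lit 125) (nat_lit 159) (nat_lit 6) (nat_lit 5) (nat_lit 11) (nat_lit 6) (nat_lit 5) (nat_lit 12) (by decide +kernel)
theorem L92491 : W_34 (nat_lit 3) (nat_lit 0x20001e0009000280014001000080004000000000000000000000000000) (nat_lit 0x0) (nat_lit 0x2000000008000600020000000000000000000000000000000) := T_34 (nat_lit 141) (nat_lit 193) (nat_lit 7) (nat_lit 5) (nat_lit 8) L92490 (by decide +kernel)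
theorem L92492 : W_34 (nat_lit 4) (nat_lit 0x20001e0009000280010001000080004000000000000000000000000000) (nat_lit 0x0) (nat_lit 0x80000000200000000c000600020000000000000000000000000000000) := T_34 (nat_lit 158) (nat_lit 227) (nat_lit 7) (nat_lit 5) (nat_lit 9) L92491 (by decide +kernel)
theorem L92493 : W_34 (nat_lit 5) (nat_lit 0x1e0009000280010001000080004000000000000000000000000000) (nat_lit 0x0) (nat_lit 0x680000000200000000c000600020000000000000000000000000000000) := T_34 (nat_lit 229) (nat_lit 230) (nat_lit 3) (nat_lit 5) (nat_lit 12) L92492 (by decide +kernel)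
theorem L92494 : W_34 (nat_lit 6) (nat_lit 0x1e0001000280010001000080004000000000000000000000000000) (nat_lit 0x0) (nat_lit 0x680000001a00000000c000600020000000000000000000000000000000) := T_34 (nat_lit 195) (nat_lit 196) (nat_lit 2) (nat_lit 5) (nat_lit 12) L92493 (by decide +kernel)
theorem L92495 : W_34 (nat_lit 7) (nat_lit 0x1e0001000280010001000080000000000000000000000000000000) (nat_lit 0x0) (nat_lit 0x680000001a00000002c000600020004000000000000000000000000000) := T_34 (nat_lit 110) (nat_lit 161) (nat_lit 5) (nat_lit 8) (nat_lit 6) L92494 (by decide +kernel)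
theorem L92496 : W_34 (nat_lit 12) (nat_lit 0x1e0001000200010001000080000000000000000000000000000000) (nat_lit 0x0) (nat_lit 0x100038001c006e0000001a0000c002e000700038005400000000000000000000000000) := Q_34 (nat_lit 175) (C_34 L92472 (C_34 L92479 (C_34 L92489 (C_34 L92495 N_34)))) (by decide +kernel)
theorem L92497 : W_34 (nat_lit 13) (nat_lit 0x1e0000000200010001000080000000000000000000000000000000) (nat_lit 0x0) (nat_lit 0x100038001c006e0000001b8000c002e000700038005400000000000000000000000000) := T_34 (nat_lit 192) (nat_lit 191) (nat_lit 0) (nat_lit 8) (nat_lit 12) L92496 (by decide +kernel)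
theorem L92498 : W_34 (nat_lit 14) (nat_lit 0xe0000000200010001000080000000000000000000000000000000) (nat_lit 0x0) (nat_lit 0x100038001c00ee0030003b8000c002e000700038005400000000000000000000000000) := Q_34 (nat_lit 212) (C_34 L92454 (C_34 L92469 (C_34 L92364 (C_34 L92465 (C_34 L92497 N_34))))) (by decide +kernel)
theorem L92499 : W_34 (nat_lit 2) (nat_lit 0x12007f0010800200010001000080004000000000000000000000000000) (nat_lit 0x0) (nat_lit 0x1c000000000000000000000000000000000000000000000000000000000) := D_34 (nat_lit 231) (nat_lit 230) (nat_lit 232) (nat_lit 3) (nat_lit 6) (nat_lit 12) (nat_lit 3) (nat_lit 7) (nat_lit 12) (by decide +kernel)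
theorem L92500 : W_34 (nat_lit 3) (nat_lit 0x12003f0010800200010001000080004000000000000000000000000000) (nat_lit 0x0) (nat_lit 0x1c800400000000000000000000000000000000000000000000000000000) := T_34 (nat_lit 214) (nat_lit 227) (nat_lit 1) (nat_lit 10) (nat_lit 12) L92499 (by decide +kernel)
theorem L92501 : W_34 (nat_lit 4) (nat_lit 0x12001f0010800200010001000080004000000000000000000000000000) (nat_lit 0x0) (nat_lit 0x1c800600020000000000000000000000000000000000000000000000000) := T_34 (nat_lit 213) (nat_lit 197) (nat_lit 2) (nat_lit 6) (nat_lit 12) L92500 (by decide +kernel)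
theorem L92502 : W_34 (nat_lit 5) (nat_lit 0x12001f0000800200010001000080004000000000000000000000000000) (nat_lit 0x0) (nat_lit 0x1c800600038000000000000000000000000000000000000000000000000) := T_34 (nat_lit 196) (nat_lit 195) (nat_lit 2) (nat_lit 5) (nat_lit 12) L92501 (by decide +kernel)
theorem L92503 : W_34 (nat_lit 6) (nat_lit 0x12000f0000800200010001000080004000000000000000000000000000) (nat_lit 0x0) (nat_lit 0x1c800700039000000000000000000000000000000000000000000000000) := T_34 (nat_lit 212) (nat_lit 192) (nat_lit 0) (nat_lit 8) (nat_lit 12) L92502 (by decide +kernel)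
theorem L92504 : W_34 (nat_lit 7) (nat_lit 0x12000f0000800200010001000080000000000000000000000000000000) (nat_lit 0x0) (nat_lit 0x1c800700039000000020000000000004000000000000000000000000000) := T_34 (nat_lit 110) (nat_lit 161) (nat_lit 5) (nat_lit 8) (nat_lit 6) L92503 (by decide +kernel)
theorem L92505 : W_34 (nat_lit 8) (nat_lit 0x12000f0000000200010001000080000000000000000000000000000000) (nat_lit 0x0) (nat_lit 0x1c800700039c00000020000000000004000000000000000000000000000) := T_34 (nat_lit 191) (nat_lit 190) (nat_lit 0) (nat_lit 7) (nat_lit 12) L92504 (by decide +kernel)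
theorem L92506 : W_34 (nat_lit 9) (nat_lit 0x10000f0000000200010001000080000000000000000000000000000000) (nat_lit 0x0) (nat_lit 0x1cb00700039c00000020000000000004000000000000000000000000000) := T_34 (nat_lit 225) (nat_lit 224) (nat_lit 1) (nat_lit 7) (nat_lit 12) L92505 (by decide +kernel)
theorem L92507 : W_34 (nat_lit 10) (nat_lit 0xf0000000200010001000080000000000000000000000000000000) (nat_lit 0x0) (nat_lit 0x1fb00700039c00000020000000000004000000000000000000000000000) := T_34 (nat_lit 228) (nat_lit 229) (nat_lit 3) (nat_lit 4) (nat_lit 12) L92506 (by decide +kernel)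
theorem L92508 : W_34 (nat_lit 11) (nat_lit 0xe0000000200010001000080000000000000000000000000000000) (nat_lit 0x0) (nat_lit 0x1fb80718039e00000020000000000004000000000000000000000000000) := Q_34 (nat_lit 208) (C_34 L92398 (C_34 L92377 (C_34 L92369 (C_34 L92381 (C_34 L92507 N_34))))) (by decide +kernel)
theorem L92509 : W_34 (nat_lit 2) (nat_lit 0x20001f0000000200010001000080000000000000000000000000000000) (nat_lit 0x0) (nat_lit 0x1c00000000000000000000000000000000000000000000000) := D_34 (nat_lit 191) (nat_lit 190) (nat_lit 192) (nat_lit 0) (nat_lit 7) (nat_lit 12) (nat_lit 0) (nat_lit 8) (nat_lit 12) (by decide +kernel)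
theorem L92510 : W_34 (nat_lit 3) (nat_lit 0x20001e0000000200010001000080000000000000000000000000000000) (nat_lit 0x0) (nat_lit 0x1000010001c00000000000000000000000000000000000000000000000) := T_34 (nat_lit 208) (nat_lit 228) (nat_lit 3) (nat_lit 4) (nat_lit 12) L92509 (by decide +kernel)
theorem L92511 : W_34 (nat_lit 4) (nat_lit 0x1e0000000200010001000080000000000000000000000000000000) (nat_lit 0x0) (nat_lit 0x7000010001c00000000000000000000000000000000000000000000000) := T_34 (nat_lit 229) (nat_lit 230) (nat_lit 3) (nat_lit 5) (nat_lit 12) L92510 (by decide +kernel)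
theorem L92512 : W_34 (nat_lit 6) (nat_lit 0xe0000000200010001000080000000000000000000000000000000) (nat_lit 0x0) (nat_lit 0xf00031003bc00000020000000000004000000000000000000000000000) := Q_34 (nat_lit 212) (C_34 L92454 (C_34 L92469 (C_34 L92364 (C_34 L92511 N_34)))) (by decide +kernel)
theorem L92513 : W_34 (nat_lit 15) (nat_lit 0xc0000000200010001000080000000000000000000000000000000) (nat_lit 0x0) (nat_lit 0x10003c001e01ff8073803be000e002e000700038005400000000000000000000000000) := Q_34 (nat_lit 209) (C_34 L92320 (C_34 L92336 (C_34 L92356 (C_34 L92365 (C_34 L92382 (C_34 L92394 (C_34 L92446 (C_34 L92455 (C_34 L92461 (C_34 L92470 (C_34 L92498 (C_34 L92508 (C_34 L92512 N_34))))))))))))) (by decide +kernel)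
theorem L92514 : W_34 (nat_lit 7) (nat_lit 0xe0000000200010001000080000000000000000000000000000000) (nat_lit 0x0) (nat_lit 0xef00310039c00000020000000000004000000000000000000000000000) := Q_34 (nat_lit 212) (C_34 L92460 (C_34 L92335 (C_34 L92350 (C_34 L92454 N_34)))) (by decide +kernel)
theorem L92515 : W_34 (nat_lit 6) (nat_lit 0xe0000000200010001000080000000000000000000000000000000) (nat_lit 0x0) (nat_lit 0x7f00310039c00000000000000000000000000000000000000000000000) := Q_34 (nat_lit 212) (C_34 L92335 (C_34 L92511 (C_34 L92360 N_34))) (by decide +kernel)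
theorem L92516 : W_34 (nat_lit 3) (nat_lit 0x4000f0000800200010001000080000000000000000000000000000000) (nat_lit 0x0) (nat_lit 0x100008000300000000000040000000000000000000000000000000000000000000) := T_34 (nat_lit 225) (nat_lit 224) (nat_lit 1) (nat_lit 7) (nat_lit 12) L92390 (by decide +kernel)
theorem L92517 : W_34 (nat_lit 4) (nat_lit 0x4000f0000000200010001000080000000000000000000000000000000) (nat_lit 0x0) (nat_lit 0x100008000300000000c00040000000000000000000000000000000000000000000) := T_34 (nat_lit 191) (nat_lit 190) (nat_lit 0) (nat_lit 7) (nat_lit 12) L92516 (by decide +kernel)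
theorem L92518 : W_34 (nat_lit 2) (nat_lit 0x6000f0001000200010001000080000000000000000000000000000000) (nat_lit 0x0) (nat_lit 0x80004000000000000000080000000000000000000000000000000000000000000) := D_34 (nat_lit 242) (nat_lit 259) (nat_lit 175) (nat_lit 6) (nat_lit 4) (nat_lit 15) (nat_lit 5) (nat_lit 5) (nat_lit 10) (by decide +kernel)
theorem L92519 : W_34 (nat_lit 3) (nat_lit 0x4000f0001000200010001000080000000000000000000000000000000) (nat_lit 0x0) (nat_lit 0x80004000300000000000080000000000000000000000000000000000000000000) := T_34 (nat_lit 225) (nat_lit 224) (nat_lit 1) (nat_lit 7) (nat_lit 12) L92518 (by decide +kernel)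
theorem L92520 : W_34 (nat_lit 2) (nat_lit 0x1000060006000f0001800200010001000080004000000000000000000000000000) (nat_lit 0x0) (nat_lit 0x3800000000000000000000000000000000000000000000000000000000) := D_34 (nat_lit 228) (nat_lit 229) (nat_lit 227) (nat_lit 3) (nat_lit 4) (nat_lit 12) (nat_lit 1) (nat_lit 7) (nat_lit 13) (by decide +kernel)
theorem L92521 : W_34 (nat_lit 3) (nat_lit 0x1000040006000f0001800200010001000080004000000000000000000000000000) (nat_lit 0x0) (nat_lit 0x40002003800000000000000000000000000000000000000000000000000000000) := T_34 (nat_lit 241) (nat_lit 258) (nat_lit 5) (nat_lit 4) (nat_lit 11) L92520 (by decide +kernel)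
theorem L92522 : W_34 (nat_lit 4) (nat_lit 0x1000040006000f0001800200010001000080000000000000000000000000000000) (nat_lit 0x0) (nat_lit 0x40002003800000000000000020000000000004000000000000000000000000000) := T_34 (nat_lit 110) (nat_lit 161) (nat_lit 5) (nat_lit 8) (nat_lit 6) L92521 (by decide +kernel)
theorem L92523 : W_34 (nat_lit 5) (nat_lit 0x1000000006000f0001800200010001000080000000000000000000000000000000) (nat_lit 0x0) (nat_lit 0xc0006003800000000000000020000000000004000000000000000000000000000) := T_34 (nat_lit 242) (nat_lit 259) (nat_lit 6) (nat_lit 4) (nat_lit 15) L92522 (by decide +kernel)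
theorem L92524 : W_34 (nat_lit 6) (nat_lit 0x6000f0001800200010001000080000000000000000000000000000000) (nat_lit 0x0) (nat_lit 0x1c000e003800000000000000020000000000004000000000000000000000000000) := T_34 (nat_lit 260) (nat_lit 243) (nat_lit 4) (nat_lit 5) (nat_lit 15) L92523 (by decide +kernel)
theorem L92525 : W_34 (nat_lit 7) (nat_lit 0x4000f0001800200010001000080000000000000000000000000000000) (nat_lit 0x0) (nat_lit 0x1c000e003b00000000000000020000000000004000000000000000000000000000) := T_34 (nat_lit 225) (nat_lit 224) (nat_lit 1) (nat_lit 7) (nat_lit 12) L92524 (by decide +kernel)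
theorem L92526 : W_34 (nat_lit 8) (nat_lit 0x4000f0001000200010001000080000000000000000000000000000000) (nat_lit 0x0) (nat_lit 0x1c000e003b00000000c00000020000000000004000000000000000000000000000) := T_34 (nat_lit 191) (nat_lit 190) (nat_lit 0) (nat_lit 7) (nat_lit 12) L92525 (by decide +kernel)
theorem L92527 : W_34 (nat_lit 2) (nat_lit 0x1c0014000f0001800200010001000080004000000000000000000000000000) (nat_lit 0x0) (nat_lit 0x2000800000000000080000000000000000000000000000000000000000000) := D_34 (nat_lit 227) (nat_lit 175) (nat_lit 241) (nat_lit 7) (nat_lit 5) (nat_lit 10) (nat_lit 2) (nat_lit 3) (nat_lit 14) (by decide +kernel)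
theorem L92528 : W_34 (nat_lit 3) (nat_lit 0xc0014000f0001800200010001000080004000000000000000000000000000) (nat_lit 0x0) (nat_lit 0x200012000800000000000080000000000000000000000000000000000000000000) := T_34 (nat_lit 244) (nat_lit 261) (nat_lit 7) (nat_lit 5) (nat_lit 11) L92527 (by decide +kernel)
theorem L92529 : W_34 (nat_lit 4) (nat_lit 0x80014000f0001800200010001000080004000000000000000000000000000) (nat_lit 0x0) (nat_lit 0x280016000800000000000080000000000000000000000000000000000000000000) := T_34 (nat_lit 242) (nat_lit 259) (nat_lit 5) (nat_lit 5) (nat_lit 11) L92528 (by decide +kernel)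
theorem L92530 : W_34 (nat_lit 5) (nat_lit 0x14000f0001800200010001000080004000000000000000000000000000) (nat_lit 0x0) (nat_lit 0x38001e000800000000000080000000000000000000000000000000000000000000) := T_34 (nat_lit 243) (nat_lit 260) (nat_lit 4) (nat_lit 5) (nat_lit 15) L92529 (by decide +kernel)
theorem L92531 : W_34 (nat_lit 6) (nat_lit 0x14000f0001000200010001000080004000000000000000000000000000) (nat_lit 0x0) (nat_lit 0x38001e000800000000c00080000000000000000000000000000000000000000000) := T_34 (nat_lit 191) (nat_lit 190) (nat_lit 0) (nat_lit 7) (nat_lit 12) L92530 (by decide +kernel)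
theorem L92532 : W_34 (nat_lit 7) (nat_lit 0x14000f0001000200010001000080000000000000000000000000000000) (nat_lit 0x0) (nat_lit 0x38001e000800000000c00080020000000000004000000000000000000000000000) := T_34 (nat_lit 110) (nat_lit 161) (nat_lit 5) (nat_lit 8) (nat_lit 6) L92531 (by decide +kernel)
theorem L92533 : W_34 (nat_lit 8) (nat_lit 0x4000f0001000200010001000080000000000000000000000000000000) (nat_lit 0x0) (nat_lit 0x38001e003800000000c00080020000000000004000000000000000000000000000) := T_34 (nat_lit 228) (nat_lit 229) (nat_lit 3) (nat_lit 4) (nat_lit 12) L92532 (by decide +kernel)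
theorem L92534 : W_34 (nat_lit 2) (nat_lit 0x80006000f0001800280010001000080000000000000000000000000000000) (nat_lit 0x0) (nat_lit 0x200010000800000000000000000000000000000000000000000000000000000000) := D_34 (nat_lit 244) (nat_lit 261) (nat_lit 227) (nat_lit 7) (nat_lit 5) (nat_lit 11) (nat_lit 7) (nat_lit 5) (nat_lit 10) (by decide +kernel)
theorem L92535 : W_34 (nat_lit 3) (nat_lit 0x80006000f0001800200010001000080000000000000000000000000000000) (nat_lit 0x0) (nat_lit 0x200010000800000000000080004000000000000000000000000000000000000000) := T_34 (nat_lit 175) (nat_lit 158) (nat_lit 5) (nat_lit 5) (nat_lit 9) L92534 (by decide +kernel)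
theorem L92536 : W_34 (nat_lit 4) (nat_lit 0x6000f0001800200010001000080000000000000000000000000000000) (nat_lit 0x0) (nat_lit 0x300018000800000000000080004000000000000000000000000000000000000000) := T_34 (nat_lit 243) (nat_lit 260) (nat_lit 4) (nat_lit 5) (nat_lit 15) L92535 (by decide +kernel)
theorem L92537 : W_34 (nat_lit 5) (nat_lit 0x4000f0001800200010001000080000000000000000000000000000000) (nat_lit 0x0) (nat_lit 0x300018000b00000000000080004000000000000000000000000000000000000000) := T_34 (nat_lit 225) (nat_lit 224) (nat_lit 1) (nat_lit 7) (nat_lit 12) L92536 (by decide +kernel)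
theorem L92538 : W_34 (nat_lit 6) (nat_lit 0x4000f0001000200010001000080000000000000000000000000000000) (nat_lit 0x0) (nat_lit 0x300018000b00000000c00080004000000000000000000000000000000000000000) := T_34 (nat_lit 191) (nat_lit 190) (nat_lit 0) (nat_lit 7) (nat_lit 12) L92537 (by decide +kernel)
theorem L92539 : W_34 (nat_lit 9) (nat_lit 0x4000f0000000200010001000080000000000000000000000000000000) (nat_lit 0x0) (nat_lit 0x3c001e003b00000001c00080024000000000004000000000000000000000000000) := Q_34 (nat_lit 192) (C_34 L92519 (C_34 L92526 (C_34 L92533 (C_34 L92538 N_34)))) (by decide +kernel)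
theorem L92540 : W_34 (nat_lit 2) (nat_lit 0x14000f00000002c0034001000080000000000000000000000000000000) (nat_lit 0x0) (nat_lit 0x800000001000000002000000000000000000000000000000000000000) := D_34 (nat_lit 192) (nat_lit 157) (nat_lit 227) (nat_lit 4) (nat_lit 5) (nat_lit 13) (nat_lit 7) (nat_lit 5) (nat_lit 9) (by decide +kernel)
theorem L92541 : W_34 (nat_lit 3) (nat_lit 0x14000f00000002c0030001000080000000000000000000000000000000) (nat_lit 0x0) (nat_lit 0x80000000100000000e000000000000000000000000000000000000000) := T_34 (nat_lit 158) (nat_lit 159) (nat_lit 1) (nat_lit 8) (nat_lit 9) L92540 (by decide +kernel)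
theorem L92542 : W_34 (nat_lit 4) (nat_lit 0x14000f0000000280030001000080000000000000000000000000000000) (nat_lit 0x0) (nat_lit 0x80000000100014000e000000000000000000000000000000000000000) := T_34 (nat_lit 174) (nat_lit 176) (nat_lit 2) (nat_lit 4) (nat_lit 10) L92541 (by decide +kernel)
theorem L92543 : W_34 (nat_lit 5) (nat_lit 0x4000f0000000280030001000080000000000000000000000000000000) (nat_lit 0x0) (nat_lit 0x380000000100014000e000000000000000000000000000000000000000) := T_34 (nat_lit 228) (nat_lit 229) (nat_lit 3) (nat_lit 4) (nat_lit 12) L92542 (by decide +kernel)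
theorem L92544 : W_34 (nat_lit 6) (nat_lit 0x4000f0000000280010001000080000000000000000000000000000000) (nat_lit 0x0) (nat_lit 0x380000000100014002e000000000004000000000000000000000000000) := T_34 (nat_lit 161) (nat_lit 110) (nat_lit 5) (nat_lit 8) (nat_lit 6) L92543 (by decide +kernel)
theorem L92545 : W_34 (nat_lit 2) (nat_lit 0x6000f0000000280010001000080000000000000000000000000000000) (nat_lit 0x0) (nat_lit 0x4000000000001000000004000000000000000000000000000000000000000) := D_34 (nat_lit 192) (nat_lit 242) (nat_lit 158) (nat_lit 5) (nat_lit 5) (nat_lit 10) (nat_lit 5) (nat_lit 5) (nat_lit 9) (by decide +kernel)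
theorem L92546 : W_34 (nat_lit 3) (nat_lit 0x4000f0000000280010001000080000000000000000000000000000000) (nat_lit 0x0) (nat_lit 0x4000300000001000000004000000000000000000000000000000000000000) := T_34 (nat_lit 225) (nat_lit 224) (nat_lit 1) (nat_lit 7) (nat_lit 12) L92545 (by decide +kernel)
theorem L92547 : W_34 (nat_lit 2) (nat_lit 0x1c0024001e000f0000000280010001000080004000000000000000000000000000) (nat_lit 0x0) (nat_lit 0x200018000000000000000000000000000000000000000000000000000000000000) := D_34 (nat_lit 244) (nat_lit 261) (nat_lit 243) (nat_lit 2) (nat_lit 3) (nat_lit 15) (nat_lit 1) (nat_lit 7) (nat_lit 14) (by decide +kernel)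
theorem L92548 : W_34 (nat_lit 3) (nat_lit 0x180024001e000f0000000280010001000080004000000000000000000000000000) (nat_lit 0x0) (nat_lit 0x800240018000000000000000000000000000000000000000000000000000000000000) := T_34 (nat_lit 258) (nat_lit 275) (nat_lit 5) (nat_lit 4) (nat_lit 12) L92547 (by decide +kernel)
theorem L92549 : W_34 (nat_lit 4) (nat_lit 0x80024001e000f0000000280010001000080004000000000000000000000000000) (nat_lit 0x0) (nat_lit 0x2800340018000000000000000000000000000000000000000000000000000000000000) := T_34 (nat_lit 260) (nat_lit 277) (nat_lit 7) (nat_lit 4) (nat_lit 12) L92548 (by decide +kernel)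
theorem L92550 : W_34 (nat_lit 5) (nat_lit 0x80004001e000f0000000280010001000080004000000000000000000000000000) (nat_lit 0x0) (nat_lit 0x2800340078000000000000000000000000000000000000000000000000000000000000) := T_34 (nat_lit 245) (nat_lit 246) (nat_lit 3) (nat_lit 4) (nat_lit 13) L92549 (by decide +kernel)
theorem L92551 : W_34 (nat_lit 6) (nat_lit 0x4001e000f0000000280010001000080004000000000000000000000000000) (nat_lit 0x0) (nat_lit 0x38003c0078000000000000000000000000000000000000000000000000000000000000) := T_34 (nat_lit 259) (nat_lit 276) (nat_lit 6) (nat_lit 4) (nat_lit 16) L92550 (by decide +kernel)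
theorem L92552 : W_34 (nat_lit 7) (nat_lit 0x40016000f0000000280010001000080004000000000000000000000000000) (nat_lit 0x0) (nat_lit 0x38003c007a000800000000000000000000000000000000000000000000000000000000) := T_34 (nat_lit 227) (nat_lit 241) (nat_lit 1) (nat_lit 7) (nat_lit 13) L92551 (by decide +kernel)
theorem L92553 : W_34 (nat_lit 8) (nat_lit 0x16000f0000000280010001000080004000000000000000000000000000) (nat_lit 0x0) (nat_lit 0x38003c007e000800000001000000000000000000000000000000000000000000000000) := T_34 (nat_lit 242) (nat_lit 192) (nat_lit 5) (nat_lit 5) (nat_lit 10) L92552 (by decide +kernel)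
theorem L92554 : W_34 (nat_lit 9) (nat_lit 0x14000f0000000280010001000080004000000000000000000000000000) (nat_lit 0x0) (nat_lit 0x38003c007e000b00000001000000000000000000000000000000000000000000000000) := T_34 (nat_lit 225) (nat_lit 224) (nat_lit 1) (nat_lit 7) (nat_lit 12) L92553 (by decide +kernel)
theorem L92555 : W_34 (nat_lit 10) (nat_lit 0x4000f0000000280010001000080004000000000000000000000000000) (nat_lit 0x0) (nat_lit 0x38003c007e003b00000001000000000000000000000000000000000000000000000000) := T_34 (nat_lit 228) (nat_lit 229) (nat_lit 3) (nat_lit 4) (nat_lit 12) L92554 (by decide +kernel)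
theorem L92556 : W_34 (nat_lit 11) (nat_lit 0x4000f0000000280010001000080000000000000000000000000000000) (nat_lit 0x0) (nat_lit 0x38003c007e003b00000001000000020000000000004000000000000000000000000000) := T_34 (nat_lit 110) (nat_lit 161) (nat_lit 5) (nat_lit 8) (nat_lit 6) L92555 (by decide +kernel)
theorem L92557 : W_34 (nat_lit 2) (nat_lit 0x16000f0000000380030001000080000000000000000000000000000000) (nat_lit 0x0) (nat_lit 0xc8000000000000000000000000000000000000000) := D_34 (nat_lit 162) (nat_lit 163) (nat_lit 159) (nat_lit 1) (nat_lit 10) (nat_lit 9) (nat_lit 1) (nat_lit 9) (nat_lit 9) (by decide +kernel)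
theorem L92558 : W_34 (nat_lit 3) (nat_lit 0x16000f0000000280030001000080000000000000000000000000000000) (nat_lit 0x0) (nat_lit 0x1400c8000000000000000000000000000000000000000) := T_34 (nat_lit 176) (nat_lit 174) (nat_lit 2) (nat_lit 4) (nat_lit 10) L92557 (by decide +kernel)
theorem L92559 : W_34 (nat_lit 4) (nat_lit 0x6000f0000000280030001000080000000000000000000000000000000) (nat_lit 0x0) (nat_lit 0x30000000000001400c8000000000000000000000000000000000000000) := T_34 (nat_lit 228) (nat_lit 229) (nat_lit 3) (nat_lit 4) (nat_lit 12) L92558 (by decide +kernel)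
theorem L92560 : W_34 (nat_lit 5) (nat_lit 0x6000f0000000280010001000080000000000000000000000000000000) (nat_lit 0x0) (nat_lit 0x30000000000001400e8000000000004000000000000000000000000000) := T_34 (nat_lit 161) (nat_lit 110) (nat_lit 5) (nat_lit 8) (nat_lit 6) L92559 (by decide +kernel)
theorem L92561 : W_34 (nat_lit 6) (nat_lit 0x4000f0000000280010001000080000000000000000000000000000000) (nat_lit 0x0) (nat_lit 0x33000000000001400e8000000000004000000000000000000000000000) := T_34 (nat_lit 225) (nat_lit 224) (nat_lit 1) (nat_lit 7) (nat_lit 12) L92560 (by decide +kernel)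
theorem L92562 : W_34 (nat_lit 12) (nat_lit 0x4000f0000000200010001000080000000000000000000000000000000) (nat_lit 0x0) (nat_lit 0x38003c007e003b000000010001c00ee000000000004000000000000000000000000000) := Q_34 (nat_lit 175) (C_34 L92544 (C_34 L92546 (C_34 L92556 (C_34 L92561 N_34)))) (by decide +kernel)
theorem L92563 : W_34 (nat_lit 2) (nat_lit 0x14000f0000800240010001000080004000000000000000000000000000) (nat_lit 0x0) (nat_lit 0x100008000000000001000000000000000000000000000000000000000000000000) := D_34 (nat_lit 243) (nat_lit 260) (nat_lit 192) (nat_lit 4) (nat_lit 5) (nat_lit 15) (nat_lit 4) (nat_lit 5) (nat_lit 14) (by decide +kernel)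
theorem L92564 : W_34 (nat_lit 3) (nat_lit 0x14000f0000800200010001000080004000000000000000000000000000) (nat_lit 0x0) (nat_lit 0x100008000000000001000040002000000000000000000000000000000000000000) := T_34 (nat_lit 174) (nat_lit 157) (nat_lit 7) (nat_lit 4) (nat_lit 9) L92563 (by decide +kernel)
theorem L92565 : W_34 (nat_lit 4) (nat_lit 0x14000f0000800200010001000080000000000000000000000000000000) (nat_lit 0x0) (nat_lit 0x100008000000000001000040022000000000004000000000000000000000000000) := T_34 (nat_lit 110) (nat_lit 161) (nat_lit 5) (nat_lit 8) (nat_lit 6) L92564 (by decide +kernel)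
theorem L92566 : W_34 (nat_lit 5) (nat_lit 0x14000f0000000200010001000080000000000000000000000000000000) (nat_lit 0x0) (nat_lit 0x100008000000000001c00040022000000000004000000000000000000000000000) := T_34 (nat_lit 191) (nat_lit 190) (nat_lit 0) (nat_lit 7) (nat_lit 12) L92565 (by decide +kernel)
theorem L92567 : W_34 (nat_lit 6) (nat_lit 0x4000f0000000200010001000080000000000000000000000000000000) (nat_lit 0x0) (nat_lit 0x100008003000000001c00040022000000000004000000000000000000000000000) := T_34 (nat_lit 228) (nat_lit 229) (nat_lit 3) (nat_lit 4) (nat_lit 12) L92566 (by decide +kernel)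
theorem L92568 : W_34 (nat_lit 2) (nat_lit 0x16000f00008002e0010001000080000000000000000000000000000000) (nat_lit 0x0) (nat_lit 0x100020000000000004000000000000000000000000000) := D_34 (nat_lit 161) (nat_lit 110) (nat_lit 176) (nat_lit 5) (nat_lit 8) (nat_lit 6) (nat_lit 2) (nat_lit 4) (nat_lit 10) (by decide +kernel)
theorem L92569 : W_34 (nat_lit 3) (nat_lit 0x16000f0000800260010001000080000000000000000000000000000000) (nat_lit 0x0) (nat_lit 0x180024000000000004000000000000000000000000000) := T_34 (nat_lit 175) (nat_lit 158) (nat_lit 6) (nat_lit 4) (nat_lit 13) L92568 (by decide +kernel)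
theorem L92570 : W_34 (nat_lit 4) (nat_lit 0x16000f0000800240010001000080000000000000000000000000000000) (nat_lit 0x0) (nat_lit 0x1a0025000000000004000000000000000000000000000) := T_34 (nat_lit 173) (nat_lit 156) (nat_lit 4) (nat_lit 4) (nat_lit 13) L92569 (by decide +kernel)
theorem L92571 : W_34 (nat_lit 5) (nat_lit 0x6000f0000800240010001000080000000000000000000000000000000) (nat_lit 0x0) (nat_lit 0x30000000000001a0025000000000004000000000000000000000000000) := T_34 (nat_lit 228) (nat_lit 229) (nat_lit 3) (nat_lit 4) (nat_lit 12) L92570 (by decide +kernel)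
theorem L92572 : W_34 (nat_lit 6) (nat_lit 0x6000f0000800200010001000080000000000000000000000000000000) (nat_lit 0x0) (nat_lit 0x30000000000001e0027000000000004000000000000000000000000000) := T_34 (nat_lit 174) (nat_lit 157) (nat_lit 7) (nat_lit 4) (nat_lit 9) L92571 (by decide +kernel)
theorem L92573 : W_34 (nat_lit 7) (nat_lit 0x4000f0000800200010001000080000000000000000000000000000000) (nat_lit 0x0) (nat_lit 0x33000000000001e0027000000000004000000000000000000000000000) := T_34 (nat_lit 225) (nat_lit 224) (nat_lit 1) (nat_lit 7) (nat_lit 12) L92572 (by decide +kernel)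
theorem L92574 : W_34 (nat_lit 8) (nat_lit 0x4000f0000000200010001000080000000000000000000000000000000) (nat_lit 0x0) (nat_lit 0x3300000000c001e0027000000000004000000000000000000000000000) := T_34 (nat_lit 191) (nat_lit 190) (nat_lit 0) (nat_lit 7) (nat_lit 12) L92573 (by decide +kernel)
theorem L92575 : W_34 (nat_lit 13) (nat_lit 0xf0000000200010001000080000000000000000000000000000000) (nat_lit 0x0) (nat_lit 0x38003c007e003f00000001c001e00ef000000000004000000000000000000000000000) := Q_34 (nat_lit 226) (C_34 L92517 (C_34 L92539 (C_34 L92562 (C_34 L92567 (C_34 L92574 N_34))))) (by decide +kernel)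
theorem L92576 : W_34 (nat_lit 14) (nat_lit 0xe0000000200010001000080000000000000000000000000000000) (nat_lit 0x0) (nat_lit 0x38003c007e003f80018001e001e00ef000000000004000000000000000000000000000) := Q_34 (nat_lit 208) (C_34 L92398 (C_34 L92377 (C_34 L92369 (C_34 L92381 (C_34 L92575 N_34))))) (by decide +kernel)
theorem L92577 : W_34 (nat_lit 7) (nat_lit 0xe0000000200010001000080000000000000000000000000000000) (nat_lit 0x0) (nat_lit 0xf700310039c00000020000000000004000000000000000000000000000) := Q_34 (nat_lit 212) (C_34 L92460 (C_34 L92511 (C_34 L92454 N_34))) (by decide +kernel)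
theorem L92578 : W_34 (nat_lit 2) (nat_lit 0x84003e0021000200010001000080004000000000000000000000000000) (nat_lit 0x0) (nat_lit 0x10000400040000000000000000000000000000000000000000000000000) := D_34 (nat_lit 214) (nat_lit 198) (nat_lit 232) (nat_lit 2) (nat_lit 7) (nat_lit 12) (nat_lit 3) (nat_lit 7) (nat_lit 12) (by decide +kernel)
theorem L92579 : W_34 (nat_lit 3) (nat_lit 0x4003e0021000200010001000080004000000000000000000000000000) (nat_lit 0x0) (nat_lit 0x1c000400040000000000000000000000000000000000000000000000000) := T_34 (nat_lit 231) (nat_lit 230) (nat_lit 3) (nat_lit 6) (nat_lit 12) L92578 (by decide +kernel)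
theorem L92580 : W_34 (nat_lit 4) (nat_lit 0x4003e0001000200010001000080004000000000000000000000000000) (nat_lit 0x0) (nat_lit 0x1c000400070000000000000000000000000000000000000000000000000) := T_34 (nat_lit 197) (nat_lit 196) (nat_lit 2) (nat_lit 6) (nat_lit 12) L92579 (by decide +kernel)
theorem L92581 : W_34 (nat_lit 5) (nat_lit 0x4001e0001000200010001000080004000000000000000000000000000) (nat_lit 0x0) (nat_lit 0x1c800600070000000000000000000000000000000000000000000000000) := T_34 (nat_lit 213) (nat_lit 227) (nat_lit 1) (nat_lit 9) (nat_lit 12) L92580 (by decide +kernel)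
theorem L92582 : W_34 (nat_lit 6) (nat_lit 0x4001e0000000200010001000080004000000000000000000000000000) (nat_lit 0x0) (nat_lit 0x1c800600071800000000000000000000000000000000000000000000000) := T_34 (nat_lit 192) (nat_lit 191) (nat_lit 0) (nat_lit 8) (nat_lit 12) L92581 (by decide +kernel)
theorem L92583 : W_34 (nat_lit 7) (nat_lit 0x1e0000000200010001000080004000000000000000000000000000) (nat_lit 0x0) (nat_lit 0x1ce00600071800000000000000000000000000000000000000000000000) := T_34 (nat_lit 226) (nat_lit 225) (nat_lit 1) (nat_lit 8) (nat_lit 12) L92582 (by decide +kernel)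
theorem L92584 : W_34 (nat_lit 8) (nat_lit 0x1e0000000200010001000080000000000000000000000000000000) (nat_lit 0x0) (nat_lit 0x1ce00600071800000020000000000004000000000000000000000000000) := T_34 (nat_lit 110) (nat_lit 161) (nat_lit 5) (nat_lit 8) (nat_lit 6) L92583 (by decide +kernel)
theorem L92585 : W_34 (nat_lit 2) (nat_lit 0xc001e0001000200010001000080004000000000000000000000000000) (nat_lit 0x0) (nat_lit 0x200010000000000000000080000000000000000000000000000000000000000000) := D_34 (nat_lit 244) (nat_lit 261) (nat_lit 175) (nat_lit 4) (nat_lit 6) (nat_lit 15) (nat_lit 7) (nat_lit 5) (nat_lit 10) (by decide +kernel)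
theorem L92586 : W_34 (nat_lit 3) (nat_lit 0xc001e0000000200010001000080004000000000000000000000000000) (nat_lit 0x0) (nat_lit 0x200010000000000001800080000000000000000000000000000000000000000000) := T_34 (nat_lit 192) (nat_lit 191) (nat_lit 0) (nat_lit 8) (nat_lit 12) L92585 (by decide +kernel)
theorem L92587 : W_34 (nat_lit 4) (nat_lit 0x4001e0000000200010001000080004000000000000000000000000000) (nat_lit 0x0) (nat_lit 0x200010000800200001800080000000000000000000000000000000000000000000) := T_34 (nat_lit 227) (nat_lit 213) (nat_lit 1) (nat_lit 9) (nat_lit 12) L92586 (by decide +kernel)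
theorem L92588 : W_34 (nat_lit 5) (nat_lit 0x4001e0000000200010001000080000000000000000000000000000000) (nat_lit 0x0) (nat_lit 0x200010000800200001800080020000000000004000000000000000000000000000) := T_34 (nat_lit 110) (nat_lit 161) (nat_lit 5) (nat_lit 8) (nat_lit 6) L92587 (by decide +kernel)
theorem L92589 : W_34 (nat_lit 6) (nat_lit 0x1e0000000200010001000080000000000000000000000000000000) (nat_lit 0x0) (nat_lit 0x200010000e00200001800080020000000000004000000000000000000000000000) := T_34 (nat_lit 226) (nat_lit 225) (nat_lit 1) (nat_lit 8) (nat_lit 12) L92588 (by decide +kernel)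
theorem L92590 : W_34 (nat_lit 2) (nat_lit 0x40003e00110022000f0009000080000000000000000000000000000000) (nat_lit 0x0) (nat_lit 0x4000100010000000000000000000000000000000000000) := D_34 (nat_lit 164) (nat_lit 148) (nat_lit 182) (nat_lit 2) (nat_lit 8) (nat_lit 9) (nat_lit 3) (nat_lit 8) (nat_lit 9) (by decide +kernel)
theorem L92591 : W_34 (nat_lit 3) (nat_lit 0x40003e00110002000f0009000080000000000000000000000000000000) (nat_lit 0x0) (nat_lit 0x7000100010000000000000000000000000000000000000) := T_34 (nat_lit 181) (nat_lit 180) (nat_lit 3) (nat_lit 7) (nat_lit 9) L92590 (by decide +kernel)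
theorem L92592 : W_34 (nat_lit 4) (nat_lit 0x40003e00110002000f0001000080000000000000000000000000000000) (nat_lit 0x0) (nat_lit 0x700010001c000000000000000000000000000000000000) := T_34 (nat_lit 147) (nat_lit 146) (nat_lit 2) (nat_lit 7) (nat_lit 9) L92591 (by decide +kernel)
theorem L92593 : W_34 (nat_lit 5) (nat_lit 0x40003e0011000200070001000080000000000000000000000000000000) (nat_lit 0x0) (nat_lit 0x710018001c000000000000000000000000000000000000) := T_34 (nat_lit 163) (nat_lit 176) (nat_lit 1) (nat_lit 10) (nat_lit 9) L92592 (by decide +kernel)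
theorem L92594 : W_34 (nat_lit 6) (nat_lit 0x40003e0011000200030001000080000000000000000000000000000000) (nat_lit 0x0) (nat_lit 0x79001c001c000000000000000000000000000000000000) := T_34 (nat_lit 162) (nat_lit 179) (nat_lit 4) (nat_lit 9) (nat_lit 12) L92593 (by decide +kernel)
theorem L92595 : W_34 (nat_lit 7) (nat_lit 0x3e0011000200030001000080000000000000000000000000000000) (nat_lit 0x0) (nat_lit 0xc0000000000079001c001c000000000000000000000000000000000000) := T_34 (nat_lit 230) (nat_lit 231) (nat_lit 3) (nat_lit 6) (nat_lit 12) L92594 (by decide +kernel)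
theorem L92596 : W_34 (nat_lit 8) (nat_lit 0x1e0011000200030001000080000000000000000000000000000000) (nat_lit 0x0) (nat_lit 0xc0002000200079001c001c000000000000000000000000000000000000) := T_34 (nat_lit 213) (nat_lit 197) (nat_lit 2) (nat_lit 6) (nat_lit 12) L92595 (by decide +kernel)
theorem L92597 : W_34 (nat_lit 9) (nat_lit 0x1e0001000200030001000080000000000000000000000000000000) (nat_lit 0x0) (nat_lit 0xc0002000380079001c001c000000000000000000000000000000000000) := T_34 (nat_lit 196) (nat_lit 195) (nat_lit 2) (nat_lit 5) (nat_lit 12) L92596 (by decide +kernel)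
theorem L92598 : W_34 (nat_lit 10) (nat_lit 0x1e0001000200010001000080000000000000000000000000000000) (nat_lit 0x0) (nat_lit 0xc0002000380079001e001c000000004000000000000000000000000000) := T_34 (nat_lit 161) (nat_lit 110) (nat_lit 5) (nat_lit 8) (nat_lit 6) L92597 (by decide +kernel)
theorem L92599 : W_34 (nat_lit 11) (nat_lit 0x1e0000000200010001000080000000000000000000000000000000) (nat_lit 0x0) (nat_lit 0xc0002000398079001e001c000000004000000000000000000000000000) := T_34 (nat_lit 192) (nat_lit 191) (nat_lit 0) (nat_lit 8) (nat_lit 12) L92598 (by decide +kernel)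
theorem L92600 : W_34 (nat_lit 12) (nat_lit 0xe0000000200010001000080000000000000000000000000000000) (nat_lit 0x0) (nat_lit 0x20001001cf00710079c079801e001c000000004000000000000000000000000000) := Q_34 (nat_lit 212) (C_34 L92460 (C_34 L92335 (C_34 L92584 (C_34 L92450 (C_34 L92589 (C_34 L92599 N_34)))))) (by decide +kernel)
theorem L92601 : W_34 (nat_lit 2) (nat_lit 0x24001e0000000380030001000080000000000000000000000000000000) (nat_lit 0x0) (nat_lit 0xc8000000000000000000000000000000000000000) := D_34 (nat_lit 162) (nat_lit 163) (nat_lit 159) (nat_lit 1) (nat_lit 10) (nat_lit 9) (nat_lit 1) (nat_lit 9) (nat_lit 9) (by decide +kernel)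
theorem L92602 : W_34 (nat_lit 3) (nat_lit 0x24001e0000000280030001000080000000000000000000000000000000) (nat_lit 0x0) (nat_lit 0x1400c8000000000000000000000000000000000000000) := T_34 (nat_lit 176) (nat_lit 174) (nat_lit 2) (nat_lit 4) (nat_lit 10) L92601 (by decide +kernel)
theorem L92603 : W_34 (nat_lit 4) (nat_lit 0x20001e0000000280030001000080000000000000000000000000000000) (nat_lit 0x0) (nat_lit 0x6000000000001400c8000000000000000000000000000000000000000) := T_34 (nat_lit 226) (nat_lit 225) (nat_lit 1) (nat_lit 8) (nat_lit 12) L92602 (by decide +kernel)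
theorem L92604 : W_34 (nat_lit 5) (nat_lit 0x20001e0000000280010001000080000000000000000000000000000000) (nat_lit 0x0) (nat_lit 0x6000000000001400e8000000000004000000000000000000000000000) := T_34 (nat_lit 161) (nat_lit 110) (nat_lit 5) (nat_lit 8) (nat_lit 6) L92603 (by decide +kernel)
theorem L92605 : W_34 (nat_lit 6) (nat_lit 0x1e0000000280010001000080000000000000000000000000000000) (nat_lit 0x0) (nat_lit 0x66000000000001400e8000000000004000000000000000000000000000) := T_34 (nat_lit 229) (nat_lit 230) (nat_lit 3) (nat_lit 5) (nat_lit 12) L92604 (by decide +kernel)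
theorem L92606 : W_34 (nat_lit 2) (nat_lit 0x24001e0009000280010001000080000000000000000000000000000000) (nat_lit 0x0) (nat_lit 0x10000800000000000000004000000000000000000000000000000000000000) := D_34 (nat_lit 227) (nat_lit 158) (nat_lit 244) (nat_lit 7) (nat_lit 5) (nat_lit 9) (nat_lit 7) (nat_lit 5) (nat_lit 10) (by decide +kernel)
theorem L92607 : W_34 (nat_lit 3) (nat_lit 0x20001e0009000280010001000080000000000000000000000000000000) (nat_lit 0x0) (nat_lit 0x10000e00000000000000004000000000000000000000000000000000000000) := T_34 (nat_lit 226) (nat_lit 225) (nat_lit 1) (nat_lit 8) (nat_lit 12) L92606 (by decide +kernel)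
theorem L92608 : W_34 (nat_lit 4) (nat_lit 0x20001e0008000280010001000080000000000000000000000000000000) (nat_lit 0x0) (nat_lit 0x10000e00000001800000004000000000000000000000000000000000000000) := T_34 (nat_lit 192) (nat_lit 191) (nat_lit 0) (nat_lit 8) (nat_lit 12) L92607 (by decide +kernel)
theorem L92609 : W_34 (nat_lit 5) (nat_lit 0x1e0008000280010001000080000000000000000000000000000000) (nat_lit 0x0) (nat_lit 0x10006e00000001800000004000000000000000000000000000000000000000) := T_34 (nat_lit 229) (nat_lit 230) (nat_lit 3) (nat_lit 5) (nat_lit 12) L92608 (by decide +kernel)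
theorem L92610 : W_34 (nat_lit 6) (nat_lit 0x1e0000000280010001000080000000000000000000000000000000) (nat_lit 0x0) (nat_lit 0x10006e00000019800000004000000000000000000000000000000000000000) := T_34 (nat_lit 195) (nat_lit 196) (nat_lit 2) (nat_lit 5) (nat_lit 12) L92609 (by decide +kernel)
theorem L92611 : W_34 (nat_lit 4) (nat_lit 0x1e0000000280010001000080000000000000000000000000000000) (nat_lit 0x0) (nat_lit 0x10000e00000001800000004000000000000000000000000000000000000000) := T_34 (nat_lit 192) (nat_lit 191) (nat_lit 0) (nat_lit 8) (nat_lit 12) L92472 (by decide +kernel)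
theorem L92612 : W_34 (nat_lit 2) (nat_lit 0x1e000900028001f001000080004000000000000000000000000000) (nat_lit 0x0) (nat_lit 0x70000000000000000000000000000000000000000000) := D_34 (nat_lit 173) (nat_lit 172) (nat_lit 174) (nat_lit 1) (nat_lit 6) (nat_lit 9) (nat_lit 1) (nat_lit 7) (nat_lit 9) (by decide +kernel)
theorem L92613 : W_34 (nat_lit 3) (nat_lit 0x1e000900028001e001000080004000000000000000000000000000) (nat_lit 0x0) (nat_lit 0x170001000000000000000000000000000000000000000) := T_34 (nat_lit 156) (nat_lit 176) (nat_lit 3) (nat_lit 3) (nat_lit 9) L92612 (by decide +kernel)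
theorem L92614 : W_34 (nat_lit 4) (nat_lit 0x1e000900028001c001000080004000000000000000000000000000) (nat_lit 0x0) (nat_lit 0x170003000100000000000000000000000000000000000) := T_34 (nat_lit 157) (nat_lit 140) (nat_lit 4) (nat_lit 5) (nat_lit 12) L92613 (by decide +kernel)
theorem L92615 : W_34 (nat_lit 5) (nat_lit 0x1e0009000280014001000080004000000000000000000000000000) (nat_lit 0x0) (nat_lit 0x17000b000500000000000000000000000000000000000) := T_34 (nat_lit 159) (nat_lit 142) (nat_lit 6) (nat_lit 5) (nat_lit 12) L92614 (by decide +kernel)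
theorem L92616 : W_34 (nat_lit 6) (nat_lit 0x1e0009000280010001000080004000000000000000000000000000) (nat_lit 0x0) (nat_lit 0x80000000000017000f000500000000000000000000000000000000000) := T_34 (nat_lit 158) (nat_lit 227) (nat_lit 7) (nat_lit 5) (nat_lit 9) L92615 (by decide +kernel)
theorem L92617 : W_34 (nat_lit 7) (nat_lit 0x1e0009000280010001000080000000000000000000000000000000) (nat_lit 0x0) (nat_lit 0x80000000000017002f000500000004000000000000000000000000000) := T_34 (nat_lit 110) (nat_lit 161) (nat_lit 5) (nat_lit 8) (nat_lit 6) L92616 (by decide +kernel)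
theorem L92618 : W_34 (nat_lit 8) (nat_lit 0x1e0008000280010001000080000000000000000000000000000000) (nat_lit 0x0) (nat_lit 0x80000000180017002f000500000004000000000000000000000000000) := T_34 (nat_lit 192) (nat_lit 191) (nat_lit 0) (nat_lit 8) (nat_lit 12) L92617 (by decide +kernel)
theorem L92619 : W_34 (nat_lit 9) (nat_lit 0x1e0000000280010001000080000000000000000000000000000000) (nat_lit 0x0) (nat_lit 0x80000001980017002f000500000004000000000000000000000000000) := T_34 (nat_lit 195) (nat_lit 196) (nat_lit 2) (nat_lit 5) (nat_lit 12) L92618 (by decide +kernel)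
theorem L92620 : W_34 (nat_lit 10) (nat_lit 0x1e0000000200010001000080000000000000000000000000000000) (nat_lit 0x0) (nat_lit 0x10006e000000198001f00ef000500000004000000000000000000000000000) := Q_34 (nat_lit 175) (C_34 L92605 (C_34 L92610 (C_34 L92611 (C_34 L92619 N_34)))) (by decide +kernel)
theorem L92621 : W_34 (nat_lit 12) (nat_lit 0xe0000000200010001000080000000000000000000000000000000) (nat_lit 0x0) (nat_lit 0x20001000ee003000398079f01ef01c500000004000000000000000000000000000) := Q_34 (nat_lit 212) (C_34 L92599 (C_34 L92335 (C_34 L92589 (C_34 L92454 (C_34 L92620 N_34))))) (by decide +kernel)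
theorem L92622 : W_34 (nat_lit 2) (nat_lit 0x18003e0011000200010001000080004000000000000000000000000000) (nat_lit 0x0) (nat_lit 0x2000018000000000000000000000000000000000000000000000000000) := D_34 (nat_lit 208) (nat_lit 207) (nat_lit 229) (nat_lit 3) (nat_lit 3) (nat_lit 12) (nat_lit 3) (nat_lit 4) (nat_lit 12) (by decide +kernel)
theorem L92623 : W_34 (nat_lit 3) (nat_lit 0x8003e0011000200010001000080004000000000000000000000000000) (nat_lit 0x0) (nat_lit 0x3000418000000000000000000000000000000000000000000000000000) := T_34 (nat_lit 228) (nat_lit 214) (nat_lit 1) (nat_lit 10) (nat_lit 12) L92622 (by decide +kernel)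
theorem L92624 : W_34 (nat_lit 4) (nat_lit 0x3e0011000200010001000080004000000000000000000000000000) (nat_lit 0x0) (nat_lit 0x3c00418000000000000000000000000000000000000000000000000000) := T_34 (nat_lit 227) (nat_lit 226) (nat_lit 1) (nat_lit 9) (nat_lit 12) L92623 (by decide +kernel)
theorem L92625 : W_34 (nat_lit 5) (nat_lit 0x1e0011000200010001000080004000000000000000000000000000) (nat_lit 0x0) (nat_lit 0x3c00618020000000000000000000000000000000000000000000000000) := T_34 (nat_lit 213) (nat_lit 197) (nat_lit 2) (nat_lit 6) (nat_lit 12) L92624 (by decide +kernel)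
theorem L92626 : W_34 (nat_lit 6) (nat_lit 0x1e0011000200010001000080000000000000000000000000000000) (nat_lit 0x0) (nat_lit 0x3c00618020000000020000000000004000000000000000000000000000) := T_34 (nat_lit 110) (nat_lit 161) (nat_lit 5) (nat_lit 8) (nat_lit 6) L92625 (by decide +kernel)
theorem L92627 : W_34 (nat_lit 7) (nat_lit 0x1e0001000200010001000080000000000000000000000000000000) (nat_lit 0x0) (nat_lit 0x3c00618038000000020000000000004000000000000000000000000000) := T_34 (nat_lit 196) (nat_lit 195) (nat_lit 2) (nat_lit 5) (nat_lit 12) L92626 (by decide +kernel)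
theorem L92628 : W_34 (nat_lit 8) (nat_lit 0x1e0000000200010001000080000000000000000000000000000000) (nat_lit 0x0) (nat_lit 0x3c00618039800000020000000000004000000000000000000000000000) := T_34 (nat_lit 192) (nat_lit 191) (nat_lit 0) (nat_lit 8) (nat_lit 12) L92627 (by decide +kernel)
theorem L92629 : W_34 (nat_lit 12) (nat_lit 0xe0000000200010001000080000000000000000000000000000000) (nat_lit 0x0) (nat_lit 0xfc00718039c079001e001c000000004000000000000000000000000000) := Q_34 (nat_lit 212) (C_34 L92599 (C_34 L92511 (C_34 L92454 (C_34 L92628 N_34)))) (by decide +kernel)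
theorem L92630 : W_34 (nat_lit 15) (nat_lit 0xc0000000200010001000080000000000000000000000000000000) (nat_lit 0x0) (nat_lit 0x38003c007e01ff80738079e079f01ef01c500000004000000000000000000000000000) := Q_34 (nat_lit 209) (C_34 L92508 (C_34 L92514 (C_34 L92515 (C_34 L92382 (C_34 L92455 (C_34 L92576 (C_34 L92577 (C_34 L92600 (C_34 L92621 (C_34 L92629 N_34)))))))))) (by decide +kernel)
theorem L92631 : W_34 (nat_lit 3) (nat_lit 0x3c0010000200010001000080004000000000000000000000000000) (nat_lit 0x0) (nat_lit 0xe000020008000000000000000000000000000000000000000000000000) := T_34 (nat_lit 209) (nat_lit 195) (nat_lit 2) (nat_lit 5) (nat_lit 12) L92451 (by decide +kernel)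
theorem L92632 : W_34 (nat_lit 4) (nat_lit 0x3c0000000200010001000080004000000000000000000000000000) (nat_lit 0x0) (nat_lit 0xe000020038000000000000000000000000000000000000000000000000) := T_34 (nat_lit 196) (nat_lit 197) (nat_lit 2) (nat_lit 6) (nat_lit 12) L92631 (by decide +kernel)
theorem L92633 : W_34 (nat_lit 5) (nat_lit 0x3c0000000200010001000080000000000000000000000000000000) (nat_lit 0x0) (nat_lit 0xe000020038000000020000000000004000000000000000000000000000) := T_34 (nat_lit 110) (nat_lit 161) (nat_lit 5) (nat_lit 8) (nat_lit 6) L92632 (by decide +kernel)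
theorem L92634 : W_34 (nat_lit 5) (nat_lit 0x3c0000000200010001000080000000000000000000000000000000) (nat_lit 0x0) (nat_lit 0xec00020038000000000000000000000000000000000000000000000000) := T_34 (nat_lit 227) (nat_lit 226) (nat_lit 1) (nat_lit 9) (nat_lit 12) L91414 (by decide +kernel)
theorem L92635 : W_34 (nat_lit 2) (nat_lit 0x68003c0012000200010001000080004000000000000000000000000000) (nat_lit 0x0) (nat_lit 0x40000000000000000800040000000000000000000000000000000000000000) := D_34 (nat_lit 179) (nat_lit 162) (nat_lit 246) (nat_lit 5) (nat_lit 9) (nat_lit 9) (nat_lit 5) (nat_lit 9) (nat_lit 10) (by decide +kernel)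
theorem L92636 : W_34 (nat_lit 3) (nat_lit 0x48003c0012000200010001000080004000000000000000000000000000) (nat_lit 0x0) (nat_lit 0x40002000020000000800040000000000000000000000000000000000000000) := T_34 (nat_lit 229) (nat_lit 209) (nat_lit 3) (nat_lit 5) (nat_lit 12) L92635 (by decide +kernel)
theorem L92637 : W_34 (nat_lit 4) (nat_lit 0x8003c0012000200010001000080004000000000000000000000000000) (nat_lit 0x0) (nat_lit 0x4000e000020000000800040000000000000000000000000000000000000000) := T_34 (nat_lit 230) (nat_lit 231) (nat_lit 3) (nat_lit 6) (nat_lit 12) L92636 (by decide +kernel)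
theorem L92638 : W_34 (nat_lit 5) (nat_lit 0x8003c0002000200010001000080004000000000000000000000000000) (nat_lit 0x0) (nat_lit 0x4000e000020030000800040000000000000000000000000000000000000000) := T_34 (nat_lit 196) (nat_lit 197) (nat_lit 2) (nat_lit 6) (nat_lit 12) L92637 (by decide +kernel)
theorem L92639 : W_34 (nat_lit 6) (nat_lit 0x3c0002000200010001000080004000000000000000000000000000) (nat_lit 0x0) (nat_lit 0x4000ec00020030000800040000000000000000000000000000000000000000) := T_34 (nat_lit 227) (nat_lit 226) (nat_lit 1) (nat_lit 9) (nat_lit 12) L92638 (by decide +kernel)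
theorem L92640 : W_34 (nat_lit 7) (nat_lit 0x3c0002000200010001000080000000000000000000000000000000) (nat_lit 0x0) (nat_lit 0x4000ec00020030000800060000000000004000000000000000000000000000) := T_34 (nat_lit 110) (nat_lit 161) (nat_lit 5) (nat_lit 8) (nat_lit 6) L92639 (by decide +kernel)
theorem L92641 : W_34 (nat_lit 8) (nat_lit 0x3c0000000200010001000080000000000000000000000000000000) (nat_lit 0x0) (nat_lit 0x4000ec00020033000800060000000000004000000000000000000000000000) := T_34 (nat_lit 193) (nat_lit 192) (nat_lit 0) (nat_lit 9) (nat_lit 12) L92640 (by decide +kernel)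
theorem L92642 : W_34 (nat_lit 2) (nat_lit 0x10000c00048003c0012001a00030001000080000000000000000000000000000000) (nat_lit 0x0) (nat_lit 0x40002000100000000000000000000000000000000000000000000000000000000000000) := D_34 (nat_lit 265) (nat_lit 248) (nat_lit 282) (nat_lit 7) (nat_lit 9) (nat_lit 11) (nat_lit 7) (nat_lit 9) (nat_lit 12) (by decide +kernel)
theorem L92643 : W_34 (nat_lit 3) (nat_lit 0xc00048003c0012001a00030001000080000000000000000000000000000000) (nat_lit 0x0) (nat_lit 0x40003000100000000000008000000000000000000000000000000000000000000000000) := T_34 (nat_lit 264) (nat_lit 195) (nat_lit 4) (nat_lit 9) (nat_lit 15) L92642 (by decide +kernel)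
theorem L92644 : W_34 (nat_lit 4) (nat_lit 0x400048003c0012001a00030001000080000000000000000000000000000000) (nat_lit 0x0) (nat_lit 0x40003800180000000000008000000000000000000000000000000000000000000000000) := T_34 (nat_lit 247) (nat_lit 263) (nat_lit 5) (nat_lit 9) (nat_lit 11) L92643 (by decide +kernel)
theorem L92645 : W_34 (nat_lit 5) (nat_lit 0x48003c0012001a00030001000080000000000000000000000000000000) (nat_lit 0x0) (nat_lit 0x400038001c0002000000008000000000000000000000000000000000000000000000000) := T_34 (nat_lit 246) (nat_lit 229) (nat_lit 5) (nat_lit 9) (nat_lit 10) L92644 (by decide +kernel)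
theorem L92646 : W_34 (nat_lit 6) (nat_lit 0x48003c0012000a00030001000080000000000000000000000000000000) (nat_lit 0x0) (nat_lit 0x400038001c0002000000008001000080000000000000000000000000000000000000000) := T_34 (nat_lit 180) (nat_lit 163) (nat_lit 6) (nat_lit 9) (nat_lit 13) L92645 (by decide +kernel)
theorem L92647 : W_34 (nat_lit 7) (nat_lit 0x48003c0012000200030001000080000000000000000000000000000000) (nat_lit 0x0) (nat_lit 0x400038001c00020000000080018000c0000000000000000000000000000000000000000) := T_34 (nat_lit 179) (nat_lit 162) (nat_lit 4) (nat_lit 9) (nat_lit 12) L92646 (by decide +kernel)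
theorem L92648 : W_34 (nat_lit 8) (nat_lit 0x48003c0002000200030001000080000000000000000000000000000000) (nat_lit 0x0) (nat_lit 0x400038001c00020000000380018000c0000000000000000000000000000000000000000) := T_34 (nat_lit 196) (nat_lit 197) (nat_lit 2) (nat_lit 6) (nat_lit 12) L92647 (by decide +kernel)
theorem L92649 : W_34 (nat_lit 9) (nat_lit 0x40003c0002000200030001000080000000000000000000000000000000) (nat_lit 0x0) (nat_lit 0x400038001c0002c000000380018000c0000000000000000000000000000000000000000) := T_34 (nat_lit 227) (nat_lit 226) (nat_lit 1) (nat_lit 9) (nat_lit 12) L92648 (by decide +kernel)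
theorem L92650 : W_34 (nat_lit 10) (nat_lit 0x40003c0002000200010001000080000000000000000000000000000000) (nat_lit 0x0) (nat_lit 0x400038001c0002c000000380018000e0000000000004000000000000000000000000000) := T_34 (nat_lit 161) (nat_lit 110) (nat_lit 5) (nat_lit 8) (nat_lit 6) L92649 (by decide +kernel)
theorem L92651 : W_34 (nat_lit 11) (nat_lit 0x40003c0000000200010001000080000000000000000000000000000000) (nat_lit 0x0) (nat_lit 0x400038001c0002c0000003b0018000e0000000000004000000000000000000000000000) := T_34 (nat_lit 193) (nat_lit 192) (nat_lit 0) (nat_lit 9) (nat_lit 12) L92650 (by decide +kernel)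
theorem L92652 : W_34 (nat_lit 12) (nat_lit 0x3c0000000200010001000080000000000000000000000000000000) (nat_lit 0x0) (nat_lit 0x400038001c000ec0000003b0018000e0000000000004000000000000000000000000000) := T_34 (nat_lit 230) (nat_lit 231) (nat_lit 3) (nat_lit 6) (nat_lit 12) L92651 (by decide +kernel)
theorem L92653 : W_34 (nat_lit 2) (nat_lit 0x40003e0000000200010001000080000000000000000000000000000000) (nat_lit 0x0) (nat_lit 0xe00000000000000000000000000000000000000000000000000000000) := D_34 (nat_lit 226) (nat_lit 225) (nat_lit 227) (nat_lit 1) (nat_lit 8) (nat_lit 12) (nat_lit 1) (nat_lit 9) (nat_lit 12) (by decide +kernel)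
theorem L92654 : W_34 (nat_lit 3) (nat_lit 0x40003c0000000200010001000080000000000000000000000000000000) (nat_lit 0x0) (nat_lit 0x2e00020000000000000000000000000000000000000000000000000000) := T_34 (nat_lit 209) (nat_lit 229) (nat_lit 3) (nat_lit 5) (nat_lit 12) L92653 (by decide +kernel)
theorem L92655 : W_34 (nat_lit 4) (nat_lit 0x3c0000000200010001000080000000000000000000000000000000) (nat_lit 0x0) (nat_lit 0xee00020000000000000000000000000000000000000000000000000000) := T_34 (nat_lit 230) (nat_lit 231) (nat_lit 3) (nat_lit 6) (nat_lit 12) L92654 (by decide +kernel)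
theorem L92656 : W_34 (nat_lit 2) (nat_lit 0x3e0012000200010001000080000000000000000000000000000000) (nat_lit 0x0) (nat_lit 0xe00000000000000000000000000000000000000000000000000000000) := D_34 (nat_lit 226) (nat_lit 225) (nat_lit 227) (nat_lit 1) (nat_lit 8) (nat_lit 12) (nat_lit 1) (nat_lit 9) (nat_lit 12) (by decide +kernel)
theorem L92657 : W_34 (nat_lit 3) (nat_lit 0x3c0012000200010001000080000000000000000000000000000000) (nat_lit 0x0) (nat_lit 0xe00020008000000000000000000000000000000000000000000000000) := T_34 (nat_lit 209) (nat_lit 195) (nat_lit 2) (nat_lit 5) (nat_lit 12) L92656 (by decide +kernel)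
theorem L92658 : W_34 (nat_lit 4) (nat_lit 0x3c0002000200010001000080000000000000000000000000000000) (nat_lit 0x0) (nat_lit 0xe00020038000000000000000000000000000000000000000000000000) := T_34 (nat_lit 196) (nat_lit 197) (nat_lit 2) (nat_lit 6) (nat_lit 12) L92657 (by decide +kernel)
theorem L92659 : W_34 (nat_lit 5) (nat_lit 0x3c0000000200010001000080000000000000000000000000000000) (nat_lit 0x0) (nat_lit 0xe0002003b000000000000000000000000000000000000000000000000) := T_34 (nat_lit 193) (nat_lit 192) (nat_lit 0) (nat_lit 9) (nat_lit 12) L92658 (by decide +kernel)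
theorem L92660 : W_34 (nat_lit 13) (nat_lit 0x1c0000000200010001000080000000000000000000000000000000) (nat_lit 0x0) (nat_lit 0x400038001c000ee0022003b0018000e0000000000004000000000000000000000000000) := Q_34 (nat_lit 213) (C_34 L92633 (C_34 L92634 (C_34 L92641 (C_34 L92652 (C_34 L92655 (C_34 L92659 N_34)))))) (by decide +kernel)
theorem L92661 : W_34 (nat_lit 12) (nat_lit 0x1c0000000200010001000080000000000000000000000000000000) (nat_lit 0x0) (nat_lit 0x20001000ee002200398079f01ef01c500000004000000000000000000000000000) := Q_34 (nat_lit 209) (C_34 L92620 (C_34 L92599 (C_34 L92335 (C_34 L92589 (C_34 L92454 N_34))))) (by decide +kernel)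
theorem L92662 : W_34 (nat_lit 2) (nat_lit 0x40003c0002000200010001000080000000000000000000000000000000) (nat_lit 0x0) (nat_lit 0xc00000000000100000000000000000000000000000000000000000000) := D_34 (nat_lit 227) (nat_lit 226) (nat_lit 176) (nat_lit 1) (nat_lit 9) (nat_lit 12) (nat_lit 6) (nat_lit 6) (nat_lit 13) (by decide +kernel)
theorem L92663 : W_34 (nat_lit 3) (nat_lit 0x40003c0000000200010001000080000000000000000000000000000000) (nat_lit 0x0) (nat_lit 0xc00000003000100000000000000000000000000000000000000000000) := T_34 (nat_lit 193) (nat_lit 192) (nat_lit 0) (nat_lit 9) (nat_lit 12) L92662 (by decide +kernel)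
theorem L92664 : W_34 (nat_lit 4) (nat_lit 0x3c0000000200010001000080000000000000000000000000000000) (nat_lit 0x0) (nat_lit 0xcc00000003000100000000000000000000000000000000000000000000) := T_34 (nat_lit 230) (nat_lit 231) (nat_lit 3) (nat_lit 6) (nat_lit 12) L92663 (by decide +kernel)
theorem L92665 : W_34 (nat_lit 2) (nat_lit 0x3e0010000200010001000080000000000000000000000000000000) (nat_lit 0x0) (nat_lit 0xe000000000000000000000000000000000000000000000000000000000) := D_34 (nat_lit 230) (nat_lit 231) (nat_lit 229) (nat_lit 3) (nat_lit 6) (nat_lit 12) (nat_lit 3) (nat_lit 5) (nat_lit 12) (by decide +kernel)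
theorem L92666 : W_34 (nat_lit 3) (nat_lit 0x3c0010000200010001000080000000000000000000000000000000) (nat_lit 0x0) (nat_lit 0xe000020008000000000000000000000000000000000000000000000000) := T_34 (nat_lit 209) (nat_lit 195) (nat_lit 2) (nat_lit 5) (nat_lit 12) L92665 (by decide +kernel)
theorem L92667 : W_34 (nat_lit 4) (nat_lit 0x3c0000000200010001000080000000000000000000000000000000) (nat_lit 0x0) (nat_lit 0xe000020038000000000000000000000000000000000000000000000000) := T_34 (nat_lit 196) (nat_lit 197) (nat_lit 2) (nat_lit 6) (nat_lit 12) L92666 (by decide +kernel)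
theorem L92668 : W_34 (nat_lit 6) (nat_lit 0x1c0000000200010001000080000000000000000000000000000000) (nat_lit 0x0) (nat_lit 0xee0022003b000100000000000000000000000000000000000000000000) := Q_34 (nat_lit 213) (C_34 L92655 (C_34 L92659 (C_34 L92664 (C_34 L92667 N_34)))) (by decide +kernel)
theorem L92669 : W_34 (nat_lit 2) (nat_lit 0x60003c0012000200010001000080004000000000000000000000000000) (nat_lit 0x0) (nat_lit 0x40000000000000000800040000000000000000000000000000000000000000) := D_34 (nat_lit 179) (nat_lit 162) (nat_lit 246) (nat_lit 5) (nat_lit 9) (nat_lit 9) (nat_lit 5) (nat_lit 9) (nat_lit 10) (by decide +kernel)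
theorem L92670 : W_34 (nat_lit 3) (nat_lit 0x40003c0012000200010001000080004000000000000000000000000000) (nat_lit 0x0) (nat_lit 0x40002000020000000800040000000000000000000000000000000000000000) := T_34 (nat_lit 229) (nat_lit 209) (nat_lit 3) (nat_lit 5) (nat_lit 12) L92669 (by decide +kernel)
theorem L92671 : W_34 (nat_lit 4) (nat_lit 0x3c0012000200010001000080004000000000000000000000000000) (nat_lit 0x0) (nat_lit 0x4000e000020000000800040000000000000000000000000000000000000000) := T_34 (nat_lit 230) (nat_lit 231) (nat_lit 3) (nat_lit 6) (nat_lit 12) L92670 (by decide +kernel)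
theorem L92672 : W_34 (nat_lit 5) (nat_lit 0x3c0010000200010001000080004000000000000000000000000000) (nat_lit 0x0) (nat_lit 0x4000e000020003000800040000000000000000000000000000000000000000) := T_34 (nat_lit 193) (nat_lit 192) (nat_lit 0) (nat_lit 9) (nat_lit 12) L92671 (by decide +kernel)
theorem L92673 : W_34 (nat_lit 6) (nat_lit 0x3c0000000200010001000080004000000000000000000000000000) (nat_lit 0x0) (nat_lit 0x4000e000020033000800040000000000000000000000000000000000000000) := T_34 (nat_lit 196) (nat_lit 197) (nat_lit 2) (nat_lit 6) (nat_lit 12) L92672 (by decide +kernel)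
theorem L92674 : W_34 (nat_lit 7) (nat_lit 0x3c0000000200010001000080000000000000000000000000000000) (nat_lit 0x0) (nat_lit 0x4000e000020033000800060000000000004000000000000000000000000000) := T_34 (nat_lit 110) (nat_lit 161) (nat_lit 5) (nat_lit 8) (nat_lit 6) L92673 (by decide +kernel)
theorem L92675 : W_34 (nat_lit 2) (nat_lit 0x8003c0000000200010001000080000000000000000000000000000000) (nat_lit 0x0) (nat_lit 0x3000100000000000000000000000000000000000000000000) := D_34 (nat_lit 193) (nat_lit 192) (nat_lit 176) (nat_lit 0) (nat_lit 9) (nat_lit 12) (nat_lit 6) (nat_lit 6) (nat_lit 13) (by decide +kernel)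
theorem L92676 : W_34 (nat_lit 3) (nat_lit 0x3c0000000200010001000080000000000000000000000000000000) (nat_lit 0x0) (nat_lit 0xc00000003000100000000000000000000000000000000000000000000) := T_34 (nat_lit 227) (nat_lit 226) (nat_lit 1) (nat_lit 9) (nat_lit 12) L92675 (by decide +kernel)
theorem L92677 : W_34 (nat_lit 8) (nat_lit 0x1c0000000200010001000080000000000000000000000000000000) (nat_lit 0x0) (nat_lit 0x4000ee00220033000900060000000000004000000000000000000000000000) := Q_34 (nat_lit 213) (C_34 L92655 (C_34 L92664 (C_34 L92674 (C_34 L92676 N_34)))) (by decide +kernel)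
theorem L92678 : W_34 (nat_lit 2) (nat_lit 0x80003c0020000200010001000080004000000000000000000000000000) (nat_lit 0x0) (nat_lit 0x10000400040000000000000000000000000000000000000000000000000) := D_34 (nat_lit 214) (nat_lit 232) (nat_lit 198) (nat_lit 3) (nat_lit 7) (nat_lit 12) (nat_lit 2) (nat_lit 7) (nat_lit 12) (by decide +kernel)
theorem L92679 : W_34 (nat_lit 3) (nat_lit 0x80003c0000000200010001000080004000000000000000000000000000) (nat_lit 0x0) (nat_lit 0x10000400070000000000000000000000000000000000000000000000000) := T_34 (nat_lit 197) (nat_lit 196) (nat_lit 2) (nat_lit 6) (nat_lit 12) L92678 (by decide +kernel)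
theorem L92680 : W_34 (nat_lit 4) (nat_lit 0x3c0000000200010001000080004000000000000000000000000000) (nat_lit 0x0) (nat_lit 0x1c000400070000000000000000000000000000000000000000000000000) := T_34 (nat_lit 231) (nat_lit 230) (nat_lit 3) (nat_lit 6) (nat_lit 12) L92679 (by decide +kernel)
theorem L92681 : W_34 (nat_lit 5) (nat_lit 0x3c0000000200010001000080000000000000000000000000000000) (nat_lit 0x0) (nat_lit 0x1c000400070000000020000000000004000000000000000000000000000) := T_34 (nat_lit 110) (nat_lit 161) (nat_lit 5) (nat_lit 8) (nat_lit 6) L92680 (by decide +kernel)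
theorem L92682 : W_34 (nat_lit 2) (nat_lit 0x3e0010000200010001000080004000000000000000000000000000) (nat_lit 0x0) (nat_lit 0xe00000000000000000000000000000000000000000000000000000000) := D_34 (nat_lit 226) (nat_lit 225) (nat_lit 227) (nat_lit 1) (nat_lit 8) (nat_lit 12) (nat_lit 1) (nat_lit 9) (nat_lit 12) (by decide +kernel)
theorem L92683 : W_34 (nat_lit 3) (nat_lit 0x3c0010000200010001000080004000000000000000000000000000) (nat_lit 0x0) (nat_lit 0xe00020008000000000000000000000000000000000000000000000000) := T_34 (nat_lit 209) (nat_lit 195) (nat_lit 2) (nat_lit 5) (nat_lit 12) L92682 (by decide +kernel)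
theorem L92684 : W_34 (nat_lit 4) (nat_lit 0x3c0000000200010001000080004000000000000000000000000000) (nat_lit 0x0) (nat_lit 0xe00020038000000000000000000000000000000000000000000000000) := T_34 (nat_lit 196) (nat_lit 197) (nat_lit 2) (nat_lit 6) (nat_lit 12) L92683 (by decide +kernel)
theorem L92685 : W_34 (nat_lit 5) (nat_lit 0x3c0000000200010001000080000000000000000000000000000000) (nat_lit 0x0) (nat_lit 0xe00020038000000020000000000004000000000000000000000000000) := T_34 (nat_lit 110) (nat_lit 161) (nat_lit 5) (nat_lit 8) (nat_lit 6) L92684 (by decide +kernel)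
theorem L92686 : W_34 (nat_lit 6) (nat_lit 0x1c0000000200010001000080000000000000000000000000000000) (nat_lit 0x0) (nat_lit 0x1ee00620078000000020000000000004000000000000000000000000000) := Q_34 (nat_lit 213) (C_34 L92667 (C_34 L92655 (C_34 L92681 (C_34 L92685 N_34)))) (by decide +kernel)
theorem L92687 : W_34 (nat_lit 6) (nat_lit 0x1c0000000200010001000080000000000000000000000000000000) (nat_lit 0x0) (nat_lit 0x1cc00600073000100020000000000004000000000000000000000000000) := Q_34 (nat_lit 213) (C_34 L92681 (C_34 L92676 N_34)) (by decide +kernel)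
theorem L92688 : W_34 (nat_lit 2) (nat_lit 0x22001e0008800200010001000080000000000000000000000000000000) (nat_lit 0x0) (nat_lit 0x100010000400000000000000000000000000000000000000000000000) := D_34 (nat_lit 208) (nat_lit 224) (nat_lit 190) (nat_lit 1) (nat_lit 7) (nat_lit 12) (nat_lit 0) (nat_lit 7) (nat_lit 12) (by decide +kernel)
theorem L92689 : W_34 (nat_lit 3) (nat_lit 0x22001e0008000200010001000080000000000000000000000000000000) (nat_lit 0x0) (nat_lit 0x100010001c00000000000000000000000000000000000000000000000) := T_34 (nat_lit 191) (nat_lit 192) (nat_lit 0) (nat_lit 8) (nat_lit 12) L92688 (by decide +kernel)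
theorem L92690 : W_34 (nat_lit 4) (nat_lit 0x20001e0008000200010001000080000000000000000000000000000000) (nat_lit 0x0) (nat_lit 0x700010001c00000000000000000000000000000000000000000000000) := T_34 (nat_lit 225) (nat_lit 226) (nat_lit 1) (nat_lit 8) (nat_lit 12) L92689 (by decide +kernel)
theorem L92691 : W_34 (nat_lit 5) (nat_lit 0x20001e0000000200010001000080000000000000000000000000000000) (nat_lit 0x0) (nat_lit 0x700010019c00000000000000000000000000000000000000000000000) := T_34 (nat_lit 195) (nat_lit 196) (nat_lit 2) (nat_lit 5) (nat_lit 12) L92690 (by decide +kernel)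
theorem L92692 : W_34 (nat_lit 6) (nat_lit 0x1e0000000200010001000080000000000000000000000000000000) (nat_lit 0x0) (nat_lit 0x6700010019c00000000000000000000000000000000000000000000000) := T_34 (nat_lit 229) (nat_lit 230) (nat_lit 3) (nat_lit 5) (nat_lit 12) L92691 (by decide +kernel)
theorem L92693 : W_34 (nat_lit 2) (nat_lit 0x1f0000000200010001000080000000000000000000000000000000) (nat_lit 0x0) (nat_lit 0x700000000000000000000000000000000000000000000000000000000) := D_34 (nat_lit 225) (nat_lit 226) (nat_lit 224) (nat_lit 1) (nat_lit 8) (nat_lit 12) (nat_lit 1) (nat_lit 7) (nat_lit 12) (by decide +kernel)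
theorem L92694 : W_34 (nat_lit 2) (nat_lit 0x20001f8008400200010001000080000000000000000000000000000000) (nat_lit 0x0) (nat_lit 0x380000000000000000000000000000000000000000000000000000000) := D_34 (nat_lit 224) (nat_lit 225) (nat_lit 223) (nat_lit 1) (nat_lit 7) (nat_lit 12) (nat_lit 1) (nat_lit 6) (nat_lit 12) (by decide +kernel)
theorem L92695 : W_34 (nat_lit 3) (nat_lit 0x20001f0008400200010001000080000000000000000000000000000000) (nat_lit 0x0) (nat_lit 0x380008000200000000000000000000000000000000000000000000000) := T_34 (nat_lit 207) (nat_lit 189) (nat_lit 0) (nat_lit 6) (nat_lit 12) L92694 (by decide +kernel)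
theorem L92696 : W_34 (nat_lit 4) (nat_lit 0x1f0008400200010001000080000000000000000000000000000000) (nat_lit 0x0) (nat_lit 0x6380008000200000000000000000000000000000000000000000000000) := T_34 (nat_lit 229) (nat_lit 230) (nat_lit 3) (nat_lit 5) (nat_lit 12) L92695 (by decide +kernel)
theorem L92697 : W_34 (nat_lit 5) (nat_lit 0x1f0008000200010001000080000000000000000000000000000000) (nat_lit 0x0) (nat_lit 0x6380008000e00000000000000000000000000000000000000000000000) := T_34 (nat_lit 190) (nat_lit 191) (nat_lit 0) (nat_lit 7) (nat_lit 12) L92696 (by decide +kernel)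
theorem L92698 : W_34 (nat_lit 6) (nat_lit 0x1f0000000200010001000080000000000000000000000000000000) (nat_lit 0x0) (nat_lit 0x6380008018e00000000000000000000000000000000000000000000000) := T_34 (nat_lit 195) (nat_lit 196) (nat_lit 2) (nat_lit 5) (nat_lit 12) L92697 (by decide +kernel)
theorem L92699 : W_34 (nat_lit 2) (nat_lit 0x28801fc008400380030001000080000000000000000000000000000000) (nat_lit 0x0) (nat_lit 0xc8000000000000000000000000000000000000000) := D_34 (nat_lit 162) (nat_lit 163) (nat_lit 159) (nat_lit 1) (nat_lit 10) (nat_lit 9) (nat_lit 1) (nat_lit 9) (nat_lit 9) (by decide +kernel)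
theorem L92700 : W_34 (nat_lit 3) (nat_lit 0x28801fc008400300030001000080000000000000000000000000000000) (nat_lit 0x0) (nat_lit 0xc00c8000000000000000000000000000000000000000) := T_34 (nat_lit 175) (nat_lit 174) (nat_lit 2) (nat_lit 4) (nat_lit 10) L92699 (by decide +kernel)
theorem L92701 : W_34 (nat_lit 4) (nat_lit 0x28801fc008400200030001000080000000000000000000000000000000) (nat_lit 0x0) (nat_lit 0x20001c00c8000000000000000000000000000000000000000) := T_34 (nat_lit 176) (nat_lit 193) (nat_lit 6) (nat_lit 6) (nat_lit 13) L92700 (by decide +kernel)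
theorem L92702 : W_34 (nat_lit 5) (nat_lit 0x20801fc008400200030001000080000000000000000000000000000000) (nat_lit 0x0) (nat_lit 0xc000000020001c00c8000000000000000000000000000000000000000) := T_34 (nat_lit 227) (nat_lit 226) (nat_lit 3) (nat_lit 2) (nat_lit 12) L92701 (by decide +kernel)
theorem L92703 : W_34 (nat_lit 6) (nat_lit 0x20801f8008400200030001000080000000000000000000000000000000) (nat_lit 0x0) (nat_lit 0xc400040020001c00c8000000000000000000000000000000000000000) := T_34 (nat_lit 206) (nat_lit 222) (nat_lit 1) (nat_lit 5) (nat_lit 12) L92702 (by decide +kernel)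
theorem L92704 : W_34 (nat_lit 7) (nat_lit 0x20001f8008400200030001000080000000000000000000000000000000) (nat_lit 0x0) (nat_lit 0xdc00040020001c00c8000000000000000000000000000000000000000) := T_34 (nat_lit 223) (nat_lit 224) (nat_lit 1) (nat_lit 6) (nat_lit 12) L92703 (by decide +kernel)
theorem L92705 : W_34 (nat_lit 8) (nat_lit 0x20001f8008400200010001000080000000000000000000000000000000) (nat_lit 0x0) (nat_lit 0xdc00040020001c00e8000000000004000000000000000000000000000) := T_34 (nat_lit 161) (nat_lit 110) (nat_lit 5) (nat_lit 8) (nat_lit 6) L92704 (by decide +kernel)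
theorem L92706 : W_34 (nat_lit 9) (nat_lit 0x20001f0008400200010001000080000000000000000000000000000000) (nat_lit 0x0) (nat_lit 0xdc000c0022001c00e8000000000004000000000000000000000000000) := T_34 (nat_lit 207) (nat_lit 189) (nat_lit 0) (nat_lit 6) (nat_lit 12) L92705 (by decide +kernel)
theorem L92707 : W_34 (nat_lit 10) (nat_lit 0x1f0008400200010001000080000000000000000000000000000000) (nat_lit 0x0) (nat_lit 0x6dc000c0022001c00e8000000000004000000000000000000000000000) := T_34 (nat_lit 229) (nat_lit 230) (nat_lit 3) (nat_lit 5) (nat_lit 12) L92706 (by decide +kernel)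
theorem L92708 : W_34 (nat_lit 11) (nat_lit 0x1f0008000200010001000080000000000000000000000000000000) (nat_lit 0x0) (nat_lit 0x6dc000c002e001c00e8000000000004000000000000000000000000000) := T_34 (nat_lit 190) (nat_lit 191) (nat_lit 0) (nat_lit 7) (nat_lit 12) L92707 (by decide +kernel)
theorem L92709 : W_34 (nat_lit 12) (nat_lit 0x1f0000000200010001000080000000000000000000000000000000) (nat_lit 0x0) (nat_lit 0x6dc000c01ae001c00e8000000000004000000000000000000000000000) := T_34 (nat_lit 195) (nat_lit 196) (nat_lit 2) (nat_lit 5) (nat_lit 12) L92708 (by decide +kernel)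
theorem L92710 : W_34 (nat_lit 2) (nat_lit 0x1000000024001f0008800340030001000080000000000000000000000000000000) (nat_lit 0x0) (nat_lit 0x800000002000000008000000000000000000000000000000000000000) := D_34 (nat_lit 193) (nat_lit 159) (nat_lit 227) (nat_lit 5) (nat_lit 6) (nat_lit 9) (nat_lit 6) (nat_lit 6) (nat_lit 13) (by decide +kernel)
theorem L92711 : W_34 (nat_lit 3) (nat_lit 0x1000000024001f0008800240030001000080000000000000000000000000000000) (nat_lit 0x0) (nat_lit 0x800000002000180008000000000000000000000000000000000000000) := T_34 (nat_lit 176) (nat_lit 175) (nat_lit 2) (nat_lit 4) (nat_lit 10) L92710 (by decide +kernel)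
theorem L92712 : W_34 (nat_lit 4) (nat_lit 0x24001f0008800240030001000080000000000000000000000000000000) (nat_lit 0x0) (nat_lit 0x100008000800000002000180008000000000000000000000000000000000000000) := T_34 (nat_lit 260) (nat_lit 243) (nat_lit 4) (nat_lit 5) (nat_lit 15) L92711 (by decide +kernel)
theorem L92713 : W_34 (nat_lit 5) (nat_lit 0x24001f0008800200030001000080000000000000000000000000000000) (nat_lit 0x0) (nat_lit 0x1000080008000000020001c000a000000000000000000000000000000000000000) := T_34 (nat_lit 174) (nat_lit 157) (nat_lit 7) (nat_lit 4) (nat_lit 9) L92712 (by decide +kernel)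
theorem L92714 : W_34 (nat_lit 6) (nat_lit 0x24001f0008800200010001000080000000000000000000000000000000) (nat_lit 0x0) (nat_lit 0x1000080008000000020001c002a000000000004000000000000000000000000000) := T_34 (nat_lit 161) (nat_lit 110) (nat_lit 5) (nat_lit 8) (nat_lit 6) L92713 (by decide +kernel)
theorem L92715 : W_34 (nat_lit 7) (nat_lit 0x24001f0008000200010001000080000000000000000000000000000000) (nat_lit 0x0) (nat_lit 0x100008000800000002c001c002a000000000004000000000000000000000000000) := T_34 (nat_lit 191) (nat_lit 190) (nat_lit 0) (nat_lit 7) (nat_lit 12) L92714 (by decide +kernel)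
theorem L92716 : W_34 (nat_lit 8) (nat_lit 0x24001f0000000200010001000080000000000000000000000000000000) (nat_lit 0x0) (nat_lit 0x10000800080000001ac001c002a000000000004000000000000000000000000000) := T_34 (nat_lit 195) (nat_lit 196) (nat_lit 2) (nat_lit 5) (nat_lit 12) L92715 (by decide +kernel)
theorem L92717 : W_34 (nat_lit 9) (nat_lit 0x20001f0000000200010001000080000000000000000000000000000000) (nat_lit 0x0) (nat_lit 0x100008000e0000001ac001c002a000000000004000000000000000000000000000) := T_34 (nat_lit 226) (nat_lit 225) (nat_lit 1) (nat_lit 8) (nat_lit 12) L92716 (by decide +kernel)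
theorem L92718 : W_34 (nat_lit 10) (nat_lit 0x1f0000000200010001000080000000000000000000000000000000) (nat_lit 0x0) (nat_lit 0x100008006e0000001ac001c002a000000000004000000000000000000000000000) := T_34 (nat_lit 229) (nat_lit 230) (nat_lit 3) (nat_lit 5) (nat_lit 12) L92717 (by decide +kernel)
theorem L92719 : W_34 (nat_lit 13) (nat_lit 0x1e0000000200010001000080000000000000000000000000000000) (nat_lit 0x0) (nat_lit 0x100008006fc001c01ae001c00ea000000000004000000000000000000000000000) := Q_34 (nat_lit 208) (C_34 L92693 (C_34 L92698 (C_34 L92709 (C_34 L92718 N_34)))) (by decide +kernel)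
theorem L92720 : W_34 (nat_lit 2) (nat_lit 0x2c001e0008000380030001000080000000000000000000000000000000) (nat_lit 0x0) (nat_lit 0xc8000000000000000000000000000000000000000) := D_34 (nat_lit 162) (nat_lit 163) (nat_lit 159) (nat_lit 1) (nat_lit 10) (nat_lit 9) (nat_lit 1) (nat_lit 9) (nat_lit 9) (by decide +kernel)
theorem L92721 : W_34 (nat_lit 3) (nat_lit 0x2c001e0008000300030001000080000000000000000000000000000000) (nat_lit 0x0) (nat_lit 0xc00c8000000000000000000000000000000000000000) := T_34 (nat_lit 175) (nat_lit 174) (nat_lit 2) (nat_lit 4) (nat_lit 10) L92720 (by decide +kernel)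
theorem L92722 : W_34 (nat_lit 4) (nat_lit 0x2c001e0008000300010001000080000000000000000000000000000000) (nat_lit 0x0) (nat_lit 0xc00e8000000000004000000000000000000000000000) := T_34 (nat_lit 161) (nat_lit 110) (nat_lit 5) (nat_lit 8) (nat_lit 6) L92721 (by decide +kernel)
theorem L92723 : W_34 (nat_lit 5) (nat_lit 0x2c001e0000000300010001000080000000000000000000000000000000) (nat_lit 0x0) (nat_lit 0x180000c00e8000000000004000000000000000000000000000) := T_34 (nat_lit 195) (nat_lit 196) (nat_lit 2) (nat_lit 5) (nat_lit 12) L92722 (by decide +kernel)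
theorem L92724 : W_34 (nat_lit 6) (nat_lit 0x28001e0000000300010001000080000000000000000000000000000000) (nat_lit 0x0) (nat_lit 0x6000000180000c00e8000000000004000000000000000000000000000) := T_34 (nat_lit 226) (nat_lit 225) (nat_lit 1) (nat_lit 8) (nat_lit 12) L92723 (by decide +kernel)
theorem L92725 : W_34 (nat_lit 7) (nat_lit 0x20001e0000000300010001000080000000000000000000000000000000) (nat_lit 0x0) (nat_lit 0xe0000001a0000c00e8000000000004000000000000000000000000000) := T_34 (nat_lit 227) (nat_lit 193) (nat_lit 6) (nat_lit 6) (nat_lit 13) L92724 (by decide +kernel)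
theorem L92726 : W_34 (nat_lit 8) (nat_lit 0x1e0000000300010001000080000000000000000000000000000000) (nat_lit 0x0) (nat_lit 0x6e0000001a0000c00e8000000000004000000000000000000000000000) := T_34 (nat_lit 229) (nat_lit 230) (nat_lit 3) (nat_lit 5) (nat_lit 12) L92725 (by decide +kernel)
theorem L92727 : W_34 (nat_lit 2) (nat_lit 0x20001e0002000300010001000080000000000000000000000000000000) (nat_lit 0x0) (nat_lit 0x600000000000000008000000000000000000000000000000000000000) := D_34 (nat_lit 226) (nat_lit 225) (nat_lit 159) (nat_lit 1) (nat_lit 8) (nat_lit 12) (nat_lit 5) (nat_lit 6) (nat_lit 9) (by decide +kernel)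
theorem L92728 : W_34 (nat_lit 3) (nat_lit 0x20001e0000000300010001000080000000000000000000000000000000) (nat_lit 0x0) (nat_lit 0xe00000002000000008000000000000000000000000000000000000000) := T_34 (nat_lit 193) (nat_lit 227) (nat_lit 6) (nat_lit 6) (nat_lit 13) L92727 (by decide +kernel)
theorem L92729 : W_34 (nat_lit 4) (nat_lit 0x1e0000000300010001000080000000000000000000000000000000) (nat_lit 0x0) (nat_lit 0x6e00000002000000008000000000000000000000000000000000000000) := T_34 (nat_lit 229) (nat_lit 230) (nat_lit 3) (nat_lit 5) (nat_lit 12) L92728 (by decide +kernel)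
theorem L92730 : W_34 (nat_lit 2) (nat_lit 0x24001e00090003800b0001000080000000000000000000000000000000) (nat_lit 0x0) (nat_lit 0x10000800000000000000004000000000000000000000000000000000000000) := D_34 (nat_lit 227) (nat_lit 158) (nat_lit 244) (nat_lit 7) (nat_lit 5) (nat_lit 9) (nat_lit 7) (nat_lit 5) (nat_lit 10) (by decide +kernel)
theorem L92731 : W_34 (nat_lit 3) (nat_lit 0x24001e00080003800b0001000080000000000000000000000000000000) (nat_lit 0x0) (nat_lit 0x1000080000000100000000c000000000000000000000000000000000000000) := T_34 (nat_lit 192) (nat_lit 159) (nat_lit 6) (nat_lit 5) (nat_lit 13) L92730 (by decide +kernel)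
theorem L92732 : W_34 (nat_lit 4) (nat_lit 0x24001e00080003000b0001000080000000000000000000000000000000) (nat_lit 0x0) (nat_lit 0x100008000000010000c000c000000000000000000000000000000000000000) := T_34 (nat_lit 175) (nat_lit 174) (nat_lit 2) (nat_lit 4) (nat_lit 10) L92731 (by decide +kernel)
theorem L92733 : W_34 (nat_lit 5) (nat_lit 0x24001e0008000300030001000080000000000000000000000000000000) (nat_lit 0x0) (nat_lit 0x100008000000010000c00cc000000000000000000000000000000000000000) := T_34 (nat_lit 163) (nat_lit 162) (nat_lit 1) (nat_lit 10) (nat_lit 9) L92732 (by decide +kernel)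
theorem L92734 : W_34 (nat_lit 6) (nat_lit 0x24001e0000000300030001000080000000000000000000000000000000) (nat_lit 0x0) (nat_lit 0x100008000000190000c00cc000000000000000000000000000000000000000) := T_34 (nat_lit 195) (nat_lit 196) (nat_lit 2) (nat_lit 5) (nat_lit 12) L92733 (by decide +kernel)
theorem L92735 : W_34 (nat_lit 7) (nat_lit 0x24001e0000000300010001000080000000000000000000000000000000) (nat_lit 0x0) (nat_lit 0x100008000000190000c00ec000000000004000000000000000000000000000) := T_34 (nat_lit 161) (nat_lit 110) (nat_lit 5) (nat_lit 8) (nat_lit 6) L92734 (by decide +kernel)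
theorem L92736 : W_34 (nat_lit 8) (nat_lit 0x4001e0000000300010001000080000000000000000000000000000000) (nat_lit 0x0) (nat_lit 0x100068000000190000c00ec000000000004000000000000000000000000000) := T_34 (nat_lit 229) (nat_lit 230) (nat_lit 3) (nat_lit 5) (nat_lit 12) L92735 (by decide +kernel)
theorem L92737 : W_34 (nat_lit 9) (nat_lit 0x1e0000000300010001000080000000000000000000000000000000) (nat_lit 0x0) (nat_lit 0x10006e000000190000c00ec000000000004000000000000000000000000000) := T_34 (nat_lit 226) (nat_lit 225) (nat_lit 1) (nat_lit 8) (nat_lit 12) L92736 (by decide +kernel)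
theorem L92738 : W_34 (nat_lit 2) (nat_lit 0x2c001e0008000380030001000080000000000000000000000000000000) (nat_lit 0x0) (nat_lit 0x10000000000001000000004000000000000000000000000000000000000000) := D_34 (nat_lit 192) (nat_lit 158) (nat_lit 244) (nat_lit 7) (nat_lit 5) (nat_lit 9) (nat_lit 7) (nat_lit 5) (nat_lit 10) (by decide +kernel)
theorem L92739 : W_34 (nat_lit 3) (nat_lit 0x2c001e0008000300030001000080000000000000000000000000000000) (nat_lit 0x0) (nat_lit 0x100000000000010000c0004000000000000000000000000000000000000000) := T_34 (nat_lit 175) (nat_lit 174) (nat_lit 2) (nat_lit 4) (nat_lit 10) L92738 (by decide +kernel)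
theorem L92740 : W_34 (nat_lit 4) (nat_lit 0x2c001e0008000300010001000080000000000000000000000000000000) (nat_lit 0x0) (nat_lit 0x100000000000010000c0024000000000004000000000000000000000000000) := T_34 (nat_lit 161) (nat_lit 110) (nat_lit 5) (nat_lit 8) (nat_lit 6) L92739 (by decide +kernel)
theorem L92741 : W_34 (nat_lit 5) (nat_lit 0xc001e0008000300010001000080000000000000000000000000000000) (nat_lit 0x0) (nat_lit 0x100060000000010000c0024000000000004000000000000000000000000000) := T_34 (nat_lit 229) (nat_lit 230) (nat_lit 3) (nat_lit 5) (nat_lit 12) L92740 (by decide +kernel)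
theorem L92742 : W_34 (nat_lit 6) (nat_lit 0x8001e0008000300010001000080000000000000000000000000000000) (nat_lit 0x0) (nat_lit 0x100066000000010000c0024000000000004000000000000000000000000000) := T_34 (nat_lit 226) (nat_lit 225) (nat_lit 1) (nat_lit 8) (nat_lit 12) L92741 (by decide +kernel)
theorem L92743 : W_34 (nat_lit 7) (nat_lit 0x1e0008000300010001000080000000000000000000000000000000) (nat_lit 0x0) (nat_lit 0x10006e000000030000c0024000000000004000000000000000000000000000) := T_34 (nat_lit 227) (nat_lit 193) (nat_lit 6) (nat_lit 6) (nat_lit 13) L92742 (by decide +kernel)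
theorem L92744 : W_34 (nat_lit 8) (nat_lit 0x1e0000000300010001000080000000000000000000000000000000) (nat_lit 0x0) (nat_lit 0x10006e0000001b0000c0024000000000004000000000000000000000000000) := T_34 (nat_lit 195) (nat_lit 196) (nat_lit 2) (nat_lit 5) (nat_lit 12) L92743 (by decide +kernel)
theorem L92745 : W_34 (nat_lit 2) (nat_lit 0x24001e000a000300010001000080004000000000000000000000000000) (nat_lit 0x0) (nat_lit 0x100008000000000001000000000000000000000000000000000000000000000000) := D_34 (nat_lit 243) (nat_lit 192) (nat_lit 260) (nat_lit 6) (nat_lit 5) (nat_lit 14) (nat_lit 6) (nat_lit 5) (nat_lit 15) (by decide +kernel)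
theorem L92746 : W_34 (nat_lit 3) (nat_lit 0x24001e0008000300010001000080004000000000000000000000000000) (nat_lit 0x0) (nat_lit 0x100008000000000003000000008000000000000000000000000000000000000000) := T_34 (nat_lit 193) (nat_lit 159) (nat_lit 5) (nat_lit 6) (nat_lit 9) L92745 (by decide +kernel)
theorem L92747 : W_34 (nat_lit 4) (nat_lit 0x4001e0008000300010001000080004000000000000000000000000000) (nat_lit 0x0) (nat_lit 0x100008006000000003000000008000000000000000000000000000000000000000) := T_34 (nat_lit 229) (nat_lit 230) (nat_lit 3) (nat_lit 5) (nat_lit 12) L92746 (by decide +kernel)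
theorem L92748 : W_34 (nat_lit 5) (nat_lit 0x1e0008000300010001000080004000000000000000000000000000) (nat_lit 0x0) (nat_lit 0x100008006600000003000000008000000000000000000000000000000000000000) := T_34 (nat_lit 226) (nat_lit 225) (nat_lit 1) (nat_lit 8) (nat_lit 12) L92747 (by decide +kernel)
theorem L92749 : W_34 (nat_lit 6) (nat_lit 0x1e0000000300010001000080004000000000000000000000000000) (nat_lit 0x0) (nat_lit 0x10000800660000001b000000008000000000000000000000000000000000000000) := T_34 (nat_lit 195) (nat_lit 196) (nat_lit 2) (nat_lit 5) (nat_lit 12) L92748 (by decide +kernel)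
theorem L92750 : W_34 (nat_lit 7) (nat_lit 0x1e0000000300010001000080000000000000000000000000000000) (nat_lit 0x0) (nat_lit 0x10000800660000001b000000028000000000004000000000000000000000000000) := T_34 (nat_lit 110) (nat_lit 161) (nat_lit 5) (nat_lit 8) (nat_lit 6) L92749 (by decide +kernel)
theorem L92751 : W_34 (nat_lit 2) (nat_lit 0x4001e0000000300010001000080000000000000000000000000000000) (nat_lit 0x0) (nat_lit 0x800000002000000008000000000000000000000000000000000000000) := D_34 (nat_lit 193) (nat_lit 227) (nat_lit 159) (nat_lit 6) (nat_lit 6) (nat_lit 13) (nat_lit 5) (nat_lit 6) (nat_lit 9) (by decide +kernel)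
theorem L92752 : W_34 (nat_lit 3) (nat_lit 0x1e0000000300010001000080000000000000000000000000000000) (nat_lit 0x0) (nat_lit 0xe00000002000000008000000000000000000000000000000000000000) := T_34 (nat_lit 226) (nat_lit 225) (nat_lit 1) (nat_lit 8) (nat_lit 12) L92751 (by decide +kernel)
theorem L92753 : W_34 (nat_lit 2) (nat_lit 0x8001e0000000300070001000080000000000000000000000000000000) (nat_lit 0x0) (nat_lit 0xc0008000000000000000000000000000000000000000) := D_34 (nat_lit 175) (nat_lit 174) (nat_lit 159) (nat_lit 2) (nat_lit 4) (nat_lit 10) (nat_lit 1) (nat_lit 9) (nat_lit 9) (by decide +kernel)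
theorem L92754 : W_34 (nat_lit 3) (nat_lit 0x8001e0000000300030001000080000000000000000000000000000000) (nat_lit 0x0) (nat_lit 0xc00c8000000000000000000000000000000000000000) := T_34 (nat_lit 162) (nat_lit 163) (nat_lit 1) (nat_lit 10) (nat_lit 9) L92753 (by decide +kernel)
theorem L92755 : W_34 (nat_lit 4) (nat_lit 0x1e0000000300030001000080000000000000000000000000000000) (nat_lit 0x0) (nat_lit 0x8000000020000c00c8000000000000000000000000000000000000000) := T_34 (nat_lit 227) (nat_lit 193) (nat_lit 6) (nat_lit 6) (nat_lit 13) L92754 (by decide +kernel)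
theorem L92756 : W_34 (nat_lit 5) (nat_lit 0x1e0000000300010001000080000000000000000000000000000000) (nat_lit 0x0) (nat_lit 0x8000000020000c00e8000000000004000000000000000000000000000) := T_34 (nat_lit 161) (nat_lit 110) (nat_lit 5) (nat_lit 8) (nat_lit 6) L92755 (by decide +kernel)
theorem L92757 : W_34 (nat_lit 10) (nat_lit 0x1e0000000200010001000080000000000000000000000000000000) (nat_lit 0x0) (nat_lit 0x100018006e0000001b0001c00ec000000000004000000000000000000000000000) := Q_34 (nat_lit 176) (C_34 L92726 (C_34 L92729 (C_34 L92737 (C_34 L92744 (C_34 L92750 (C_34 L92752 (C_34 L92756 N_34))))))) (by decide +kernel)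
theorem L92758 : W_34 (nat_lit 2) (nat_lit 0x1f0000000200010001000080000000000000000000000000000000) (nat_lit 0x0) (nat_lit 0x1c00000000000000000000000000000000000000000000000) := D_34 (nat_lit 191) (nat_lit 192) (nat_lit 190) (nat_lit 0) (nat_lit 8) (nat_lit 12) (nat_lit 0) (nat_lit 7) (nat_lit 12) (by decide +kernel)
theorem L92759 : W_34 (nat_lit 2) (nat_lit 0x21001fc00a200380030001000080000000000000000000000000000000) (nat_lit 0x0) (nat_lit 0xc8000000000000000000000000000000000000000) := D_34 (nat_lit 162) (nat_lit 163) (nat_lit 159) (nat_lit 1) (nat_lit 10) (nat_lit 9) (nat_lit 1) (nat_lit 9) (nat_lit 9) (by decide +kernel)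
theorem L92760 : W_34 (nat_lit 3) (nat_lit 0x21001fc00a200300030001000080000000000000000000000000000000) (nat_lit 0x0) (nat_lit 0xc00c8000000000000000000000000000000000000000) := T_34 (nat_lit 175) (nat_lit 174) (nat_lit 2) (nat_lit 4) (nat_lit 10) L92759 (by decide +kernel)
theorem L92761 : W_34 (nat_lit 4) (nat_lit 0x21001fc00a200200030001000080000000000000000000000000000000) (nat_lit 0x0) (nat_lit 0x8000000000001c00c8000000000000000000000000000000000000000) := T_34 (nat_lit 176) (nat_lit 227) (nat_lit 6) (nat_lit 6) (nat_lit 13) L92760 (by decide +kernel)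
theorem L92762 : W_34 (nat_lit 5) (nat_lit 0x21001fc008200200030001000080000000000000000000000000000000) (nat_lit 0x0) (nat_lit 0x8000000030001c00c8000000000000000000000000000000000000000) := T_34 (nat_lit 193) (nat_lit 192) (nat_lit 2) (nat_lit 2) (nat_lit 12) L92761 (by decide +kernel)
theorem L92763 : W_34 (nat_lit 6) (nat_lit 0x21001f8008200200030001000080000000000000000000000000000000) (nat_lit 0x0) (nat_lit 0x8000040031001c00c8000000000000000000000000000000000000000) := T_34 (nat_lit 206) (nat_lit 188) (nat_lit 0) (nat_lit 5) (nat_lit 12) L92762 (by decide +kernel)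
theorem L92764 : W_34 (nat_lit 7) (nat_lit 0x21001f8008000200030001000080000000000000000000000000000000) (nat_lit 0x0) (nat_lit 0x8000040037001c00c8000000000000000000000000000000000000000) := T_34 (nat_lit 189) (nat_lit 190) (nat_lit 0) (nat_lit 6) (nat_lit 12) L92763 (by decide +kernel)
theorem L92765 : W_34 (nat_lit 8) (nat_lit 0x21001f0008000200030001000080000000000000000000000000000000) (nat_lit 0x0) (nat_lit 0x88000c0037001c00c8000000000000000000000000000000000000000) := T_34 (nat_lit 207) (nat_lit 223) (nat_lit 1) (nat_lit 6) (nat_lit 12) L92764 (by decide +kernel)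
theorem L92766 : W_34 (nat_lit 9) (nat_lit 0x20001f0008000200030001000080000000000000000000000000000000) (nat_lit 0x0) (nat_lit 0xb8000c0037001c00c8000000000000000000000000000000000000000) := T_34 (nat_lit 224) (nat_lit 225) (nat_lit 1) (nat_lit 7) (nat_lit 12) L92765 (by decide +kernel)
theorem L92767 : W_34 (nat_lit 10) (nat_lit 0x20001f0000000200030001000080000000000000000000000000000000) (nat_lit 0x0) (nat_lit 0xb8000c01b7001c00c8000000000000000000000000000000000000000) := T_34 (nat_lit 195) (nat_lit 196) (nat_lit 2) (nat_lit 5) (nat_lit 12) L92766 (by decide +kernel)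
theorem L92768 : W_34 (nat_lit 11) (nat_lit 0x20001f0000000200010001000080000000000000000000000000000000) (nat_lit 0x0) (nat_lit 0xb8000c01b7001c00e8000000000004000000000000000000000000000) := T_34 (nat_lit 161) (nat_lit 110) (nat_lit 5) (nat_lit 8) (nat_lit 6) L92767 (by decide +kernel)
theorem L92769 : W_34 (nat_lit 12) (nat_lit 0x1f0000000200010001000080000000000000000000000000000000) (nat_lit 0x0) (nat_lit 0x6b8000c01b7001c00e8000000000004000000000000000000000000000) := T_34 (nat_lit 229) (nat_lit 230) (nat_lit 3) (nat_lit 5) (nat_lit 12) L92768 (by decide +kernel)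
theorem L92770 : W_34 (nat_lit 2) (nat_lit 0x800000022001f0009000380030001000080000000000000000000000000000000) (nat_lit 0x0) (nat_lit 0xc8000000000000000000000000000000000000000) := D_34 (nat_lit 162) (nat_lit 163) (nat_lit 159) (nat_lit 1) (nat_lit 10) (nat_lit 9) (nat_lit 1) (nat_lit 9) (nat_lit 9) (by decide +kernel)
theorem L92771 : W_34 (nat_lit 3) (nat_lit 0x800000022001f0009000280030001000080000000000000000000000000000000) (nat_lit 0x0) (nat_lit 0x1400c8000000000000000000000000000000000000000) := T_34 (nat_lit 176) (nat_lit 174) (nat_lit 2) (nat_lit 4) (nat_lit 10) L92770 (by decide +kernel)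
theorem L92772 : W_34 (nat_lit 4) (nat_lit 0x800000022001f0001000280030001000080000000000000000000000000000000) (nat_lit 0x0) (nat_lit 0x180001400c8000000000000000000000000000000000000000) := T_34 (nat_lit 195) (nat_lit 196) (nat_lit 2) (nat_lit 5) (nat_lit 12) L92771 (by decide +kernel)
theorem L92773 : W_34 (nat_lit 5) (nat_lit 0x800000022001f0001000280010001000080000000000000000000000000000000) (nat_lit 0x0) (nat_lit 0x180001400e8000000000004000000000000000000000000000) := T_34 (nat_lit 161) (nat_lit 110) (nat_lit 5) (nat_lit 8) (nat_lit 6) L92772 (by decide +kernel)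
theorem L92774 : W_34 (nat_lit 6) (nat_lit 0x800000022001f0001000200010001000080000000000000000000000000000000) (nat_lit 0x0) (nat_lit 0x180001c00ec000000000004000000000000000000000000000) := T_34 (nat_lit 175) (nat_lit 158) (nat_lit 5) (nat_lit 5) (nat_lit 9) L92773 (by decide +kernel)
theorem L92775 : W_34 (nat_lit 7) (nat_lit 0x22001f0001000200010001000080000000000000000000000000000000) (nat_lit 0x0) (nat_lit 0x800040000000000180001c00ec000000000004000000000000000000000000000) := T_34 (nat_lit 259) (nat_lit 242) (nat_lit 6) (nat_lit 4) (nat_lit 15) L92774 (by decide +kernel)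
theorem L92776 : W_34 (nat_lit 8) (nat_lit 0x2001f0001000200010001000080000000000000000000000000000000) (nat_lit 0x0) (nat_lit 0x800040060000000180001c00ec000000000004000000000000000000000000000) := T_34 (nat_lit 229) (nat_lit 230) (nat_lit 3) (nat_lit 5) (nat_lit 12) L92775 (by decide +kernel)
theorem L92777 : W_34 (nat_lit 9) (nat_lit 0x2001f0000000200010001000080000000000000000000000000000000) (nat_lit 0x0) (nat_lit 0x800040060000000198001c00ec000000000004000000000000000000000000000) := T_34 (nat_lit 192) (nat_lit 191) (nat_lit 0) (nat_lit 8) (nat_lit 12) L92776 (by decide +kernel)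
theorem L92778 : W_34 (nat_lit 10) (nat_lit 0x1f0000000200010001000080000000000000000000000000000000) (nat_lit 0x0) (nat_lit 0x800040063000000198001c00ec000000000004000000000000000000000000000) := T_34 (nat_lit 225) (nat_lit 224) (nat_lit 1) (nat_lit 7) (nat_lit 12) L92777 (by decide +kernel)
theorem L92779 : W_34 (nat_lit 13) (nat_lit 0x1e0000000200010001000080000000000000000000000000000000) (nat_lit 0x0) (nat_lit 0x80004006b8001c01bf001c00ec000000000004000000000000000000000000000) := Q_34 (nat_lit 208) (C_34 L92698 (C_34 L92758 (C_34 L92769 (C_34 L92778 N_34)))) (by decide +kernel)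
theorem L92780 : W_34 (nat_lit 2) (nat_lit 0x200000002c001e0009000380010001000080000000000000000000000000000000) (nat_lit 0x0) (nat_lit 0x40022000000000000000000000000000000000000000) := D_34 (nat_lit 174) (nat_lit 157) (nat_lit 161) (nat_lit 4) (nat_lit 5) (nat_lit 13) (nat_lit 2) (nat_lit 4) (nat_lit 10) (by decide +kernel)
theorem L92781 : W_34 (nat_lit 3) (nat_lit 0x2000000028001e0009000380010001000080000000000000000000000000000000) (nat_lit 0x0) (nat_lit 0x40000000000004002a000000000000000000000000000000000000000) := T_34 (nat_lit 226) (nat_lit 159) (nat_lit 6) (nat_lit 5) (nat_lit 13) L92780 (by decide +kernel)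
theorem L92782 : W_34 (nat_lit 4) (nat_lit 0x2000000028001e0009000300010001000080000000000000000000000000000000) (nat_lit 0x0) (nat_lit 0x4000000000000c002e000000000000000000000000000000000000000) := T_34 (nat_lit 175) (nat_lit 158) (nat_lit 7) (nat_lit 5) (nat_lit 9) L92781 (by decide +kernel)
theorem L92783 : W_34 (nat_lit 5) (nat_lit 0x28001e0009000300010001000080000000000000000000000000000000) (nat_lit 0x0) (nat_lit 0x2000100004000000000000c002e000000000000000000000000000000000000000) := T_34 (nat_lit 261) (nat_lit 244) (nat_lit 4) (nat_lit 6) (nat_lit 15) L92782 (by decide +kernel)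
theorem L92784 : W_34 (nat_lit 6) (nat_lit 0x28001e0008000300010001000080000000000000000000000000000000) (nat_lit 0x0) (nat_lit 0x2000100004000000018000c002e000000000000000000000000000000000000000) := T_34 (nat_lit 192) (nat_lit 191) (nat_lit 0) (nat_lit 8) (nat_lit 12) L92783 (by decide +kernel)
theorem L92785 : W_34 (nat_lit 7) (nat_lit 0x20001e0008000300010001000080000000000000000000000000000000) (nat_lit 0x0) (nat_lit 0x200010000c000000038000c002e000000000000000000000000000000000000000) := T_34 (nat_lit 227) (nat_lit 193) (nat_lit 6) (nat_lit 6) (nat_lit 13) L92784 (by decide +kernel)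
theorem L92786 : W_34 (nat_lit 8) (nat_lit 0x1e0008000300010001000080000000000000000000000000000000) (nat_lit 0x0) (nat_lit 0x200010006c000000038000c002e000000000000000000000000000000000000000) := T_34 (nat_lit 229) (nat_lit 230) (nat_lit 3) (nat_lit 5) (nat_lit 12) L92785 (by decide +kernel)
theorem L92787 : W_34 (nat_lit 9) (nat_lit 0x1e0000000300010001000080000000000000000000000000000000) (nat_lit 0x0) (nat_lit 0x200010006c0000001b8000c002e000000000000000000000000000000000000000) := T_34 (nat_lit 195) (nat_lit 196) (nat_lit 2) (nat_lit 5) (nat_lit 12) L92786 (by decide +kernel)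
theorem L92788 : W_34 (nat_lit 2) (nat_lit 0x20001e0009000380030001000080000000000000000000000000000000) (nat_lit 0x0) (nat_lit 0xc8000000000000000000000000000000000000000) := D_34 (nat_lit 162) (nat_lit 163) (nat_lit 159) (nat_lit 1) (nat_lit 10) (nat_lit 9) (nat_lit 1) (nat_lit 9) (nat_lit 9) (by decide +kernel)
theorem L92789 : W_34 (nat_lit 3) (nat_lit 0x20001e0009000300030001000080000000000000000000000000000000) (nat_lit 0x0) (nat_lit 0xc00c8000000000000000000000000000000000000000) := T_34 (nat_lit 175) (nat_lit 174) (nat_lit 2) (nat_lit 4) (nat_lit 10) L92788 (by decide +kernel)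
theorem L92790 : W_34 (nat_lit 4) (nat_lit 0x20001e0009000300010001000080000000000000000000000000000000) (nat_lit 0x0) (nat_lit 0xc00e8000000000004000000000000000000000000000) := T_34 (nat_lit 161) (nat_lit 110) (nat_lit 5) (nat_lit 8) (nat_lit 6) L92789 (by decide +kernel)
theorem L92791 : W_34 (nat_lit 5) (nat_lit 0x1e0009000300010001000080000000000000000000000000000000) (nat_lit 0x0) (nat_lit 0x60000000000000c00e8000000000004000000000000000000000000000) := T_34 (nat_lit 229) (nat_lit 230) (nat_lit 3) (nat_lit 5) (nat_lit 12) L92790 (by decide +kernel)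
theorem L92792 : W_34 (nat_lit 6) (nat_lit 0x1e0001000300010001000080000000000000000000000000000000) (nat_lit 0x0) (nat_lit 0x60000000180000c00e8000000000004000000000000000000000000000) := T_34 (nat_lit 195) (nat_lit 196) (nat_lit 2) (nat_lit 5) (nat_lit 12) L92791 (by decide +kernel)
theorem L92793 : W_34 (nat_lit 7) (nat_lit 0x1e0000000300010001000080000000000000000000000000000000) (nat_lit 0x0) (nat_lit 0x60000000198000c00e8000000000004000000000000000000000000000) := T_34 (nat_lit 192) (nat_lit 191) (nat_lit 0) (nat_lit 8) (nat_lit 12) L92792 (by decide +kernel)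
theorem L92794 : W_34 (nat_lit 2) (nat_lit 0x8001e0009000380010001000080004000000000000000000000000000) (nat_lit 0x0) (nat_lit 0x200010000400000000000000000000000000000000000000000000000000000000) := D_34 (nat_lit 244) (nat_lit 261) (nat_lit 226) (nat_lit 4) (nat_lit 6) (nat_lit 15) (nat_lit 7) (nat_lit 5) (nat_lit 10) (by decide +kernel)
theorem L92795 : W_34 (nat_lit 3) (nat_lit 0x8001e0009000300010001000080004000000000000000000000000000) (nat_lit 0x0) (nat_lit 0x200010000400000000000080004000000000000000000000000000000000000000) := T_34 (nat_lit 175) (nat_lit 158) (nat_lit 7) (nat_lit 5) (nat_lit 9) L92794 (by decide +kernel)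
theorem L92796 : W_34 (nat_lit 4) (nat_lit 0x8001e0001000300010001000080004000000000000000000000000000) (nat_lit 0x0) (nat_lit 0x200010000400000018000080004000000000000000000000000000000000000000) := T_34 (nat_lit 195) (nat_lit 196) (nat_lit 2) (nat_lit 5) (nat_lit 12) L92795 (by decide +kernel)
theorem L92797 : W_34 (nat_lit 5) (nat_lit 0x8001e0000000300010001000080004000000000000000000000000000) (nat_lit 0x0) (nat_lit 0x200010000400000019800080004000000000000000000000000000000000000000) := T_34 (nat_lit 192) (nat_lit 191) (nat_lit 0) (nat_lit 8) (nat_lit 12) L92796 (by decide +kernel)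
theorem L92798 : W_34 (nat_lit 6) (nat_lit 0x1e0000000300010001000080004000000000000000000000000000) (nat_lit 0x0) (nat_lit 0x200010000c0000001b800080004000000000000000000000000000000000000000) := T_34 (nat_lit 227) (nat_lit 193) (nat_lit 6) (nat_lit 6) (nat_lit 13) L92797 (by decide +kernel)
theorem L92799 : W_34 (nat_lit 7) (nat_lit 0x1e0000000300010001000080000000000000000000000000000000) (nat_lit 0x0) (nat_lit 0x200010000c0000001b800080024000000000004000000000000000000000000000) := T_34 (nat_lit 110) (nat_lit 161) (nat_lit 5) (nat_lit 8) (nat_lit 6) L92798 (by decide +kernel)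
theorem L92800 : W_34 (nat_lit 2) (nat_lit 0x1e0003000300010001000080004000000000000000000000000000) (nat_lit 0x0) (nat_lit 0x400000000000000008000400000000000000000000000000000000000) := D_34 (nat_lit 159) (nat_lit 226) (nat_lit 142) (nat_lit 5) (nat_lit 6) (nat_lit 9) (nat_lit 5) (nat_lit 6) (nat_lit 8) (by decide +kernel)
theorem L92801 : W_34 (nat_lit 3) (nat_lit 0x1e0001000300010001000080004000000000000000000000000000) (nat_lit 0x0) (nat_lit 0xc00000002000000008000400000000000000000000000000000000000) := T_34 (nat_lit 193) (nat_lit 227) (nat_lit 6) (nat_lit 6) (nat_lit 13) L92800 (by decide +kernel)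
theorem L92802 : W_34 (nat_lit 4) (nat_lit 0x1e0001000300010001000080000000000000000000000000000000) (nat_lit 0x0) (nat_lit 0xc00000002000000028000400000004000000000000000000000000000) := T_34 (nat_lit 110) (nat_lit 161) (nat_lit 5) (nat_lit 8) (nat_lit 6) L92801 (by decide +kernel)
theorem L92803 : W_34 (nat_lit 5) (nat_lit 0x1e0000000300010001000080000000000000000000000000000000) (nat_lit 0x0) (nat_lit 0xc00000003800000028000400000004000000000000000000000000000) := T_34 (nat_lit 192) (nat_lit 191) (nat_lit 0) (nat_lit 8) (nat_lit 12) L92802 (by decide +kernel)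
theorem L92804 : W_34 (nat_lit 2) (nat_lit 0x100028001e0001000300010001000080000000000000000000000000000000) (nat_lit 0x0) (nat_lit 0x400000000000080004000000000000000000000000000000000000000) := D_34 (nat_lit 175) (nat_lit 158) (nat_lit 226) (nat_lit 7) (nat_lit 5) (nat_lit 9) (nat_lit 7) (nat_lit 5) (nat_lit 10) (by decide +kernel)
theorem L92805 : W_34 (nat_lit 3) (nat_lit 0x28001e0001000300010001000080000000000000000000000000000000) (nat_lit 0x0) (nat_lit 0x200010000400000000000080004000000000000000000000000000000000000000) := T_34 (nat_lit 244) (nat_lit 261) (nat_lit 4) (nat_lit 6) (nat_lit 15) L92804 (by decide +kernel)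
theorem L92806 : W_34 (nat_lit 4) (nat_lit 0x20001e0001000300010001000080000000000000000000000000000000) (nat_lit 0x0) (nat_lit 0x200010000c00000002000080004000000000000000000000000000000000000000) := T_34 (nat_lit 227) (nat_lit 193) (nat_lit 6) (nat_lit 6) (nat_lit 13) L92805 (by decide +kernel)
theorem L92807 : W_34 (nat_lit 5) (nat_lit 0x20001e0000000300010001000080000000000000000000000000000000) (nat_lit 0x0) (nat_lit 0x200010000c00000003800080004000000000000000000000000000000000000000) := T_34 (nat_lit 192) (nat_lit 191) (nat_lit 0) (nat_lit 8) (nat_lit 12) L92806 (by decide +kernel)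
theorem L92808 : W_34 (nat_lit 6) (nat_lit 0x1e0000000300010001000080000000000000000000000000000000) (nat_lit 0x0) (nat_lit 0x200010006c00000003800080004000000000000000000000000000000000000000) := T_34 (nat_lit 229) (nat_lit 230) (nat_lit 3) (nat_lit 5) (nat_lit 12) L92807 (by decide +kernel)
theorem L92809 : W_34 (nat_lit 10) (nat_lit 0x1e0000000200010001000080000000000000000000000000000000) (nat_lit 0x0) (nat_lit 0x200010006c0000001b8001c00ee000400000004000000000000000000000000000) := Q_34 (nat_lit 176) (C_34 L92756 (C_34 L92787 (C_34 L92793 (C_34 L92799 (C_34 L92803 (C_34 L92808 N_34)))))) (by decide +kernel)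
theorem L92810 : W_34 (nat_lit 14) (nat_lit 0x1c0000000200010001000080000000000000000000000000000000) (nat_lit 0x0) (nat_lit 0x38001c006fc003c01bf001f00ef000500000004000000000000000000000000000) := Q_34 (nat_lit 209) (C_34 L92620 (C_34 L92460 (C_34 L92692 (C_34 L92350 (C_34 L92719 (C_34 L92757 (C_34 L92779 (C_34 L92809 N_34)))))))) (by decide +kernel)
theorem L92811 : W_34 (nat_lit 2) (nat_lit 0x24001e0001000200010001000080000000000000000000000000000000) (nat_lit 0x0) (nat_lit 0x800200002000000000000000000000000000000000000000000000000) := D_34 (nat_lit 213) (nat_lit 227) (nat_lit 193) (nat_lit 1) (nat_lit 9) (nat_lit 12) (nat_lit 0) (nat_lit 9) (nat_lit 12) (by decide +kernel)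
theorem L92812 : W_34 (nat_lit 3) (nat_lit 0x24001e0000000200010001000080000000000000000000000000000000) (nat_lit 0x0) (nat_lit 0x800200003800000000000000000000000000000000000000000000000) := T_34 (nat_lit 192) (nat_lit 191) (nat_lit 0) (nat_lit 8) (nat_lit 12) L92811 (by decide +kernel)
theorem L92813 : W_34 (nat_lit 4) (nat_lit 0x20001e0000000200010001000080000000000000000000000000000000) (nat_lit 0x0) (nat_lit 0xe00200003800000000000000000000000000000000000000000000000) := T_34 (nat_lit 226) (nat_lit 225) (nat_lit 1) (nat_lit 8) (nat_lit 12) L92812 (by decide +kernel)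
theorem L92814 : W_34 (nat_lit 5) (nat_lit 0x1e0000000200010001000080000000000000000000000000000000) (nat_lit 0x0) (nat_lit 0x6e00200003800000000000000000000000000000000000000000000000) := T_34 (nat_lit 229) (nat_lit 230) (nat_lit 3) (nat_lit 5) (nat_lit 12) L92813 (by decide +kernel)
theorem L92815 : W_34 (nat_lit 2) (nat_lit 0x28001e0003000200010001000080004000000000000000000000000000) (nat_lit 0x0) (nat_lit 0x200010000000000000000080000000000000000000000000000000000000000000) := D_34 (nat_lit 244) (nat_lit 261) (nat_lit 175) (nat_lit 4) (nat_lit 6) (nat_lit 15) (nat_lit 4) (nat_lit 6) (nat_lit 14) (by decide +kernel)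
theorem L92816 : W_34 (nat_lit 3) (nat_lit 0x20001e0003000200010001000080004000000000000000000000000000) (nat_lit 0x0) (nat_lit 0x200010000800000000000180000000000000000000000000000000000000000000) := T_34 (nat_lit 227) (nat_lit 176) (nat_lit 6) (nat_lit 6) (nat_lit 13) L92815 (by decide +kernel)
theorem L92817 : W_34 (nat_lit 4) (nat_lit 0x20001e0003000200010001000080000000000000000000000000000000) (nat_lit 0x0) (nat_lit 0x200010000800000000000180020000000000004000000000000000000000000000) := T_34 (nat_lit 110) (nat_lit 161) (nat_lit 5) (nat_lit 8) (nat_lit 6) L92816 (by decide +kernel)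
theorem L92818 : W_34 (nat_lit 5) (nat_lit 0x20001e0001000200010001000080000000000000000000000000000000) (nat_lit 0x0) (nat_lit 0x200010000800200002000180020000000000004000000000000000000000000000) := T_34 (nat_lit 193) (nat_lit 213) (nat_lit 0) (nat_lit 9) (nat_lit 12) L92817 (by decide +kernel)
theorem L92819 : W_34 (nat_lit 6) (nat_lit 0x1e0001000200010001000080000000000000000000000000000000) (nat_lit 0x0) (nat_lit 0x200010006800200002000180020000000000004000000000000000000000000000) := T_34 (nat_lit 229) (nat_lit 230) (nat_lit 3) (nat_lit 5) (nat_lit 12) L92818 (by decide +kernel)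
theorem L92820 : W_34 (nat_lit 7) (nat_lit 0x1e0000000200010001000080000000000000000000000000000000) (nat_lit 0x0) (nat_lit 0x200010006800200003800180020000000000004000000000000000000000000000) := T_34 (nat_lit 192) (nat_lit 191) (nat_lit 0) (nat_lit 8) (nat_lit 12) L92819 (by decide +kernel)
theorem L92821 : W_34 (nat_lit 8) (nat_lit 0x1c0000000200010001000080000000000000000000000000000000) (nat_lit 0x0) (nat_lit 0x20001000ef00230003c00180020000000000004000000000000000000000000000) := Q_34 (nat_lit 209) (C_34 L92589 (C_34 L92814 (C_34 L92345 (C_34 L92350 (C_34 L92820 N_34))))) (by decide +kernel)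
theorem L92822 : W_34 (nat_lit 12) (nat_lit 0x1c0000000200010001000080000000000000000000000000000000) (nat_lit 0x0) (nat_lit 0xe70023003bc079001e001c000000004000000000000000000000000000) := Q_34 (nat_lit 209) (C_34 L92692 (C_34 L92350 (C_34 L92454 (C_34 L92599 (C_34 L92469 N_34))))) (by decide +kernel)
theorem L92823 : W_34 (nat_lit 2) (nat_lit 0x40003e0002000300070001000080000000000000000000000000000000) (nat_lit 0x0) (nat_lit 0xc0008000000000000000000000000000000000000000) := D_34 (nat_lit 175) (nat_lit 174) (nat_lit 159) (nat_lit 2) (nat_lit 4) (nat_lit 10) (nat_lit 1) (nat_lit 9) (nat_lit 9) (by decide +kernel)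
theorem L92824 : W_34 (nat_lit 3) (nat_lit 0x40003e0002000300030001000080000000000000000000000000000000) (nat_lit 0x0) (nat_lit 0xc00c8000000000000000000000000000000000000000) := T_34 (nat_lit 162) (nat_lit 163) (nat_lit 1) (nat_lit 10) (nat_lit 9) L92823 (by decide +kernel)
theorem L92825 : W_34 (nat_lit 4) (nat_lit 0x40003c0002000300030001000080000000000000000000000000000000) (nat_lit 0x0) (nat_lit 0x20000200000000c00c8000000000000000000000000000000000000000) := T_34 (nat_lit 209) (nat_lit 229) (nat_lit 3) (nat_lit 5) (nat_lit 12) L92824 (by decide +kernel)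
theorem L92826 : W_34 (nat_lit 5) (nat_lit 0x3c0002000300030001000080000000000000000000000000000000) (nat_lit 0x0) (nat_lit 0xe0000200000000c00c8000000000000000000000000000000000000000) := T_34 (nat_lit 230) (nat_lit 231) (nat_lit 3) (nat_lit 6) (nat_lit 12) L92825 (by decide +kernel)
theorem L92827 : W_34 (nat_lit 6) (nat_lit 0x3c0002000200030001000080000000000000000000000000000000) (nat_lit 0x0) (nat_lit 0xe8000200000001c00c8000000000000000000000000000000000000000) := T_34 (nat_lit 176) (nat_lit 227) (nat_lit 6) (nat_lit 6) (nat_lit 13) L92826 (by decide +kernel)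
theorem L92828 : W_34 (nat_lit 7) (nat_lit 0x3c0002000200010001000080000000000000000000000000000000) (nat_lit 0x0) (nat_lit 0xe8000200000001c00e8000000000004000000000000000000000000000) := T_34 (nat_lit 161) (nat_lit 110) (nat_lit 5) (nat_lit 8) (nat_lit 6) L92827 (by decide +kernel)
theorem L92829 : W_34 (nat_lit 8) (nat_lit 0x3c0000000200010001000080000000000000000000000000000000) (nat_lit 0x0) (nat_lit 0xe8000200030001c00e8000000000004000000000000000000000000000) := T_34 (nat_lit 193) (nat_lit 192) (nat_lit 0) (nat_lit 9) (nat_lit 12) L92828 (by decide +kernel)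
theorem L92830 : W_34 (nat_lit 2) (nat_lit 0x3e0010000200010001000080000000000000000000000000000000) (nat_lit 0x0) (nat_lit 0x3800000000000000000000000000000000000000000000000) := D_34 (nat_lit 192) (nat_lit 191) (nat_lit 193) (nat_lit 0) (nat_lit 8) (nat_lit 12) (nat_lit 0) (nat_lit 9) (nat_lit 12) (by decide +kernel)
theorem L92831 : W_34 (nat_lit 3) (nat_lit 0x3c0010000200010001000080000000000000000000000000000000) (nat_lit 0x0) (nat_lit 0x2000b800000000000000000000000000000000000000000000000) := T_34 (nat_lit 209) (nat_lit 195) (nat_lit 2) (nat_lit 5) (nat_lit 12) L92830 (by decide +kernel)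
theorem L92832 : W_34 (nat_lit 4) (nat_lit 0x3c0000000200010001000080000000000000000000000000000000) (nat_lit 0x0) (nat_lit 0x2003b800000000000000000000000000000000000000000000000) := T_34 (nat_lit 196) (nat_lit 197) (nat_lit 2) (nat_lit 6) (nat_lit 12) L92831 (by decide +kernel)
theorem L92833 : W_34 (nat_lit 9) (nat_lit 0x1c0000000200010001000080000000000000000000000000000000) (nat_lit 0x0) (nat_lit 0x1e80062007b8001c00e8000000000004000000000000000000000000000) := Q_34 (nat_lit 213) (C_34 L92681 (C_34 L92667 (C_34 L92829 (C_34 L92832 N_34)))) (by decide +kernel)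
theorem L92834 : W_34 (nat_lit 7) (nat_lit 0x1c0000000200010001000080000000000000000000000000000000) (nat_lit 0x0) (nat_lit 0x200010000f0023003bc00080020000000000004000000000000000000000000000) := Q_34 (nat_lit 209) (C_34 L92589 (C_34 L92335 (C_34 L92450 (C_34 L92460 (C_34 L92469 N_34))))) (by decide +kernel)
theorem L92835 : W_34 (nat_lit 15) (nat_lit 0xc0000000200010001000080000000000000000000000000000000) (nat_lit 0x0) (nat_lit 0x40003b801dc01efc073c07bf079f01ef01c500000004000000000000000000000000000) := Q_34 (nat_lit 212) (C_34 L92660 (C_34 L92661 (C_34 L92668 (C_34 L92677 (C_34 L92686 (C_34 L92687 (C_34 L92810 (C_34 L92821 (C_34 L92822 (C_34 L92833 (C_34 L92834 N_34))))))))))) (by decide +kernel)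
theorem L92836 : W_34 (nat_lit 2) (nat_lit 0xd000e0000000380030001000080000000000000000000000000000000) (nat_lit 0x0) (nat_lit 0x10000000000001000000004000000000000000000000000000000000000000) := D_34 (nat_lit 192) (nat_lit 158) (nat_lit 244) (nat_lit 7) (nat_lit 5) (nat_lit 9) (nat_lit 7) (nat_lit 5) (nat_lit 10) (by decide +kernel)
theorem L92837 : W_34 (nat_lit 3) (nat_lit 0xd000e0000000300030001000080000000000000000000000000000000) (nat_lit 0x0) (nat_lit 0x100000000000010000c0004000000000000000000000000000000000000000) := T_34 (nat_lit 175) (nat_lit 174) (nat_lit 2) (nat_lit 4) (nat_lit 10) L92836 (by decide +kernel)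
theorem L92838 : W_34 (nat_lit 4) (nat_lit 0xd000e0000000300010001000080000000000000000000000000000000) (nat_lit 0x0) (nat_lit 0x100000000000010000c0024000000000004000000000000000000000000000) := T_34 (nat_lit 161) (nat_lit 110) (nat_lit 5) (nat_lit 8) (nat_lit 6) L92837 (by decide +kernel)
theorem L92839 : W_34 (nat_lit 5) (nat_lit 0xd000e0000000200010001000080000000000000000000000000000000) (nat_lit 0x0) (nat_lit 0x100000000000030001c0024000000000004000000000000000000000000000) := T_34 (nat_lit 176) (nat_lit 193) (nat_lit 6) (nat_lit 6) (nat_lit 13) L92838 (by decide +kernel)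
theorem L92840 : W_34 (nat_lit 6) (nat_lit 0xc000e0000000200010001000080000000000000000000000000000000) (nat_lit 0x0) (nat_lit 0x100003000000030001c0024000000000004000000000000000000000000000) := T_34 (nat_lit 224) (nat_lit 225) (nat_lit 2) (nat_lit 3) (nat_lit 13) L92839 (by decide +kernel)
theorem L92841 : W_34 (nat_lit 11) (nat_lit 0xc000c0000000200010001000080000000000000000000000000000000) (nat_lit 0x0) (nat_lit 0xe0007800ff00038003c003e001c0026000000000004000000000000000000000000000) := Q_34 (nat_lit 209) (C_34 L91374 (C_34 L91399 (C_34 L91395 (C_34 L92840 N_34)))) (by decide +kernel)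
theorem L92842 : W_34 (nat_lit 4) (nat_lit 0x2c001e0008000200030001000080000000000000000000000000000000) (nat_lit 0x0) (nat_lit 0x100000000000030001c0004000000000000000000000000000000000000000) := T_34 (nat_lit 176) (nat_lit 193) (nat_lit 6) (nat_lit 6) (nat_lit 13) L92739 (by decide +kernel)
theorem L92843 : W_34 (nat_lit 5) (nat_lit 0x2c001e0000000200030001000080000000000000000000000000000000) (nat_lit 0x0) (nat_lit 0x1000000000001b0001c0004000000000000000000000000000000000000000) := T_34 (nat_lit 195) (nat_lit 196) (nat_lit 2) (nat_lit 5) (nat_lit 12) L92842 (by decide +kernel)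
theorem L92844 : W_34 (nat_lit 6) (nat_lit 0x28001e0000000200030001000080000000000000000000000000000000) (nat_lit 0x0) (nat_lit 0x1000060000001b0001c0004000000000000000000000000000000000000000) := T_34 (nat_lit 226) (nat_lit 225) (nat_lit 1) (nat_lit 8) (nat_lit 12) L92843 (by decide +kernel)
theorem L92845 : W_34 (nat_lit 7) (nat_lit 0x8001e0000000200030001000080000000000000000000000000000000) (nat_lit 0x0) (nat_lit 0x1000660000001b0001c0004000000000000000000000000000000000000000) := T_34 (nat_lit 229) (nat_lit 230) (nat_lit 3) (nat_lit 5) (nat_lit 12) L92844 (by decide +kernel)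
theorem L92846 : W_34 (nat_lit 8) (nat_lit 0x8001e0000000200010001000080000000000000000000000000000000) (nat_lit 0x0) (nat_lit 0x1000660000001b0001c0024000000000004000000000000000000000000000) := T_34 (nat_lit 161) (nat_lit 110) (nat_lit 5) (nat_lit 8) (nat_lit 6) L92845 (by decide +kernel)
theorem L92847 : W_34 (nat_lit 10) (nat_lit 0x8001c0000000200010001000080000000000000000000000000000000) (nat_lit 0x0) (nat_lit 0x3000180067c003c01be001c0024000000000004000000000000000000000000000) := Q_34 (nat_lit 209) (C_34 L91420 (C_34 L91453 (C_34 L91479 (C_34 L91433 (C_34 L92846 N_34))))) (by decide +kernel)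
theorem L92848 : W_34 (nat_lit 11) (nat_lit 0x8000c0000000200010001000080000000000000000000000000000000) (nat_lit 0x0) (nat_lit 0x30001800e7c033c03be001c0024000000000004000000000000000000000000000) := Q_34 (nat_lit 212) (C_34 L91411 (C_34 L91415 (C_34 L91485 (C_34 L92847 N_34)))) (by decide +kernel)
theorem L92849 : W_34 (nat_lit 2) (nat_lit 0x58000e00010003800b0001000080000000000000000000000000000000) (nat_lit 0x0) (nat_lit 0x200010000400000000000000000000000000000000000000000000000000000000) := D_34 (nat_lit 244) (nat_lit 261) (nat_lit 226) (nat_lit 4) (nat_lit 6) (nat_lit 15) (nat_lit 7) (nat_lit 5) (nat_lit 10) (by decide +kernel)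
theorem L92850 : W_34 (nat_lit 3) (nat_lit 0x58000e00000003800b0001000080000000000000000000000000000000) (nat_lit 0x0) (nat_lit 0x200010000400000001000000004000000000000000000000000000000000000000) := T_34 (nat_lit 192) (nat_lit 158) (nat_lit 7) (nat_lit 5) (nat_lit 9) L92849 (by decide +kernel)
theorem L92851 : W_34 (nat_lit 4) (nat_lit 0x58000e0000000380030001000080000000000000000000000000000000) (nat_lit 0x0) (nat_lit 0x2000100004000000010000000c4000000000000000000000000000000000000000) := T_34 (nat_lit 163) (nat_lit 162) (nat_lit 1) (nat_lit 10) (nat_lit 9) L92850 (by decide +kernel)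
theorem L92852 : W_34 (nat_lit 5) (nat_lit 0x58000e0000000300030001000080000000000000000000000000000000) (nat_lit 0x0) (nat_lit 0x2000100004000000010000c00c4000000000000000000000000000000000000000) := T_34 (nat_lit 175) (nat_lit 174) (nat_lit 2) (nat_lit 4) (nat_lit 10) L92851 (by decide +kernel)
theorem L92853 : W_34 (nat_lit 6) (nat_lit 0x58000e0000000200030001000080000000000000000000000000000000) (nat_lit 0x0) (nat_lit 0x2000100004000000030001c00c4000000000000000000000000000000000000000) := T_34 (nat_lit 176) (nat_lit 193) (nat_lit 6) (nat_lit 6) (nat_lit 13) L92852 (by decide +kernel)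
theorem L92854 : W_34 (nat_lit 7) (nat_lit 0x18000e0000000200030001000080000000000000000000000000000000) (nat_lit 0x0) (nat_lit 0x2000100064000000030001c00c4000000000000000000000000000000000000000) := T_34 (nat_lit 230) (nat_lit 229) (nat_lit 0) (nat_lit 9) (nat_lit 13) L92853 (by decide +kernel)
theorem L92855 : W_34 (nat_lit 8) (nat_lit 0x18000e0000000200010001000080000000000000000000000000000000) (nat_lit 0x0) (nat_lit 0x2000100064000000030001c00e4000000000004000000000000000000000000000) := T_34 (nat_lit 161) (nat_lit 110) (nat_lit 5) (nat_lit 8) (nat_lit 6) L92854 (by decide +kernel)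
theorem L92856 : W_34 (nat_lit 10) (nat_lit 0x18000c0000000200010001000080000000000000000000000000000000) (nat_lit 0x0) (nat_lit 0x680076006700038003c001c00e4000000000004000000000000000000000000000) := Q_34 (nat_lit 209) (C_34 L91663 (C_34 L91776 (C_34 L92855 N_34))) (by decide +kernel)
theorem L92857 : W_34 (nat_lit 9) (nat_lit 0x18000c0000000200010001000080000000000000000000000000000000) (nat_lit 0x0) (nat_lit 0x700078006700038003c001c00e4000000000004000000000000000000000000000) := Q_34 (nat_lit 209) (C_34 L91663 (C_34 L92855 (C_34 L91798 N_34))) (by decide +kernel)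
theorem L92858 : W_34 (nat_lit 13) (nat_lit 0x8000c0000000200010001000080000000000000000000000000000000) (nat_lit 0x0) (nat_lit 0x1f003fc01fe00f700638013c001c00e6000000000004000000000000000000000000000) := Q_34 (nat_lit 228) (C_34 L91942 (C_34 L91662 (C_34 L91716 (C_34 L91738 (C_34 L91748 (C_34 L92856 (C_34 L92857 N_34))))))) (by decide +kernel)
theorem L92859 : W_34 (nat_lit 13) (nat_lit 0x8000c0000000200010001000080000000000000000000000000000000) (nat_lit 0x0) (nat_lit 0x1f003fc00fe007700138003e001c0004000000000000000000000000000000000000000) := Q_34 (nat_lit 209) (C_34 L91969 (C_34 L92221 (C_34 L92153 (C_34 L91972 (C_34 L91993 N_34))))) (by decide +kernel)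
theorem L92860 : W_34 (nat_lit 2) (nat_lit 0x8007c0000000200010001000080004000000000000000000000000000) (nat_lit 0x0) (nat_lit 0x1c000000000000000000000000000000000000000000000000000000000) := D_34 (nat_lit 231) (nat_lit 230) (nat_lit 232) (nat_lit 3) (nat_lit 6) (nat_lit 12) (nat_lit 3) (nat_lit 7) (nat_lit 12) (by decide +kernel)
theorem L92861 : W_34 (nat_lit 3) (nat_lit 0x8003c0000000200010001000080004000000000000000000000000000) (nat_lit 0x0) (nat_lit 0x1d000400000000000000000000000000000000000000000000000000000) := T_34 (nat_lit 214) (nat_lit 228) (nat_lit 1) (nat_lit 10) (nat_lit 12) L92860 (by decide +kernel)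
theorem L92862 : W_34 (nat_lit 4) (nat_lit 0x8001c0000000200010001000080004000000000000000000000000000) (nat_lit 0x0) (nat_lit 0x1d400600000000000000000000000000000000000000000000000000000) := T_34 (nat_lit 213) (nat_lit 226) (nat_lit 1) (nat_lit 9) (nat_lit 12) L92861 (by decide +kernel)
theorem L92863 : W_34 (nat_lit 5) (nat_lit 0x8001c0000000200010001000080000000000000000000000000000000) (nat_lit 0x0) (nat_lit 0x1d400600000000000020000000000004000000000000000000000000000) := T_34 (nat_lit 110) (nat_lit 161) (nat_lit 5) (nat_lit 8) (nat_lit 6) L92862 (by decide +kernel)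
theorem L92864 : W_34 (nat_lit 2) (nat_lit 0xc001e0009000200010001000080000000000000000000000000000000) (nat_lit 0x0) (nat_lit 0x200010000000000000000080000000000000000000000000000000000000000000) := D_34 (nat_lit 244) (nat_lit 261) (nat_lit 175) (nat_lit 4) (nat_lit 6) (nat_lit 15) (nat_lit 7) (nat_lit 5) (nat_lit 10) (by decide +kernel)
theorem L92865 : W_34 (nat_lit 3) (nat_lit 0xc001e0008000200010001000080000000000000000000000000000000) (nat_lit 0x0) (nat_lit 0x200010000000000001800080000000000000000000000000000000000000000000) := T_34 (nat_lit 192) (nat_lit 191) (nat_lit 0) (nat_lit 8) (nat_lit 12) L92864 (by decide +kernel)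
theorem L92866 : W_34 (nat_lit 4) (nat_lit 0x8001e0008000200010001000080000000000000000000000000000000) (nat_lit 0x0) (nat_lit 0x200010000600000001800080000000000000000000000000000000000000000000) := T_34 (nat_lit 226) (nat_lit 225) (nat_lit 1) (nat_lit 8) (nat_lit 12) L92865 (by decide +kernel)
theorem L92867 : W_34 (nat_lit 5) (nat_lit 0x8001e0000000200010001000080000000000000000000000000000000) (nat_lit 0x0) (nat_lit 0x200010000600000019800080000000000000000000000000000000000000000000) := T_34 (nat_lit 195) (nat_lit 196) (nat_lit 2) (nat_lit 5) (nat_lit 12) L92866 (by decide +kernel)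
theorem L92868 : W_34 (nat_lit 2) (nat_lit 0xa001f000a400200010001000080004000000000000000000000000000) (nat_lit 0x0) (nat_lit 0x1000008000200000000000000000000000000000000000000000000000) := D_34 (nat_lit 207) (nat_lit 228) (nat_lit 189) (nat_lit 3) (nat_lit 3) (nat_lit 12) (nat_lit 0) (nat_lit 6) (nat_lit 12) (by decide +kernel)
theorem L92869 : W_34 (nat_lit 3) (nat_lit 0xa001f000a000200010001000080004000000000000000000000000000) (nat_lit 0x0) (nat_lit 0x1000008000e00000000000000000000000000000000000000000000000) := T_34 (nat_lit 190) (nat_lit 191) (nat_lit 0) (nat_lit 7) (nat_lit 12) L92868 (by decide +kernel)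
theorem L92870 : W_34 (nat_lit 4) (nat_lit 0xa001e000a000200010001000080004000000000000000000000000000) (nat_lit 0x0) (nat_lit 0x1100018000e00000000000000000000000000000000000000000000000) := T_34 (nat_lit 208) (nat_lit 224) (nat_lit 1) (nat_lit 7) (nat_lit 12) L92869 (by decide +kernel)
theorem L92871 : W_34 (nat_lit 5) (nat_lit 0xa001e0008000200010001000080004000000000000000000000000000) (nat_lit 0x0) (nat_lit 0x1100018002e00100000000000000000000000000000000000000000000) := T_34 (nat_lit 193) (nat_lit 176) (nat_lit 6) (nat_lit 6) (nat_lit 13) L92870 (by decide +kernel)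
theorem L92872 : W_34 (nat_lit 6) (nat_lit 0x8001e0008000200010001000080004000000000000000000000000000) (nat_lit 0x0) (nat_lit 0x1700018002e00100000000000000000000000000000000000000000000) := T_34 (nat_lit 225) (nat_lit 226) (nat_lit 1) (nat_lit 8) (nat_lit 12) L92871 (by decide +kernel)
theorem L92873 : W_34 (nat_lit 7) (nat_lit 0x8001e0000000200010001000080004000000000000000000000000000) (nat_lit 0x0) (nat_lit 0x170001801ae00100000000000000000000000000000000000000000000) := T_34 (nat_lit 195) (nat_lit 196) (nat_lit 2) (nat_lit 5) (nat_lit 12) L92872 (by decide +kernel)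
theorem L92874 : W_34 (nat_lit 8) (nat_lit 0x8001e0000000200010001000080000000000000000000000000000000) (nat_lit 0x0) (nat_lit 0x170001801ae00100020000000000004000000000000000000000000000) := T_34 (nat_lit 110) (nat_lit 161) (nat_lit 5) (nat_lit 8) (nat_lit 6) L92873 (by decide +kernel)
theorem L92875 : W_34 (nat_lit 2) (nat_lit 0xc001e0008000380030001000080000000000000000000000000000000) (nat_lit 0x0) (nat_lit 0x10000000000001000000004000000000000000000000000000000000000000) := D_34 (nat_lit 192) (nat_lit 158) (nat_lit 244) (nat_lit 7) (nat_lit 5) (nat_lit 9) (nat_lit 7) (nat_lit 5) (nat_lit 10) (by decide +kernel)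
theorem L92876 : W_34 (nat_lit 3) (nat_lit 0xc001e0008000300030001000080000000000000000000000000000000) (nat_lit 0x0) (nat_lit 0x100000000000010000c0004000000000000000000000000000000000000000) := T_34 (nat_lit 175) (nat_lit 174) (nat_lit 2) (nat_lit 4) (nat_lit 10) L92875 (by decide +kernel)
theorem L92877 : W_34 (nat_lit 4) (nat_lit 0xc001e0008000200030001000080000000000000000000000000000000) (nat_lit 0x0) (nat_lit 0x100000000000030001c0004000000000000000000000000000000000000000) := T_34 (nat_lit 176) (nat_lit 193) (nat_lit 6) (nat_lit 6) (nat_lit 13) L92876 (by decide +kernel)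
theorem L92878 : W_34 (nat_lit 5) (nat_lit 0xc001e0000000200030001000080000000000000000000000000000000) (nat_lit 0x0) (nat_lit 0x1000000000001b0001c0004000000000000000000000000000000000000000) := T_34 (nat_lit 195) (nat_lit 196) (nat_lit 2) (nat_lit 5) (nat_lit 12) L92877 (by decide +kernel)
theorem L92879 : W_34 (nat_lit 6) (nat_lit 0xc001e0000000200010001000080000000000000000000000000000000) (nat_lit 0x0) (nat_lit 0x1000000000001b0001c0024000000000004000000000000000000000000000) := T_34 (nat_lit 161) (nat_lit 110) (nat_lit 5) (nat_lit 8) (nat_lit 6) L92878 (by decide +kernel)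
theorem L92880 : W_34 (nat_lit 7) (nat_lit 0x8001e0000000200010001000080000000000000000000000000000000) (nat_lit 0x0) (nat_lit 0x1000060000001b0001c0024000000000004000000000000000000000000000) := T_34 (nat_lit 226) (nat_lit 225) (nat_lit 1) (nat_lit 8) (nat_lit 12) L92879 (by decide +kernel)
theorem L92881 : W_34 (nat_lit 2) (nat_lit 0x8001e0003000200010001000080000000000000000000000000000000) (nat_lit 0x0) (nat_lit 0x10000000000000000080004000000000000000000000000000000000000000) := D_34 (nat_lit 175) (nat_lit 158) (nat_lit 244) (nat_lit 7) (nat_lit 5) (nat_lit 9) (nat_lit 4) (nat_lit 6) (nat_lit 14) (by decide +kernel)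
theorem L92882 : W_34 (nat_lit 3) (nat_lit 0x8001e0002000200010001000080000000000000000000000000000000) (nat_lit 0x0) (nat_lit 0x10000000000001800080004000000000000000000000000000000000000000) := T_34 (nat_lit 192) (nat_lit 191) (nat_lit 0) (nat_lit 8) (nat_lit 12) L92881 (by decide +kernel)
theorem L92883 : W_34 (nat_lit 4) (nat_lit 0x8001e0000000200010001000080000000000000000000000000000000) (nat_lit 0x0) (nat_lit 0x10000000000003800180004000000000000000000000000000000000000000) := T_34 (nat_lit 193) (nat_lit 176) (nat_lit 6) (nat_lit 6) (nat_lit 13) L92882 (by decide +kernel)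
theorem L92884 : W_34 (nat_lit 9) (nat_lit 0x8001c0000000200010001000080000000000000000000000000000000) (nat_lit 0x0) (nat_lit 0x20001000170003801be001c0024000000000004000000000000000000000000000) := Q_34 (nat_lit 209) (C_34 L92867 (C_34 L92874 (C_34 L91433 (C_34 L92880 (C_34 L92883 N_34))))) (by decide +kernel)
theorem L92885 : W_34 (nat_lit 2) (nat_lit 0x8007c0002000200010001000080004000000000000000000000000000) (nat_lit 0x0) (nat_lit 0x1c000000000000000000000000000000000000000000000000000000000) := D_34 (nat_lit 231) (nat_lit 230) (nat_lit 232) (nat_lit 3) (nat_lit 6) (nat_lit 12) (nat_lit 3) (nat_lit 7) (nat_lit 12) (by decide +kernel)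
theorem L92886 : W_34 (nat_lit 3) (nat_lit 0x8003c0002000200010001000080004000000000000000000000000000) (nat_lit 0x0) (nat_lit 0x1d000400000000000000000000000000000000000000000000000000000) := T_34 (nat_lit 214) (nat_lit 228) (nat_lit 1) (nat_lit 10) (nat_lit 12) L92885 (by decide +kernel)
theorem L92887 : W_34 (nat_lit 4) (nat_lit 0x8001c0002000200010001000080004000000000000000000000000000) (nat_lit 0x0) (nat_lit 0x1d000600001000000000000000000000000000000000000000000000000) := T_34 (nat_lit 213) (nat_lit 192) (nat_lit 0) (nat_lit 9) (nat_lit 12) L92886 (by decide +kernel)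
theorem L92888 : W_34 (nat_lit 5) (nat_lit 0x8001c0000000200010001000080004000000000000000000000000000) (nat_lit 0x0) (nat_lit 0x1d000600003000100000000000000000000000000000000000000000000) := T_34 (nat_lit 193) (nat_lit 176) (nat_lit 6) (nat_lit 6) (nat_lit 13) L92887 (by decide +kernel)
theorem L92889 : W_34 (nat_lit 6) (nat_lit 0x8001c0000000200010001000080000000000000000000000000000000) (nat_lit 0x0) (nat_lit 0x1d000600003000100020000000000004000000000000000000000000000) := T_34 (nat_lit 110) (nat_lit 161) (nat_lit 5) (nat_lit 8) (nat_lit 6) L92888 (by decide +kernel)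
theorem L92890 : W_34 (nat_lit 10) (nat_lit 0x8000c0000000200010001000080000000000000000000000000000000) (nat_lit 0x0) (nat_lit 0x20001001d70073801be001c0024000000000004000000000000000000000000000) := Q_34 (nat_lit 212) (C_34 L91411 (C_34 L92863 (C_34 L92884 (C_34 L92889 N_34)))) (by decide +kernel)
theorem L92891 : W_34 (nat_lit 2) (nat_lit 0x2c001e00088003400b0001000080000000000000000000000000000000) (nat_lit 0x0) (nat_lit 0x10000400000002000000000000000000000000000000000000000) := D_34 (nat_lit 208) (nat_lit 190) (nat_lit 157) (nat_lit 0) (nat_lit 7) (nat_lit 12) (nat_lit 7) (nat_lit 4) (nat_lit 9) (by decide +kernel)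
theorem L92892 : W_34 (nat_lit 3) (nat_lit 0x2c001e00080003400b0001000080000000000000000000000000000000) (nat_lit 0x0) (nat_lit 0x10001c00000002000000000000000000000000000000000000000) := T_34 (nat_lit 191) (nat_lit 192) (nat_lit 0) (nat_lit 8) (nat_lit 12) L92891 (by decide +kernel)
theorem L92893 : W_34 (nat_lit 4) (nat_lit 0x2c001e00080003000b0001000080000000000000000000000000000000) (nat_lit 0x0) (nat_lit 0x10001c000c0002000000000000000000000000000000000000000) := T_34 (nat_lit 174) (nat_lit 175) (nat_lit 2) (nat_lit 4) (nat_lit 10) L92892 (by decide +kernel)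
theorem L92894 : W_34 (nat_lit 5) (nat_lit 0xc001e00080003000b0001000080000000000000000000000000000000) (nat_lit 0x0) (nat_lit 0x6000010001c000c0002000000000000000000000000000000000000000) := T_34 (nat_lit 229) (nat_lit 230) (nat_lit 3) (nat_lit 5) (nat_lit 12) L92893 (by decide +kernel)
theorem L92895 : W_34 (nat_lit 6) (nat_lit 0xc001e0008000300030001000080000000000000000000000000000000) (nat_lit 0x0) (nat_lit 0x6000010001c000c00c2000000000000000000000000000000000000000) := T_34 (nat_lit 163) (nat_lit 162) (nat_lit 1) (nat_lit 10) (nat_lit 9) L92894 (by decide +kernel)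
theorem L92896 : W_34 (nat_lit 7) (nat_lit 0xc001e0000000300030001000080000000000000000000000000000000) (nat_lit 0x0) (nat_lit 0x6000010019c000c00c2000000000000000000000000000000000000000) := T_34 (nat_lit 195) (nat_lit 196) (nat_lit 2) (nat_lit 5) (nat_lit 12) L92895 (by decide +kernel)
theorem L92897 : W_34 (nat_lit 8) (nat_lit 0xc001e0000000200030001000080000000000000000000000000000000) (nat_lit 0x0) (nat_lit 0x600001001bc001c00c2000000000000000000000000000000000000000) := T_34 (nat_lit 176) (nat_lit 193) (nat_lit 6) (nat_lit 6) (nat_lit 13) L92896 (by decide +kernel)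
theorem L92898 : W_34 (nat_lit 9) (nat_lit 0xc000e0000000200030001000080000000000000000000000000000000) (nat_lit 0x0) (nat_lit 0x600031001bc001c00c2000000000000000000000000000000000000000) := T_34 (nat_lit 212) (nat_lit 213) (nat_lit 1) (nat_lit 9) (nat_lit 12) L92897 (by decide +kernel)
theorem L92899 : W_34 (nat_lit 10) (nat_lit 0xc000e0000000200010001000080000000000000000000000000000000) (nat_lit 0x0) (nat_lit 0x600031001bc001c00e2000000000004000000000000000000000000000) := T_34 (nat_lit 161) (nat_lit 110) (nat_lit 5) (nat_lit 8) (nat_lit 6) L92898 (by decide +kernel)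
theorem L92900 : W_34 (nat_lit 2) (nat_lit 0x8002c001e000b000200010001000080004000000000000000000000000000) (nat_lit 0x0) (nat_lit 0x80004001000000000000000000000000000000000000000000000000000000000) := D_34 (nat_lit 242) (nat_lit 228) (nat_lit 259) (nat_lit 1) (nat_lit 8) (nat_lit 13) (nat_lit 5) (nat_lit 5) (nat_lit 11) (by decide +kernel)
theorem L92901 : W_34 (nat_lit 3) (nat_lit 0x8000c001e000b000200010001000080004000000000000000000000000000) (nat_lit 0x0) (nat_lit 0x80004007000000000000000000000000000000000000000000000000000000000) := T_34 (nat_lit 229) (nat_lit 230) (nat_lit 3) (nat_lit 5) (nat_lit 12) L92900 (by decide +kernel)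
theorem L92902 : W_34 (nat_lit 4) (nat_lit 0x8000c001e000a000200010001000080004000000000000000000000000000) (nat_lit 0x0) (nat_lit 0x80004007000000001800000000000000000000000000000000000000000000000) := T_34 (nat_lit 192) (nat_lit 191) (nat_lit 0) (nat_lit 8) (nat_lit 12) L92901 (by decide +kernel)
theorem L92903 : W_34 (nat_lit 5) (nat_lit 0x8000c001e0002000200010001000080004000000000000000000000000000) (nat_lit 0x0) (nat_lit 0x80004007000000019800000000000000000000000000000000000000000000000) := T_34 (nat_lit 195) (nat_lit 196) (nat_lit 2) (nat_lit 5) (nat_lit 12) L92902 (by decide +kernel)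
theorem L92904 : W_34 (nat_lit 6) (nat_lit 0x8000c001e0002000200010001000080000000000000000000000000000000) (nat_lit 0x0) (nat_lit 0x80004007000000019800000020000000000004000000000000000000000000000) := T_34 (nat_lit 110) (nat_lit 161) (nat_lit 5) (nat_lit 8) (nat_lit 6) L92903 (by decide +kernel)
theorem L92905 : W_34 (nat_lit 7) (nat_lit 0x8000c000e0002000200010001000080000000000000000000000000000000) (nat_lit 0x0) (nat_lit 0x80004007000300019800000020000000000004000000000000000000000000000) := T_34 (nat_lit 212) (nat_lit 213) (nat_lit 1) (nat_lit 9) (nat_lit 12) L92904 (by decide +kernel)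
theorem L92906 : W_34 (nat_lit 8) (nat_lit 0xc000e0002000200010001000080000000000000000000000000000000) (nat_lit 0x0) (nat_lit 0x18000c007000300019800000020000000000004000000000000000000000000000) := T_34 (nat_lit 243) (nat_lit 260) (nat_lit 6) (nat_lit 5) (nat_lit 15) L92905 (by decide +kernel)
theorem L92907 : W_34 (nat_lit 9) (nat_lit 0xc000e0000000200010001000080000000000000000000000000000000) (nat_lit 0x0) (nat_lit 0x18000c00700030001b800100020000000000004000000000000000000000000000) := T_34 (nat_lit 193) (nat_lit 176) (nat_lit 6) (nat_lit 6) (nat_lit 13) L92906 (by decide +kernel)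
theorem L92908 : W_34 (nat_lit 11) (nat_lit 0xc000c0000000200010001000080000000000000000000000000000000) (nat_lit 0x0) (nat_lit 0x18000d800ec00700033c01bc001c00e2000000000004000000000000000000000000000) := Q_34 (nat_lit 209) (C_34 L91315 (C_34 L92036 (C_34 L92899 (C_34 L92013 (C_34 L91294 (C_34 L92907 N_34)))))) (by decide +kernel)
theorem L92909 : W_34 (nat_lit 12) (nat_lit 0x8000c0000000200010001000080000000000000000000000000000000) (nat_lit 0x0) (nat_lit 0x1a000d801ee00f70033c01bc001c00e2000000000004000000000000000000000000000) := Q_34 (nat_lit 226) (C_34 L91299 (C_34 L92125 (C_34 L91297 (C_34 L92908 N_34)))) (by decide +kernel)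
theorem L92910 : W_34 (nat_lit 2) (nat_lit 0x2a001f0010800340070001000080000000000000000000000000000000) (nat_lit 0x0) (nat_lit 0x200020000800000000000000000000000000000000000000000000) := D_34 (nat_lit 213) (nat_lit 197) (nat_lit 179) (nat_lit 2) (nat_lit 6) (nat_lit 12) (nat_lit 5) (nat_lit 9) (nat_lit 9) (by decide +kernel)
theorem L92911 : W_34 (nat_lit 3) (nat_lit 0x2a001f0000800340070001000080000000000000000000000000000000) (nat_lit 0x0) (nat_lit 0x200038000800000000000000000000000000000000000000000000) := T_34 (nat_lit 196) (nat_lit 195) (nat_lit 2) (nat_lit 5) (nat_lit 12) L92910 (by decide +kernel)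
theorem L92912 : W_34 (nat_lit 4) (nat_lit 0x2a000f0000800340070001000080000000000000000000000000000000) (nat_lit 0x0) (nat_lit 0x4000300038000800000000000000000000000000000000000000000000) := T_34 (nat_lit 212) (nat_lit 230) (nat_lit 3) (nat_lit 5) (nat_lit 12) L92911 (by decide +kernel)
theorem L92913 : W_34 (nat_lit 5) (nat_lit 0x2a000f0000000340070001000080000000000000000000000000000000) (nat_lit 0x0) (nat_lit 0x4000300038c00800000000000000000000000000000000000000000000) := T_34 (nat_lit 191) (nat_lit 190) (nat_lit 0) (nat_lit 7) (nat_lit 12) L92912 (by decide +kernel)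
theorem L92914 : W_34 (nat_lit 6) (nat_lit 0x2a000f0000000300070001000080000000000000000000000000000000) (nat_lit 0x0) (nat_lit 0x4000300038c008c0000000000000000000000000000000000000000000) := T_34 (nat_lit 174) (nat_lit 175) (nat_lit 2) (nat_lit 4) (nat_lit 10) L92913 (by decide +kernel)
theorem L92915 : W_34 (nat_lit 7) (nat_lit 0x28000f0000000300070001000080000000000000000000000000000000) (nat_lit 0x0) (nat_lit 0x4300300038c008c0000000000000000000000000000000000000000000) := T_34 (nat_lit 225) (nat_lit 224) (nat_lit 1) (nat_lit 7) (nat_lit 12) L92914 (by decide +kernel)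
theorem L92916 : W_34 (nat_lit 8) (nat_lit 0x28000f0000000300030001000080000000000000000000000000000000) (nat_lit 0x0) (nat_lit 0x4300300038c008c00c0000000000000000000000000000000000000000) := T_34 (nat_lit 162) (nat_lit 163) (nat_lit 1) (nat_lit 10) (nat_lit 9) L92915 (by decide +kernel)
theorem L92917 : W_34 (nat_lit 9) (nat_lit 0x8000f0000000300030001000080000000000000000000000000000000) (nat_lit 0x0) (nat_lit 0x7300300038c008c00c0000000000000000000000000000000000000000) := T_34 (nat_lit 229) (nat_lit 228) (nat_lit 3) (nat_lit 4) (nat_lit 12) L92916 (by decide +kernel)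
theorem L92918 : W_34 (nat_lit 10) (nat_lit 0x8000f0000000200030001000080000000000000000000000000000000) (nat_lit 0x0) (nat_lit 0x730030003ac009c00c0000000000000000000000000000000000000000) := T_34 (nat_lit 176) (nat_lit 193) (nat_lit 6) (nat_lit 6) (nat_lit 13) L92917 (by decide +kernel)
theorem L92919 : W_34 (nat_lit 11) (nat_lit 0x8000f0000000200010001000080000000000000000000000000000000) (nat_lit 0x0) (nat_lit 0x730030003ac009c00e0000000000004000000000000000000000000000) := T_34 (nat_lit 161) (nat_lit 110) (nat_lit 5) (nat_lit 8) (nat_lit 6) L92918 (by decide +kernel)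
theorem L92920 : W_34 (nat_lit 12) (nat_lit 0x8000e0000000200010001000080000000000000000000000000000000) (nat_lit 0x0) (nat_lit 0x738031803ae009c00e0000000000004000000000000000000000000000) := Q_34 (nat_lit 208) (C_34 L92160 (C_34 L92151 (C_34 L91965 (C_34 L92919 N_34)))) (by decide +kernel)
theorem L92921 : W_34 (nat_lit 13) (nat_lit 0x8000c0000000200010001000080000000000000000000000000000000) (nat_lit 0x0) (nat_lit 0x60007c003e00f38033803be009c00e4000000000004000000000000000000000000000) := Q_34 (nat_lit 209) (C_34 L92152 (C_34 L92228 (C_34 L92221 (C_34 L92920 (C_34 L92153 N_34))))) (by decide +kernel)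
theorem L92922 : W_34 (nat_lit 13) (nat_lit 0x8000c0000000200010001000080000000000000000000000000000000) (nat_lit 0x0) (nat_lit 0x1e001fc00ff00178033c01be001c0026000000000004000000000000000000000000000) := Q_34 (nat_lit 226) (C_34 L91299 (C_34 L92841 (C_34 L92104 N_34))) (by decide +kernel)
theorem L92923 : W_34 (nat_lit 2) (nat_lit 0x28001f0000000200010001000080000000000000000000000000000000) (nat_lit 0x0) (nat_lit 0x1c00000000000000000000000000000000000000000000000) := D_34 (nat_lit 191) (nat_lit 190) (nat_lit 192) (nat_lit 0) (nat_lit 7) (nat_lit 12) (nat_lit 0) (nat_lit 8) (nat_lit 12) (by decide +kernel)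
theorem L92924 : W_34 (nat_lit 3) (nat_lit 0x28001e0000000200010001000080000000000000000000000000000000) (nat_lit 0x0) (nat_lit 0x1000010001c00000000000000000000000000000000000000000000000) := T_34 (nat_lit 208) (nat_lit 228) (nat_lit 3) (nat_lit 4) (nat_lit 12) L92923 (by decide +kernel)
theorem L92925 : W_34 (nat_lit 4) (nat_lit 0x8001e0000000200010001000080000000000000000000000000000000) (nat_lit 0x0) (nat_lit 0x7000010001c00000000000000000000000000000000000000000000000) := T_34 (nat_lit 229) (nat_lit 230) (nat_lit 3) (nat_lit 5) (nat_lit 12) L92924 (by decide +kernel)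
theorem L92926 : W_34 (nat_lit 2) (nat_lit 0x28001f00090003800b0001000080000000000000000000000000000000) (nat_lit 0x0) (nat_lit 0x200010000400000000000000000000000000000000000000000000000000000000) := D_34 (nat_lit 244) (nat_lit 261) (nat_lit 226) (nat_lit 4) (nat_lit 6) (nat_lit 15) (nat_lit 7) (nat_lit 5) (nat_lit 10) (by decide +kernel)
theorem L92927 : W_34 (nat_lit 3) (nat_lit 0x28001f00080003800b0001000080000000000000000000000000000000) (nat_lit 0x0) (nat_lit 0x200010000400000001000000004000000000000000000000000000000000000000) := T_34 (nat_lit 192) (nat_lit 158) (nat_lit 7) (nat_lit 5) (nat_lit 9) L92926 (by decide +kernel)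
theorem L92928 : W_34 (nat_lit 4) (nat_lit 0x28001f0008000380030001000080000000000000000000000000000000) (nat_lit 0x0) (nat_lit 0x2000100004000000010000000c4000000000000000000000000000000000000000) := T_34 (nat_lit 163) (nat_lit 162) (nat_lit 1) (nat_lit 10) (nat_lit 9) L92927 (by decide +kernel)
theorem L92929 : W_34 (nat_lit 5) (nat_lit 0x28001f0008000300030001000080000000000000000000000000000000) (nat_lit 0x0) (nat_lit 0x2000100004000000010000c00c4000000000000000000000000000000000000000) := T_34 (nat_lit 175) (nat_lit 174) (nat_lit 2) (nat_lit 4) (nat_lit 10) L92928 (by decide +kernel)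
theorem L92930 : W_34 (nat_lit 6) (nat_lit 0x28001f0008000300010001000080000000000000000000000000000000) (nat_lit 0x0) (nat_lit 0x2000100004000000010000c00e4000000000004000000000000000000000000000) := T_34 (nat_lit 161) (nat_lit 110) (nat_lit 5) (nat_lit 8) (nat_lit 6) L92929 (by decide +kernel)
theorem L92931 : W_34 (nat_lit 7) (nat_lit 0x28001f0008000200010001000080000000000000000000000000000000) (nat_lit 0x0) (nat_lit 0x2000100004000000030001c00e4000000000004000000000000000000000000000) := T_34 (nat_lit 176) (nat_lit 193) (nat_lit 6) (nat_lit 6) (nat_lit 13) L92930 (by decide +kernel)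
theorem L92932 : W_34 (nat_lit 8) (nat_lit 0x28001e0008000200010001000080000000000000000000000000000000) (nat_lit 0x0) (nat_lit 0x2000100014000100030001c00e4000000000004000000000000000000000000000) := T_34 (nat_lit 208) (nat_lit 228) (nat_lit 3) (nat_lit 4) (nat_lit 12) L92931 (by decide +kernel)
theorem L92933 : W_34 (nat_lit 9) (nat_lit 0x8001e0008000200010001000080000000000000000000000000000000) (nat_lit 0x0) (nat_lit 0x2000100074000100030001c00e4000000000004000000000000000000000000000) := T_34 (nat_lit 229) (nat_lit 230) (nat_lit 3) (nat_lit 5) (nat_lit 12) L92932 (by decide +kernel)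
theorem L92934 : W_34 (nat_lit 10) (nat_lit 0x8001e0000000200010001000080000000000000000000000000000000) (nat_lit 0x0) (nat_lit 0x20001000740001001b0001c00e4000000000004000000000000000000000000000) := T_34 (nat_lit 195) (nat_lit 196) (nat_lit 2) (nat_lit 5) (nat_lit 12) L92933 (by decide +kernel)
theorem L92935 : W_34 (nat_lit 11) (nat_lit 0x8001c0000000200010001000080000000000000000000000000000000) (nat_lit 0x0) (nat_lit 0x2000100075c003c01be001c00e4000000000004000000000000000000000000000) := Q_34 (nat_lit 209) (C_34 L92883 (C_34 L92293 (C_34 L92925 (C_34 L92934 N_34)))) (by decide +kernel)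
theorem L92936 : W_34 (nat_lit 12) (nat_lit 0x8000c0000000200010001000080000000000000000000000000000000) (nat_lit 0x0) (nat_lit 0x20001001f5c073c03be001c00e4000000000004000000000000000000000000000) := Q_34 (nat_lit 212) (C_34 L92863 (C_34 L92889 (C_34 L91485 (C_34 L92935 (C_34 L91411 N_34))))) (by decide +kernel)
theorem L92937 : W_34 (nat_lit 3) (nat_lit 0x2000400028001e000c0000000200010001000080000000000000000000000000000000) (nat_lit 0x0) (nat_lit 0x10000800016000000000000000000000000000000000000000000000000000000000000) := T_34 (nat_lit 242) (nat_lit 241) (nat_lit 1) (nat_lit 7) (nat_lit 13) L92112 (by decide +kernel)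
theorem L92938 : W_34 (nat_lit 4) (nat_lit 0x2000000028001e000c0000000200010001000080000000000000000000000000000000) (nat_lit 0x0) (nat_lit 0x18000c00016000000000000000000000000000000000000000000000000000000000000) := T_34 (nat_lit 262) (nat_lit 279) (nat_lit 4) (nat_lit 7) (nat_lit 16) L92937 (by decide +kernel)
theorem L92939 : W_34 (nat_lit 5) (nat_lit 0x2000000008001e000c0000000200010001000080000000000000000000000000000000) (nat_lit 0x0) (nat_lit 0x18000c00076000000000000000000000000000000000000000000000000000000000000) := T_34 (nat_lit 245) (nat_lit 246) (nat_lit 3) (nat_lit 4) (nat_lit 13) L92938 (by decide +kernel)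
theorem L92940 : W_34 (nat_lit 6) (nat_lit 0x8001e000c0000000200010001000080000000000000000000000000000000) (nat_lit 0x0) (nat_lit 0x1a000d00076000000000000000000000000000000000000000000000000000000000000) := T_34 (nat_lit 277) (nat_lit 260) (nat_lit 6) (nat_lit 5) (nat_lit 16) L92939 (by decide +kernel)
theorem L92941 : W_34 (nat_lit 7) (nat_lit 0x8001c000c0000000200010001000080000000000000000000000000000000) (nat_lit 0x0) (nat_lit 0x1a000d00076000300000000000000000000000000000000000000000000000000000000) := T_34 (nat_lit 225) (nat_lit 224) (nat_lit 2) (nat_lit 3) (nat_lit 13) L92940 (by decide +kernel)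
theorem L92942 : W_34 (nat_lit 2) (nat_lit 0x2000e00038001e000e0000000200010001000080004000000000000000000000000000) (nat_lit 0x0) (nat_lit 0x6000010000000000000000000000000000000000000000000000000000) := D_34 (nat_lit 229) (nat_lit 230) (nat_lit 208) (nat_lit 1) (nat_lit 9) (nat_lit 13) (nat_lit 3) (nat_lit 4) (nat_lit 12) (by decide +kernel)
theorem L92943 : W_34 (nat_lit 3) (nat_lit 0x2000e00038001e000c0000000200010001000080004000000000000000000000000000) (nat_lit 0x0) (nat_lit 0x6000030001000000000000000000000000000000000000000000000000) := T_34 (nat_lit 209) (nat_lit 192) (nat_lit 7) (nat_lit 5) (nat_lit 11) L92942 (by decide +kernel)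
theorem L92944 : W_34 (nat_lit 4) (nat_lit 0x2000e00028001e000c0000000200010001000080004000000000000000000000000000) (nat_lit 0x0) (nat_lit 0x1000010006000030001000000000000000000000000000000000000000000000000) := T_34 (nat_lit 244) (nat_lit 264) (nat_lit 0) (nat_lit 9) (nat_lit 15) L92943 (by decide +kernel)
theorem L92945 : W_34 (nat_lit 5) (nat_lit 0x2000600028001e000c0000000200010001000080004000000000000000000000000000) (nat_lit 0x0) (nat_lit 0x10001800010006000030001000000000000000000000000000000000000000000000000) := T_34 (nat_lit 263) (nat_lit 280) (nat_lit 7) (nat_lit 7) (nat_lit 12) L92944 (by decide +kernel)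
theorem L92946 : W_34 (nat_lit 6) (nat_lit 0x2000400028001e000c0000000200010001000080004000000000000000000000000000) (nat_lit 0x0) (nat_lit 0x14001a00010006000030001000000000000000000000000000000000000000000000000) := T_34 (nat_lit 261) (nat_lit 278) (nat_lit 5) (nat_lit 7) (nat_lit 12) L92945 (by decide +kernel)
theorem L92947 : W_34 (nat_lit 7) (nat_lit 0x2000000028001e000c0000000200010001000080004000000000000000000000000000) (nat_lit 0x0) (nat_lit 0x1c001e00010006000030001000000000000000000000000000000000000000000000000) := T_34 (nat_lit 262) (nat_lit 279) (nat_lit 4) (nat_lit 7) (nat_lit 16) L92946 (by decide +kernel)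
theorem L92948 : W_34 (nat_lit 8) (nat_lit 0x2000000008001e000c0000000200010001000080004000000000000000000000000000) (nat_lit 0x0) (nat_lit 0x1c001e00070006000030001000000000000000000000000000000000000000000000000) := T_34 (nat_lit 245) (nat_lit 246) (nat_lit 3) (nat_lit 4) (nat_lit 13) L92947 (by decide +kernel)
theorem L92949 : W_34 (nat_lit 9) (nat_lit 0x2000000008001e000c0000000200010001000080000000000000000000000000000000) (nat_lit 0x0) (nat_lit 0x1c001e00070006000030001000000020000000000004000000000000000000000000000) := T_34 (nat_lit 110) (nat_lit 161) (nat_lit 5) (nat_lit 8) (nat_lit 6) L92948 (by decide +kernel)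
theorem L92950 : W_34 (nat_lit 10) (nat_lit 0x2000000008001c000c0000000200010001000080000000000000000000000000000000) (nat_lit 0x0) (nat_lit 0x1c001e00070006300030001000000020000000000004000000000000000000000000000) := T_34 (nat_lit 225) (nat_lit 224) (nat_lit 2) (nat_lit 3) (nat_lit 13) L92949 (by decide +kernel)
theorem L92951 : W_34 (nat_lit 11) (nat_lit 0x8001c000c0000000200010001000080000000000000000000000000000000) (nat_lit 0x0) (nat_lit 0x1e001f00070006300030001000000020000000000004000000000000000000000000000) := T_34 (nat_lit 277) (nat_lit 260) (nat_lit 6) (nat_lit 5) (nat_lit 16) L92950 (by decide +kernel)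
theorem L92952 : W_34 (nat_lit 12) (nat_lit 0x8000c000c0000000200010001000080000000000000000000000000000000) (nat_lit 0x0) (nat_lit 0x1e001f000f600f300030001000000020000000000004000000000000000000000000000) := Q_34 (nat_lit 228) (C_34 L91825 (C_34 L92941 (C_34 L91816 (C_34 L91804 (C_34 L92951 N_34))))) (by decide +kernel)
theorem L92953 : W_34 (nat_lit 13) (nat_lit 0xc000c0000000200010001000080000000000000000000000000000000) (nat_lit 0x0) (nat_lit 0x1e001f000fe00f300030003000100020000000000004000000000000000000000000000) := Q_34 (nat_lit 243) (C_34 L92121 (C_34 L92952 (C_34 L92106 (C_34 L91801 N_34)))) (by decide +kernel)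
theorem L92954 : W_34 (nat_lit 14) (nat_lit 0x8000c0000000200010001000080000000000000000000000000000000) (nat_lit 0x0) (nat_lit 0x1e001fc00ff00f70033001bc001c0020000000000004000000000000000000000000000) := Q_34 (nat_lit 226) (C_34 L91299 (C_34 L92104 (C_34 L91297 (C_34 L92953 N_34)))) (by decide +kernel)
theorem L92955 : W_34 (nat_lit 2) (nat_lit 0x2c001f800a000200010001000080000000000000000000000000000000) (nat_lit 0x0) (nat_lit 0xe00000000000000000000000000000000000000000000000) := D_34 (nat_lit 190) (nat_lit 191) (nat_lit 189) (nat_lit 0) (nat_lit 7) (nat_lit 12) (nat_lit 0) (nat_lit 6) (nat_lit 12) (by decide +kernel)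
theorem L92956 : W_34 (nat_lit 3) (nat_lit 0x2c001f000a000200010001000080000000000000000000000000000000) (nat_lit 0x0) (nat_lit 0xc000e00000000000000000000000000000000000000000000000) := T_34 (nat_lit 207) (nat_lit 206) (nat_lit 3) (nat_lit 2) (nat_lit 12) L92955 (by decide +kernel)
theorem L92957 : W_34 (nat_lit 4) (nat_lit 0x2c001e000a000200010001000080000000000000000000000000000000) (nat_lit 0x0) (nat_lit 0x100001c000e00000000000000000000000000000000000000000000000) := T_34 (nat_lit 208) (nat_lit 228) (nat_lit 3) (nat_lit 4) (nat_lit 12) L92956 (by decide +kernel)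
theorem L92958 : W_34 (nat_lit 5) (nat_lit 0xc001e000a000200010001000080000000000000000000000000000000) (nat_lit 0x0) (nat_lit 0x700001c000e00000000000000000000000000000000000000000000000) := T_34 (nat_lit 229) (nat_lit 230) (nat_lit 3) (nat_lit 5) (nat_lit 12) L92957 (by decide +kernel)
theorem L92959 : W_34 (nat_lit 6) (nat_lit 0x8001e000a000200010001000080000000000000000000000000000000) (nat_lit 0x0) (nat_lit 0x760001c000e00000000000000000000000000000000000000000000000) := T_34 (nat_lit 226) (nat_lit 225) (nat_lit 1) (nat_lit 8) (nat_lit 12) L92958 (by decide +kernel)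
theorem L92960 : W_34 (nat_lit 7) (nat_lit 0x8001e0002000200010001000080000000000000000000000000000000) (nat_lit 0x0) (nat_lit 0x760001c018e00000000000000000000000000000000000000000000000) := T_34 (nat_lit 195) (nat_lit 196) (nat_lit 2) (nat_lit 5) (nat_lit 12) L92959 (by decide +kernel)
theorem L92961 : W_34 (nat_lit 8) (nat_lit 0x8001e0000000200010001000080000000000000000000000000000000) (nat_lit 0x0) (nat_lit 0x760001c01ae00100000000000000000000000000000000000000000000) := T_34 (nat_lit 193) (nat_lit 176) (nat_lit 6) (nat_lit 6) (nat_lit 13) L92960 (by decide +kernel)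
theorem L92962 : W_34 (nat_lit 11) (nat_lit 0x8001c0000000200010001000080000000000000000000000000000000) (nat_lit 0x0) (nat_lit 0x20001000760003c01be001c00e4000000000004000000000000000000000000000) := Q_34 (nat_lit 209) (C_34 L92883 (C_34 L92925 (C_34 L92934 (C_34 L92961 N_34)))) (by decide +kernel)
theorem L92963 : W_34 (nat_lit 12) (nat_lit 0x8000c0000000200010001000080000000000000000000000000000000) (nat_lit 0x0) (nat_lit 0x20001001f60073c03be001c00e4000000000004000000000000000000000000000) := Q_34 (nat_lit 212) (C_34 L92863 (C_34 L92889 (C_34 L91485 (C_34 L92962 (C_34 L91411 N_34))))) (by decide +kernel)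
theorem L92964 : W_34 (nat_lit 15) (nat_lit 0xc0000000200010001000080000000000000000000000000000000) (nat_lit 0x0) (nat_lit 0x3f003fe01ff01ffc073c03be009c00e6000000000004000000000000000000000000000) := Q_34 (nat_lit 227) (C_34 L91356 (C_34 L92299 (C_34 L92848 (C_34 L91569 (C_34 L91600 (C_34 L92858 (C_34 L91954 (C_34 L92859 (C_34 L92029 (C_34 L92890 (C_34 L92123 (C_34 L92909 (C_34 L92921 (C_34 L92922 (C_34 L92936 (C_34 L92954 (C_34 L92963 N_34))))))))))))))))) (by decide +kernel)
theorem L92965 : W_34 (nat_lit 2) (nat_lit 0x2c001f8000000200010001000080004000000000000000000000000000) (nat_lit 0x0) (nat_lit 0xe00000000000000000000000000000000000000000000000) := D_34 (nat_lit 190) (nat_lit 191) (nat_lit 189) (nat_lit 0) (nat_lit 7) (nat_lit 12) (nat_lit 0) (nat_lit 6) (nat_lit 12) (by decide +kernel)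
theorem L92966 : W_34 (nat_lit 3) (nat_lit 0x2c001f0000000200010001000080004000000000000000000000000000) (nat_lit 0x0) (nat_lit 0xc000e00000000000000000000000000000000000000000000000) := T_34 (nat_lit 207) (nat_lit 206) (nat_lit 3) (nat_lit 2) (nat_lit 12) L92965 (by decide +kernel)
theorem L92967 : W_34 (nat_lit 4) (nat_lit 0x2c001e0000000200010001000080004000000000000000000000000000) (nat_lit 0x0) (nat_lit 0x100001c000e00000000000000000000000000000000000000000000000) := T_34 (nat_lit 208) (nat_lit 228) (nat_lit 3) (nat_lit 4) (nat_lit 12) L92966 (by decide +kernel)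
theorem L92968 : W_34 (nat_lit 5) (nat_lit 0xc001e0000000200010001000080004000000000000000000000000000) (nat_lit 0x0) (nat_lit 0x700001c000e00000000000000000000000000000000000000000000000) := T_34 (nat_lit 229) (nat_lit 230) (nat_lit 3) (nat_lit 5) (nat_lit 12) L92967 (by decide +kernel)
theorem L92969 : W_34 (nat_lit 6) (nat_lit 0xc000e0000000200010001000080004000000000000000000000000000) (nat_lit 0x0) (nat_lit 0x700031c000e00000000000000000000000000000000000000000000000) := T_34 (nat_lit 212) (nat_lit 213) (nat_lit 1) (nat_lit 9) (nat_lit 12) L92968 (by decide +kernel)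
theorem L92970 : W_34 (nat_lit 7) (nat_lit 0xc000e0000000200010001000080000000000000000000000000000000) (nat_lit 0x0) (nat_lit 0x700031c000e00000020000000000004000000000000000000000000000) := T_34 (nat_lit 110) (nat_lit 161) (nat_lit 5) (nat_lit 8) (nat_lit 6) L92969 (by decide +kernel)
theorem L92971 : W_34 (nat_lit 2) (nat_lit 0x48003c001e0000000200010001000080004000000000000000000000000000) (nat_lit 0x0) (nat_lit 0x2000100000000000000002000000000000000000000000000000000000000000000000) := D_34 (nat_lit 260) (nat_lit 193) (nat_lit 277) (nat_lit 6) (nat_lit 5) (nat_lit 15) (nat_lit 6) (nat_lit 5) (nat_lit 16) (by decide +kernel)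
theorem L92972 : W_34 (nat_lit 3) (nat_lit 0x40003c001e0000000200010001000080004000000000000000000000000000) (nat_lit 0x0) (nat_lit 0x200010000c000000000002000000000000000000000000000000000000000000000000) := T_34 (nat_lit 243) (nat_lit 242) (nat_lit 1) (nat_lit 8) (nat_lit 13) L92971 (by decide +kernel)
theorem L92973 : W_34 (nat_lit 4) (nat_lit 0x3c001e0000000200010001000080004000000000000000000000000000) (nat_lit 0x0) (nat_lit 0x20001000cc000000000002000000000000000000000000000000000000000000000000) := T_34 (nat_lit 246) (nat_lit 247) (nat_lit 3) (nat_lit 5) (nat_lit 13) L92972 (by decide +kernel)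
theorem L92974 : W_34 (nat_lit 5) (nat_lit 0x2c001e0000000200010001000080004000000000000000000000000000) (nat_lit 0x0) (nat_lit 0x20001000cc001000010002000000000000000000000000000000000000000000000000) := T_34 (nat_lit 228) (nat_lit 208) (nat_lit 3) (nat_lit 4) (nat_lit 12) L92973 (by decide +kernel)
theorem L92975 : W_34 (nat_lit 6) (nat_lit 0xc001e0000000200010001000080004000000000000000000000000000) (nat_lit 0x0) (nat_lit 0x20001000cc007000010002000000000000000000000000000000000000000000000000) := T_34 (nat_lit 229) (nat_lit 230) (nat_lit 3) (nat_lit 5) (nat_lit 12) L92974 (by decide +kernel)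
theorem L92976 : W_34 (nat_lit 7) (nat_lit 0xc001e0000000200010001000080000000000000000000000000000000) (nat_lit 0x0) (nat_lit 0x20001000cc007000010002000000020000000000004000000000000000000000000000) := T_34 (nat_lit 110) (nat_lit 161) (nat_lit 5) (nat_lit 8) (nat_lit 6) L92975 (by decide +kernel)
theorem L92977 : W_34 (nat_lit 8) (nat_lit 0xc000e0000000200010001000080000000000000000000000000000000) (nat_lit 0x0) (nat_lit 0x20001000cc007000310002000000020000000000004000000000000000000000000000) := T_34 (nat_lit 212) (nat_lit 213) (nat_lit 1) (nat_lit 9) (nat_lit 12) L92976 (by decide +kernel)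
theorem L92978 : W_34 (nat_lit 9) (nat_lit 0xc000c0000000200010001000080000000000000000000000000000000) (nat_lit 0x0) (nat_lit 0x20003000dc00700033c003e000c0022000000000004000000000000000000000000000) := Q_34 (nat_lit 209) (C_34 L91302 (C_34 L91294 (C_34 L92970 (C_34 L92977 N_34)))) (by decide +kernel)
theorem L92979 : W_34 (nat_lit 13) (nat_lit 0x8000c0000000200010001000080000000000000000000000000000000) (nat_lit 0x0) (nat_lit 0x1f003f800fe00778033c003e000c0022000000000004000000000000000000000000000) := Q_34 (nat_lit 226) (C_34 L91355 (C_34 L91299 (C_34 L91297 (C_34 L92978 N_34)))) (by decide +kernel)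
theorem L92980 : W_34 (nat_lit 2) (nat_lit 0x10000180068003c001e0000000200010001000080004000000000000000000000000000) (nat_lit 0x0) (nat_lit 0x4000600000000000000000000000000000000000000000000000000000000000000000) := D_34 (nat_lit 261) (nat_lit 278) (nat_lit 262) (nat_lit 7) (nat_lit 5) (nat_lit 12) (nat_lit 2) (nat_lit 4) (nat_lit 15) (by decide +kernel)
theorem L92981 : W_34 (nat_lit 3) (nat_lit 0x10000180048003c001e0000000200010001000080004000000000000000000000000000) (nat_lit 0x0) (nat_lit 0x4000600030000000000000000000000000000000000000000000000000000000000000) := T_34 (nat_lit 245) (nat_lit 244) (nat_lit 1) (nat_lit 8) (nat_lit 14) L92980 (by decide +kernel)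
theorem L92982 : W_34 (nat_lit 4) (nat_lit 0x10000100048003c001e0000000200010001000080004000000000000000000000000000) (nat_lit 0x0) (nat_lit 0x5000680030000000000000000000000000000000000000000000000000000000000000) := T_34 (nat_lit 259) (nat_lit 276) (nat_lit 5) (nat_lit 5) (nat_lit 12) L92981 (by decide +kernel)
theorem L92983 : W_34 (nat_lit 5) (nat_lit 0x10000000048003c001e0000000200010001000080004000000000000000000000000000) (nat_lit 0x0) (nat_lit 0x7000780030000000000000000000000000000000000000000000000000000000000000) := T_34 (nat_lit 260) (nat_lit 277) (nat_lit 6) (nat_lit 5) (nat_lit 16) L92982 (by decide +kernel)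
theorem L92984 : W_34 (nat_lit 6) (nat_lit 0x48003c001e0000000200010001000080004000000000000000000000000000) (nat_lit 0x0) (nat_lit 0x17000f80030000000000000000000000000000000000000000000000000000000000000) := T_34 (nat_lit 280) (nat_lit 263) (nat_lit 4) (nat_lit 8) (nat_lit 16) L92983 (by decide +kernel)
theorem L92985 : W_34 (nat_lit 7) (nat_lit 0x40003c001e0000000200010001000080004000000000000000000000000000) (nat_lit 0x0) (nat_lit 0x17000f8003c000000000000000000000000000000000000000000000000000000000000) := T_34 (nat_lit 243) (nat_lit 242) (nat_lit 1) (nat_lit 8) (nat_lit 13) L92984 (by decide +kernel)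
theorem L92986 : W_34 (nat_lit 8) (nat_lit 0x3c001e0000000200010001000080004000000000000000000000000000) (nat_lit 0x0) (nat_lit 0x17000f800fc000000000000000000000000000000000000000000000000000000000000) := T_34 (nat_lit 246) (nat_lit 247) (nat_lit 3) (nat_lit 5) (nat_lit 13) L92985 (by decide +kernel)
theorem L92987 : W_34 (nat_lit 9) (nat_lit 0x2c001e0000000200010001000080004000000000000000000000000000) (nat_lit 0x0) (nat_lit 0x17000f800fc001000010000000000000000000000000000000000000000000000000000) := T_34 (nat_lit 228) (nat_lit 208) (nat_lit 3) (nat_lit 4) (nat_lit 12) L92986 (by decide +kernel)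
theorem L92988 : W_34 (nat_lit 10) (nat_lit 0xc001e0000000200010001000080004000000000000000000000000000) (nat_lit 0x0) (nat_lit 0x17000f800fc007000010000000000000000000000000000000000000000000000000000) := T_34 (nat_lit 229) (nat_lit 230) (nat_lit 3) (nat_lit 5) (nat_lit 12) L92987 (by decide +kernel)
theorem L92989 : W_34 (nat_lit 11) (nat_lit 0xc000e0000000200010001000080004000000000000000000000000000) (nat_lit 0x0) (nat_lit 0x17000f800fc007000310000000000000000000000000000000000000000000000000000) := T_34 (nat_lit 212) (nat_lit 213) (nat_lit 1) (nat_lit 9) (nat_lit 12) L92988 (by decide +kernel)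
theorem L92990 : W_34 (nat_lit 12) (nat_lit 0xc000e0000000200010001000080000000000000000000000000000000) (nat_lit 0x0) (nat_lit 0x17000f800fc007000310000000000020000000000004000000000000000000000000000) := T_34 (nat_lit 110) (nat_lit 161) (nat_lit 5) (nat_lit 8) (nat_lit 6) L92989 (by decide +kernel)
theorem L92991 : W_34 (nat_lit 13) (nat_lit 0xc000c0000000200010001000080000000000000000000000000000000) (nat_lit 0x0) (nat_lit 0x17000f800fc00700033c001e000c0022000000000004000000000000000000000000000) := Q_34 (nat_lit 209) (C_34 L91302 (C_34 L92970 (C_34 L91294 (C_34 L92990 N_34)))) (by decide +kernel)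
theorem L92992 : W_34 (nat_lit 14) (nat_lit 0x8000c0000000200010001000080000000000000000000000000000000) (nat_lit 0x0) (nat_lit 0x1f003f800fe00778033c001e000c0022000000000004000000000000000000000000000) := Q_34 (nat_lit 226) (C_34 L91299 (C_34 L91355 (C_34 L91297 (C_34 L92991 N_34)))) (by decide +kernel)
theorem L92993 : W_34 (nat_lit 2) (nat_lit 0x8000c0000000380030001000080000000000000000000000000000000) (nat_lit 0x0) (nat_lit 0xc8000000000000000000000000000000000000000) := D_34 (nat_lit 162) (nat_lit 163) (nat_lit 159) (nat_lit 1) (nat_lit 10) (nat_lit 9) (nat_lit 1) (nat_lit 9) (nat_lit 9) (by decide +kernel)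
theorem L92994 : W_34 (nat_lit 3) (nat_lit 0x8000c0000000300030001000080000000000000000000000000000000) (nat_lit 0x0) (nat_lit 0xc00c8000000000000000000000000000000000000000) := T_34 (nat_lit 175) (nat_lit 174) (nat_lit 2) (nat_lit 4) (nat_lit 10) L92993 (by decide +kernel)
theorem L92995 : W_34 (nat_lit 4) (nat_lit 0x8000c0000000200030001000080000000000000000000000000000000) (nat_lit 0x0) (nat_lit 0x20001c00c8000000000000000000000000000000000000000) := T_34 (nat_lit 176) (nat_lit 193) (nat_lit 6) (nat_lit 6) (nat_lit 13) L92994 (by decide +kernel)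
theorem L92996 : W_34 (nat_lit 5) (nat_lit 0x8000c0000000200010001000080000000000000000000000000000000) (nat_lit 0x0) (nat_lit 0x20001c00e8000000000004000000000000000000000000000) := T_34 (nat_lit 161) (nat_lit 110) (nat_lit 5) (nat_lit 8) (nat_lit 6) L92995 (by decide +kernel)
theorem L92997 : W_34 (nat_lit 15) (nat_lit 0xc0000000200010001000080000000000000000000000000000000) (nat_lit 0x0) (nat_lit 0x1f003fc00fe00ff8073c003e001c00ee000000000004000000000000000000000000000) := Q_34 (nat_lit 227) (C_34 L92979 (C_34 L92992 (C_34 L92996 (C_34 L92859 (C_34 L91569 N_34))))) (by decide +kernel)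
theorem L92998 : W_34 (nat_lit 2) (nat_lit 0xbc000c001e000b000200010001000080004000000000000000000000000000) (nat_lit 0x0) (nat_lit 0x3001000000000000000000000000000000000000000000000000000000000) := D_34 (nat_lit 241) (nat_lit 228) (nat_lit 240) (nat_lit 2) (nat_lit 3) (nat_lit 14) (nat_lit 2) (nat_lit 2) (nat_lit 14) (by decide +kernel)
theorem L92999 : W_34 (nat_lit 3) (nat_lit 0xb8000c001e000b000200010001000080004000000000000000000000000000) (nat_lit 0x0) (nat_lit 0x80007001000000000000000000000000000000000000000000000000000000000) := T_34 (nat_lit 242) (nat_lit 259) (nat_lit 5) (nat_lit 5) (nat_lit 11) L92998 (by decide +kernel)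
theorem L93000 : W_34 (nat_lit 4) (nat_lit 0x38000c001e000b000200010001000080004000000000000000000000000000) (nat_lit 0x0) (nat_lit 0x800c7001000000000000000000000000000000000000000000000000000000000) := T_34 (nat_lit 247) (nat_lit 246) (nat_lit 0) (nat_lit 9) (nat_lit 14) L92999 (by decide +kernel)
theorem L93001 : W_34 (nat_lit 5) (nat_lit 0x18000c001e000b000200010001000080004000000000000000000000000000) (nat_lit 0x0) (nat_lit 0x4800e7001000000000000000000000000000000000000000000000000000000000) := T_34 (nat_lit 245) (nat_lit 262) (nat_lit 7) (nat_lit 6) (nat_lit 11) L93000 (by decide +kernel)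
theorem L93002 : W_34 (nat_lit 6) (nat_lit 0x10000c001e000b000200010001000080004000000000000000000000000000) (nat_lit 0x0) (nat_lit 0x5800ef001000000000000000000000000000000000000000000000000000000000) := T_34 (nat_lit 243) (nat_lit 260) (nat_lit 6) (nat_lit 5) (nat_lit 15) L93001 (by decide +kernel)
theorem L93003 : W_34 (nat_lit 7) (nat_lit 0xc001e000b000200010001000080004000000000000000000000000000) (nat_lit 0x0) (nat_lit 0x7800ff001000000000000000000000000000000000000000000000000000000000) := T_34 (nat_lit 244) (nat_lit 261) (nat_lit 4) (nat_lit 6) (nat_lit 15) L93002 (by decide +kernel)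
theorem L93004 : W_34 (nat_lit 8) (nat_lit 0x8001e000b000200010001000080004000000000000000000000000000) (nat_lit 0x0) (nat_lit 0x7800ff001600000000000000000000000000000000000000000000000000000000) := T_34 (nat_lit 226) (nat_lit 225) (nat_lit 1) (nat_lit 8) (nat_lit 12) L93003 (by decide +kernel)
theorem L93005 : W_34 (nat_lit 9) (nat_lit 0x8001e000a000200010001000080004000000000000000000000000000) (nat_lit 0x0) (nat_lit 0x7800ff001600000001800000000000000000000000000000000000000000000000) := T_34 (nat_lit 192) (nat_lit 191) (nat_lit 0) (nat_lit 8) (nat_lit 12) L93004 (by decide +kernel)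
theorem L93006 : W_34 (nat_lit 10) (nat_lit 0x8001e000a000200010001000080000000000000000000000000000000) (nat_lit 0x0) (nat_lit 0x7800ff001600000001800000020000000000004000000000000000000000000000) := T_34 (nat_lit 110) (nat_lit 161) (nat_lit 5) (nat_lit 8) (nat_lit 6) L93005 (by decide +kernel)
theorem L93007 : W_34 (nat_lit 11) (nat_lit 0x1e000a000200010001000080000000000000000000000000000000) (nat_lit 0x0) (nat_lit 0x7800ff001e00000001800100020000000000004000000000000000000000000000) := T_34 (nat_lit 227) (nat_lit 176) (nat_lit 6) (nat_lit 6) (nat_lit 13) L93006 (by decide +kernel)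
theorem L93008 : W_34 (nat_lit 12) (nat_lit 0x1e0002000200010001000080000000000000000000000000000000) (nat_lit 0x0) (nat_lit 0x7800ff001e00000019800100020000000000004000000000000000000000000000) := T_34 (nat_lit 195) (nat_lit 196) (nat_lit 2) (nat_lit 5) (nat_lit 12) L93007 (by decide +kernel)
theorem L93009 : W_34 (nat_lit 2) (nat_lit 0x4001e0002000200010001000080000000000000000000000000000000) (nat_lit 0x0) (nat_lit 0x800000000000100008000000000000000000000000000000000000000) := D_34 (nat_lit 176) (nat_lit 227) (nat_lit 159) (nat_lit 6) (nat_lit 6) (nat_lit 13) (nat_lit 5) (nat_lit 6) (nat_lit 9) (by decide +kernel)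
theorem L93010 : W_34 (nat_lit 3) (nat_lit 0x1e0002000200010001000080000000000000000000000000000000) (nat_lit 0x0) (nat_lit 0xe00000000000100008000000000000000000000000000000000000000) := T_34 (nat_lit 226) (nat_lit 225) (nat_lit 1) (nat_lit 8) (nat_lit 12) L93009 (by decide +kernel)
theorem L93011 : W_34 (nat_lit 2) (nat_lit 0x1c0024001e000b000200010001000080004000000000000000000000000000) (nat_lit 0x0) (nat_lit 0x20001800000000000000000000000000000000000000000000000000000000) := D_34 (nat_lit 228) (nat_lit 245) (nat_lit 227) (nat_lit 2) (nat_lit 4) (nat_lit 14) (nat_lit 1) (nat_lit 8) (nat_lit 13) (by decide +kernel)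
theorem L93012 : W_34 (nat_lit 3) (nat_lit 0x180024001e000b000200010001000080004000000000000000000000000000) (nat_lit 0x0) (nat_lit 0x80024001800000000000000000000000000000000000000000000000000000000) := T_34 (nat_lit 242) (nat_lit 259) (nat_lit 5) (nat_lit 5) (nat_lit 11) L93011 (by decide +kernel)
theorem L93013 : W_34 (nat_lit 4) (nat_lit 0x80024001e000b000200010001000080004000000000000000000000000000) (nat_lit 0x0) (nat_lit 0x280034001800000000000000000000000000000000000000000000000000000000) := T_34 (nat_lit 244) (nat_lit 261) (nat_lit 7) (nat_lit 5) (nat_lit 11) L93012 (by decide +kernel)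
theorem L93014 : W_34 (nat_lit 5) (nat_lit 0x80024001e000a000200010001000080004000000000000000000000000000) (nat_lit 0x0) (nat_lit 0x280034001800000001800000000000000000000000000000000000000000000000) := T_34 (nat_lit 192) (nat_lit 191) (nat_lit 0) (nat_lit 8) (nat_lit 12) L93013 (by decide +kernel)
theorem L93015 : W_34 (nat_lit 6) (nat_lit 0x24001e000a000200010001000080004000000000000000000000000000) (nat_lit 0x0) (nat_lit 0x38003c001800000001800000000000000000000000000000000000000000000000) := T_34 (nat_lit 243) (nat_lit 260) (nat_lit 6) (nat_lit 5) (nat_lit 15) L93014 (by decide +kernel)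
theorem L93016 : W_34 (nat_lit 7) (nat_lit 0x24001e000a000200010001000080000000000000000000000000000000) (nat_lit 0x0) (nat_lit 0x38003c001800000001800000020000000000004000000000000000000000000000) := T_34 (nat_lit 110) (nat_lit 161) (nat_lit 5) (nat_lit 8) (nat_lit 6) L93015 (by decide +kernel)
theorem L93017 : W_34 (nat_lit 8) (nat_lit 0x20001e000a000200010001000080000000000000000000000000000000) (nat_lit 0x0) (nat_lit 0x38003c001e00000001800000020000000000004000000000000000000000000000) := T_34 (nat_lit 226) (nat_lit 225) (nat_lit 1) (nat_lit 8) (nat_lit 12) L93016 (by decide +kernel)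
theorem L93018 : W_34 (nat_lit 9) (nat_lit 0x20001e0002000200010001000080000000000000000000000000000000) (nat_lit 0x0) (nat_lit 0x38003c001e00000019800000020000000000004000000000000000000000000000) := T_34 (nat_lit 195) (nat_lit 196) (nat_lit 2) (nat_lit 5) (nat_lit 12) L93017 (by decide +kernel)
theorem L93019 : W_34 (nat_lit 10) (nat_lit 0x1e0002000200010001000080000000000000000000000000000000) (nat_lit 0x0) (nat_lit 0x38003c007e00000019800000020000000000004000000000000000000000000000) := T_34 (nat_lit 229) (nat_lit 230) (nat_lit 3) (nat_lit 5) (nat_lit 12) L93018 (by decide +kernel)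
theorem L93020 : W_34 (nat_lit 2) (nat_lit 0x24001e000b000200010001000080004000000000000000000000000000) (nat_lit 0x0) (nat_lit 0x8000000000000000100008000000000000000000000000000000000000000) := D_34 (nat_lit 176) (nat_lit 159) (nat_lit 243) (nat_lit 5) (nat_lit 6) (nat_lit 9) (nat_lit 6) (nat_lit 5) (nat_lit 14) (by decide +kernel)
theorem L93021 : W_34 (nat_lit 3) (nat_lit 0x20001e000b000200010001000080004000000000000000000000000000) (nat_lit 0x0) (nat_lit 0x8000600000000000100008000000000000000000000000000000000000000) := T_34 (nat_lit 226) (nat_lit 225) (nat_lit 1) (nat_lit 8) (nat_lit 12) L93020 (by decide +kernel)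
theorem L93022 : W_34 (nat_lit 4) (nat_lit 0x20001e000b000200010001000080000000000000000000000000000000) (nat_lit 0x0) (nat_lit 0x8000600000000000100028000000000004000000000000000000000000000) := T_34 (nat_lit 110) (nat_lit 161) (nat_lit 5) (nat_lit 8) (nat_lit 6) L93021 (by decide +kernel)
theorem L93023 : W_34 (nat_lit 5) (nat_lit 0x20001e0003000200010001000080000000000000000000000000000000) (nat_lit 0x0) (nat_lit 0x8000600000018000100028000000000004000000000000000000000000000) := T_34 (nat_lit 195) (nat_lit 196) (nat_lit 2) (nat_lit 5) (nat_lit 12) L93022 (by decide +kernel)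
theorem L93024 : W_34 (nat_lit 6) (nat_lit 0x1e0003000200010001000080000000000000000000000000000000) (nat_lit 0x0) (nat_lit 0x8006600000018000100028000000000004000000000000000000000000000) := T_34 (nat_lit 229) (nat_lit 230) (nat_lit 3) (nat_lit 5) (nat_lit 12) L93023 (by decide +kernel)
theorem L93025 : W_34 (nat_lit 7) (nat_lit 0x1e0002000200010001000080000000000000000000000000000000) (nat_lit 0x0) (nat_lit 0x8006600000019800100028000000000004000000000000000000000000000) := T_34 (nat_lit 192) (nat_lit 191) (nat_lit 0) (nat_lit 8) (nat_lit 12) L93024 (by decide +kernel)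
theorem L93026 : W_34 (nat_lit 2) (nat_lit 0x4003c0029001e000b000200010001000080000000000000000000000000000000) (nat_lit 0x0) (nat_lit 0x20002000080000000000000000000000000000000000000000000000000000000) := D_34 (nat_lit 241) (nat_lit 257) (nat_lit 223) (nat_lit 1) (nat_lit 6) (nat_lit 14) (nat_lit 0) (nat_lit 6) (nat_lit 14) (by decide +kernel)
theorem L93027 : W_34 (nat_lit 3) (nat_lit 0x4003c0028001e000b000200010001000080000000000000000000000000000000) (nat_lit 0x0) (nat_lit 0x20002000380000000000000000000000000000000000000000000000000000000) := T_34 (nat_lit 224) (nat_lit 225) (nat_lit 0) (nat_lit 7) (nat_lit 14) L93026 (by decide +kernel)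
theorem L93028 : W_34 (nat_lit 4) (nat_lit 0x3c0028001e000b000200010001000080000000000000000000000000000000) (nat_lit 0x0) (nat_lit 0xe0002000380000000000000000000000000000000000000000000000000000000) := T_34 (nat_lit 258) (nat_lit 259) (nat_lit 1) (nat_lit 7) (nat_lit 14) L93027 (by decide +kernel)
theorem L93029 : W_34 (nat_lit 5) (nat_lit 0x380028001e000b000200010001000080000000000000000000000000000000) (nat_lit 0x0) (nat_lit 0xe0006001380000000000000000000000000000000000000000000000000000000) := T_34 (nat_lit 242) (nat_lit 228) (nat_lit 2) (nat_lit 4) (nat_lit 14) L93028 (by decide +kernel)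
theorem L93030 : W_34 (nat_lit 6) (nat_lit 0x300028001e000b000200010001000080000000000000000000000000000000) (nat_lit 0x0) (nat_lit 0x1e000e001380000000000000000000000000000000000000000000000000000000) := T_34 (nat_lit 243) (nat_lit 260) (nat_lit 5) (nat_lit 6) (nat_lit 11) L93029 (by decide +kernel)
theorem L93031 : W_34 (nat_lit 7) (nat_lit 0x100028001e000b000200010001000080000000000000000000000000000000) (nat_lit 0x0) (nat_lit 0x5e002e001380000000000000000000000000000000000000000000000000000000) := T_34 (nat_lit 245) (nat_lit 262) (nat_lit 7) (nat_lit 6) (nat_lit 11) L93030 (by decide +kernel)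
theorem L93032 : W_34 (nat_lit 8) (nat_lit 0x100028001e0003000200010001000080000000000000000000000000000000) (nat_lit 0x0) (nat_lit 0x5e002e001380000018000000000000000000000000000000000000000000000000) := T_34 (nat_lit 195) (nat_lit 196) (nat_lit 2) (nat_lit 5) (nat_lit 12) L93031 (by decide +kernel)
theorem L93033 : W_34 (nat_lit 9) (nat_lit 0x28001e0003000200010001000080000000000000000000000000000000) (nat_lit 0x0) (nat_lit 0x7e003e001380000018000000000000000000000000000000000000000000000000) := T_34 (nat_lit 244) (nat_lit 261) (nat_lit 4) (nat_lit 6) (nat_lit 15) L93032 (by decide +kernel)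
theorem L93034 : W_34 (nat_lit 10) (nat_lit 0x8001e0003000200010001000080000000000000000000000000000000) (nat_lit 0x0) (nat_lit 0x7e003e007380000018000000000000000000000000000000000000000000000000) := T_34 (nat_lit 229) (nat_lit 230) (nat_lit 3) (nat_lit 5) (nat_lit 12) L93033 (by decide +kernel)
theorem L93035 : W_34 (nat_lit 11) (nat_lit 0x8001e0002000200010001000080000000000000000000000000000000) (nat_lit 0x0) (nat_lit 0x7e003e007380000019800000000000000000000000000000000000000000000000) := T_34 (nat_lit 192) (nat_lit 191) (nat_lit 0) (nat_lit 8) (nat_lit 12) L93034 (by decide +kernel)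
theorem L93036 : W_34 (nat_lit 12) (nat_lit 0x1e0002000200010001000080000000000000000000000000000000) (nat_lit 0x0) (nat_lit 0x7e003e007b80000019800100000000000000000000000000000000000000000000) := T_34 (nat_lit 227) (nat_lit 176) (nat_lit 6) (nat_lit 6) (nat_lit 13) L93035 (by decide +kernel)
theorem L93037 : W_34 (nat_lit 2) (nat_lit 0x3c0028001e000b000200010001000080004000000000000000000000000000) (nat_lit 0x0) (nat_lit 0xc0000000400000000000000000000000000000000000000000000000000000000) := D_34 (nat_lit 259) (nat_lit 258) (nat_lit 226) (nat_lit 1) (nat_lit 7) (nat_lit 14) (nat_lit 5) (nat_lit 5) (nat_lit 11) (by decide +kernel)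
theorem L93038 : W_34 (nat_lit 3) (nat_lit 0x380028001e000b000200010001000080004000000000000000000000000000) (nat_lit 0x0) (nat_lit 0xc0004001400000000000000000000000000000000000000000000000000000000) := T_34 (nat_lit 242) (nat_lit 228) (nat_lit 2) (nat_lit 4) (nat_lit 14) L93037 (by decide +kernel)
theorem L93039 : W_34 (nat_lit 4) (nat_lit 0x180028001e000b000200010001000080004000000000000000000000000000) (nat_lit 0x0) (nat_lit 0x4c0024001400000000000000000000000000000000000000000000000000000000) := T_34 (nat_lit 245) (nat_lit 262) (nat_lit 7) (nat_lit 6) (nat_lit 11) L93038 (by decide +kernel)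
theorem L93040 : W_34 (nat_lit 5) (nat_lit 0x100028001e000b000200010001000080004000000000000000000000000000) (nat_lit 0x0) (nat_lit 0x5c002c001400000000000000000000000000000000000000000000000000000000) := T_34 (nat_lit 243) (nat_lit 260) (nat_lit 5) (nat_lit 6) (nat_lit 11) L93039 (by decide +kernel)
theorem L93041 : W_34 (nat_lit 6) (nat_lit 0x28001e000b000200010001000080004000000000000000000000000000) (nat_lit 0x0) (nat_lit 0x7c003c001400000000000000000000000000000000000000000000000000000000) := T_34 (nat_lit 244) (nat_lit 261) (nat_lit 4) (nat_lit 6) (nat_lit 15) L93040 (by decide +kernel)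
theorem L93042 : W_34 (nat_lit 7) (nat_lit 0x28001e000a000200010001000080004000000000000000000000000000) (nat_lit 0x0) (nat_lit 0x7c003c001400000001800000000000000000000000000000000000000000000000) := T_34 (nat_lit 192) (nat_lit 191) (nat_lit 0) (nat_lit 8) (nat_lit 12) L93041 (by decide +kernel)
theorem L93043 : W_34 (nat_lit 8) (nat_lit 0x28001e0002000200010001000080004000000000000000000000000000) (nat_lit 0x0) (nat_lit 0x7c003c001400000019800000000000000000000000000000000000000000000000) := T_34 (nat_lit 195) (nat_lit 196) (nat_lit 2) (nat_lit 5) (nat_lit 12) L93042 (by decide +kernel)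
theorem L93044 : W_34 (nat_lit 9) (nat_lit 0x8001e0002000200010001000080004000000000000000000000000000) (nat_lit 0x0) (nat_lit 0x7c003c007400000019800000000000000000000000000000000000000000000000) := T_34 (nat_lit 229) (nat_lit 230) (nat_lit 3) (nat_lit 5) (nat_lit 12) L93043 (by decide +kernel)
theorem L93045 : W_34 (nat_lit 10) (nat_lit 0x1e0002000200010001000080004000000000000000000000000000) (nat_lit 0x0) (nat_lit 0x7c003c007c00000019800100000000000000000000000000000000000000000000) := T_34 (nat_lit 227) (nat_lit 176) (nat_lit 6) (nat_lit 6) (nat_lit 13) L93044 (by decide +kernel)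
theorem L93046 : W_34 (nat_lit 11) (nat_lit 0x1e0002000200010001000080000000000000000000000000000000) (nat_lit 0x0) (nat_lit 0x7c003c007c00000019800100020000000000004000000000000000000000000000) := T_34 (nat_lit 110) (nat_lit 161) (nat_lit 5) (nat_lit 8) (nat_lit 6) L93045 (by decide +kernel)
theorem L93047 : W_34 (nat_lit 13) (nat_lit 0x1e0000000200010001000080000000000000000000000000000000) (nat_lit 0x0) (nat_lit 0x7e00ff007f8000001b800100028000000000004000000000000000000000000000) := Q_34 (nat_lit 193) (C_34 L93008 (C_34 L93010 (C_34 L93019 (C_34 L93025 (C_34 L93036 (C_34 L93046 N_34)))))) (by decide +kernel)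
theorem L93048 : W_34 (nat_lit 14) (nat_lit 0x1c0000000200010001000080000000000000000000000000000000) (nat_lit 0x0) (nat_lit 0x7e00ff007f8003001bc00100028000000000004000000000000000000000000000) := Q_34 (nat_lit 209) (C_34 L92692 (C_34 L92511 (C_34 L92360 (C_34 L92460 (C_34 L93047 N_34))))) (by decide +kernel)
theorem L93049 : W_34 (nat_lit 6) (nat_lit 0x1c0000000200010001000080000000000000000000000000000000) (nat_lit 0x0) (nat_lit 0xfe00230003c00000020000000000004000000000000000000000000000) := Q_34 (nat_lit 209) (C_34 L92511 (C_34 L92814 (C_34 L92345 (C_34 L92465 N_34)))) (by decide +kernel)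
theorem L93050 : W_34 (nat_lit 2) (nat_lit 0x900078003c0002000200010001000080004000000000000000000000000000) (nat_lit 0x0) (nat_lit 0x20001000000000000000008000000000000000000000000000000000000000000000000) := D_34 (nat_lit 264) (nat_lit 195) (nat_lit 281) (nat_lit 4) (nat_lit 9) (nat_lit 15) (nat_lit 4) (nat_lit 9) (nat_lit 16) (by decide +kernel)
theorem L93051 : W_34 (nat_lit 3) (nat_lit 0x100078003c0002000200010001000080004000000000000000000000000000) (nat_lit 0x0) (nat_lit 0x20001000180000000000008000000000000000000000000000000000000000000000000) := T_34 (nat_lit 247) (nat_lit 248) (nat_lit 3) (nat_lit 6) (nat_lit 13) L93050 (by decide +kernel)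
theorem L93052 : W_34 (nat_lit 4) (nat_lit 0x78003c0002000200010001000080004000000000000000000000000000) (nat_lit 0x0) (nat_lit 0x20001000198000000000008000000000000000000000000000000000000000000000000) := T_34 (nat_lit 244) (nat_lit 243) (nat_lit 1) (nat_lit 9) (nat_lit 13) L93051 (by decide +kernel)
theorem L93053 : W_34 (nat_lit 5) (nat_lit 0x68003c0002000200010001000080004000000000000000000000000000) (nat_lit 0x0) (nat_lit 0x20001000198001000400008000000000000000000000000000000000000000000000000) := T_34 (nat_lit 228) (nat_lit 214) (nat_lit 2) (nat_lit 6) (nat_lit 13) L93052 (by decide +kernel)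
theorem L93054 : W_34 (nat_lit 6) (nat_lit 0x60003c0002000200010001000080004000000000000000000000000000) (nat_lit 0x0) (nat_lit 0x20001000198001800400008000100000000000000000000000000000000000000000000) := T_34 (nat_lit 227) (nat_lit 176) (nat_lit 6) (nat_lit 6) (nat_lit 13) L93053 (by decide +kernel)
theorem L93055 : W_34 (nat_lit 7) (nat_lit 0x40003c0002000200010001000080004000000000000000000000000000) (nat_lit 0x0) (nat_lit 0x20001000198003800420008000100000000000000000000000000000000000000000000) := T_34 (nat_lit 229) (nat_lit 209) (nat_lit 3) (nat_lit 5) (nat_lit 12) L93054 (by decide +kernel)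
theorem L93056 : W_34 (nat_lit 8) (nat_lit 0x3c0002000200010001000080004000000000000000000000000000) (nat_lit 0x0) (nat_lit 0x2000100019800f800420008000100000000000000000000000000000000000000000000) := T_34 (nat_lit 230) (nat_lit 231) (nat_lit 3) (nat_lit 6) (nat_lit 12) L93055 (by decide +kernel)
theorem L93057 : W_34 (nat_lit 9) (nat_lit 0x3c0000000200010001000080004000000000000000000000000000) (nat_lit 0x0) (nat_lit 0x2000100019800f80042000b000100000000000000000000000000000000000000000000) := T_34 (nat_lit 193) (nat_lit 192) (nat_lit 0) (nat_lit 9) (nat_lit 12) L93056 (by decide +kernel)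
theorem L93058 : W_34 (nat_lit 10) (nat_lit 0x3c0000000200010001000080000000000000000000000000000000) (nat_lit 0x0) (nat_lit 0x2000100019800f80042000b000100020000000000004000000000000000000000000000) := T_34 (nat_lit 110) (nat_lit 161) (nat_lit 5) (nat_lit 8) (nat_lit 6) L93057 (by decide +kernel)
theorem L93059 : W_34 (nat_lit 11) (nat_lit 0x1c0000000200010001000080000000000000000000000000000000) (nat_lit 0x0) (nat_lit 0x2000100019801f80062007b800100020000000000004000000000000000000000000000) := Q_34 (nat_lit 213) (C_34 L92681 (C_34 L92832 (C_34 L93058 N_34))) (by decide +kernel)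
theorem L93060 : W_34 (nat_lit 9) (nat_lit 0x1c0000000200010001000080000000000000000000000000000000) (nat_lit 0x0) (nat_lit 0x3f0063803bc00000020000000000004000000000000000000000000000) := Q_34 (nat_lit 209) (C_34 L92628 (C_34 L92469 (C_34 L92335 (C_34 L92465 (C_34 L92450 (C_34 L92460 N_34)))))) (by decide +kernel)
theorem L93061 : W_34 (nat_lit 15) (nat_lit 0xc0000000200010001000080000000000000000000000000000000) (nat_lit 0x0) (nat_lit 0x200017e01ff01ff8073807bc079001e801c000000004000000000000000000000000000) := Q_34 (nat_lit 212) (C_34 L92686 (C_34 L92822 (C_34 L92668 (C_34 L92687 (C_34 L93048 (C_34 L93049 (C_34 L93059 (C_34 L93060 N_34)))))))) (by decide +kernel)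
theorem L93062 : W_34 (nat_lit 2) (nat_lit 0x9000f0000400200010001000080004000000000000000000000000000) (nat_lit 0x0) (nat_lit 0x80008000200000000000000000000000000000000000000000000000) := D_34 (nat_lit 207) (nat_lit 223) (nat_lit 189) (nat_lit 1) (nat_lit 6) (nat_lit 12) (nat_lit 0) (nat_lit 6) (nat_lit 12) (by decide +kernel)
theorem L93063 : W_34 (nat_lit 3) (nat_lit 0x9000f0000000200010001000080004000000000000000000000000000) (nat_lit 0x0) (nat_lit 0x80008000e00000000000000000000000000000000000000000000000) := T_34 (nat_lit 190) (nat_lit 191) (nat_lit 0) (nat_lit 7) (nat_lit 12) L93062 (by decide +kernel)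
theorem L93064 : W_34 (nat_lit 4) (nat_lit 0x8000f0000000200010001000080004000000000000000000000000000) (nat_lit 0x0) (nat_lit 0x380008000e00000000000000000000000000000000000000000000000) := T_34 (nat_lit 224) (nat_lit 225) (nat_lit 1) (nat_lit 7) (nat_lit 12) L93063 (by decide +kernel)
theorem L93065 : W_34 (nat_lit 5) (nat_lit 0x8000f0000000200010001000080000000000000000000000000000000) (nat_lit 0x0) (nat_lit 0x380008000e00000020000000000004000000000000000000000000000) := T_34 (nat_lit 110) (nat_lit 161) (nat_lit 5) (nat_lit 8) (nat_lit 6) L93064 (by decide +kernel)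
theorem L93066 : W_34 (nat_lit 2) (nat_lit 0x8001f0000000200010001000080000000000000000000000000000000) (nat_lit 0x0) (nat_lit 0x7000000000000000000000000000000000000000000000000000000000) := D_34 (nat_lit 229) (nat_lit 228) (nat_lit 230) (nat_lit 3) (nat_lit 4) (nat_lit 12) (nat_lit 3) (nat_lit 5) (nat_lit 12) (by decide +kernel)
theorem L93067 : W_34 (nat_lit 2) (nat_lit 0xa003f0010000200010001000080004000000000000000000000000000) (nat_lit 0x0) (nat_lit 0xe000000000000000000000000000000000000000000000000000000000) := D_34 (nat_lit 230) (nat_lit 229) (nat_lit 231) (nat_lit 3) (nat_lit 5) (nat_lit 12) (nat_lit 3) (nat_lit 6) (nat_lit 12) (by decide +kernel)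
theorem L93068 : W_34 (nat_lit 3) (nat_lit 0xa001f0010000200010001000080004000000000000000000000000000) (nat_lit 0x0) (nat_lit 0xe000200020000000000000000000000000000000000000000000000000) := T_34 (nat_lit 213) (nat_lit 197) (nat_lit 2) (nat_lit 6) (nat_lit 12) L93067 (by decide +kernel)
theorem L93069 : W_34 (nat_lit 4) (nat_lit 0x8001f0010000200010001000080004000000000000000000000000000) (nat_lit 0x0) (nat_lit 0xe300200020000000000000000000000000000000000000000000000000) := T_34 (nat_lit 225) (nat_lit 224) (nat_lit 1) (nat_lit 7) (nat_lit 12) L93068 (by decide +kernel)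
theorem L93070 : W_34 (nat_lit 5) (nat_lit 0x8001f0000000200010001000080004000000000000000000000000000) (nat_lit 0x0) (nat_lit 0xe300200038000000000000000000000000000000000000000000000000) := T_34 (nat_lit 196) (nat_lit 195) (nat_lit 2) (nat_lit 5) (nat_lit 12) L93069 (by decide +kernel)
theorem L93071 : W_34 (nat_lit 6) (nat_lit 0x8001f0000000200010001000080000000000000000000000000000000) (nat_lit 0x0) (nat_lit 0xe300200038000000020000000000004000000000000000000000000000) := T_34 (nat_lit 110) (nat_lit 161) (nat_lit 5) (nat_lit 8) (nat_lit 6) L93070 (by decide +kernel)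
theorem L93072 : W_34 (nat_lit 2) (nat_lit 0xa007f0010800200010001000080004000000000000000000000000000) (nat_lit 0x0) (nat_lit 0x1c000000000000000000000000000000000000000000000000000000000) := D_34 (nat_lit 231) (nat_lit 230) (nat_lit 232) (nat_lit 3) (nat_lit 6) (nat_lit 12) (nat_lit 3) (nat_lit 7) (nat_lit 12) (by decide +kernel)
theorem L93073 : W_34 (nat_lit 3) (nat_lit 0xa003f0010800200010001000080004000000000000000000000000000) (nat_lit 0x0) (nat_lit 0x1d000400000000000000000000000000000000000000000000000000000) := T_34 (nat_lit 214) (nat_lit 228) (nat_lit 1) (nat_lit 10) (nat_lit 12) L93072 (by decide +kernel)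
theorem L93074 : W_34 (nat_lit 4) (nat_lit 0xa001f0010800200010001000080004000000000000000000000000000) (nat_lit 0x0) (nat_lit 0x1d000600020000000000000000000000000000000000000000000000000) := T_34 (nat_lit 213) (nat_lit 197) (nat_lit 2) (nat_lit 6) (nat_lit 12) L93073 (by decide +kernel)
theorem L93075 : W_34 (nat_lit 5) (nat_lit 0xa001f0010000200010001000080004000000000000000000000000000) (nat_lit 0x0) (nat_lit 0x1d000600020c00000000000000000000000000000000000000000000000) := T_34 (nat_lit 191) (nat_lit 190) (nat_lit 0) (nat_lit 7) (nat_lit 12) L93074 (by decide +kernel)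
theorem L93076 : W_34 (nat_lit 6) (nat_lit 0xa001f0000000200010001000080004000000000000000000000000000) (nat_lit 0x0) (nat_lit 0x1d000600038c00000000000000000000000000000000000000000000000) := T_34 (nat_lit 196) (nat_lit 195) (nat_lit 2) (nat_lit 5) (nat_lit 12) L93075 (by decide +kernel)
theorem L93077 : W_34 (nat_lit 7) (nat_lit 0x8001f0000000200010001000080004000000000000000000000000000) (nat_lit 0x0) (nat_lit 0x1d300600038c00000000000000000000000000000000000000000000000) := T_34 (nat_lit 225) (nat_lit 224) (nat_lit 1) (nat_lit 7) (nat_lit 12) L93076 (by decide +kernel)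
theorem L93078 : W_34 (nat_lit 8) (nat_lit 0x8001f0000000200010001000080000000000000000000000000000000) (nat_lit 0x0) (nat_lit 0x1d300600038c00000020000000000004000000000000000000000000000) := T_34 (nat_lit 110) (nat_lit 161) (nat_lit 5) (nat_lit 8) (nat_lit 6) L93077 (by decide +kernel)
theorem L93079 : W_34 (nat_lit 2) (nat_lit 0x18001f0010000200010001000080000000000000000000000000000000) (nat_lit 0x0) (nat_lit 0x600020000000000000000000000000000000000000000000000000) := D_34 (nat_lit 213) (nat_lit 214) (nat_lit 197) (nat_lit 1) (nat_lit 10) (nat_lit 12) (nat_lit 2) (nat_lit 6) (nat_lit 12) (by decide +kernel)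
theorem L93080 : W_34 (nat_lit 3) (nat_lit 0x8001f0010000200010001000080000000000000000000000000000000) (nat_lit 0x0) (nat_lit 0x3000600020000000000000000000000000000000000000000000000000) := T_34 (nat_lit 228) (nat_lit 229) (nat_lit 3) (nat_lit 4) (nat_lit 12) L93079 (by decide +kernel)
theorem L93081 : W_34 (nat_lit 4) (nat_lit 0x8001f0000000200010001000080000000000000000000000000000000) (nat_lit 0x0) (nat_lit 0x3000600038000000000000000000000000000000000000000000000000) := T_34 (nat_lit 196) (nat_lit 195) (nat_lit 2) (nat_lit 5) (nat_lit 12) L93080 (by decide +kernel)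
theorem L93082 : W_34 (nat_lit 9) (nat_lit 0x8000f0000000200010001000080000000000000000000000000000000) (nat_lit 0x0) (nat_lit 0x1f300700038c00000020000000000004000000000000000000000000000) := Q_34 (nat_lit 212) (C_34 L93066 (C_34 L93071 (C_34 L93078 (C_34 L93081 N_34)))) (by decide +kernel)
theorem L93083 : W_34 (nat_lit 10) (nat_lit 0x8000e0000000200010001000080000000000000000000000000000000) (nat_lit 0x0) (nat_lit 0x1f380718038e00000020000000000004000000000000000000000000000) := Q_34 (nat_lit 208) (C_34 L92151 (C_34 L93065 (C_34 L91965 (C_34 L93082 N_34)))) (by decide +kernel)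
theorem L93084 : W_34 (nat_lit 2) (nat_lit 0x8000f8000000200010001000080004000000000000000000000000000) (nat_lit 0x0) (nat_lit 0xe00000000000000000000000000000000000000000000000) := D_34 (nat_lit 190) (nat_lit 191) (nat_lit 189) (nat_lit 0) (nat_lit 7) (nat_lit 12) (nat_lit 0) (nat_lit 6) (nat_lit 12) (by decide +kernel)
theorem L93085 : W_34 (nat_lit 3) (nat_lit 0x8000f0000000200010001000080004000000000000000000000000000) (nat_lit 0x0) (nat_lit 0x1000008000e00000000000000000000000000000000000000000000000) := T_34 (nat_lit 207) (nat_lit 228) (nat_lit 3) (nat_lit 3) (nat_lit 12) L93084 (by decide +kernel)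
theorem L93086 : W_34 (nat_lit 4) (nat_lit 0x8000f0000000200010001000080000000000000000000000000000000) (nat_lit 0x0) (nat_lit 0x1000008000e00000020000000000004000000000000000000000000000) := T_34 (nat_lit 110) (nat_lit 161) (nat_lit 5) (nat_lit 8) (nat_lit 6) L93085 (by decide +kernel)
theorem L93087 : W_34 (nat_lit 2) (nat_lit 0x8000f8000000200010001000080004000000000000000000000000000) (nat_lit 0x0) (nat_lit 0x380000000000000000000000000000000000000000000000000000000) := D_34 (nat_lit 224) (nat_lit 225) (nat_lit 223) (nat_lit 1) (nat_lit 7) (nat_lit 12) (nat_lit 1) (nat_lit 6) (nat_lit 12) (by decide +kernel)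
theorem L93088 : W_34 (nat_lit 3) (nat_lit 0x8000f0000000200010001000080004000000000000000000000000000) (nat_lit 0x0) (nat_lit 0x1380008000000000000000000000000000000000000000000000000000) := T_34 (nat_lit 207) (nat_lit 228) (nat_lit 3) (nat_lit 3) (nat_lit 12) L93087 (by decide +kernel)
theorem L93089 : W_34 (nat_lit 4) (nat_lit 0x8000f0000000200010001000080000000000000000000000000000000) (nat_lit 0x0) (nat_lit 0x1380008000000000020000000000004000000000000000000000000000) := T_34 (nat_lit 110) (nat_lit 161) (nat_lit 5) (nat_lit 8) (nat_lit 6) L93088 (by decide +kernel)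
theorem L93090 : W_34 (nat_lit 7) (nat_lit 0xa000f0000000200010001000080004000000000000000000000000000) (nat_lit 0x0) (nat_lit 0x1d400700038c00000000000000000000000000000000000000000000000) := T_34 (nat_lit 212) (nat_lit 226) (nat_lit 1) (nat_lit 8) (nat_lit 12) L93076 (by decide +kernel)
theorem L93091 : W_34 (nat_lit 8) (nat_lit 0xa000f0000000200010001000080000000000000000000000000000000) (nat_lit 0x0) (nat_lit 0x1d400700038c00000020000000000004000000000000000000000000000) := T_34 (nat_lit 110) (nat_lit 161) (nat_lit 5) (nat_lit 8) (nat_lit 6) L93090 (by decide +kernel)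
theorem L93092 : W_34 (nat_lit 9) (nat_lit 0x8000f0000000200010001000080000000000000000000000000000000) (nat_lit 0x0) (nat_lit 0x1d700700038c00000020000000000004000000000000000000000000000) := T_34 (nat_lit 225) (nat_lit 224) (nat_lit 1) (nat_lit 7) (nat_lit 12) L93091 (by decide +kernel)
theorem L93093 : W_34 (nat_lit 10) (nat_lit 0x8000e0000000200010001000080000000000000000000000000000000) (nat_lit 0x0) (nat_lit 0x1d780718038e00000020000000000004000000000000000000000000000) := Q_34 (nat_lit 208) (C_34 L93086 (C_34 L93065 (C_34 L92151 (C_34 L93089 (C_34 L93092 N_34))))) (by decide +kernel)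
theorem L93094 : W_34 (nat_lit 2) (nat_lit 0x8003e0008000200010001000080004000000000000000000000000000) (nat_lit 0x0) (nat_lit 0xe000000000000000000000000000000000000000000000000000000000) := D_34 (nat_lit 230) (nat_lit 229) (nat_lit 231) (nat_lit 3) (nat_lit 5) (nat_lit 12) (nat_lit 3) (nat_lit 6) (nat_lit 12) (by decide +kernel)
theorem L93095 : W_34 (nat_lit 3) (nat_lit 0x8001e0008000200010001000080004000000000000000000000000000) (nat_lit 0x0) (nat_lit 0xe400200000000000000000000000000000000000000000000000000000) := T_34 (nat_lit 213) (nat_lit 226) (nat_lit 1) (nat_lit 9) (nat_lit 12) L93094 (by decide +kernel)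
theorem L93096 : W_34 (nat_lit 4) (nat_lit 0x8001e0000000200010001000080004000000000000000000000000000) (nat_lit 0x0) (nat_lit 0xe400200018000000000000000000000000000000000000000000000000) := T_34 (nat_lit 195) (nat_lit 196) (nat_lit 2) (nat_lit 5) (nat_lit 12) L93095 (by decide +kernel)
theorem L93097 : W_34 (nat_lit 5) (nat_lit 0x8001e0000000200010001000080000000000000000000000000000000) (nat_lit 0x0) (nat_lit 0xe400200018000000020000000000004000000000000000000000000000) := T_34 (nat_lit 110) (nat_lit 161) (nat_lit 5) (nat_lit 8) (nat_lit 6) L93096 (by decide +kernel)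
theorem L93098 : W_34 (nat_lit 2) (nat_lit 0x8001e0000000200010001000080000000000000000000000000000000) (nat_lit 0x0) (nat_lit 0x600200000000000000000000000000000000000000000000000000000) := D_34 (nat_lit 226) (nat_lit 213) (nat_lit 225) (nat_lit 1) (nat_lit 9) (nat_lit 12) (nat_lit 1) (nat_lit 8) (nat_lit 12) (by decide +kernel)
theorem L93099 : W_34 (nat_lit 2) (nat_lit 0x29001f0000400200010001000080000000000000000000000000000000) (nat_lit 0x0) (nat_lit 0x80008000200000000000000000000000000000000000000000000000) := D_34 (nat_lit 207) (nat_lit 189) (nat_lit 223) (nat_lit 0) (nat_lit 6) (nat_lit 12) (nat_lit 1) (nat_lit 6) (nat_lit 12) (by decide +kernel)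
theorem L93100 : W_34 (nat_lit 3) (nat_lit 0x28001f0000400200010001000080000000000000000000000000000000) (nat_lit 0x0) (nat_lit 0x380008000200000000000000000000000000000000000000000000000) := T_34 (nat_lit 224) (nat_lit 225) (nat_lit 1) (nat_lit 7) (nat_lit 12) L93099 (by decide +kernel)
theorem L93101 : W_34 (nat_lit 4) (nat_lit 0x28001f0000000200010001000080000000000000000000000000000000) (nat_lit 0x0) (nat_lit 0x380008000e00000000000000000000000000000000000000000000000) := T_34 (nat_lit 190) (nat_lit 191) (nat_lit 0) (nat_lit 7) (nat_lit 12) L93100 (by decide +kernel)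
theorem L93102 : W_34 (nat_lit 5) (nat_lit 0x8001f0000000200010001000080000000000000000000000000000000) (nat_lit 0x0) (nat_lit 0x6380008000e00000000000000000000000000000000000000000000000) := T_34 (nat_lit 229) (nat_lit 230) (nat_lit 3) (nat_lit 5) (nat_lit 12) L93101 (by decide +kernel)
theorem L93103 : W_34 (nat_lit 2) (nat_lit 0x28001fc008400200010001000080004000000000000000000000000000) (nat_lit 0x0) (nat_lit 0x1c0000000000000000000000000000000000000000000000000000000) := D_34 (nat_lit 223) (nat_lit 222) (nat_lit 224) (nat_lit 1) (nat_lit 5) (nat_lit 12) (nat_lit 1) (nat_lit 6) (nat_lit 12) (by decide +kernel)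
theorem L93104 : W_34 (nat_lit 3) (nat_lit 0x28001f8008400200010001000080004000000000000000000000000000) (nat_lit 0x0) (nat_lit 0x5c0004000000000000000000000000000000000000000000000000000) := T_34 (nat_lit 206) (nat_lit 226) (nat_lit 3) (nat_lit 2) (nat_lit 12) L93103 (by decide +kernel)
theorem L93105 : W_34 (nat_lit 4) (nat_lit 0x28001f8008400200010001000080000000000000000000000000000000) (nat_lit 0x0) (nat_lit 0x5c0004000000000020000000000004000000000000000000000000000) := T_34 (nat_lit 110) (nat_lit 161) (nat_lit 5) (nat_lit 8) (nat_lit 6) L93104 (by decide +kernel)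
theorem L93106 : W_34 (nat_lit 5) (nat_lit 0x28001f0008400200010001000080000000000000000000000000000000) (nat_lit 0x0) (nat_lit 0x5c000c000200000020000000000004000000000000000000000000000) := T_34 (nat_lit 207) (nat_lit 189) (nat_lit 0) (nat_lit 6) (nat_lit 12) L93105 (by decide +kernel)
theorem L93107 : W_34 (nat_lit 6) (nat_lit 0x28001f0000400200010001000080000000000000000000000000000000) (nat_lit 0x0) (nat_lit 0x5c000c018200000020000000000004000000000000000000000000000) := T_34 (nat_lit 195) (nat_lit 196) (nat_lit 2) (nat_lit 5) (nat_lit 12) L93106 (by decide +kernel)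
theorem L93108 : W_34 (nat_lit 7) (nat_lit 0x28001f0000000200010001000080000000000000000000000000000000) (nat_lit 0x0) (nat_lit 0x5c000c018e00000020000000000004000000000000000000000000000) := T_34 (nat_lit 190) (nat_lit 191) (nat_lit 0) (nat_lit 7) (nat_lit 12) L93107 (by decide +kernel)
theorem L93109 : W_34 (nat_lit 8) (nat_lit 0x8001f0000000200010001000080000000000000000000000000000000) (nat_lit 0x0) (nat_lit 0x65c000c018e00000020000000000004000000000000000000000000000) := T_34 (nat_lit 229) (nat_lit 230) (nat_lit 3) (nat_lit 5) (nat_lit 12) L93108 (by decide +kernel)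
theorem L93110 : W_34 (nat_lit 4) (nat_lit 0xc001f0008000200010001000080000000000000000000000000000000) (nat_lit 0x0) (nat_lit 0x600000c000e00000000000000000000000000000000000000000000000) := T_34 (nat_lit 229) (nat_lit 230) (nat_lit 3) (nat_lit 5) (nat_lit 12) L91304 (by decide +kernel)
theorem L93111 : W_34 (nat_lit 5) (nat_lit 0x8001f0008000200010001000080000000000000000000000000000000) (nat_lit 0x0) (nat_lit 0x660000c000e00000000000000000000000000000000000000000000000) := T_34 (nat_lit 226) (nat_lit 225) (nat_lit 1) (nat_lit 8) (nat_lit 12) L93110 (by decide +kernel)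
theorem L93112 : W_34 (nat_lit 6) (nat_lit 0x8001f0000000200010001000080000000000000000000000000000000) (nat_lit 0x0) (nat_lit 0x660000c018e00000000000000000000000000000000000000000000000) := T_34 (nat_lit 195) (nat_lit 196) (nat_lit 2) (nat_lit 5) (nat_lit 12) L93111 (by decide +kernel)
theorem L93113 : W_34 (nat_lit 9) (nat_lit 0x8001e0000000200010001000080000000000000000000000000000000) (nat_lit 0x0) (nat_lit 0x67c001c018e00000020000000000004000000000000000000000000000) := Q_34 (nat_lit 208) (C_34 L91434 (C_34 L93102 (C_34 L93109 (C_34 L93112 N_34)))) (by decide +kernel)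
theorem L93114 : W_34 (nat_lit 2) (nat_lit 0x48001e0010000200010001000080000000000000000000000000000000) (nat_lit 0x0) (nat_lit 0x8000200020000000000000000000000000000000000000000000000000) := D_34 (nat_lit 213) (nat_lit 231) (nat_lit 197) (nat_lit 3) (nat_lit 6) (nat_lit 12) (nat_lit 2) (nat_lit 6) (nat_lit 12) (by decide +kernel)
theorem L93115 : W_34 (nat_lit 3) (nat_lit 0x48001e0000000200010001000080000000000000000000000000000000) (nat_lit 0x0) (nat_lit 0x8000200038000000000000000000000000000000000000000000000000) := T_34 (nat_lit 196) (nat_lit 195) (nat_lit 2) (nat_lit 5) (nat_lit 12) L93114 (by decide +kernel)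
theorem L93116 : W_34 (nat_lit 4) (nat_lit 0x8001e0000000200010001000080000000000000000000000000000000) (nat_lit 0x0) (nat_lit 0xe000200038000000000000000000000000000000000000000000000000) := T_34 (nat_lit 230) (nat_lit 229) (nat_lit 3) (nat_lit 5) (nat_lit 12) L93115 (by decide +kernel)
theorem L93117 : W_34 (nat_lit 10) (nat_lit 0x8000e0000000200010001000080000000000000000000000000000000) (nat_lit 0x0) (nat_lit 0xe7c031c038e00000020000000000004000000000000000000000000000) := Q_34 (nat_lit 212) (C_34 L93097 (C_34 L93098 (C_34 L93113 (C_34 L93116 N_34)))) (by decide +kernel)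
theorem L93118 : W_34 (nat_lit 9) (nat_lit 0x8000e0000000200010001000080000000000000000000000000000000) (nat_lit 0x0) (nat_lit 0x18000c000e800778031c018e00040002000000000000000000000000000000000000000) := Q_34 (nat_lit 226) (C_34 L91315 (C_34 L91992 (C_34 L91374 N_34))) (by decide +kernel)
theorem L93119 : W_34 (nat_lit 2) (nat_lit 0x1e000f0000800200010001000080004000000000000000000000000000) (nat_lit 0x0) (nat_lit 0x8000000000000000040002000000000000000000000000000000000000000) := D_34 (nat_lit 174) (nat_lit 243) (nat_lit 157) (nat_lit 7) (nat_lit 4) (nat_lit 10) (nat_lit 7) (nat_lit 4) (nat_lit 9) (by decide +kernel)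
theorem L93120 : W_34 (nat_lit 3) (nat_lit 0x1a000f0000800200010001000080004000000000000000000000000000) (nat_lit 0x0) (nat_lit 0x8000400100000000040002000000000000000000000000000000000000000) := T_34 (nat_lit 226) (nat_lit 212) (nat_lit 2) (nat_lit 4) (nat_lit 13) L93119 (by decide +kernel)
theorem L93121 : W_34 (nat_lit 4) (nat_lit 0x1a000f0000000200010001000080004000000000000000000000000000) (nat_lit 0x0) (nat_lit 0x8000400100000c00040002000000000000000000000000000000000000000) := T_34 (nat_lit 191) (nat_lit 190) (nat_lit 0) (nat_lit 7) (nat_lit 12) L93120 (by decide +kernel)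
theorem L93122 : W_34 (nat_lit 5) (nat_lit 0x18000f0000000200010001000080004000000000000000000000000000) (nat_lit 0x0) (nat_lit 0x8000700100000c00040002000000000000000000000000000000000000000) := T_34 (nat_lit 225) (nat_lit 224) (nat_lit 1) (nat_lit 7) (nat_lit 12) L93121 (by decide +kernel)
theorem L93123 : W_34 (nat_lit 6) (nat_lit 0x18000f0000000200010001000080000000000000000000000000000000) (nat_lit 0x0) (nat_lit 0x8000700100000c00040022000000000004000000000000000000000000000) := T_34 (nat_lit 110) (nat_lit 161) (nat_lit 5) (nat_lit 8) (nat_lit 6) L93122 (by decide +kernel)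
theorem L93124 : W_34 (nat_lit 7) (nat_lit 0x8000f0000000200010001000080000000000000000000000000000000) (nat_lit 0x0) (nat_lit 0x8003700100000c00040022000000000004000000000000000000000000000) := T_34 (nat_lit 228) (nat_lit 229) (nat_lit 3) (nat_lit 4) (nat_lit 12) L93123 (by decide +kernel)
theorem L93125 : W_34 (nat_lit 8) (nat_lit 0x8000e0000000200010001000080000000000000000000000000000000) (nat_lit 0x0) (nat_lit 0x8003780118000e00040022000000000004000000000000000000000000000) := Q_34 (nat_lit 208) (C_34 L93086 (C_34 L93089 (C_34 L93065 (C_34 L92151 (C_34 L93124 N_34))))) (by decide +kernel)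
theorem L93126 : W_34 (nat_lit 2) (nat_lit 0x200018000e0000000200010001000080000000000000000000000000000000) (nat_lit 0x0) (nat_lit 0x8000400000000000000002000000000000000000000000000000000000000000000000) := D_34 (nat_lit 262) (nat_lit 279) (nat_lit 193) (nat_lit 4) (nat_lit 7) (nat_lit 16) (nat_lit 4) (nat_lit 7) (nat_lit 15) (by decide +kernel)
theorem L93127 : W_34 (nat_lit 2) (nat_lit 0x8000000020001e000f0000800200010001000080004000000000000000000000000000) (nat_lit 0x0) (nat_lit 0x100008000000000000000040000000000000000000000000000000000000000000) := D_34 (nat_lit 243) (nat_lit 260) (nat_lit 174) (nat_lit 4) (nat_lit 5) (nat_lit 15) (nat_lit 7) (nat_lit 4) (nat_lit 10) (by decide +kernel)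
theorem L93128 : W_34 (nat_lit 3) (nat_lit 0x8000000020001a000f0000800200010001000080004000000000000000000000000000) (nat_lit 0x0) (nat_lit 0x100048000400000000000040000000000000000000000000000000000000000000) := T_34 (nat_lit 226) (nat_lit 246) (nat_lit 3) (nat_lit 4) (nat_lit 13) L93127 (by decide +kernel)
theorem L93129 : W_34 (nat_lit 4) (nat_lit 0x8000000020001a000f0000000200010001000080004000000000000000000000000000) (nat_lit 0x0) (nat_lit 0x100048000400000000c00040000000000000000000000000000000000000000000) := T_34 (nat_lit 191) (nat_lit 190) (nat_lit 0) (nat_lit 7) (nat_lit 12) L93128 (by decide +kernel)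
theorem L93130 : W_34 (nat_lit 5) (nat_lit 0x80000000200018000f0000000200010001000080004000000000000000000000000000) (nat_lit 0x0) (nat_lit 0x100048000700000000c00040000000000000000000000000000000000000000000) := T_34 (nat_lit 225) (nat_lit 224) (nat_lit 1) (nat_lit 7) (nat_lit 12) L93129 (by decide +kernel)
theorem L93131 : W_34 (nat_lit 6) (nat_lit 0x80000000200018000e0000000200010001000080004000000000000000000000000000) (nat_lit 0x0) (nat_lit 0x100048000700018000c00040000000000000000000000000000000000000000000) := T_34 (nat_lit 208) (nat_lit 207) (nat_lit 3) (nat_lit 3) (nat_lit 12) L93130 (by decide +kernel)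
theorem L93132 : W_34 (nat_lit 7) (nat_lit 0x80000000200018000e0000000200010001000080000000000000000000000000000000) (nat_lit 0x0) (nat_lit 0x100048000700018000c00040020000000000004000000000000000000000000000) := T_34 (nat_lit 110) (nat_lit 161) (nat_lit 5) (nat_lit 8) (nat_lit 6) L93131 (by decide +kernel)
theorem L93133 : W_34 (nat_lit 8) (nat_lit 0x200018000e0000000200010001000080000000000000000000000000000000) (nat_lit 0x0) (nat_lit 0x8000500048000700018000c00040020000000000004000000000000000000000000000) := T_34 (nat_lit 279) (nat_lit 262) (nat_lit 4) (nat_lit 7) (nat_lit 16) L93132 (by decide +kernel)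
theorem L93134 : W_34 (nat_lit 2) (nat_lit 0x20001e000f0000800200010001000080004000000000000000000000000000) (nat_lit 0x0) (nat_lit 0x100008000000000000000040000000000000000000000000000000000000000000) := D_34 (nat_lit 243) (nat_lit 260) (nat_lit 174) (nat_lit 4) (nat_lit 5) (nat_lit 15) (nat_lit 7) (nat_lit 4) (nat_lit 10) (by decide +kernel)
theorem L93135 : W_34 (nat_lit 3) (nat_lit 0x20001a000f0000800200010001000080004000000000000000000000000000) (nat_lit 0x0) (nat_lit 0x100048000400000000000040000000000000000000000000000000000000000000) := T_34 (nat_lit 226) (nat_lit 246) (nat_lit 3) (nat_lit 4) (nat_lit 13) L93134 (by decide +kernel)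
theorem L93136 : W_34 (nat_lit 4) (nat_lit 0x200018000f0000800200010001000080004000000000000000000000000000) (nat_lit 0x0) (nat_lit 0x100048000700000000000040000000000000000000000000000000000000000000) := T_34 (nat_lit 225) (nat_lit 224) (nat_lit 1) (nat_lit 7) (nat_lit 12) L93135 (by decide +kernel)
theorem L93137 : W_34 (nat_lit 5) (nat_lit 0x200018000f0000000200010001000080004000000000000000000000000000) (nat_lit 0x0) (nat_lit 0x100048000700000000c00040000000000000000000000000000000000000000000) := T_34 (nat_lit 191) (nat_lit 190) (nat_lit 0) (nat_lit 7) (nat_lit 12) L93136 (by decide +kernel)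
theorem L93138 : W_34 (nat_lit 6) (nat_lit 0x200018000f0000000200010001000080000000000000000000000000000000) (nat_lit 0x0) (nat_lit 0x100048000700000000c00040020000000000004000000000000000000000000000) := T_34 (nat_lit 110) (nat_lit 161) (nat_lit 5) (nat_lit 8) (nat_lit 6) L93137 (by decide +kernel)
theorem L93139 : W_34 (nat_lit 7) (nat_lit 0x200018000e0000000200010001000080000000000000000000000000000000) (nat_lit 0x0) (nat_lit 0x100048000700018000c00040020000000000004000000000000000000000000000) := T_34 (nat_lit 208) (nat_lit 207) (nat_lit 3) (nat_lit 3) (nat_lit 12) L93138 (by decide +kernel)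
theorem L93140 : W_34 (nat_lit 9) (nat_lit 0x18000e0000000200010001000080000000000000000000000000000000) (nat_lit 0x0) (nat_lit 0x8000500068000700018002c00040020000000000004000000000000000000000000000) := Q_34 (nat_lit 245) (C_34 L93126 (C_34 L93133 (C_34 L93139 N_34))) (by decide +kernel)
theorem L93141 : W_34 (nat_lit 2) (nat_lit 0x8003d000e0000000200010001000080004000000000000000000000000000) (nat_lit 0x0) (nat_lit 0x2000100000000000000002000000000000000000000000000000000000000000000000) := D_34 (nat_lit 260) (nat_lit 193) (nat_lit 277) (nat_lit 6) (nat_lit 5) (nat_lit 15) (nat_lit 6) (nat_lit 5) (nat_lit 16) (by decide +kernel)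
theorem L93142 : W_34 (nat_lit 3) (nat_lit 0x3d000e0000000200010001000080004000000000000000000000000000) (nat_lit 0x0) (nat_lit 0x200010000c000000000002000000000000000000000000000000000000000000000000) := T_34 (nat_lit 243) (nat_lit 242) (nat_lit 1) (nat_lit 8) (nat_lit 13) L93141 (by decide +kernel)
theorem L93143 : W_34 (nat_lit 4) (nat_lit 0x3d000e0000000200010001000080000000000000000000000000000000) (nat_lit 0x0) (nat_lit 0x200010000c000000000002000000020000000000004000000000000000000000000000) := T_34 (nat_lit 110) (nat_lit 161) (nat_lit 5) (nat_lit 8) (nat_lit 6) L93142 (by decide +kernel)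
theorem L93144 : W_34 (nat_lit 5) (nat_lit 0x1d000e0000000200010001000080000000000000000000000000000000) (nat_lit 0x0) (nat_lit 0x200010000c006000000002000000020000000000004000000000000000000000000000) := T_34 (nat_lit 229) (nat_lit 230) (nat_lit 0) (nat_lit 9) (nat_lit 13) L93143 (by decide +kernel)
theorem L93145 : W_34 (nat_lit 6) (nat_lit 0x1c000e0000000200010001000080000000000000000000000000000000) (nat_lit 0x0) (nat_lit 0x200010000c006300000002000000020000000000004000000000000000000000000000) := T_34 (nat_lit 224) (nat_lit 225) (nat_lit 2) (nat_lit 3) (nat_lit 13) L93144 (by decide +kernel)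
theorem L93146 : W_34 (nat_lit 10) (nat_lit 0x18000e0000000200010001000080000000000000000000000000000000) (nat_lit 0x0) (nat_lit 0x1f000f800fc006700000002000000020000000000004000000000000000000000000000) := Q_34 (nat_lit 226) (C_34 L91336 (C_34 L91288 (C_34 L91284 (C_34 L93145 N_34)))) (by decide +kernel)
theorem L93147 : W_34 (nat_lit 11) (nat_lit 0x8000e0000000200010001000080000000000000000000000000000000) (nat_lit 0x0) (nat_lit 0x1f000f800fc007700018002c00040020000000000004000000000000000000000000000) := Q_34 (nat_lit 228) (C_34 L91663 (C_34 L93140 (C_34 L93146 N_34))) (by decide +kernel)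
theorem L93148 : W_34 (nat_lit 13) (nat_lit 0x8000e0000000200010001000080000000000000000000000000000000) (nat_lit 0x0) (nat_lit 0x1f000f800fc007700318002000000020000000000004000000000000000000000000000) := Q_34 (nat_lit 226) (C_34 L92990 (C_34 L91992 (C_34 L91256 N_34))) (by decide +kernel)
theorem L93149 : W_34 (nat_lit 2) (nat_lit 0x2000400048003c001e0008000200010001000080004000000000000000000000000000) (nat_lit 0x0) (nat_lit 0x18000800000000000000000000000000000000000000000000000000000000000000000) := D_34 (nat_lit 263) (nat_lit 279) (nat_lit 280) (nat_lit 5) (nat_lit 8) (nat_lit 12) (nat_lit 4) (nat_lit 8) (nat_lit 16) (by decide +kernel)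
theorem L93150 : W_34 (nat_lit 3) (nat_lit 0x2000000048003c001e0008000200010001000080004000000000000000000000000000) (nat_lit 0x0) (nat_lit 0x18000c00020000000000000000000000000000000000000000000000000000000000000) := T_34 (nat_lit 262) (nat_lit 245) (nat_lit 6) (nat_lit 7) (nat_lit 15) L93149 (by decide +kernel)
theorem L93151 : W_34 (nat_lit 4) (nat_lit 0x2000000008003c001e0008000200010001000080004000000000000000000000000000) (nat_lit 0x0) (nat_lit 0x18000c000e0000000000000000000000000000000000000000000000000000000000000) := T_34 (nat_lit 246) (nat_lit 247) (nat_lit 3) (nat_lit 5) (nat_lit 13) L93150 (by decide +kernel)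
theorem L93152 : W_34 (nat_lit 5) (nat_lit 0x2000000008002c001e0008000200010001000080004000000000000000000000000000) (nat_lit 0x0) (nat_lit 0x18000c000e4001000000000000000000000000000000000000000000000000000000000) := T_34 (nat_lit 228) (nat_lit 242) (nat_lit 1) (nat_lit 8) (nat_lit 13) L93151 (by decide +kernel)
theorem L93153 : W_34 (nat_lit 6) (nat_lit 0x2000000008000c001e0008000200010001000080004000000000000000000000000000) (nat_lit 0x0) (nat_lit 0x18000c000e4007000000000000000000000000000000000000000000000000000000000) := T_34 (nat_lit 229) (nat_lit 230) (nat_lit 3) (nat_lit 5) (nat_lit 12) L93152 (by decide +kernel)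
theorem L93154 : W_34 (nat_lit 7) (nat_lit 0x2000000008000c001e0000000200010001000080004000000000000000000000000000) (nat_lit 0x0) (nat_lit 0x18000c000e4007000000018000000000000000000000000000000000000000000000000) := T_34 (nat_lit 195) (nat_lit 196) (nat_lit 2) (nat_lit 5) (nat_lit 12) L93153 (by decide +kernel)
theorem L93155 : W_34 (nat_lit 8) (nat_lit 0x2000000008000c000e0000000200010001000080004000000000000000000000000000) (nat_lit 0x0) (nat_lit 0x18000c000e4007000300018000000000000000000000000000000000000000000000000) := T_34 (nat_lit 212) (nat_lit 213) (nat_lit 1) (nat_lit 9) (nat_lit 12) L93154 (by decide +kernel)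
theorem L93156 : W_34 (nat_lit 9) (nat_lit 0x2000000008000c000e0000000200010001000080000000000000000000000000000000) (nat_lit 0x0) (nat_lit 0x18000c000e4007000300018000000020000000000004000000000000000000000000000) := T_34 (nat_lit 110) (nat_lit 161) (nat_lit 5) (nat_lit 8) (nat_lit 6) L93155 (by decide +kernel)
theorem L93157 : W_34 (nat_lit 10) (nat_lit 0x8000c000e0000000200010001000080000000000000000000000000000000) (nat_lit 0x0) (nat_lit 0x1a000d000e4007000300018000000020000000000004000000000000000000000000000) := T_34 (nat_lit 277) (nat_lit 260) (nat_lit 6) (nat_lit 5) (nat_lit 16) L93156 (by decide +kernel)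
theorem L93158 : W_34 (nat_lit 2) (nat_lit 0x380048003c001e0008000200010001000080000000000000000000000000000000) (nat_lit 0x0) (nat_lit 0x400030000000000000000000000000000000000000000000000000000000000000) := D_34 (nat_lit 245) (nat_lit 262) (nat_lit 244) (nat_lit 2) (nat_lit 4) (nat_lit 15) (nat_lit 1) (nat_lit 8) (nat_lit 14) (by decide +kernel)
theorem L93159 : W_34 (nat_lit 3) (nat_lit 0x380008003c001e0008000200010001000080000000000000000000000000000000) (nat_lit 0x0) (nat_lit 0x4000f0000000000000000000000000000000000000000000000000000000000000) := T_34 (nat_lit 246) (nat_lit 247) (nat_lit 3) (nat_lit 5) (nat_lit 13) L93158 (by decide +kernel)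
theorem L93160 : W_34 (nat_lit 4) (nat_lit 0x380008003c001e0000000200010001000080000000000000000000000000000000) (nat_lit 0x0) (nat_lit 0x4000f0000000000018000000000000000000000000000000000000000000000000) := T_34 (nat_lit 195) (nat_lit 196) (nat_lit 2) (nat_lit 5) (nat_lit 12) L93159 (by decide +kernel)
theorem L93161 : W_34 (nat_lit 5) (nat_lit 0x380008002c001e0000000200010001000080000000000000000000000000000000) (nat_lit 0x0) (nat_lit 0x4000f4001000000018000000000000000000000000000000000000000000000000) := T_34 (nat_lit 228) (nat_lit 242) (nat_lit 1) (nat_lit 8) (nat_lit 13) L93160 (by decide +kernel)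
theorem L93162 : W_34 (nat_lit 6) (nat_lit 0x380008000c001e0000000200010001000080000000000000000000000000000000) (nat_lit 0x0) (nat_lit 0x4000f4007000000018000000000000000000000000000000000000000000000000) := T_34 (nat_lit 229) (nat_lit 230) (nat_lit 3) (nat_lit 5) (nat_lit 12) L93161 (by decide +kernel)
theorem L93163 : W_34 (nat_lit 7) (nat_lit 0x180008000c001e0000000200010001000080000000000000000000000000000000) (nat_lit 0x0) (nat_lit 0x40006000f4007000000018000000000000000000000000000000000000000000000000) := T_34 (nat_lit 261) (nat_lit 278) (nat_lit 7) (nat_lit 5) (nat_lit 12) L93162 (by decide +kernel)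
theorem L93164 : W_34 (nat_lit 8) (nat_lit 0x100008000c001e0000000200010001000080000000000000000000000000000000) (nat_lit 0x0) (nat_lit 0x50006800f4007000000018000000000000000000000000000000000000000000000000) := T_34 (nat_lit 259) (nat_lit 276) (nat_lit 5) (nat_lit 5) (nat_lit 12) L93163 (by decide +kernel)
theorem L93165 : W_34 (nat_lit 9) (nat_lit 0x8000c001e0000000200010001000080000000000000000000000000000000) (nat_lit 0x0) (nat_lit 0x50007800f400700000001a000000000000000000000000000000000000000000000000) := T_34 (nat_lit 260) (nat_lit 193) (nat_lit 6) (nat_lit 5) (nat_lit 15) L93164 (by decide +kernel)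
theorem L93166 : W_34 (nat_lit 10) (nat_lit 0x8000c000e0000000200010001000080000000000000000000000000000000) (nat_lit 0x0) (nat_lit 0x50007800f400700030001a000000000000000000000000000000000000000000000000) := T_34 (nat_lit 212) (nat_lit 213) (nat_lit 1) (nat_lit 9) (nat_lit 12) L93165 (by decide +kernel)
theorem L93167 : W_34 (nat_lit 2) (nat_lit 0x400048003c001e0008000200010001000080004000000000000000000000000000) (nat_lit 0x0) (nat_lit 0x18000800000000000000000000000000000000000000000000000000000000000000000) := D_34 (nat_lit 263) (nat_lit 279) (nat_lit 280) (nat_lit 5) (nat_lit 8) (nat_lit 12) (nat_lit 4) (nat_lit 8) (nat_lit 16) (by decide +kernel)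
theorem L93168 : W_34 (nat_lit 3) (nat_lit 0x48003c001e0008000200010001000080004000000000000000000000000000) (nat_lit 0x0) (nat_lit 0x18000c00020000000000000000000000000000000000000000000000000000000000000) := T_34 (nat_lit 262) (nat_lit 245) (nat_lit 6) (nat_lit 7) (nat_lit 15) L93167 (by decide +kernel)
theorem L93169 : W_34 (nat_lit 4) (nat_lit 0x8003c001e0008000200010001000080004000000000000000000000000000) (nat_lit 0x0) (nat_lit 0x18000c000e0000000000000000000000000000000000000000000000000000000000000) := T_34 (nat_lit 246) (nat_lit 247) (nat_lit 3) (nat_lit 5) (nat_lit 13) L93168 (by decide +kernel)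
theorem L93170 : W_34 (nat_lit 5) (nat_lit 0x8003c001e0000000200010001000080004000000000000000000000000000) (nat_lit 0x0) (nat_lit 0x18000c000e0000000000018000000000000000000000000000000000000000000000000) := T_34 (nat_lit 195) (nat_lit 196) (nat_lit 2) (nat_lit 5) (nat_lit 12) L93169 (by decide +kernel)
theorem L93171 : W_34 (nat_lit 6) (nat_lit 0x8002c001e0000000200010001000080004000000000000000000000000000) (nat_lit 0x0) (nat_lit 0x18000c000e4001000000018000000000000000000000000000000000000000000000000) := T_34 (nat_lit 228) (nat_lit 242) (nat_lit 1) (nat_lit 8) (nat_lit 13) L93170 (by decide +kernel)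
theorem L93172 : W_34 (nat_lit 7) (nat_lit 0x8000c001e0000000200010001000080004000000000000000000000000000) (nat_lit 0x0) (nat_lit 0x18000c000e4007000000018000000000000000000000000000000000000000000000000) := T_34 (nat_lit 229) (nat_lit 230) (nat_lit 3) (nat_lit 5) (nat_lit 12) L93171 (by decide +kernel)
theorem L93173 : W_34 (nat_lit 8) (nat_lit 0x8000c001e0000000200010001000080000000000000000000000000000000) (nat_lit 0x0) (nat_lit 0x18000c000e4007000000018000000020000000000004000000000000000000000000000) := T_34 (nat_lit 110) (nat_lit 161) (nat_lit 5) (nat_lit 8) (nat_lit 6) L93172 (by decide +kernel)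
theorem L93174 : W_34 (nat_lit 9) (nat_lit 0x8000c000e0000000200010001000080000000000000000000000000000000) (nat_lit 0x0) (nat_lit 0x18000c000e4007000300018000000020000000000004000000000000000000000000000) := T_34 (nat_lit 212) (nat_lit 213) (nat_lit 1) (nat_lit 9) (nat_lit 12) L93173 (by decide +kernel)
theorem L93175 : W_34 (nat_lit 11) (nat_lit 0xc000e0000000200010001000080000000000000000000000000000000) (nat_lit 0x0) (nat_lit 0x1f000f800fc00700030001a000000020000000000004000000000000000000000000000) := Q_34 (nat_lit 243) (C_34 L91264 (C_34 L93157 (C_34 L93166 (C_34 L93174 N_34)))) (by decide +kernel)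
theorem L93176 : W_34 (nat_lit 10) (nat_lit 0xc000e0000000200010001000080000000000000000000000000000000) (nat_lit 0x0) (nat_lit 0x1f000f800fc007300000002000000020000000000004000000000000000000000000000) := Q_34 (nat_lit 228) (C_34 L91336 (C_34 L93145 (C_34 L91284 N_34))) (by decide +kernel)
theorem L93177 : W_34 (nat_lit 12) (nat_lit 0x8000e0000000200010001000080000000000000000000000000000000) (nat_lit 0x0) (nat_lit 0x1f000f800fc00770030001a000000020000000000004000000000000000000000000000) := Q_34 (nat_lit 226) (C_34 L91992 (C_34 L93175 (C_34 L93176 N_34))) (by decide +kernel)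
theorem L93178 : W_34 (nat_lit 2) (nat_lit 0x28001f0010800200010001000080004000000000000000000000000000) (nat_lit 0x0) (nat_lit 0x400200020000000000000000000000000000000000000000000000000) := D_34 (nat_lit 213) (nat_lit 226) (nat_lit 197) (nat_lit 1) (nat_lit 9) (nat_lit 12) (nat_lit 2) (nat_lit 6) (nat_lit 12) (by decide +kernel)
theorem L93179 : W_34 (nat_lit 3) (nat_lit 0x28001f0000800200010001000080004000000000000000000000000000) (nat_lit 0x0) (nat_lit 0x400200038000000000000000000000000000000000000000000000000) := T_34 (nat_lit 196) (nat_lit 195) (nat_lit 2) (nat_lit 5) (nat_lit 12) L93178 (by decide +kernel)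
theorem L93180 : W_34 (nat_lit 4) (nat_lit 0x28000f0000800200010001000080004000000000000000000000000000) (nat_lit 0x0) (nat_lit 0x4400300038000000000000000000000000000000000000000000000000) := T_34 (nat_lit 212) (nat_lit 230) (nat_lit 3) (nat_lit 5) (nat_lit 12) L93179 (by decide +kernel)
theorem L93181 : W_34 (nat_lit 5) (nat_lit 0x28000f0000000200010001000080004000000000000000000000000000) (nat_lit 0x0) (nat_lit 0x4400300038c00000000000000000000000000000000000000000000000) := T_34 (nat_lit 191) (nat_lit 190) (nat_lit 0) (nat_lit 7) (nat_lit 12) L93180 (by decide +kernel)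
theorem L93182 : W_34 (nat_lit 6) (nat_lit 0x8000f0000000200010001000080004000000000000000000000000000) (nat_lit 0x0) (nat_lit 0x7400300038c00000000000000000000000000000000000000000000000) := T_34 (nat_lit 229) (nat_lit 228) (nat_lit 3) (nat_lit 4) (nat_lit 12) L93181 (by decide +kernel)
theorem L93183 : W_34 (nat_lit 7) (nat_lit 0x8000f0000000200010001000080000000000000000000000000000000) (nat_lit 0x0) (nat_lit 0x7400300038c00000020000000000004000000000000000000000000000) := T_34 (nat_lit 110) (nat_lit 161) (nat_lit 5) (nat_lit 8) (nat_lit 6) L93182 (by decide +kernel)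
theorem L93184 : W_34 (nat_lit 2) (nat_lit 0x8800f8000400200010001000080004000000000000000000000000000) (nat_lit 0x0) (nat_lit 0x440004000000000000000000000000000000000000000000000000000) := D_34 (nat_lit 206) (nat_lit 226) (nat_lit 222) (nat_lit 3) (nat_lit 2) (nat_lit 12) (nat_lit 1) (nat_lit 5) (nat_lit 12) (by decide +kernel)
theorem L93185 : W_34 (nat_lit 3) (nat_lit 0x8000f8000400200010001000080004000000000000000000000000000) (nat_lit 0x0) (nat_lit 0x5c0004000000000000000000000000000000000000000000000000000) := T_34 (nat_lit 223) (nat_lit 224) (nat_lit 1) (nat_lit 6) (nat_lit 12) L93184 (by decide +kernel)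
theorem L93186 : W_34 (nat_lit 4) (nat_lit 0x8000f0000400200010001000080004000000000000000000000000000) (nat_lit 0x0) (nat_lit 0x5c000c000200000000000000000000000000000000000000000000000) := T_34 (nat_lit 207) (nat_lit 189) (nat_lit 0) (nat_lit 6) (nat_lit 12) L93185 (by decide +kernel)
theorem L93187 : W_34 (nat_lit 5) (nat_lit 0x8000f0000000200010001000080004000000000000000000000000000) (nat_lit 0x0) (nat_lit 0x5c000c000e00000000000000000000000000000000000000000000000) := T_34 (nat_lit 190) (nat_lit 191) (nat_lit 0) (nat_lit 7) (nat_lit 12) L93186 (by decide +kernel)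
theorem L93188 : W_34 (nat_lit 6) (nat_lit 0x8000f0000000200010001000080000000000000000000000000000000) (nat_lit 0x0) (nat_lit 0x5c000c000e00000020000000000004000000000000000000000000000) := T_34 (nat_lit 110) (nat_lit 161) (nat_lit 5) (nat_lit 8) (nat_lit 6) L93187 (by decide +kernel)
theorem L93189 : W_34 (nat_lit 8) (nat_lit 0x8000e0000000200010001000080000000000000000000000000000000) (nat_lit 0x0) (nat_lit 0x75c031c038e00000020000000000004000000000000000000000000000) := Q_34 (nat_lit 208) (C_34 L93183 (C_34 L93188 (C_34 L91965 N_34))) (by decide +kernel)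
theorem L93190 : W_34 (nat_lit 2) (nat_lit 0x28001f8008400200010001000080004000000000000000000000000000) (nat_lit 0x0) (nat_lit 0x600004000000000000000000000000000000000000000000000000000) := D_34 (nat_lit 226) (nat_lit 225) (nat_lit 206) (nat_lit 1) (nat_lit 8) (nat_lit 12) (nat_lit 3) (nat_lit 2) (nat_lit 12) (by decide +kernel)
theorem L93191 : W_34 (nat_lit 3) (nat_lit 0x28001f0008400200010001000080004000000000000000000000000000) (nat_lit 0x0) (nat_lit 0x60000c000200000000000000000000000000000000000000000000000) := T_34 (nat_lit 207) (nat_lit 189) (nat_lit 0) (nat_lit 6) (nat_lit 12) L93190 (by decide +kernel)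
theorem L93192 : W_34 (nat_lit 4) (nat_lit 0x28001f0000400200010001000080004000000000000000000000000000) (nat_lit 0x0) (nat_lit 0x60000c018200000000000000000000000000000000000000000000000) := T_34 (nat_lit 195) (nat_lit 196) (nat_lit 2) (nat_lit 5) (nat_lit 12) L93191 (by decide +kernel)
theorem L93193 : W_34 (nat_lit 5) (nat_lit 0x28001f0000000200010001000080004000000000000000000000000000) (nat_lit 0x0) (nat_lit 0x60000c018e00000000000000000000000000000000000000000000000) := T_34 (nat_lit 190) (nat_lit 191) (nat_lit 0) (nat_lit 7) (nat_lit 12) L93192 (by decide +kernel)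
theorem L93194 : W_34 (nat_lit 6) (nat_lit 0x28001e0000000200010001000080004000000000000000000000000000) (nat_lit 0x0) (nat_lit 0x160001c018e00000000000000000000000000000000000000000000000) := T_34 (nat_lit 208) (nat_lit 228) (nat_lit 3) (nat_lit 4) (nat_lit 12) L93193 (by decide +kernel)
theorem L93195 : W_34 (nat_lit 7) (nat_lit 0x8001e0000000200010001000080004000000000000000000000000000) (nat_lit 0x0) (nat_lit 0x760001c018e00000000000000000000000000000000000000000000000) := T_34 (nat_lit 229) (nat_lit 230) (nat_lit 3) (nat_lit 5) (nat_lit 12) L93194 (by decide +kernel)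
theorem L93196 : W_34 (nat_lit 8) (nat_lit 0x8001e0000000200010001000080000000000000000000000000000000) (nat_lit 0x0) (nat_lit 0x760001c018e00000020000000000004000000000000000000000000000) := T_34 (nat_lit 110) (nat_lit 161) (nat_lit 5) (nat_lit 8) (nat_lit 6) L93195 (by decide +kernel)
theorem L93197 : W_34 (nat_lit 9) (nat_lit 0x8000e0000000200010001000080000000000000000000000000000000) (nat_lit 0x0) (nat_lit 0xf60031c038e00000020000000000004000000000000000000000000000) := Q_34 (nat_lit 212) (C_34 L93116 (C_34 L93098 (C_34 L93196 N_34))) (by decide +kernel)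
theorem L93198 : W_34 (nat_lit 14) (nat_lit 0x8000c0000000200010001000080000000000000000000000000000000) (nat_lit 0x0) (nat_lit 0x1f000f800fc01f7c073c03ae00040022000000000004000000000000000000000000000) := Q_34 (nat_lit 209) (C_34 L93083 (C_34 L93093 (C_34 L93117 (C_34 L93118 (C_34 L93125 (C_34 L93147 (C_34 L93148 (C_34 L93177 (C_34 L93189 (C_34 L93197 N_34)))))))))) (by decide +kernel)
theorem L93199 : W_34 (nat_lit 10) (nat_lit 0x1c000c0000000200010001000080000000000000000000000000000000) (nat_lit 0x0) (nat_lit 0x17000f800fc00e000030000000000000000000000000000000000000000000000000000) := Q_34 (nat_lit 229) (C_34 L91856 (C_34 L91515 (C_34 L91522 N_34))) (by decide +kernel)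
theorem L93200 : W_34 (nat_lit 2) (nat_lit 0x4001e000d0000000200010001000080004000000000000000000000000000) (nat_lit 0x0) (nat_lit 0x8002000020000000000000000000000000000000000000000000000000000) := D_34 (nat_lit 229) (nat_lit 243) (nat_lit 209) (nat_lit 1) (nat_lit 8) (nat_lit 13) (nat_lit 3) (nat_lit 4) (nat_lit 12) (by decide +kernel)
theorem L93201 : W_34 (nat_lit 3) (nat_lit 0x4001e000c0000000200010001000080004000000000000000000000000000) (nat_lit 0x0) (nat_lit 0x8002000038000000000000000000000000000000000000000000000000000) := T_34 (nat_lit 208) (nat_lit 207) (nat_lit 0) (nat_lit 7) (nat_lit 13) L93200 (by decide +kernel)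
theorem L93202 : W_34 (nat_lit 4) (nat_lit 0x1e000c0000000200010001000080004000000000000000000000000000) (nat_lit 0x0) (nat_lit 0xe002000038000000000000000000000000000000000000000000000000000) := T_34 (nat_lit 242) (nat_lit 241) (nat_lit 1) (nat_lit 7) (nat_lit 13) L93201 (by decide +kernel)
theorem L93203 : W_34 (nat_lit 5) (nat_lit 0x1c000c0000000200010001000080004000000000000000000000000000) (nat_lit 0x0) (nat_lit 0xe002300038000000000000000000000000000000000000000000000000000) := T_34 (nat_lit 225) (nat_lit 224) (nat_lit 2) (nat_lit 3) (nat_lit 13) L93202 (by decide +kernel)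
theorem L93204 : W_34 (nat_lit 6) (nat_lit 0x1c000c0000000200010001000080000000000000000000000000000000) (nat_lit 0x0) (nat_lit 0xe002300038000000000020000000000004000000000000000000000000000) := T_34 (nat_lit 110) (nat_lit 161) (nat_lit 5) (nat_lit 8) (nat_lit 6) L93203 (by decide +kernel)
theorem L93205 : W_34 (nat_lit 2) (nat_lit 0xc0002c001e000d0000000200010001000080004000000000000000000000000000) (nat_lit 0x0) (nat_lit 0x4000300000000000000000000000000000000000000000000000000000000000000000) := D_34 (nat_lit 261) (nat_lit 260) (nat_lit 278) (nat_lit 0) (nat_lit 8) (nat_lit 15) (nat_lit 5) (nat_lit 7) (nat_lit 12) (by decide +kernel)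
theorem L93206 : W_34 (nat_lit 3) (nat_lit 0xc00024001e000d0000000200010001000080004000000000000000000000000000) (nat_lit 0x0) (nat_lit 0x4000300018000000000000000000000000000000000000000000000000000000000000) := T_34 (nat_lit 243) (nat_lit 244) (nat_lit 3) (nat_lit 4) (nat_lit 14) L93205 (by decide +kernel)
theorem L93207 : W_34 (nat_lit 4) (nat_lit 0x400024001e000d0000000200010001000080004000000000000000000000000000) (nat_lit 0x0) (nat_lit 0x14000b00018000000000000000000000000000000000000000000000000000000000000) := T_34 (nat_lit 263) (nat_lit 280) (nat_lit 7) (nat_lit 7) (nat_lit 12) L93206 (by decide +kernel)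
theorem L93208 : W_34 (nat_lit 5) (nat_lit 0x400020001e000d0000000200010001000080004000000000000000000000000000) (nat_lit 0x0) (nat_lit 0x14000b0001e000000000000000000000000000000000000000000000000000000000000) := T_34 (nat_lit 242) (nat_lit 241) (nat_lit 1) (nat_lit 7) (nat_lit 13) L93207 (by decide +kernel)
theorem L93209 : W_34 (nat_lit 6) (nat_lit 0x20001e000d0000000200010001000080004000000000000000000000000000) (nat_lit 0x0) (nat_lit 0x1c000f0001e000000000000000000000000000000000000000000000000000000000000) := T_34 (nat_lit 262) (nat_lit 279) (nat_lit 4) (nat_lit 7) (nat_lit 16) L93208 (by decide +kernel)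
theorem L93210 : W_34 (nat_lit 7) (nat_lit 0x20001e000c0000000200010001000080004000000000000000000000000000) (nat_lit 0x0) (nat_lit 0x1c000f0001e000000018000000000000000000000000000000000000000000000000000) := T_34 (nat_lit 208) (nat_lit 207) (nat_lit 0) (nat_lit 7) (nat_lit 13) L93209 (by decide +kernel)
theorem L93211 : W_34 (nat_lit 8) (nat_lit 0x1e000c0000000200010001000080004000000000000000000000000000) (nat_lit 0x0) (nat_lit 0x1c000f0007e000000018000000000000000000000000000000000000000000000000000) := T_34 (nat_lit 245) (nat_lit 246) (nat_lit 3) (nat_lit 4) (nat_lit 13) L93210 (by decide +kernel)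
theorem L93212 : W_34 (nat_lit 9) (nat_lit 0x1e000c0000000200010001000080000000000000000000000000000000) (nat_lit 0x0) (nat_lit 0x1c000f0007e000000018000000000020000000000004000000000000000000000000000) := T_34 (nat_lit 110) (nat_lit 161) (nat_lit 5) (nat_lit 8) (nat_lit 6) L93211 (by decide +kernel)
theorem L93213 : W_34 (nat_lit 10) (nat_lit 0x1c000c0000000200010001000080000000000000000000000000000000) (nat_lit 0x0) (nat_lit 0x1c000f0007e000300018000000000020000000000004000000000000000000000000000) := T_34 (nat_lit 225) (nat_lit 224) (nat_lit 2) (nat_lit 3) (nat_lit 13) L93212 (by decide +kernel)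
theorem L93214 : W_34 (nat_lit 2) (nat_lit 0x80001c0024001e000f0000000200010001000080004000000000000000000000000000) (nat_lit 0x0) (nat_lit 0x4000200010000000000000000000000000000000000000000000000000000000000000) := D_34 (nat_lit 261) (nat_lit 278) (nat_lit 244) (nat_lit 3) (nat_lit 3) (nat_lit 15) (nat_lit 2) (nat_lit 3) (nat_lit 15) (by decide +kernel)
theorem L93215 : W_34 (nat_lit 3) (nat_lit 0x80000c0024001e000f0000000200010001000080004000000000000000000000000000) (nat_lit 0x0) (nat_lit 0x6000300010000000000000000000000000000000000000000000000000000000000000) := T_34 (nat_lit 260) (nat_lit 277) (nat_lit 7) (nat_lit 4) (nat_lit 12) L93214 (by decide +kernel)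
theorem L93216 : W_34 (nat_lit 4) (nat_lit 0x8000080024001e000f0000000200010001000080004000000000000000000000000000) (nat_lit 0x0) (nat_lit 0x6800340010000000000000000000000000000000000000000000000000000000000000) := T_34 (nat_lit 258) (nat_lit 275) (nat_lit 5) (nat_lit 4) (nat_lit 12) L93215 (by decide +kernel)
theorem L93217 : W_34 (nat_lit 5) (nat_lit 0x8000000024001e000f0000000200010001000080004000000000000000000000000000) (nat_lit 0x0) (nat_lit 0x78003c0010000000000000000000000000000000000000000000000000000000000000) := T_34 (nat_lit 259) (nat_lit 276) (nat_lit 6) (nat_lit 4) (nat_lit 16) L93216 (by decide +kernel)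
theorem L93218 : W_34 (nat_lit 6) (nat_lit 0x8000000020001e000f0000000200010001000080004000000000000000000000000000) (nat_lit 0x0) (nat_lit 0x78003c0016000000000000000000000000000000000000000000000000000000000000) := T_34 (nat_lit 242) (nat_lit 241) (nat_lit 1) (nat_lit 7) (nat_lit 13) L93217 (by decide +kernel)
theorem L93219 : W_34 (nat_lit 7) (nat_lit 0x8000000020001e000d0000000200010001000080004000000000000000000000000000) (nat_lit 0x0) (nat_lit 0x78003c0016002000020000000000000000000000000000000000000000000000000000) := T_34 (nat_lit 209) (nat_lit 229) (nat_lit 3) (nat_lit 4) (nat_lit 12) L93218 (by decide +kernel)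
theorem L93220 : W_34 (nat_lit 8) (nat_lit 0x20001e000d0000000200010001000080004000000000000000000000000000) (nat_lit 0x0) (nat_lit 0xf8007c0016002000020000000000000000000000000000000000000000000000000000) := T_34 (nat_lit 279) (nat_lit 262) (nat_lit 4) (nat_lit 7) (nat_lit 16) L93219 (by decide +kernel)
theorem L93221 : W_34 (nat_lit 9) (nat_lit 0x20001e000c0000000200010001000080004000000000000000000000000000) (nat_lit 0x0) (nat_lit 0xf8007c0016002000038000000000000000000000000000000000000000000000000000) := T_34 (nat_lit 208) (nat_lit 207) (nat_lit 0) (nat_lit 7) (nat_lit 13) L93220 (by decide +kernel)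
theorem L93222 : W_34 (nat_lit 10) (nat_lit 0x1e000c0000000200010001000080004000000000000000000000000000) (nat_lit 0x0) (nat_lit 0xf8007c0076002000038000000000000000000000000000000000000000000000000000) := T_34 (nat_lit 245) (nat_lit 246) (nat_lit 3) (nat_lit 4) (nat_lit 13) L93221 (by decide +kernel)
theorem L93223 : W_34 (nat_lit 11) (nat_lit 0x1e000c0000000200010001000080000000000000000000000000000000) (nat_lit 0x0) (nat_lit 0xf8007c0076002000038000000000020000000000004000000000000000000000000000) := T_34 (nat_lit 110) (nat_lit 161) (nat_lit 5) (nat_lit 8) (nat_lit 6) L93222 (by decide +kernel)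
theorem L93224 : W_34 (nat_lit 12) (nat_lit 0x1c000c0000000200010001000080000000000000000000000000000000) (nat_lit 0x0) (nat_lit 0xf8007c0076002300038000000000020000000000004000000000000000000000000000) := T_34 (nat_lit 225) (nat_lit 224) (nat_lit 2) (nat_lit 3) (nat_lit 13) L93223 (by decide +kernel)
theorem L93225 : W_34 (nat_lit 3) (nat_lit 0x8000000020001e000f0000000200010001000080004000000000000000000000000000) (nat_lit 0x0) (nat_lit 0x100008000000000000c00040000000000000000000000000000000000000000000) := T_34 (nat_lit 191) (nat_lit 190) (nat_lit 0) (nat_lit 7) (nat_lit 12) L93127 (by decide +kernel)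
theorem L93226 : W_34 (nat_lit 4) (nat_lit 0x20001e000f0000000200010001000080004000000000000000000000000000) (nat_lit 0x0) (nat_lit 0x8000500008000000000000c00040000000000000000000000000000000000000000000) := T_34 (nat_lit 279) (nat_lit 262) (nat_lit 4) (nat_lit 7) (nat_lit 16) L93225 (by decide +kernel)
theorem L93227 : W_34 (nat_lit 5) (nat_lit 0x20001e000d0000000200010001000080004000000000000000000000000000) (nat_lit 0x0) (nat_lit 0x8000500008002000020000c00040000000000000000000000000000000000000000000) := T_34 (nat_lit 209) (nat_lit 229) (nat_lit 3) (nat_lit 4) (nat_lit 12) L93226 (by decide +kernel)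
theorem L93228 : W_34 (nat_lit 6) (nat_lit 0x1e000d0000000200010001000080004000000000000000000000000000) (nat_lit 0x0) (nat_lit 0x8000500068002000020000c00040000000000000000000000000000000000000000000) := T_34 (nat_lit 245) (nat_lit 246) (nat_lit 3) (nat_lit 4) (nat_lit 13) L93227 (by decide +kernel)
theorem L93229 : W_34 (nat_lit 7) (nat_lit 0x1e000c0000000200010001000080004000000000000000000000000000) (nat_lit 0x0) (nat_lit 0x8000500068002000038000c00040000000000000000000000000000000000000000000) := T_34 (nat_lit 208) (nat_lit 207) (nat_lit 0) (nat_lit 7) (nat_lit 13) L93228 (by decide +kernel)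
theorem L93230 : W_34 (nat_lit 8) (nat_lit 0x1c000c0000000200010001000080004000000000000000000000000000) (nat_lit 0x0) (nat_lit 0x8000500068002300038000c00040000000000000000000000000000000000000000000) := T_34 (nat_lit 225) (nat_lit 224) (nat_lit 2) (nat_lit 3) (nat_lit 13) L93229 (by decide +kernel)
theorem L93231 : W_34 (nat_lit 9) (nat_lit 0x1c000c0000000200010001000080000000000000000000000000000000) (nat_lit 0x0) (nat_lit 0x8000500068002300038000c00040020000000000004000000000000000000000000000) := T_34 (nat_lit 110) (nat_lit 161) (nat_lit 5) (nat_lit 8) (nat_lit 6) L93230 (by decide +kernel)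
theorem L93232 : W_34 (nat_lit 13) (nat_lit 0xc000c0000000200010001000080000000000000000000000000000000) (nat_lit 0x0) (nat_lit 0x1f800fc00fe00f300038000c00040020000000000004000000000000000000000000000) := Q_34 (nat_lit 228) (C_34 L91506 (C_34 L93199 (C_34 L91853 (C_34 L93204 (C_34 L93213 (C_34 L93224 (C_34 L93231 N_34))))))) (by decide +kernel)
theorem L93233 : W_34 (nat_lit 2) (nat_lit 0xc002c00100012000f0001000080000000000000000000000000000000) (nat_lit 0x0) (nat_lit 0x2000000000000c000000000000000000000000000000000000) := D_34 (nat_lit 146) (nat_lit 147) (nat_lit 197) (nat_lit 2) (nat_lit 7) (nat_lit 9) (nat_lit 5) (nat_lit 10) (nat_lit 8) (by decide +kernel)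
theorem L93234 : W_34 (nat_lit 3) (nat_lit 0xc002c00100002000f0001000080000000000000000000000000000000) (nat_lit 0x0) (nat_lit 0x2000300000000c000000000000000000000000000000000000) := T_34 (nat_lit 180) (nat_lit 181) (nat_lit 3) (nat_lit 7) (nat_lit 9) L93233 (by decide +kernel)
theorem L93235 : W_34 (nat_lit 4) (nat_lit 0xc002c00000002000f0001000080000000000000000000000000000000) (nat_lit 0x0) (nat_lit 0x3000380000000c000000000000000000000000000000000000) := T_34 (nat_lit 196) (nat_lit 179) (nat_lit 4) (nat_lit 9) (nat_lit 12) L93234 (by decide +kernel)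
theorem L93236 : W_34 (nat_lit 5) (nat_lit 0xc002c0000000200070001000080000000000000000000000000000000) (nat_lit 0x0) (nat_lit 0x3000390008000c000000000000000000000000000000000000) := T_34 (nat_lit 163) (nat_lit 176) (nat_lit 1) (nat_lit 10) (nat_lit 9) L93235 (by decide +kernel)
theorem L93237 : W_34 (nat_lit 6) (nat_lit 0xc000c0000000200070001000080000000000000000000000000000000) (nat_lit 0x0) (nat_lit 0x30003000390008000c000000000000000000000000000000000000) := T_34 (nat_lit 213) (nat_lit 212) (nat_lit 1) (nat_lit 9) (nat_lit 12) L93236 (by decide +kernel)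
theorem L93238 : W_34 (nat_lit 2) (nat_lit 0xc002c0000001a00070001000080000000000000000000000000000000) (nat_lit 0x0) (nat_lit 0x6000080000000000000000000000000000000000000000) := D_34 (nat_lit 181) (nat_lit 182) (nat_lit 163) (nat_lit 0) (nat_lit 12) (nat_lit 10) (nat_lit 3) (nat_lit 7) (nat_lit 9) (by decide +kernel)
theorem L93239 : W_34 (nat_lit 3) (nat_lit 0xc002c0000000a00070001000080000000000000000000000000000000) (nat_lit 0x0) (nat_lit 0x7000088000000000000000000000000000000000000000) := T_34 (nat_lit 180) (nat_lit 159) (nat_lit 3) (nat_lit 6) (nat_lit 9) L93238 (by decide +kernel)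
theorem L93240 : W_34 (nat_lit 4) (nat_lit 0xc002c0000000200070001000080000000000000000000000000000000) (nat_lit 0x0) (nat_lit 0x10007800088000000000000000000000000000000000000000) := T_34 (nat_lit 179) (nat_lit 196) (nat_lit 4) (nat_lit 9) (nat_lit 12) L93239 (by decide +kernel)
theorem L93241 : W_34 (nat_lit 5) (nat_lit 0xc000c0000000200070001000080000000000000000000000000000000) (nat_lit 0x0) (nat_lit 0x300010007800088000000000000000000000000000000000000000) := T_34 (nat_lit 213) (nat_lit 212) (nat_lit 1) (nat_lit 9) (nat_lit 12) L93240 (by decide +kernel)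
theorem L93242 : W_34 (nat_lit 2) (nat_lit 0xc000c0000001a000f0005000080000000000000000000000000000000) (nat_lit 0x0) (nat_lit 0x200010000000000000000200000000000000000000000000000000) := D_34 (nat_lit 196) (nat_lit 213) (nat_lit 129) (nat_lit 6) (nat_lit 9) (nat_lit 12) (nat_lit 5) (nat_lit 10) (nat_lit 7) (by decide +kernel)
theorem L93243 : W_34 (nat_lit 3) (nat_lit 0xc000c00000012000f0005000080000000000000000000000000000000) (nat_lit 0x0) (nat_lit 0x200010000800008000000200000000000000000000000000000000) := T_34 (nat_lit 179) (nat_lit 159) (nat_lit 3) (nat_lit 6) (nat_lit 9) L93242 (by decide +kernel)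
theorem L93244 : W_34 (nat_lit 4) (nat_lit 0xc000c00000002000f0005000080000000000000000000000000000000) (nat_lit 0x0) (nat_lit 0x200010003800008000000200000000000000000000000000000000) := T_34 (nat_lit 180) (nat_lit 181) (nat_lit 3) (nat_lit 7) (nat_lit 9) L93243 (by decide +kernel)
theorem L93245 : W_34 (nat_lit 5) (nat_lit 0xc000c00000002000f0001000080000000000000000000000000000000) (nat_lit 0x0) (nat_lit 0x20001000380000800c000200000000000000000000000000000000) := T_34 (nat_lit 146) (nat_lit 147) (nat_lit 2) (nat_lit 7) (nat_lit 9) L93244 (by decide +kernel)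
theorem L93246 : W_34 (nat_lit 6) (nat_lit 0xc000c0000000200070001000080000000000000000000000000000000) (nat_lit 0x0) (nat_lit 0x20001000390008800c000200000000000000000000000000000000) := T_34 (nat_lit 163) (nat_lit 176) (nat_lit 1) (nat_lit 10) (nat_lit 9) L93245 (by decide +kernel)
theorem L93247 : W_34 (nat_lit 2) (nat_lit 0xc000c0000001a000f0005000080000000000000000000000000000000) (nat_lit 0x0) (nat_lit 0x10000000000000000200010000000000000000000000000000) := D_34 (nat_lit 129) (nat_lit 112) (nat_lit 196) (nat_lit 5) (nat_lit 10) (nat_lit 6) (nat_lit 5) (nat_lit 10) (nat_lit 7) (by decide +kernel)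
theorem L93248 : W_34 (nat_lit 3) (nat_lit 0xc000c00000012000f0005000080000000000000000000000000000000) (nat_lit 0x0) (nat_lit 0x10000800008000000200010000000000000000000000000000) := T_34 (nat_lit 179) (nat_lit 159) (nat_lit 3) (nat_lit 6) (nat_lit 9) L93247 (by decide +kernel)
theorem L93249 : W_34 (nat_lit 4) (nat_lit 0xc000c00000002000f0005000080000000000000000000000000000000) (nat_lit 0x0) (nat_lit 0x10003800008000000200010000000000000000000000000000) := T_34 (nat_lit 180) (nat_lit 181) (nat_lit 3) (nat_lit 7) (nat_lit 9) L93248 (by decide +kernel)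
theorem L93250 : W_34 (nat_lit 5) (nat_lit 0xc000c00000002000f0001000080000000000000000000000000000000) (nat_lit 0x0) (nat_lit 0x1000380000800c000200010000000000000000000000000000) := T_34 (nat_lit 146) (nat_lit 147) (nat_lit 2) (nat_lit 7) (nat_lit 9) L93249 (by decide +kernel)
theorem L93251 : W_34 (nat_lit 6) (nat_lit 0xc000c0000000200070001000080000000000000000000000000000000) (nat_lit 0x0) (nat_lit 0x1000390008800c000200010000000000000000000000000000) := T_34 (nat_lit 163) (nat_lit 176) (nat_lit 1) (nat_lit 10) (nat_lit 9) L93250 (by decide +kernel)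
theorem L93252 : W_34 (nat_lit 2) (nat_lit 0xc002c00000022000f0009000080000000000000000000000000000000) (nat_lit 0x0) (nat_lit 0x4000100010000000000000000000000000000000000000) := D_34 (nat_lit 164) (nat_lit 182) (nat_lit 148) (nat_lit 3) (nat_lit 8) (nat_lit 9) (nat_lit 2) (nat_lit 8) (nat_lit 9) (by decide +kernel)
theorem L93253 : W_34 (nat_lit 3) (nat_lit 0xc002c00000022000f0001000080000000000000000000000000000000) (nat_lit 0x0) (nat_lit 0x400010001c000000000000000000000000000000000000) := T_34 (nat_lit 147) (nat_lit 146) (nat_lit 2) (nat_lit 7) (nat_lit 9) L93252 (by decide +kernel)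
theorem L93254 : W_34 (nat_lit 4) (nat_lit 0xc002c00000002000f0001000080000000000000000000000000000000) (nat_lit 0x0) (nat_lit 0x700010001c000000000000000000000000000000000000) := T_34 (nat_lit 181) (nat_lit 180) (nat_lit 3) (nat_lit 7) (nat_lit 9) L93253 (by decide +kernel)
theorem L93255 : W_34 (nat_lit 5) (nat_lit 0xc000c00000002000f0001000080000000000000000000000000000000) (nat_lit 0x0) (nat_lit 0x30000000700010001c000000000000000000000000000000000000) := T_34 (nat_lit 213) (nat_lit 212) (nat_lit 1) (nat_lit 9) (nat_lit 12) L93254 (by decide +kernel)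
theorem L93256 : W_34 (nat_lit 6) (nat_lit 0xc000c0000000200070001000080000000000000000000000000000000) (nat_lit 0x0) (nat_lit 0x30000000710018001c000000000000000000000000000000000000) := T_34 (nat_lit 163) (nat_lit 176) (nat_lit 1) (nat_lit 10) (nat_lit 9) L93255 (by decide +kernel)
theorem L93257 : W_34 (nat_lit 3) (nat_lit 0xc002c0000000200070001000080000000000000000000000000000000) (nat_lit 0x0) (nat_lit 0x1c0088000000000000000000000000000000000000000) := T_34 (nat_lit 176) (nat_lit 163) (nat_lit 1) (nat_lit 10) (nat_lit 9) L91409 (by decide +kernel)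
theorem L93258 : W_34 (nat_lit 4) (nat_lit 0xc000c0000000200070001000080000000000000000000000000000000) (nat_lit 0x0) (nat_lit 0x3000000001c0088000000000000000000000000000000000000000) := T_34 (nat_lit 213) (nat_lit 212) (nat_lit 1) (nat_lit 9) (nat_lit 12) L93257 (by decide +kernel)
theorem L93259 : W_34 (nat_lit 2) (nat_lit 0xc002c0000000a80078001200080000000000000000000000000000000) (nat_lit 0x0) (nat_lit 0x40004000100000000000000000000000000000000000) := D_34 (nat_lit 158) (nat_lit 174) (nat_lit 140) (nat_lit 1) (nat_lit 8) (nat_lit 9) (nat_lit 0) (nat_lit 8) (nat_lit 9) (by decide +kernel)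
theorem L93260 : W_34 (nat_lit 3) (nat_lit 0xc002c0000000a80078001000080000000000000000000000000000000) (nat_lit 0x0) (nat_lit 0x40004000700000000000000000000000000000000000) := T_34 (nat_lit 141) (nat_lit 142) (nat_lit 0) (nat_lit 9) (nat_lit 9) L93259 (by decide +kernel)
theorem L93261 : W_34 (nat_lit 4) (nat_lit 0xc002c0000000a00078001000080000000000000000000000000000000) (nat_lit 0x0) (nat_lit 0x1c0004000700000000000000000000000000000000000) := T_34 (nat_lit 175) (nat_lit 176) (nat_lit 1) (nat_lit 9) (nat_lit 9) L93260 (by decide +kernel)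
theorem L93262 : W_34 (nat_lit 5) (nat_lit 0xc002c0000000a00070001000080000000000000000000000000000000) (nat_lit 0x0) (nat_lit 0x11c000c000700000000000000000000000000000000000) := T_34 (nat_lit 159) (nat_lit 180) (nat_lit 3) (nat_lit 6) (nat_lit 9) L93261 (by decide +kernel)
theorem L93263 : W_34 (nat_lit 6) (nat_lit 0xc002c0000000200070001000080000000000000000000000000000000) (nat_lit 0x0) (nat_lit 0x100019c000c000700000000000000000000000000000000000) := T_34 (nat_lit 179) (nat_lit 196) (nat_lit 4) (nat_lit 9) (nat_lit 12) L93262 (by decide +kernel)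
theorem L93264 : W_34 (nat_lit 7) (nat_lit 0xc000c0000000200070001000080000000000000000000000000000000) (nat_lit 0x0) (nat_lit 0x3000100019c000c000700000000000000000000000000000000000) := T_34 (nat_lit 213) (nat_lit 212) (nat_lit 1) (nat_lit 9) (nat_lit 12) L93263 (by decide +kernel)
theorem L93265 : W_34 (nat_lit 8) (nat_lit 0xc000c0000000200030001000080000000000000000000000000000000) (nat_lit 0x0) (nat_lit 0x3000300079c01cc01c700200010000000000000000000000000000) := Q_34 (nat_lit 162) (C_34 L93237 (C_34 L93241 (C_34 L93246 (C_34 L93251 (C_34 L93256 (C_34 L93258 (C_34 L93264 N_34))))))) (by decide +kernel)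
theorem L93266 : W_34 (nat_lit 9) (nat_lit 0xc000c0000000200010001000080000000000000000000000000000000) (nat_lit 0x0) (nat_lit 0x3000300079c01ec01c700200014000000000000000000000000000) := T_34 (nat_lit 161) (nat_lit 110) (nat_lit 5) (nat_lit 8) (nat_lit 6) L93265 (by decide +kernel)
theorem L93267 : W_34 (nat_lit 14) (nat_lit 0x8000c0000000200010001000080000000000000000000000000000000) (nat_lit 0x0) (nat_lit 0x1f800fc00fe00f700338030c079c01ec01c700200014000000000000000000000000000) := Q_34 (nat_lit 226) (C_34 L91299 (C_34 L91297 (C_34 L93232 (C_34 L93266 N_34)))) (by decide +kernel)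
theorem L93268 : W_34 (nat_lit 15) (nat_lit 0xc0000000200010001000080000000000000000000000000000000) (nat_lit 0x0) (nat_lit 0x1f801fc00fe01ffc073c03ae079c01ee01c700200014000000000000000000000000000) := Q_34 (nat_lit 227) (C_34 L93198 (C_34 L93267 (C_34 L92996 (C_34 L91600 N_34)))) (by decide +kernel)
theorem L93269 : W_34 (nat_lit 2) (nat_lit 0x10000f0000000300010001000080004000000000000000000000000000) (nat_lit 0x0) (nat_lit 0x800008002000000000000000000000000000000000000000000000000) := D_34 (nat_lit 227) (nat_lit 207) (nat_lit 193) (nat_lit 3) (nat_lit 3) (nat_lit 12) (nat_lit 6) (nat_lit 6) (nat_lit 13) (by decide +kernel)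
theorem L93270 : W_34 (nat_lit 3) (nat_lit 0xf0000000300010001000080004000000000000000000000000000) (nat_lit 0x0) (nat_lit 0x3800008002000000000000000000000000000000000000000000000000) := T_34 (nat_lit 228) (nat_lit 229) (nat_lit 3) (nat_lit 4) (nat_lit 12) L93269 (by decide +kernel)
theorem L93271 : W_34 (nat_lit 4) (nat_lit 0xf0000000300010001000080000000000000000000000000000000) (nat_lit 0x0) (nat_lit 0x3800008002000000020000000000004000000000000000000000000000) := T_34 (nat_lit 110) (nat_lit 161) (nat_lit 5) (nat_lit 8) (nat_lit 6) L93270 (by decide +kernel)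
theorem L93272 : W_34 (nat_lit 2) (nat_lit 0xa000f00008003400b3001200080000000000000000000000000000000) (nat_lit 0x0) (nat_lit 0x1000000000000100010000000000000000000000000000000) := D_34 (nat_lit 140) (nat_lit 192) (nat_lit 124) (nat_lit 7) (nat_lit 4) (nat_lit 8) (nat_lit 6) (nat_lit 4) (nat_lit 11) (by decide +kernel)
theorem L93273 : W_34 (nat_lit 3) (nat_lit 0xa000f00008003400b3001000080000000000000000000000000000000) (nat_lit 0x0) (nat_lit 0x1000000004000300010000000000000000000000000000000) := T_34 (nat_lit 141) (nat_lit 158) (nat_lit 6) (nat_lit 4) (nat_lit 12) L93272 (by decide +kernel)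
theorem L93274 : W_34 (nat_lit 4) (nat_lit 0xa000f00008003400b1001000080000000000000000000000000000000) (nat_lit 0x0) (nat_lit 0x1000000006000380010000000000000000000000000000000) := T_34 (nat_lit 157) (nat_lit 139) (nat_lit 4) (nat_lit 4) (nat_lit 12) L93273 (by decide +kernel)
theorem L93275 : W_34 (nat_lit 5) (nat_lit 0xa000f00008003400b0001000080000000000000000000000000000000) (nat_lit 0x0) (nat_lit 0x1000020007000380010000000000000000000000000000000) := T_34 (nat_lit 156) (nat_lit 173) (nat_lit 4) (nat_lit 4) (nat_lit 13) L93274 (by decide +kernel)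
theorem L93276 : W_34 (nat_lit 6) (nat_lit 0x2000f00008003400b0001000080000000000000000000000000000000) (nat_lit 0x0) (nat_lit 0x800000003000020007000380010000000000000000000000000000000) := T_34 (nat_lit 227) (nat_lit 193) (nat_lit 6) (nat_lit 6) (nat_lit 13) L93275 (by decide +kernel)
theorem L93277 : W_34 (nat_lit 7) (nat_lit 0x2000f00008003000b0001000080000000000000000000000000000000) (nat_lit 0x0) (nat_lit 0x8000000030000e0007000380010000000000000000000000000000000) := T_34 (nat_lit 174) (nat_lit 175) (nat_lit 2) (nat_lit 4) (nat_lit 10) L93276 (by decide +kernel)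
theorem L93278 : W_34 (nat_lit 8) (nat_lit 0x2000f0000800300030001000080000000000000000000000000000000) (nat_lit 0x0) (nat_lit 0x8000000030000e00c7000380010000000000000000000000000000000) := T_34 (nat_lit 163) (nat_lit 162) (nat_lit 1) (nat_lit 10) (nat_lit 9) L93277 (by decide +kernel)
theorem L93279 : W_34 (nat_lit 9) (nat_lit 0x2000f0000000300030001000080000000000000000000000000000000) (nat_lit 0x0) (nat_lit 0x800000003c000e00c7000380010000000000000000000000000000000) := T_34 (nat_lit 191) (nat_lit 190) (nat_lit 0) (nat_lit 7) (nat_lit 12) L93278 (by decide +kernel)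
theorem L93280 : W_34 (nat_lit 10) (nat_lit 0x2000f0000000300010001000080000000000000000000000000000000) (nat_lit 0x0) (nat_lit 0x800000003c000e00e7000380010004000000000000000000000000000) := T_34 (nat_lit 161) (nat_lit 110) (nat_lit 5) (nat_lit 8) (nat_lit 6) L93279 (by decide +kernel)
theorem L93281 : W_34 (nat_lit 11) (nat_lit 0xf0000000300010001000080000000000000000000000000000000) (nat_lit 0x0) (nat_lit 0xb00000003c000e00e7000380010004000000000000000000000000000) := T_34 (nat_lit 225) (nat_lit 224) (nat_lit 1) (nat_lit 7) (nat_lit 12) L93280 (by decide +kernel)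
theorem L93282 : W_34 (nat_lit 2) (nat_lit 0x12000f80008003400b3001200080000000000000000000000000000000) (nat_lit 0x0) (nat_lit 0x1000000000000100010000000000000000000000000000000) := D_34 (nat_lit 140) (nat_lit 192) (nat_lit 124) (nat_lit 7) (nat_lit 4) (nat_lit 8) (nat_lit 6) (nat_lit 4) (nat_lit 11) (by decide +kernel)
theorem L93283 : W_34 (nat_lit 3) (nat_lit 0x12000f80008003400b3001000080000000000000000000000000000000) (nat_lit 0x0) (nat_lit 0x1000000004000300010000000000000000000000000000000) := T_34 (nat_lit 141) (nat_lit 158) (nat_lit 6) (nat_lit 4) (nat_lit 12) L93282 (by decide +kernel)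
theorem L93284 : W_34 (nat_lit 4) (nat_lit 0x12000f80008003400b1001000080000000000000000000000000000000) (nat_lit 0x0) (nat_lit 0x1000000006000380010000000000000000000000000000000) := T_34 (nat_lit 157) (nat_lit 139) (nat_lit 4) (nat_lit 4) (nat_lit 12) L93283 (by decide +kernel)
theorem L93285 : W_34 (nat_lit 5) (nat_lit 0x12000f80008003400b0001000080000000000000000000000000000000) (nat_lit 0x0) (nat_lit 0x1000020007000380010000000000000000000000000000000) := T_34 (nat_lit 156) (nat_lit 173) (nat_lit 4) (nat_lit 4) (nat_lit 13) L93284 (by decide +kernel)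
theorem L93286 : W_34 (nat_lit 6) (nat_lit 0x12000f80008003000b0001000080000000000000000000000000000000) (nat_lit 0x0) (nat_lit 0x10000e0007000380010000000000000000000000000000000) := T_34 (nat_lit 174) (nat_lit 175) (nat_lit 2) (nat_lit 4) (nat_lit 10) L93285 (by decide +kernel)
theorem L93287 : W_34 (nat_lit 7) (nat_lit 0x12000f8000800300030001000080000000000000000000000000000000) (nat_lit 0x0) (nat_lit 0x10000e00c7000380010000000000000000000000000000000) := T_34 (nat_lit 163) (nat_lit 162) (nat_lit 1) (nat_lit 10) (nat_lit 9) L93286 (by decide +kernel)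
theorem L93288 : W_34 (nat_lit 8) (nat_lit 0x12000f0000800300030001000080000000000000000000000000000000) (nat_lit 0x0) (nat_lit 0x8000080010000e00c7000380010000000000000000000000000000000) := T_34 (nat_lit 207) (nat_lit 227) (nat_lit 3) (nat_lit 3) (nat_lit 12) L93287 (by decide +kernel)
theorem L93289 : W_34 (nat_lit 9) (nat_lit 0x2000f0000800300030001000080000000000000000000000000000000) (nat_lit 0x0) (nat_lit 0x38000080010000e00c7000380010000000000000000000000000000000) := T_34 (nat_lit 228) (nat_lit 229) (nat_lit 3) (nat_lit 4) (nat_lit 12) L93288 (by decide +kernel)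
theorem L93290 : W_34 (nat_lit 10) (nat_lit 0x2000f0000800300010001000080000000000000000000000000000000) (nat_lit 0x0) (nat_lit 0x38000080010000e00e7000380010004000000000000000000000000000) := T_34 (nat_lit 161) (nat_lit 110) (nat_lit 5) (nat_lit 8) (nat_lit 6) L93289 (by decide +kernel)
theorem L93291 : W_34 (nat_lit 11) (nat_lit 0xf0000800300010001000080000000000000000000000000000000) (nat_lit 0x0) (nat_lit 0x3b000080010000e00e7000380010004000000000000000000000000000) := T_34 (nat_lit 225) (nat_lit 224) (nat_lit 1) (nat_lit 7) (nat_lit 12) L93290 (by decide +kernel)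
theorem L93292 : W_34 (nat_lit 12) (nat_lit 0xf0000000300010001000080000000000000000000000000000000) (nat_lit 0x0) (nat_lit 0x3b00008001c000e00e7000380010004000000000000000000000000000) := T_34 (nat_lit 191) (nat_lit 190) (nat_lit 0) (nat_lit 7) (nat_lit 12) L93291 (by decide +kernel)
theorem L93293 : W_34 (nat_lit 2) (nat_lit 0x10000f0000000300010001000080000000000000000000000000000000) (nat_lit 0x0) (nat_lit 0x800008002000000000000000000000000000000000000000000000000) := D_34 (nat_lit 227) (nat_lit 207) (nat_lit 193) (nat_lit 3) (nat_lit 3) (nat_lit 12) (nat_lit 6) (nat_lit 6) (nat_lit 13) (by decide +kernel)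
theorem L93294 : W_34 (nat_lit 3) (nat_lit 0xf0000000300010001000080000000000000000000000000000000) (nat_lit 0x0) (nat_lit 0x3800008002000000000000000000000000000000000000000000000000) := T_34 (nat_lit 228) (nat_lit 229) (nat_lit 3) (nat_lit 4) (nat_lit 12) L93293 (by decide +kernel)
theorem L93295 : W_34 (nat_lit 2) (nat_lit 0x12000f00008003400b3001200080000000000000000000000000000000) (nat_lit 0x0) (nat_lit 0x1000000000000100010000000000000000000000000000000) := D_34 (nat_lit 140) (nat_lit 192) (nat_lit 124) (nat_lit 7) (nat_lit 4) (nat_lit 8) (nat_lit 6) (nat_lit 4) (nat_lit 11) (by decide +kernel)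
theorem L93296 : W_34 (nat_lit 3) (nat_lit 0x12000f00008003400b3001000080000000000000000000000000000000) (nat_lit 0x0) (nat_lit 0x1000000004000300010000000000000000000000000000000) := T_34 (nat_lit 141) (nat_lit 158) (nat_lit 6) (nat_lit 4) (nat_lit 12) L93295 (by decide +kernel)
theorem L93297 : W_34 (nat_lit 4) (nat_lit 0x12000f00008003400b1001000080000000000000000000000000000000) (nat_lit 0x0) (nat_lit 0x1000000006000380010000000000000000000000000000000) := T_34 (nat_lit 157) (nat_lit 139) (nat_lit 4) (nat_lit 4) (nat_lit 12) L93296 (by decide +kernel)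
theorem L93298 : W_34 (nat_lit 5) (nat_lit 0x12000f00008003400b0001000080000000000000000000000000000000) (nat_lit 0x0) (nat_lit 0x1000020007000380010000000000000000000000000000000) := T_34 (nat_lit 156) (nat_lit 173) (nat_lit 4) (nat_lit 4) (nat_lit 13) L93297 (by decide +kernel)
theorem L93299 : W_34 (nat_lit 6) (nat_lit 0x12000f0000800340030001000080000000000000000000000000000000) (nat_lit 0x0) (nat_lit 0x10000200c7000380010000000000000000000000000000000) := T_34 (nat_lit 163) (nat_lit 162) (nat_lit 1) (nat_lit 10) (nat_lit 9) L93298 (by decide +kernel)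
theorem L93300 : W_34 (nat_lit 7) (nat_lit 0x12000f0000800300030001000080000000000000000000000000000000) (nat_lit 0x0) (nat_lit 0x10000e00c7000380010000000000000000000000000000000) := T_34 (nat_lit 174) (nat_lit 175) (nat_lit 2) (nat_lit 4) (nat_lit 10) L93299 (by decide +kernel)
theorem L93301 : W_34 (nat_lit 8) (nat_lit 0x12000f0000800300010001000080000000000000000000000000000000) (nat_lit 0x0) (nat_lit 0x10000e00e7000380010004000000000000000000000000000) := T_34 (nat_lit 161) (nat_lit 110) (nat_lit 5) (nat_lit 8) (nat_lit 6) L93300 (by decide +kernel)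
theorem L93302 : W_34 (nat_lit 9) (nat_lit 0x10000f0000800300010001000080000000000000000000000000000000) (nat_lit 0x0) (nat_lit 0x3000000010000e00e7000380010004000000000000000000000000000) := T_34 (nat_lit 225) (nat_lit 224) (nat_lit 1) (nat_lit 7) (nat_lit 12) L93301 (by decide +kernel)
theorem L93303 : W_34 (nat_lit 10) (nat_lit 0xf0000800300010001000080000000000000000000000000000000) (nat_lit 0x0) (nat_lit 0x33000000010000e00e7000380010004000000000000000000000000000) := T_34 (nat_lit 228) (nat_lit 229) (nat_lit 3) (nat_lit 4) (nat_lit 12) L93302 (by decide +kernel)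
theorem L93304 : W_34 (nat_lit 11) (nat_lit 0xf0000000300010001000080000000000000000000000000000000) (nat_lit 0x0) (nat_lit 0x3300000001c000e00e7000380010004000000000000000000000000000) := T_34 (nat_lit 191) (nat_lit 190) (nat_lit 0) (nat_lit 7) (nat_lit 12) L93303 (by decide +kernel)
theorem L93305 : W_34 (nat_lit 13) (nat_lit 0xe0000000300010001000080000000000000000000000000000000) (nat_lit 0x0) (nat_lit 0x3b00018003c000e00e7000380010004000000000000000000000000000) := Q_34 (nat_lit 208) (C_34 L93271 (C_34 L93281 (C_34 L93292 (C_34 L93294 (C_34 L93304 N_34))))) (by decide +kernel)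
theorem L93306 : W_34 (nat_lit 2) (nat_lit 0x8000e00010003800b0001000080000000000000000000000000000000) (nat_lit 0x0) (nat_lit 0x200010000400000000000000000000000000000000000000000000000000000000) := D_34 (nat_lit 244) (nat_lit 261) (nat_lit 226) (nat_lit 4) (nat_lit 6) (nat_lit 15) (nat_lit 7) (nat_lit 5) (nat_lit 10) (by decide +kernel)
theorem L93307 : W_34 (nat_lit 3) (nat_lit 0x8000e00000003800b0001000080000000000000000000000000000000) (nat_lit 0x0) (nat_lit 0x200010000400000001000000004000000000000000000000000000000000000000) := T_34 (nat_lit 192) (nat_lit 158) (nat_lit 7) (nat_lit 5) (nat_lit 9) L93306 (by decide +kernel)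
theorem L93308 : W_34 (nat_lit 4) (nat_lit 0x8000e00000003000b0001000080000000000000000000000000000000) (nat_lit 0x0) (nat_lit 0x2000100004000000010000c0004000000000000000000000000000000000000000) := T_34 (nat_lit 175) (nat_lit 174) (nat_lit 2) (nat_lit 4) (nat_lit 10) L93307 (by decide +kernel)
theorem L93309 : W_34 (nat_lit 5) (nat_lit 0x8000e0000000300030001000080000000000000000000000000000000) (nat_lit 0x0) (nat_lit 0x2000100004000000010000c00c4000000000000000000000000000000000000000) := T_34 (nat_lit 163) (nat_lit 162) (nat_lit 1) (nat_lit 10) (nat_lit 9) L93308 (by decide +kernel)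
theorem L93310 : W_34 (nat_lit 6) (nat_lit 0xe0000000300030001000080000000000000000000000000000000) (nat_lit 0x0) (nat_lit 0x200010000c000000030000c00c4000000000000000000000000000000000000000) := T_34 (nat_lit 227) (nat_lit 193) (nat_lit 6) (nat_lit 6) (nat_lit 13) L93309 (by decide +kernel)
theorem L93311 : W_34 (nat_lit 7) (nat_lit 0xe0000000300010001000080000000000000000000000000000000) (nat_lit 0x0) (nat_lit 0x200010000c000000030000c00e4000000000004000000000000000000000000000) := T_34 (nat_lit 161) (nat_lit 110) (nat_lit 5) (nat_lit 8) (nat_lit 6) L93310 (by decide +kernel)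
theorem L93312 : W_34 (nat_lit 2) (nat_lit 0x1000f0000400300010001000080004000000000000000000000000000) (nat_lit 0x0) (nat_lit 0x80008000200000000000000000000000000000000000000000000000) := D_34 (nat_lit 207) (nat_lit 223) (nat_lit 189) (nat_lit 1) (nat_lit 6) (nat_lit 12) (nat_lit 0) (nat_lit 6) (nat_lit 12) (by decide +kernel)
theorem L93313 : W_34 (nat_lit 3) (nat_lit 0x1000f0000000300010001000080004000000000000000000000000000) (nat_lit 0x0) (nat_lit 0x80008000e00000000000000000000000000000000000000000000000) := T_34 (nat_lit 190) (nat_lit 191) (nat_lit 0) (nat_lit 7) (nat_lit 12) L93312 (by decide +kernel)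
theorem L93314 : W_34 (nat_lit 4) (nat_lit 0xf0000000300010001000080004000000000000000000000000000) (nat_lit 0x0) (nat_lit 0x380008000e00000000000000000000000000000000000000000000000) := T_34 (nat_lit 224) (nat_lit 225) (nat_lit 1) (nat_lit 7) (nat_lit 12) L93313 (by decide +kernel)
theorem L93315 : W_34 (nat_lit 5) (nat_lit 0xf0000000300010001000080000000000000000000000000000000) (nat_lit 0x0) (nat_lit 0x380008000e00000020000000000004000000000000000000000000000) := T_34 (nat_lit 110) (nat_lit 161) (nat_lit 5) (nat_lit 8) (nat_lit 6) L93314 (by decide +kernel)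
theorem L93316 : W_34 (nat_lit 2) (nat_lit 0x10000f8000800300010001000080000000000000000000000000000000) (nat_lit 0x0) (nat_lit 0x380000000000000000000000000000000000000000000000000000000) := D_34 (nat_lit 224) (nat_lit 223) (nat_lit 225) (nat_lit 1) (nat_lit 6) (nat_lit 12) (nat_lit 1) (nat_lit 7) (nat_lit 12) (by decide +kernel)
theorem L93317 : W_34 (nat_lit 3) (nat_lit 0x10000f0000800300010001000080000000000000000000000000000000) (nat_lit 0x0) (nat_lit 0xb80008000000000000000000000000000000000000000000000000000) := T_34 (nat_lit 207) (nat_lit 227) (nat_lit 3) (nat_lit 3) (nat_lit 12) L93316 (by decide +kernel)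
theorem L93318 : W_34 (nat_lit 4) (nat_lit 0xf0000800300010001000080000000000000000000000000000000) (nat_lit 0x0) (nat_lit 0x3b80008000000000000000000000000000000000000000000000000000) := T_34 (nat_lit 228) (nat_lit 229) (nat_lit 3) (nat_lit 4) (nat_lit 12) L93317 (by decide +kernel)
theorem L93319 : W_34 (nat_lit 5) (nat_lit 0xf0000000300010001000080000000000000000000000000000000) (nat_lit 0x0) (nat_lit 0x3b80008000c00000000000000000000000000000000000000000000000) := T_34 (nat_lit 191) (nat_lit 190) (nat_lit 0) (nat_lit 7) (nat_lit 12) L93318 (by decide +kernel)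
theorem L93320 : W_34 (nat_lit 2) (nat_lit 0x12400fc000200300010001000080004000000000000000000000000000) (nat_lit 0x0) (nat_lit 0x420002000000000000000000000000000000000000000000000000000) := D_34 (nat_lit 205) (nat_lit 226) (nat_lit 221) (nat_lit 3) (nat_lit 1) (nat_lit 12) (nat_lit 1) (nat_lit 4) (nat_lit 12) (by decide +kernel)
theorem L93321 : W_34 (nat_lit 3) (nat_lit 0x12000fc000200300010001000080004000000000000000000000000000) (nat_lit 0x0) (nat_lit 0x4e0002000000000000000000000000000000000000000000000000000) := T_34 (nat_lit 222) (nat_lit 223) (nat_lit 1) (nat_lit 5) (nat_lit 12) L93320 (by decide +kernel)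
theorem L93322 : W_34 (nat_lit 4) (nat_lit 0x12000f8000200300010001000080004000000000000000000000000000) (nat_lit 0x0) (nat_lit 0x4e0006000100000000000000000000000000000000000000000000000) := T_34 (nat_lit 206) (nat_lit 188) (nat_lit 0) (nat_lit 5) (nat_lit 12) L93321 (by decide +kernel)
theorem L93323 : W_34 (nat_lit 5) (nat_lit 0x12000f8000000300010001000080004000000000000000000000000000) (nat_lit 0x0) (nat_lit 0x4e0006000700000000000000000000000000000000000000000000000) := T_34 (nat_lit 189) (nat_lit 190) (nat_lit 0) (nat_lit 6) (nat_lit 12) L93322 (by decide +kernel)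
theorem L93324 : W_34 (nat_lit 6) (nat_lit 0x12000f0000000300010001000080004000000000000000000000000000) (nat_lit 0x0) (nat_lit 0xce000e000700000000000000000000000000000000000000000000000) := T_34 (nat_lit 207) (nat_lit 227) (nat_lit 3) (nat_lit 3) (nat_lit 12) L93323 (by decide +kernel)
theorem L93325 : W_34 (nat_lit 7) (nat_lit 0x2000f0000000300010001000080004000000000000000000000000000) (nat_lit 0x0) (nat_lit 0x3ce000e000700000000000000000000000000000000000000000000000) := T_34 (nat_lit 228) (nat_lit 229) (nat_lit 3) (nat_lit 4) (nat_lit 12) L93324 (by decide +kernel)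
theorem L93326 : W_34 (nat_lit 8) (nat_lit 0x2000f0000000300010001000080000000000000000000000000000000) (nat_lit 0x0) (nat_lit 0x3ce000e000700000020000000000004000000000000000000000000000) := T_34 (nat_lit 110) (nat_lit 161) (nat_lit 5) (nat_lit 8) (nat_lit 6) L93325 (by decide +kernel)
theorem L93327 : W_34 (nat_lit 9) (nat_lit 0xf0000000300010001000080000000000000000000000000000000) (nat_lit 0x0) (nat_lit 0x3fe000e000700000020000000000004000000000000000000000000000) := T_34 (nat_lit 225) (nat_lit 224) (nat_lit 1) (nat_lit 7) (nat_lit 12) L93326 (by decide +kernel)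
theorem L93328 : W_34 (nat_lit 2) (nat_lit 0x10000f8000000300010001000080000000000000000000000000000000) (nat_lit 0x0) (nat_lit 0x380000000000000000000000000000000000000000000000000000000) := D_34 (nat_lit 224) (nat_lit 223) (nat_lit 225) (nat_lit 1) (nat_lit 6) (nat_lit 12) (nat_lit 1) (nat_lit 7) (nat_lit 12) (by decide +kernel)
theorem L93329 : W_34 (nat_lit 3) (nat_lit 0x10000f0000000300010001000080000000000000000000000000000000) (nat_lit 0x0) (nat_lit 0xb80008000000000000000000000000000000000000000000000000000) := T_34 (nat_lit 207) (nat_lit 227) (nat_lit 3) (nat_lit 3) (nat_lit 12) L93328 (by decide +kernel)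
theorem L93330 : W_34 (nat_lit 4) (nat_lit 0xf0000000300010001000080000000000000000000000000000000) (nat_lit 0x0) (nat_lit 0x3b80008000000000000000000000000000000000000000000000000000) := T_34 (nat_lit 228) (nat_lit 229) (nat_lit 3) (nat_lit 4) (nat_lit 12) L93329 (by decide +kernel)
theorem L93331 : W_34 (nat_lit 2) (nat_lit 0x11000f8000800300030001000080000000000000000000000000000000) (nat_lit 0x0) (nat_lit 0xc0002000000000000000000000000000000000000000) := D_34 (nat_lit 174) (nat_lit 157) (nat_lit 175) (nat_lit 5) (nat_lit 4) (nat_lit 9) (nat_lit 2) (nat_lit 4) (nat_lit 10) (by decide +kernel)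
theorem L93332 : W_34 (nat_lit 3) (nat_lit 0x11000f8000800300010001000080000000000000000000000000000000) (nat_lit 0x0) (nat_lit 0xc0022000000000004000000000000000000000000000) := T_34 (nat_lit 161) (nat_lit 110) (nat_lit 5) (nat_lit 8) (nat_lit 6) L93331 (by decide +kernel)
theorem L93333 : W_34 (nat_lit 4) (nat_lit 0x10000f8000800300010001000080000000000000000000000000000000) (nat_lit 0x0) (nat_lit 0x1800000000000c0022000000000004000000000000000000000000000) := T_34 (nat_lit 224) (nat_lit 223) (nat_lit 1) (nat_lit 6) (nat_lit 12) L93332 (by decide +kernel)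
theorem L93334 : W_34 (nat_lit 5) (nat_lit 0x10000f0000800300010001000080000000000000000000000000000000) (nat_lit 0x0) (nat_lit 0x9800080000000c0022000000000004000000000000000000000000000) := T_34 (nat_lit 207) (nat_lit 227) (nat_lit 3) (nat_lit 3) (nat_lit 12) L93333 (by decide +kernel)
theorem L93335 : W_34 (nat_lit 6) (nat_lit 0xf0000800300010001000080000000000000000000000000000000) (nat_lit 0x0) (nat_lit 0x39800080000000c0022000000000004000000000000000000000000000) := T_34 (nat_lit 228) (nat_lit 229) (nat_lit 3) (nat_lit 4) (nat_lit 12) L93334 (by decide +kernel)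
theorem L93336 : W_34 (nat_lit 7) (nat_lit 0xf0000000300010001000080000000000000000000000000000000) (nat_lit 0x0) (nat_lit 0x3980008000c000c0022000000000004000000000000000000000000000) := T_34 (nat_lit 191) (nat_lit 190) (nat_lit 0) (nat_lit 7) (nat_lit 12) L93335 (by decide +kernel)
theorem L93337 : W_34 (nat_lit 2) (nat_lit 0x10000f0000400300010001000080004000000000000000000000000000) (nat_lit 0x0) (nat_lit 0x800008000200000000000000000000000000000000000000000000000) := D_34 (nat_lit 207) (nat_lit 227) (nat_lit 189) (nat_lit 3) (nat_lit 3) (nat_lit 12) (nat_lit 0) (nat_lit 6) (nat_lit 12) (by decide +kernel)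
theorem L93338 : W_34 (nat_lit 3) (nat_lit 0xf0000400300010001000080004000000000000000000000000000) (nat_lit 0x0) (nat_lit 0x3800008000200000000000000000000000000000000000000000000000) := T_34 (nat_lit 228) (nat_lit 229) (nat_lit 3) (nat_lit 4) (nat_lit 12) L93337 (by decide +kernel)
theorem L93339 : W_34 (nat_lit 4) (nat_lit 0xf0000000300010001000080004000000000000000000000000000) (nat_lit 0x0) (nat_lit 0x3800008000e00000000000000000000000000000000000000000000000) := T_34 (nat_lit 190) (nat_lit 191) (nat_lit 0) (nat_lit 7) (nat_lit 12) L93338 (by decide +kernel)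
theorem L93340 : W_34 (nat_lit 5) (nat_lit 0xf0000000300010001000080000000000000000000000000000000) (nat_lit 0x0) (nat_lit 0x3800008000e00000020000000000004000000000000000000000000000) := T_34 (nat_lit 110) (nat_lit 161) (nat_lit 5) (nat_lit 8) (nat_lit 6) L93339 (by decide +kernel)
theorem L93341 : W_34 (nat_lit 12) (nat_lit 0xe0000000300010001000080000000000000000000000000000000) (nat_lit 0x0) (nat_lit 0x3fe001e001f000e00e7000380010004000000000000000000000000000) := Q_34 (nat_lit 208) (C_34 L93304 (C_34 L93315 (C_34 L93319 (C_34 L93327 (C_34 L93330 (C_34 L93336 (C_34 L93340 N_34))))))) (by decide +kernel)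
theorem L93342 : W_34 (nat_lit 2) (nat_lit 0x4000e000f8000400380011001000080000000000000000000000000000000) (nat_lit 0x0) (nat_lit 0x40022000000000000000000000000000000000000000) := D_34 (nat_lit 174) (nat_lit 161) (nat_lit 157) (nat_lit 2) (nat_lit 4) (nat_lit 10) (nat_lit 0) (nat_lit 7) (nat_lit 10) (by decide +kernel)
theorem L93343 : W_34 (nat_lit 3) (nat_lit 0x4000e000f8000400300011001000080000000000000000000000000000000) (nat_lit 0x0) (nat_lit 0x10000c0022000000000000000000000000000000000000000) := T_34 (nat_lit 175) (nat_lit 192) (nat_lit 5) (nat_lit 5) (nat_lit 10) L93342 (by decide +kernel)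
theorem L93344 : W_34 (nat_lit 4) (nat_lit 0xe000f8000400300011001000080000000000000000000000000000000) (nat_lit 0x0) (nat_lit 0x800040000000000010000c0022000000000000000000000000000000000000000) := T_34 (nat_lit 242) (nat_lit 259) (nat_lit 4) (nat_lit 4) (nat_lit 15) L93343 (by decide +kernel)
theorem L93345 : W_34 (nat_lit 5) (nat_lit 0xe000f8000400300010001000080000000000000000000000000000000) (nat_lit 0x0) (nat_lit 0x800040000000000010000e0023000000000000000000000000000000000000000) := T_34 (nat_lit 156) (nat_lit 173) (nat_lit 7) (nat_lit 3) (nat_lit 9) L93344 (by decide +kernel)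
theorem L93346 : W_34 (nat_lit 6) (nat_lit 0xa000f8000400300010001000080000000000000000000000000000000) (nat_lit 0x0) (nat_lit 0x800040004000040010000e0023000000000000000000000000000000000000000) := T_34 (nat_lit 226) (nat_lit 206) (nat_lit 3) (nat_lit 2) (nat_lit 12) L93345 (by decide +kernel)
theorem L93347 : W_34 (nat_lit 7) (nat_lit 0xa000f0000400300010001000080000000000000000000000000000000) (nat_lit 0x0) (nat_lit 0x8000400040000c0012000e0023000000000000000000000000000000000000000) := T_34 (nat_lit 207) (nat_lit 189) (nat_lit 0) (nat_lit 6) (nat_lit 12) L93346 (by decide +kernel)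
theorem L93348 : W_34 (nat_lit 8) (nat_lit 0xa000f0000000300010001000080000000000000000000000000000000) (nat_lit 0x0) (nat_lit 0x8000400040000c001e000e0023000000000000000000000000000000000000000) := T_34 (nat_lit 190) (nat_lit 191) (nat_lit 0) (nat_lit 7) (nat_lit 12) L93347 (by decide +kernel)
theorem L93349 : W_34 (nat_lit 9) (nat_lit 0x8000f0000000300010001000080000000000000000000000000000000) (nat_lit 0x0) (nat_lit 0x8000400070000c001e000e0023000000000000000000000000000000000000000) := T_34 (nat_lit 225) (nat_lit 224) (nat_lit 1) (nat_lit 7) (nat_lit 12) L93348 (by decide +kernel)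
theorem L93350 : W_34 (nat_lit 10) (nat_lit 0xf0000000300010001000080000000000000000000000000000000) (nat_lit 0x0) (nat_lit 0x80004000f0000c003e000e0023000000000000000000000000000000000000000) := T_34 (nat_lit 227) (nat_lit 193) (nat_lit 6) (nat_lit 6) (nat_lit 13) L93349 (by decide +kernel)
theorem L93351 : W_34 (nat_lit 2) (nat_lit 0x10000f8000400300010001000080000000000000000000000000000000) (nat_lit 0x0) (nat_lit 0x380000000000000000000000000000000000000000000000000000000) := D_34 (nat_lit 224) (nat_lit 225) (nat_lit 223) (nat_lit 1) (nat_lit 7) (nat_lit 12) (nat_lit 1) (nat_lit 6) (nat_lit 12) (by decide +kernel)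
theorem L93352 : W_34 (nat_lit 3) (nat_lit 0x10000f0000400300010001000080000000000000000000000000000000) (nat_lit 0x0) (nat_lit 0x380008000200000000000000000000000000000000000000000000000) := T_34 (nat_lit 207) (nat_lit 189) (nat_lit 0) (nat_lit 6) (nat_lit 12) L93351 (by decide +kernel)
theorem L93353 : W_34 (nat_lit 4) (nat_lit 0xf0000400300010001000080000000000000000000000000000000) (nat_lit 0x0) (nat_lit 0x3380008000200000000000000000000000000000000000000000000000) := T_34 (nat_lit 228) (nat_lit 229) (nat_lit 3) (nat_lit 4) (nat_lit 12) L93352 (by decide +kernel)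
theorem L93354 : W_34 (nat_lit 5) (nat_lit 0xf0000000300010001000080000000000000000000000000000000) (nat_lit 0x0) (nat_lit 0x3380008000e00000000000000000000000000000000000000000000000) := T_34 (nat_lit 190) (nat_lit 191) (nat_lit 0) (nat_lit 7) (nat_lit 12) L93353 (by decide +kernel)
theorem L93355 : W_34 (nat_lit 2) (nat_lit 0x8000f00000003c0014001000080000000000000000000000000000000) (nat_lit 0x0) (nat_lit 0x200000000c00000000000000000000000000000000000000000000000) := D_34 (nat_lit 191) (nat_lit 190) (nat_lit 225) (nat_lit 1) (nat_lit 7) (nat_lit 10) (nat_lit 6) (nat_lit 4) (nat_lit 13) (by decide +kernel)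
theorem L93356 : W_34 (nat_lit 3) (nat_lit 0x8000f0000000380014001000080000000000000000000000000000000) (nat_lit 0x0) (nat_lit 0x200000000c00040020000000000000000000000000000000000000000) := T_34 (nat_lit 174) (nat_lit 161) (nat_lit 2) (nat_lit 4) (nat_lit 10) L93355 (by decide +kernel)
theorem L93357 : W_34 (nat_lit 4) (nat_lit 0x8000f0000000380010001000080000000000000000000000000000000) (nat_lit 0x0) (nat_lit 0x200000001c00040024000000000000000000000000000000000000000) := T_34 (nat_lit 158) (nat_lit 192) (nat_lit 7) (nat_lit 5) (nat_lit 9) L93356 (by decide +kernel)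
theorem L93358 : W_34 (nat_lit 5) (nat_lit 0xf0000000380010001000080000000000000000000000000000000) (nat_lit 0x0) (nat_lit 0xa00000003c00040024000000000000000000000000000000000000000) := T_34 (nat_lit 227) (nat_lit 193) (nat_lit 6) (nat_lit 6) (nat_lit 13) L93357 (by decide +kernel)
theorem L93359 : W_34 (nat_lit 2) (nat_lit 0xf00008003c0010001000080000000000000000000000000000000) (nat_lit 0x0) (nat_lit 0x300000000000000004000000000000000000000000000000000000000) := D_34 (nat_lit 225) (nat_lit 224) (nat_lit 158) (nat_lit 1) (nat_lit 7) (nat_lit 12) (nat_lit 6) (nat_lit 4) (nat_lit 13) (by decide +kernel)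
theorem L93360 : W_34 (nat_lit 3) (nat_lit 0xf00000003c0010001000080000000000000000000000000000000) (nat_lit 0x0) (nat_lit 0x300000000c00000004000000000000000000000000000000000000000) := T_34 (nat_lit 191) (nat_lit 190) (nat_lit 1) (nat_lit 7) (nat_lit 10) L93359 (by decide +kernel)
theorem L93361 : W_34 (nat_lit 4) (nat_lit 0xf0000000380010001000080000000000000000000000000000000) (nat_lit 0x0) (nat_lit 0x300000000c00040024000000000000000000000000000000000000000) := T_34 (nat_lit 174) (nat_lit 161) (nat_lit 2) (nat_lit 4) (nat_lit 10) L93360 (by decide +kernel)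
theorem L93362 : W_34 (nat_lit 2) (nat_lit 0xa000f00008003c0010001000080000000000000000000000000000000) (nat_lit 0x0) (nat_lit 0x400000000000000003000000000000000000000000000000000000000) := D_34 (nat_lit 157) (nat_lit 156) (nat_lit 226) (nat_lit 0) (nat_lit 7) (nat_lit 10) (nat_lit 7) (nat_lit 4) (nat_lit 9) (by decide +kernel)
theorem L93363 : W_34 (nat_lit 3) (nat_lit 0xa000f00000003c0010001000080000000000000000000000000000000) (nat_lit 0x0) (nat_lit 0x400000000c00000003000000000000000000000000000000000000000) := T_34 (nat_lit 191) (nat_lit 190) (nat_lit 1) (nat_lit 7) (nat_lit 10) L93362 (by decide +kernel)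
theorem L93364 : W_34 (nat_lit 4) (nat_lit 0xa000f0000000380010001000080000000000000000000000000000000) (nat_lit 0x0) (nat_lit 0x400000000c00040023000000000000000000000000000000000000000) := T_34 (nat_lit 174) (nat_lit 161) (nat_lit 2) (nat_lit 4) (nat_lit 10) L93363 (by decide +kernel)
theorem L93365 : W_34 (nat_lit 5) (nat_lit 0x2000f0000000380010001000080000000000000000000000000000000) (nat_lit 0x0) (nat_lit 0xc00000002c00040023000000000000000000000000000000000000000) := T_34 (nat_lit 227) (nat_lit 193) (nat_lit 6) (nat_lit 6) (nat_lit 13) L93364 (by decide +kernel)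
theorem L93366 : W_34 (nat_lit 6) (nat_lit 0xf0000000380010001000080000000000000000000000000000000) (nat_lit 0x0) (nat_lit 0xf00000002c00040023000000000000000000000000000000000000000) := T_34 (nat_lit 225) (nat_lit 224) (nat_lit 1) (nat_lit 7) (nat_lit 12) L93365 (by decide +kernel)
theorem L93367 : W_34 (nat_lit 2) (nat_lit 0x8000f0001800380010001000080000000000000000000000000000000) (nat_lit 0x0) (nat_lit 0x4000300000000000000000000000000000000000000000000000000000000) := D_34 (nat_lit 225) (nat_lit 224) (nat_lit 242) (nat_lit 1) (nat_lit 7) (nat_lit 12) (nat_lit 6) (nat_lit 4) (nat_lit 14) (by decide +kernel)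
theorem L93368 : W_34 (nat_lit 3) (nat_lit 0x8000f0000800380010001000080000000000000000000000000000000) (nat_lit 0x0) (nat_lit 0x4000300000001000000004000000000000000000000000000000000000000) := T_34 (nat_lit 192) (nat_lit 158) (nat_lit 7) (nat_lit 5) (nat_lit 9) L93367 (by decide +kernel)
theorem L93369 : W_34 (nat_lit 4) (nat_lit 0xf0000800380010001000080000000000000000000000000000000) (nat_lit 0x0) (nat_lit 0x4000b00000003000000004000000000000000000000000000000000000000) := T_34 (nat_lit 227) (nat_lit 193) (nat_lit 6) (nat_lit 6) (nat_lit 13) L93368 (by decide +kernel)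
theorem L93370 : W_34 (nat_lit 5) (nat_lit 0xf0000000380010001000080000000000000000000000000000000) (nat_lit 0x0) (nat_lit 0x4000b00000003c00000004000000000000000000000000000000000000000) := T_34 (nat_lit 191) (nat_lit 190) (nat_lit 0) (nat_lit 7) (nat_lit 12) L93369 (by decide +kernel)
theorem L93371 : W_34 (nat_lit 2) (nat_lit 0x2000f00000003c0012001000080000000000000000000000000000000) (nat_lit 0x0) (nat_lit 0x400000001000000004000000000000000000000000000000000000000) := D_34 (nat_lit 192) (nat_lit 158) (nat_lit 226) (nat_lit 5) (nat_lit 5) (nat_lit 9) (nat_lit 4) (nat_lit 5) (nat_lit 13) (by decide +kernel)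
theorem L93372 : W_34 (nat_lit 3) (nat_lit 0x2000f00000003c0010001000080000000000000000000000000000000) (nat_lit 0x0) (nat_lit 0x400000001000000007000000000000000000000000000000000000000) := T_34 (nat_lit 157) (nat_lit 156) (nat_lit 0) (nat_lit 7) (nat_lit 10) L93371 (by decide +kernel)
theorem L93373 : W_34 (nat_lit 4) (nat_lit 0x2000f0000000380010001000080000000000000000000000000000000) (nat_lit 0x0) (nat_lit 0x400000001000040027000000000000000000000000000000000000000) := T_34 (nat_lit 174) (nat_lit 161) (nat_lit 2) (nat_lit 4) (nat_lit 10) L93372 (by decide +kernel)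
theorem L93374 : W_34 (nat_lit 5) (nat_lit 0xf0000000380010001000080000000000000000000000000000000) (nat_lit 0x0) (nat_lit 0x700000001000040027000000000000000000000000000000000000000) := T_34 (nat_lit 225) (nat_lit 224) (nat_lit 1) (nat_lit 7) (nat_lit 12) L93373 (by decide +kernel)
theorem L93375 : W_34 (nat_lit 2) (nat_lit 0xf00008003c0010001000080000000000000000000000000000000) (nat_lit 0x0) (nat_lit 0x400000000000000003000000000000000000000000000000000000000) := D_34 (nat_lit 157) (nat_lit 156) (nat_lit 226) (nat_lit 0) (nat_lit 7) (nat_lit 10) (nat_lit 7) (nat_lit 4) (nat_lit 9) (by decide +kernel)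
theorem L93376 : W_34 (nat_lit 3) (nat_lit 0xf0000800380010001000080000000000000000000000000000000) (nat_lit 0x0) (nat_lit 0x400000000000040023000000000000000000000000000000000000000) := T_34 (nat_lit 174) (nat_lit 161) (nat_lit 2) (nat_lit 4) (nat_lit 10) L93375 (by decide +kernel)
theorem L93377 : W_34 (nat_lit 4) (nat_lit 0xf0000000380010001000080000000000000000000000000000000) (nat_lit 0x0) (nat_lit 0x400000000c00040023000000000000000000000000000000000000000) := T_34 (nat_lit 191) (nat_lit 190) (nat_lit 0) (nat_lit 7) (nat_lit 12) L93376 (by decide +kernel)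
theorem L93378 : W_34 (nat_lit 7) (nat_lit 0xf0000000300010001000080000000000000000000000000000000) (nat_lit 0x0) (nat_lit 0x4000f00000003c000c0027000000000000000000000000000000000000000) := Q_34 (nat_lit 175) (C_34 L93358 (C_34 L93361 (C_34 L93366 (C_34 L93370 (C_34 L93374 (C_34 L93377 N_34)))))) (by decide +kernel)
theorem L93379 : W_34 (nat_lit 11) (nat_lit 0xe0000000300010001000080000000000000000000000000000000) (nat_lit 0x0) (nat_lit 0x80004003f8001c003e000e0027000000000000000000000000000000000000000) := Q_34 (nat_lit 208) (C_34 L93330 (C_34 L93350 (C_34 L93354 (C_34 L93294 (C_34 L93378 N_34))))) (by decide +kernel)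
theorem L93380 : W_34 (nat_lit 2) (nat_lit 0x8001d000f0000800300010001000080000000000000000000000000000000) (nat_lit 0x0) (nat_lit 0x1000040002000000000000000000000000000000000000000) := D_34 (nat_lit 174) (nat_lit 157) (nat_lit 192) (nat_lit 7) (nat_lit 4) (nat_lit 9) (nat_lit 4) (nat_lit 5) (nat_lit 14) (by decide +kernel)
theorem L93381 : W_34 (nat_lit 3) (nat_lit 0x1d000f0000800300010001000080000000000000000000000000000000) (nat_lit 0x0) (nat_lit 0x100008000000000001000040002000000000000000000000000000000000000000) := T_34 (nat_lit 243) (nat_lit 260) (nat_lit 4) (nat_lit 5) (nat_lit 15) L93380 (by decide +kernel)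
theorem L93382 : W_34 (nat_lit 4) (nat_lit 0xd000f0000800300010001000080000000000000000000000000000000) (nat_lit 0x0) (nat_lit 0x100008003000000001000040002000000000000000000000000000000000000000) := T_34 (nat_lit 228) (nat_lit 229) (nat_lit 3) (nat_lit 4) (nat_lit 12) L93381 (by decide +kernel)
theorem L93383 : W_34 (nat_lit 5) (nat_lit 0xd000f0000000300010001000080000000000000000000000000000000) (nat_lit 0x0) (nat_lit 0x100008003000000001c00040002000000000000000000000000000000000000000) := T_34 (nat_lit 191) (nat_lit 190) (nat_lit 0) (nat_lit 7) (nat_lit 12) L93382 (by decide +kernel)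
theorem L93384 : W_34 (nat_lit 6) (nat_lit 0xc000f0000000300010001000080000000000000000000000000000000) (nat_lit 0x0) (nat_lit 0x100008003300000001c00040002000000000000000000000000000000000000000) := T_34 (nat_lit 224) (nat_lit 225) (nat_lit 2) (nat_lit 3) (nat_lit 13) L93383 (by decide +kernel)
theorem L93385 : W_34 (nat_lit 7) (nat_lit 0x4000f0000000300010001000080000000000000000000000000000000) (nat_lit 0x0) (nat_lit 0x100008003b00000003c00040002000000000000000000000000000000000000000) := T_34 (nat_lit 227) (nat_lit 193) (nat_lit 6) (nat_lit 6) (nat_lit 13) L93384 (by decide +kernel)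
theorem L93386 : W_34 (nat_lit 2) (nat_lit 0x16000f0000800300010001000080004000000000000000000000000000) (nat_lit 0x0) (nat_lit 0x100008000000000000000040000000000000000000000000000000000000000000) := D_34 (nat_lit 243) (nat_lit 260) (nat_lit 174) (nat_lit 4) (nat_lit 5) (nat_lit 15) (nat_lit 7) (nat_lit 4) (nat_lit 10) (by decide +kernel)
theorem L93387 : W_34 (nat_lit 3) (nat_lit 0x16000f0000000300010001000080004000000000000000000000000000) (nat_lit 0x0) (nat_lit 0x100008000000000000c00040000000000000000000000000000000000000000000) := T_34 (nat_lit 191) (nat_lit 190) (nat_lit 0) (nat_lit 7) (nat_lit 12) L93386 (by decide +kernel)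
theorem L93388 : W_34 (nat_lit 4) (nat_lit 0x14000f0000000300010001000080004000000000000000000000000000) (nat_lit 0x0) (nat_lit 0x100008000300000000c00040000000000000000000000000000000000000000000) := T_34 (nat_lit 225) (nat_lit 224) (nat_lit 1) (nat_lit 7) (nat_lit 12) L93387 (by decide +kernel)
theorem L93389 : W_34 (nat_lit 5) (nat_lit 0x14000f0000000300010001000080000000000000000000000000000000) (nat_lit 0x0) (nat_lit 0x100008000300000000c00040020000000000004000000000000000000000000000) := T_34 (nat_lit 110) (nat_lit 161) (nat_lit 5) (nat_lit 8) (nat_lit 6) L93388 (by decide +kernel)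
theorem L93390 : W_34 (nat_lit 6) (nat_lit 0x4000f0000000300010001000080000000000000000000000000000000) (nat_lit 0x0) (nat_lit 0x100008003300000000c00040020000000000004000000000000000000000000000) := T_34 (nat_lit 228) (nat_lit 229) (nat_lit 3) (nat_lit 4) (nat_lit 12) L93389 (by decide +kernel)
theorem L93391 : W_34 (nat_lit 2) (nat_lit 0x8000d000f0000800300010001000080000000000000000000000000000000) (nat_lit 0x0) (nat_lit 0x1000040002000000000000000000000000000000000000000) := D_34 (nat_lit 174) (nat_lit 157) (nat_lit 192) (nat_lit 7) (nat_lit 4) (nat_lit 9) (nat_lit 4) (nat_lit 5) (nat_lit 14) (by decide +kernel)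
theorem L93392 : W_34 (nat_lit 3) (nat_lit 0xd000f0000800300010001000080000000000000000000000000000000) (nat_lit 0x0) (nat_lit 0x100008000000000001000040002000000000000000000000000000000000000000) := T_34 (nat_lit 243) (nat_lit 260) (nat_lit 4) (nat_lit 5) (nat_lit 15) L93391 (by decide +kernel)
theorem L93393 : W_34 (nat_lit 4) (nat_lit 0xc000f0000800300010001000080000000000000000000000000000000) (nat_lit 0x0) (nat_lit 0x100008000300000001000040002000000000000000000000000000000000000000) := T_34 (nat_lit 224) (nat_lit 225) (nat_lit 2) (nat_lit 3) (nat_lit 13) L93392 (by decide +kernel)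
theorem L93394 : W_34 (nat_lit 5) (nat_lit 0x4000f0000800300010001000080000000000000000000000000000000) (nat_lit 0x0) (nat_lit 0x100008000b00000003000040002000000000000000000000000000000000000000) := T_34 (nat_lit 227) (nat_lit 193) (nat_lit 6) (nat_lit 6) (nat_lit 13) L93393 (by decide +kernel)
theorem L93395 : W_34 (nat_lit 6) (nat_lit 0x4000f0000000300010001000080000000000000000000000000000000) (nat_lit 0x0) (nat_lit 0x100008000b00000003c00040002000000000000000000000000000000000000000) := T_34 (nat_lit 191) (nat_lit 190) (nat_lit 0) (nat_lit 7) (nat_lit 12) L93394 (by decide +kernel)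
theorem L93396 : W_34 (nat_lit 2) (nat_lit 0x24001e000f0000800300010001000080004000000000000000000000000000) (nat_lit 0x0) (nat_lit 0x1000080000000000000001000000000000000000000000000000000000000000000000) := D_34 (nat_lit 259) (nat_lit 192) (nat_lit 276) (nat_lit 6) (nat_lit 4) (nat_lit 15) (nat_lit 6) (nat_lit 4) (nat_lit 16) (by decide +kernel)
theorem L93397 : W_34 (nat_lit 3) (nat_lit 0x20001e000f0000800300010001000080004000000000000000000000000000) (nat_lit 0x0) (nat_lit 0x1000080006000000000001000000000000000000000000000000000000000000000000) := T_34 (nat_lit 242) (nat_lit 241) (nat_lit 1) (nat_lit 7) (nat_lit 13) L93396 (by decide +kernel)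
theorem L93398 : W_34 (nat_lit 4) (nat_lit 0x1e000f0000800300010001000080004000000000000000000000000000) (nat_lit 0x0) (nat_lit 0x1000080066000000000001000000000000000000000000000000000000000000000000) := T_34 (nat_lit 245) (nat_lit 246) (nat_lit 3) (nat_lit 4) (nat_lit 13) L93397 (by decide +kernel)
theorem L93399 : W_34 (nat_lit 5) (nat_lit 0x16000f0000800300010001000080004000000000000000000000000000) (nat_lit 0x0) (nat_lit 0x1000080066000800000003000000000000000000000000000000000000000000000000) := T_34 (nat_lit 227) (nat_lit 193) (nat_lit 6) (nat_lit 6) (nat_lit 13) L93398 (by decide +kernel)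
theorem L93400 : W_34 (nat_lit 6) (nat_lit 0x16000f0000000300010001000080004000000000000000000000000000) (nat_lit 0x0) (nat_lit 0x1000080066000800000003c00000000000000000000000000000000000000000000000) := T_34 (nat_lit 191) (nat_lit 190) (nat_lit 0) (nat_lit 7) (nat_lit 12) L93399 (by decide +kernel)
theorem L93401 : W_34 (nat_lit 7) (nat_lit 0x14000f0000000300010001000080004000000000000000000000000000) (nat_lit 0x0) (nat_lit 0x1000080066000b00000003c00000000000000000000000000000000000000000000000) := T_34 (nat_lit 225) (nat_lit 224) (nat_lit 1) (nat_lit 7) (nat_lit 12) L93400 (by decide +kernel)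
theorem L93402 : W_34 (nat_lit 8) (nat_lit 0x4000f0000000300010001000080004000000000000000000000000000) (nat_lit 0x0) (nat_lit 0x1000080066003b00000003c00000000000000000000000000000000000000000000000) := T_34 (nat_lit 228) (nat_lit 229) (nat_lit 3) (nat_lit 4) (nat_lit 12) L93401 (by decide +kernel)
theorem L93403 : W_34 (nat_lit 9) (nat_lit 0x4000f0000000300010001000080000000000000000000000000000000) (nat_lit 0x0) (nat_lit 0x1000080066003b00000003c00000020000000000004000000000000000000000000000) := T_34 (nat_lit 110) (nat_lit 161) (nat_lit 5) (nat_lit 8) (nat_lit 6) L93402 (by decide +kernel)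
theorem L93404 : W_34 (nat_lit 2) (nat_lit 0x4001e000f0000000300010001000080000000000000000000000000000000) (nat_lit 0x0) (nat_lit 0x1000080000000000000001000000000000000000000000000000000000000000000000) := D_34 (nat_lit 259) (nat_lit 192) (nat_lit 276) (nat_lit 6) (nat_lit 4) (nat_lit 15) (nat_lit 6) (nat_lit 4) (nat_lit 16) (by decide +kernel)
theorem L93405 : W_34 (nat_lit 3) (nat_lit 0x1e000f0000000300010001000080000000000000000000000000000000) (nat_lit 0x0) (nat_lit 0x1000080006000000000001000000000000000000000000000000000000000000000000) := T_34 (nat_lit 242) (nat_lit 241) (nat_lit 1) (nat_lit 7) (nat_lit 13) L93404 (by decide +kernel)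
theorem L93406 : W_34 (nat_lit 4) (nat_lit 0xe000f0000000300010001000080000000000000000000000000000000) (nat_lit 0x0) (nat_lit 0x1000080006003000000001000000000000000000000000000000000000000000000000) := T_34 (nat_lit 228) (nat_lit 229) (nat_lit 3) (nat_lit 4) (nat_lit 12) L93405 (by decide +kernel)
theorem L93407 : W_34 (nat_lit 5) (nat_lit 0xc000f0000000300010001000080000000000000000000000000000000) (nat_lit 0x0) (nat_lit 0x1000080006003300000001000000000000000000000000000000000000000000000000) := T_34 (nat_lit 225) (nat_lit 224) (nat_lit 2) (nat_lit 3) (nat_lit 13) L93406 (by decide +kernel)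
theorem L93408 : W_34 (nat_lit 6) (nat_lit 0x4000f0000000300010001000080000000000000000000000000000000) (nat_lit 0x0) (nat_lit 0x1000080006003b00000003000000000000000000000000000000000000000000000000) := T_34 (nat_lit 227) (nat_lit 193) (nat_lit 6) (nat_lit 6) (nat_lit 13) L93407 (by decide +kernel)
theorem L93409 : W_34 (nat_lit 2) (nat_lit 0x1c000f0000800340010001000080004000000000000000000000000000) (nat_lit 0x0) (nat_lit 0x100008000000000001000000000000000000000000000000000000000000000000) := D_34 (nat_lit 243) (nat_lit 260) (nat_lit 192) (nat_lit 4) (nat_lit 5) (nat_lit 15) (nat_lit 4) (nat_lit 5) (nat_lit 14) (by decide +kernel)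
theorem L93410 : W_34 (nat_lit 3) (nat_lit 0x1c000f0000800300010001000080004000000000000000000000000000) (nat_lit 0x0) (nat_lit 0x100008000000000001000040002000000000000000000000000000000000000000) := T_34 (nat_lit 174) (nat_lit 157) (nat_lit 7) (nat_lit 4) (nat_lit 9) L93409 (by decide +kernel)
theorem L93411 : W_34 (nat_lit 4) (nat_lit 0x1c000f0000800300010001000080000000000000000000000000000000) (nat_lit 0x0) (nat_lit 0x100008000000000001000040022000000000004000000000000000000000000000) := T_34 (nat_lit 110) (nat_lit 161) (nat_lit 5) (nat_lit 8) (nat_lit 6) L93410 (by decide +kernel)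
theorem L93412 : W_34 (nat_lit 5) (nat_lit 0x1c000f0000000300010001000080000000000000000000000000000000) (nat_lit 0x0) (nat_lit 0x100008000000000001c00040022000000000004000000000000000000000000000) := T_34 (nat_lit 191) (nat_lit 190) (nat_lit 0) (nat_lit 7) (nat_lit 12) L93411 (by decide +kernel)
theorem L93413 : W_34 (nat_lit 6) (nat_lit 0x14000f0000000300010001000080000000000000000000000000000000) (nat_lit 0x0) (nat_lit 0x100008000800000003c00040022000000000004000000000000000000000000000) := T_34 (nat_lit 227) (nat_lit 193) (nat_lit 6) (nat_lit 6) (nat_lit 13) L93412 (by decide +kernel)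
theorem L93414 : W_34 (nat_lit 7) (nat_lit 0x4000f0000000300010001000080000000000000000000000000000000) (nat_lit 0x0) (nat_lit 0x100008003800000003c00040022000000000004000000000000000000000000000) := T_34 (nat_lit 228) (nat_lit 229) (nat_lit 3) (nat_lit 4) (nat_lit 12) L93413 (by decide +kernel)
theorem L93415 : W_34 (nat_lit 10) (nat_lit 0xf0000000300010001000080000000000000000000000000000000) (nat_lit 0x0) (nat_lit 0x100018006e003f00000003c00040022000000000004000000000000000000000000000) := Q_34 (nat_lit 226) (C_34 L93385 (C_34 L93390 (C_34 L93395 (C_34 L93403 (C_34 L93408 (C_34 L93414 N_34)))))) (by decide +kernel)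
theorem L93416 : W_34 (nat_lit 11) (nat_lit 0xe0000000300010001000080000000000000000000000000000000) (nat_lit 0x0) (nat_lit 0x100018006e003f80018003e00040022000000000004000000000000000000000000000) := Q_34 (nat_lit 208) (C_34 L93354 (C_34 L93315 (C_34 L93330 (C_34 L93340 (C_34 L93415 N_34))))) (by decide +kernel)
theorem L93417 : W_34 (nat_lit 2) (nat_lit 0x1a000f0000800340030001000080000000000000000000000000000000) (nat_lit 0x0) (nat_lit 0x8000400000000000000002000000000000000000000000000000000000000) := D_34 (nat_lit 226) (nat_lit 243) (nat_lit 157) (nat_lit 7) (nat_lit 4) (nat_lit 10) (nat_lit 7) (nat_lit 4) (nat_lit 9) (by decide +kernel)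
theorem L93418 : W_34 (nat_lit 3) (nat_lit 0x1a000f0000800300030001000080000000000000000000000000000000) (nat_lit 0x0) (nat_lit 0x80004000000000000c0002000000000000000000000000000000000000000) := T_34 (nat_lit 174) (nat_lit 175) (nat_lit 2) (nat_lit 4) (nat_lit 10) L93417 (by decide +kernel)
theorem L93419 : W_34 (nat_lit 4) (nat_lit 0x1a000f0000800300010001000080000000000000000000000000000000) (nat_lit 0x0) (nat_lit 0x80004000000000000c0022000000000004000000000000000000000000000) := T_34 (nat_lit 161) (nat_lit 110) (nat_lit 5) (nat_lit 8) (nat_lit 6) L93418 (by decide +kernel)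
theorem L93420 : W_34 (nat_lit 5) (nat_lit 0xa000f0000800300010001000080000000000000000000000000000000) (nat_lit 0x0) (nat_lit 0x80034000000000000c0022000000000004000000000000000000000000000) := T_34 (nat_lit 228) (nat_lit 229) (nat_lit 3) (nat_lit 4) (nat_lit 12) L93419 (by decide +kernel)
theorem L93421 : W_34 (nat_lit 6) (nat_lit 0xa000f0000000300010001000080000000000000000000000000000000) (nat_lit 0x0) (nat_lit 0x8003400000000c000c0022000000000004000000000000000000000000000) := T_34 (nat_lit 191) (nat_lit 190) (nat_lit 0) (nat_lit 7) (nat_lit 12) L93420 (by decide +kernel)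
theorem L93422 : W_34 (nat_lit 7) (nat_lit 0x8000f0000000300010001000080000000000000000000000000000000) (nat_lit 0x0) (nat_lit 0x8003700000000c000c0022000000000004000000000000000000000000000) := T_34 (nat_lit 225) (nat_lit 224) (nat_lit 1) (nat_lit 7) (nat_lit 12) L93421 (by decide +kernel)
theorem L93423 : W_34 (nat_lit 8) (nat_lit 0xf0000000300010001000080000000000000000000000000000000) (nat_lit 0x0) (nat_lit 0x8003f00000002c000c0022000000000004000000000000000000000000000) := T_34 (nat_lit 227) (nat_lit 193) (nat_lit 6) (nat_lit 6) (nat_lit 13) L93422 (by decide +kernel)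
theorem L93424 : W_34 (nat_lit 9) (nat_lit 0xe0000000300010001000080000000000000000000000000000000) (nat_lit 0x0) (nat_lit 0x8003f80018002e000c0022000000000004000000000000000000000000000) := Q_34 (nat_lit 208) (C_34 L93354 (C_34 L93315 (C_34 L93330 (C_34 L93340 (C_34 L93423 N_34))))) (by decide +kernel)
theorem L93425 : W_34 (nat_lit 2) (nat_lit 0x2000f0001800300010001000080000000000000000000000000000000) (nat_lit 0x0) (nat_lit 0x80004000000000000000080000000000000000000000000000000000000000000) := D_34 (nat_lit 242) (nat_lit 259) (nat_lit 175) (nat_lit 6) (nat_lit 4) (nat_lit 15) (nat_lit 6) (nat_lit 4) (nat_lit 14) (by decide +kernel)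
theorem L93426 : W_34 (nat_lit 3) (nat_lit 0x2000f0001000300010001000080000000000000000000000000000000) (nat_lit 0x0) (nat_lit 0x80004000000000000c00080000000000000000000000000000000000000000000) := T_34 (nat_lit 191) (nat_lit 190) (nat_lit 0) (nat_lit 7) (nat_lit 12) L93425 (by decide +kernel)
theorem L93427 : W_34 (nat_lit 4) (nat_lit 0xf0001000300010001000080000000000000000000000000000000) (nat_lit 0x0) (nat_lit 0x80004000300000000c00080000000000000000000000000000000000000000000) := T_34 (nat_lit 225) (nat_lit 224) (nat_lit 1) (nat_lit 7) (nat_lit 12) L93426 (by decide +kernel)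
theorem L93428 : W_34 (nat_lit 2) (nat_lit 0x4001a000f0001800300010001000080004000000000000000000000000000) (nat_lit 0x0) (nat_lit 0x40002000400000000000000000000000000000000000000000000000000000000) := D_34 (nat_lit 241) (nat_lit 258) (nat_lit 226) (nat_lit 5) (nat_lit 4) (nat_lit 11) (nat_lit 1) (nat_lit 7) (nat_lit 13) (by decide +kernel)
theorem L93429 : W_34 (nat_lit 3) (nat_lit 0x40012000f0001800300010001000080004000000000000000000000000000) (nat_lit 0x0) (nat_lit 0x40002000c00000002000000000000000000000000000000000000000000000000) := T_34 (nat_lit 227) (nat_lit 193) (nat_lit 6) (nat_lit 6) (nat_lit 13) L93428 (by decide +kernel)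
theorem L93430 : W_34 (nat_lit 4) (nat_lit 0x12000f0001800300010001000080004000000000000000000000000000) (nat_lit 0x0) (nat_lit 0xc0006000c00000002000000000000000000000000000000000000000000000000) := T_34 (nat_lit 242) (nat_lit 259) (nat_lit 6) (nat_lit 4) (nat_lit 15) L93429 (by decide +kernel)
theorem L93431 : W_34 (nat_lit 5) (nat_lit 0x2000f0001800300010001000080004000000000000000000000000000) (nat_lit 0x0) (nat_lit 0xc0006003c00000002000000000000000000000000000000000000000000000000) := T_34 (nat_lit 228) (nat_lit 229) (nat_lit 3) (nat_lit 4) (nat_lit 12) L93430 (by decide +kernel)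
theorem L93432 : W_34 (nat_lit 6) (nat_lit 0xf0001800300010001000080004000000000000000000000000000) (nat_lit 0x0) (nat_lit 0xc0006003f00000002000000000000000000000000000000000000000000000000) := T_34 (nat_lit 225) (nat_lit 224) (nat_lit 1) (nat_lit 7) (nat_lit 12) L93431 (by decide +kernel)
theorem L93433 : W_34 (nat_lit 7) (nat_lit 0xf0001800300010001000080000000000000000000000000000000) (nat_lit 0x0) (nat_lit 0xc0006003f00000002000000020000000000004000000000000000000000000000) := T_34 (nat_lit 110) (nat_lit 161) (nat_lit 5) (nat_lit 8) (nat_lit 6) L93432 (by decide +kernel)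
theorem L93434 : W_34 (nat_lit 8) (nat_lit 0xf0001000300010001000080000000000000000000000000000000) (nat_lit 0x0) (nat_lit 0xc0006003f00000002c00000020000000000004000000000000000000000000000) := T_34 (nat_lit 191) (nat_lit 190) (nat_lit 0) (nat_lit 7) (nat_lit 12) L93433 (by decide +kernel)
theorem L93435 : W_34 (nat_lit 2) (nat_lit 0x200024001e000f0001000300014001000080004000000000000000000000000000) (nat_lit 0x0) (nat_lit 0xc000400000000000000000000000000000000000000000000000000000000000000000) := D_34 (nat_lit 262) (nat_lit 279) (nat_lit 278) (nat_lit 4) (nat_lit 7) (nat_lit 16) (nat_lit 5) (nat_lit 7) (nat_lit 12) (by decide +kernel)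
theorem L93436 : W_34 (nat_lit 3) (nat_lit 0x200004001e000f0001000300014001000080004000000000000000000000000000) (nat_lit 0x0) (nat_lit 0xc000400060000000000000000000000000000000000000000000000000000000000000) := T_34 (nat_lit 245) (nat_lit 246) (nat_lit 3) (nat_lit 4) (nat_lit 13) L93435 (by decide +kernel)
theorem L93437 : W_34 (nat_lit 4) (nat_lit 0x200004001a000f0001000300014001000080004000000000000000000000000000) (nat_lit 0x0) (nat_lit 0xc000400062000400000000000000000000000000000000000000000000000000000000) := T_34 (nat_lit 226) (nat_lit 241) (nat_lit 1) (nat_lit 7) (nat_lit 13) L93436 (by decide +kernel)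
theorem L93438 : W_34 (nat_lit 5) (nat_lit 0x200000001a000f0001000300014001000080004000000000000000000000000000) (nat_lit 0x0) (nat_lit 0xc000480066000400000000000000000000000000000000000000000000000000000000) := T_34 (nat_lit 242) (nat_lit 259) (nat_lit 6) (nat_lit 4) (nat_lit 15) L93437 (by decide +kernel)
theorem L93439 : W_34 (nat_lit 6) (nat_lit 0x2000000018000f0001000300014001000080004000000000000000000000000000) (nat_lit 0x0) (nat_lit 0xc000480066000700000000000000000000000000000000000000000000000000000000) := T_34 (nat_lit 225) (nat_lit 224) (nat_lit 1) (nat_lit 7) (nat_lit 12) L93438 (by decide +kernel)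
theorem L93440 : W_34 (nat_lit 7) (nat_lit 0x2000000008000f0001000300014001000080004000000000000000000000000000) (nat_lit 0x0) (nat_lit 0xc000480066003700000000000000000000000000000000000000000000000000000000) := T_34 (nat_lit 228) (nat_lit 229) (nat_lit 3) (nat_lit 4) (nat_lit 12) L93439 (by decide +kernel)
theorem L93441 : W_34 (nat_lit 8) (nat_lit 0x2000000008000f0001000300014001000080000000000000000000000000000000) (nat_lit 0x0) (nat_lit 0xc000480066003700000000000000020000000000004000000000000000000000000000) := T_34 (nat_lit 110) (nat_lit 161) (nat_lit 5) (nat_lit 8) (nat_lit 6) L93440 (by decide +kernel)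
theorem L93442 : W_34 (nat_lit 9) (nat_lit 0x2000000008000f0001000300010001000080000000000000000000000000000000) (nat_lit 0x0) (nat_lit 0xc000480066003700000000000080024000000000004000000000000000000000000000) := T_34 (nat_lit 158) (nat_lit 175) (nat_lit 7) (nat_lit 5) (nat_lit 9) L93441 (by decide +kernel)
theorem L93443 : W_34 (nat_lit 10) (nat_lit 0x8000f0001000300010001000080000000000000000000000000000000) (nat_lit 0x0) (nat_lit 0xc000680076003700000000000080024000000000004000000000000000000000000000) := T_34 (nat_lit 261) (nat_lit 244) (nat_lit 4) (nat_lit 6) (nat_lit 15) L93442 (by decide +kernel)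
theorem L93444 : W_34 (nat_lit 11) (nat_lit 0xf0001000300010001000080000000000000000000000000000000) (nat_lit 0x0) (nat_lit 0xc000680076003f00000002000080024000000000004000000000000000000000000000) := T_34 (nat_lit 227) (nat_lit 193) (nat_lit 6) (nat_lit 6) (nat_lit 13) L93443 (by decide +kernel)
theorem L93445 : W_34 (nat_lit 2) (nat_lit 0x100008000f0001800300010001000080000000000000000000000000000000) (nat_lit 0x0) (nat_lit 0x400000000000080004000000000000000000000000000000000000000) := D_34 (nat_lit 175) (nat_lit 158) (nat_lit 226) (nat_lit 7) (nat_lit 5) (nat_lit 9) (nat_lit 7) (nat_lit 5) (nat_lit 10) (by decide +kernel)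
theorem L93446 : W_34 (nat_lit 3) (nat_lit 0x8000f0001800300010001000080000000000000000000000000000000) (nat_lit 0x0) (nat_lit 0x200010000400000000000080004000000000000000000000000000000000000000) := T_34 (nat_lit 244) (nat_lit 261) (nat_lit 4) (nat_lit 6) (nat_lit 15) L93445 (by decide +kernel)
theorem L93447 : W_34 (nat_lit 4) (nat_lit 0xf0001800300010001000080000000000000000000000000000000) (nat_lit 0x0) (nat_lit 0x200010000c00000002000080004000000000000000000000000000000000000000) := T_34 (nat_lit 227) (nat_lit 193) (nat_lit 6) (nat_lit 6) (nat_lit 13) L93446 (by decide +kernel)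
theorem L93448 : W_34 (nat_lit 5) (nat_lit 0xf0001000300010001000080000000000000000000000000000000) (nat_lit 0x0) (nat_lit 0x200010000c00000002c00080004000000000000000000000000000000000000000) := T_34 (nat_lit 191) (nat_lit 190) (nat_lit 0) (nat_lit 7) (nat_lit 12) L93447 (by decide +kernel)
theorem L93449 : W_34 (nat_lit 12) (nat_lit 0xf0000000300010001000080000000000000000000000000000000) (nat_lit 0x0) (nat_lit 0xc0006c0076003f00000003c00080024000000000004000000000000000000000000000) := Q_34 (nat_lit 192) (C_34 L93427 (C_34 L93434 (C_34 L93444 (C_34 L93448 N_34)))) (by decide +kernel)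
theorem L93450 : W_34 (nat_lit 13) (nat_lit 0xe0000000300010001000080000000000000000000000000000000) (nat_lit 0x0) (nat_lit 0xc0006c0076003f80018003e00080024000000000004000000000000000000000000000) := Q_34 (nat_lit 208) (C_34 L93354 (C_34 L93315 (C_34 L93330 (C_34 L93340 (C_34 L93449 N_34))))) (by decide +kernel)
theorem L93451 : W_34 (nat_lit 2) (nat_lit 0x9000fe000800300010001000080000000000000000000000000000000) (nat_lit 0x0) (nat_lit 0x380000000000000000000000000000000000000000000000) := D_34 (nat_lit 188) (nat_lit 189) (nat_lit 187) (nat_lit 0) (nat_lit 5) (nat_lit 12) (nat_lit 0) (nat_lit 4) (nat_lit 12) (by decide +kernel)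
theorem L93452 : W_34 (nat_lit 3) (nat_lit 0x9000fc000800300010001000080000000000000000000000000000000) (nat_lit 0x0) (nat_lit 0x2001380000000000000000000000000000000000000000000000) := T_34 (nat_lit 205) (nat_lit 192) (nat_lit 2) (nat_lit 1) (nat_lit 12) L93451 (by decide +kernel)
theorem L93453 : W_34 (nat_lit 4) (nat_lit 0x9000f8000800300010001000080000000000000000000000000000000) (nat_lit 0x0) (nat_lit 0x400006001380000000000000000000000000000000000000000000000) := T_34 (nat_lit 206) (nat_lit 226) (nat_lit 3) (nat_lit 2) (nat_lit 12) L93452 (by decide +kernel)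
theorem L93454 : W_34 (nat_lit 5) (nat_lit 0x9000f0000800300010001000080000000000000000000000000000000) (nat_lit 0x0) (nat_lit 0x48000e001380000000000000000000000000000000000000000000000) := T_34 (nat_lit 207) (nat_lit 223) (nat_lit 1) (nat_lit 6) (nat_lit 12) L93453 (by decide +kernel)
theorem L93455 : W_34 (nat_lit 6) (nat_lit 0x9000f0000000300010001000080000000000000000000000000000000) (nat_lit 0x0) (nat_lit 0x48000e001f80000000000000000000000000000000000000000000000) := T_34 (nat_lit 191) (nat_lit 190) (nat_lit 0) (nat_lit 7) (nat_lit 12) L93454 (by decide +kernel)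
theorem L93456 : W_34 (nat_lit 7) (nat_lit 0x8000f0000000300010001000080000000000000000000000000000000) (nat_lit 0x0) (nat_lit 0x78000e001f80000000000000000000000000000000000000000000000) := T_34 (nat_lit 224) (nat_lit 225) (nat_lit 1) (nat_lit 7) (nat_lit 12) L93455 (by decide +kernel)
theorem L93457 : W_34 (nat_lit 8) (nat_lit 0xf0000000300010001000080000000000000000000000000000000) (nat_lit 0x0) (nat_lit 0xf8000e003f80000000000000000000000000000000000000000000000) := T_34 (nat_lit 227) (nat_lit 193) (nat_lit 6) (nat_lit 6) (nat_lit 13) L93456 (by decide +kernel)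
theorem L93458 : W_34 (nat_lit 2) (nat_lit 0x6000f0000800300010001000080000000000000000000000000000000) (nat_lit 0x0) (nat_lit 0x8000000000000000040002000000000000000000000000000000000000000) := D_34 (nat_lit 174) (nat_lit 157) (nat_lit 243) (nat_lit 7) (nat_lit 4) (nat_lit 9) (nat_lit 7) (nat_lit 4) (nat_lit 10) (by decide +kernel)
theorem L93459 : W_34 (nat_lit 3) (nat_lit 0x4000f0000800300010001000080000000000000000000000000000000) (nat_lit 0x0) (nat_lit 0x8000300000000000040002000000000000000000000000000000000000000) := T_34 (nat_lit 225) (nat_lit 224) (nat_lit 1) (nat_lit 7) (nat_lit 12) L93458 (by decide +kernel)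
theorem L93460 : W_34 (nat_lit 4) (nat_lit 0x4000f0000000300010001000080000000000000000000000000000000) (nat_lit 0x0) (nat_lit 0x8000300000000c00040002000000000000000000000000000000000000000) := T_34 (nat_lit 191) (nat_lit 190) (nat_lit 0) (nat_lit 7) (nat_lit 12) L93459 (by decide +kernel)
theorem L93461 : W_34 (nat_lit 2) (nat_lit 0x8002c000f0000800300010001000080000000000000000000000000000000) (nat_lit 0x0) (nat_lit 0x1000040002000000000000000000000000000000000000000) := D_34 (nat_lit 174) (nat_lit 157) (nat_lit 192) (nat_lit 7) (nat_lit 4) (nat_lit 9) (nat_lit 4) (nat_lit 5) (nat_lit 14) (by decide +kernel)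
theorem L93462 : W_34 (nat_lit 3) (nat_lit 0x2c000f0000800300010001000080000000000000000000000000000000) (nat_lit 0x0) (nat_lit 0x100008000000000001000040002000000000000000000000000000000000000000) := T_34 (nat_lit 243) (nat_lit 260) (nat_lit 4) (nat_lit 5) (nat_lit 15) L93461 (by decide +kernel)
theorem L93463 : W_34 (nat_lit 4) (nat_lit 0x2c000f0000000300010001000080000000000000000000000000000000) (nat_lit 0x0) (nat_lit 0x100008000000000001c00040002000000000000000000000000000000000000000) := T_34 (nat_lit 191) (nat_lit 190) (nat_lit 0) (nat_lit 7) (nat_lit 12) L93462 (by decide +kernel)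
theorem L93464 : W_34 (nat_lit 5) (nat_lit 0xc000f0000000300010001000080000000000000000000000000000000) (nat_lit 0x0) (nat_lit 0x100008003000000001c00040002000000000000000000000000000000000000000) := T_34 (nat_lit 229) (nat_lit 228) (nat_lit 3) (nat_lit 4) (nat_lit 12) L93463 (by decide +kernel)
theorem L93465 : W_34 (nat_lit 6) (nat_lit 0x4000f0000000300010001000080000000000000000000000000000000) (nat_lit 0x0) (nat_lit 0x100008003800000003c00040002000000000000000000000000000000000000000) := T_34 (nat_lit 227) (nat_lit 193) (nat_lit 6) (nat_lit 6) (nat_lit 13) L93464 (by decide +kernel)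
theorem L93466 : W_34 (nat_lit 7) (nat_lit 0xf0000000300010001000080000000000000000000000000000000) (nat_lit 0x0) (nat_lit 0x100018000e003f00000003c00040002000000000000000000000000000000000000000) := Q_34 (nat_lit 226) (C_34 L93408 (C_34 L93460 (C_34 L93465 N_34))) (by decide +kernel)
theorem L93467 : W_34 (nat_lit 9) (nat_lit 0xe0000000300010001000080000000000000000000000000000000) (nat_lit 0x0) (nat_lit 0x100018000e003f8001e003f80040002000000000000000000000000000000000000000) := Q_34 (nat_lit 208) (C_34 L93354 (C_34 L93457 (C_34 L93330 (C_34 L93294 (C_34 L93466 N_34))))) (by decide +kernel)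
theorem L93468 : W_34 (nat_lit 2) (nat_lit 0x12000f00010003800b0001000080000000000000000000000000000000) (nat_lit 0x0) (nat_lit 0x80004000400000000000000000000000000000000000000000000000000000000) := D_34 (nat_lit 242) (nat_lit 226) (nat_lit 259) (nat_lit 5) (nat_lit 5) (nat_lit 10) (nat_lit 6) (nat_lit 4) (nat_lit 15) (by decide +kernel)
theorem L93469 : W_34 (nat_lit 3) (nat_lit 0x12000f00000003800b0001000080000000000000000000000000000000) (nat_lit 0x0) (nat_lit 0x80004000400000001000000004000000000000000000000000000000000000000) := T_34 (nat_lit 192) (nat_lit 158) (nat_lit 5) (nat_lit 5) (nat_lit 9) L93468 (by decide +kernel)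
theorem L93470 : W_34 (nat_lit 4) (nat_lit 0x2000f00000003800b0001000080000000000000000000000000000000) (nat_lit 0x0) (nat_lit 0x80004003400000001000000004000000000000000000000000000000000000000) := T_34 (nat_lit 228) (nat_lit 229) (nat_lit 3) (nat_lit 4) (nat_lit 12) L93469 (by decide +kernel)
theorem L93471 : W_34 (nat_lit 5) (nat_lit 0x2000f00000003000b0001000080000000000000000000000000000000) (nat_lit 0x0) (nat_lit 0x800040034000000010000c0004000000000000000000000000000000000000000) := T_34 (nat_lit 175) (nat_lit 174) (nat_lit 2) (nat_lit 4) (nat_lit 10) L93470 (by decide +kernel)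
theorem L93472 : W_34 (nat_lit 6) (nat_lit 0x2000f0000000300030001000080000000000000000000000000000000) (nat_lit 0x0) (nat_lit 0x800040034000000010000c00c4000000000000000000000000000000000000000) := T_34 (nat_lit 163) (nat_lit 162) (nat_lit 1) (nat_lit 10) (nat_lit 9) L93471 (by decide +kernel)
theorem L93473 : W_34 (nat_lit 7) (nat_lit 0xf0000000300030001000080000000000000000000000000000000) (nat_lit 0x0) (nat_lit 0x800040037000000010000c00c4000000000000000000000000000000000000000) := T_34 (nat_lit 225) (nat_lit 224) (nat_lit 1) (nat_lit 7) (nat_lit 12) L93472 (by decide +kernel)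
theorem L93474 : W_34 (nat_lit 8) (nat_lit 0xf0000000300010001000080000000000000000000000000000000) (nat_lit 0x0) (nat_lit 0x800040037000000010000c00e4000000000004000000000000000000000000000) := T_34 (nat_lit 161) (nat_lit 110) (nat_lit 5) (nat_lit 8) (nat_lit 6) L93473 (by decide +kernel)
theorem L93475 : W_34 (nat_lit 2) (nat_lit 0x10000f00008003400b2001100080000000000000000000000000000000) (nat_lit 0x0) (nat_lit 0x4000200010000000000000000000000000000000) := D_34 (nat_lit 141) (nat_lit 124) (nat_lit 158) (nat_lit 6) (nat_lit 4) (nat_lit 11) (nat_lit 6) (nat_lit 4) (nat_lit 12) (by decide +kernel)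
theorem L93476 : W_34 (nat_lit 3) (nat_lit 0x10000f00008003400b2001000080000000000000000000000000000000) (nat_lit 0x0) (nat_lit 0x1000000004000300010000000000000000000000000000000) := T_34 (nat_lit 140) (nat_lit 192) (nat_lit 7) (nat_lit 4) (nat_lit 8) L93475 (by decide +kernel)
theorem L93477 : W_34 (nat_lit 4) (nat_lit 0x10000f00008003400b0001000080000000000000000000000000000000) (nat_lit 0x0) (nat_lit 0x400000001000000006000300010000000000000000000000000000000) := T_34 (nat_lit 157) (nat_lit 226) (nat_lit 7) (nat_lit 4) (nat_lit 9) L93476 (by decide +kernel)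
theorem L93478 : W_34 (nat_lit 5) (nat_lit 0x10000f00008003000b0001000080000000000000000000000000000000) (nat_lit 0x0) (nat_lit 0x4000000010000c0006000300010000000000000000000000000000000) := T_34 (nat_lit 174) (nat_lit 175) (nat_lit 2) (nat_lit 4) (nat_lit 10) L93477 (by decide +kernel)
theorem L93479 : W_34 (nat_lit 6) (nat_lit 0x10000f0000800300030001000080000000000000000000000000000000) (nat_lit 0x0) (nat_lit 0x4000000010000c00c6000300010000000000000000000000000000000) := T_34 (nat_lit 163) (nat_lit 162) (nat_lit 1) (nat_lit 10) (nat_lit 9) L93478 (by decide +kernel)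
theorem L93480 : W_34 (nat_lit 7) (nat_lit 0xf0000800300030001000080000000000000000000000000000000) (nat_lit 0x0) (nat_lit 0x34000000010000c00c6000300010000000000000000000000000000000) := T_34 (nat_lit 228) (nat_lit 229) (nat_lit 3) (nat_lit 4) (nat_lit 12) L93479 (by decide +kernel)
theorem L93481 : W_34 (nat_lit 8) (nat_lit 0xf0000800300010001000080000000000000000000000000000000) (nat_lit 0x0) (nat_lit 0x34000000010000c00e6000300010004000000000000000000000000000) := T_34 (nat_lit 161) (nat_lit 110) (nat_lit 5) (nat_lit 8) (nat_lit 6) L93480 (by decide +kernel)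
theorem L93482 : W_34 (nat_lit 9) (nat_lit 0xf0000000300010001000080000000000000000000000000000000) (nat_lit 0x0) (nat_lit 0x3400000001c000c00e6000300010004000000000000000000000000000) := T_34 (nat_lit 191) (nat_lit 190) (nat_lit 0) (nat_lit 7) (nat_lit 12) L93481 (by decide +kernel)
theorem L93483 : W_34 (nat_lit 10) (nat_lit 0xe0000000300010001000080000000000000000000000000000000) (nat_lit 0x0) (nat_lit 0x80004003780018001e000c00e6000300010004000000000000000000000000000) := Q_34 (nat_lit 208) (C_34 L93354 (C_34 L93315 (C_34 L93474 (C_34 L93482 N_34)))) (by decide +kernel)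
theorem L93484 : W_34 (nat_lit 14) (nat_lit 0xc0000000300010001000080000000000000000000000000000000) (nat_lit 0x0) (nat_lit 0xd0007c007e003fe003e003f800e00e7000380010004000000000000000000000000000) := Q_34 (nat_lit 209) (C_34 L93305 (C_34 L93311 (C_34 L93341 (C_34 L93379 (C_34 L93416 (C_34 L93424 (C_34 L93450 (C_34 L93467 (C_34 L93483 N_34))))))))) (by decide +kernel)
theorem L93485 : W_34 (nat_lit 2) (nat_lit 0xc0000000380030001000080000000000000000000000000000000) (nat_lit 0x0) (nat_lit 0xc8000000000000000000000000000000000000000) := D_34 (nat_lit 162) (nat_lit 163) (nat_lit 159) (nat_lit 1) (nat_lit 10) (nat_lit 9) (nat_lit 1) (nat_lit 9) (nat_lit 9) (by decide +kernel)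
theorem L93486 : W_34 (nat_lit 3) (nat_lit 0xc0000000300030001000080000000000000000000000000000000) (nat_lit 0x0) (nat_lit 0xc00c8000000000000000000000000000000000000000) := T_34 (nat_lit 175) (nat_lit 174) (nat_lit 2) (nat_lit 4) (nat_lit 10) L93485 (by decide +kernel)
theorem L93487 : W_34 (nat_lit 4) (nat_lit 0xc0000000300010001000080000000000000000000000000000000) (nat_lit 0x0) (nat_lit 0xc00e8000000000004000000000000000000000000000) := T_34 (nat_lit 161) (nat_lit 110) (nat_lit 5) (nat_lit 8) (nat_lit 6) L93486 (by decide +kernel)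
theorem L93488 : W_34 (nat_lit 2) (nat_lit 0xe0002000300018001400080000000000000000000000000000000) (nat_lit 0x0) (nat_lit 0x4000200010000000000000000000000000000000) := D_34 (nat_lit 141) (nat_lit 124) (nat_lit 158) (nat_lit 4) (nat_lit 6) (nat_lit 11) (nat_lit 4) (nat_lit 6) (nat_lit 12) (by decide +kernel)
theorem L93489 : W_34 (nat_lit 3) (nat_lit 0xe0002000300018001000080000000000000000000000000000000) (nat_lit 0x0) (nat_lit 0x1000000004000600010000000000000000000000000000000) := T_34 (nat_lit 142) (nat_lit 192) (nat_lit 5) (nat_lit 6) (nat_lit 8) L93488 (by decide +kernel)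
theorem L93490 : W_34 (nat_lit 4) (nat_lit 0xc0002000300018001000080000000000000000000000000000000) (nat_lit 0x0) (nat_lit 0x400020001000000004000600010000000000000000000000000000000) := T_34 (nat_lit 209) (nat_lit 226) (nat_lit 5) (nat_lit 6) (nat_lit 9) L93489 (by decide +kernel)
theorem L93491 : W_34 (nat_lit 5) (nat_lit 0xc0002000300010001000080000000000000000000000000000000) (nat_lit 0x0) (nat_lit 0x140002000100000000c000600010000000000000000000000000000000) := T_34 (nat_lit 159) (nat_lit 228) (nat_lit 7) (nat_lit 6) (nat_lit 9) L93490 (by decide +kernel)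
theorem L93492 : W_34 (nat_lit 6) (nat_lit 0xc0000000300010001000080000000000000000000000000000000) (nat_lit 0x0) (nat_lit 0x1c0002000300000000c000600010000000000000000000000000000000) := T_34 (nat_lit 193) (nat_lit 227) (nat_lit 6) (nat_lit 6) (nat_lit 13) L93491 (by decide +kernel)
theorem L93493 : W_34 (nat_lit 15) (nat_lit 0xc0000000200010001000080000000000000000000000000000000) (nat_lit 0x0) (nat_lit 0xd0007c007e003fe003e003f801e00ef000780010004000000000000000000000000000) := Q_34 (nat_lit 176) (C_34 L93484 (C_34 L93487 (C_34 L93492 N_34))) (by decide +kernel)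
theorem L93494 : W_34 (nat_lit 2) (nat_lit 0x8007c0010000200010001000080000000000000000000000000000000) (nat_lit 0x0) (nat_lit 0x1c000000000000000000000000000000000000000000000000000000000) := D_34 (nat_lit 231) (nat_lit 230) (nat_lit 232) (nat_lit 3) (nat_lit 6) (nat_lit 12) (nat_lit 3) (nat_lit 7) (nat_lit 12) (by decide +kernel)
theorem L93495 : W_34 (nat_lit 3) (nat_lit 0x8003c0010000200010001000080000000000000000000000000000000) (nat_lit 0x0) (nat_lit 0x1d000400000000000000000000000000000000000000000000000000000) := T_34 (nat_lit 214) (nat_lit 228) (nat_lit 1) (nat_lit 10) (nat_lit 12) L93494 (by decide +kernel)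
theorem L93496 : W_34 (nat_lit 4) (nat_lit 0x8003c0000000200010001000080000000000000000000000000000000) (nat_lit 0x0) (nat_lit 0x1d000400030000000000000000000000000000000000000000000000000) := T_34 (nat_lit 196) (nat_lit 197) (nat_lit 2) (nat_lit 6) (nat_lit 12) L93495 (by decide +kernel)
theorem L93497 : W_34 (nat_lit 5) (nat_lit 0x3c0000000200010001000080000000000000000000000000000000) (nat_lit 0x0) (nat_lit 0x1dc00400030000000000000000000000000000000000000000000000000) := T_34 (nat_lit 227) (nat_lit 226) (nat_lit 1) (nat_lit 9) (nat_lit 12) L93496 (by decide +kernel)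
theorem L93498 : W_34 (nat_lit 2) (nat_lit 0x4801fc0042000200010001000080004000000000000000000000000000) (nat_lit 0x0) (nat_lit 0x70000000000000000000000000000000000000000000000000000000000) := D_34 (nat_lit 233) (nat_lit 232) (nat_lit 234) (nat_lit 3) (nat_lit 8) (nat_lit 12) (nat_lit 3) (nat_lit 9) (nat_lit 12) (by decide +kernel)
theorem L93499 : W_34 (nat_lit 3) (nat_lit 0x4800fc0042000200010001000080004000000000000000000000000000) (nat_lit 0x0) (nat_lit 0x72001000000000000000000000000000000000000000000000000000000) := T_34 (nat_lit 216) (nat_lit 229) (nat_lit 1) (nat_lit 12) (nat_lit 12) L93498 (by decide +kernel)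
theorem L93500 : W_34 (nat_lit 4) (nat_lit 0x48007c0042000200010001000080004000000000000000000000000000) (nat_lit 0x0) (nat_lit 0x72001800080000000000000000000000000000000000000000000000000) := T_34 (nat_lit 215) (nat_lit 199) (nat_lit 2) (nat_lit 8) (nat_lit 12) L93499 (by decide +kernel)
theorem L93501 : W_34 (nat_lit 5) (nat_lit 0x48007c0002000200010001000080004000000000000000000000000000) (nat_lit 0x0) (nat_lit 0x720018000e0000000000000000000000000000000000000000000000000) := T_34 (nat_lit 198) (nat_lit 197) (nat_lit 2) (nat_lit 7) (nat_lit 12) L93500 (by decide +kernel)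
theorem L93502 : W_34 (nat_lit 6) (nat_lit 0x48003c0002000200010001000080004000000000000000000000000000) (nat_lit 0x0) (nat_lit 0x73001c000e0000000000000000000000000000000000000000000000000) := T_34 (nat_lit 214) (nat_lit 228) (nat_lit 1) (nat_lit 10) (nat_lit 12) L93501 (by decide +kernel)
theorem L93503 : W_34 (nat_lit 7) (nat_lit 0x48003c0000000200010001000080004000000000000000000000000000) (nat_lit 0x0) (nat_lit 0x73001c000e3000000000000000000000000000000000000000000000000) := T_34 (nat_lit 193) (nat_lit 192) (nat_lit 0) (nat_lit 9) (nat_lit 12) L93502 (by decide +kernel)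
theorem L93504 : W_34 (nat_lit 8) (nat_lit 0x40003c0000000200010001000080004000000000000000000000000000) (nat_lit 0x0) (nat_lit 0x73c01c000e3000000000000000000000000000000000000000000000000) := T_34 (nat_lit 227) (nat_lit 226) (nat_lit 1) (nat_lit 9) (nat_lit 12) L93503 (by decide +kernel)
theorem L93505 : W_34 (nat_lit 9) (nat_lit 0x40003c0000000200010001000080000000000000000000000000000000) (nat_lit 0x0) (nat_lit 0x73c01c000e3000000020000000000004000000000000000000000000000) := T_34 (nat_lit 110) (nat_lit 161) (nat_lit 5) (nat_lit 8) (nat_lit 6) L93504 (by decide +kernel)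
theorem L93506 : W_34 (nat_lit 10) (nat_lit 0x3c0000000200010001000080000000000000000000000000000000) (nat_lit 0x0) (nat_lit 0x7fc01c000e3000000020000000000004000000000000000000000000000) := T_34 (nat_lit 230) (nat_lit 231) (nat_lit 3) (nat_lit 6) (nat_lit 12) L93505 (by decide +kernel)
theorem L93507 : W_34 (nat_lit 2) (nat_lit 0x88003c0000000200010001000080000000000000000000000000000000) (nat_lit 0x0) (nat_lit 0x11000400000000000000000000000000000000000000000000000000000) := D_34 (nat_lit 214) (nat_lit 228) (nat_lit 232) (nat_lit 1) (nat_lit 10) (nat_lit 12) (nat_lit 3) (nat_lit 7) (nat_lit 12) (by decide +kernel)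
theorem L93508 : W_34 (nat_lit 3) (nat_lit 0x8003c0000000200010001000080000000000000000000000000000000) (nat_lit 0x0) (nat_lit 0x1d000400000000000000000000000000000000000000000000000000000) := T_34 (nat_lit 231) (nat_lit 230) (nat_lit 3) (nat_lit 6) (nat_lit 12) L93507 (by decide +kernel)
theorem L93509 : W_34 (nat_lit 4) (nat_lit 0x3c0000000200010001000080000000000000000000000000000000) (nat_lit 0x0) (nat_lit 0x1dc00400000000000000000000000000000000000000000000000000000) := T_34 (nat_lit 227) (nat_lit 226) (nat_lit 1) (nat_lit 9) (nat_lit 12) L93508 (by decide +kernel)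
theorem L93510 : W_34 (nat_lit 2) (nat_lit 0x10800fc0092000200010001000080004000000000000000000000000000) (nat_lit 0x0) (nat_lit 0x1000108000000000000000000000000000000000000000000000000) := D_34 (nat_lit 216) (nat_lit 195) (nat_lit 200) (nat_lit 0) (nat_lit 12) (nat_lit 12) (nat_lit 2) (nat_lit 9) (nat_lit 12) (by decide +kernel)
theorem L93511 : W_34 (nat_lit 3) (nat_lit 0x10800fc0012000200010001000080004000000000000000000000000000) (nat_lit 0x0) (nat_lit 0x10001c8000000000000000000000000000000000000000000000000) := T_34 (nat_lit 199) (nat_lit 198) (nat_lit 2) (nat_lit 8) (nat_lit 12) L93510 (by decide +kernel)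
theorem L93512 : W_34 (nat_lit 4) (nat_lit 0x108007c0012000200010001000080004000000000000000000000000000) (nat_lit 0x0) (nat_lit 0x200018001c8000000000000000000000000000000000000000000000000) := T_34 (nat_lit 215) (nat_lit 233) (nat_lit 3) (nat_lit 8) (nat_lit 12) L93511 (by decide +kernel)
theorem L93513 : W_34 (nat_lit 5) (nat_lit 0x8007c0012000200010001000080004000000000000000000000000000) (nat_lit 0x0) (nat_lit 0x380018001c8000000000000000000000000000000000000000000000000) := T_34 (nat_lit 232) (nat_lit 231) (nat_lit 3) (nat_lit 7) (nat_lit 12) L93512 (by decide +kernel)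
theorem L93514 : W_34 (nat_lit 6) (nat_lit 0x8003c0012000200010001000080004000000000000000000000000000) (nat_lit 0x0) (nat_lit 0x39001c001c8000000000000000000000000000000000000000000000000) := T_34 (nat_lit 214) (nat_lit 228) (nat_lit 1) (nat_lit 10) (nat_lit 12) L93513 (by decide +kernel)
theorem L93515 : W_34 (nat_lit 7) (nat_lit 0x3c0012000200010001000080004000000000000000000000000000) (nat_lit 0x0) (nat_lit 0x39c01c001c8000000000000000000000000000000000000000000000000) := T_34 (nat_lit 227) (nat_lit 226) (nat_lit 1) (nat_lit 9) (nat_lit 12) L93514 (by decide +kernel)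
theorem L93516 : W_34 (nat_lit 8) (nat_lit 0x3c0012000200010001000080000000000000000000000000000000) (nat_lit 0x0) (nat_lit 0x39c01c001c8000000020000000000004000000000000000000000000000) := T_34 (nat_lit 110) (nat_lit 161) (nat_lit 5) (nat_lit 8) (nat_lit 6) L93515 (by decide +kernel)
theorem L93517 : W_34 (nat_lit 9) (nat_lit 0x3c0002000200010001000080000000000000000000000000000000) (nat_lit 0x0) (nat_lit 0x39c01c001f8000000020000000000004000000000000000000000000000) := T_34 (nat_lit 196) (nat_lit 197) (nat_lit 2) (nat_lit 6) (nat_lit 12) L93516 (by decide +kernel)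
theorem L93518 : W_34 (nat_lit 10) (nat_lit 0x3c0000000200010001000080000000000000000000000000000000) (nat_lit 0x0) (nat_lit 0x39c01c001fb000000020000000000004000000000000000000000000000) := T_34 (nat_lit 193) (nat_lit 192) (nat_lit 0) (nat_lit 9) (nat_lit 12) L93517 (by decide +kernel)
theorem L93519 : W_34 (nat_lit 2) (nat_lit 0x8007c0002000200010001000080000000000000000000000000000000) (nat_lit 0x0) (nat_lit 0x70000000000000000000000000000000000000000000000000) := D_34 (nat_lit 197) (nat_lit 196) (nat_lit 198) (nat_lit 2) (nat_lit 6) (nat_lit 12) (nat_lit 2) (nat_lit 7) (nat_lit 12) (by decide +kernel)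
theorem L93520 : W_34 (nat_lit 3) (nat_lit 0x8003c0002000200010001000080000000000000000000000000000000) (nat_lit 0x0) (nat_lit 0x1000400070000000000000000000000000000000000000000000000000) := T_34 (nat_lit 214) (nat_lit 228) (nat_lit 1) (nat_lit 10) (nat_lit 12) L93519 (by decide +kernel)
theorem L93521 : W_34 (nat_lit 4) (nat_lit 0x8003c0000000200010001000080000000000000000000000000000000) (nat_lit 0x0) (nat_lit 0x1000400073000000000000000000000000000000000000000000000000) := T_34 (nat_lit 193) (nat_lit 192) (nat_lit 0) (nat_lit 9) (nat_lit 12) L93520 (by decide +kernel)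
theorem L93522 : W_34 (nat_lit 5) (nat_lit 0x3c0000000200010001000080000000000000000000000000000000) (nat_lit 0x0) (nat_lit 0x1c00400073000000000000000000000000000000000000000000000000) := T_34 (nat_lit 227) (nat_lit 226) (nat_lit 1) (nat_lit 9) (nat_lit 12) L93521 (by decide +kernel)
theorem L93523 : W_34 (nat_lit 13) (nat_lit 0x2c0000000200010001000080000000000000000000000000000000) (nat_lit 0x0) (nat_lit 0x400038001c007fc01d001fb0018000e0000000000004000000000000000000000000000) := Q_34 (nat_lit 212) (C_34 L92681 (C_34 L93497 (C_34 L93506 (C_34 L92652 (C_34 L93509 (C_34 L93518 (C_34 L93522 N_34))))))) (by decide +kernel)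
theorem L93524 : W_34 (nat_lit 2) (nat_lit 0x10000c00048003c0010001a00030001000080000000000000000000000000000000) (nat_lit 0x0) (nat_lit 0x40002000100000000000000000000000000000000000000000000000000000000000000) := D_34 (nat_lit 265) (nat_lit 248) (nat_lit 282) (nat_lit 7) (nat_lit 9) (nat_lit 11) (nat_lit 7) (nat_lit 9) (nat_lit 12) (by decide +kernel)
theorem L93525 : W_34 (nat_lit 3) (nat_lit 0xc00048003c0010001a00030001000080000000000000000000000000000000) (nat_lit 0x0) (nat_lit 0x40003000100000000000008000000000000000000000000000000000000000000000000) := T_34 (nat_lit 264) (nat_lit 195) (nat_lit 4) (nat_lit 9) (nat_lit 15) L93524 (by decide +kernel)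
theorem L93526 : W_34 (nat_lit 4) (nat_lit 0x400048003c0010001a00030001000080000000000000000000000000000000) (nat_lit 0x0) (nat_lit 0x40003800180000000000008000000000000000000000000000000000000000000000000) := T_34 (nat_lit 247) (nat_lit 263) (nat_lit 5) (nat_lit 9) (nat_lit 11) L93525 (by decide +kernel)
theorem L93527 : W_34 (nat_lit 5) (nat_lit 0x48003c0010001a00030001000080000000000000000000000000000000) (nat_lit 0x0) (nat_lit 0x400038001c0002000000008000000000000000000000000000000000000000000000000) := T_34 (nat_lit 246) (nat_lit 229) (nat_lit 5) (nat_lit 9) (nat_lit 10) L93526 (by decide +kernel)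
theorem L93528 : W_34 (nat_lit 6) (nat_lit 0x48003c0010000a00030001000080000000000000000000000000000000) (nat_lit 0x0) (nat_lit 0x400038001c0002000000008001000080000000000000000000000000000000000000000) := T_34 (nat_lit 180) (nat_lit 163) (nat_lit 6) (nat_lit 9) (nat_lit 13) L93527 (by decide +kernel)
theorem L93529 : W_34 (nat_lit 7) (nat_lit 0x48003c0010000200030001000080000000000000000000000000000000) (nat_lit 0x0) (nat_lit 0x400038001c00020000000080018000c0000000000000000000000000000000000000000) := T_34 (nat_lit 179) (nat_lit 162) (nat_lit 4) (nat_lit 9) (nat_lit 12) L93528 (by decide +kernel)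
theorem L93530 : W_34 (nat_lit 8) (nat_lit 0x40003c0010000200030001000080000000000000000000000000000000) (nat_lit 0x0) (nat_lit 0x400038001c0002c000000080018000c0000000000000000000000000000000000000000) := T_34 (nat_lit 227) (nat_lit 226) (nat_lit 1) (nat_lit 9) (nat_lit 12) L93529 (by decide +kernel)
theorem L93531 : W_34 (nat_lit 9) (nat_lit 0x40003c0000000200030001000080000000000000000000000000000000) (nat_lit 0x0) (nat_lit 0x400038001c0002c000000380018000c0000000000000000000000000000000000000000) := T_34 (nat_lit 196) (nat_lit 197) (nat_lit 2) (nat_lit 6) (nat_lit 12) L93530 (by decide +kernel)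
theorem L93532 : W_34 (nat_lit 10) (nat_lit 0x3c0000000200030001000080000000000000000000000000000000) (nat_lit 0x0) (nat_lit 0x400038001c000ec000000380018000c0000000000000000000000000000000000000000) := T_34 (nat_lit 230) (nat_lit 231) (nat_lit 3) (nat_lit 6) (nat_lit 12) L93531 (by decide +kernel)
theorem L93533 : W_34 (nat_lit 11) (nat_lit 0x3c0000000200010001000080000000000000000000000000000000) (nat_lit 0x0) (nat_lit 0x400038001c000ec000000380018000e0000000000004000000000000000000000000000) := T_34 (nat_lit 161) (nat_lit 110) (nat_lit 5) (nat_lit 8) (nat_lit 6) L93532 (by decide +kernel)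
theorem L93534 : W_34 (nat_lit 2) (nat_lit 0x10800fc0090000200010001000080004000000000000000000000000000) (nat_lit 0x0) (nat_lit 0x1000108000000000000000000000000000000000000000000000000) := D_34 (nat_lit 216) (nat_lit 195) (nat_lit 200) (nat_lit 0) (nat_lit 12) (nat_lit 12) (nat_lit 2) (nat_lit 9) (nat_lit 12) (by decide +kernel)
theorem L93535 : W_34 (nat_lit 3) (nat_lit 0x10800fc0010000200010001000080004000000000000000000000000000) (nat_lit 0x0) (nat_lit 0x10001c8000000000000000000000000000000000000000000000000) := T_34 (nat_lit 199) (nat_lit 198) (nat_lit 2) (nat_lit 8) (nat_lit 12) L93534 (by decide +kernel)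
theorem L93536 : W_34 (nat_lit 4) (nat_lit 0x108007c0010000200010001000080004000000000000000000000000000) (nat_lit 0x0) (nat_lit 0x200018001c8000000000000000000000000000000000000000000000000) := T_34 (nat_lit 215) (nat_lit 233) (nat_lit 3) (nat_lit 8) (nat_lit 12) L93535 (by decide +kernel)
theorem L93537 : W_34 (nat_lit 5) (nat_lit 0x8007c0010000200010001000080004000000000000000000000000000) (nat_lit 0x0) (nat_lit 0x380018001c8000000000000000000000000000000000000000000000000) := T_34 (nat_lit 232) (nat_lit 231) (nat_lit 3) (nat_lit 7) (nat_lit 12) L93536 (by decide +kernel)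
theorem L93538 : W_34 (nat_lit 6) (nat_lit 0x8003c0010000200010001000080004000000000000000000000000000) (nat_lit 0x0) (nat_lit 0x39001c001c8000000000000000000000000000000000000000000000000) := T_34 (nat_lit 214) (nat_lit 228) (nat_lit 1) (nat_lit 10) (nat_lit 12) L93537 (by decide +kernel)
theorem L93539 : W_34 (nat_lit 7) (nat_lit 0x3c0010000200010001000080004000000000000000000000000000) (nat_lit 0x0) (nat_lit 0x39c01c001c8000000000000000000000000000000000000000000000000) := T_34 (nat_lit 227) (nat_lit 226) (nat_lit 1) (nat_lit 9) (nat_lit 12) L93538 (by decide +kernel)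
theorem L93540 : W_34 (nat_lit 8) (nat_lit 0x3c0010000200010001000080000000000000000000000000000000) (nat_lit 0x0) (nat_lit 0x39c01c001c8000000020000000000004000000000000000000000000000) := T_34 (nat_lit 110) (nat_lit 161) (nat_lit 5) (nat_lit 8) (nat_lit 6) L93539 (by decide +kernel)
theorem L93541 : W_34 (nat_lit 9) (nat_lit 0x3c0000000200010001000080000000000000000000000000000000) (nat_lit 0x0) (nat_lit 0x39c01c001f8000000020000000000004000000000000000000000000000) := T_34 (nat_lit 196) (nat_lit 197) (nat_lit 2) (nat_lit 6) (nat_lit 12) L93540 (by decide +kernel)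
theorem L93542 : W_34 (nat_lit 2) (nat_lit 0x20800fc00100022001f0005000080000000000000000000000000000000) (nat_lit 0x0) (nat_lit 0x40001000008000000000000000000000000000000000000000000000000) := D_34 (nat_lit 216) (nat_lit 195) (nat_lit 234) (nat_lit 0) (nat_lit 12) (nat_lit 12) (nat_lit 3) (nat_lit 9) (nat_lit 12) (by decide +kernel)
theorem L93543 : W_34 (nat_lit 3) (nat_lit 0x800fc00100022001f0005000080000000000000000000000000000000) (nat_lit 0x0) (nat_lit 0x70001000008000000000000000000000000000000000000000000000000) := T_34 (nat_lit 233) (nat_lit 232) (nat_lit 3) (nat_lit 8) (nat_lit 12) L93542 (by decide +kernel)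
theorem L93544 : W_34 (nat_lit 4) (nat_lit 0x8007c00100022001f0005000080000000000000000000000000000000) (nat_lit 0x0) (nat_lit 0x70001800048000000000000000000000000000000000000000000000000) := T_34 (nat_lit 215) (nat_lit 198) (nat_lit 4) (nat_lit 11) (nat_lit 12) L93543 (by decide +kernel)
theorem L93545 : W_34 (nat_lit 5) (nat_lit 0x8007c00100022000f0005000080000000000000000000000000000000) (nat_lit 0x0) (nat_lit 0x70001800048004000100000000000000000000000000000000000000000) := T_34 (nat_lit 164) (nat_lit 182) (nat_lit 3) (nat_lit 8) (nat_lit 9) L93544 (by decide +kernel)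
theorem L93546 : W_34 (nat_lit 6) (nat_lit 0x8007c00100002000f0005000080000000000000000000000000000000) (nat_lit 0x0) (nat_lit 0x70001800048007000100000000000000000000000000000000000000000) := T_34 (nat_lit 181) (nat_lit 180) (nat_lit 3) (nat_lit 7) (nat_lit 9) L93545 (by decide +kernel)
theorem L93547 : W_34 (nat_lit 7) (nat_lit 0x8007c00100002000f0001000080000000000000000000000000000000) (nat_lit 0x0) (nat_lit 0x7000180004800700010000c000000000000000000000000000000000000) := T_34 (nat_lit 146) (nat_lit 147) (nat_lit 2) (nat_lit 7) (nat_lit 9) L93546 (by decide +kernel)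
theorem L93548 : W_34 (nat_lit 8) (nat_lit 0x8007c0010000200070001000080000000000000000000000000000000) (nat_lit 0x0) (nat_lit 0x7000180004800710018000c000000000000000000000000000000000000) := T_34 (nat_lit 163) (nat_lit 176) (nat_lit 1) (nat_lit 10) (nat_lit 9) L93547 (by decide +kernel)
theorem L93549 : W_34 (nat_lit 9) (nat_lit 0x8007c0010000200030001000080000000000000000000000000000000) (nat_lit 0x0) (nat_lit 0x700018000480079001c000c000000000000000000000000000000000000) := T_34 (nat_lit 162) (nat_lit 179) (nat_lit 4) (nat_lit 9) (nat_lit 12) L93548 (by decide +kernel)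
theorem L93550 : W_34 (nat_lit 10) (nat_lit 0x8007c0010000200010001000080000000000000000000000000000000) (nat_lit 0x0) (nat_lit 0x700018000480079001e000c000000004000000000000000000000000000) := T_34 (nat_lit 161) (nat_lit 110) (nat_lit 5) (nat_lit 8) (nat_lit 6) L93549 (by decide +kernel)
theorem L93551 : W_34 (nat_lit 11) (nat_lit 0x8003c0010000200010001000080000000000000000000000000000000) (nat_lit 0x0) (nat_lit 0x71001c000480079001e000c000000004000000000000000000000000000) := T_34 (nat_lit 214) (nat_lit 228) (nat_lit 1) (nat_lit 10) (nat_lit 12) L93550 (by decide +kernel)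
theorem L93552 : W_34 (nat_lit 12) (nat_lit 0x8003c0000000200010001000080000000000000000000000000000000) (nat_lit 0x0) (nat_lit 0x71001c000780079001e000c000000004000000000000000000000000000) := T_34 (nat_lit 196) (nat_lit 197) (nat_lit 2) (nat_lit 6) (nat_lit 12) L93551 (by decide +kernel)
theorem L93553 : W_34 (nat_lit 13) (nat_lit 0x3c0000000200010001000080000000000000000000000000000000) (nat_lit 0x0) (nat_lit 0x71c01c000780079001e000c000000004000000000000000000000000000) := T_34 (nat_lit 227) (nat_lit 226) (nat_lit 1) (nat_lit 9) (nat_lit 12) L93552 (by decide +kernel)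
theorem L93554 : W_34 (nat_lit 14) (nat_lit 0x2c0000000200010001000080000000000000000000000000000000) (nat_lit 0x0) (nat_lit 0x400038001c007fc01d001f80079001e000c000000004000000000000000000000000000) := Q_34 (nat_lit 212) (C_34 L92681 (C_34 L93509 (C_34 L93533 (C_34 L93541 (C_34 L93553 N_34))))) (by decide +kernel)
theorem L93555 : W_34 (nat_lit 12) (nat_lit 0x2c0000000200010001000080000000000000000000000000000000) (nat_lit 0x0) (nat_lit 0x400038001c001ec0050007b0019000e0000000000004000000000000000000000000000) := Q_34 (nat_lit 212) (C_34 L92681 (C_34 L93533 (C_34 L92676 N_34))) (by decide +kernel)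
theorem L93556 : W_34 (nat_lit 2) (nat_lit 0x8007c0012000200010001000080000000000000000000000000000000) (nat_lit 0x0) (nat_lit 0x1c000000000000000000000000000000000000000000000000000000000) := D_34 (nat_lit 231) (nat_lit 230) (nat_lit 232) (nat_lit 3) (nat_lit 6) (nat_lit 12) (nat_lit 3) (nat_lit 7) (nat_lit 12) (by decide +kernel)
theorem L93557 : W_34 (nat_lit 3) (nat_lit 0x8003c0012000200010001000080000000000000000000000000000000) (nat_lit 0x0) (nat_lit 0x1d000400000000000000000000000000000000000000000000000000000) := T_34 (nat_lit 214) (nat_lit 228) (nat_lit 1) (nat_lit 10) (nat_lit 12) L93556 (by decide +kernel)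
theorem L93558 : W_34 (nat_lit 4) (nat_lit 0x3c0012000200010001000080000000000000000000000000000000) (nat_lit 0x0) (nat_lit 0x1d800400000000100000000000000000000000000000000000000000000) := T_34 (nat_lit 227) (nat_lit 176) (nat_lit 6) (nat_lit 6) (nat_lit 13) L93557 (by decide +kernel)
theorem L93559 : W_34 (nat_lit 5) (nat_lit 0x3c0002000200010001000080000000000000000000000000000000) (nat_lit 0x0) (nat_lit 0x1d800400030000100000000000000000000000000000000000000000000) := T_34 (nat_lit 196) (nat_lit 197) (nat_lit 2) (nat_lit 6) (nat_lit 12) L93558 (by decide +kernel)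
theorem L93560 : W_34 (nat_lit 6) (nat_lit 0x3c0000000200010001000080000000000000000000000000000000) (nat_lit 0x0) (nat_lit 0x1d800400033000100000000000000000000000000000000000000000000) := T_34 (nat_lit 193) (nat_lit 192) (nat_lit 0) (nat_lit 9) (nat_lit 12) L93559 (by decide +kernel)
theorem L93561 : W_34 (nat_lit 2) (nat_lit 0x80003c0020000200010001000080000000000000000000000000000000) (nat_lit 0x0) (nat_lit 0x10000400040000000000000000000000000000000000000000000000000) := D_34 (nat_lit 214) (nat_lit 232) (nat_lit 198) (nat_lit 3) (nat_lit 7) (nat_lit 12) (nat_lit 2) (nat_lit 7) (nat_lit 12) (by decide +kernel)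
theorem L93562 : W_34 (nat_lit 3) (nat_lit 0x80003c0000000200010001000080000000000000000000000000000000) (nat_lit 0x0) (nat_lit 0x10000400070000000000000000000000000000000000000000000000000) := T_34 (nat_lit 197) (nat_lit 196) (nat_lit 2) (nat_lit 6) (nat_lit 12) L93561 (by decide +kernel)
theorem L93563 : W_34 (nat_lit 4) (nat_lit 0x3c0000000200010001000080000000000000000000000000000000) (nat_lit 0x0) (nat_lit 0x1c000400070000000000000000000000000000000000000000000000000) := T_34 (nat_lit 231) (nat_lit 230) (nat_lit 3) (nat_lit 6) (nat_lit 12) L93562 (by decide +kernel)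
theorem L93564 : W_34 (nat_lit 7) (nat_lit 0x2c0000000200010001000080000000000000000000000000000000) (nat_lit 0x0) (nat_lit 0x1dc00500073000100000000000000000000000000000000000000000000) := Q_34 (nat_lit 212) (C_34 L93560 (C_34 L93509 (C_34 L92676 (C_34 L93563 N_34)))) (by decide +kernel)
theorem L93565 : W_34 (nat_lit 2) (nat_lit 0x2c00100012000f0001000080000000000000000000000000000000) (nat_lit 0x0) (nat_lit 0x2000000000000c000000000000000000000000000000000000) := D_34 (nat_lit 146) (nat_lit 147) (nat_lit 197) (nat_lit 2) (nat_lit 7) (nat_lit 9) (nat_lit 5) (nat_lit 10) (nat_lit 8) (by decide +kernel)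
theorem L93566 : W_34 (nat_lit 3) (nat_lit 0x2c00100002000f0001000080000000000000000000000000000000) (nat_lit 0x0) (nat_lit 0x2000300000000c000000000000000000000000000000000000) := T_34 (nat_lit 180) (nat_lit 181) (nat_lit 3) (nat_lit 7) (nat_lit 9) L93565 (by decide +kernel)
theorem L93567 : W_34 (nat_lit 4) (nat_lit 0x2c00000002000f0001000080000000000000000000000000000000) (nat_lit 0x0) (nat_lit 0x3000380000000c000000000000000000000000000000000000) := T_34 (nat_lit 196) (nat_lit 179) (nat_lit 4) (nat_lit 9) (nat_lit 12) L93566 (by decide +kernel)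
theorem L93568 : W_34 (nat_lit 5) (nat_lit 0x2c0000000200070001000080000000000000000000000000000000) (nat_lit 0x0) (nat_lit 0x3000390008000c000000000000000000000000000000000000) := T_34 (nat_lit 163) (nat_lit 176) (nat_lit 1) (nat_lit 10) (nat_lit 9) L93567 (by decide +kernel)
theorem L93569 : W_34 (nat_lit 2) (nat_lit 0x2c0000001a00070001000080000000000000000000000000000000) (nat_lit 0x0) (nat_lit 0x6000080000000000000000000000000000000000000000) := D_34 (nat_lit 181) (nat_lit 182) (nat_lit 163) (nat_lit 0) (nat_lit 12) (nat_lit 10) (nat_lit 3) (nat_lit 7) (nat_lit 9) (by decide +kernel)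
theorem L93570 : W_34 (nat_lit 3) (nat_lit 0x2c0000000a00070001000080000000000000000000000000000000) (nat_lit 0x0) (nat_lit 0x7000088000000000000000000000000000000000000000) := T_34 (nat_lit 180) (nat_lit 159) (nat_lit 3) (nat_lit 6) (nat_lit 9) L93569 (by decide +kernel)
theorem L93571 : W_34 (nat_lit 4) (nat_lit 0x2c0000000200070001000080000000000000000000000000000000) (nat_lit 0x0) (nat_lit 0x10007800088000000000000000000000000000000000000000) := T_34 (nat_lit 179) (nat_lit 196) (nat_lit 4) (nat_lit 9) (nat_lit 12) L93570 (by decide +kernel)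
theorem L93572 : W_34 (nat_lit 2) (nat_lit 0x2c00000022000f0009000080000000000000000000000000000000) (nat_lit 0x0) (nat_lit 0x4000100010000000000000000000000000000000000000) := D_34 (nat_lit 164) (nat_lit 148) (nat_lit 182) (nat_lit 2) (nat_lit 8) (nat_lit 9) (nat_lit 3) (nat_lit 8) (nat_lit 9) (by decide +kernel)
theorem L93573 : W_34 (nat_lit 3) (nat_lit 0x2c00000002000f0009000080000000000000000000000000000000) (nat_lit 0x0) (nat_lit 0x7000100010000000000000000000000000000000000000) := T_34 (nat_lit 181) (nat_lit 180) (nat_lit 3) (nat_lit 7) (nat_lit 9) L93572 (by decide +kernel)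
theorem L93574 : W_34 (nat_lit 4) (nat_lit 0x2c00000002000f0001000080000000000000000000000000000000) (nat_lit 0x0) (nat_lit 0x700010001c000000000000000000000000000000000000) := T_34 (nat_lit 147) (nat_lit 146) (nat_lit 2) (nat_lit 7) (nat_lit 9) L93573 (by decide +kernel)
theorem L93575 : W_34 (nat_lit 5) (nat_lit 0x2c0000000200070001000080000000000000000000000000000000) (nat_lit 0x0) (nat_lit 0x710018001c000000000000000000000000000000000000) := T_34 (nat_lit 163) (nat_lit 176) (nat_lit 1) (nat_lit 10) (nat_lit 9) L93574 (by decide +kernel)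
theorem L93576 : W_34 (nat_lit 2) (nat_lit 0x2c0000000300070001000080000000000000000000000000000000) (nat_lit 0x0) (nat_lit 0xc0008000000000000000000000000000000000000000) := D_34 (nat_lit 175) (nat_lit 159) (nat_lit 174) (nat_lit 1) (nat_lit 9) (nat_lit 9) (nat_lit 2) (nat_lit 4) (nat_lit 10) (by decide +kernel)
theorem L93577 : W_34 (nat_lit 3) (nat_lit 0x2c0000000200070001000080000000000000000000000000000000) (nat_lit 0x0) (nat_lit 0x1c0088000000000000000000000000000000000000000) := T_34 (nat_lit 176) (nat_lit 163) (nat_lit 1) (nat_lit 10) (nat_lit 9) L93576 (by decide +kernel)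
theorem L93578 : W_34 (nat_lit 2) (nat_lit 0x2c0000000b00078001000080000000000000000000000000000000) (nat_lit 0x0) (nat_lit 0x1800000002000000000000000000000000000000000000000000000000) := D_34 (nat_lit 193) (nat_lit 228) (nat_lit 227) (nat_lit 7) (nat_lit 6) (nat_lit 9) (nat_lit 6) (nat_lit 6) (nat_lit 13) (by decide +kernel)
theorem L93579 : W_34 (nat_lit 3) (nat_lit 0x2c0000000a00078001000080000000000000000000000000000000) (nat_lit 0x0) (nat_lit 0x1800000002000180000000000000000000000000000000000000000000) := T_34 (nat_lit 176) (nat_lit 175) (nat_lit 1) (nat_lit 9) (nat_lit 9) L93578 (by decide +kernel)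
theorem L93580 : W_34 (nat_lit 4) (nat_lit 0x2c0000000a00070001000080000000000000000000000000000000) (nat_lit 0x0) (nat_lit 0x1800000002001180008000000000000000000000000000000000000000) := T_34 (nat_lit 159) (nat_lit 180) (nat_lit 3) (nat_lit 6) (nat_lit 9) L93579 (by decide +kernel)
theorem L93581 : W_34 (nat_lit 5) (nat_lit 0x2c0000000200070001000080000000000000000000000000000000) (nat_lit 0x0) (nat_lit 0x1800000012001980008000000000000000000000000000000000000000) := T_34 (nat_lit 179) (nat_lit 196) (nat_lit 4) (nat_lit 9) (nat_lit 12) L93580 (by decide +kernel)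
theorem L93582 : W_34 (nat_lit 6) (nat_lit 0x2c0000000200030001000080000000000000000000000000000000) (nat_lit 0x0) (nat_lit 0x18000000320079c01c801c000000000000000000000000000000000000) := Q_34 (nat_lit 162) (C_34 L93568 (C_34 L93571 (C_34 L93575 (C_34 L93577 (C_34 L93581 N_34))))) (by decide +kernel)
theorem L93583 : W_34 (nat_lit 7) (nat_lit 0x2c0000000200010001000080000000000000000000000000000000) (nat_lit 0x0) (nat_lit 0x18000000320079c01e801c000000004000000000000000000000000000) := T_34 (nat_lit 161) (nat_lit 110) (nat_lit 5) (nat_lit 8) (nat_lit 6) L93582 (by decide +kernel)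
theorem L93584 : W_34 (nat_lit 7) (nat_lit 0x40003c0002000200010001000080004000000000000000000000000000) (nat_lit 0x0) (nat_lit 0x73801c000e0000100000000000000000000000000000000000000000000) := T_34 (nat_lit 227) (nat_lit 176) (nat_lit 6) (nat_lit 6) (nat_lit 13) L93502 (by decide +kernel)
theorem L93585 : W_34 (nat_lit 8) (nat_lit 0x40003c0000000200010001000080004000000000000000000000000000) (nat_lit 0x0) (nat_lit 0x73801c000e3000100000000000000000000000000000000000000000000) := T_34 (nat_lit 193) (nat_lit 192) (nat_lit 0) (nat_lit 9) (nat_lit 12) L93584 (by decide +kernel)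
theorem L93586 : W_34 (nat_lit 9) (nat_lit 0x3c0000000200010001000080004000000000000000000000000000) (nat_lit 0x0) (nat_lit 0x7f801c000e3000100000000000000000000000000000000000000000000) := T_34 (nat_lit 230) (nat_lit 231) (nat_lit 3) (nat_lit 6) (nat_lit 12) L93585 (by decide +kernel)
theorem L93587 : W_34 (nat_lit 10) (nat_lit 0x3c0000000200010001000080000000000000000000000000000000) (nat_lit 0x0) (nat_lit 0x7f801c000e3000100020000000000004000000000000000000000000000) := T_34 (nat_lit 110) (nat_lit 161) (nat_lit 5) (nat_lit 8) (nat_lit 6) L93586 (by decide +kernel)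
theorem L93588 : W_34 (nat_lit 2) (nat_lit 0x7c0000000200010001000080000000000000000000000000000000) (nat_lit 0x0) (nat_lit 0x1c000000000000000000000000000000000000000000000000000000000) := D_34 (nat_lit 231) (nat_lit 230) (nat_lit 232) (nat_lit 3) (nat_lit 6) (nat_lit 12) (nat_lit 3) (nat_lit 7) (nat_lit 12) (by decide +kernel)
theorem L93589 : W_34 (nat_lit 2) (nat_lit 0x11000fc00220002000b0001000080000000000000000000000000000000) (nat_lit 0x0) (nat_lit 0x100048000000000000000000000000000000000000000) := D_34 (nat_lit 176) (nat_lit 162) (nat_lit 159) (nat_lit 1) (nat_lit 10) (nat_lit 9) (nat_lit 7) (nat_lit 6) (nat_lit 9) (by decide +kernel)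
theorem L93590 : W_34 (nat_lit 3) (nat_lit 0x11000fc0022000200030001000080000000000000000000000000000000) (nat_lit 0x0) (nat_lit 0x11000c8000000000000000000000000000000000000000) := T_34 (nat_lit 163) (nat_lit 180) (nat_lit 7) (nat_lit 10) (nat_lit 9) L93589 (by decide +kernel)
theorem L93591 : W_34 (nat_lit 4) (nat_lit 0x10000fc0022000200030001000080000000000000000000000000000000) (nat_lit 0x0) (nat_lit 0x30000000000011000c8000000000000000000000000000000000000000) := T_34 (nat_lit 228) (nat_lit 229) (nat_lit 1) (nat_lit 11) (nat_lit 12) L93590 (by decide +kernel)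
theorem L93592 : W_34 (nat_lit 5) (nat_lit 0x100007c0022000200030001000080000000000000000000000000000000) (nat_lit 0x0) (nat_lit 0x230008000000011000c8000000000000000000000000000000000000000) := T_34 (nat_lit 215) (nat_lit 233) (nat_lit 3) (nat_lit 8) (nat_lit 12) L93591 (by decide +kernel)
theorem L93593 : W_34 (nat_lit 6) (nat_lit 0x7c0022000200030001000080000000000000000000000000000000) (nat_lit 0x0) (nat_lit 0x3b0008000000011000c8000000000000000000000000000000000000000) := T_34 (nat_lit 232) (nat_lit 231) (nat_lit 3) (nat_lit 7) (nat_lit 12) L93592 (by decide +kernel)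
theorem L93594 : W_34 (nat_lit 7) (nat_lit 0x7c0022000200010001000080000000000000000000000000000000) (nat_lit 0x0) (nat_lit 0x3b0008000000011000e8000000000004000000000000000000000000000) := T_34 (nat_lit 161) (nat_lit 110) (nat_lit 5) (nat_lit 8) (nat_lit 6) L93593 (by decide +kernel)
theorem L93595 : W_34 (nat_lit 8) (nat_lit 0x7c0002000200010001000080000000000000000000000000000000) (nat_lit 0x0) (nat_lit 0x3b0008000600011000e8000000000004000000000000000000000000000) := T_34 (nat_lit 197) (nat_lit 198) (nat_lit 2) (nat_lit 7) (nat_lit 12) L93594 (by decide +kernel)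
theorem L93596 : W_34 (nat_lit 9) (nat_lit 0x7c0000000200010001000080000000000000000000000000000000) (nat_lit 0x0) (nat_lit 0x3b0008000630011000e8000000000004000000000000000000000000000) := T_34 (nat_lit 193) (nat_lit 192) (nat_lit 0) (nat_lit 9) (nat_lit 12) L93595 (by decide +kernel)
theorem L93597 : W_34 (nat_lit 2) (nat_lit 0x22000fc0042000200010001000080004000000000000000000000000000) (nat_lit 0x0) (nat_lit 0x44001000000000000000000000000000000000000000000000000000000) := D_34 (nat_lit 216) (nat_lit 230) (nat_lit 234) (nat_lit 1) (nat_lit 12) (nat_lit 12) (nat_lit 3) (nat_lit 9) (nat_lit 12) (by decide +kernel)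
theorem L93598 : W_34 (nat_lit 3) (nat_lit 0x2000fc0042000200010001000080004000000000000000000000000000) (nat_lit 0x0) (nat_lit 0x74001000000000000000000000000000000000000000000000000000000) := T_34 (nat_lit 233) (nat_lit 232) (nat_lit 3) (nat_lit 8) (nat_lit 12) L93597 (by decide +kernel)
theorem L93599 : W_34 (nat_lit 4) (nat_lit 0xfc0042000200010001000080004000000000000000000000000000) (nat_lit 0x0) (nat_lit 0x77001000000000000000000000000000000000000000000000000000000) := T_34 (nat_lit 229) (nat_lit 228) (nat_lit 1) (nat_lit 11) (nat_lit 12) L93598 (by decide +kernel)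
theorem L93600 : W_34 (nat_lit 5) (nat_lit 0x7c0042000200010001000080004000000000000000000000000000) (nat_lit 0x0) (nat_lit 0x77001800080000000000000000000000000000000000000000000000000) := T_34 (nat_lit 215) (nat_lit 199) (nat_lit 2) (nat_lit 8) (nat_lit 12) L93599 (by decide +kernel)
theorem L93601 : W_34 (nat_lit 6) (nat_lit 0x7c0042000200010001000080000000000000000000000000000000) (nat_lit 0x0) (nat_lit 0x77001800080000000020000000000004000000000000000000000000000) := T_34 (nat_lit 110) (nat_lit 161) (nat_lit 5) (nat_lit 8) (nat_lit 6) L93600 (by decide +kernel)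
theorem L93602 : W_34 (nat_lit 7) (nat_lit 0x7c0002000200010001000080000000000000000000000000000000) (nat_lit 0x0) (nat_lit 0x770018000e0000000020000000000004000000000000000000000000000) := T_34 (nat_lit 198) (nat_lit 197) (nat_lit 2) (nat_lit 7) (nat_lit 12) L93601 (by decide +kernel)
theorem L93603 : W_34 (nat_lit 8) (nat_lit 0x7c0000000200010001000080000000000000000000000000000000) (nat_lit 0x0) (nat_lit 0x770018000e3000000020000000000004000000000000000000000000000) := T_34 (nat_lit 193) (nat_lit 192) (nat_lit 0) (nat_lit 9) (nat_lit 12) L93602 (by decide +kernel)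
theorem L93604 : W_34 (nat_lit 2) (nat_lit 0x10000000040007c00220003400bc001000080000000000000000000000000000000) (nat_lit 0x0) (nat_lit 0x20003000000000000000000000000000000000000000) := D_34 (nat_lit 157) (nat_lit 156) (nat_lit 173) (nat_lit 3) (nat_lit 3) (nat_lit 9) (nat_lit 1) (nat_lit 7) (nat_lit 9) (by decide +kernel)
theorem L93605 : W_34 (nat_lit 3) (nat_lit 0x10000000040007c00220003400b8001000080000000000000000000000000000000) (nat_lit 0x0) (nat_lit 0x20007000200000000000000000000000000000000000) := T_34 (nat_lit 158) (nat_lit 141) (nat_lit 4) (nat_lit 6) (nat_lit 12) L93604 (by decide +kernel)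
theorem L93606 : W_34 (nat_lit 4) (nat_lit 0x10000000040007c00220003400b0001000080000000000000000000000000000000) (nat_lit 0x0) (nat_lit 0x100000000000002000f000200000000000000000000000000000000000) := T_34 (nat_lit 159) (nat_lit 228) (nat_lit 7) (nat_lit 6) (nat_lit 9) L93605 (by decide +kernel)
theorem L93607 : W_34 (nat_lit 5) (nat_lit 0x10000000040007c00220003000b0001000080000000000000000000000000000000) (nat_lit 0x0) (nat_lit 0x10000000000000e000f000200000000000000000000000000000000000) := T_34 (nat_lit 174) (nat_lit 175) (nat_lit 2) (nat_lit 4) (nat_lit 10) L93606 (by decide +kernel)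
theorem L93608 : W_34 (nat_lit 6) (nat_lit 0x10000000040007c00220002000b0001000080000000000000000000000000000000) (nat_lit 0x0) (nat_lit 0x10000000000001e004f000200000000000000000000000000000000000) := T_34 (nat_lit 176) (nat_lit 162) (nat_lit 1) (nat_lit 10) (nat_lit 9) L93607 (by decide +kernel)
theorem L93609 : W_34 (nat_lit 7) (nat_lit 0x10000000040007c0022000200090001000080000000000000000000000000000000) (nat_lit 0x0) (nat_lit 0x10000000000001e006f000200000004000000000000000000000000000) := T_34 (nat_lit 161) (nat_lit 110) (nat_lit 5) (nat_lit 8) (nat_lit 6) L93608 (by decide +kernel)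
theorem L93610 : W_34 (nat_lit 8) (nat_lit 0x10000000040007c0022000200010001000080000000000000000000000000000000) (nat_lit 0x0) (nat_lit 0x10000000000011e00ef000200000004000000000000000000000000000) := T_34 (nat_lit 163) (nat_lit 180) (nat_lit 5) (nat_lit 10) (nat_lit 9) L93609 (by decide +kernel)
theorem L93611 : W_34 (nat_lit 9) (nat_lit 0x40007c0022000200010001000080000000000000000000000000000000) (nat_lit 0x0) (nat_lit 0x10000800010000000000011e00ef000200000004000000000000000000000000000) := T_34 (nat_lit 264) (nat_lit 247) (nat_lit 6) (nat_lit 9) (nat_lit 15) L93610 (by decide +kernel)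
theorem L93612 : W_34 (nat_lit 10) (nat_lit 0x40007c0020000200010001000080000000000000000000000000000000) (nat_lit 0x0) (nat_lit 0x10000800010000000030011e00ef000200000004000000000000000000000000000) := T_34 (nat_lit 193) (nat_lit 192) (nat_lit 0) (nat_lit 9) (nat_lit 12) L93611 (by decide +kernel)
theorem L93613 : W_34 (nat_lit 11) (nat_lit 0x7c0020000200010001000080000000000000000000000000000000) (nat_lit 0x0) (nat_lit 0x100008000d0000000030011e00ef000200000004000000000000000000000000000) := T_34 (nat_lit 230) (nat_lit 231) (nat_lit 3) (nat_lit 6) (nat_lit 12) L93612 (by decide +kernel)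
theorem L93614 : W_34 (nat_lit 12) (nat_lit 0x7c0000000200010001000080000000000000000000000000000000) (nat_lit 0x0) (nat_lit 0x100008000d0000000630011e00ef000200000004000000000000000000000000000) := T_34 (nat_lit 197) (nat_lit 198) (nat_lit 2) (nat_lit 7) (nat_lit 12) L93613 (by decide +kernel)
theorem L93615 : W_34 (nat_lit 13) (nat_lit 0x3c0000000200010001000080000000000000000000000000000000) (nat_lit 0x0) (nat_lit 0x100008007f001c000e30011e00ef000200000004000000000000000000000000000) := Q_34 (nat_lit 214) (C_34 L93588 (C_34 L93596 (C_34 L93603 (C_34 L93614 N_34)))) (by decide +kernel)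
theorem L93616 : W_34 (nat_lit 14) (nat_lit 0x2c0000000200010001000080000000000000000000000000000000) (nat_lit 0x0) (nat_lit 0x100008007fc01d000e30011e00ef000200000004000000000000000000000000000) := Q_34 (nat_lit 212) (C_34 L93587 (C_34 L93509 (C_34 L92676 (C_34 L93615 N_34)))) (by decide +kernel)
theorem L93617 : W_34 (nat_lit 2) (nat_lit 0x10000c00040003c0012001a00030001000080000000000000000000000000000000) (nat_lit 0x0) (nat_lit 0x40002000100000000000000000000000000000000000000000000000000000000000000) := D_34 (nat_lit 265) (nat_lit 248) (nat_lit 282) (nat_lit 7) (nat_lit 9) (nat_lit 11) (nat_lit 7) (nat_lit 9) (nat_lit 12) (by decide +kernel)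
theorem L93618 : W_34 (nat_lit 3) (nat_lit 0xc00040003c0012001a00030001000080000000000000000000000000000000) (nat_lit 0x0) (nat_lit 0x40003000100000000000008000000000000000000000000000000000000000000000000) := T_34 (nat_lit 264) (nat_lit 195) (nat_lit 4) (nat_lit 9) (nat_lit 15) L93617 (by decide +kernel)
theorem L93619 : W_34 (nat_lit 4) (nat_lit 0x400040003c0012001a00030001000080000000000000000000000000000000) (nat_lit 0x0) (nat_lit 0x40003800180000000000008000000000000000000000000000000000000000000000000) := T_34 (nat_lit 247) (nat_lit 263) (nat_lit 5) (nat_lit 9) (nat_lit 11) L93618 (by decide +kernel)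
theorem L93620 : W_34 (nat_lit 5) (nat_lit 0x40003c0012001a00030001000080000000000000000000000000000000) (nat_lit 0x0) (nat_lit 0x400038001c0002000000008000000000000000000000000000000000000000000000000) := T_34 (nat_lit 246) (nat_lit 229) (nat_lit 5) (nat_lit 9) (nat_lit 10) L93619 (by decide +kernel)
theorem L93621 : W_34 (nat_lit 6) (nat_lit 0x40003c0012000a00030001000080000000000000000000000000000000) (nat_lit 0x0) (nat_lit 0x400038001c0002000000008001000080000000000000000000000000000000000000000) := T_34 (nat_lit 180) (nat_lit 163) (nat_lit 6) (nat_lit 9) (nat_lit 13) L93620 (by decide +kernel)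
theorem L93622 : W_34 (nat_lit 7) (nat_lit 0x40003c0012000200030001000080000000000000000000000000000000) (nat_lit 0x0) (nat_lit 0x400038001c00020000000080018000c0000000000000000000000000000000000000000) := T_34 (nat_lit 179) (nat_lit 162) (nat_lit 4) (nat_lit 9) (nat_lit 12) L93621 (by decide +kernel)
theorem L93623 : W_34 (nat_lit 8) (nat_lit 0x3c0012000200030001000080000000000000000000000000000000) (nat_lit 0x0) (nat_lit 0x400038001c000e0000000080018000c0000000000000000000000000000000000000000) := T_34 (nat_lit 230) (nat_lit 231) (nat_lit 3) (nat_lit 6) (nat_lit 12) L93622 (by decide +kernel)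
theorem L93624 : W_34 (nat_lit 9) (nat_lit 0x3c0002000200030001000080000000000000000000000000000000) (nat_lit 0x0) (nat_lit 0x400038001c000e0000000380018000c0000000000000000000000000000000000000000) := T_34 (nat_lit 196) (nat_lit 197) (nat_lit 2) (nat_lit 6) (nat_lit 12) L93623 (by decide +kernel)
theorem L93625 : W_34 (nat_lit 10) (nat_lit 0x3c0000000200030001000080000000000000000000000000000000) (nat_lit 0x0) (nat_lit 0x400038001c000e00000003b0018000c0000000000000000000000000000000000000000) := T_34 (nat_lit 193) (nat_lit 192) (nat_lit 0) (nat_lit 9) (nat_lit 12) L93624 (by decide +kernel)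
theorem L93626 : W_34 (nat_lit 11) (nat_lit 0x3c0000000200010001000080000000000000000000000000000000) (nat_lit 0x0) (nat_lit 0x400038001c000e00000003b0018000e0000000000004000000000000000000000000000) := T_34 (nat_lit 161) (nat_lit 110) (nat_lit 5) (nat_lit 8) (nat_lit 6) L93625 (by decide +kernel)
theorem L93627 : W_34 (nat_lit 2) (nat_lit 0x40003c00120022000f0009000080000000000000000000000000000000) (nat_lit 0x0) (nat_lit 0x4000100010000000000000000000000000000000000000) := D_34 (nat_lit 164) (nat_lit 182) (nat_lit 148) (nat_lit 3) (nat_lit 8) (nat_lit 9) (nat_lit 2) (nat_lit 8) (nat_lit 9) (by decide +kernel)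
theorem L93628 : W_34 (nat_lit 3) (nat_lit 0x40003c00120022000f0001000080000000000000000000000000000000) (nat_lit 0x0) (nat_lit 0x400010001c000000000000000000000000000000000000) := T_34 (nat_lit 147) (nat_lit 146) (nat_lit 2) (nat_lit 7) (nat_lit 9) L93627 (by decide +kernel)
theorem L93629 : W_34 (nat_lit 4) (nat_lit 0x40003c00120002000f0001000080000000000000000000000000000000) (nat_lit 0x0) (nat_lit 0x700010001c000000000000000000000000000000000000) := T_34 (nat_lit 181) (nat_lit 180) (nat_lit 3) (nat_lit 7) (nat_lit 9) L93628 (by decide +kernel)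
theorem L93630 : W_34 (nat_lit 5) (nat_lit 0x3c00120002000f0001000080000000000000000000000000000000) (nat_lit 0x0) (nat_lit 0xc00000000000700010001c000000000000000000000000000000000000) := T_34 (nat_lit 230) (nat_lit 231) (nat_lit 3) (nat_lit 6) (nat_lit 12) L93629 (by decide +kernel)
theorem L93631 : W_34 (nat_lit 6) (nat_lit 0x3c0012000200070001000080000000000000000000000000000000) (nat_lit 0x0) (nat_lit 0xc00000000000710018001c000000000000000000000000000000000000) := T_34 (nat_lit 163) (nat_lit 176) (nat_lit 1) (nat_lit 10) (nat_lit 9) L93630 (by decide +kernel)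
theorem L93632 : W_34 (nat_lit 7) (nat_lit 0x3c0002000200070001000080000000000000000000000000000000) (nat_lit 0x0) (nat_lit 0xc00000001000790018001c000000000000000000000000000000000000) := T_34 (nat_lit 196) (nat_lit 179) (nat_lit 4) (nat_lit 9) (nat_lit 12) L93631 (by decide +kernel)
theorem L93633 : W_34 (nat_lit 8) (nat_lit 0x3c0000000200070001000080000000000000000000000000000000) (nat_lit 0x0) (nat_lit 0xc00000001300790018001c000000000000000000000000000000000000) := T_34 (nat_lit 193) (nat_lit 192) (nat_lit 0) (nat_lit 9) (nat_lit 12) L93632 (by decide +kernel)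
theorem L93634 : W_34 (nat_lit 2) (nat_lit 0x40003c00100022000f0009000080000000000000000000000000000000) (nat_lit 0x0) (nat_lit 0x4000100010000000000000000000000000000000000000) := D_34 (nat_lit 164) (nat_lit 148) (nat_lit 182) (nat_lit 2) (nat_lit 8) (nat_lit 9) (nat_lit 3) (nat_lit 8) (nat_lit 9) (by decide +kernel)
theorem L93635 : W_34 (nat_lit 3) (nat_lit 0x40003c00100002000f0009000080000000000000000000000000000000) (nat_lit 0x0) (nat_lit 0x7000100010000000000000000000000000000000000000) := T_34 (nat_lit 181) (nat_lit 180) (nat_lit 3) (nat_lit 7) (nat_lit 9) L93634 (by decide +kernel)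
theorem L93636 : W_34 (nat_lit 4) (nat_lit 0x40003c00100002000f0001000080000000000000000000000000000000) (nat_lit 0x0) (nat_lit 0x700010001c000000000000000000000000000000000000) := T_34 (nat_lit 147) (nat_lit 146) (nat_lit 2) (nat_lit 7) (nat_lit 9) L93635 (by decide +kernel)
theorem L93637 : W_34 (nat_lit 5) (nat_lit 0x40003c0010000200070001000080000000000000000000000000000000) (nat_lit 0x0) (nat_lit 0x710018001c000000000000000000000000000000000000) := T_34 (nat_lit 163) (nat_lit 176) (nat_lit 1) (nat_lit 10) (nat_lit 9) L93636 (by decide +kernel)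
theorem L93638 : W_34 (nat_lit 6) (nat_lit 0x40003c0000000200070001000080000000000000000000000000000000) (nat_lit 0x0) (nat_lit 0x1000790018001c000000000000000000000000000000000000) := T_34 (nat_lit 196) (nat_lit 179) (nat_lit 4) (nat_lit 9) (nat_lit 12) L93637 (by decide +kernel)
theorem L93639 : W_34 (nat_lit 7) (nat_lit 0x3c0000000200070001000080000000000000000000000000000000) (nat_lit 0x0) (nat_lit 0xc00000001000790018001c000000000000000000000000000000000000) := T_34 (nat_lit 230) (nat_lit 231) (nat_lit 3) (nat_lit 6) (nat_lit 12) L93638 (by decide +kernel)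
theorem L93640 : W_34 (nat_lit 2) (nat_lit 0x40003c0002001a00070001000080000000000000000000000000000000) (nat_lit 0x0) (nat_lit 0x6000080000000000000000000000000000000000000000) := D_34 (nat_lit 181) (nat_lit 182) (nat_lit 163) (nat_lit 0) (nat_lit 12) (nat_lit 10) (nat_lit 3) (nat_lit 7) (nat_lit 9) (by decide +kernel)
theorem L93641 : W_34 (nat_lit 3) (nat_lit 0x40003c0002000a00070001000080000000000000000000000000000000) (nat_lit 0x0) (nat_lit 0x7000088000000000000000000000000000000000000000) := T_34 (nat_lit 180) (nat_lit 159) (nat_lit 3) (nat_lit 6) (nat_lit 9) L93640 (by decide +kernel)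
theorem L93642 : W_34 (nat_lit 4) (nat_lit 0x40003c0002000200070001000080000000000000000000000000000000) (nat_lit 0x0) (nat_lit 0x10007800088000000000000000000000000000000000000000) := T_34 (nat_lit 179) (nat_lit 196) (nat_lit 4) (nat_lit 9) (nat_lit 12) L93641 (by decide +kernel)
theorem L93643 : W_34 (nat_lit 5) (nat_lit 0x3c0002000200070001000080000000000000000000000000000000) (nat_lit 0x0) (nat_lit 0xc000000010007800088000000000000000000000000000000000000000) := T_34 (nat_lit 230) (nat_lit 231) (nat_lit 3) (nat_lit 6) (nat_lit 12) L93642 (by decide +kernel)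
theorem L93644 : W_34 (nat_lit 6) (nat_lit 0x3c0000000200070001000080000000000000000000000000000000) (nat_lit 0x0) (nat_lit 0xc000000013007800088000000000000000000000000000000000000000) := T_34 (nat_lit 193) (nat_lit 192) (nat_lit 0) (nat_lit 9) (nat_lit 12) L93643 (by decide +kernel)
theorem L93645 : W_34 (nat_lit 2) (nat_lit 0x40003c00020022001f0001000080000000000000000000000000000000) (nat_lit 0x0) (nat_lit 0x1c000000000000000000000000000000000000) := D_34 (nat_lit 147) (nat_lit 148) (nat_lit 146) (nat_lit 2) (nat_lit 8) (nat_lit 9) (nat_lit 2) (nat_lit 7) (nat_lit 9) (by decide +kernel)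
theorem L93646 : W_34 (nat_lit 3) (nat_lit 0x40003c00020022000f0001000080000000000000000000000000000000) (nat_lit 0x0) (nat_lit 0x400010001c000000000000000000000000000000000000) := T_34 (nat_lit 164) (nat_lit 182) (nat_lit 3) (nat_lit 8) (nat_lit 9) L93645 (by decide +kernel)
theorem L93647 : W_34 (nat_lit 4) (nat_lit 0x3c00020022000f0001000080000000000000000000000000000000) (nat_lit 0x0) (nat_lit 0xc00000000000400010001c000000000000000000000000000000000000) := T_34 (nat_lit 230) (nat_lit 231) (nat_lit 3) (nat_lit 6) (nat_lit 12) L93646 (by decide +kernel)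
theorem L93648 : W_34 (nat_lit 5) (nat_lit 0x3c00020002000f0001000080000000000000000000000000000000) (nat_lit 0x0) (nat_lit 0xc00000000000700010001c000000000000000000000000000000000000) := T_34 (nat_lit 181) (nat_lit 180) (nat_lit 3) (nat_lit 7) (nat_lit 9) L93647 (by decide +kernel)
theorem L93649 : W_34 (nat_lit 6) (nat_lit 0x3c00000002000f0001000080000000000000000000000000000000) (nat_lit 0x0) (nat_lit 0xc00000000300700010001c000000000000000000000000000000000000) := T_34 (nat_lit 193) (nat_lit 192) (nat_lit 0) (nat_lit 9) (nat_lit 12) L93648 (by decide +kernel)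
theorem L93650 : W_34 (nat_lit 7) (nat_lit 0x3c0000000200070001000080000000000000000000000000000000) (nat_lit 0x0) (nat_lit 0xc00000000300710018001c000000000000000000000000000000000000) := T_34 (nat_lit 163) (nat_lit 176) (nat_lit 1) (nat_lit 10) (nat_lit 9) L93649 (by decide +kernel)
theorem L93651 : W_34 (nat_lit 2) (nat_lit 0x3c0000000300070001000080000000000000000000000000000000) (nat_lit 0x0) (nat_lit 0xc0008000000000000000000000000000000000000000) := D_34 (nat_lit 175) (nat_lit 159) (nat_lit 174) (nat_lit 1) (nat_lit 9) (nat_lit 9) (nat_lit 2) (nat_lit 4) (nat_lit 10) (by decide +kernel)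
theorem L93652 : W_34 (nat_lit 3) (nat_lit 0x3c0000000200070001000080000000000000000000000000000000) (nat_lit 0x0) (nat_lit 0x1c0088000000000000000000000000000000000000000) := T_34 (nat_lit 176) (nat_lit 163) (nat_lit 1) (nat_lit 10) (nat_lit 9) L93651 (by decide +kernel)
theorem L93653 : W_34 (nat_lit 2) (nat_lit 0x40003c0000000b00078001000080000000000000000000000000000000) (nat_lit 0x0) (nat_lit 0x1000000003000000000000000000000000000000000000000000000000) := D_34 (nat_lit 193) (nat_lit 192) (nat_lit 228) (nat_lit 0) (nat_lit 9) (nat_lit 12) (nat_lit 7) (nat_lit 6) (nat_lit 9) (by decide +kernel)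
theorem L93654 : W_34 (nat_lit 3) (nat_lit 0x40003c0000000a00078001000080000000000000000000000000000000) (nat_lit 0x0) (nat_lit 0x1000000003000180000000000000000000000000000000000000000000) := T_34 (nat_lit 176) (nat_lit 175) (nat_lit 1) (nat_lit 9) (nat_lit 9) L93653 (by decide +kernel)
theorem L93655 : W_34 (nat_lit 4) (nat_lit 0x40003c0000000a00070001000080000000000000000000000000000000) (nat_lit 0x0) (nat_lit 0x1000000003001180008000000000000000000000000000000000000000) := T_34 (nat_lit 159) (nat_lit 180) (nat_lit 3) (nat_lit 6) (nat_lit 9) L93654 (by decide +kernel)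
theorem L93656 : W_34 (nat_lit 5) (nat_lit 0x3c0000000a00070001000080000000000000000000000000000000) (nat_lit 0x0) (nat_lit 0xd000000003001180008000000000000000000000000000000000000000) := T_34 (nat_lit 230) (nat_lit 231) (nat_lit 3) (nat_lit 6) (nat_lit 12) L93655 (by decide +kernel)
theorem L93657 : W_34 (nat_lit 6) (nat_lit 0x3c0000000200070001000080000000000000000000000000000000) (nat_lit 0x0) (nat_lit 0xd000000013001980008000000000000000000000000000000000000000) := T_34 (nat_lit 179) (nat_lit 196) (nat_lit 4) (nat_lit 9) (nat_lit 12) L93656 (by decide +kernel)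
theorem L93658 : W_34 (nat_lit 9) (nat_lit 0x3c0000000200030001000080000000000000000000000000000000) (nat_lit 0x0) (nat_lit 0xd0000000130079c01c801c000000000000000000000000000000000000) := Q_34 (nat_lit 162) (C_34 L93633 (C_34 L93639 (C_34 L93644 (C_34 L93650 (C_34 L93652 (C_34 L93657 N_34)))))) (by decide +kernel)
theorem L93659 : W_34 (nat_lit 10) (nat_lit 0x3c0000000200010001000080000000000000000000000000000000) (nat_lit 0x0) (nat_lit 0xd0000000130079c01e801c000000004000000000000000000000000000) := T_34 (nat_lit 161) (nat_lit 110) (nat_lit 5) (nat_lit 8) (nat_lit 6) L93658 (by decide +kernel)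
theorem L93660 : W_34 (nat_lit 2) (nat_lit 0x3c00120022000f0009000080000000000000000000000000000000) (nat_lit 0x0) (nat_lit 0x4000100010000000000000000000000000000000000000) := D_34 (nat_lit 164) (nat_lit 148) (nat_lit 182) (nat_lit 2) (nat_lit 8) (nat_lit 9) (nat_lit 3) (nat_lit 8) (nat_lit 9) (by decide +kernel)
theorem L93661 : W_34 (nat_lit 3) (nat_lit 0x3c00120002000f0009000080000000000000000000000000000000) (nat_lit 0x0) (nat_lit 0x7000100010000000000000000000000000000000000000) := T_34 (nat_lit 181) (nat_lit 180) (nat_lit 3) (nat_lit 7) (nat_lit 9) L93660 (by decide +kernel)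
theorem L93662 : W_34 (nat_lit 4) (nat_lit 0x3c00120002000f0001000080000000000000000000000000000000) (nat_lit 0x0) (nat_lit 0x700010001c000000000000000000000000000000000000) := T_34 (nat_lit 147) (nat_lit 146) (nat_lit 2) (nat_lit 7) (nat_lit 9) L93661 (by decide +kernel)
theorem L93663 : W_34 (nat_lit 5) (nat_lit 0x3c0012000200070001000080000000000000000000000000000000) (nat_lit 0x0) (nat_lit 0x710018001c000000000000000000000000000000000000) := T_34 (nat_lit 163) (nat_lit 176) (nat_lit 1) (nat_lit 10) (nat_lit 9) L93662 (by decide +kernel)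
theorem L93664 : W_34 (nat_lit 6) (nat_lit 0x3c0012000200030001000080000000000000000000000000000000) (nat_lit 0x0) (nat_lit 0x79001c001c000000000000000000000000000000000000) := T_34 (nat_lit 162) (nat_lit 179) (nat_lit 4) (nat_lit 9) (nat_lit 12) L93663 (by decide +kernel)
theorem L93665 : W_34 (nat_lit 7) (nat_lit 0x3c0002000200030001000080000000000000000000000000000000) (nat_lit 0x0) (nat_lit 0x300079001c001c000000000000000000000000000000000000) := T_34 (nat_lit 196) (nat_lit 197) (nat_lit 2) (nat_lit 6) (nat_lit 12) L93664 (by decide +kernel)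
theorem L93666 : W_34 (nat_lit 8) (nat_lit 0x3c0002000200010001000080000000000000000000000000000000) (nat_lit 0x0) (nat_lit 0x300079001e001c000000004000000000000000000000000000) := T_34 (nat_lit 161) (nat_lit 110) (nat_lit 5) (nat_lit 8) (nat_lit 6) L93665 (by decide +kernel)
theorem L93667 : W_34 (nat_lit 9) (nat_lit 0x3c0000000200010001000080000000000000000000000000000000) (nat_lit 0x0) (nat_lit 0x330079001e001c000000004000000000000000000000000000) := T_34 (nat_lit 193) (nat_lit 192) (nat_lit 0) (nat_lit 9) (nat_lit 12) L93666 (by decide +kernel)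
theorem L93668 : W_34 (nat_lit 14) (nat_lit 0x2c0000000200010001000080000000000000000000000000000000) (nat_lit 0x0) (nat_lit 0x400038001c007f001d000fb0079e01ef01c200000004000000000000000000000000000) := Q_34 (nat_lit 212) (C_34 L93615 (C_34 L93563 (C_34 L93626 (C_34 L93659 (C_34 L93667 N_34))))) (by decide +kernel)
theorem L93669 : W_34 (nat_lit 6) (nat_lit 0x2c0000000200030001000080000000000000000000000000000000) (nat_lit 0x0) (nat_lit 0x18000000120079c01c801c000000000000000000000000000000000000) := Q_34 (nat_lit 162) (C_34 L93581 (C_34 L93577 (C_34 L93571 (C_34 L93575 N_34)))) (by decide +kernel)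
theorem L93670 : W_34 (nat_lit 7) (nat_lit 0x2c0000000200010001000080000000000000000000000000000000) (nat_lit 0x0) (nat_lit 0x18000000120079c01e801c000000004000000000000000000000000000) := T_34 (nat_lit 161) (nat_lit 110) (nat_lit 5) (nat_lit 8) (nat_lit 6) L93669 (by decide +kernel)
theorem L93671 : W_34 (nat_lit 15) (nat_lit 0xc0000000200010001000080000000000000000000000000000000) (nat_lit 0x0) (nat_lit 0x400038001c007fc01f001fb0079e01ef01c200000004000000000000000000000000000) := Q_34 (nat_lit 213) (C_34 L93523 (C_34 L93554 (C_34 L93555 (C_34 L93564 (C_34 L93583 (C_34 L93616 (C_34 L93668 (C_34 L93670 N_34)))))))) (by decide +kernel)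
theorem L93672 : W_34 (nat_lit 2) (nat_lit 0x4000c00078002c0002000200010001000080000000000000000000000000000000) (nat_lit 0x0) (nat_lit 0x10000800000000000000010000000000000000000000000000000000000000000000000) := D_34 (nat_lit 263) (nat_lit 280) (nat_lit 196) (nat_lit 6) (nat_lit 8) (nat_lit 16) (nat_lit 5) (nat_lit 9) (nat_lit 11) (by decide +kernel)
theorem L93673 : W_34 (nat_lit 3) (nat_lit 0x4000800078002c0002000200010001000080000000000000000000000000000000) (nat_lit 0x0) (nat_lit 0x10000800040000400000010000000000000000000000000000000000000000000000000) := T_34 (nat_lit 246) (nat_lit 226) (nat_lit 3) (nat_lit 5) (nat_lit 13) L93672 (by decide +kernel)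
theorem L93674 : W_34 (nat_lit 4) (nat_lit 0x4000000078002c0002000200010001000080000000000000000000000000000000) (nat_lit 0x0) (nat_lit 0x100008001c0000400000010000000000000000000000000000000000000000000000000) := T_34 (nat_lit 247) (nat_lit 248) (nat_lit 3) (nat_lit 6) (nat_lit 13) L93673 (by decide +kernel)
theorem L93675 : W_34 (nat_lit 5) (nat_lit 0x4000000078000c0002000200010001000080000000000000000000000000000000) (nat_lit 0x0) (nat_lit 0x100008001c0000400600010000000000000000000000000000000000000000000000000) := T_34 (nat_lit 213) (nat_lit 214) (nat_lit 2) (nat_lit 6) (nat_lit 13) L93674 (by decide +kernel)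
theorem L93676 : W_34 (nat_lit 6) (nat_lit 0x4000000038000c0002000200010001000080000000000000000000000000000000) (nat_lit 0x0) (nat_lit 0x100008001c000c400600010000000000000000000000000000000000000000000000000) := T_34 (nat_lit 230) (nat_lit 231) (nat_lit 0) (nat_lit 10) (nat_lit 13) L93675 (by decide +kernel)
theorem L93677 : W_34 (nat_lit 7) (nat_lit 0x38000c0002000200010001000080000000000000000000000000000000) (nat_lit 0x0) (nat_lit 0x10000c001e000c400600010000000000000000000000000000000000000000000000000) := T_34 (nat_lit 262) (nat_lit 245) (nat_lit 4) (nat_lit 7) (nat_lit 15) L93676 (by decide +kernel)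
theorem L93678 : W_34 (nat_lit 8) (nat_lit 0x38000c0000000200010001000080000000000000000000000000000000) (nat_lit 0x0) (nat_lit 0x10000c001e000c400600012000100000000000000000000000000000000000000000000) := T_34 (nat_lit 193) (nat_lit 176) (nat_lit 6) (nat_lit 6) (nat_lit 13) L93677 (by decide +kernel)
theorem L93679 : W_34 (nat_lit 4) (nat_lit 0x4001e000d0002000200010001000080000000000000000000000000000000) (nat_lit 0x0) (nat_lit 0x1c000e000020000000000000000000000000000000000000000000000000000) := T_34 (nat_lit 229) (nat_lit 209) (nat_lit 3) (nat_lit 4) (nat_lit 12) L91867 (by decide +kernel)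
theorem L93680 : W_34 (nat_lit 5) (nat_lit 0x4001e000c0002000200010001000080000000000000000000000000000000) (nat_lit 0x0) (nat_lit 0x1c000e000038000000000000000000000000000000000000000000000000000) := T_34 (nat_lit 208) (nat_lit 207) (nat_lit 0) (nat_lit 7) (nat_lit 13) L93679 (by decide +kernel)
theorem L93681 : W_34 (nat_lit 6) (nat_lit 0x1e000c0002000200010001000080000000000000000000000000000000) (nat_lit 0x0) (nat_lit 0x1c600e000038000000000000000000000000000000000000000000000000000) := T_34 (nat_lit 242) (nat_lit 241) (nat_lit 1) (nat_lit 7) (nat_lit 13) L93680 (by decide +kernel)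
theorem L93682 : W_34 (nat_lit 2) (nat_lit 0x8000000024001e000f0000000200010001000080000000000000000000000000000000) (nat_lit 0x0) (nat_lit 0x1000080000000000000001000000000000000000000000000000000000000000000000) := D_34 (nat_lit 259) (nat_lit 276) (nat_lit 192) (nat_lit 6) (nat_lit 4) (nat_lit 16) (nat_lit 6) (nat_lit 4) (nat_lit 15) (by decide +kernel)
theorem L93683 : W_34 (nat_lit 3) (nat_lit 0x8000000024001e000d0000000200010001000080000000000000000000000000000000) (nat_lit 0x0) (nat_lit 0x1000080000002000020001000000000000000000000000000000000000000000000000) := T_34 (nat_lit 209) (nat_lit 229) (nat_lit 3) (nat_lit 4) (nat_lit 12) L93682 (by decide +kernel)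
theorem L93684 : W_34 (nat_lit 4) (nat_lit 0x24001e000d0000000200010001000080000000000000000000000000000000) (nat_lit 0x0) (nat_lit 0x9000480000002000020001000000000000000000000000000000000000000000000000) := T_34 (nat_lit 279) (nat_lit 262) (nat_lit 4) (nat_lit 7) (nat_lit 16) L93683 (by decide +kernel)
theorem L93685 : W_34 (nat_lit 5) (nat_lit 0x24001e000c0000000200010001000080000000000000000000000000000000) (nat_lit 0x0) (nat_lit 0x9000480000002000038001000000000000000000000000000000000000000000000000) := T_34 (nat_lit 208) (nat_lit 207) (nat_lit 0) (nat_lit 7) (nat_lit 13) L93684 (by decide +kernel)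
theorem L93686 : W_34 (nat_lit 6) (nat_lit 0x4001e000c0000000200010001000080000000000000000000000000000000) (nat_lit 0x0) (nat_lit 0x9000480060002000038001000000000000000000000000000000000000000000000000) := T_34 (nat_lit 245) (nat_lit 246) (nat_lit 3) (nat_lit 4) (nat_lit 13) L93685 (by decide +kernel)
theorem L93687 : W_34 (nat_lit 7) (nat_lit 0x1e000c0000000200010001000080000000000000000000000000000000) (nat_lit 0x0) (nat_lit 0x9000480066002000038001000000000000000000000000000000000000000000000000) := T_34 (nat_lit 242) (nat_lit 241) (nat_lit 1) (nat_lit 7) (nat_lit 13) L93686 (by decide +kernel)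
theorem L93688 : W_34 (nat_lit 3) (nat_lit 0x400004001e000d0002000200010001000080000000000000000000000000000000) (nat_lit 0x0) (nat_lit 0x80000002000020001000080000000000000000000000000000000000000000000) := T_34 (nat_lit 209) (nat_lit 229) (nat_lit 3) (nat_lit 4) (nat_lit 12) L91984 (by decide +kernel)
theorem L93689 : W_34 (nat_lit 4) (nat_lit 0x400000001e000d0002000200010001000080000000000000000000000000000000) (nat_lit 0x0) (nat_lit 0x80006002000020001000080000000000000000000000000000000000000000000) := T_34 (nat_lit 242) (nat_lit 241) (nat_lit 1) (nat_lit 7) (nat_lit 13) L93688 (by decide +kernel)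
theorem L93690 : W_34 (nat_lit 5) (nat_lit 0x400000001e000c0002000200010001000080000000000000000000000000000000) (nat_lit 0x0) (nat_lit 0x80006002000038001000080000000000000000000000000000000000000000000) := T_34 (nat_lit 208) (nat_lit 207) (nat_lit 0) (nat_lit 7) (nat_lit 13) L93689 (by decide +kernel)
theorem L93691 : W_34 (nat_lit 6) (nat_lit 0x1e000c0002000200010001000080000000000000000000000000000000) (nat_lit 0x0) (nat_lit 0x480026002000038001000080000000000000000000000000000000000000000000) := T_34 (nat_lit 262) (nat_lit 245) (nat_lit 4) (nat_lit 7) (nat_lit 15) L93690 (by decide +kernel)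
theorem L93692 : W_34 (nat_lit 7) (nat_lit 0x1e000c0000000200010001000080000000000000000000000000000000) (nat_lit 0x0) (nat_lit 0x480026002000038003000180000000000000000000000000000000000000000000) := T_34 (nat_lit 193) (nat_lit 176) (nat_lit 6) (nat_lit 6) (nat_lit 13) L93691 (by decide +kernel)
theorem L93693 : W_34 (nat_lit 7) (nat_lit 0x1e000c0000000200010001000080000000000000000000000000000000) (nat_lit 0x0) (nat_lit 0x1c600e000038002000100000000000000000000000000000000000000000000) := T_34 (nat_lit 193) (nat_lit 176) (nat_lit 6) (nat_lit 6) (nat_lit 13) L93681 (by decide +kernel)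
theorem L93694 : W_34 (nat_lit 2) (nat_lit 0x200010000c000c0003400200010001000080000000000000000000000000000000) (nat_lit 0x0) (nat_lit 0x8000400020000000000000000000000000000000000000000000000000000000000000) := D_34 (nat_lit 262) (nat_lit 245) (nat_lit 279) (nat_lit 7) (nat_lit 6) (nat_lit 11) (nat_lit 7) (nat_lit 6) (nat_lit 12) (by decide +kernel)
theorem L93695 : W_34 (nat_lit 3) (nat_lit 0x10000c000c0003400200010001000080000000000000000000000000000000) (nat_lit 0x0) (nat_lit 0x8000600020000000020000000000000000000000000000000000000000000000000000) := T_34 (nat_lit 261) (nat_lit 209) (nat_lit 4) (nat_lit 6) (nat_lit 15) L93694 (by decide +kernel)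
theorem L93696 : W_34 (nat_lit 4) (nat_lit 0x10000c000c0003000200010001000080000000000000000000000000000000) (nat_lit 0x0) (nat_lit 0x8000600020000000020000c00000000000000000000000000000000000000000000000) := T_34 (nat_lit 190) (nat_lit 191) (nat_lit 3) (nat_lit 3) (nat_lit 11) L93695 (by decide +kernel)
theorem L93697 : W_34 (nat_lit 5) (nat_lit 0x10000c000c0002000200010001000080000000000000000000000000000000) (nat_lit 0x0) (nat_lit 0x8000600020000000020001c00080000000000000000000000000000000000000000000) := T_34 (nat_lit 192) (nat_lit 175) (nat_lit 4) (nat_lit 6) (nat_lit 14) L93696 (by decide +kernel)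
theorem L93698 : W_34 (nat_lit 8) (nat_lit 0xe000c0000000200010001000080000000000000000000000000000000) (nat_lit 0x0) (nat_lit 0x90004801e600f000038003000180000000000000000000000000000000000000000000) := Q_34 (nat_lit 228) (C_34 L93687 (C_34 L91508 (C_34 L93693 (C_34 L93692 N_34)))) (by decide +kernel)
theorem L93699 : W_34 (nat_lit 9) (nat_lit 0xc000c0000000200010001000080000000000000000000000000000000) (nat_lit 0x0) (nat_lit 0x90004801e600f300038003000180000000000000000000000000000000000000000000) := T_34 (nat_lit 225) (nat_lit 224) (nat_lit 2) (nat_lit 3) (nat_lit 13) L93698 (by decide +kernel)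
theorem L93700 : W_34 (nat_lit 2) (nat_lit 0xe000f00028002c0010001000080000000000000000000000000000000) (nat_lit 0x0) (nat_lit 0x14000000000001000000000000000000000000000000000000000000000000) := D_34 (nat_lit 192) (nat_lit 242) (nat_lit 244) (nat_lit 6) (nat_lit 4) (nat_lit 14) (nat_lit 7) (nat_lit 5) (nat_lit 10) (by decide +kernel)
theorem L93701 : W_34 (nat_lit 3) (nat_lit 0xe000f0002800240010001000080000000000000000000000000000000) (nat_lit 0x0) (nat_lit 0x14000000000001000080004000000000000000000000000000000000000000) := T_34 (nat_lit 175) (nat_lit 158) (nat_lit 6) (nat_lit 4) (nat_lit 13) L93700 (by decide +kernel)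
theorem L93702 : W_34 (nat_lit 4) (nat_lit 0xe000f0002800200010001000080000000000000000000000000000000) (nat_lit 0x0) (nat_lit 0x140000000000010000c0006000000000000000000000000000000000000000) := T_34 (nat_lit 174) (nat_lit 157) (nat_lit 7) (nat_lit 4) (nat_lit 9) L93701 (by decide +kernel)
theorem L93703 : W_34 (nat_lit 5) (nat_lit 0xe000f0002000200010001000080000000000000000000000000000000) (nat_lit 0x0) (nat_lit 0x14000000000001c000c0006000000000000000000000000000000000000000) := T_34 (nat_lit 191) (nat_lit 190) (nat_lit 0) (nat_lit 7) (nat_lit 12) L93702 (by decide +kernel)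
theorem L93704 : W_34 (nat_lit 6) (nat_lit 0xc000f0002000200010001000080000000000000000000000000000000) (nat_lit 0x0) (nat_lit 0x14000300000001c000c0006000000000000000000000000000000000000000) := T_34 (nat_lit 225) (nat_lit 224) (nat_lit 2) (nat_lit 3) (nat_lit 13) L93703 (by decide +kernel)
theorem L93705 : W_34 (nat_lit 7) (nat_lit 0xc000f0000000200010001000080000000000000000000000000000000) (nat_lit 0x0) (nat_lit 0x14000300000003c001c0006000000000000000000000000000000000000000) := T_34 (nat_lit 193) (nat_lit 176) (nat_lit 6) (nat_lit 6) (nat_lit 13) L93704 (by decide +kernel)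
theorem L93706 : W_34 (nat_lit 8) (nat_lit 0xc000e0000000200010001000080000000000000000000000000000000) (nat_lit 0x0) (nat_lit 0x1400038001c003e001c0006000000000000000000000000000000000000000) := Q_34 (nat_lit 208) (C_34 L91373 (C_34 L91226 (C_34 L93705 N_34))) (by decide +kernel)
theorem L93707 : W_34 (nat_lit 11) (nat_lit 0xc000c0000000200010001000080000000000000000000000000000000) (nat_lit 0x0) (nat_lit 0xe0007800ff00038003c003e001c0006000000000000000000000000000000000000000) := Q_34 (nat_lit 209) (C_34 L91374 (C_34 L91399 (C_34 L91395 (C_34 L93706 N_34)))) (by decide +kernel)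
theorem L93708 : W_34 (nat_lit 2) (nat_lit 0x8007d000c0002000200010001000080000000000000000000000000000000) (nat_lit 0x0) (nat_lit 0x1c0000000000000000000000000000000000000000000000000000000000000) := D_34 (nat_lit 247) (nat_lit 246) (nat_lit 248) (nat_lit 3) (nat_lit 5) (nat_lit 13) (nat_lit 3) (nat_lit 6) (nat_lit 13) (by decide +kernel)
theorem L93709 : W_34 (nat_lit 3) (nat_lit 0x8003d000c0002000200010001000080000000000000000000000000000000) (nat_lit 0x0) (nat_lit 0x1c000c000000000000000000000000000000000000000000000000000000000) := T_34 (nat_lit 230) (nat_lit 231) (nat_lit 0) (nat_lit 10) (nat_lit 13) L93708 (by decide +kernel)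
theorem L93710 : W_34 (nat_lit 4) (nat_lit 0x8001d000c0002000200010001000080000000000000000000000000000000) (nat_lit 0x0) (nat_lit 0x1c400e000000000000000000000000000000000000000000000000000000000) := T_34 (nat_lit 229) (nat_lit 242) (nat_lit 1) (nat_lit 8) (nat_lit 13) L93709 (by decide +kernel)
theorem L93711 : W_34 (nat_lit 5) (nat_lit 0x8001d000c0000000200010001000080000000000000000000000000000000) (nat_lit 0x0) (nat_lit 0x1c400e000000002000100000000000000000000000000000000000000000000) := T_34 (nat_lit 193) (nat_lit 176) (nat_lit 6) (nat_lit 6) (nat_lit 13) L93710 (by decide +kernel)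
theorem L93712 : W_34 (nat_lit 6) (nat_lit 0x8001c000c0000000200010001000080000000000000000000000000000000) (nat_lit 0x0) (nat_lit 0x1c400e300000002000100000000000000000000000000000000000000000000) := T_34 (nat_lit 224) (nat_lit 225) (nat_lit 2) (nat_lit 3) (nat_lit 13) L93711 (by decide +kernel)
theorem L93713 : W_34 (nat_lit 9) (nat_lit 0x8000c000c0000000200010001000080000000000000000000000000000000) (nat_lit 0x0) (nat_lit 0x20005001e600f300018003c001c0000000000000000000000000000000000000000000) := Q_34 (nat_lit 228) (C_34 L91845 (C_34 L91816 (C_34 L93712 (C_34 L91842 (C_34 L91832 N_34))))) (by decide +kernel)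
theorem L93714 : W_34 (nat_lit 10) (nat_lit 0xc000c0000000200010001000080000000000000000000000000000000) (nat_lit 0x0) (nat_lit 0x1a000d001fe00f300018003c001c0000000000000000000000000000000000000000000) := Q_34 (nat_lit 243) (C_34 L91826 (C_34 L92106 (C_34 L91801 (C_34 L93713 N_34)))) (by decide +kernel)
theorem L93715 : W_34 (nat_lit 9) (nat_lit 0xc000c0000000200010001000080000000000000000000000000000000) (nat_lit 0x0) (nat_lit 0x18001e00338003c003e001c0006000000000000000000000000000000000000000) := Q_34 (nat_lit 209) (C_34 L91374 (C_34 L93706 (C_34 L91322 (C_34 L91399 N_34)))) (by decide +kernel)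
theorem L93716 : W_34 (nat_lit 2) (nat_lit 0x180008000c000e0001000200010001000080000000000000000000000000000000) (nat_lit 0x0) (nat_lit 0x10000800040000000000000000000000000000000000000000000) := D_34 (nat_lit 191) (nat_lit 174) (nat_lit 208) (nat_lit 4) (nat_lit 5) (nat_lit 14) (nat_lit 4) (nat_lit 5) (nat_lit 15) (by decide +kernel)
theorem L93717 : W_34 (nat_lit 3) (nat_lit 0x180008000c000e0000000200010001000080000000000000000000000000000000) (nat_lit 0x0) (nat_lit 0x4000000010001800040000000000000000000000000000000000000000000) := T_34 (nat_lit 192) (nat_lit 242) (nat_lit 5) (nat_lit 5) (nat_lit 11) L93716 (by decide +kernel)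
theorem L93718 : W_34 (nat_lit 4) (nat_lit 0x100008000c000e0000000200010001000080000000000000000000000000000000) (nat_lit 0x0) (nat_lit 0x1000080004000000010001800040000000000000000000000000000000000000000000) := T_34 (nat_lit 259) (nat_lit 276) (nat_lit 5) (nat_lit 5) (nat_lit 12) L93717 (by decide +kernel)
theorem L93719 : W_34 (nat_lit 5) (nat_lit 0x8000c000e0000000200010001000080000000000000000000000000000000) (nat_lit 0x0) (nat_lit 0x3000180004000000010001800040000000000000000000000000000000000000000000) := T_34 (nat_lit 260) (nat_lit 277) (nat_lit 6) (nat_lit 5) (nat_lit 16) L93718 (by decide +kernel)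
theorem L93720 : W_34 (nat_lit 2) (nat_lit 0x200024001e000c000c0000000200010001000080000000000000000000000000000000) (nat_lit 0x0) (nat_lit 0x4000000000000000020001000000000000000000000000000000000000000000000000) := D_34 (nat_lit 209) (nat_lit 192) (nat_lit 278) (nat_lit 7) (nat_lit 5) (nat_lit 11) (nat_lit 4) (nat_lit 6) (nat_lit 16) (by decide +kernel)
theorem L93721 : W_34 (nat_lit 3) (nat_lit 0x200004001e000c000c0000000200010001000080000000000000000000000000000000) (nat_lit 0x0) (nat_lit 0x4000600000000000020001000000000000000000000000000000000000000000000000) := T_34 (nat_lit 261) (nat_lit 262) (nat_lit 3) (nat_lit 3) (nat_lit 14) L93720 (by decide +kernel)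
theorem L93722 : W_34 (nat_lit 4) (nat_lit 0x200000001e000c000c0000000200010001000080000000000000000000000000000000) (nat_lit 0x0) (nat_lit 0x4000660000000000020001000000000000000000000000000000000000000000000000) := T_34 (nat_lit 258) (nat_lit 257) (nat_lit 1) (nat_lit 6) (nat_lit 14) L93721 (by decide +kernel)
theorem L93723 : W_34 (nat_lit 5) (nat_lit 0x200000000e000c000c0000000200010001000080000000000000000000000000000000) (nat_lit 0x0) (nat_lit 0x4000660010001000020001000000000000000000000000000000000000000000000000) := T_34 (nat_lit 244) (nat_lit 228) (nat_lit 2) (nat_lit 3) (nat_lit 14) L93722 (by decide +kernel)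
theorem L93724 : W_34 (nat_lit 6) (nat_lit 0x200000000c000c000c0000000200010001000080000000000000000000000000000000) (nat_lit 0x0) (nat_lit 0x4000660013001000020001000000000000000000000000000000000000000000000000) := T_34 (nat_lit 241) (nat_lit 240) (nat_lit 2) (nat_lit 2) (nat_lit 14) L93723 (by decide +kernel)
theorem L93725 : W_34 (nat_lit 7) (nat_lit 0xc000c000c0000000200010001000080000000000000000000000000000000) (nat_lit 0x0) (nat_lit 0x6000760013001000020001000000000000000000000000000000000000000000000000) := T_34 (nat_lit 277) (nat_lit 260) (nat_lit 6) (nat_lit 5) (nat_lit 16) L93724 (by decide +kernel)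
theorem L93726 : W_34 (nat_lit 2) (nat_lit 0x800078002c000c0003400200010001000080000000000000000000000000000000) (nat_lit 0x0) (nat_lit 0x10000000004001000000000000000000000000000000000000000000000000000000000) := D_34 (nat_lit 228) (nat_lit 242) (nat_lit 280) (nat_lit 2) (nat_lit 4) (nat_lit 14) (nat_lit 4) (nat_lit 8) (nat_lit 16) (by decide +kernel)
theorem L93727 : W_34 (nat_lit 3) (nat_lit 0x800078000c000c0003400200010001000080000000000000000000000000000000) (nat_lit 0x0) (nat_lit 0x10000000004007000000000000000000000000000000000000000000000000000000000) := T_34 (nat_lit 229) (nat_lit 230) (nat_lit 2) (nat_lit 5) (nat_lit 14) L93726 (by decide +kernel)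
theorem L93728 : W_34 (nat_lit 4) (nat_lit 0x78000c000c0003400200010001000080000000000000000000000000000000) (nat_lit 0x0) (nat_lit 0x10001800004007000000000000000000000000000000000000000000000000000000000) := T_34 (nat_lit 263) (nat_lit 264) (nat_lit 3) (nat_lit 5) (nat_lit 14) L93727 (by decide +kernel)
theorem L93729 : W_34 (nat_lit 5) (nat_lit 0x70000c000c0003400200010001000080000000000000000000000000000000) (nat_lit 0x0) (nat_lit 0x1000190000c007000000000000000000000000000000000000000000000000000000000) := T_34 (nat_lit 243) (nat_lit 260) (nat_lit 5) (nat_lit 6) (nat_lit 11) L93728 (by decide +kernel)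
theorem L93730 : W_34 (nat_lit 6) (nat_lit 0x30000c000c0003400200010001000080000000000000000000000000000000) (nat_lit 0x0) (nat_lit 0x100019000cc007000000000000000000000000000000000000000000000000000000000) := T_34 (nat_lit 246) (nat_lit 247) (nat_lit 0) (nat_lit 9) (nat_lit 14) L93729 (by decide +kernel)
theorem L93731 : W_34 (nat_lit 7) (nat_lit 0x10000c000c0003400200010001000080000000000000000000000000000000) (nat_lit 0x0) (nat_lit 0x10001d000ec007000000000000000000000000000000000000000000000000000000000) := T_34 (nat_lit 245) (nat_lit 262) (nat_lit 7) (nat_lit 6) (nat_lit 11) L93730 (by decide +kernel)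
theorem L93732 : W_34 (nat_lit 8) (nat_lit 0x10000c000c0003000200010001000080000000000000000000000000000000) (nat_lit 0x0) (nat_lit 0x10001d000ec007000000000c00000000000000000000000000000000000000000000000) := T_34 (nat_lit 190) (nat_lit 191) (nat_lit 3) (nat_lit 3) (nat_lit 11) L93731 (by decide +kernel)
theorem L93733 : W_34 (nat_lit 9) (nat_lit 0x10000c000c0002000200010001000080000000000000000000000000000000) (nat_lit 0x0) (nat_lit 0x10001d000ec007000000001c00080000000000000000000000000000000000000000000) := T_34 (nat_lit 192) (nat_lit 175) (nat_lit 4) (nat_lit 6) (nat_lit 14) L93732 (by decide +kernel)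
theorem L93734 : W_34 (nat_lit 10) (nat_lit 0xc000c0002000200010001000080000000000000000000000000000000) (nat_lit 0x0) (nat_lit 0x1a001f800ff007000020001c00080000000000000000000000000000000000000000000) := Q_34 (nat_lit 244) (C_34 L92085 (C_34 L93697 (C_34 L92092 (C_34 L93733 N_34)))) (by decide +kernel)
theorem L93735 : W_34 (nat_lit 11) (nat_lit 0xc000c0000000200010001000080000000000000000000000000000000) (nat_lit 0x0) (nat_lit 0x1a001f800ff007000020003c00180000000000000000000000000000000000000000000) := T_34 (nat_lit 193) (nat_lit 176) (nat_lit 6) (nat_lit 6) (nat_lit 13) L93734 (by decide +kernel)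
theorem L93736 : W_34 (nat_lit 7) (nat_lit 0xc000c0000000200010001000080000000000000000000000000000000) (nat_lit 0x0) (nat_lit 0x800050007800738003c003e001c0006000000000000000000000000000000000000000) := Q_34 (nat_lit 209) (C_34 L91256 (C_34 L91374 (C_34 L91399 N_34))) (by decide +kernel)
theorem L93737 : W_34 (nat_lit 13) (nat_lit 0x8000c0000000200010001000080000000000000000000000000000000) (nat_lit 0x0) (nat_lit 0x1f003fe01ff00f78003c003e001c0006000000000000000000000000000000000000000) := Q_34 (nat_lit 226) (C_34 L93699 (C_34 L91355 (C_34 L93707 (C_34 L92125 (C_34 L93714 (C_34 L93715 (C_34 L92122 (C_34 L93735 (C_34 L93736 N_34))))))))) (by decide +kernel)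
theorem L93738 : W_34 (nat_lit 2) (nat_lit 0x28001e0001000280010001000080000000000000000000000000000000) (nat_lit 0x0) (nat_lit 0x200010000400000000000000000000000000000000000000000000000000000000) := D_34 (nat_lit 244) (nat_lit 261) (nat_lit 226) (nat_lit 4) (nat_lit 6) (nat_lit 15) (nat_lit 7) (nat_lit 5) (nat_lit 10) (by decide +kernel)
theorem L93739 : W_34 (nat_lit 3) (nat_lit 0x28001e0001000200010001000080000000000000000000000000000000) (nat_lit 0x0) (nat_lit 0x200010000400000000000080004000000000000000000000000000000000000000) := T_34 (nat_lit 175) (nat_lit 158) (nat_lit 7) (nat_lit 5) (nat_lit 9) L93738 (by decide +kernel)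
theorem L93740 : W_34 (nat_lit 4) (nat_lit 0x8001e0001000200010001000080000000000000000000000000000000) (nat_lit 0x0) (nat_lit 0x200010006400000000000080004000000000000000000000000000000000000000) := T_34 (nat_lit 229) (nat_lit 230) (nat_lit 3) (nat_lit 5) (nat_lit 12) L93739 (by decide +kernel)
theorem L93741 : W_34 (nat_lit 9) (nat_lit 0x8001e0000000200010001000080000000000000000000000000000000) (nat_lit 0x0) (nat_lit 0x70003c00670001001b00018000c000000000000000000000000000000000000000) := Q_34 (nat_lit 192) (C_34 L91463 (C_34 L91473 (C_34 L93740 (C_34 L91460 N_34)))) (by decide +kernel)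
theorem L93742 : W_34 (nat_lit 10) (nat_lit 0x8001c0000000200010001000080000000000000000000000000000000) (nat_lit 0x0) (nat_lit 0x70003c0067c003c01be0018000c000000000000000000000000000000000000000) := Q_34 (nat_lit 209) (C_34 L92867 (C_34 L92883 (C_34 L91453 (C_34 L93741 N_34)))) (by decide +kernel)
theorem L93743 : W_34 (nat_lit 11) (nat_lit 0x8000c0000000200010001000080000000000000000000000000000000) (nat_lit 0x0) (nat_lit 0x70003c00e7c033c03be0018000c000000000000000000000000000000000000000) := Q_34 (nat_lit 212) (C_34 L93742 (C_34 L91411 (C_34 L91415 (C_34 L91485 N_34)))) (by decide +kernel)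
theorem L93744 : W_34 (nat_lit 13) (nat_lit 0x8000c0000000200010001000080000000000000000000000000000000) (nat_lit 0x0) (nat_lit 0x1e001fc00ff00178033c01be001c0006000000000000000000000000000000000000000) := Q_34 (nat_lit 226) (C_34 L91299 (C_34 L93707 (C_34 L92104 N_34))) (by decide +kernel)
theorem L93745 : W_34 (nat_lit 2) (nat_lit 0xa003f0012000200010001000080000000000000000000000000000000) (nat_lit 0x0) (nat_lit 0xe000000000000000000000000000000000000000000000000000000000) := D_34 (nat_lit 230) (nat_lit 229) (nat_lit 231) (nat_lit 3) (nat_lit 5) (nat_lit 12) (nat_lit 3) (nat_lit 6) (nat_lit 12) (by decide +kernel)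
theorem L93746 : W_34 (nat_lit 3) (nat_lit 0xa001f0012000200010001000080000000000000000000000000000000) (nat_lit 0x0) (nat_lit 0xe000200020000000000000000000000000000000000000000000000000) := T_34 (nat_lit 213) (nat_lit 197) (nat_lit 2) (nat_lit 6) (nat_lit 12) L93745 (by decide +kernel)
theorem L93747 : W_34 (nat_lit 4) (nat_lit 0x8001f0012000200010001000080000000000000000000000000000000) (nat_lit 0x0) (nat_lit 0xe300200020000000000000000000000000000000000000000000000000) := T_34 (nat_lit 225) (nat_lit 224) (nat_lit 1) (nat_lit 7) (nat_lit 12) L93746 (by decide +kernel)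
theorem L93748 : W_34 (nat_lit 5) (nat_lit 0x8001f0002000200010001000080000000000000000000000000000000) (nat_lit 0x0) (nat_lit 0xe300200038000000000000000000000000000000000000000000000000) := T_34 (nat_lit 196) (nat_lit 195) (nat_lit 2) (nat_lit 5) (nat_lit 12) L93747 (by decide +kernel)
theorem L93749 : W_34 (nat_lit 6) (nat_lit 0x8001f0000000200010001000080000000000000000000000000000000) (nat_lit 0x0) (nat_lit 0xe30020003a000100000000000000000000000000000000000000000000) := T_34 (nat_lit 193) (nat_lit 176) (nat_lit 6) (nat_lit 6) (nat_lit 13) L93748 (by decide +kernel)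
theorem L93750 : W_34 (nat_lit 2) (nat_lit 0xa007f0012800200010001000080000000000000000000000000000000) (nat_lit 0x0) (nat_lit 0x1c000000000000000000000000000000000000000000000000000000000) := D_34 (nat_lit 231) (nat_lit 230) (nat_lit 232) (nat_lit 3) (nat_lit 6) (nat_lit 12) (nat_lit 3) (nat_lit 7) (nat_lit 12) (by decide +kernel)
theorem L93751 : W_34 (nat_lit 3) (nat_lit 0xa003f0012800200010001000080000000000000000000000000000000) (nat_lit 0x0) (nat_lit 0x1d000400000000000000000000000000000000000000000000000000000) := T_34 (nat_lit 214) (nat_lit 228) (nat_lit 1) (nat_lit 10) (nat_lit 12) L93750 (by decide +kernel)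
theorem L93752 : W_34 (nat_lit 4) (nat_lit 0xa001f0012800200010001000080000000000000000000000000000000) (nat_lit 0x0) (nat_lit 0x1d000600020000000000000000000000000000000000000000000000000) := T_34 (nat_lit 213) (nat_lit 197) (nat_lit 2) (nat_lit 6) (nat_lit 12) L93751 (by decide +kernel)
theorem L93753 : W_34 (nat_lit 5) (nat_lit 0xa001f0012000200010001000080000000000000000000000000000000) (nat_lit 0x0) (nat_lit 0x1d000600020c00000000000000000000000000000000000000000000000) := T_34 (nat_lit 191) (nat_lit 190) (nat_lit 0) (nat_lit 7) (nat_lit 12) L93752 (by decide +kernel)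
theorem L93754 : W_34 (nat_lit 6) (nat_lit 0xa001f0002000200010001000080000000000000000000000000000000) (nat_lit 0x0) (nat_lit 0x1d000600038c00000000000000000000000000000000000000000000000) := T_34 (nat_lit 196) (nat_lit 195) (nat_lit 2) (nat_lit 5) (nat_lit 12) L93753 (by decide +kernel)
theorem L93755 : W_34 (nat_lit 7) (nat_lit 0x8001f0002000200010001000080000000000000000000000000000000) (nat_lit 0x0) (nat_lit 0x1d300600038c00000000000000000000000000000000000000000000000) := T_34 (nat_lit 225) (nat_lit 224) (nat_lit 1) (nat_lit 7) (nat_lit 12) L93754 (by decide +kernel)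
theorem L93756 : W_34 (nat_lit 8) (nat_lit 0x8001f0000000200010001000080000000000000000000000000000000) (nat_lit 0x0) (nat_lit 0x1d30060003ac00100000000000000000000000000000000000000000000) := T_34 (nat_lit 193) (nat_lit 176) (nat_lit 6) (nat_lit 6) (nat_lit 13) L93755 (by decide +kernel)
theorem L93757 : W_34 (nat_lit 9) (nat_lit 0x8000f0000000200010001000080000000000000000000000000000000) (nat_lit 0x0) (nat_lit 0x1f30070003ac00100000000000000000000000000000000000000000000) := Q_34 (nat_lit 212) (C_34 L93081 (C_34 L93749 (C_34 L93066 (C_34 L93756 N_34)))) (by decide +kernel)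
theorem L93758 : W_34 (nat_lit 10) (nat_lit 0x8000e0000000200010001000080000000000000000000000000000000) (nat_lit 0x0) (nat_lit 0x1f38071803ae00100000000000000000000000000000000000000000000) := Q_34 (nat_lit 208) (C_34 L92160 (C_34 L92151 (C_34 L91965 (C_34 L93757 N_34)))) (by decide +kernel)
theorem L93759 : W_34 (nat_lit 11) (nat_lit 0x8000c0000000200010001000080000000000000000000000000000000) (nat_lit 0x0) (nat_lit 0x60007c003e01f38073803be00180004000000000000000000000000000000000000000) := Q_34 (nat_lit 209) (C_34 L92152 (C_34 L92228 (C_34 L92221 (C_34 L93758 (C_34 L92153 N_34))))) (by decide +kernel)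
theorem L93760 : W_34 (nat_lit 2) (nat_lit 0x10000380048003c002e0000000200010001000080000000000000000000000000000000) (nat_lit 0x0) (nat_lit 0x8000400020000000000000000000000000000000000000000000000000000000000000) := D_34 (nat_lit 262) (nat_lit 279) (nat_lit 245) (nat_lit 3) (nat_lit 4) (nat_lit 15) (nat_lit 2) (nat_lit 4) (nat_lit 15) (by decide +kernel)
theorem L93761 : W_34 (nat_lit 3) (nat_lit 0x10000180048003c002e0000000200010001000080000000000000000000000000000000) (nat_lit 0x0) (nat_lit 0xc000600020000000000000000000000000000000000000000000000000000000000000) := T_34 (nat_lit 261) (nat_lit 278) (nat_lit 7) (nat_lit 5) (nat_lit 12) L93760 (by decide +kernel)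
theorem L93762 : W_34 (nat_lit 4) (nat_lit 0x10000100048003c002e0000000200010001000080000000000000000000000000000000) (nat_lit 0x0) (nat_lit 0xd000680020000000000000000000000000000000000000000000000000000000000000) := T_34 (nat_lit 259) (nat_lit 276) (nat_lit 5) (nat_lit 5) (nat_lit 12) L93761 (by decide +kernel)
theorem L93763 : W_34 (nat_lit 5) (nat_lit 0x10000000048003c002e0000000200010001000080000000000000000000000000000000) (nat_lit 0x0) (nat_lit 0xf000780020000000000000000000000000000000000000000000000000000000000000) := T_34 (nat_lit 260) (nat_lit 277) (nat_lit 6) (nat_lit 5) (nat_lit 16) L93762 (by decide +kernel)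
theorem L93764 : W_34 (nat_lit 6) (nat_lit 0x48003c002e0000000200010001000080000000000000000000000000000000) (nat_lit 0x0) (nat_lit 0x1f000f80020000000000000000000000000000000000000000000000000000000000000) := T_34 (nat_lit 280) (nat_lit 263) (nat_lit 4) (nat_lit 8) (nat_lit 16) L93763 (by decide +kernel)
theorem L93765 : W_34 (nat_lit 7) (nat_lit 0x40003c002e0000000200010001000080000000000000000000000000000000) (nat_lit 0x0) (nat_lit 0x1f000f8002c000000000000000000000000000000000000000000000000000000000000) := T_34 (nat_lit 243) (nat_lit 242) (nat_lit 1) (nat_lit 8) (nat_lit 13) L93764 (by decide +kernel)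
theorem L93766 : W_34 (nat_lit 8) (nat_lit 0x3c002e0000000200010001000080000000000000000000000000000000) (nat_lit 0x0) (nat_lit 0x1f000f800ec000000000000000000000000000000000000000000000000000000000000) := T_34 (nat_lit 246) (nat_lit 247) (nat_lit 3) (nat_lit 5) (nat_lit 13) L93765 (by decide +kernel)
theorem L93767 : W_34 (nat_lit 9) (nat_lit 0x3c002c0000000200010001000080000000000000000000000000000000) (nat_lit 0x0) (nat_lit 0x1f000f800ec000000030000000000000000000000000000000000000000000000000000) := T_34 (nat_lit 209) (nat_lit 208) (nat_lit 3) (nat_lit 4) (nat_lit 12) L93766 (by decide +kernel)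
theorem L93768 : W_34 (nat_lit 10) (nat_lit 0x3c000c0000000200010001000080000000000000000000000000000000) (nat_lit 0x0) (nat_lit 0x1f000f800ec000000330000000000000000000000000000000000000000000000000000) := T_34 (nat_lit 213) (nat_lit 212) (nat_lit 2) (nat_lit 5) (nat_lit 13) L93767 (by decide +kernel)
theorem L93769 : W_34 (nat_lit 2) (nat_lit 0x12000000048003c001e0001000200010001000080000000000000000000000000000000) (nat_lit 0x0) (nat_lit 0x10000000000000000080004000000000000000000000000000000000000000) := D_34 (nat_lit 175) (nat_lit 244) (nat_lit 158) (nat_lit 7) (nat_lit 5) (nat_lit 10) (nat_lit 7) (nat_lit 5) (nat_lit 9) (by decide +kernel)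
theorem L93770 : W_34 (nat_lit 3) (nat_lit 0x12000000048003c001e0000000200010001000080000000000000000000000000000000) (nat_lit 0x0) (nat_lit 0x10000000000001800080004000000000000000000000000000000000000000) := T_34 (nat_lit 192) (nat_lit 191) (nat_lit 0) (nat_lit 8) (nat_lit 12) L93769 (by decide +kernel)
theorem L93771 : W_34 (nat_lit 4) (nat_lit 0x12000000048003c001c0000000200010001000080000000000000000000000000000000) (nat_lit 0x0) (nat_lit 0x10000000030001800080004000000000000000000000000000000000000000) := T_34 (nat_lit 209) (nat_lit 208) (nat_lit 3) (nat_lit 4) (nat_lit 12) L93770 (by decide +kernel)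
theorem L93772 : W_34 (nat_lit 5) (nat_lit 0x12000000048003c000c0000000200010001000080000000000000000000000000000000) (nat_lit 0x0) (nat_lit 0x10000000330001800080004000000000000000000000000000000000000000) := T_34 (nat_lit 212) (nat_lit 213) (nat_lit 2) (nat_lit 5) (nat_lit 13) L93771 (by decide +kernel)
theorem L93773 : W_34 (nat_lit 6) (nat_lit 0x2000000048003c000c0000000200010001000080000000000000000000000000000000) (nat_lit 0x0) (nat_lit 0x10000800010000000330001800080004000000000000000000000000000000000000000) := T_34 (nat_lit 280) (nat_lit 263) (nat_lit 4) (nat_lit 8) (nat_lit 16) L93772 (by decide +kernel)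
theorem L93774 : W_34 (nat_lit 7) (nat_lit 0x48003c000c0000000200010001000080000000000000000000000000000000) (nat_lit 0x0) (nat_lit 0x12000900010000000330001800080004000000000000000000000000000000000000000) := T_34 (nat_lit 277) (nat_lit 260) (nat_lit 6) (nat_lit 5) (nat_lit 16) L93773 (by decide +kernel)
theorem L93775 : W_34 (nat_lit 8) (nat_lit 0x8003c000c0000000200010001000080000000000000000000000000000000) (nat_lit 0x0) (nat_lit 0x120009000d0000000330001800080004000000000000000000000000000000000000000) := T_34 (nat_lit 246) (nat_lit 247) (nat_lit 3) (nat_lit 5) (nat_lit 13) L93774 (by decide +kernel)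
theorem L93776 : W_34 (nat_lit 9) (nat_lit 0x3c000c0000000200010001000080000000000000000000000000000000) (nat_lit 0x0) (nat_lit 0x120009000dc000000330001800080004000000000000000000000000000000000000000) := T_34 (nat_lit 243) (nat_lit 242) (nat_lit 1) (nat_lit 8) (nat_lit 13) L93775 (by decide +kernel)
theorem L93777 : W_34 (nat_lit 11) (nat_lit 0x38000c0000000200010001000080000000000000000000000000000000) (nat_lit 0x0) (nat_lit 0x3f001f800fc0004003300198000c0006000000000000000000000000000000000000000) := Q_34 (nat_lit 226) (C_34 L91522 (C_34 L92264 (C_34 L91863 (C_34 L93768 (C_34 L92247 (C_34 L93776 N_34)))))) (by decide +kernel)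
theorem L93778 : W_34 (nat_lit 12) (nat_lit 0x18000c0000000200010001000080000000000000000000000000000000) (nat_lit 0x0) (nat_lit 0x3f001f801fc00e4007300198000c0006000000000000000000000000000000000000000) := Q_34 (nat_lit 229) (C_34 L92138 (C_34 L91601 (C_34 L93777 N_34))) (by decide +kernel)
theorem L93779 : W_34 (nat_lit 11) (nat_lit 0x38000c0000000200010001000080000000000000000000000000000000) (nat_lit 0x0) (nat_lit 0x1f000f800ec000400330002000100000000000000000000000000000000000000000000) := Q_34 (nat_lit 226) (C_34 L91566 (C_34 L93768 (C_34 L91951 N_34))) (by decide +kernel)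
theorem L93780 : W_34 (nat_lit 12) (nat_lit 0x18000c0000000200010001000080000000000000000000000000000000) (nat_lit 0x0) (nat_lit 0x1f000f801ec00e400730012000100000000000000000000000000000000000000000000) := Q_34 (nat_lit 229) (C_34 L93678 (C_34 L91601 (C_34 L93779 N_34))) (by decide +kernel)
theorem L93781 : W_34 (nat_lit 13) (nat_lit 0x8000c0000000200010001000080000000000000000000000000000000) (nat_lit 0x0) (nat_lit 0x3f003fc01fe00f40073003bc009c0046000000000000000000000000000000000000000) := Q_34 (nat_lit 228) (C_34 L93778 (C_34 L91942 (C_34 L92270 (C_34 L92278 (C_34 L93780 (C_34 L91768 (C_34 L92290 N_34))))))) (by decide +kernel)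
theorem L93782 : W_34 (nat_lit 14) (nat_lit 0xc0000000200010001000080000000000000000000000000000000) (nat_lit 0x0) (nat_lit 0x3f003fe01ff01ffc073c03be009c004e000000000000000000000000000000000000000) := Q_34 (nat_lit 227) (C_34 L93737 (C_34 L91356 (C_34 L93743 (C_34 L91954 (C_34 L91600 (C_34 L92299 (C_34 L92029 (C_34 L93744 (C_34 L92123 (C_34 L92130 (C_34 L93759 (C_34 L93781 N_34)))))))))))) (by decide +kernel)
theorem L93783 : W_34 (nat_lit 2) (nat_lit 0x4001e000b000200010001000080000000000000000000000000000000) (nat_lit 0x0) (nat_lit 0x8000000000000000100008000000000000000000000000000000000000000) := D_34 (nat_lit 176) (nat_lit 159) (nat_lit 243) (nat_lit 5) (nat_lit 6) (nat_lit 9) (nat_lit 6) (nat_lit 5) (nat_lit 14) (by decide +kernel)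
theorem L93784 : W_34 (nat_lit 3) (nat_lit 0x4001e0009000200010001000080000000000000000000000000000000) (nat_lit 0x0) (nat_lit 0x8000000200002000100008000000000000000000000000000000000000000) := T_34 (nat_lit 193) (nat_lit 213) (nat_lit 0) (nat_lit 9) (nat_lit 12) L93783 (by decide +kernel)
theorem L93785 : W_34 (nat_lit 4) (nat_lit 0x1e0009000200010001000080000000000000000000000000000000) (nat_lit 0x0) (nat_lit 0x8000600200002000100008000000000000000000000000000000000000000) := T_34 (nat_lit 226) (nat_lit 225) (nat_lit 1) (nat_lit 8) (nat_lit 12) L93784 (by decide +kernel)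
theorem L93786 : W_34 (nat_lit 5) (nat_lit 0x1e0008000200010001000080000000000000000000000000000000) (nat_lit 0x0) (nat_lit 0x8000600200003800100008000000000000000000000000000000000000000) := T_34 (nat_lit 192) (nat_lit 191) (nat_lit 0) (nat_lit 8) (nat_lit 12) L93785 (by decide +kernel)
theorem L93787 : W_34 (nat_lit 6) (nat_lit 0x1e0000000200010001000080000000000000000000000000000000) (nat_lit 0x0) (nat_lit 0x800060020001b800100008000000000000000000000000000000000000000) := T_34 (nat_lit 195) (nat_lit 196) (nat_lit 2) (nat_lit 5) (nat_lit 12) L93786 (by decide +kernel)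
theorem L93788 : W_34 (nat_lit 7) (nat_lit 0xe0000000200010001000080000000000000000000000000000000) (nat_lit 0x0) (nat_lit 0x800770031001bc00100008000000000000000000000000000000000000000) := Q_34 (nat_lit 212) (C_34 L92692 (C_34 L92511 (C_34 L92360 (C_34 L93787 N_34)))) (by decide +kernel)
theorem L93789 : W_34 (nat_lit 2) (nat_lit 0x22000f0000000200010001000080000000000000000000000000000000) (nat_lit 0x0) (nat_lit 0x4400100000000000000000000000000000000000000000000000000000) := D_34 (nat_lit 212) (nat_lit 230) (nat_lit 226) (nat_lit 3) (nat_lit 5) (nat_lit 12) (nat_lit 1) (nat_lit 8) (nat_lit 12) (by decide +kernel)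
theorem L93790 : W_34 (nat_lit 3) (nat_lit 0x20000f0000000200010001000080000000000000000000000000000000) (nat_lit 0x0) (nat_lit 0x4700100000000000000000000000000000000000000000000000000000) := T_34 (nat_lit 225) (nat_lit 224) (nat_lit 1) (nat_lit 7) (nat_lit 12) L93789 (by decide +kernel)
theorem L93791 : W_34 (nat_lit 4) (nat_lit 0xf0000000200010001000080000000000000000000000000000000) (nat_lit 0x0) (nat_lit 0x7700100000000000000000000000000000000000000000000000000000) := T_34 (nat_lit 229) (nat_lit 228) (nat_lit 3) (nat_lit 4) (nat_lit 12) L93790 (by decide +kernel)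
theorem L93792 : W_34 (nat_lit 2) (nat_lit 0x20000f0000800200010001000080000000000000000000000000000000) (nat_lit 0x0) (nat_lit 0x4000100001000000000000000000000000000000000000000000000000) := D_34 (nat_lit 212) (nat_lit 230) (nat_lit 192) (nat_lit 3) (nat_lit 5) (nat_lit 12) (nat_lit 0) (nat_lit 8) (nat_lit 12) (by decide +kernel)
theorem L93793 : W_34 (nat_lit 3) (nat_lit 0x20000f0000000200010001000080000000000000000000000000000000) (nat_lit 0x0) (nat_lit 0x4000100001c00000000000000000000000000000000000000000000000) := T_34 (nat_lit 191) (nat_lit 190) (nat_lit 0) (nat_lit 7) (nat_lit 12) L93792 (by decide +kernel)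
theorem L93794 : W_34 (nat_lit 4) (nat_lit 0xf0000000200010001000080000000000000000000000000000000) (nat_lit 0x0) (nat_lit 0x7000100001c00000000000000000000000000000000000000000000000) := T_34 (nat_lit 229) (nat_lit 228) (nat_lit 3) (nat_lit 4) (nat_lit 12) L93793 (by decide +kernel)
theorem L93795 : W_34 (nat_lit 6) (nat_lit 0xe0000000200010001000080000000000000000000000000000000) (nat_lit 0x0) (nat_lit 0x100008007780118001e00040020000000000004000000000000000000000000000) := Q_34 (nat_lit 208) (C_34 L92398 (C_34 L92393 (C_34 L93791 (C_34 L93794 N_34)))) (by decide +kernel)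
theorem L93796 : W_34 (nat_lit 2) (nat_lit 0x8000000020003f00108022000f0009000080000000000000000000000000000000) (nat_lit 0x0) (nat_lit 0x4000100010000000000000000000000000000000000000) := D_34 (nat_lit 164) (nat_lit 148) (nat_lit 182) (nat_lit 2) (nat_lit 8) (nat_lit 9) (nat_lit 3) (nat_lit 8) (nat_lit 9) (by decide +kernel)
theorem L93797 : W_34 (nat_lit 3) (nat_lit 0x8000000020003f00108002000f0009000080000000000000000000000000000000) (nat_lit 0x0) (nat_lit 0x7000100010000000000000000000000000000000000000) := T_34 (nat_lit 181) (nat_lit 180) (nat_lit 3) (nat_lit 7) (nat_lit 9) L93796 (by decide +kernel)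
theorem L93798 : W_34 (nat_lit 4) (nat_lit 0x8000000020003f00108002000f0001000080000000000000000000000000000000) (nat_lit 0x0) (nat_lit 0x700010001c000000000000000000000000000000000000) := T_34 (nat_lit 147) (nat_lit 146) (nat_lit 2) (nat_lit 7) (nat_lit 9) L93797 (by decide +kernel)
theorem L93799 : W_34 (nat_lit 5) (nat_lit 0x8000000020003f0010800200070001000080000000000000000000000000000000) (nat_lit 0x0) (nat_lit 0x710018001c000000000000000000000000000000000000) := T_34 (nat_lit 163) (nat_lit 176) (nat_lit 1) (nat_lit 10) (nat_lit 9) L93798 (by decide +kernel)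
theorem L93800 : W_34 (nat_lit 6) (nat_lit 0x20003f0010800200070001000080000000000000000000000000000000) (nat_lit 0x0) (nat_lit 0x80004000000000000000710018001c000000000000000000000000000000000000) := T_34 (nat_lit 263) (nat_lit 246) (nat_lit 6) (nat_lit 8) (nat_lit 15) L93799 (by decide +kernel)
theorem L93801 : W_34 (nat_lit 7) (nat_lit 0x20003f0010800200030001000080000000000000000000000000000000) (nat_lit 0x0) (nat_lit 0x8000400000000000000079001c001c000000000000000000000000000000000000) := T_34 (nat_lit 162) (nat_lit 179) (nat_lit 5) (nat_lit 9) (nat_lit 9) L93800 (by decide +kernel)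
theorem L93802 : W_34 (nat_lit 8) (nat_lit 0x20001f0010800200030001000080000000000000000000000000000000) (nat_lit 0x0) (nat_lit 0x8000400000002000200079001c001c000000000000000000000000000000000000) := T_34 (nat_lit 213) (nat_lit 197) (nat_lit 2) (nat_lit 6) (nat_lit 12) L93801 (by decide +kernel)
theorem L93803 : W_34 (nat_lit 9) (nat_lit 0x20001f0000800200030001000080000000000000000000000000000000) (nat_lit 0x0) (nat_lit 0x8000400000002000380079001c001c000000000000000000000000000000000000) := T_34 (nat_lit 196) (nat_lit 195) (nat_lit 2) (nat_lit 5) (nat_lit 12) L93802 (by decide +kernel)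
theorem L93804 : W_34 (nat_lit 10) (nat_lit 0x20000f0000800200030001000080000000000000000000000000000000) (nat_lit 0x0) (nat_lit 0x8000400040003000380079001c001c000000000000000000000000000000000000) := T_34 (nat_lit 212) (nat_lit 230) (nat_lit 3) (nat_lit 5) (nat_lit 12) L93803 (by decide +kernel)
theorem L93805 : W_34 (nat_lit 11) (nat_lit 0x20000f0000000200030001000080000000000000000000000000000000) (nat_lit 0x0) (nat_lit 0x800040004000300038c079001c001c000000000000000000000000000000000000) := T_34 (nat_lit 191) (nat_lit 190) (nat_lit 0) (nat_lit 7) (nat_lit 12) L93804 (by decide +kernel)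
theorem L93806 : W_34 (nat_lit 12) (nat_lit 0xf0000000200030001000080000000000000000000000000000000) (nat_lit 0x0) (nat_lit 0x800040007000300038c079001c001c000000000000000000000000000000000000) := T_34 (nat_lit 229) (nat_lit 228) (nat_lit 3) (nat_lit 4) (nat_lit 12) L93805 (by decide +kernel)
theorem L93807 : W_34 (nat_lit 13) (nat_lit 0xf0000000200010001000080000000000000000000000000000000) (nat_lit 0x0) (nat_lit 0x800040007000300038c079001e001c000000004000000000000000000000000000) := T_34 (nat_lit 161) (nat_lit 110) (nat_lit 5) (nat_lit 8) (nat_lit 6) L93806 (by decide +kernel)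
theorem L93808 : W_34 (nat_lit 14) (nat_lit 0xe0000000200010001000080000000000000000000000000000000) (nat_lit 0x0) (nat_lit 0x800040007780318038e079001e001c000000004000000000000000000000000000) := Q_34 (nat_lit 208) (C_34 L93791 (C_34 L92398 (C_34 L93807 N_34))) (by decide +kernel)
theorem L93809 : W_34 (nat_lit 2) (nat_lit 0x11000f0000400200010001000080000000000000000000000000000000) (nat_lit 0x0) (nat_lit 0x80008000200000000000000000000000000000000000000000000000) := D_34 (nat_lit 207) (nat_lit 223) (nat_lit 189) (nat_lit 1) (nat_lit 6) (nat_lit 12) (nat_lit 0) (nat_lit 6) (nat_lit 12) (by decide +kernel)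
theorem L93810 : W_34 (nat_lit 3) (nat_lit 0x11000f0000000200010001000080000000000000000000000000000000) (nat_lit 0x0) (nat_lit 0x80008000e00000000000000000000000000000000000000000000000) := T_34 (nat_lit 190) (nat_lit 191) (nat_lit 0) (nat_lit 7) (nat_lit 12) L93809 (by decide +kernel)
theorem L93811 : W_34 (nat_lit 4) (nat_lit 0x10000f0000000200010001000080000000000000000000000000000000) (nat_lit 0x0) (nat_lit 0x380008000e00000000000000000000000000000000000000000000000) := T_34 (nat_lit 224) (nat_lit 225) (nat_lit 1) (nat_lit 7) (nat_lit 12) L93810 (by decide +kernel)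
theorem L93812 : W_34 (nat_lit 5) (nat_lit 0xf0000000200010001000080000000000000000000000000000000) (nat_lit 0x0) (nat_lit 0x3380008000e00000000000000000000000000000000000000000000000) := T_34 (nat_lit 228) (nat_lit 229) (nat_lit 3) (nat_lit 4) (nat_lit 12) L93811 (by decide +kernel)
theorem L93813 : W_34 (nat_lit 2) (nat_lit 0xf8000000200010001000080000000000000000000000000000000) (nat_lit 0x0) (nat_lit 0x380000000000000000000000000000000000000000000000000000000) := D_34 (nat_lit 224) (nat_lit 225) (nat_lit 223) (nat_lit 1) (nat_lit 7) (nat_lit 12) (nat_lit 1) (nat_lit 6) (nat_lit 12) (by decide +kernel)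
theorem L93814 : W_34 (nat_lit 2) (nat_lit 0x10000fc000200200010001000080004000000000000000000000000000) (nat_lit 0x0) (nat_lit 0x1c0000000000000000000000000000000000000000000000000000000) := D_34 (nat_lit 223) (nat_lit 224) (nat_lit 222) (nat_lit 1) (nat_lit 6) (nat_lit 12) (nat_lit 1) (nat_lit 5) (nat_lit 12) (by decide +kernel)
theorem L93815 : W_34 (nat_lit 3) (nat_lit 0x10000f8000200200010001000080004000000000000000000000000000) (nat_lit 0x0) (nat_lit 0x1c0004000100000000000000000000000000000000000000000000000) := T_34 (nat_lit 206) (nat_lit 188) (nat_lit 0) (nat_lit 5) (nat_lit 12) L93814 (by decide +kernel)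
theorem L93816 : W_34 (nat_lit 4) (nat_lit 0xf8000200200010001000080004000000000000000000000000000) (nat_lit 0x0) (nat_lit 0x31c0004000100000000000000000000000000000000000000000000000) := T_34 (nat_lit 228) (nat_lit 229) (nat_lit 3) (nat_lit 4) (nat_lit 12) L93815 (by decide +kernel)
theorem L93817 : W_34 (nat_lit 5) (nat_lit 0xf8000000200010001000080004000000000000000000000000000) (nat_lit 0x0) (nat_lit 0x31c0004000700000000000000000000000000000000000000000000000) := T_34 (nat_lit 189) (nat_lit 190) (nat_lit 0) (nat_lit 6) (nat_lit 12) L93816 (by decide +kernel)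
theorem L93818 : W_34 (nat_lit 6) (nat_lit 0xf8000000200010001000080000000000000000000000000000000) (nat_lit 0x0) (nat_lit 0x31c0004000700000020000000000004000000000000000000000000000) := T_34 (nat_lit 110) (nat_lit 161) (nat_lit 5) (nat_lit 8) (nat_lit 6) L93817 (by decide +kernel)
theorem L93819 : W_34 (nat_lit 2) (nat_lit 0x12400fe001200380030001000080000000000000000000000000000000) (nat_lit 0x0) (nat_lit 0xc8000000000000000000000000000000000000000) := D_34 (nat_lit 162) (nat_lit 163) (nat_lit 159) (nat_lit 1) (nat_lit 10) (nat_lit 9) (nat_lit 1) (nat_lit 9) (nat_lit 9) (by decide +kernel)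
theorem L93820 : W_34 (nat_lit 3) (nat_lit 0x12400fe001200280030001000080000000000000000000000000000000) (nat_lit 0x0) (nat_lit 0x1400c8000000000000000000000000000000000000000) := T_34 (nat_lit 176) (nat_lit 174) (nat_lit 2) (nat_lit 4) (nat_lit 10) L93819 (by decide +kernel)
theorem L93821 : W_34 (nat_lit 4) (nat_lit 0x12400fe001200200030001000080000000000000000000000000000000) (nat_lit 0x0) (nat_lit 0x1c00cc000000000000000000000000000000000000000) := T_34 (nat_lit 175) (nat_lit 158) (nat_lit 5) (nat_lit 5) (nat_lit 9) L93820 (by decide +kernel)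
theorem L93822 : W_34 (nat_lit 5) (nat_lit 0x10400fe001200200030001000080000000000000000000000000000000) (nat_lit 0x0) (nat_lit 0x6000000000001c00cc000000000000000000000000000000000000000) := T_34 (nat_lit 225) (nat_lit 226) (nat_lit 3) (nat_lit 1) (nat_lit 12) L93821 (by decide +kernel)
theorem L93823 : W_34 (nat_lit 6) (nat_lit 0x10400fc001200200030001000080000000000000000000000000000000) (nat_lit 0x0) (nat_lit 0x6200020000001c00cc000000000000000000000000000000000000000) := T_34 (nat_lit 205) (nat_lit 221) (nat_lit 1) (nat_lit 4) (nat_lit 12) L93822 (by decide +kernel)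
theorem L93824 : W_34 (nat_lit 7) (nat_lit 0x10400fc000200200030001000080000000000000000000000000000000) (nat_lit 0x0) (nat_lit 0x6200020030001c00cc000000000000000000000000000000000000000) := T_34 (nat_lit 192) (nat_lit 193) (nat_lit 2) (nat_lit 2) (nat_lit 12) L93823 (by decide +kernel)
theorem L93825 : W_34 (nat_lit 8) (nat_lit 0x10000fc000200200030001000080000000000000000000000000000000) (nat_lit 0x0) (nat_lit 0x6e00020030001c00cc000000000000000000000000000000000000000) := T_34 (nat_lit 222) (nat_lit 223) (nat_lit 1) (nat_lit 5) (nat_lit 12) L93824 (by decide +kernel)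
theorem L93826 : W_34 (nat_lit 9) (nat_lit 0x10000f8000200200030001000080000000000000000000000000000000) (nat_lit 0x0) (nat_lit 0x6e00060031001c00cc000000000000000000000000000000000000000) := T_34 (nat_lit 206) (nat_lit 188) (nat_lit 0) (nat_lit 5) (nat_lit 12) L93825 (by decide +kernel)
theorem L93827 : W_34 (nat_lit 10) (nat_lit 0xf8000200200030001000080000000000000000000000000000000) (nat_lit 0x0) (nat_lit 0x36e00060031001c00cc000000000000000000000000000000000000000) := T_34 (nat_lit 228) (nat_lit 229) (nat_lit 3) (nat_lit 4) (nat_lit 12) L93826 (by decide +kernel)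
theorem L93828 : W_34 (nat_lit 11) (nat_lit 0xf8000000200030001000080000000000000000000000000000000) (nat_lit 0x0) (nat_lit 0x36e00060037001c00cc000000000000000000000000000000000000000) := T_34 (nat_lit 189) (nat_lit 190) (nat_lit 0) (nat_lit 6) (nat_lit 12) L93827 (by decide +kernel)
theorem L93829 : W_34 (nat_lit 12) (nat_lit 0xf8000000200010001000080000000000000000000000000000000) (nat_lit 0x0) (nat_lit 0x36e00060037001c00ec000000000004000000000000000000000000000) := T_34 (nat_lit 161) (nat_lit 110) (nat_lit 5) (nat_lit 8) (nat_lit 6) L93828 (by decide +kernel)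
theorem L93830 : W_34 (nat_lit 2) (nat_lit 0x16000fc001200200010001000080004000000000000000000000000000) (nat_lit 0x0) (nat_lit 0x80004000000000000000080000000000000000000000000000000000000000000) := D_34 (nat_lit 242) (nat_lit 259) (nat_lit 175) (nat_lit 6) (nat_lit 4) (nat_lit 15) (nat_lit 5) (nat_lit 5) (nat_lit 10) (by decide +kernel)
theorem L93831 : W_34 (nat_lit 3) (nat_lit 0x12000fc001200200010001000080004000000000000000000000000000) (nat_lit 0x0) (nat_lit 0x80004000400002000000080000000000000000000000000000000000000000000) := T_34 (nat_lit 226) (nat_lit 205) (nat_lit 3) (nat_lit 1) (nat_lit 12) L93830 (by decide +kernel)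
theorem L93832 : W_34 (nat_lit 4) (nat_lit 0x12000fc000200200010001000080004000000000000000000000000000) (nat_lit 0x0) (nat_lit 0x80004000400002003000080000000000000000000000000000000000000000000) := T_34 (nat_lit 192) (nat_lit 193) (nat_lit 2) (nat_lit 2) (nat_lit 12) L93831 (by decide +kernel)
theorem L93833 : W_34 (nat_lit 5) (nat_lit 0x12000f8000200200010001000080004000000000000000000000000000) (nat_lit 0x0) (nat_lit 0x80004000400006003100080000000000000000000000000000000000000000000) := T_34 (nat_lit 206) (nat_lit 188) (nat_lit 0) (nat_lit 5) (nat_lit 12) L93832 (by decide +kernel)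
theorem L93834 : W_34 (nat_lit 6) (nat_lit 0x12000f8000000200010001000080004000000000000000000000000000) (nat_lit 0x0) (nat_lit 0x80004000400006003700080000000000000000000000000000000000000000000) := T_34 (nat_lit 189) (nat_lit 190) (nat_lit 0) (nat_lit 6) (nat_lit 12) L93833 (by decide +kernel)
theorem L93835 : W_34 (nat_lit 7) (nat_lit 0x12000f8000000200010001000080000000000000000000000000000000) (nat_lit 0x0) (nat_lit 0x80004000400006003700080020000000000004000000000000000000000000000) := T_34 (nat_lit 110) (nat_lit 161) (nat_lit 5) (nat_lit 8) (nat_lit 6) L93834 (by decide +kernel)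
theorem L93836 : W_34 (nat_lit 8) (nat_lit 0x10000f8000000200010001000080000000000000000000000000000000) (nat_lit 0x0) (nat_lit 0x80004000700006003700080020000000000004000000000000000000000000000) := T_34 (nat_lit 225) (nat_lit 224) (nat_lit 1) (nat_lit 7) (nat_lit 12) L93835 (by decide +kernel)
theorem L93837 : W_34 (nat_lit 9) (nat_lit 0xf8000000200010001000080000000000000000000000000000000) (nat_lit 0x0) (nat_lit 0x80004003700006003700080020000000000004000000000000000000000000000) := T_34 (nat_lit 228) (nat_lit 229) (nat_lit 3) (nat_lit 4) (nat_lit 12) L93836 (by decide +kernel)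
theorem L93838 : W_34 (nat_lit 13) (nat_lit 0xf0000000200010001000080000000000000000000000000000000) (nat_lit 0x0) (nat_lit 0x800040037e000e0037001c00ec000000000004000000000000000000000000000) := Q_34 (nat_lit 207) (C_34 L93813 (C_34 L93818 (C_34 L93829 (C_34 L93837 N_34)))) (by decide +kernel)
theorem L93839 : W_34 (nat_lit 2) (nat_lit 0x12000f0000000300038001000080000000000000000000000000000000) (nat_lit 0x0) (nat_lit 0xc0040000000000000000000000000000000000000000) := D_34 (nat_lit 175) (nat_lit 174) (nat_lit 162) (nat_lit 2) (nat_lit 4) (nat_lit 10) (nat_lit 1) (nat_lit 9) (nat_lit 9) (by decide +kernel)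
theorem L93840 : W_34 (nat_lit 3) (nat_lit 0x12000f0000000300018001000080000000000000000000000000000000) (nat_lit 0x0) (nat_lit 0xc0060000000000004000000000000000000000000000) := T_34 (nat_lit 161) (nat_lit 110) (nat_lit 5) (nat_lit 8) (nat_lit 6) L93839 (by decide +kernel)
theorem L93841 : W_34 (nat_lit 4) (nat_lit 0x12000f0000000200018001000080000000000000000000000000000000) (nat_lit 0x0) (nat_lit 0x20001c0060000000000004000000000000000000000000000) := T_34 (nat_lit 176) (nat_lit 193) (nat_lit 7) (nat_lit 6) (nat_lit 9) L93840 (by decide +kernel)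
theorem L93842 : W_34 (nat_lit 5) (nat_lit 0x10000f0000000200018001000080000000000000000000000000000000) (nat_lit 0x0) (nat_lit 0x3000000020001c0060000000000004000000000000000000000000000) := T_34 (nat_lit 225) (nat_lit 224) (nat_lit 1) (nat_lit 7) (nat_lit 12) L93841 (by decide +kernel)
theorem L93843 : W_34 (nat_lit 6) (nat_lit 0xf0000000200018001000080000000000000000000000000000000) (nat_lit 0x0) (nat_lit 0x33000000020001c0060000000000004000000000000000000000000000) := T_34 (nat_lit 228) (nat_lit 229) (nat_lit 3) (nat_lit 4) (nat_lit 12) L93842 (by decide +kernel)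
theorem L93844 : W_34 (nat_lit 2) (nat_lit 0x12000f00000002c001c001000080004000000000000000000000000000) (nat_lit 0x0) (nat_lit 0x120002000000000000000000000000000000000000000) := D_34 (nat_lit 173) (nat_lit 176) (nat_lit 157) (nat_lit 2) (nat_lit 3) (nat_lit 10) (nat_lit 1) (nat_lit 7) (nat_lit 9) (by decide +kernel)
theorem L93845 : W_34 (nat_lit 3) (nat_lit 0x12000f000000028001c001000080004000000000000000000000000000) (nat_lit 0x0) (nat_lit 0x800160002000000000000000000000000000000000000000) := T_34 (nat_lit 174) (nat_lit 191) (nat_lit 6) (nat_lit 4) (nat_lit 13) L93844 (by decide +kernel)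
theorem L93846 : W_34 (nat_lit 4) (nat_lit 0x12000f000000020001c001000080004000000000000000000000000000) (nat_lit 0x0) (nat_lit 0x18001e0002000000000000000000000000000000000000000) := T_34 (nat_lit 175) (nat_lit 192) (nat_lit 5) (nat_lit 5) (nat_lit 9) L93845 (by decide +kernel)
theorem L93847 : W_34 (nat_lit 5) (nat_lit 0x2000f000000020001c001000080004000000000000000000000000000) (nat_lit 0x0) (nat_lit 0x30000000018001e0002000000000000000000000000000000000000000) := T_34 (nat_lit 228) (nat_lit 229) (nat_lit 3) (nat_lit 4) (nat_lit 12) L93846 (by decide +kernel)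
theorem L93848 : W_34 (nat_lit 6) (nat_lit 0xf000000020001c001000080004000000000000000000000000000) (nat_lit 0x0) (nat_lit 0x33000000018001e0002000000000000000000000000000000000000000) := T_34 (nat_lit 225) (nat_lit 224) (nat_lit 1) (nat_lit 7) (nat_lit 12) L93847 (by decide +kernel)
theorem L93849 : W_34 (nat_lit 7) (nat_lit 0xf000000020001c001000080000000000000000000000000000000) (nat_lit 0x0) (nat_lit 0x33000000018001e0022000000000004000000000000000000000000000) := T_34 (nat_lit 110) (nat_lit 161) (nat_lit 5) (nat_lit 8) (nat_lit 6) L93848 (by decide +kernel)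
theorem L93850 : W_34 (nat_lit 2) (nat_lit 0x2000f00000002c001c001000080004000000000000000000000000000) (nat_lit 0x0) (nat_lit 0x120002000000000000000000000000000000000000000) := D_34 (nat_lit 173) (nat_lit 176) (nat_lit 157) (nat_lit 2) (nat_lit 3) (nat_lit 10) (nat_lit 1) (nat_lit 7) (nat_lit 9) (by decide +kernel)
theorem L93851 : W_34 (nat_lit 3) (nat_lit 0x2000f000000028001c001000080004000000000000000000000000000) (nat_lit 0x0) (nat_lit 0x800160002000000000000000000000000000000000000000) := T_34 (nat_lit 174) (nat_lit 191) (nat_lit 6) (nat_lit 4) (nat_lit 13) L93850 (by decide +kernel)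
theorem L93852 : W_34 (nat_lit 4) (nat_lit 0x2000f000000020001c001000080004000000000000000000000000000) (nat_lit 0x0) (nat_lit 0x18001e0002000000000000000000000000000000000000000) := T_34 (nat_lit 175) (nat_lit 192) (nat_lit 5) (nat_lit 5) (nat_lit 9) L93851 (by decide +kernel)
theorem L93853 : W_34 (nat_lit 5) (nat_lit 0x2000f000000020001c001000080000000000000000000000000000000) (nat_lit 0x0) (nat_lit 0x18001e0022000000000004000000000000000000000000000) := T_34 (nat_lit 110) (nat_lit 161) (nat_lit 5) (nat_lit 8) (nat_lit 6) L93852 (by decide +kernel)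
theorem L93854 : W_34 (nat_lit 6) (nat_lit 0xf000000020001c001000080000000000000000000000000000000) (nat_lit 0x0) (nat_lit 0x3000000018001e0022000000000004000000000000000000000000000) := T_34 (nat_lit 225) (nat_lit 224) (nat_lit 1) (nat_lit 7) (nat_lit 12) L93853 (by decide +kernel)
theorem L93855 : W_34 (nat_lit 2) (nat_lit 0x12000f000000028001c001000080000000000000000000000000000000) (nat_lit 0x0) (nat_lit 0x800040020000000000000000000000000000000000000000) := D_34 (nat_lit 174) (nat_lit 161) (nat_lit 191) (nat_lit 1) (nat_lit 8) (nat_lit 9) (nat_lit 6) (nat_lit 4) (nat_lit 13) (by decide +kernel)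
theorem L93856 : W_34 (nat_lit 3) (nat_lit 0x12000f000000020001c001000080000000000000000000000000000000) (nat_lit 0x0) (nat_lit 0x18000c0020000000000000000000000000000000000000000) := T_34 (nat_lit 175) (nat_lit 192) (nat_lit 5) (nat_lit 5) (nat_lit 9) L93855 (by decide +kernel)
theorem L93857 : W_34 (nat_lit 4) (nat_lit 0x2000f000000020001c001000080000000000000000000000000000000) (nat_lit 0x0) (nat_lit 0x30000000018000c0020000000000000000000000000000000000000000) := T_34 (nat_lit 228) (nat_lit 229) (nat_lit 3) (nat_lit 4) (nat_lit 12) L93856 (by decide +kernel)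
theorem L93858 : W_34 (nat_lit 5) (nat_lit 0xf000000020001c001000080000000000000000000000000000000) (nat_lit 0x0) (nat_lit 0x33000000018000c0020000000000000000000000000000000000000000) := T_34 (nat_lit 225) (nat_lit 224) (nat_lit 1) (nat_lit 7) (nat_lit 12) L93857 (by decide +kernel)
theorem L93859 : W_34 (nat_lit 2) (nat_lit 0x12000f00000002000fc001200080000000000000000000000000000000) (nat_lit 0x0) (nat_lit 0x3800000000000000000000000000000000000000000000) := D_34 (nat_lit 180) (nat_lit 179) (nat_lit 181) (nat_lit 3) (nat_lit 6) (nat_lit 9) (nat_lit 3) (nat_lit 7) (nat_lit 9) (by decide +kernel)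
theorem L93860 : W_34 (nat_lit 3) (nat_lit 0x12000f000000020007c001200080000000000000000000000000000000) (nat_lit 0x0) (nat_lit 0x3900080000000000000000000000000000000000000000) := T_34 (nat_lit 163) (nat_lit 176) (nat_lit 1) (nat_lit 10) (nat_lit 9) L93859 (by decide +kernel)
theorem L93861 : W_34 (nat_lit 4) (nat_lit 0x12000f000000020003c001200080000000000000000000000000000000) (nat_lit 0x0) (nat_lit 0x39000c0000400000000000000000000000000000000000) := T_34 (nat_lit 162) (nat_lit 142) (nat_lit 0) (nat_lit 9) (nat_lit 9) L93860 (by decide +kernel)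
theorem L93862 : W_34 (nat_lit 5) (nat_lit 0x12000f000000020003c001000080000000000000000000000000000000) (nat_lit 0x0) (nat_lit 0x39000c0000700000000000000000000000000000000000) := T_34 (nat_lit 141) (nat_lit 140) (nat_lit 0) (nat_lit 8) (nat_lit 9) L93861 (by decide +kernel)
theorem L93863 : W_34 (nat_lit 6) (nat_lit 0x2000f000000020003c001000080000000000000000000000000000000) (nat_lit 0x0) (nat_lit 0x30000000000039000c0000700000000000000000000000000000000000) := T_34 (nat_lit 228) (nat_lit 229) (nat_lit 3) (nat_lit 4) (nat_lit 12) L93862 (by decide +kernel)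
theorem L93864 : W_34 (nat_lit 7) (nat_lit 0x2000f000000020001c001000080000000000000000000000000000000) (nat_lit 0x0) (nat_lit 0x30000000000039000e0000700000004000000000000000000000000000) := T_34 (nat_lit 161) (nat_lit 110) (nat_lit 5) (nat_lit 8) (nat_lit 6) L93863 (by decide +kernel)
theorem L93865 : W_34 (nat_lit 8) (nat_lit 0xf000000020001c001000080000000000000000000000000000000) (nat_lit 0x0) (nat_lit 0x33000000000039000e0000700000004000000000000000000000000000) := T_34 (nat_lit 225) (nat_lit 224) (nat_lit 1) (nat_lit 7) (nat_lit 12) L93864 (by decide +kernel)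
theorem L93866 : W_34 (nat_lit 2) (nat_lit 0x12000f00000002c001c001000080000000000000000000000000000000) (nat_lit 0x0) (nat_lit 0x120002000000000000000000000000000000000000000) := D_34 (nat_lit 173) (nat_lit 176) (nat_lit 157) (nat_lit 2) (nat_lit 3) (nat_lit 10) (nat_lit 1) (nat_lit 7) (nat_lit 9) (by decide +kernel)
theorem L93867 : W_34 (nat_lit 3) (nat_lit 0x12000f000000028001c001000080000000000000000000000000000000) (nat_lit 0x0) (nat_lit 0x800160002000000000000000000000000000000000000000) := T_34 (nat_lit 174) (nat_lit 191) (nat_lit 6) (nat_lit 4) (nat_lit 13) L93866 (by decide +kernel)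
theorem L93868 : W_34 (nat_lit 4) (nat_lit 0x12000f000000020001c001000080000000000000000000000000000000) (nat_lit 0x0) (nat_lit 0x18001e0002000000000000000000000000000000000000000) := T_34 (nat_lit 175) (nat_lit 192) (nat_lit 5) (nat_lit 5) (nat_lit 9) L93867 (by decide +kernel)
theorem L93869 : W_34 (nat_lit 5) (nat_lit 0x10000f000000020001c001000080000000000000000000000000000000) (nat_lit 0x0) (nat_lit 0x3000000018001e0002000000000000000000000000000000000000000) := T_34 (nat_lit 225) (nat_lit 224) (nat_lit 1) (nat_lit 7) (nat_lit 12) L93868 (by decide +kernel)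
theorem L93870 : W_34 (nat_lit 6) (nat_lit 0xf000000020001c001000080000000000000000000000000000000) (nat_lit 0x0) (nat_lit 0x33000000018001e0002000000000000000000000000000000000000000) := T_34 (nat_lit 228) (nat_lit 229) (nat_lit 3) (nat_lit 4) (nat_lit 12) L93869 (by decide +kernel)
theorem L93871 : W_34 (nat_lit 2) (nat_lit 0x10000f000000028003c001200080000000000000000000000000000000) (nat_lit 0x0) (nat_lit 0x100040000400000000000000000000000000000000000) := D_34 (nat_lit 162) (nat_lit 142) (nat_lit 176) (nat_lit 0) (nat_lit 9) (nat_lit 9) (nat_lit 1) (nat_lit 9) (nat_lit 9) (by decide +kernel)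
theorem L93872 : W_34 (nat_lit 3) (nat_lit 0x10000f000000020003c001200080000000000000000000000000000000) (nat_lit 0x0) (nat_lit 0x1c0040000400000000000000000000000000000000000) := T_34 (nat_lit 175) (nat_lit 174) (nat_lit 1) (nat_lit 8) (nat_lit 9) L93871 (by decide +kernel)
theorem L93873 : W_34 (nat_lit 4) (nat_lit 0x10000f000000020003c001000080000000000000000000000000000000) (nat_lit 0x0) (nat_lit 0x1c0040000700000000000000000000000000000000000) := T_34 (nat_lit 141) (nat_lit 140) (nat_lit 0) (nat_lit 8) (nat_lit 9) L93872 (by decide +kernel)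
theorem L93874 : W_34 (nat_lit 5) (nat_lit 0xf000000020003c001000080000000000000000000000000000000) (nat_lit 0x0) (nat_lit 0x30000000000001c0040000700000000000000000000000000000000000) := T_34 (nat_lit 228) (nat_lit 229) (nat_lit 3) (nat_lit 4) (nat_lit 12) L93873 (by decide +kernel)
theorem L93875 : W_34 (nat_lit 6) (nat_lit 0xf000000020001c001000080000000000000000000000000000000) (nat_lit 0x0) (nat_lit 0x30000000000001c0060000700000004000000000000000000000000000) := T_34 (nat_lit 161) (nat_lit 110) (nat_lit 5) (nat_lit 8) (nat_lit 6) L93874 (by decide +kernel)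
theorem L93876 : W_34 (nat_lit 9) (nat_lit 0xf0000000200018001000080000000000000000000000000000000) (nat_lit 0x0) (nat_lit 0x33000000018039e00e6000700000004000000000000000000000000000) := Q_34 (nat_lit 158) (C_34 L93849 (C_34 L93854 (C_34 L93858 (C_34 L93865 (C_34 L93870 (C_34 L93875 N_34)))))) (by decide +kernel)
theorem L93877 : W_34 (nat_lit 2) (nat_lit 0x2000f0000000300038001000080000000000000000000000000000000) (nat_lit 0x0) (nat_lit 0xc0040000000000000000000000000000000000000000) := D_34 (nat_lit 175) (nat_lit 174) (nat_lit 162) (nat_lit 2) (nat_lit 4) (nat_lit 10) (nat_lit 1) (nat_lit 9) (nat_lit 9) (by decide +kernel)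
theorem L93878 : W_34 (nat_lit 3) (nat_lit 0x2000f0000000300018001000080000000000000000000000000000000) (nat_lit 0x0) (nat_lit 0xc0060000000000004000000000000000000000000000) := T_34 (nat_lit 161) (nat_lit 110) (nat_lit 5) (nat_lit 8) (nat_lit 6) L93877 (by decide +kernel)
theorem L93879 : W_34 (nat_lit 4) (nat_lit 0xf0000000300018001000080000000000000000000000000000000) (nat_lit 0x0) (nat_lit 0x3000000000000c0060000000000004000000000000000000000000000) := T_34 (nat_lit 225) (nat_lit 224) (nat_lit 1) (nat_lit 7) (nat_lit 12) L93878 (by decide +kernel)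
theorem L93880 : W_34 (nat_lit 2) (nat_lit 0xf0002000300018001400080000000000000000000000000000000) (nat_lit 0x0) (nat_lit 0x4000200010000000000000000000000000000000) := D_34 (nat_lit 141) (nat_lit 124) (nat_lit 158) (nat_lit 4) (nat_lit 6) (nat_lit 11) (nat_lit 4) (nat_lit 6) (nat_lit 12) (by decide +kernel)
theorem L93881 : W_34 (nat_lit 3) (nat_lit 0xf0002000300018001000080000000000000000000000000000000) (nat_lit 0x0) (nat_lit 0x1000000004000600010000000000000000000000000000000) := T_34 (nat_lit 142) (nat_lit 192) (nat_lit 5) (nat_lit 6) (nat_lit 8) L93880 (by decide +kernel)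
theorem L93882 : W_34 (nat_lit 4) (nat_lit 0xf0000000300018001000080000000000000000000000000000000) (nat_lit 0x0) (nat_lit 0x400000003000000004000600010000000000000000000000000000000) := T_34 (nat_lit 193) (nat_lit 226) (nat_lit 5) (nat_lit 6) (nat_lit 9) L93881 (by decide +kernel)
theorem L93883 : W_34 (nat_lit 5) (nat_lit 0xf0000000200018001000080000000000000000000000000000000) (nat_lit 0x0) (nat_lit 0x7000000030001c0064000600010004000000000000000000000000000) := Q_34 (nat_lit 176) (C_34 L93879 (C_34 L93882 N_34)) (by decide +kernel)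
theorem L93884 : W_34 (nat_lit 2) (nat_lit 0x2000f000000028001c001000080000000000000000000000000000000) (nat_lit 0x0) (nat_lit 0x800040020000000000000000000000000000000000000000) := D_34 (nat_lit 174) (nat_lit 161) (nat_lit 191) (nat_lit 1) (nat_lit 8) (nat_lit 9) (nat_lit 6) (nat_lit 4) (nat_lit 13) (by decide +kernel)
theorem L93885 : W_34 (nat_lit 3) (nat_lit 0x2000f000000020001c001000080000000000000000000000000000000) (nat_lit 0x0) (nat_lit 0x18000c0020000000000000000000000000000000000000000) := T_34 (nat_lit 175) (nat_lit 192) (nat_lit 5) (nat_lit 5) (nat_lit 9) L93884 (by decide +kernel)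
theorem L93886 : W_34 (nat_lit 4) (nat_lit 0xf000000020001c001000080000000000000000000000000000000) (nat_lit 0x0) (nat_lit 0x3000000018000c0020000000000000000000000000000000000000000) := T_34 (nat_lit 225) (nat_lit 224) (nat_lit 1) (nat_lit 7) (nat_lit 12) L93885 (by decide +kernel)
theorem L93887 : W_34 (nat_lit 2) (nat_lit 0x12000f000000034001e001000080000000000000000000000000000000) (nat_lit 0x0) (nat_lit 0x400000000800000000000200000000000000000000000000000000000) := D_34 (nat_lit 191) (nat_lit 141) (nat_lit 226) (nat_lit 6) (nat_lit 4) (nat_lit 12) (nat_lit 7) (nat_lit 4) (nat_lit 9) (by decide +kernel)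
theorem L93888 : W_34 (nat_lit 3) (nat_lit 0x12000f000000030001e001000080000000000000000000000000000000) (nat_lit 0x0) (nat_lit 0x400000000800060000000200000000000000000000000000000000000) := T_34 (nat_lit 174) (nat_lit 173) (nat_lit 1) (nat_lit 7) (nat_lit 9) L93887 (by decide +kernel)
theorem L93889 : W_34 (nat_lit 4) (nat_lit 0x12000f000000030001c001000080000000000000000000000000000000) (nat_lit 0x0) (nat_lit 0x400000000800060003000200000000000000000000000000000000000) := T_34 (nat_lit 157) (nat_lit 156) (nat_lit 3) (nat_lit 3) (nat_lit 9) L93888 (by decide +kernel)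
theorem L93890 : W_34 (nat_lit 5) (nat_lit 0x12000f000000020001c001000080000000000000000000000000000000) (nat_lit 0x0) (nat_lit 0x400000002800160003000200000000000000000000000000000000000) := T_34 (nat_lit 176) (nat_lit 193) (nat_lit 7) (nat_lit 6) (nat_lit 9) L93889 (by decide +kernel)
theorem L93891 : W_34 (nat_lit 6) (nat_lit 0x2000f000000020001c001000080000000000000000000000000000000) (nat_lit 0x0) (nat_lit 0x3400000002800160003000200000000000000000000000000000000000) := T_34 (nat_lit 228) (nat_lit 229) (nat_lit 3) (nat_lit 4) (nat_lit 12) L93890 (by decide +kernel)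
theorem L93892 : W_34 (nat_lit 7) (nat_lit 0xf000000020001c001000080000000000000000000000000000000) (nat_lit 0x0) (nat_lit 0x3700000002800160003000200000000000000000000000000000000000) := T_34 (nat_lit 225) (nat_lit 224) (nat_lit 1) (nat_lit 7) (nat_lit 12) L93891 (by decide +kernel)
theorem L93893 : W_34 (nat_lit 2) (nat_lit 0x12000f000000038003e001000080000000000000000000000000000000) (nat_lit 0x0) (nat_lit 0x380000000000000000000000000000000000) := D_34 (nat_lit 140) (nat_lit 139) (nat_lit 141) (nat_lit 0) (nat_lit 7) (nat_lit 9) (nat_lit 0) (nat_lit 8) (nat_lit 9) (by decide +kernel)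
theorem L93894 : W_34 (nat_lit 3) (nat_lit 0x12000f000000038001e001000080000000000000000000000000000000) (nat_lit 0x0) (nat_lit 0x60000380000000000000000000000000000000000) := T_34 (nat_lit 161) (nat_lit 162) (nat_lit 1) (nat_lit 9) (nat_lit 9) L93893 (by decide +kernel)
theorem L93895 : W_34 (nat_lit 4) (nat_lit 0x12000f000000030001e001000080000000000000000000000000000000) (nat_lit 0x0) (nat_lit 0x1000080060000380000000000000000000000000000000000) := T_34 (nat_lit 175) (nat_lit 192) (nat_lit 5) (nat_lit 5) (nat_lit 9) L93894 (by decide +kernel)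
theorem L93896 : W_34 (nat_lit 5) (nat_lit 0x12000f000000030001c001000080000000000000000000000000000000) (nat_lit 0x0) (nat_lit 0x1000080063000380000000000000000000000000000000000) := T_34 (nat_lit 157) (nat_lit 156) (nat_lit 3) (nat_lit 3) (nat_lit 9) L93895 (by decide +kernel)
theorem L93897 : W_34 (nat_lit 6) (nat_lit 0x12000f000000020001c001000080000000000000000000000000000000) (nat_lit 0x0) (nat_lit 0x3000180063000380000000000000000000000000000000000) := T_34 (nat_lit 176) (nat_lit 193) (nat_lit 7) (nat_lit 6) (nat_lit 9) L93896 (by decide +kernel)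
theorem L93898 : W_34 (nat_lit 7) (nat_lit 0x10000f000000020001c001000080000000000000000000000000000000) (nat_lit 0x0) (nat_lit 0x300000003000180063000380000000000000000000000000000000000) := T_34 (nat_lit 225) (nat_lit 224) (nat_lit 1) (nat_lit 7) (nat_lit 12) L93897 (by decide +kernel)
theorem L93899 : W_34 (nat_lit 8) (nat_lit 0xf000000020001c001000080000000000000000000000000000000) (nat_lit 0x0) (nat_lit 0x3300000003000180063000380000000000000000000000000000000000) := T_34 (nat_lit 228) (nat_lit 229) (nat_lit 3) (nat_lit 4) (nat_lit 12) L93898 (by decide +kernel)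
theorem L93900 : W_34 (nat_lit 2) (nat_lit 0x10000f000000034001e001000080000000000000000000000000000000) (nat_lit 0x0) (nat_lit 0x400000000800000000000200000000000000000000000000000000000) := D_34 (nat_lit 191) (nat_lit 226) (nat_lit 141) (nat_lit 7) (nat_lit 4) (nat_lit 9) (nat_lit 6) (nat_lit 4) (nat_lit 12) (by decide +kernel)
theorem L93901 : W_34 (nat_lit 3) (nat_lit 0x10000f000000030001e001000080000000000000000000000000000000) (nat_lit 0x0) (nat_lit 0x400000000800060000000200000000000000000000000000000000000) := T_34 (nat_lit 174) (nat_lit 173) (nat_lit 1) (nat_lit 7) (nat_lit 9) L93900 (by decide +kernel)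
theorem L93902 : W_34 (nat_lit 4) (nat_lit 0x10000f000000030001c001000080000000000000000000000000000000) (nat_lit 0x0) (nat_lit 0x400000000800060003000200000000000000000000000000000000000) := T_34 (nat_lit 157) (nat_lit 156) (nat_lit 3) (nat_lit 3) (nat_lit 9) L93901 (by decide +kernel)
theorem L93903 : W_34 (nat_lit 5) (nat_lit 0x10000f000000020001c001000080000000000000000000000000000000) (nat_lit 0x0) (nat_lit 0x400000002800160003000200000000000000000000000000000000000) := T_34 (nat_lit 176) (nat_lit 193) (nat_lit 7) (nat_lit 6) (nat_lit 9) L93902 (by decide +kernel)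
theorem L93904 : W_34 (nat_lit 6) (nat_lit 0xf000000020001c001000080000000000000000000000000000000) (nat_lit 0x0) (nat_lit 0x3400000002800160003000200000000000000000000000000000000000) := T_34 (nat_lit 228) (nat_lit 229) (nat_lit 3) (nat_lit 4) (nat_lit 12) L93903 (by decide +kernel)
theorem L93905 : W_34 (nat_lit 9) (nat_lit 0xf0000000200018001000080000000000000000000000000000000) (nat_lit 0x0) (nat_lit 0x37000000038001e0067000380000000000000000000000000000000000) := Q_34 (nat_lit 158) (C_34 L93870 (C_34 L93886 (C_34 L93892 (C_34 L93899 (C_34 L93904 N_34))))) (by decide +kernel)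
theorem L93906 : W_34 (nat_lit 2) (nat_lit 0x12000f000000024003e001100080000000000000000000000000000000) (nat_lit 0x0) (nat_lit 0x400000001800000000000000000000000000000000000000000000000) := D_34 (nat_lit 191) (nat_lit 192) (nat_lit 226) (nat_lit 7) (nat_lit 4) (nat_lit 8) (nat_lit 7) (nat_lit 4) (nat_lit 9) (by decide +kernel)
theorem L93907 : W_34 (nat_lit 3) (nat_lit 0x12000f000000020003e001100080000000000000000000000000000000) (nat_lit 0x0) (nat_lit 0x400000001800060000000000000000000000000000000000000000000) := T_34 (nat_lit 174) (nat_lit 173) (nat_lit 1) (nat_lit 7) (nat_lit 9) L93906 (by decide +kernel)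
theorem L93908 : W_34 (nat_lit 4) (nat_lit 0x12000f000000020003c001100080000000000000000000000000000000) (nat_lit 0x0) (nat_lit 0x400000001800060002000080000000000000000000000000000000000) := T_34 (nat_lit 157) (nat_lit 139) (nat_lit 0) (nat_lit 7) (nat_lit 9) L93907 (by decide +kernel)
theorem L93909 : W_34 (nat_lit 5) (nat_lit 0x12000f000000020003c001000080000000000000000000000000000000) (nat_lit 0x0) (nat_lit 0x400000001800060002000380000000000000000000000000000000000) := T_34 (nat_lit 140) (nat_lit 141) (nat_lit 0) (nat_lit 8) (nat_lit 9) L93908 (by decide +kernel)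
theorem L93910 : W_34 (nat_lit 6) (nat_lit 0x10000f000000020003c001000080000000000000000000000000000000) (nat_lit 0x0) (nat_lit 0x700000001800060002000380000000000000000000000000000000000) := T_34 (nat_lit 225) (nat_lit 224) (nat_lit 1) (nat_lit 7) (nat_lit 12) L93909 (by decide +kernel)
theorem L93911 : W_34 (nat_lit 7) (nat_lit 0x10000f000000020001c001000080000000000000000000000000000000) (nat_lit 0x0) (nat_lit 0x700000001800060022000380000004000000000000000000000000000) := T_34 (nat_lit 161) (nat_lit 110) (nat_lit 5) (nat_lit 8) (nat_lit 6) L93910 (by decide +kernel)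
theorem L93912 : W_34 (nat_lit 8) (nat_lit 0xf000000020001c001000080000000000000000000000000000000) (nat_lit 0x0) (nat_lit 0x3700000001800060022000380000004000000000000000000000000000) := T_34 (nat_lit 228) (nat_lit 229) (nat_lit 3) (nat_lit 4) (nat_lit 12) L93911 (by decide +kernel)
theorem L93913 : W_34 (nat_lit 2) (nat_lit 0x12000f000000024003c001200080000000000000000000000000000000) (nat_lit 0x0) (nat_lit 0x800020002000000000000000000000000000000000000000) := D_34 (nat_lit 157) (nat_lit 173) (nat_lit 191) (nat_lit 1) (nat_lit 7) (nat_lit 9) (nat_lit 6) (nat_lit 4) (nat_lit 12) (by decide +kernel)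
theorem L93914 : W_34 (nat_lit 3) (nat_lit 0x12000f000000024003c001000080000000000000000000000000000000) (nat_lit 0x0) (nat_lit 0x800020002000300000000000000000000000000000000000) := T_34 (nat_lit 141) (nat_lit 140) (nat_lit 0) (nat_lit 8) (nat_lit 9) L93913 (by decide +kernel)
theorem L93915 : W_34 (nat_lit 4) (nat_lit 0x12000f000000020003c001000080000000000000000000000000000000) (nat_lit 0x0) (nat_lit 0x8000e0002000300000000000000000000000000000000000) := T_34 (nat_lit 174) (nat_lit 175) (nat_lit 1) (nat_lit 8) (nat_lit 9) L93914 (by decide +kernel)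
theorem L93916 : W_34 (nat_lit 5) (nat_lit 0x12000f000000020001c001000080000000000000000000000000000000) (nat_lit 0x0) (nat_lit 0x8000e0022000300000004000000000000000000000000000) := T_34 (nat_lit 161) (nat_lit 110) (nat_lit 5) (nat_lit 8) (nat_lit 6) L93915 (by decide +kernel)
theorem L93917 : W_34 (nat_lit 6) (nat_lit 0x2000f000000020001c001000080000000000000000000000000000000) (nat_lit 0x0) (nat_lit 0x30000000008000e0022000300000004000000000000000000000000000) := T_34 (nat_lit 228) (nat_lit 229) (nat_lit 3) (nat_lit 4) (nat_lit 12) L93916 (by decide +kernel)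
theorem L93918 : W_34 (nat_lit 7) (nat_lit 0xf000000020001c001000080000000000000000000000000000000) (nat_lit 0x0) (nat_lit 0x33000000008000e0022000300000004000000000000000000000000000) := T_34 (nat_lit 225) (nat_lit 224) (nat_lit 1) (nat_lit 7) (nat_lit 12) L93917 (by decide +kernel)
theorem L93919 : W_34 (nat_lit 2) (nat_lit 0x11000fe00100020003c001600080000000000000000000000000000000) (nat_lit 0x0) (nat_lit 0x380000000000000000000000000000000000000000000000) := D_34 (nat_lit 188) (nat_lit 189) (nat_lit 187) (nat_lit 0) (nat_lit 5) (nat_lit 12) (nat_lit 0) (nat_lit 4) (nat_lit 12) (by decide +kernel)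
theorem L93920 : W_34 (nat_lit 3) (nat_lit 0x11000fc00100020003c001600080000000000000000000000000000000) (nat_lit 0x0) (nat_lit 0x2000b80000000000000000000000000000000000000000000000) := T_34 (nat_lit 205) (nat_lit 191) (nat_lit 2) (nat_lit 1) (nat_lit 12) L93919 (by decide +kernel)
theorem L93921 : W_34 (nat_lit 4) (nat_lit 0x11000f800100020003c001600080000000000000000000000000000000) (nat_lit 0x0) (nat_lit 0x6002b80000000000000000000000000000000000000000000000) := T_34 (nat_lit 206) (nat_lit 193) (nat_lit 2) (nat_lit 2) (nat_lit 12) L93920 (by decide +kernel)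
theorem L93922 : W_34 (nat_lit 5) (nat_lit 0x11000f800000020003c001600080000000000000000000000000000000) (nat_lit 0x0) (nat_lit 0x6003b80080000000000000000000000000000000000000000000) := T_34 (nat_lit 192) (nat_lit 175) (nat_lit 6) (nat_lit 5) (nat_lit 12) L93921 (by decide +kernel)
theorem L93923 : W_34 (nat_lit 6) (nat_lit 0x1000f800000020003c001600080000000000000000000000000000000) (nat_lit 0x0) (nat_lit 0x3000006003b80080000000000000000000000000000000000000000000) := T_34 (nat_lit 228) (nat_lit 229) (nat_lit 3) (nat_lit 4) (nat_lit 12) L93922 (by decide +kernel)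
theorem L93924 : W_34 (nat_lit 7) (nat_lit 0x1000f800000020003c001200080000000000000000000000000000000) (nat_lit 0x0) (nat_lit 0x3000006003b80080040000400000000000000000000000000000000000) := T_34 (nat_lit 142) (nat_lit 162) (nat_lit 0) (nat_lit 9) (nat_lit 9) L93923 (by decide +kernel)
theorem L93925 : W_34 (nat_lit 8) (nat_lit 0x1000f000000020003c001200080000000000000000000000000000000) (nat_lit 0x0) (nat_lit 0x308000e003b80080040000400000000000000000000000000000000000) := T_34 (nat_lit 207) (nat_lit 223) (nat_lit 1) (nat_lit 6) (nat_lit 12) L93924 (by decide +kernel)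
theorem L93926 : W_34 (nat_lit 9) (nat_lit 0x1000f000000020003c001000080000000000000000000000000000000) (nat_lit 0x0) (nat_lit 0x308000e003b80080040000700000000000000000000000000000000000) := T_34 (nat_lit 141) (nat_lit 140) (nat_lit 0) (nat_lit 8) (nat_lit 9) L93925 (by decide +kernel)
theorem L93927 : W_34 (nat_lit 10) (nat_lit 0xf000000020003c001000080000000000000000000000000000000) (nat_lit 0x0) (nat_lit 0x338000e003b80080040000700000000000000000000000000000000000) := T_34 (nat_lit 224) (nat_lit 225) (nat_lit 1) (nat_lit 7) (nat_lit 12) L93926 (by decide +kernel)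
theorem L93928 : W_34 (nat_lit 11) (nat_lit 0xf000000020001c001000080000000000000000000000000000000) (nat_lit 0x0) (nat_lit 0x338000e003b80080060000700000004000000000000000000000000000) := T_34 (nat_lit 161) (nat_lit 110) (nat_lit 5) (nat_lit 8) (nat_lit 6) L93927 (by decide +kernel)
theorem L93929 : W_34 (nat_lit 2) (nat_lit 0x12000f00000002c001c001000080000000000000000000000000000000) (nat_lit 0x0) (nat_lit 0x30002000000000000000000000000000000000000000) := D_34 (nat_lit 173) (nat_lit 172) (nat_lit 157) (nat_lit 2) (nat_lit 2) (nat_lit 10) (nat_lit 1) (nat_lit 7) (nat_lit 9) (by decide +kernel)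
theorem L93930 : W_34 (nat_lit 3) (nat_lit 0x12000f000000028001c001000080000000000000000000000000000000) (nat_lit 0x0) (nat_lit 0x800070002000000000000000000000000000000000000000) := T_34 (nat_lit 174) (nat_lit 191) (nat_lit 6) (nat_lit 4) (nat_lit 13) L93929 (by decide +kernel)
theorem L93931 : W_34 (nat_lit 4) (nat_lit 0x12000f000000020001c001000080000000000000000000000000000000) (nat_lit 0x0) (nat_lit 0x18000f0002000000000000000000000000000000000000000) := T_34 (nat_lit 175) (nat_lit 192) (nat_lit 5) (nat_lit 5) (nat_lit 9) L93930 (by decide +kernel)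
theorem L93932 : W_34 (nat_lit 5) (nat_lit 0x10000f000000020001c001000080000000000000000000000000000000) (nat_lit 0x0) (nat_lit 0x3000000018000f0002000000000000000000000000000000000000000) := T_34 (nat_lit 225) (nat_lit 224) (nat_lit 1) (nat_lit 7) (nat_lit 12) L93931 (by decide +kernel)
theorem L93933 : W_34 (nat_lit 6) (nat_lit 0xf000000020001c001000080000000000000000000000000000000) (nat_lit 0x0) (nat_lit 0x33000000018000f0002000000000000000000000000000000000000000) := T_34 (nat_lit 228) (nat_lit 229) (nat_lit 3) (nat_lit 4) (nat_lit 12) L93932 (by decide +kernel)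
theorem L93934 : W_34 (nat_lit 2) (nat_lit 0x2000f000000020003c001000080000000000000000000000000000000) (nat_lit 0x0) (nat_lit 0x10000c0000000000000000000000000000000000000000000) := D_34 (nat_lit 175) (nat_lit 192) (nat_lit 174) (nat_lit 5) (nat_lit 5) (nat_lit 9) (nat_lit 1) (nat_lit 8) (nat_lit 9) (by decide +kernel)
theorem L93935 : W_34 (nat_lit 3) (nat_lit 0x2000f000000020001c001000080000000000000000000000000000000) (nat_lit 0x0) (nat_lit 0x10000c0020000000000004000000000000000000000000000) := T_34 (nat_lit 161) (nat_lit 110) (nat_lit 5) (nat_lit 8) (nat_lit 6) L93934 (by decide +kernel)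
theorem L93936 : W_34 (nat_lit 4) (nat_lit 0xf000000020001c001000080000000000000000000000000000000) (nat_lit 0x0) (nat_lit 0x3000000010000c0020000000000004000000000000000000000000000) := T_34 (nat_lit 225) (nat_lit 224) (nat_lit 1) (nat_lit 7) (nat_lit 12) L93935 (by decide +kernel)
theorem L93937 : W_34 (nat_lit 2) (nat_lit 0x10000f000000028003c001200080000000000000000000000000000000) (nat_lit 0x0) (nat_lit 0x1000000040000400000000000000000000000000000000000) := D_34 (nat_lit 142) (nat_lit 162) (nat_lit 192) (nat_lit 0) (nat_lit 9) (nat_lit 9) (nat_lit 6) (nat_lit 5) (nat_lit 12) (by decide +kernel)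
theorem L93938 : W_34 (nat_lit 3) (nat_lit 0x10000f000000020003c001200080000000000000000000000000000000) (nat_lit 0x0) (nat_lit 0x10000c0040000400000000000000000000000000000000000) := T_34 (nat_lit 175) (nat_lit 174) (nat_lit 1) (nat_lit 8) (nat_lit 9) L93937 (by decide +kernel)
theorem L93939 : W_34 (nat_lit 4) (nat_lit 0x10000f000000020003c001000080000000000000000000000000000000) (nat_lit 0x0) (nat_lit 0x10000c0040000700000000000000000000000000000000000) := T_34 (nat_lit 141) (nat_lit 140) (nat_lit 0) (nat_lit 8) (nat_lit 9) L93938 (by decide +kernel)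
theorem L93940 : W_34 (nat_lit 5) (nat_lit 0xf000000020003c001000080000000000000000000000000000000) (nat_lit 0x0) (nat_lit 0x30000000010000c0040000700000000000000000000000000000000000) := T_34 (nat_lit 228) (nat_lit 229) (nat_lit 3) (nat_lit 4) (nat_lit 12) L93939 (by decide +kernel)
theorem L93941 : W_34 (nat_lit 6) (nat_lit 0xf000000020001c001000080000000000000000000000000000000) (nat_lit 0x0) (nat_lit 0x30000000010000c0060000700000004000000000000000000000000000) := T_34 (nat_lit 161) (nat_lit 110) (nat_lit 5) (nat_lit 8) (nat_lit 6) L93940 (by decide +kernel)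
theorem L93942 : W_34 (nat_lit 12) (nat_lit 0xf0000000200018001000080000000000000000000000000000000) (nat_lit 0x0) (nat_lit 0x378000e003b800f0066000780000004000000000000000000000000000) := Q_34 (nat_lit 158) (C_34 L93886 (C_34 L93912 (C_34 L93918 (C_34 L93928 (C_34 L93933 (C_34 L93936 (C_34 L93941 N_34))))))) (by decide +kernel)
theorem L93943 : W_34 (nat_lit 2) (nat_lit 0x12002f0000000b0007e001200080000000000000000000000000000000) (nat_lit 0x0) (nat_lit 0x800060000000000000000000000000000000000000000000) := D_34 (nat_lit 174) (nat_lit 173) (nat_lit 191) (nat_lit 1) (nat_lit 7) (nat_lit 9) (nat_lit 6) (nat_lit 4) (nat_lit 12) (by decide +kernel)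
theorem L93944 : W_34 (nat_lit 3) (nat_lit 0x12002f0000000b0007c001200080000000000000000000000000000000) (nat_lit 0x0) (nat_lit 0x800060003000000000000000000000000000000000000000) := T_34 (nat_lit 157) (nat_lit 156) (nat_lit 3) (nat_lit 3) (nat_lit 9) L93943 (by decide +kernel)
theorem L93945 : W_34 (nat_lit 4) (nat_lit 0x12000f0000000b0007c001200080000000000000000000000000000000) (nat_lit 0x0) (nat_lit 0x200010800060003000000000000000000000000000000000000000) := T_34 (nat_lit 213) (nat_lit 196) (nat_lit 4) (nat_lit 9) (nat_lit 12) L93944 (by decide +kernel)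
theorem L93946 : W_34 (nat_lit 5) (nat_lit 0x12000f0000000b00078001200080000000000000000000000000000000) (nat_lit 0x0) (nat_lit 0x200010800060007000100000000000000000000000000000000000) := T_34 (nat_lit 158) (nat_lit 140) (nat_lit 0) (nat_lit 8) (nat_lit 9) L93945 (by decide +kernel)
theorem L93947 : W_34 (nat_lit 6) (nat_lit 0x12000f0000000300078001200080000000000000000000000000000000) (nat_lit 0x0) (nat_lit 0x200010801860007000100000000000000000000000000000000000) := T_34 (nat_lit 179) (nat_lit 180) (nat_lit 3) (nat_lit 6) (nat_lit 9) L93946 (by decide +kernel)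
theorem L93948 : W_34 (nat_lit 7) (nat_lit 0x12000f0000000300078001000080000000000000000000000000000000) (nat_lit 0x0) (nat_lit 0x200010801860007000700000000000000000000000000000000000) := T_34 (nat_lit 141) (nat_lit 142) (nat_lit 0) (nat_lit 9) (nat_lit 9) L93947 (by decide +kernel)
theorem L93949 : W_34 (nat_lit 8) (nat_lit 0x12000f0000000300038001000080000000000000000000000000000000) (nat_lit 0x0) (nat_lit 0x2000108018600c7000700000000000000000000000000000000000) := T_34 (nat_lit 162) (nat_lit 163) (nat_lit 1) (nat_lit 10) (nat_lit 9) L93948 (by decide +kernel)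
theorem L93950 : W_34 (nat_lit 9) (nat_lit 0x12000f0000000300018001000080000000000000000000000000000000) (nat_lit 0x0) (nat_lit 0x2000108018600e7000700000004000000000000000000000000000) := T_34 (nat_lit 161) (nat_lit 110) (nat_lit 5) (nat_lit 8) (nat_lit 6) L93949 (by decide +kernel)
theorem L93951 : W_34 (nat_lit 10) (nat_lit 0x12000f0000000200018001000080000000000000000000000000000000) (nat_lit 0x0) (nat_lit 0x2000128019600e7000700000004000000000000000000000000000) := T_34 (nat_lit 176) (nat_lit 193) (nat_lit 7) (nat_lit 6) (nat_lit 9) L93950 (by decide +kernel)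
theorem L93952 : W_34 (nat_lit 11) (nat_lit 0x10000f0000000200018001000080000000000000000000000000000000) (nat_lit 0x0) (nat_lit 0x3002000128019600e7000700000004000000000000000000000000000) := T_34 (nat_lit 225) (nat_lit 224) (nat_lit 1) (nat_lit 7) (nat_lit 12) L93951 (by decide +kernel)
theorem L93953 : W_34 (nat_lit 12) (nat_lit 0xf0000000200018001000080000000000000000000000000000000) (nat_lit 0x0) (nat_lit 0x33002000128019600e7000700000004000000000000000000000000000) := T_34 (nat_lit 228) (nat_lit 229) (nat_lit 3) (nat_lit 4) (nat_lit 12) L93952 (by decide +kernel)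
theorem L93954 : W_34 (nat_lit 2) (nat_lit 0x12000f0000000300038001000080000000000000000000000000000000) (nat_lit 0x0) (nat_lit 0x800c0000000000000000000000000000000000000000) := D_34 (nat_lit 162) (nat_lit 163) (nat_lit 175) (nat_lit 1) (nat_lit 10) (nat_lit 9) (nat_lit 1) (nat_lit 9) (nat_lit 9) (by decide +kernel)
theorem L93955 : W_34 (nat_lit 3) (nat_lit 0x12000f0000000200038001000080000000000000000000000000000000) (nat_lit 0x0) (nat_lit 0x20001800c0000000000000000000000000000000000000000) := T_34 (nat_lit 176) (nat_lit 193) (nat_lit 7) (nat_lit 6) (nat_lit 9) L93954 (by decide +kernel)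
theorem L93956 : W_34 (nat_lit 4) (nat_lit 0x2000f0000000200038001000080000000000000000000000000000000) (nat_lit 0x0) (nat_lit 0x30000000020001800c0000000000000000000000000000000000000000) := T_34 (nat_lit 228) (nat_lit 229) (nat_lit 3) (nat_lit 4) (nat_lit 12) L93955 (by decide +kernel)
theorem L93957 : W_34 (nat_lit 5) (nat_lit 0xf0000000200038001000080000000000000000000000000000000) (nat_lit 0x0) (nat_lit 0x33000000020001800c0000000000000000000000000000000000000000) := T_34 (nat_lit 225) (nat_lit 224) (nat_lit 1) (nat_lit 7) (nat_lit 12) L93956 (by decide +kernel)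
theorem L93958 : W_34 (nat_lit 6) (nat_lit 0xf0000000200018001000080000000000000000000000000000000) (nat_lit 0x0) (nat_lit 0x33000000020001800e0000000000004000000000000000000000000000) := T_34 (nat_lit 161) (nat_lit 110) (nat_lit 5) (nat_lit 8) (nat_lit 6) L93957 (by decide +kernel)
theorem L93959 : W_34 (nat_lit 2) (nat_lit 0x11000f800000034003a001000080000000000000000000000000000000) (nat_lit 0x0) (nat_lit 0x20005000000000000000000000000000000000000000) := D_34 (nat_lit 158) (nat_lit 156) (nat_lit 173) (nat_lit 3) (nat_lit 3) (nat_lit 9) (nat_lit 1) (nat_lit 7) (nat_lit 9) (by decide +kernel)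
theorem L93960 : W_34 (nat_lit 3) (nat_lit 0x11000f8000000340038001000080000000000000000000000000000000) (nat_lit 0x0) (nat_lit 0x800020007000000000000000000000000000000000000000) := T_34 (nat_lit 157) (nat_lit 191) (nat_lit 5) (nat_lit 4) (nat_lit 9) L93959 (by decide +kernel)
theorem L93961 : W_34 (nat_lit 4) (nat_lit 0x11000f0000000340038001000080000000000000000000000000000000) (nat_lit 0x0) (nat_lit 0x80008000800020007000000000000000000000000000000000000000) := T_34 (nat_lit 207) (nat_lit 223) (nat_lit 1) (nat_lit 6) (nat_lit 12) L93960 (by decide +kernel)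
theorem L93962 : W_34 (nat_lit 5) (nat_lit 0x10000f0000000340038001000080000000000000000000000000000000) (nat_lit 0x0) (nat_lit 0x380008000800020007000000000000000000000000000000000000000) := T_34 (nat_lit 224) (nat_lit 225) (nat_lit 1) (nat_lit 7) (nat_lit 12) L93961 (by decide +kernel)
theorem L93963 : W_34 (nat_lit 6) (nat_lit 0x10000f0000000300038001000080000000000000000000000000000000) (nat_lit 0x0) (nat_lit 0x3800080008000e0007000000000000000000000000000000000000000) := T_34 (nat_lit 174) (nat_lit 175) (nat_lit 2) (nat_lit 4) (nat_lit 10) L93962 (by decide +kernel)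
theorem L93964 : W_34 (nat_lit 7) (nat_lit 0x10000f0000000200038001000080000000000000000000000000000000) (nat_lit 0x0) (nat_lit 0x3800080028001e0007000000000000000000000000000000000000000) := T_34 (nat_lit 176) (nat_lit 193) (nat_lit 7) (nat_lit 6) (nat_lit 9) L93963 (by decide +kernel)
theorem L93965 : W_34 (nat_lit 8) (nat_lit 0x10000f0000000200018001000080000000000000000000000000000000) (nat_lit 0x0) (nat_lit 0x3800080028001e0027000000000004000000000000000000000000000) := T_34 (nat_lit 161) (nat_lit 110) (nat_lit 5) (nat_lit 8) (nat_lit 6) L93964 (by decide +kernel)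
theorem L93966 : W_34 (nat_lit 9) (nat_lit 0xf0000000200018001000080000000000000000000000000000000) (nat_lit 0x0) (nat_lit 0x33800080028001e0027000000000004000000000000000000000000000) := T_34 (nat_lit 228) (nat_lit 229) (nat_lit 3) (nat_lit 4) (nat_lit 12) L93965 (by decide +kernel)
theorem L93967 : W_34 (nat_lit 2) (nat_lit 0x2000f00000002c001c001000080000000000000000000000000000000) (nat_lit 0x0) (nat_lit 0x120002000000000000000000000000000000000000000) := D_34 (nat_lit 173) (nat_lit 176) (nat_lit 157) (nat_lit 2) (nat_lit 3) (nat_lit 10) (nat_lit 1) (nat_lit 7) (nat_lit 9) (by decide +kernel)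
theorem L93968 : W_34 (nat_lit 3) (nat_lit 0x2000f000000028001c001000080000000000000000000000000000000) (nat_lit 0x0) (nat_lit 0x800160002000000000000000000000000000000000000000) := T_34 (nat_lit 174) (nat_lit 191) (nat_lit 6) (nat_lit 4) (nat_lit 13) L93967 (by decide +kernel)
theorem L93969 : W_34 (nat_lit 4) (nat_lit 0x2000f000000020001c001000080000000000000000000000000000000) (nat_lit 0x0) (nat_lit 0x18001e0002000000000000000000000000000000000000000) := T_34 (nat_lit 175) (nat_lit 192) (nat_lit 5) (nat_lit 5) (nat_lit 9) L93968 (by decide +kernel)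
theorem L93970 : W_34 (nat_lit 5) (nat_lit 0xf000000020001c001000080000000000000000000000000000000) (nat_lit 0x0) (nat_lit 0x3000000018001e0002000000000000000000000000000000000000000) := T_34 (nat_lit 225) (nat_lit 224) (nat_lit 1) (nat_lit 7) (nat_lit 12) L93969 (by decide +kernel)
theorem L93971 : W_34 (nat_lit 2) (nat_lit 0x4000000011000f800300020001c001000080000000000000000000000000000000) (nat_lit 0x0) (nat_lit 0x80000000600000000000000000000000000000000000) := D_34 (nat_lit 175) (nat_lit 142) (nat_lit 141) (nat_lit 6) (nat_lit 5) (nat_lit 12) (nat_lit 7) (nat_lit 5) (nat_lit 8) (by decide +kernel)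
theorem L93972 : W_34 (nat_lit 3) (nat_lit 0x4000000011000f800200020001c001000080000000000000000000000000000000) (nat_lit 0x0) (nat_lit 0x4001000080000000600000000000000000000000000000000000) := T_34 (nat_lit 192) (nat_lit 206) (nat_lit 2) (nat_lit 2) (nat_lit 12) L93971 (by decide +kernel)
theorem L93973 : W_34 (nat_lit 4) (nat_lit 0x11000f800200020001c001000080000000000000000000000000000000) (nat_lit 0x0) (nat_lit 0x400020000000004001000080000000600000000000000000000000000000000000) := T_34 (nat_lit 262) (nat_lit 245) (nat_lit 4) (nat_lit 7) (nat_lit 15) L93972 (by decide +kernel)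
theorem L93974 : W_34 (nat_lit 5) (nat_lit 0x11000f800000020001c001000080000000000000000000000000000000) (nat_lit 0x0) (nat_lit 0x400020000000004003000180000000600000000000000000000000000000000000) := T_34 (nat_lit 193) (nat_lit 176) (nat_lit 7) (nat_lit 6) (nat_lit 9) L93973 (by decide +kernel)
theorem L93975 : W_34 (nat_lit 6) (nat_lit 0x11000f000000020001c001000080000000000000000000000000000000) (nat_lit 0x0) (nat_lit 0x40002000008000c003000180000000600000000000000000000000000000000000) := T_34 (nat_lit 207) (nat_lit 223) (nat_lit 1) (nat_lit 6) (nat_lit 12) L93974 (by decide +kernel)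
theorem L93976 : W_34 (nat_lit 7) (nat_lit 0x1000f000000020001c001000080000000000000000000000000000000) (nat_lit 0x0) (nat_lit 0x40002000308000c003000180000000600000000000000000000000000000000000) := T_34 (nat_lit 228) (nat_lit 229) (nat_lit 3) (nat_lit 4) (nat_lit 12) L93975 (by decide +kernel)
theorem L93977 : W_34 (nat_lit 8) (nat_lit 0xf000000020001c001000080000000000000000000000000000000) (nat_lit 0x0) (nat_lit 0x40002000338000c003000180000000600000000000000000000000000000000000) := T_34 (nat_lit 224) (nat_lit 225) (nat_lit 1) (nat_lit 7) (nat_lit 12) L93976 (by decide +kernel)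
theorem L93978 : W_34 (nat_lit 9) (nat_lit 0xf0000000200018001000080000000000000000000000000000000) (nat_lit 0x0) (nat_lit 0x40002000378000c0038001f0007000600000000000000000000000000000000000) := Q_34 (nat_lit 158) (C_34 L93933 (C_34 L93970 (C_34 L93904 (C_34 L93977 N_34)))) (by decide +kernel)
theorem L93979 : W_34 (nat_lit 2) (nat_lit 0x10000f0000000300038001000080000000000000000000000000000000) (nat_lit 0x0) (nat_lit 0xc0040000000000000000000000000000000000000000) := D_34 (nat_lit 175) (nat_lit 174) (nat_lit 162) (nat_lit 2) (nat_lit 4) (nat_lit 10) (nat_lit 1) (nat_lit 9) (nat_lit 9) (by decide +kernel)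
theorem L93980 : W_34 (nat_lit 3) (nat_lit 0x10000f0000000200038001000080000000000000000000000000000000) (nat_lit 0x0) (nat_lit 0x20001c0040000000000000000000000000000000000000000) := T_34 (nat_lit 176) (nat_lit 193) (nat_lit 7) (nat_lit 6) (nat_lit 9) L93979 (by decide +kernel)
theorem L93981 : W_34 (nat_lit 4) (nat_lit 0x10000f0000000200018001000080000000000000000000000000000000) (nat_lit 0x0) (nat_lit 0x20001c0060000000000004000000000000000000000000000) := T_34 (nat_lit 161) (nat_lit 110) (nat_lit 5) (nat_lit 8) (nat_lit 6) L93980 (by decide +kernel)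
theorem L93982 : W_34 (nat_lit 5) (nat_lit 0xf0000000200018001000080000000000000000000000000000000) (nat_lit 0x0) (nat_lit 0x30000000020001c0060000000000004000000000000000000000000000) := T_34 (nat_lit 228) (nat_lit 229) (nat_lit 3) (nat_lit 4) (nat_lit 12) L93981 (by decide +kernel)
theorem L93983 : W_34 (nat_lit 13) (nat_lit 0xf0000000200010001000080000000000000000000000000000000) (nat_lit 0x0) (nat_lit 0x40002000378020e013b839f00ef000780010004000000000000000000000000000) := Q_34 (nat_lit 159) (C_34 L93843 (C_34 L93876 (C_34 L93883 (C_34 L93905 (C_34 L93942 (C_34 L93953 (C_34 L93958 (C_34 L93966 (C_34 L93978 (C_34 L93982 N_34)))))))))) (by decide +kernel)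
theorem L93984 : W_34 (nat_lit 2) (nat_lit 0xf8000000200010001000080000000000000000000000000000000) (nat_lit 0x0) (nat_lit 0xe00000000000000000000000000000000000000000000000) := D_34 (nat_lit 190) (nat_lit 191) (nat_lit 189) (nat_lit 0) (nat_lit 7) (nat_lit 12) (nat_lit 0) (nat_lit 6) (nat_lit 12) (by decide +kernel)
theorem L93985 : W_34 (nat_lit 2) (nat_lit 0x10800fc001100200010001000080000000000000000000000000000000) (nat_lit 0x0) (nat_lit 0x2000880000000000000000000000000000000000000000000000) := D_34 (nat_lit 205) (nat_lit 191) (nat_lit 187) (nat_lit 2) (nat_lit 1) (nat_lit 12) (nat_lit 0) (nat_lit 4) (nat_lit 12) (by decide +kernel)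
theorem L93986 : W_34 (nat_lit 3) (nat_lit 0x10800fc000100200010001000080000000000000000000000000000000) (nat_lit 0x0) (nat_lit 0x2003880000000000000000000000000000000000000000000000) := T_34 (nat_lit 192) (nat_lit 193) (nat_lit 2) (nat_lit 2) (nat_lit 12) L93985 (by decide +kernel)
theorem L93987 : W_34 (nat_lit 4) (nat_lit 0x10800fc000000200010001000080000000000000000000000000000000) (nat_lit 0x0) (nat_lit 0x2003b80000000000000000000000000000000000000000000000) := T_34 (nat_lit 188) (nat_lit 189) (nat_lit 0) (nat_lit 5) (nat_lit 12) L93986 (by decide +kernel)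
theorem L93988 : W_34 (nat_lit 5) (nat_lit 0x10800f8000000200010001000080000000000000000000000000000000) (nat_lit 0x0) (nat_lit 0x40006003b80000000000000000000000000000000000000000000000) := T_34 (nat_lit 206) (nat_lit 222) (nat_lit 1) (nat_lit 5) (nat_lit 12) L93987 (by decide +kernel)
theorem L93989 : W_34 (nat_lit 6) (nat_lit 0x800f8000000200010001000080000000000000000000000000000000) (nat_lit 0x0) (nat_lit 0x3040006003b80000000000000000000000000000000000000000000000) := T_34 (nat_lit 228) (nat_lit 229) (nat_lit 3) (nat_lit 4) (nat_lit 12) L93988 (by decide +kernel)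
theorem L93990 : W_34 (nat_lit 7) (nat_lit 0xf8000000200010001000080000000000000000000000000000000) (nat_lit 0x0) (nat_lit 0x31c0006003b80000000000000000000000000000000000000000000000) := T_34 (nat_lit 223) (nat_lit 224) (nat_lit 1) (nat_lit 6) (nat_lit 12) L93989 (by decide +kernel)
theorem L93991 : W_34 (nat_lit 2) (nat_lit 0x400000011000f80008002c0034001000080000000000000000000000000000000) (nat_lit 0x0) (nat_lit 0x1000000000000200010000000000000000000000000000000) := D_34 (nat_lit 141) (nat_lit 124) (nat_lit 192) (nat_lit 5) (nat_lit 5) (nat_lit 7) (nat_lit 5) (nat_lit 5) (nat_lit 8) (by decide +kernel)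
theorem L93992 : W_34 (nat_lit 3) (nat_lit 0x400000011000f80008002c0030001000080000000000000000000000000000000) (nat_lit 0x0) (nat_lit 0x100000000c000200010000000000000000000000000000000) := T_34 (nat_lit 158) (nat_lit 159) (nat_lit 1) (nat_lit 8) (nat_lit 9) L93991 (by decide +kernel)
theorem L93993 : W_34 (nat_lit 4) (nat_lit 0x400000011000f8000800240030001000080000000000000000000000000000000) (nat_lit 0x0) (nat_lit 0x100018000c000200010000000000000000000000000000000) := T_34 (nat_lit 175) (nat_lit 176) (nat_lit 2) (nat_lit 4) (nat_lit 10) L93992 (by decide +kernel)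
theorem L93994 : W_34 (nat_lit 5) (nat_lit 0x400000011000f8000800200030001000080000000000000000000000000000000) (nat_lit 0x0) (nat_lit 0x10001c000e000200010000000000000000000000000000000) := T_34 (nat_lit 174) (nat_lit 157) (nat_lit 5) (nat_lit 4) (nat_lit 9) L93993 (by decide +kernel)
theorem L93995 : W_34 (nat_lit 6) (nat_lit 0x11000f8000800200030001000080000000000000000000000000000000) (nat_lit 0x0) (nat_lit 0x400020000000000010001c000e000200010000000000000000000000000000000) := T_34 (nat_lit 258) (nat_lit 241) (nat_lit 6) (nat_lit 3) (nat_lit 15) L93994 (by decide +kernel)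
theorem L93996 : W_34 (nat_lit 7) (nat_lit 0x11000f8000800200010001000080000000000000000000000000000000) (nat_lit 0x0) (nat_lit 0x400020000000000010001c002e000200010004000000000000000000000000000) := T_34 (nat_lit 161) (nat_lit 110) (nat_lit 5) (nat_lit 8) (nat_lit 6) L93995 (by decide +kernel)
theorem L93997 : W_34 (nat_lit 8) (nat_lit 0x10000f8000800200010001000080000000000000000000000000000000) (nat_lit 0x0) (nat_lit 0x400020001800000010001c002e000200010004000000000000000000000000000) := T_34 (nat_lit 224) (nat_lit 223) (nat_lit 1) (nat_lit 6) (nat_lit 12) L93996 (by decide +kernel)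
theorem L93998 : W_34 (nat_lit 9) (nat_lit 0x10000f8000000200010001000080000000000000000000000000000000) (nat_lit 0x0) (nat_lit 0x40002000180000001c001c002e000200010004000000000000000000000000000) := T_34 (nat_lit 191) (nat_lit 190) (nat_lit 0) (nat_lit 7) (nat_lit 12) L93997 (by decide +kernel)
theorem L93999 : W_34 (nat_lit 10) (nat_lit 0xf8000000200010001000080000000000000000000000000000000) (nat_lit 0x0) (nat_lit 0x40002003180000001c001c002e000200010004000000000000000000000000000) := T_34 (nat_lit 228) (nat_lit 229) (nat_lit 3) (nat_lit 4) (nat_lit 12) L93998 (by decide +kernel)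
theorem L94000 : W_34 (nat_lit 11) (nat_lit 0xf0000000200010001000080000000000000000000000000000000) (nat_lit 0x0) (nat_lit 0x400020031c000e003f801c002e000200010004000000000000000000000000000) := Q_34 (nat_lit 207) (C_34 L93818 (C_34 L93984 (C_34 L93990 (C_34 L93999 N_34)))) (by decide +kernel)
theorem L94001 : W_34 (nat_lit 2) (nat_lit 0x12000f0001800200010001000080000000000000000000000000000000) (nat_lit 0x0) (nat_lit 0x80004000000000000000080000000000000000000000000000000000000000000) := D_34 (nat_lit 242) (nat_lit 259) (nat_lit 175) (nat_lit 6) (nat_lit 4) (nat_lit 15) (nat_lit 6) (nat_lit 4) (nat_lit 14) (by decide +kernel)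
theorem L94002 : W_34 (nat_lit 3) (nat_lit 0x12000f0001000200010001000080000000000000000000000000000000) (nat_lit 0x0) (nat_lit 0x80004000000000000c00080000000000000000000000000000000000000000000) := T_34 (nat_lit 191) (nat_lit 190) (nat_lit 0) (nat_lit 7) (nat_lit 12) L94001 (by decide +kernel)
theorem L94003 : W_34 (nat_lit 4) (nat_lit 0x10000f0001000200010001000080000000000000000000000000000000) (nat_lit 0x0) (nat_lit 0x80004000300000000c00080000000000000000000000000000000000000000000) := T_34 (nat_lit 225) (nat_lit 224) (nat_lit 1) (nat_lit 7) (nat_lit 12) L94002 (by decide +kernel)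
theorem L94004 : W_34 (nat_lit 5) (nat_lit 0xf0001000200010001000080000000000000000000000000000000) (nat_lit 0x0) (nat_lit 0x80004003300000000c00080000000000000000000000000000000000000000000) := T_34 (nat_lit 228) (nat_lit 229) (nat_lit 3) (nat_lit 4) (nat_lit 12) L94003 (by decide +kernel)
theorem L94005 : W_34 (nat_lit 2) (nat_lit 0x2000f0001800200010001000080000000000000000000000000000000) (nat_lit 0x0) (nat_lit 0x4000000000000000080004000000000000000000000000000000000000000) := D_34 (nat_lit 175) (nat_lit 158) (nat_lit 242) (nat_lit 5) (nat_lit 5) (nat_lit 9) (nat_lit 6) (nat_lit 4) (nat_lit 14) (by decide +kernel)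
theorem L94006 : W_34 (nat_lit 3) (nat_lit 0xf0001800200010001000080000000000000000000000000000000) (nat_lit 0x0) (nat_lit 0x4000300000000000080004000000000000000000000000000000000000000) := T_34 (nat_lit 225) (nat_lit 224) (nat_lit 1) (nat_lit 7) (nat_lit 12) L94005 (by decide +kernel)
theorem L94007 : W_34 (nat_lit 4) (nat_lit 0xf0001000200010001000080000000000000000000000000000000) (nat_lit 0x0) (nat_lit 0x4000300000000c00080004000000000000000000000000000000000000000) := T_34 (nat_lit 191) (nat_lit 190) (nat_lit 0) (nat_lit 7) (nat_lit 12) L94006 (by decide +kernel)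
theorem L94008 : W_34 (nat_lit 2) (nat_lit 0xe0012000f0001800240012001000080004000000000000000000000000000) (nat_lit 0x0) (nat_lit 0x20001000080000000000000000000000000000000000) := D_34 (nat_lit 156) (nat_lit 173) (nat_lit 139) (nat_lit 4) (nat_lit 4) (nat_lit 13) (nat_lit 4) (nat_lit 4) (nat_lit 12) (by decide +kernel)
theorem L94009 : W_34 (nat_lit 3) (nat_lit 0xe0012000f0001800240010001000080004000000000000000000000000000) (nat_lit 0x0) (nat_lit 0x20003000180000000000000000000000000000000000) := T_34 (nat_lit 157) (nat_lit 140) (nat_lit 7) (nat_lit 4) (nat_lit 8) L94008 (by decide +kernel)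
theorem L94010 : W_34 (nat_lit 4) (nat_lit 0xe0012000f0001800200010001000080004000000000000000000000000000) (nat_lit 0x0) (nat_lit 0x400000000000060003000180000000000000000000000000000000000) := T_34 (nat_lit 174) (nat_lit 226) (nat_lit 7) (nat_lit 4) (nat_lit 10) L94009 (by decide +kernel)
theorem L94011 : W_34 (nat_lit 5) (nat_lit 0x60012000f0001800200010001000080004000000000000000000000000000) (nat_lit 0x0) (nat_lit 0x100008000400000000000060003000180000000000000000000000000000000000) := T_34 (nat_lit 243) (nat_lit 260) (nat_lit 7) (nat_lit 4) (nat_lit 11) L94010 (by decide +kernel)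
theorem L94012 : W_34 (nat_lit 6) (nat_lit 0x40012000f0001800200010001000080004000000000000000000000000000) (nat_lit 0x0) (nat_lit 0x14000a000400000000000060003000180000000000000000000000000000000000) := T_34 (nat_lit 241) (nat_lit 258) (nat_lit 5) (nat_lit 4) (nat_lit 11) L94011 (by decide +kernel)
theorem L94013 : W_34 (nat_lit 7) (nat_lit 0x12000f0001800200010001000080004000000000000000000000000000) (nat_lit 0x0) (nat_lit 0x1c000e000400000000000060003000180000000000000000000000000000000000) := T_34 (nat_lit 242) (nat_lit 259) (nat_lit 6) (nat_lit 4) (nat_lit 15) L94012 (by decide +kernel)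
theorem L94014 : W_34 (nat_lit 8) (nat_lit 0x10000f0001800200010001000080004000000000000000000000000000) (nat_lit 0x0) (nat_lit 0x1c000e000700000000000060003000180000000000000000000000000000000000) := T_34 (nat_lit 225) (nat_lit 224) (nat_lit 1) (nat_lit 7) (nat_lit 12) L94013 (by decide +kernel)
theorem L94015 : W_34 (nat_lit 9) (nat_lit 0x10000f0001000200010001000080004000000000000000000000000000) (nat_lit 0x0) (nat_lit 0x1c000e000700000000c00060003000180000000000000000000000000000000000) := T_34 (nat_lit 191) (nat_lit 190) (nat_lit 0) (nat_lit 7) (nat_lit 12) L94014 (by decide +kernel)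
theorem L94016 : W_34 (nat_lit 10) (nat_lit 0xf0001000200010001000080004000000000000000000000000000) (nat_lit 0x0) (nat_lit 0x1c000e003700000000c00060003000180000000000000000000000000000000000) := T_34 (nat_lit 228) (nat_lit 229) (nat_lit 3) (nat_lit 4) (nat_lit 12) L94015 (by decide +kernel)
theorem L94017 : W_34 (nat_lit 11) (nat_lit 0xf0001000200010001000080000000000000000000000000000000) (nat_lit 0x0) (nat_lit 0x1c000e003700000000c00060023000180000004000000000000000000000000000) := T_34 (nat_lit 110) (nat_lit 161) (nat_lit 5) (nat_lit 8) (nat_lit 6) L94016 (by decide +kernel)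
theorem L94018 : W_34 (nat_lit 2) (nat_lit 0x800000012000f0001000380030001000080000000000000000000000000000000) (nat_lit 0x0) (nat_lit 0xc8000000000000000000000000000000000000000) := D_34 (nat_lit 162) (nat_lit 163) (nat_lit 159) (nat_lit 1) (nat_lit 10) (nat_lit 9) (nat_lit 1) (nat_lit 9) (nat_lit 9) (by decide +kernel)
theorem L94019 : W_34 (nat_lit 3) (nat_lit 0x800000012000f0001000280030001000080000000000000000000000000000000) (nat_lit 0x0) (nat_lit 0x1400c8000000000000000000000000000000000000000) := T_34 (nat_lit 176) (nat_lit 174) (nat_lit 2) (nat_lit 4) (nat_lit 10) L94018 (by decide +kernel)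
theorem L94020 : W_34 (nat_lit 4) (nat_lit 0x800000012000f0001000280010001000080000000000000000000000000000000) (nat_lit 0x0) (nat_lit 0x1400e8000000000004000000000000000000000000000) := T_34 (nat_lit 161) (nat_lit 110) (nat_lit 5) (nat_lit 8) (nat_lit 6) L94019 (by decide +kernel)
theorem L94021 : W_34 (nat_lit 5) (nat_lit 0x800000012000f0001000200010001000080000000000000000000000000000000) (nat_lit 0x0) (nat_lit 0x1c00ec000000000004000000000000000000000000000) := T_34 (nat_lit 175) (nat_lit 158) (nat_lit 5) (nat_lit 5) (nat_lit 9) L94020 (by decide +kernel)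
theorem L94022 : W_34 (nat_lit 6) (nat_lit 0x12000f0001000200010001000080000000000000000000000000000000) (nat_lit 0x0) (nat_lit 0x800040000000000000001c00ec000000000004000000000000000000000000000) := T_34 (nat_lit 259) (nat_lit 242) (nat_lit 6) (nat_lit 4) (nat_lit 15) L94021 (by decide +kernel)
theorem L94023 : W_34 (nat_lit 7) (nat_lit 0x2000f0001000200010001000080000000000000000000000000000000) (nat_lit 0x0) (nat_lit 0x800040030000000000001c00ec000000000004000000000000000000000000000) := T_34 (nat_lit 228) (nat_lit 229) (nat_lit 3) (nat_lit 4) (nat_lit 12) L94022 (by decide +kernel)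
theorem L94024 : W_34 (nat_lit 8) (nat_lit 0xf0001000200010001000080000000000000000000000000000000) (nat_lit 0x0) (nat_lit 0x800040033000000000001c00ec000000000004000000000000000000000000000) := T_34 (nat_lit 225) (nat_lit 224) (nat_lit 1) (nat_lit 7) (nat_lit 12) L94023 (by decide +kernel)
theorem L94025 : W_34 (nat_lit 5) (nat_lit 0x10000f0001800280010001000080004000000000000000000000000000) (nat_lit 0x0) (nat_lit 0x40000000000006000e000700000000000000000000000000000000000) := T_34 (nat_lit 158) (nat_lit 141) (nat_lit 5) (nat_lit 5) (nat_lit 8) L92410 (by decide +kernel)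
theorem L94026 : W_34 (nat_lit 6) (nat_lit 0x10000f0001000280010001000080004000000000000000000000000000) (nat_lit 0x0) (nat_lit 0x400000000c0006000e000700000000000000000000000000000000000) := T_34 (nat_lit 191) (nat_lit 190) (nat_lit 0) (nat_lit 7) (nat_lit 12) L94025 (by decide +kernel)
theorem L94027 : W_34 (nat_lit 7) (nat_lit 0xf0001000280010001000080004000000000000000000000000000) (nat_lit 0x0) (nat_lit 0x3400000000c0006000e000700000000000000000000000000000000000) := T_34 (nat_lit 228) (nat_lit 229) (nat_lit 3) (nat_lit 4) (nat_lit 12) L94026 (by decide +kernel)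
theorem L94028 : W_34 (nat_lit 8) (nat_lit 0xf0001000280010001000080000000000000000000000000000000) (nat_lit 0x0) (nat_lit 0x3400000000c0006002e000700000004000000000000000000000000000) := T_34 (nat_lit 110) (nat_lit 161) (nat_lit 5) (nat_lit 8) (nat_lit 6) L94027 (by decide +kernel)
theorem L94029 : W_34 (nat_lit 2) (nat_lit 0xf000180028001e001000080004000000000000000000000000000) (nat_lit 0x0) (nat_lit 0x400000000000100001000000000000000000000000000000000000000) := D_34 (nat_lit 176) (nat_lit 156) (nat_lit 226) (nat_lit 3) (nat_lit 3) (nat_lit 9) (nat_lit 6) (nat_lit 5) (nat_lit 13) (by decide +kernel)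
theorem L94030 : W_34 (nat_lit 3) (nat_lit 0xf0001800280016001000080004000000000000000000000000000) (nat_lit 0x0) (nat_lit 0x400000000000100009000400000000000000000000000000000000000) := T_34 (nat_lit 159) (nat_lit 142) (nat_lit 6) (nat_lit 5) (nat_lit 12) L94029 (by decide +kernel)
theorem L94031 : W_34 (nat_lit 4) (nat_lit 0xf0001800280014001000080004000000000000000000000000000) (nat_lit 0x0) (nat_lit 0x40000000000010000b000500000000000000000000000000000000000) := T_34 (nat_lit 157) (nat_lit 140) (nat_lit 4) (nat_lit 5) (nat_lit 12) L94030 (by decide +kernel)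
theorem L94032 : W_34 (nat_lit 5) (nat_lit 0xf0001800280010001000080004000000000000000000000000000) (nat_lit 0x0) (nat_lit 0x40000000000010000f000700000000000000000000000000000000000) := T_34 (nat_lit 158) (nat_lit 141) (nat_lit 5) (nat_lit 5) (nat_lit 8) L94031 (by decide +kernel)
theorem L94033 : W_34 (nat_lit 6) (nat_lit 0xf0001800280010001000080000000000000000000000000000000) (nat_lit 0x0) (nat_lit 0x40000000000010002f000700000004000000000000000000000000000) := T_34 (nat_lit 110) (nat_lit 161) (nat_lit 5) (nat_lit 8) (nat_lit 6) L94032 (by decide +kernel)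
theorem L94034 : W_34 (nat_lit 7) (nat_lit 0xf0001000280010001000080000000000000000000000000000000) (nat_lit 0x0) (nat_lit 0x400000000c0010002f000700000004000000000000000000000000000) := T_34 (nat_lit 191) (nat_lit 190) (nat_lit 0) (nat_lit 7) (nat_lit 12) L94033 (by decide +kernel)
theorem L94035 : W_34 (nat_lit 2) (nat_lit 0x10000f00018002c0030001200080000000000000000000000000000000) (nat_lit 0x0) (nat_lit 0x8000400000000000000002000000000000000000000000000000000000000) := D_34 (nat_lit 226) (nat_lit 157) (nat_lit 243) (nat_lit 7) (nat_lit 4) (nat_lit 9) (nat_lit 4) (nat_lit 5) (nat_lit 14) (by decide +kernel)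
theorem L94036 : W_34 (nat_lit 3) (nat_lit 0x10000f0001800280030001200080000000000000000000000000000000) (nat_lit 0x0) (nat_lit 0x8000400000000000140002000000000000000000000000000000000000000) := T_34 (nat_lit 174) (nat_lit 176) (nat_lit 2) (nat_lit 4) (nat_lit 10) L94035 (by decide +kernel)
theorem L94037 : W_34 (nat_lit 4) (nat_lit 0x10000f0001800280010001200080000000000000000000000000000000) (nat_lit 0x0) (nat_lit 0x8000400000000000140022000000000004000000000000000000000000000) := T_34 (nat_lit 161) (nat_lit 110) (nat_lit 5) (nat_lit 8) (nat_lit 6) L94036 (by decide +kernel)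
theorem L94038 : W_34 (nat_lit 5) (nat_lit 0x10000f0001800280010001000080000000000000000000000000000000) (nat_lit 0x0) (nat_lit 0x8000400000000000140026000200000004000000000000000000000000000) := T_34 (nat_lit 141) (nat_lit 158) (nat_lit 5) (nat_lit 5) (nat_lit 8) L94037 (by decide +kernel)
theorem L94039 : W_34 (nat_lit 6) (nat_lit 0xf0001800280010001000080000000000000000000000000000000) (nat_lit 0x0) (nat_lit 0x8003400000000000140026000200000004000000000000000000000000000) := T_34 (nat_lit 228) (nat_lit 229) (nat_lit 3) (nat_lit 4) (nat_lit 12) L94038 (by decide +kernel)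
theorem L94040 : W_34 (nat_lit 7) (nat_lit 0xf0001000280010001000080000000000000000000000000000000) (nat_lit 0x0) (nat_lit 0x8003400000000c00140026000200000004000000000000000000000000000) := T_34 (nat_lit 191) (nat_lit 190) (nat_lit 0) (nat_lit 7) (nat_lit 12) L94039 (by decide +kernel)
theorem L94041 : W_34 (nat_lit 2) (nat_lit 0x10000f000180028001e001000080000000000000000000000000000000) (nat_lit 0x0) (nat_lit 0x400000000000100001000000000000000000000000000000000000000) := D_34 (nat_lit 176) (nat_lit 156) (nat_lit 226) (nat_lit 3) (nat_lit 3) (nat_lit 9) (nat_lit 6) (nat_lit 5) (nat_lit 13) (by decide +kernel)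
theorem L94042 : W_34 (nat_lit 3) (nat_lit 0x10000f0001800280016001000080000000000000000000000000000000) (nat_lit 0x0) (nat_lit 0x400000000000100009000400000000000000000000000000000000000) := T_34 (nat_lit 159) (nat_lit 142) (nat_lit 6) (nat_lit 5) (nat_lit 12) L94041 (by decide +kernel)
theorem L94043 : W_34 (nat_lit 4) (nat_lit 0x10000f0001800280014001000080000000000000000000000000000000) (nat_lit 0x0) (nat_lit 0x40000000000010000b000500000000000000000000000000000000000) := T_34 (nat_lit 157) (nat_lit 140) (nat_lit 4) (nat_lit 5) (nat_lit 12) L94042 (by decide +kernel)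
theorem L94044 : W_34 (nat_lit 5) (nat_lit 0x10000f0001800280010001000080000000000000000000000000000000) (nat_lit 0x0) (nat_lit 0x40000000000010000f000700000000000000000000000000000000000) := T_34 (nat_lit 158) (nat_lit 141) (nat_lit 5) (nat_lit 5) (nat_lit 8) L94043 (by decide +kernel)
theorem L94045 : W_34 (nat_lit 6) (nat_lit 0x10000f0001000280010001000080000000000000000000000000000000) (nat_lit 0x0) (nat_lit 0x400000000c0010000f000700000000000000000000000000000000000) := T_34 (nat_lit 191) (nat_lit 190) (nat_lit 0) (nat_lit 7) (nat_lit 12) L94044 (by decide +kernel)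
theorem L94046 : W_34 (nat_lit 7) (nat_lit 0xf0001000280010001000080000000000000000000000000000000) (nat_lit 0x0) (nat_lit 0x3400000000c0010000f000700000000000000000000000000000000000) := T_34 (nat_lit 228) (nat_lit 229) (nat_lit 3) (nat_lit 4) (nat_lit 12) L94045 (by decide +kernel)
theorem L94047 : W_34 (nat_lit 2) (nat_lit 0x10000f00018002c0030001000080000000000000000000000000000000) (nat_lit 0x0) (nat_lit 0x8000400000000000000002000000000000000000000000000000000000000) := D_34 (nat_lit 226) (nat_lit 157) (nat_lit 243) (nat_lit 7) (nat_lit 4) (nat_lit 9) (nat_lit 4) (nat_lit 5) (nat_lit 14) (by decide +kernel)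
theorem L94048 : W_34 (nat_lit 3) (nat_lit 0x10000f0001800280030001000080000000000000000000000000000000) (nat_lit 0x0) (nat_lit 0x8000400000000000140002000000000000000000000000000000000000000) := T_34 (nat_lit 174) (nat_lit 176) (nat_lit 2) (nat_lit 4) (nat_lit 10) L94047 (by decide +kernel)
theorem L94049 : W_34 (nat_lit 4) (nat_lit 0xf0001800280030001000080000000000000000000000000000000) (nat_lit 0x0) (nat_lit 0x8003400000000000140002000000000000000000000000000000000000000) := T_34 (nat_lit 228) (nat_lit 229) (nat_lit 3) (nat_lit 4) (nat_lit 12) L94048 (by decide +kernel)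
theorem L94050 : W_34 (nat_lit 5) (nat_lit 0xf0001800280010001000080000000000000000000000000000000) (nat_lit 0x0) (nat_lit 0x8003400000000000140022000000000004000000000000000000000000000) := T_34 (nat_lit 161) (nat_lit 110) (nat_lit 5) (nat_lit 8) (nat_lit 6) L94049 (by decide +kernel)
theorem L94051 : W_34 (nat_lit 6) (nat_lit 0xf0001000280010001000080000000000000000000000000000000) (nat_lit 0x0) (nat_lit 0x8003400000000c00140022000000000004000000000000000000000000000) := T_34 (nat_lit 191) (nat_lit 190) (nat_lit 0) (nat_lit 7) (nat_lit 12) L94050 (by decide +kernel)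
theorem L94052 : W_34 (nat_lit 2) (nat_lit 0x10000f000180028001c001000080004000000000000000000000000000) (nat_lit 0x0) (nat_lit 0x400000002000100000000000000000000000000000000000000000000) := D_34 (nat_lit 176) (nat_lit 226) (nat_lit 193) (nat_lit 6) (nat_lit 5) (nat_lit 13) (nat_lit 7) (nat_lit 6) (nat_lit 9) (by decide +kernel)
theorem L94053 : W_34 (nat_lit 3) (nat_lit 0x10000f0001800280014001000080004000000000000000000000000000) (nat_lit 0x0) (nat_lit 0x400000002000100008000400000000000000000000000000000000000) := T_34 (nat_lit 159) (nat_lit 142) (nat_lit 6) (nat_lit 5) (nat_lit 12) L94052 (by decide +kernel)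
theorem L94054 : W_34 (nat_lit 4) (nat_lit 0x10000f0001800280010001000080004000000000000000000000000000) (nat_lit 0x0) (nat_lit 0x40000000200010000c000600000000000000000000000000000000000) := T_34 (nat_lit 158) (nat_lit 141) (nat_lit 5) (nat_lit 5) (nat_lit 8) L94053 (by decide +kernel)
theorem L94055 : W_34 (nat_lit 5) (nat_lit 0x10000f0001800280010001000080000000000000000000000000000000) (nat_lit 0x0) (nat_lit 0x40000000200010002c000600000004000000000000000000000000000) := T_34 (nat_lit 110) (nat_lit 161) (nat_lit 5) (nat_lit 8) (nat_lit 6) L94054 (by decide +kernel)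
theorem L94056 : W_34 (nat_lit 6) (nat_lit 0x10000f0001000280010001000080000000000000000000000000000000) (nat_lit 0x0) (nat_lit 0x400000002c0010002c000600000004000000000000000000000000000) := T_34 (nat_lit 191) (nat_lit 190) (nat_lit 0) (nat_lit 7) (nat_lit 12) L94055 (by decide +kernel)
theorem L94057 : W_34 (nat_lit 7) (nat_lit 0xf0001000280010001000080000000000000000000000000000000) (nat_lit 0x0) (nat_lit 0x3400000002c0010002c000600000004000000000000000000000000000) := T_34 (nat_lit 228) (nat_lit 229) (nat_lit 3) (nat_lit 4) (nat_lit 12) L94056 (by decide +kernel)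
theorem L94058 : W_34 (nat_lit 2) (nat_lit 0x10000f00010002c0034001000080000000000000000000000000000000) (nat_lit 0x0) (nat_lit 0x400000000000000002000100000000000000000000000000000000000) := D_34 (nat_lit 157) (nat_lit 226) (nat_lit 140) (nat_lit 4) (nat_lit 5) (nat_lit 13) (nat_lit 4) (nat_lit 5) (nat_lit 12) (by decide +kernel)
theorem L94059 : W_34 (nat_lit 3) (nat_lit 0x10000f00010002c0030001000080000000000000000000000000000000) (nat_lit 0x0) (nat_lit 0x40000000000000000e000100000000000000000000000000000000000) := T_34 (nat_lit 158) (nat_lit 159) (nat_lit 1) (nat_lit 8) (nat_lit 9) L94058 (by decide +kernel)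
theorem L94060 : W_34 (nat_lit 4) (nat_lit 0x10000f0001000280030001000080000000000000000000000000000000) (nat_lit 0x0) (nat_lit 0x40000000000014000e000100000000000000000000000000000000000) := T_34 (nat_lit 174) (nat_lit 176) (nat_lit 2) (nat_lit 4) (nat_lit 10) L94059 (by decide +kernel)
theorem L94061 : W_34 (nat_lit 5) (nat_lit 0x10000f0001000280010001000080000000000000000000000000000000) (nat_lit 0x0) (nat_lit 0x40000000000014002e000100000004000000000000000000000000000) := T_34 (nat_lit 161) (nat_lit 110) (nat_lit 5) (nat_lit 8) (nat_lit 6) L94060 (by decide +kernel)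
theorem L94062 : W_34 (nat_lit 6) (nat_lit 0xf0001000280010001000080000000000000000000000000000000) (nat_lit 0x0) (nat_lit 0x340000000000014002e000100000004000000000000000000000000000) := T_34 (nat_lit 228) (nat_lit 229) (nat_lit 3) (nat_lit 4) (nat_lit 12) L94061 (by decide +kernel)
theorem L94063 : W_34 (nat_lit 2) (nat_lit 0x10000f000180028001e001000080004000000000000000000000000000) (nat_lit 0x0) (nat_lit 0x2000100001000000000000000000000000000000000000000) := D_34 (nat_lit 176) (nat_lit 156) (nat_lit 193) (nat_lit 3) (nat_lit 3) (nat_lit 9) (nat_lit 7) (nat_lit 6) (nat_lit 9) (by decide +kernel)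
theorem L94064 : W_34 (nat_lit 3) (nat_lit 0x10000f0001800280016001000080004000000000000000000000000000) (nat_lit 0x0) (nat_lit 0x2000100009000400000000000000000000000000000000000) := T_34 (nat_lit 159) (nat_lit 142) (nat_lit 6) (nat_lit 5) (nat_lit 12) L94063 (by decide +kernel)
theorem L94065 : W_34 (nat_lit 4) (nat_lit 0x10000f0001800280014001000080004000000000000000000000000000) (nat_lit 0x0) (nat_lit 0x200010000b000500000000000000000000000000000000000) := T_34 (nat_lit 157) (nat_lit 140) (nat_lit 4) (nat_lit 5) (nat_lit 12) L94064 (by decide +kernel)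
theorem L94066 : W_34 (nat_lit 5) (nat_lit 0x10000f0001800280010001000080004000000000000000000000000000) (nat_lit 0x0) (nat_lit 0x200010000f000700000000000000000000000000000000000) := T_34 (nat_lit 158) (nat_lit 141) (nat_lit 5) (nat_lit 5) (nat_lit 8) L94065 (by decide +kernel)
theorem L94067 : W_34 (nat_lit 6) (nat_lit 0xf0001800280010001000080004000000000000000000000000000) (nat_lit 0x0) (nat_lit 0x300000000200010000f000700000000000000000000000000000000000) := T_34 (nat_lit 228) (nat_lit 229) (nat_lit 3) (nat_lit 4) (nat_lit 12) L94066 (by decide +kernel)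
theorem L94068 : W_34 (nat_lit 7) (nat_lit 0xf0001000280010001000080004000000000000000000000000000) (nat_lit 0x0) (nat_lit 0x3000000002c0010000f000700000000000000000000000000000000000) := T_34 (nat_lit 191) (nat_lit 190) (nat_lit 0) (nat_lit 7) (nat_lit 12) L94067 (by decide +kernel)
theorem L94069 : W_34 (nat_lit 8) (nat_lit 0xf0001000280010001000080000000000000000000000000000000) (nat_lit 0x0) (nat_lit 0x3000000002c0010002f000700000004000000000000000000000000000) := T_34 (nat_lit 110) (nat_lit 161) (nat_lit 5) (nat_lit 8) (nat_lit 6) L94068 (by decide +kernel)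
theorem L94070 : W_34 (nat_lit 9) (nat_lit 0xf0001000200010001000080000000000000000000000000000000) (nat_lit 0x0) (nat_lit 0x8003400000002c001e002f000700000004000000000000000000000000000) := Q_34 (nat_lit 175) (C_34 L94028 (C_34 L94034 (C_34 L94040 (C_34 L94046 (C_34 L94051 (C_34 L94057 (C_34 L94062 (C_34 L94069 N_34)))))))) (by decide +kernel)
theorem L94071 : W_34 (nat_lit 12) (nat_lit 0xf0000000200010001000080000000000000000000000000000000) (nat_lit 0x0) (nat_lit 0x1c000e003700000003c001e00ef000780000004000000000000000000000000000) := Q_34 (nat_lit 192) (C_34 L94004 (C_34 L94007 (C_34 L94017 (C_34 L94024 (C_34 L94070 N_34))))) (by decide +kernel)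
theorem L94072 : W_34 (nat_lit 2) (nat_lit 0xf0001800280010001000080000000000000000000000000000000) (nat_lit 0x0) (nat_lit 0x200000000000000004000200000000000000000000000000000000000) := D_34 (nat_lit 158) (nat_lit 225) (nat_lit 141) (nat_lit 5) (nat_lit 5) (nat_lit 9) (nat_lit 5) (nat_lit 5) (nat_lit 8) (by decide +kernel)
theorem L94073 : W_34 (nat_lit 3) (nat_lit 0xf0001000280010001000080000000000000000000000000000000) (nat_lit 0x0) (nat_lit 0x200000000c00000004000200000000000000000000000000000000000) := T_34 (nat_lit 191) (nat_lit 190) (nat_lit 0) (nat_lit 7) (nat_lit 12) L94072 (by decide +kernel)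
theorem L94074 : W_34 (nat_lit 9) (nat_lit 0xf0001000200010001000080000000000000000000000000000000) (nat_lit 0x0) (nat_lit 0x8003600000000c001e002f000700000004000000000000000000000000000) := Q_34 (nat_lit 175) (C_34 L94028 (C_34 L94062 (C_34 L94034 (C_34 L94046 (C_34 L94051 (C_34 L94073 N_34)))))) (by decide +kernel)
theorem L94075 : W_34 (nat_lit 2) (nat_lit 0x2400fe001500380030001000080000000000000000000000000000000) (nat_lit 0x0) (nat_lit 0xc8000000000000000000000000000000000000000) := D_34 (nat_lit 162) (nat_lit 163) (nat_lit 159) (nat_lit 1) (nat_lit 10) (nat_lit 9) (nat_lit 1) (nat_lit 9) (nat_lit 9) (by decide +kernel)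
theorem L94076 : W_34 (nat_lit 3) (nat_lit 0x2400fe001500280030001000080000000000000000000000000000000) (nat_lit 0x0) (nat_lit 0x1400c8000000000000000000000000000000000000000) := T_34 (nat_lit 176) (nat_lit 174) (nat_lit 2) (nat_lit 4) (nat_lit 10) L94075 (by decide +kernel)
theorem L94077 : W_34 (nat_lit 4) (nat_lit 0x2400fe001500200030001000080000000000000000000000000000000) (nat_lit 0x0) (nat_lit 0x1c00cc000000000000000000000000000000000000000) := T_34 (nat_lit 175) (nat_lit 158) (nat_lit 5) (nat_lit 5) (nat_lit 9) L94076 (by decide +kernel)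
theorem L94078 : W_34 (nat_lit 5) (nat_lit 0x400fe001500200030001000080000000000000000000000000000000) (nat_lit 0x0) (nat_lit 0x6000000000001c00cc000000000000000000000000000000000000000) := T_34 (nat_lit 225) (nat_lit 226) (nat_lit 3) (nat_lit 1) (nat_lit 12) L94077 (by decide +kernel)
theorem L94079 : W_34 (nat_lit 6) (nat_lit 0x400fe001400200030001000080000000000000000000000000000000) (nat_lit 0x0) (nat_lit 0x6000000001801c00cc000000000000000000000000000000000000000) := T_34 (nat_lit 188) (nat_lit 187) (nat_lit 0) (nat_lit 4) (nat_lit 12) L94078 (by decide +kernel)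
theorem L94080 : W_34 (nat_lit 7) (nat_lit 0x400fc001400200030001000080000000000000000000000000000000) (nat_lit 0x0) (nat_lit 0x6200020001801c00cc000000000000000000000000000000000000000) := T_34 (nat_lit 205) (nat_lit 221) (nat_lit 1) (nat_lit 4) (nat_lit 12) L94079 (by decide +kernel)
theorem L94081 : W_34 (nat_lit 8) (nat_lit 0xfc001400200030001000080000000000000000000000000000000) (nat_lit 0x0) (nat_lit 0x6e00020001801c00cc000000000000000000000000000000000000000) := T_34 (nat_lit 222) (nat_lit 223) (nat_lit 1) (nat_lit 5) (nat_lit 12) L94080 (by decide +kernel)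
theorem L94082 : W_34 (nat_lit 9) (nat_lit 0xf8001400200030001000080000000000000000000000000000000) (nat_lit 0x0) (nat_lit 0x6e00060021801c00cc000000000000000000000000000000000000000) := T_34 (nat_lit 206) (nat_lit 193) (nat_lit 2) (nat_lit 2) (nat_lit 12) L94081 (by decide +kernel)
theorem L94083 : W_34 (nat_lit 10) (nat_lit 0xf0001400200030001000080000000000000000000000000000000) (nat_lit 0x0) (nat_lit 0x6e000e0023801c00cc000000000000000000000000000000000000000) := T_34 (nat_lit 207) (nat_lit 189) (nat_lit 0) (nat_lit 6) (nat_lit 12) L94082 (by decide +kernel)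
theorem L94084 : W_34 (nat_lit 11) (nat_lit 0xf0001000200030001000080000000000000000000000000000000) (nat_lit 0x0) (nat_lit 0x6e000e002f801c00cc000000000000000000000000000000000000000) := T_34 (nat_lit 190) (nat_lit 191) (nat_lit 0) (nat_lit 7) (nat_lit 12) L94083 (by decide +kernel)
theorem L94085 : W_34 (nat_lit 12) (nat_lit 0xf0001000200010001000080000000000000000000000000000000) (nat_lit 0x0) (nat_lit 0x6e000e002f801c00ec000000000004000000000000000000000000000) := T_34 (nat_lit 161) (nat_lit 110) (nat_lit 5) (nat_lit 8) (nat_lit 6) L94084 (by decide +kernel)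
theorem L94086 : W_34 (nat_lit 2) (nat_lit 0xf8001000200010001000080000000000000000000000000000000) (nat_lit 0x0) (nat_lit 0xe00000000000000000000000000000000000000000000000) := D_34 (nat_lit 190) (nat_lit 191) (nat_lit 189) (nat_lit 0) (nat_lit 7) (nat_lit 12) (nat_lit 0) (nat_lit 6) (nat_lit 12) (by decide +kernel)
theorem L94087 : W_34 (nat_lit 2) (nat_lit 0xfc001000200010001000080000000000000000000000000000000) (nat_lit 0x0) (nat_lit 0x700000000000000000000000000000000000000000000000) := D_34 (nat_lit 189) (nat_lit 190) (nat_lit 188) (nat_lit 0) (nat_lit 6) (nat_lit 12) (nat_lit 0) (nat_lit 5) (nat_lit 12) (by decide +kernel)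
theorem L94088 : W_34 (nat_lit 3) (nat_lit 0xf8001000200010001000080000000000000000000000000000000) (nat_lit 0x0) (nat_lit 0x4002700000000000000000000000000000000000000000000000) := T_34 (nat_lit 206) (nat_lit 193) (nat_lit 2) (nat_lit 2) (nat_lit 12) L94087 (by decide +kernel)
theorem L94089 : W_34 (nat_lit 2) (nat_lit 0xfe001000200010001000080000000000000000000000000000000) (nat_lit 0x0) (nat_lit 0xe0000000000000000000000000000000000000000000000000000000) := D_34 (nat_lit 222) (nat_lit 221) (nat_lit 223) (nat_lit 1) (nat_lit 4) (nat_lit 12) (nat_lit 1) (nat_lit 5) (nat_lit 12) (by decide +kernel)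
theorem L94090 : W_34 (nat_lit 3) (nat_lit 0xfc001000200010001000080000000000000000000000000000000) (nat_lit 0x0) (nat_lit 0xe0002000800000000000000000000000000000000000000000000000) := T_34 (nat_lit 205) (nat_lit 191) (nat_lit 2) (nat_lit 1) (nat_lit 12) L94089 (by decide +kernel)
theorem L94091 : W_34 (nat_lit 4) (nat_lit 0xf8001000200010001000080000000000000000000000000000000) (nat_lit 0x0) (nat_lit 0xe0006002800000000000000000000000000000000000000000000000) := T_34 (nat_lit 206) (nat_lit 193) (nat_lit 2) (nat_lit 2) (nat_lit 12) L94090 (by decide +kernel)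
theorem L94092 : W_34 (nat_lit 5) (nat_lit 0xf0001000200010001000080000000000000000000000000000000) (nat_lit 0x0) (nat_lit 0xe000e002f00000000000000000000000000000000000000000000000) := Q_34 (nat_lit 207) (C_34 L94086 (C_34 L94088 (C_34 L94091 N_34))) (by decide +kernel)
theorem L94093 : W_34 (nat_lit 2) (nat_lit 0x10000f0001000280016001200080000000000000000000000000000000) (nat_lit 0x0) (nat_lit 0x8000400020000000000000000000000000000000) := D_34 (nat_lit 142) (nat_lit 125) (nat_lit 159) (nat_lit 6) (nat_lit 5) (nat_lit 11) (nat_lit 6) (nat_lit 5) (nat_lit 12) (by decide +kernel)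
theorem L94094 : W_34 (nat_lit 3) (nat_lit 0x10000f0001000280016001000080000000000000000000000000000000) (nat_lit 0x0) (nat_lit 0x2000000008000600020000000000000000000000000000000) := T_34 (nat_lit 141) (nat_lit 193) (nat_lit 7) (nat_lit 5) (nat_lit 8) L94093 (by decide +kernel)
theorem L94095 : W_34 (nat_lit 4) (nat_lit 0x10000f0001000280014001000080000000000000000000000000000000) (nat_lit 0x0) (nat_lit 0x200000000a000700020000000000000000000000000000000) := T_34 (nat_lit 157) (nat_lit 140) (nat_lit 4) (nat_lit 5) (nat_lit 12) L94094 (by decide +kernel)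
theorem L94096 : W_34 (nat_lit 5) (nat_lit 0x10000f0001000280010001000080000000000000000000000000000000) (nat_lit 0x0) (nat_lit 0x20000000200000000e000700020000000000000000000000000000000) := T_34 (nat_lit 158) (nat_lit 225) (nat_lit 5) (nat_lit 5) (nat_lit 9) L94095 (by decide +kernel)
theorem L94097 : W_34 (nat_lit 6) (nat_lit 0xf0001000280010001000080000000000000000000000000000000) (nat_lit 0x0) (nat_lit 0x320000000200000000e000700020000000000000000000000000000000) := T_34 (nat_lit 228) (nat_lit 229) (nat_lit 3) (nat_lit 4) (nat_lit 12) L94096 (by decide +kernel)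
theorem L94098 : W_34 (nat_lit 4) (nat_lit 0xf0001000280010001000080000000000000000000000000000000) (nat_lit 0x0) (nat_lit 0x20000000200000000c000600020000000000000000000000000000000) := T_34 (nat_lit 158) (nat_lit 225) (nat_lit 5) (nat_lit 5) (nat_lit 9) L92421 (by decide +kernel)
theorem L94099 : W_34 (nat_lit 2) (nat_lit 0xf00010002c0016801600080000000000000000000000000000000) (nat_lit 0x0) (nat_lit 0x100020000000000004000000000000000000000000000) := D_34 (nat_lit 161) (nat_lit 110) (nat_lit 176) (nat_lit 5) (nat_lit 8) (nat_lit 6) (nat_lit 2) (nat_lit 4) (nat_lit 10) (by decide +kernel)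
theorem L94100 : W_34 (nat_lit 3) (nat_lit 0xf0001000280016801600080000000000000000000000000000000) (nat_lit 0x0) (nat_lit 0x400000000000140020000000000004000000000000000000000000000) := T_34 (nat_lit 174) (nat_lit 226) (nat_lit 4) (nat_lit 5) (nat_lit 13) L94099 (by decide +kernel)
theorem L94101 : W_34 (nat_lit 4) (nat_lit 0xf0001000280016001600080000000000000000000000000000000) (nat_lit 0x0) (nat_lit 0x400000000000140021800000000004000000000000000000000000000) := T_34 (nat_lit 155) (nat_lit 156) (nat_lit 2) (nat_lit 2) (nat_lit 9) L94100 (by decide +kernel)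
theorem L94102 : W_34 (nat_lit 5) (nat_lit 0xf0001000280016001200080000000000000000000000000000000) (nat_lit 0x0) (nat_lit 0x400000000000140021800400020004000000000000000000000000000) := T_34 (nat_lit 142) (nat_lit 125) (nat_lit 6) (nat_lit 5) (nat_lit 11) L94101 (by decide +kernel)
theorem L94103 : W_34 (nat_lit 6) (nat_lit 0xf0001000280016001000080000000000000000000000000000000) (nat_lit 0x0) (nat_lit 0x400000002000140021800600020004000000000000000000000000000) := T_34 (nat_lit 141) (nat_lit 193) (nat_lit 7) (nat_lit 5) (nat_lit 8) L94102 (by decide +kernel)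
theorem L94104 : W_34 (nat_lit 7) (nat_lit 0xf0001000280014001000080000000000000000000000000000000) (nat_lit 0x0) (nat_lit 0x400000002000140023800700020004000000000000000000000000000) := T_34 (nat_lit 157) (nat_lit 140) (nat_lit 4) (nat_lit 5) (nat_lit 12) L94103 (by decide +kernel)
theorem L94105 : W_34 (nat_lit 8) (nat_lit 0xf0001000280010001000080000000000000000000000000000000) (nat_lit 0x0) (nat_lit 0x600000002000140027800700020004000000000000000000000000000) := T_34 (nat_lit 158) (nat_lit 225) (nat_lit 5) (nat_lit 5) (nat_lit 9) L94104 (by decide +kernel)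
theorem L94106 : W_34 (nat_lit 2) (nat_lit 0x10000c0014000f00010002c0030001000080000000000000000000000000000000) (nat_lit 0x0) (nat_lit 0x4000200010000000000000000000000000000000000000000000000000000000000000) := D_34 (nat_lit 261) (nat_lit 244) (nat_lit 278) (nat_lit 7) (nat_lit 5) (nat_lit 11) (nat_lit 7) (nat_lit 5) (nat_lit 12) (by decide +kernel)
theorem L94107 : W_34 (nat_lit 3) (nat_lit 0xc0014000f00010002c0030001000080000000000000000000000000000000) (nat_lit 0x0) (nat_lit 0x4000300010000000000002000000000000000000000000000000000000000000000000) := T_34 (nat_lit 260) (nat_lit 193) (nat_lit 6) (nat_lit 5) (nat_lit 15) L94106 (by decide +kernel)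
theorem L94108 : W_34 (nat_lit 4) (nat_lit 0x40014000f00010002c0030001000080000000000000000000000000000000) (nat_lit 0x0) (nat_lit 0x4000380018000000000002000000000000000000000000000000000000000000000000) := T_34 (nat_lit 243) (nat_lit 259) (nat_lit 5) (nat_lit 5) (nat_lit 11) L94107 (by decide +kernel)
theorem L94109 : W_34 (nat_lit 5) (nat_lit 0x14000f00010002c0030001000080000000000000000000000000000000) (nat_lit 0x0) (nat_lit 0x400038001c000200000002000000000000000000000000000000000000000000000000) := T_34 (nat_lit 242) (nat_lit 225) (nat_lit 5) (nat_lit 5) (nat_lit 10) L94108 (by decide +kernel)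
theorem L94110 : W_34 (nat_lit 6) (nat_lit 0x10000f00010002c0030001000080000000000000000000000000000000) (nat_lit 0x0) (nat_lit 0x400038001c000600000002000000002000000000000000000000000000000000000000) := T_34 (nat_lit 226) (nat_lit 157) (nat_lit 4) (nat_lit 5) (nat_lit 13) L94109 (by decide +kernel)
theorem L94111 : W_34 (nat_lit 7) (nat_lit 0x10000f0001000280030001000080000000000000000000000000000000) (nat_lit 0x0) (nat_lit 0x400038001c000600000002000140002000000000000000000000000000000000000000) := T_34 (nat_lit 174) (nat_lit 176) (nat_lit 2) (nat_lit 4) (nat_lit 10) L94110 (by decide +kernel)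
theorem L94112 : W_34 (nat_lit 8) (nat_lit 0x10000f0001000280010001000080000000000000000000000000000000) (nat_lit 0x0) (nat_lit 0x400038001c000600000002000140022000000000004000000000000000000000000000) := T_34 (nat_lit 161) (nat_lit 110) (nat_lit 5) (nat_lit 8) (nat_lit 6) L94111 (by decide +kernel)
theorem L94113 : W_34 (nat_lit 9) (nat_lit 0xf0001000280010001000080000000000000000000000000000000) (nat_lit 0x0) (nat_lit 0x400038001c003600000002000140022000000000004000000000000000000000000000) := T_34 (nat_lit 228) (nat_lit 229) (nat_lit 3) (nat_lit 4) (nat_lit 12) L94112 (by decide +kernel)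
theorem L94114 : W_34 (nat_lit 10) (nat_lit 0xf0001000200010001000080000000000000000000000000000000) (nat_lit 0x0) (nat_lit 0x400038001c0036000000020001c002f800700020004000000000000000000000000000) := Q_34 (nat_lit 175) (C_34 L94097 (C_34 L94062 (C_34 L94098 (C_34 L94105 (C_34 L94113 N_34))))) (by decide +kernel)
theorem L94115 : W_34 (nat_lit 13) (nat_lit 0xf0000000200010001000080000000000000000000000000000000) (nat_lit 0x0) (nat_lit 0x400038001c0036e000e003f801e00ef800700020004000000000000000000000000000) := Q_34 (nat_lit 192) (C_34 L94070 (C_34 L94074 (C_34 L94085 (C_34 L94092 (C_34 L94114 N_34))))) (by decide +kernel)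
theorem L94116 : W_34 (nat_lit 14) (nat_lit 0xe0000000200010001000080000000000000000000000000000000) (nat_lit 0x0) (nat_lit 0x40007c003e0037e021e013f839f00ef800780030004000000000000000000000000000) := Q_34 (nat_lit 208) (C_34 L92398 (C_34 L93812 (C_34 L93838 (C_34 L93983 (C_34 L94000 (C_34 L94071 (C_34 L94115 N_34))))))) (by decide +kernel)
theorem L94117 : W_34 (nat_lit 2) (nat_lit 0x1000000044003e00120022001f0001000080000000000000000000000000000000) (nat_lit 0x0) (nat_lit 0x1c000000000000000000000000000000000000) := D_34 (nat_lit 147) (nat_lit 148) (nat_lit 146) (nat_lit 2) (nat_lit 8) (nat_lit 9) (nat_lit 2) (nat_lit 7) (nat_lit 9) (by decide +kernel)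
theorem L94118 : W_34 (nat_lit 3) (nat_lit 0x1000000044003e00120022000f0001000080000000000000000000000000000000) (nat_lit 0x0) (nat_lit 0x400010001c000000000000000000000000000000000000) := T_34 (nat_lit 164) (nat_lit 182) (nat_lit 3) (nat_lit 8) (nat_lit 9) L94117 (by decide +kernel)
theorem L94119 : W_34 (nat_lit 4) (nat_lit 0x44003e00120022000f0001000080000000000000000000000000000000) (nat_lit 0x0) (nat_lit 0x10000800000000000000400010001c000000000000000000000000000000000000) := T_34 (nat_lit 260) (nat_lit 243) (nat_lit 6) (nat_lit 5) (nat_lit 15) L94118 (by decide +kernel)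
theorem L94120 : W_34 (nat_lit 5) (nat_lit 0x44003e00120002000f0001000080000000000000000000000000000000) (nat_lit 0x0) (nat_lit 0x10000800000000000000700010001c000000000000000000000000000000000000) := T_34 (nat_lit 181) (nat_lit 180) (nat_lit 3) (nat_lit 7) (nat_lit 9) L94119 (by decide +kernel)
theorem L94121 : W_34 (nat_lit 6) (nat_lit 0x40003e00120002000f0001000080000000000000000000000000000000) (nat_lit 0x0) (nat_lit 0x10000800060000000000700010001c000000000000000000000000000000000000) := T_34 (nat_lit 226) (nat_lit 225) (nat_lit 1) (nat_lit 8) (nat_lit 12) L94120 (by decide +kernel)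
theorem L94122 : W_34 (nat_lit 7) (nat_lit 0x40003e0012000200070001000080000000000000000000000000000000) (nat_lit 0x0) (nat_lit 0x10000800060000000000710018001c000000000000000000000000000000000000) := T_34 (nat_lit 163) (nat_lit 176) (nat_lit 1) (nat_lit 10) (nat_lit 9) L94121 (by decide +kernel)
theorem L94123 : W_34 (nat_lit 8) (nat_lit 0x3e0012000200070001000080000000000000000000000000000000) (nat_lit 0x0) (nat_lit 0x10000800c60000000000710018001c000000000000000000000000000000000000) := T_34 (nat_lit 230) (nat_lit 231) (nat_lit 3) (nat_lit 6) (nat_lit 12) L94122 (by decide +kernel)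
theorem L94124 : W_34 (nat_lit 9) (nat_lit 0x3e0012000200030001000080000000000000000000000000000000) (nat_lit 0x0) (nat_lit 0x10000800c6000000000079001c001c000000000000000000000000000000000000) := T_34 (nat_lit 162) (nat_lit 179) (nat_lit 4) (nat_lit 9) (nat_lit 12) L94123 (by decide +kernel)
theorem L94125 : W_34 (nat_lit 10) (nat_lit 0x3e0010000200030001000080000000000000000000000000000000) (nat_lit 0x0) (nat_lit 0x10000800c6000000030079001c001c000000000000000000000000000000000000) := T_34 (nat_lit 193) (nat_lit 192) (nat_lit 0) (nat_lit 9) (nat_lit 12) L94124 (by decide +kernel)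
theorem L94126 : W_34 (nat_lit 11) (nat_lit 0x1e0010000200030001000080000000000000000000000000000000) (nat_lit 0x0) (nat_lit 0x10000800c6002000230079001c001c000000000000000000000000000000000000) := T_34 (nat_lit 213) (nat_lit 197) (nat_lit 2) (nat_lit 6) (nat_lit 12) L94125 (by decide +kernel)
theorem L94127 : W_34 (nat_lit 12) (nat_lit 0x1e0010000200010001000080000000000000000000000000000000) (nat_lit 0x0) (nat_lit 0x10000800c6002000230079001e001c000000004000000000000000000000000000) := T_34 (nat_lit 161) (nat_lit 110) (nat_lit 5) (nat_lit 8) (nat_lit 6) L94126 (by decide +kernel)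
theorem L94128 : W_34 (nat_lit 13) (nat_lit 0x1e0000000200010001000080000000000000000000000000000000) (nat_lit 0x0) (nat_lit 0x10000800c60020003b0079001e001c000000004000000000000000000000000000) := T_34 (nat_lit 196) (nat_lit 195) (nat_lit 2) (nat_lit 5) (nat_lit 12) L94127 (by decide +kernel)
theorem L94129 : W_34 (nat_lit 2) (nat_lit 0x4003e0012000200070001000080000000000000000000000000000000) (nat_lit 0x0) (nat_lit 0x100088000000000000000000000000000000000000000) := D_34 (nat_lit 176) (nat_lit 163) (nat_lit 159) (nat_lit 1) (nat_lit 10) (nat_lit 9) (nat_lit 5) (nat_lit 6) (nat_lit 9) (by decide +kernel)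
theorem L94130 : W_34 (nat_lit 3) (nat_lit 0x3e0012000200070001000080000000000000000000000000000000) (nat_lit 0x0) (nat_lit 0x600000000000100088000000000000000000000000000000000000000) := T_34 (nat_lit 226) (nat_lit 225) (nat_lit 1) (nat_lit 8) (nat_lit 12) L94129 (by decide +kernel)
theorem L94131 : W_34 (nat_lit 4) (nat_lit 0x3e0012000200030001000080000000000000000000000000000000) (nat_lit 0x0) (nat_lit 0x6000000000009000c8000000000000000000000000000000000000000) := T_34 (nat_lit 162) (nat_lit 179) (nat_lit 4) (nat_lit 9) (nat_lit 12) L94130 (by decide +kernel)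
theorem L94132 : W_34 (nat_lit 5) (nat_lit 0x3e0010000200030001000080000000000000000000000000000000) (nat_lit 0x0) (nat_lit 0x6000000030009000c8000000000000000000000000000000000000000) := T_34 (nat_lit 193) (nat_lit 192) (nat_lit 0) (nat_lit 9) (nat_lit 12) L94131 (by decide +kernel)
theorem L94133 : W_34 (nat_lit 6) (nat_lit 0x1e0010000200030001000080000000000000000000000000000000) (nat_lit 0x0) (nat_lit 0x6002000230009000c8000000000000000000000000000000000000000) := T_34 (nat_lit 213) (nat_lit 197) (nat_lit 2) (nat_lit 6) (nat_lit 12) L94132 (by decide +kernel)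
theorem L94134 : W_34 (nat_lit 7) (nat_lit 0x1e0010000200010001000080000000000000000000000000000000) (nat_lit 0x0) (nat_lit 0x6002000230009000e8000000000004000000000000000000000000000) := T_34 (nat_lit 161) (nat_lit 110) (nat_lit 5) (nat_lit 8) (nat_lit 6) L94133 (by decide +kernel)
theorem L94135 : W_34 (nat_lit 8) (nat_lit 0x1e0000000200010001000080000000000000000000000000000000) (nat_lit 0x0) (nat_lit 0x60020003b0009000e8000000000004000000000000000000000000000) := T_34 (nat_lit 196) (nat_lit 195) (nat_lit 2) (nat_lit 5) (nat_lit 12) L94134 (by decide +kernel)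
theorem L94136 : W_34 (nat_lit 14) (nat_lit 0xe0000000200010001000080000000000000000000000000000000) (nat_lit 0x0) (nat_lit 0x10000800f70031003b0079001e801c000000004000000000000000000000000000) := Q_34 (nat_lit 212) (C_34 L92454 (C_34 L92360 (C_34 L92304 (C_34 L94128 (C_34 L94135 N_34))))) (by decide +kernel)
theorem L94137 : W_34 (nat_lit 5) (nat_lit 0x4001e0001000200010001000080004000000000000000000000000000) (nat_lit 0x0) (nat_lit 0x1c000600072000000000000000000000000000000000000000000000000) := T_34 (nat_lit 213) (nat_lit 193) (nat_lit 0) (nat_lit 9) (nat_lit 12) L92580 (by decide +kernel)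
theorem L94138 : W_34 (nat_lit 6) (nat_lit 0x4001e0000000200010001000080004000000000000000000000000000) (nat_lit 0x0) (nat_lit 0x1c000600073800000000000000000000000000000000000000000000000) := T_34 (nat_lit 192) (nat_lit 191) (nat_lit 0) (nat_lit 8) (nat_lit 12) L94137 (by decide +kernel)
theorem L94139 : W_34 (nat_lit 7) (nat_lit 0x1e0000000200010001000080004000000000000000000000000000) (nat_lit 0x0) (nat_lit 0x1c600600073800000000000000000000000000000000000000000000000) := T_34 (nat_lit 226) (nat_lit 225) (nat_lit 1) (nat_lit 8) (nat_lit 12) L94138 (by decide +kernel)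
theorem L94140 : W_34 (nat_lit 8) (nat_lit 0x1e0000000200010001000080000000000000000000000000000000) (nat_lit 0x0) (nat_lit 0x1c600600073800000020000000000004000000000000000000000000000) := T_34 (nat_lit 110) (nat_lit 161) (nat_lit 5) (nat_lit 8) (nat_lit 6) L94139 (by decide +kernel)
theorem L94141 : W_34 (nat_lit 2) (nat_lit 0x44003e00100022000f0009000080000000000000000000000000000000) (nat_lit 0x0) (nat_lit 0x4000100010000000000000000000000000000000000000) := D_34 (nat_lit 164) (nat_lit 148) (nat_lit 182) (nat_lit 2) (nat_lit 8) (nat_lit 9) (nat_lit 3) (nat_lit 8) (nat_lit 9) (by decide +kernel)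
theorem L94142 : W_34 (nat_lit 3) (nat_lit 0x44003e00100002000f0009000080000000000000000000000000000000) (nat_lit 0x0) (nat_lit 0x7000100010000000000000000000000000000000000000) := T_34 (nat_lit 181) (nat_lit 180) (nat_lit 3) (nat_lit 7) (nat_lit 9) L94141 (by decide +kernel)
theorem L94143 : W_34 (nat_lit 4) (nat_lit 0x44003e00100002000f0001000080000000000000000000000000000000) (nat_lit 0x0) (nat_lit 0x700010001c000000000000000000000000000000000000) := T_34 (nat_lit 147) (nat_lit 146) (nat_lit 2) (nat_lit 7) (nat_lit 9) L94142 (by decide +kernel)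
theorem L94144 : W_34 (nat_lit 5) (nat_lit 0x44003e0010000200070001000080000000000000000000000000000000) (nat_lit 0x0) (nat_lit 0x710018001c000000000000000000000000000000000000) := T_34 (nat_lit 163) (nat_lit 176) (nat_lit 1) (nat_lit 10) (nat_lit 9) L94143 (by decide +kernel)
theorem L94145 : W_34 (nat_lit 6) (nat_lit 0x4003e0010000200070001000080000000000000000000000000000000) (nat_lit 0x0) (nat_lit 0xc00000000000710018001c000000000000000000000000000000000000) := T_34 (nat_lit 230) (nat_lit 231) (nat_lit 3) (nat_lit 6) (nat_lit 12) L94144 (by decide +kernel)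
theorem L94146 : W_34 (nat_lit 7) (nat_lit 0x4003e0010000200030001000080000000000000000000000000000000) (nat_lit 0x0) (nat_lit 0xc0000000000079001c001c000000000000000000000000000000000000) := T_34 (nat_lit 162) (nat_lit 179) (nat_lit 4) (nat_lit 9) (nat_lit 12) L94145 (by decide +kernel)
theorem L94147 : W_34 (nat_lit 8) (nat_lit 0x3e0010000200030001000080000000000000000000000000000000) (nat_lit 0x0) (nat_lit 0xc6000000000079001c001c000000000000000000000000000000000000) := T_34 (nat_lit 226) (nat_lit 225) (nat_lit 1) (nat_lit 8) (nat_lit 12) L94146 (by decide +kernel)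
theorem L94148 : W_34 (nat_lit 9) (nat_lit 0x1e0010000200030001000080000000000000000000000000000000) (nat_lit 0x0) (nat_lit 0xc6002000200079001c001c000000000000000000000000000000000000) := T_34 (nat_lit 213) (nat_lit 197) (nat_lit 2) (nat_lit 6) (nat_lit 12) L94147 (by decide +kernel)
theorem L94149 : W_34 (nat_lit 10) (nat_lit 0x1e0010000200010001000080000000000000000000000000000000) (nat_lit 0x0) (nat_lit 0xc6002000200079001e001c000000004000000000000000000000000000) := T_34 (nat_lit 161) (nat_lit 110) (nat_lit 5) (nat_lit 8) (nat_lit 6) L94148 (by decide +kernel)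
theorem L94150 : W_34 (nat_lit 11) (nat_lit 0x1e0000000200010001000080000000000000000000000000000000) (nat_lit 0x0) (nat_lit 0xc6002000380079001e001c000000004000000000000000000000000000) := T_34 (nat_lit 196) (nat_lit 195) (nat_lit 2) (nat_lit 5) (nat_lit 12) L94149 (by decide +kernel)
theorem L94151 : W_34 (nat_lit 2) (nat_lit 0x4001e0003000200010001000080004000000000000000000000000000) (nat_lit 0x0) (nat_lit 0x8000000000000000100008000000000000000000000000000000000000000) := D_34 (nat_lit 176) (nat_lit 159) (nat_lit 243) (nat_lit 5) (nat_lit 6) (nat_lit 9) (nat_lit 6) (nat_lit 5) (nat_lit 14) (by decide +kernel)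
theorem L94152 : W_34 (nat_lit 3) (nat_lit 0x1e0003000200010001000080004000000000000000000000000000) (nat_lit 0x0) (nat_lit 0x8000600000000000100008000000000000000000000000000000000000000) := T_34 (nat_lit 226) (nat_lit 225) (nat_lit 1) (nat_lit 8) (nat_lit 12) L94151 (by decide +kernel)
theorem L94153 : W_34 (nat_lit 4) (nat_lit 0x1e0001000200010001000080004000000000000000000000000000) (nat_lit 0x0) (nat_lit 0x8000600200002000100008000000000000000000000000000000000000000) := T_34 (nat_lit 193) (nat_lit 213) (nat_lit 0) (nat_lit 9) (nat_lit 12) L94152 (by decide +kernel)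
theorem L94154 : W_34 (nat_lit 5) (nat_lit 0x1e0001000200010001000080000000000000000000000000000000) (nat_lit 0x0) (nat_lit 0x8000600200002000100028000000000004000000000000000000000000000) := T_34 (nat_lit 110) (nat_lit 161) (nat_lit 5) (nat_lit 8) (nat_lit 6) L94153 (by decide +kernel)
theorem L94155 : W_34 (nat_lit 6) (nat_lit 0x1e0000000200010001000080000000000000000000000000000000) (nat_lit 0x0) (nat_lit 0x8000600200003800100028000000000004000000000000000000000000000) := T_34 (nat_lit 192) (nat_lit 191) (nat_lit 0) (nat_lit 8) (nat_lit 12) L94154 (by decide +kernel)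
theorem L94156 : W_34 (nat_lit 12) (nat_lit 0xe0000000200010001000080000000000000000000000000000000) (nat_lit 0x0) (nat_lit 0x801c70071007bc079001e801c000000004000000000000000000000000000) := Q_34 (nat_lit 212) (C_34 L92599 (C_34 L94135 (C_34 L93787 (C_34 L92469 (C_34 L94140 (C_34 L94150 (C_34 L92460 (C_34 L94155 N_34)))))))) (by decide +kernel)
theorem L94157 : W_34 (nat_lit 2) (nat_lit 0x24001e0009000300010001000080000000000000000000000000000000) (nat_lit 0x0) (nat_lit 0x2000080008000000000000000000000000000000000000000) := D_34 (nat_lit 159) (nat_lit 193) (nat_lit 175) (nat_lit 5) (nat_lit 6) (nat_lit 9) (nat_lit 6) (nat_lit 5) (nat_lit 13) (by decide +kernel)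
theorem L94158 : W_34 (nat_lit 3) (nat_lit 0x24001e0008000300010001000080000000000000000000000000000000) (nat_lit 0x0) (nat_lit 0x3800080008000000000000000000000000000000000000000) := T_34 (nat_lit 192) (nat_lit 191) (nat_lit 0) (nat_lit 8) (nat_lit 12) L94157 (by decide +kernel)
theorem L94159 : W_34 (nat_lit 4) (nat_lit 0x20001e0008000300010001000080000000000000000000000000000000) (nat_lit 0x0) (nat_lit 0x600000003800080008000000000000000000000000000000000000000) := T_34 (nat_lit 226) (nat_lit 225) (nat_lit 1) (nat_lit 8) (nat_lit 12) L94158 (by decide +kernel)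
theorem L94160 : W_34 (nat_lit 5) (nat_lit 0x20001e0000000300010001000080000000000000000000000000000000) (nat_lit 0x0) (nat_lit 0x60000001b800080008000000000000000000000000000000000000000) := T_34 (nat_lit 195) (nat_lit 196) (nat_lit 2) (nat_lit 5) (nat_lit 12) L94159 (by decide +kernel)
theorem L94161 : W_34 (nat_lit 6) (nat_lit 0x1e0000000300010001000080000000000000000000000000000000) (nat_lit 0x0) (nat_lit 0x660000001b800080008000000000000000000000000000000000000000) := T_34 (nat_lit 229) (nat_lit 230) (nat_lit 3) (nat_lit 5) (nat_lit 12) L94160 (by decide +kernel)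
theorem L94162 : W_34 (nat_lit 2) (nat_lit 0x3c0024001e0009000300010001000080004000000000000000000000000000) (nat_lit 0x0) (nat_lit 0xc00040000000000000000000000000000000000000000000000000000000000000) := D_34 (nat_lit 262) (nat_lit 263) (nat_lit 246) (nat_lit 3) (nat_lit 4) (nat_lit 14) (nat_lit 5) (nat_lit 8) (nat_lit 11) (by decide +kernel)
theorem L94163 : W_34 (nat_lit 3) (nat_lit 0x1c0024001e0009000300010001000080004000000000000000000000000000) (nat_lit 0x0) (nat_lit 0xc00060001000000000000000000000000000000000000000000000000000000000) := T_34 (nat_lit 245) (nat_lit 228) (nat_lit 2) (nat_lit 4) (nat_lit 14) L94162 (by decide +kernel)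
theorem L94164 : W_34 (nat_lit 4) (nat_lit 0xc0024001e0009000300010001000080004000000000000000000000000000) (nat_lit 0x0) (nat_lit 0xe00070001000000000000000000000000000000000000000000000000000000000) := T_34 (nat_lit 244) (nat_lit 261) (nat_lit 7) (nat_lit 5) (nat_lit 11) L94163 (by decide +kernel)
theorem L94165 : W_34 (nat_lit 5) (nat_lit 0x80024001e0009000300010001000080004000000000000000000000000000) (nat_lit 0x0) (nat_lit 0xe80074001000000000000000000000000000000000000000000000000000000000) := T_34 (nat_lit 242) (nat_lit 259) (nat_lit 5) (nat_lit 5) (nat_lit 11) L94164 (by decide +kernel)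
theorem L94166 : W_34 (nat_lit 6) (nat_lit 0x24001e0009000300010001000080004000000000000000000000000000) (nat_lit 0x0) (nat_lit 0xe8007c001000000002000000000000000000000000000000000000000000000000) := T_34 (nat_lit 243) (nat_lit 193) (nat_lit 6) (nat_lit 5) (nat_lit 14) L94165 (by decide +kernel)
theorem L94167 : W_34 (nat_lit 7) (nat_lit 0x24001e0008000300010001000080004000000000000000000000000000) (nat_lit 0x0) (nat_lit 0xe8007c001000000003800000000000000000000000000000000000000000000000) := T_34 (nat_lit 192) (nat_lit 191) (nat_lit 0) (nat_lit 8) (nat_lit 12) L94166 (by decide +kernel)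
theorem L94168 : W_34 (nat_lit 8) (nat_lit 0x24001e0000000300010001000080004000000000000000000000000000) (nat_lit 0x0) (nat_lit 0xe8007c00100000001b800000000000000000000000000000000000000000000000) := T_34 (nat_lit 195) (nat_lit 196) (nat_lit 2) (nat_lit 5) (nat_lit 12) L94167 (by decide +kernel)
theorem L94169 : W_34 (nat_lit 9) (nat_lit 0x4001e0000000300010001000080004000000000000000000000000000) (nat_lit 0x0) (nat_lit 0xe8007c00700000001b800000000000000000000000000000000000000000000000) := T_34 (nat_lit 229) (nat_lit 230) (nat_lit 3) (nat_lit 5) (nat_lit 12) L94168 (by decide +kernel)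
theorem L94170 : W_34 (nat_lit 10) (nat_lit 0x4001e0000000300010001000080000000000000000000000000000000) (nat_lit 0x0) (nat_lit 0xe8007c00700000001b800000020000000000004000000000000000000000000000) := T_34 (nat_lit 110) (nat_lit 161) (nat_lit 5) (nat_lit 8) (nat_lit 6) L94169 (by decide +kernel)
theorem L94171 : W_34 (nat_lit 11) (nat_lit 0x1e0000000300010001000080000000000000000000000000000000) (nat_lit 0x0) (nat_lit 0xe8007c00760000001b800000020000000000004000000000000000000000000000) := T_34 (nat_lit 226) (nat_lit 225) (nat_lit 1) (nat_lit 8) (nat_lit 12) L94170 (by decide +kernel)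
theorem L94172 : W_34 (nat_lit 2) (nat_lit 0x24001e0001000300010001000080004000000000000000000000000000) (nat_lit 0x0) (nat_lit 0x2000080008000000000000000000000000000000000000000) := D_34 (nat_lit 159) (nat_lit 193) (nat_lit 175) (nat_lit 5) (nat_lit 6) (nat_lit 9) (nat_lit 6) (nat_lit 5) (nat_lit 13) (by decide +kernel)
theorem L94173 : W_34 (nat_lit 3) (nat_lit 0x20001e0001000300010001000080004000000000000000000000000000) (nat_lit 0x0) (nat_lit 0x600000002000080008000000000000000000000000000000000000000) := T_34 (nat_lit 226) (nat_lit 225) (nat_lit 1) (nat_lit 8) (nat_lit 12) L94172 (by decide +kernel)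
theorem L94174 : W_34 (nat_lit 4) (nat_lit 0x1e0001000300010001000080004000000000000000000000000000) (nat_lit 0x0) (nat_lit 0x6600000002000080008000000000000000000000000000000000000000) := T_34 (nat_lit 229) (nat_lit 230) (nat_lit 3) (nat_lit 5) (nat_lit 12) L94173 (by decide +kernel)
theorem L94175 : W_34 (nat_lit 5) (nat_lit 0x1e0001000300010001000080000000000000000000000000000000) (nat_lit 0x0) (nat_lit 0x6600000002000080028000000000004000000000000000000000000000) := T_34 (nat_lit 110) (nat_lit 161) (nat_lit 5) (nat_lit 8) (nat_lit 6) L94174 (by decide +kernel)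
theorem L94176 : W_34 (nat_lit 6) (nat_lit 0x1e0000000300010001000080000000000000000000000000000000) (nat_lit 0x0) (nat_lit 0x6600000003800080028000000000004000000000000000000000000000) := T_34 (nat_lit 192) (nat_lit 191) (nat_lit 0) (nat_lit 8) (nat_lit 12) L94175 (by decide +kernel)
theorem L94177 : W_34 (nat_lit 2) (nat_lit 0x4001e0008000300038001000080000000000000000000000000000000) (nat_lit 0x0) (nat_lit 0xc0040000000000000000000000000000000000000000) := D_34 (nat_lit 175) (nat_lit 174) (nat_lit 162) (nat_lit 2) (nat_lit 4) (nat_lit 10) (nat_lit 1) (nat_lit 9) (nat_lit 9) (by decide +kernel)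
theorem L94178 : W_34 (nat_lit 3) (nat_lit 0x4001e0008000300018001000080000000000000000000000000000000) (nat_lit 0x0) (nat_lit 0xc0060000000000004000000000000000000000000000) := T_34 (nat_lit 161) (nat_lit 110) (nat_lit 5) (nat_lit 8) (nat_lit 6) L94177 (by decide +kernel)
theorem L94179 : W_34 (nat_lit 4) (nat_lit 0x4001e0008000300010001000080000000000000000000000000000000) (nat_lit 0x0) (nat_lit 0x20000c0068000000000004000000000000000000000000000) := T_34 (nat_lit 159) (nat_lit 193) (nat_lit 5) (nat_lit 6) (nat_lit 9) L94178 (by decide +kernel)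
theorem L94180 : W_34 (nat_lit 5) (nat_lit 0x4001e0000000300010001000080000000000000000000000000000000) (nat_lit 0x0) (nat_lit 0x1a0000c0068000000000004000000000000000000000000000) := T_34 (nat_lit 195) (nat_lit 196) (nat_lit 2) (nat_lit 5) (nat_lit 12) L94179 (by decide +kernel)
theorem L94181 : W_34 (nat_lit 6) (nat_lit 0x1e0000000300010001000080000000000000000000000000000000) (nat_lit 0x0) (nat_lit 0x60000001a0000c0068000000000004000000000000000000000000000) := T_34 (nat_lit 226) (nat_lit 225) (nat_lit 1) (nat_lit 8) (nat_lit 12) L94180 (by decide +kernel)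
theorem L94182 : W_34 (nat_lit 12) (nat_lit 0x1e0000000200010001000080000000000000000000000000000000) (nat_lit 0x0) (nat_lit 0xe8007c00760000001b8001c00e8000000000004000000000000000000000000000) := Q_34 (nat_lit 176) (C_34 L92793 (C_34 L94161 (C_34 L94171 (C_34 L94176 (C_34 L94181 N_34))))) (by decide +kernel)
theorem L94183 : W_34 (nat_lit 13) (nat_lit 0xe0000000200010001000080000000000000000000000000000000) (nat_lit 0x0) (nat_lit 0xe8007c01f60070007b8079c01e801c000000004000000000000000000000000000) := Q_34 (nat_lit 212) (C_34 L94150 (C_34 L94155 (C_34 L93787 (C_34 L94140 (C_34 L94182 (C_34 L92599 N_34)))))) (by decide +kernel)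
theorem L94184 : W_34 (nat_lit 15) (nat_lit 0xc0000000200010001000080000000000000000000000000000000) (nat_lit 0x0) (nat_lit 0x4000fc007e01f7e073e07bf879f01ef81c780030004000000000000000000000000000) := Q_34 (nat_lit 209) (C_34 L92577 (C_34 L92461 (C_34 L93788 (C_34 L93795 (C_34 L93808 (C_34 L94116 (C_34 L94136 (C_34 L94156 (C_34 L94183 (C_34 L92512 N_34)))))))))) (by decide +kernel)
theorem L94185 : W_34 (nat_lit 2) (nat_lit 0x88003c0022000200010001000080004000000000000000000000000000) (nat_lit 0x0) (nat_lit 0x10000400040000000000000000000000000000000000000000000000000) := D_34 (nat_lit 214) (nat_lit 232) (nat_lit 198) (nat_lit 3) (nat_lit 7) (nat_lit 12) (nat_lit 2) (nat_lit 7) (nat_lit 12) (by decide +kernel)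
theorem L94186 : W_34 (nat_lit 3) (nat_lit 0x88003c0002000200010001000080004000000000000000000000000000) (nat_lit 0x0) (nat_lit 0x10000400070000000000000000000000000000000000000000000000000) := T_34 (nat_lit 197) (nat_lit 196) (nat_lit 2) (nat_lit 6) (nat_lit 12) L94185 (by decide +kernel)
theorem L94187 : W_34 (nat_lit 4) (nat_lit 0x8003c0002000200010001000080004000000000000000000000000000) (nat_lit 0x0) (nat_lit 0x1c000400070000000000000000000000000000000000000000000000000) := T_34 (nat_lit 231) (nat_lit 230) (nat_lit 3) (nat_lit 6) (nat_lit 12) L94186 (by decide +kernel)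
theorem L94188 : W_34 (nat_lit 5) (nat_lit 0x8003c0000000200010001000080004000000000000000000000000000) (nat_lit 0x0) (nat_lit 0x1c000400073000000000000000000000000000000000000000000000000) := T_34 (nat_lit 193) (nat_lit 192) (nat_lit 0) (nat_lit 9) (nat_lit 12) L94187 (by decide +kernel)
theorem L94189 : W_34 (nat_lit 6) (nat_lit 0x8001c0000000200010001000080004000000000000000000000000000) (nat_lit 0x0) (nat_lit 0x1c400600073000000000000000000000000000000000000000000000000) := T_34 (nat_lit 213) (nat_lit 226) (nat_lit 1) (nat_lit 9) (nat_lit 12) L94188 (by decide +kernel)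
theorem L94190 : W_34 (nat_lit 7) (nat_lit 0x8001c0000000200010001000080000000000000000000000000000000) (nat_lit 0x0) (nat_lit 0x1c400600073000000020000000000004000000000000000000000000000) := T_34 (nat_lit 110) (nat_lit 161) (nat_lit 5) (nat_lit 8) (nat_lit 6) L94189 (by decide +kernel)
theorem L94191 : W_34 (nat_lit 5) (nat_lit 0x8001c0000000200010001000080000000000000000000000000000000) (nat_lit 0x0) (nat_lit 0x1400600073000000000000000000000000000000000000000000000000) := T_34 (nat_lit 213) (nat_lit 226) (nat_lit 1) (nat_lit 9) (nat_lit 12) L93521 (by decide +kernel)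
theorem L94192 : W_34 (nat_lit 2) (nat_lit 0xc001f0008800200010001000080004000000000000000000000000000) (nat_lit 0x0) (nat_lit 0x100000c000000000000000000000000000000000000000000000000000) := D_34 (nat_lit 207) (nat_lit 206) (nat_lit 228) (nat_lit 3) (nat_lit 2) (nat_lit 12) (nat_lit 3) (nat_lit 3) (nat_lit 12) (by decide +kernel)
theorem L94193 : W_34 (nat_lit 3) (nat_lit 0xc001e0008800200010001000080004000000000000000000000000000) (nat_lit 0x0) (nat_lit 0x100001c000400000000000000000000000000000000000000000000000) := T_34 (nat_lit 208) (nat_lit 190) (nat_lit 0) (nat_lit 7) (nat_lit 12) L94192 (by decide +kernel)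
theorem L94194 : W_34 (nat_lit 4) (nat_lit 0xc001e0008000200010001000080004000000000000000000000000000) (nat_lit 0x0) (nat_lit 0x100001c001c00000000000000000000000000000000000000000000000) := T_34 (nat_lit 191) (nat_lit 192) (nat_lit 0) (nat_lit 8) (nat_lit 12) L94193 (by decide +kernel)
theorem L94195 : W_34 (nat_lit 5) (nat_lit 0x8001e0008000200010001000080004000000000000000000000000000) (nat_lit 0x0) (nat_lit 0x160001c001c00000000000000000000000000000000000000000000000) := T_34 (nat_lit 226) (nat_lit 225) (nat_lit 1) (nat_lit 8) (nat_lit 12) L94194 (by decide +kernel)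
theorem L94196 : W_34 (nat_lit 6) (nat_lit 0x8001e0000000200010001000080004000000000000000000000000000) (nat_lit 0x0) (nat_lit 0x160001c019c00000000000000000000000000000000000000000000000) := T_34 (nat_lit 195) (nat_lit 196) (nat_lit 2) (nat_lit 5) (nat_lit 12) L94195 (by decide +kernel)
theorem L94197 : W_34 (nat_lit 7) (nat_lit 0x8001e0000000200010001000080000000000000000000000000000000) (nat_lit 0x0) (nat_lit 0x160001c019c00000020000000000004000000000000000000000000000) := T_34 (nat_lit 110) (nat_lit 161) (nat_lit 5) (nat_lit 8) (nat_lit 6) L94196 (by decide +kernel)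
theorem L94198 : W_34 (nat_lit 2) (nat_lit 0x200000000a001fc001000200014001000080004000000000000000000000000000) (nat_lit 0x0) (nat_lit 0x700000000000000000000000000000000000000000000000) := D_34 (nat_lit 189) (nat_lit 190) (nat_lit 188) (nat_lit 0) (nat_lit 6) (nat_lit 12) (nat_lit 0) (nat_lit 5) (nat_lit 12) (by decide +kernel)
theorem L94199 : W_34 (nat_lit 3) (nat_lit 0x200000000a001f8001000200014001000080004000000000000000000000000000) (nat_lit 0x0) (nat_lit 0x4002700000000000000000000000000000000000000000000000) := T_34 (nat_lit 206) (nat_lit 193) (nat_lit 2) (nat_lit 2) (nat_lit 12) L94198 (by decide +kernel)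
theorem L94200 : W_34 (nat_lit 4) (nat_lit 0x200000000a001f0001000200014001000080004000000000000000000000000000) (nat_lit 0x0) (nat_lit 0x100000c002700000000000000000000000000000000000000000000000) := T_34 (nat_lit 207) (nat_lit 228) (nat_lit 3) (nat_lit 3) (nat_lit 12) L94199 (by decide +kernel)
theorem L94201 : W_34 (nat_lit 5) (nat_lit 0x200000000a001e0001000200014001000080004000000000000000000000000000) (nat_lit 0x0) (nat_lit 0x110001c002700000000000000000000000000000000000000000000000) := T_34 (nat_lit 208) (nat_lit 224) (nat_lit 1) (nat_lit 7) (nat_lit 12) L94200 (by decide +kernel)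
theorem L94202 : W_34 (nat_lit 6) (nat_lit 0x2000000008001e0001000200014001000080004000000000000000000000000000) (nat_lit 0x0) (nat_lit 0x170001c002700000000000000000000000000000000000000000000000) := T_34 (nat_lit 225) (nat_lit 226) (nat_lit 1) (nat_lit 8) (nat_lit 12) L94201 (by decide +kernel)
theorem L94203 : W_34 (nat_lit 7) (nat_lit 0x8001e0001000200014001000080004000000000000000000000000000) (nat_lit 0x0) (nat_lit 0x20001000170001c002700000000000000000000000000000000000000000000000) := T_34 (nat_lit 261) (nat_lit 244) (nat_lit 4) (nat_lit 6) (nat_lit 15) L94202 (by decide +kernel)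
theorem L94204 : W_34 (nat_lit 8) (nat_lit 0x8001e0001000200010001000080004000000000000000000000000000) (nat_lit 0x0) (nat_lit 0x20001000170001c002700080004000000000000000000000000000000000000000) := T_34 (nat_lit 158) (nat_lit 175) (nat_lit 7) (nat_lit 5) (nat_lit 9) L94203 (by decide +kernel)
theorem L94205 : W_34 (nat_lit 9) (nat_lit 0x8001e0001000200010001000080000000000000000000000000000000) (nat_lit 0x0) (nat_lit 0x20001000170001c002700080024000000000004000000000000000000000000000) := T_34 (nat_lit 110) (nat_lit 161) (nat_lit 5) (nat_lit 8) (nat_lit 6) L94204 (by decide +kernel)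
theorem L94206 : W_34 (nat_lit 10) (nat_lit 0x8001e0000000200010001000080000000000000000000000000000000) (nat_lit 0x0) (nat_lit 0x20001000170001c003f00080024000000000004000000000000000000000000000) := T_34 (nat_lit 192) (nat_lit 191) (nat_lit 0) (nat_lit 8) (nat_lit 12) L94205 (by decide +kernel)
theorem L94207 : W_34 (nat_lit 2) (nat_lit 0xa001f0000400200010001000080004000000000000000000000000000) (nat_lit 0x0) (nat_lit 0x1000008000200000000000000000000000000000000000000000000000) := D_34 (nat_lit 207) (nat_lit 228) (nat_lit 189) (nat_lit 3) (nat_lit 3) (nat_lit 12) (nat_lit 0) (nat_lit 6) (nat_lit 12) (by decide +kernel)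
theorem L94208 : W_34 (nat_lit 3) (nat_lit 0xa001f0000000200010001000080004000000000000000000000000000) (nat_lit 0x0) (nat_lit 0x1000008000e00000000000000000000000000000000000000000000000) := T_34 (nat_lit 190) (nat_lit 191) (nat_lit 0) (nat_lit 7) (nat_lit 12) L94207 (by decide +kernel)
theorem L94209 : W_34 (nat_lit 4) (nat_lit 0xa001e0000000200010001000080004000000000000000000000000000) (nat_lit 0x0) (nat_lit 0x1100018000e00000000000000000000000000000000000000000000000) := T_34 (nat_lit 208) (nat_lit 224) (nat_lit 1) (nat_lit 7) (nat_lit 12) L94208 (by decide +kernel)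
theorem L94210 : W_34 (nat_lit 5) (nat_lit 0xa001e0000000200010001000080000000000000000000000000000000) (nat_lit 0x0) (nat_lit 0x1100018000e00000020000000000004000000000000000000000000000) := T_34 (nat_lit 110) (nat_lit 161) (nat_lit 5) (nat_lit 8) (nat_lit 6) L94209 (by decide +kernel)
theorem L94211 : W_34 (nat_lit 6) (nat_lit 0x8001e0000000200010001000080000000000000000000000000000000) (nat_lit 0x0) (nat_lit 0x1700018000e00000020000000000004000000000000000000000000000) := T_34 (nat_lit 225) (nat_lit 226) (nat_lit 1) (nat_lit 8) (nat_lit 12) L94210 (by decide +kernel)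
theorem L94212 : W_34 (nat_lit 2) (nat_lit 0x8001f8000000200010001000080000000000000000000000000000000) (nat_lit 0x0) (nat_lit 0x380000000000000000000000000000000000000000000000000000000) := D_34 (nat_lit 224) (nat_lit 223) (nat_lit 225) (nat_lit 1) (nat_lit 6) (nat_lit 12) (nat_lit 1) (nat_lit 7) (nat_lit 12) (by decide +kernel)
theorem L94213 : W_34 (nat_lit 3) (nat_lit 0x8001f0000000200010001000080000000000000000000000000000000) (nat_lit 0x0) (nat_lit 0x1380008000000000000000000000000000000000000000000000000000) := T_34 (nat_lit 207) (nat_lit 228) (nat_lit 3) (nat_lit 3) (nat_lit 12) L94212 (by decide +kernel)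
theorem L94214 : W_34 (nat_lit 2) (nat_lit 0x8001fc000000200010001000080000000000000000000000000000000) (nat_lit 0x0) (nat_lit 0x700000000000000000000000000000000000000000000000) := D_34 (nat_lit 189) (nat_lit 190) (nat_lit 188) (nat_lit 0) (nat_lit 6) (nat_lit 12) (nat_lit 0) (nat_lit 5) (nat_lit 12) (by decide +kernel)
theorem L94215 : W_34 (nat_lit 3) (nat_lit 0x8001f8000000200010001000080000000000000000000000000000000) (nat_lit 0x0) (nat_lit 0x400004000700000000000000000000000000000000000000000000000) := T_34 (nat_lit 206) (nat_lit 226) (nat_lit 3) (nat_lit 2) (nat_lit 12) L94214 (by decide +kernel)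
theorem L94216 : W_34 (nat_lit 4) (nat_lit 0x8001f0000000200010001000080000000000000000000000000000000) (nat_lit 0x0) (nat_lit 0x140000c000700000000000000000000000000000000000000000000000) := T_34 (nat_lit 207) (nat_lit 228) (nat_lit 3) (nat_lit 3) (nat_lit 12) L94215 (by decide +kernel)
theorem L94217 : W_34 (nat_lit 5) (nat_lit 0x8001e0000000200010001000080000000000000000000000000000000) (nat_lit 0x0) (nat_lit 0x178001c000700000000000000000000000000000000000000000000000) := Q_34 (nat_lit 208) (C_34 L91434 (C_34 L94213 (C_34 L94216 N_34))) (by decide +kernel)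
theorem L94218 : W_34 (nat_lit 2) (nat_lit 0x8001e0009000280010001000080004000000000000000000000000000) (nat_lit 0x0) (nat_lit 0x200010000000000002000000000000000000000000000000000000000000000000) := D_34 (nat_lit 244) (nat_lit 261) (nat_lit 193) (nat_lit 4) (nat_lit 6) (nat_lit 15) (nat_lit 4) (nat_lit 6) (nat_lit 14) (by decide +kernel)
theorem L94219 : W_34 (nat_lit 3) (nat_lit 0x8001e0009000200010001000080004000000000000000000000000000) (nat_lit 0x0) (nat_lit 0x200010000000000002000080004000000000000000000000000000000000000000) := T_34 (nat_lit 175) (nat_lit 158) (nat_lit 7) (nat_lit 5) (nat_lit 9) L94218 (by decide +kernel)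
theorem L94220 : W_34 (nat_lit 4) (nat_lit 0x8001e0001000200010001000080004000000000000000000000000000) (nat_lit 0x0) (nat_lit 0x20001000000000001a000080004000000000000000000000000000000000000000) := T_34 (nat_lit 195) (nat_lit 196) (nat_lit 2) (nat_lit 5) (nat_lit 12) L94219 (by decide +kernel)
theorem L94221 : W_34 (nat_lit 5) (nat_lit 0x8001e0000000200010001000080004000000000000000000000000000) (nat_lit 0x0) (nat_lit 0x20001000000000001b800080004000000000000000000000000000000000000000) := T_34 (nat_lit 192) (nat_lit 191) (nat_lit 0) (nat_lit 8) (nat_lit 12) L94220 (by decide +kernel)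
theorem L94222 : W_34 (nat_lit 6) (nat_lit 0x8001e0000000200010001000080000000000000000000000000000000) (nat_lit 0x0) (nat_lit 0x20001000000000001b800080024000000000004000000000000000000000000000) := T_34 (nat_lit 110) (nat_lit 161) (nat_lit 5) (nat_lit 8) (nat_lit 6) L94221 (by decide +kernel)
theorem L94223 : W_34 (nat_lit 11) (nat_lit 0x8001c0000000200010001000080000000000000000000000000000000) (nat_lit 0x0) (nat_lit 0x20001000178003c01bf00080024000000000004000000000000000000000000000) := Q_34 (nat_lit 209) (C_34 L92867 (C_34 L94197 (C_34 L94206 (C_34 L94211 (C_34 L94217 (C_34 L94222 N_34)))))) (by decide +kernel)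
theorem L94224 : W_34 (nat_lit 6) (nat_lit 0x8003c0000000200010001000080000000000000000000000000000000) (nat_lit 0x0) (nat_lit 0x1c000400073000000020000000000004000000000000000000000000000) := T_34 (nat_lit 110) (nat_lit 161) (nat_lit 5) (nat_lit 8) (nat_lit 6) L94188 (by decide +kernel)
theorem L94225 : W_34 (nat_lit 2) (nat_lit 0x8003e0010000200010001000080000000000000000000000000000000) (nat_lit 0x0) (nat_lit 0x3800000000000000000000000000000000000000000000000) := D_34 (nat_lit 192) (nat_lit 191) (nat_lit 193) (nat_lit 0) (nat_lit 8) (nat_lit 12) (nat_lit 0) (nat_lit 9) (nat_lit 12) (by decide +kernel)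
theorem L94226 : W_34 (nat_lit 3) (nat_lit 0x8003c0010000200010001000080000000000000000000000000000000) (nat_lit 0x0) (nat_lit 0x2000b800000000000000000000000000000000000000000000000) := T_34 (nat_lit 209) (nat_lit 195) (nat_lit 2) (nat_lit 5) (nat_lit 12) L94225 (by decide +kernel)
theorem L94227 : W_34 (nat_lit 4) (nat_lit 0x8003c0000000200010001000080000000000000000000000000000000) (nat_lit 0x0) (nat_lit 0x2003b800000000000000000000000000000000000000000000000) := T_34 (nat_lit 196) (nat_lit 197) (nat_lit 2) (nat_lit 6) (nat_lit 12) L94226 (by decide +kernel)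
theorem L94228 : W_34 (nat_lit 7) (nat_lit 0x8001c0000000200010001000080000000000000000000000000000000) (nat_lit 0x0) (nat_lit 0x1d00062007b800000020000000000004000000000000000000000000000) := Q_34 (nat_lit 213) (C_34 L93521 (C_34 L93508 (C_34 L94224 (C_34 L94227 N_34)))) (by decide +kernel)
theorem L94229 : W_34 (nat_lit 12) (nat_lit 0x8000c0000000200010001000080000000000000000000000000000000) (nat_lit 0x0) (nat_lit 0x20001001d78073c07bf00080024000000000004000000000000000000000000000) := Q_34 (nat_lit 212) (C_34 L92863 (C_34 L94190 (C_34 L94191 (C_34 L94223 (C_34 L94228 N_34))))) (by decide +kernel)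
theorem L94230 : W_34 (nat_lit 2) (nat_lit 0xf00024001e000d0000000200010001000080004000000000000000000000000000) (nat_lit 0x0) (nat_lit 0x3000080000000000000000000000000000000000000000000000000000000000000000) := D_34 (nat_lit 277) (nat_lit 276) (nat_lit 259) (nat_lit 1) (nat_lit 8) (nat_lit 15) (nat_lit 7) (nat_lit 4) (nat_lit 12) (by decide +kernel)
theorem L94231 : W_34 (nat_lit 3) (nat_lit 0xe00024001e000d0000000200010001000080004000000000000000000000000000) (nat_lit 0x0) (nat_lit 0x3000180008000000000000000000000000000000000000000000000000000000000000) := T_34 (nat_lit 260) (nat_lit 243) (nat_lit 0) (nat_lit 8) (nat_lit 15) L94230 (by decide +kernel)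
theorem L94232 : W_34 (nat_lit 4) (nat_lit 0x600024001e000d0000000200010001000080004000000000000000000000000000) (nat_lit 0x0) (nat_lit 0x13000980008000000000000000000000000000000000000000000000000000000000000) := T_34 (nat_lit 263) (nat_lit 280) (nat_lit 7) (nat_lit 7) (nat_lit 12) L94231 (by decide +kernel)
theorem L94233 : W_34 (nat_lit 5) (nat_lit 0x400024001e000d0000000200010001000080004000000000000000000000000000) (nat_lit 0x0) (nat_lit 0x17000b80008000000000000000000000000000000000000000000000000000000000000) := T_34 (nat_lit 261) (nat_lit 278) (nat_lit 5) (nat_lit 7) (nat_lit 12) L94232 (by decide +kernel)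
theorem L94234 : W_34 (nat_lit 6) (nat_lit 0x24001e000d0000000200010001000080004000000000000000000000000000) (nat_lit 0x0) (nat_lit 0x1f000f80008000000000000000000000000000000000000000000000000000000000000) := T_34 (nat_lit 262) (nat_lit 279) (nat_lit 4) (nat_lit 7) (nat_lit 16) L94233 (by decide +kernel)
theorem L94235 : W_34 (nat_lit 7) (nat_lit 0x4001e000d0000000200010001000080004000000000000000000000000000) (nat_lit 0x0) (nat_lit 0x1f000f80068000000000000000000000000000000000000000000000000000000000000) := T_34 (nat_lit 245) (nat_lit 246) (nat_lit 3) (nat_lit 4) (nat_lit 13) L94234 (by decide +kernel)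
theorem L94236 : W_34 (nat_lit 8) (nat_lit 0x1e000d0000000200010001000080004000000000000000000000000000) (nat_lit 0x0) (nat_lit 0x1f000f8006e000000000000000000000000000000000000000000000000000000000000) := T_34 (nat_lit 242) (nat_lit 241) (nat_lit 1) (nat_lit 7) (nat_lit 13) L94235 (by decide +kernel)
theorem L94237 : W_34 (nat_lit 9) (nat_lit 0xe000d0000000200010001000080004000000000000000000000000000) (nat_lit 0x0) (nat_lit 0x1f000f8006e001000008000000000000000000000000000000000000000000000000000) := T_34 (nat_lit 228) (nat_lit 207) (nat_lit 0) (nat_lit 7) (nat_lit 13) L94236 (by decide +kernel)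
theorem L94238 : W_34 (nat_lit 10) (nat_lit 0xc000d0000000200010001000080004000000000000000000000000000) (nat_lit 0x0) (nat_lit 0x1f000f8006e001300008000000000000000000000000000000000000000000000000000) := T_34 (nat_lit 225) (nat_lit 224) (nat_lit 2) (nat_lit 3) (nat_lit 13) L94237 (by decide +kernel)
theorem L94239 : W_34 (nat_lit 11) (nat_lit 0xc000d0000000200010001000080000000000000000000000000000000) (nat_lit 0x0) (nat_lit 0x1f000f8006e001300008000000000020000000000004000000000000000000000000000) := T_34 (nat_lit 110) (nat_lit 161) (nat_lit 5) (nat_lit 8) (nat_lit 6) L94238 (by decide +kernel)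
theorem L94240 : W_34 (nat_lit 5) (nat_lit 0xc000d0000000200010001000080000000000000000000000000000000) (nat_lit 0x0) (nat_lit 0x800038002c000e00040002000000000000000000000000000000000000000) := Q_34 (nat_lit 209) (C_34 L91373 (C_34 L91226 (C_34 L91238 N_34))) (by decide +kernel)
theorem L94241 : W_34 (nat_lit 2) (nat_lit 0xc000f0000000200010001000080000000000000000000000000000000) (nat_lit 0x0) (nat_lit 0x100000c000000000000000000000000000000000000000000000000000) := D_34 (nat_lit 207) (nat_lit 228) (nat_lit 206) (nat_lit 3) (nat_lit 3) (nat_lit 12) (nat_lit 3) (nat_lit 2) (nat_lit 12) (by decide +kernel)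
theorem L94242 : W_34 (nat_lit 2) (nat_lit 0x8000c000f0000800200010001000080004000000000000000000000000000) (nat_lit 0x0) (nat_lit 0x1000040002000000000000000000000000000000000000000) := D_34 (nat_lit 174) (nat_lit 157) (nat_lit 192) (nat_lit 7) (nat_lit 4) (nat_lit 9) (nat_lit 4) (nat_lit 5) (nat_lit 14) (by decide +kernel)
theorem L94243 : W_34 (nat_lit 3) (nat_lit 0xc000f0000800200010001000080004000000000000000000000000000) (nat_lit 0x0) (nat_lit 0x100008000000000001000040002000000000000000000000000000000000000000) := T_34 (nat_lit 243) (nat_lit 260) (nat_lit 4) (nat_lit 5) (nat_lit 15) L94242 (by decide +kernel)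
theorem L94244 : W_34 (nat_lit 4) (nat_lit 0xc000f0000000200010001000080004000000000000000000000000000) (nat_lit 0x0) (nat_lit 0x100008000000000001c00040002000000000000000000000000000000000000000) := T_34 (nat_lit 191) (nat_lit 190) (nat_lit 0) (nat_lit 7) (nat_lit 12) L94243 (by decide +kernel)
theorem L94245 : W_34 (nat_lit 5) (nat_lit 0xc000f0000000200010001000080000000000000000000000000000000) (nat_lit 0x0) (nat_lit 0x100008000000000001c00040022000000000004000000000000000000000000000) := T_34 (nat_lit 110) (nat_lit 161) (nat_lit 5) (nat_lit 8) (nat_lit 6) L94244 (by decide +kernel)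
theorem L94246 : W_34 (nat_lit 6) (nat_lit 0xc000d0000000200010001000080000000000000000000000000000000) (nat_lit 0x0) (nat_lit 0x10000800100002c001e00040022000000000004000000000000000000000000000) := Q_34 (nat_lit 209) (C_34 L91373 (C_34 L94241 (C_34 L94245 N_34))) (by decide +kernel)
theorem L94247 : W_34 (nat_lit 4) (nat_lit 0xc000d0000800200010001000080004000000000000000000000000000) (nat_lit 0x0) (nat_lit 0x100008000000020001400040002000000000000000000000000000000000000000) := T_34 (nat_lit 209) (nat_lit 190) (nat_lit 0) (nat_lit 7) (nat_lit 12) L94243 (by decide +kernel)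
theorem L94248 : W_34 (nat_lit 5) (nat_lit 0xc000d0000800200010001000080000000000000000000000000000000) (nat_lit 0x0) (nat_lit 0x100008000000020001400040022000000000004000000000000000000000000000) := T_34 (nat_lit 110) (nat_lit 161) (nat_lit 5) (nat_lit 8) (nat_lit 6) L94247 (by decide +kernel)
theorem L94249 : W_34 (nat_lit 2) (nat_lit 0x8000d000f0000800200010001000080000000000000000000000000000000) (nat_lit 0x0) (nat_lit 0x1000040002000000000000000000000000000000000000000) := D_34 (nat_lit 174) (nat_lit 157) (nat_lit 192) (nat_lit 7) (nat_lit 4) (nat_lit 9) (nat_lit 4) (nat_lit 5) (nat_lit 14) (by decide +kernel)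
theorem L94250 : W_34 (nat_lit 3) (nat_lit 0xd000f0000800200010001000080000000000000000000000000000000) (nat_lit 0x0) (nat_lit 0x100008000000000001000040002000000000000000000000000000000000000000) := T_34 (nat_lit 243) (nat_lit 260) (nat_lit 4) (nat_lit 5) (nat_lit 15) L94249 (by decide +kernel)
theorem L94251 : W_34 (nat_lit 4) (nat_lit 0xd000d0000800200010001000080000000000000000000000000000000) (nat_lit 0x0) (nat_lit 0x100008000000020001400040002000000000000000000000000000000000000000) := T_34 (nat_lit 209) (nat_lit 190) (nat_lit 0) (nat_lit 7) (nat_lit 12) L94250 (by decide +kernel)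
theorem L94252 : W_34 (nat_lit 5) (nat_lit 0xc000d0000800200010001000080000000000000000000000000000000) (nat_lit 0x0) (nat_lit 0x100008000300020001400040002000000000000000000000000000000000000000) := T_34 (nat_lit 224) (nat_lit 225) (nat_lit 2) (nat_lit 3) (nat_lit 13) L94251 (by decide +kernel)
theorem L94253 : W_34 (nat_lit 4) (nat_lit 0xc000d0000800200010001000080000000000000000000000000000000) (nat_lit 0x0) (nat_lit 0x8000300020000400040002000000000000000000000000000000000000000) := T_34 (nat_lit 209) (nat_lit 190) (nat_lit 0) (nat_lit 7) (nat_lit 12) L91237 (by decide +kernel)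
theorem L94254 : W_34 (nat_lit 2) (nat_lit 0x4000e000d0000c00200010001000080004000000000000000000000000000) (nat_lit 0x0) (nat_lit 0x40002001000000000000000000000000000000000000000000000000000000000) := D_34 (nat_lit 241) (nat_lit 228) (nat_lit 258) (nat_lit 1) (nat_lit 7) (nat_lit 13) (nat_lit 5) (nat_lit 4) (nat_lit 11) (by decide +kernel)
theorem L94255 : W_34 (nat_lit 3) (nat_lit 0xe000d0000c00200010001000080004000000000000000000000000000) (nat_lit 0x0) (nat_lit 0x40006001000000000000020000000000000000000000000000000000000000000) := T_34 (nat_lit 242) (nat_lit 173) (nat_lit 4) (nat_lit 4) (nat_lit 14) L94254 (by decide +kernel)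
theorem L94256 : W_34 (nat_lit 4) (nat_lit 0xc000d0000c00200010001000080004000000000000000000000000000) (nat_lit 0x0) (nat_lit 0x40006001300000000000020000000000000000000000000000000000000000000) := T_34 (nat_lit 225) (nat_lit 224) (nat_lit 2) (nat_lit 3) (nat_lit 13) L94255 (by decide +kernel)
theorem L94257 : W_34 (nat_lit 5) (nat_lit 0xc000d0000800200010001000080004000000000000000000000000000) (nat_lit 0x0) (nat_lit 0x40006001300020000400020000000000000000000000000000000000000000000) := T_34 (nat_lit 190) (nat_lit 209) (nat_lit 0) (nat_lit 7) (nat_lit 12) L94256 (by decide +kernel)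
theorem L94258 : W_34 (nat_lit 6) (nat_lit 0xc000d0000800200010001000080000000000000000000000000000000) (nat_lit 0x0) (nat_lit 0x40006001300020000400020020000000000004000000000000000000000000000) := T_34 (nat_lit 110) (nat_lit 161) (nat_lit 5) (nat_lit 8) (nat_lit 6) L94257 (by decide +kernel)
theorem L94259 : W_34 (nat_lit 2) (nat_lit 0xe000d00008003c0010001000080004000000000000000000000000000) (nat_lit 0x0) (nat_lit 0x20003000000000000000000000000000000000000000) := D_34 (nat_lit 156) (nat_lit 157) (nat_lit 173) (nat_lit 0) (nat_lit 7) (nat_lit 10) (nat_lit 4) (nat_lit 4) (nat_lit 13) (by decide +kernel)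
theorem L94260 : W_34 (nat_lit 3) (nat_lit 0xe000d00008002c0010001000080004000000000000000000000000000) (nat_lit 0x0) (nat_lit 0x400120003000000000000000000000000000000000000000) := T_34 (nat_lit 176) (nat_lit 190) (nat_lit 1) (nat_lit 7) (nat_lit 10) L94259 (by decide +kernel)
theorem L94261 : W_34 (nat_lit 4) (nat_lit 0xe000d0000800240010001000080004000000000000000000000000000) (nat_lit 0x0) (nat_lit 0x4001a0007000000000000000000000000000000000000000) := T_34 (nat_lit 175) (nat_lit 158) (nat_lit 6) (nat_lit 4) (nat_lit 13) L94260 (by decide +kernel)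
theorem L94262 : W_34 (nat_lit 5) (nat_lit 0xe000d0000800200010001000080004000000000000000000000000000) (nat_lit 0x0) (nat_lit 0x80000000000004001e0007000000000000000000000000000000000000000) := T_34 (nat_lit 174) (nat_lit 243) (nat_lit 7) (nat_lit 4) (nat_lit 10) L94261 (by decide +kernel)
theorem L94263 : W_34 (nat_lit 6) (nat_lit 0xe000d0000800200010001000080000000000000000000000000000000) (nat_lit 0x0) (nat_lit 0x80000000000004001e0027000000000004000000000000000000000000000) := T_34 (nat_lit 110) (nat_lit 161) (nat_lit 5) (nat_lit 8) (nat_lit 6) L94262 (by decide +kernel)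
theorem L94264 : W_34 (nat_lit 7) (nat_lit 0xc000d0000800200010001000080000000000000000000000000000000) (nat_lit 0x0) (nat_lit 0x80003000000004001e0027000000000004000000000000000000000000000) := T_34 (nat_lit 225) (nat_lit 224) (nat_lit 2) (nat_lit 3) (nat_lit 13) L94263 (by decide +kernel)
theorem L94265 : W_34 (nat_lit 2) (nat_lit 0xe000d0000800240012001000080004000000000000000000000000000) (nat_lit 0x0) (nat_lit 0x80004000200000000000000000000000000000000000) := D_34 (nat_lit 158) (nat_lit 141) (nat_lit 175) (nat_lit 6) (nat_lit 4) (nat_lit 12) (nat_lit 6) (nat_lit 4) (nat_lit 13) (by decide +kernel)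
theorem L94266 : W_34 (nat_lit 3) (nat_lit 0xe000d0000800240010001000080004000000000000000000000000000) (nat_lit 0x0) (nat_lit 0x20000000080006000200000000000000000000000000000000000) := T_34 (nat_lit 157) (nat_lit 209) (nat_lit 7) (nat_lit 4) (nat_lit 9) L94265 (by decide +kernel)
theorem L94267 : W_34 (nat_lit 4) (nat_lit 0xe000d0000800200010001000080004000000000000000000000000000) (nat_lit 0x0) (nat_lit 0x80000000200000000c0006000200000000000000000000000000000000000) := T_34 (nat_lit 174) (nat_lit 243) (nat_lit 7) (nat_lit 4) (nat_lit 10) L94266 (by decide +kernel)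
theorem L94268 : W_34 (nat_lit 5) (nat_lit 0xe000d0000800200010001000080000000000000000000000000000000) (nat_lit 0x0) (nat_lit 0x80000000200000000c0026000200000004000000000000000000000000000) := T_34 (nat_lit 110) (nat_lit 161) (nat_lit 5) (nat_lit 8) (nat_lit 6) L94267 (by decide +kernel)
theorem L94269 : W_34 (nat_lit 6) (nat_lit 0xc000d0000800200010001000080000000000000000000000000000000) (nat_lit 0x0) (nat_lit 0x80003000200000000c0026000200000004000000000000000000000000000) := T_34 (nat_lit 225) (nat_lit 224) (nat_lit 2) (nat_lit 3) (nat_lit 13) L94268 (by decide +kernel)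
theorem L94270 : W_34 (nat_lit 8) (nat_lit 0xc000d0000000200010001000080000000000000000000000000000000) (nat_lit 0x0) (nat_lit 0x14000e001300020001c001e0027000200000004000000000000000000000000000) := Q_34 (nat_lit 191) (C_34 L94248 (C_34 L94252 (C_34 L94253 (C_34 L94258 (C_34 L94264 (C_34 L94269 N_34)))))) (by decide +kernel)
theorem L94271 : W_34 (nat_lit 2) (nat_lit 0xe000d8000000200010001000080004000000000000000000000000000) (nat_lit 0x0) (nat_lit 0x26000000000000000000000000000000000000000000000000000) := D_34 (nat_lit 206) (nat_lit 205) (nat_lit 209) (nat_lit 3) (nat_lit 1) (nat_lit 12) (nat_lit 3) (nat_lit 2) (nat_lit 12) (by decide +kernel)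
theorem L94272 : W_34 (nat_lit 3) (nat_lit 0xe000d0000000200010001000080004000000000000000000000000000) (nat_lit 0x0) (nat_lit 0x100002e000000000000000000000000000000000000000000000000000) := T_34 (nat_lit 207) (nat_lit 228) (nat_lit 0) (nat_lit 7) (nat_lit 13) L94271 (by decide +kernel)
theorem L94273 : W_34 (nat_lit 4) (nat_lit 0xe000d0000000200010001000080000000000000000000000000000000) (nat_lit 0x0) (nat_lit 0x100002e000000000020000000000004000000000000000000000000000) := T_34 (nat_lit 110) (nat_lit 161) (nat_lit 5) (nat_lit 8) (nat_lit 6) L94272 (by decide +kernel)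
theorem L94274 : W_34 (nat_lit 5) (nat_lit 0xc000d0000000200010001000080000000000000000000000000000000) (nat_lit 0x0) (nat_lit 0x130002e000000000020000000000004000000000000000000000000000) := T_34 (nat_lit 225) (nat_lit 224) (nat_lit 2) (nat_lit 3) (nat_lit 13) L94273 (by decide +kernel)
theorem L94275 : W_34 (nat_lit 12) (nat_lit 0xc000c0000000200010001000080000000000000000000000000000000) (nat_lit 0x0) (nat_lit 0x1f000fc006e00138003e001e001e0027000200000004000000000000000000000000000) := Q_34 (nat_lit 208) (C_34 L94239 (C_34 L94240 (C_34 L94246 (C_34 L94270 (C_34 L94274 N_34))))) (by decide +kernel)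
theorem L94276 : W_34 (nat_lit 13) (nat_lit 0x8000c0000000200010001000080000000000000000000000000000000) (nat_lit 0x0) (nat_lit 0x1f000fc006e00178033e031e079e01ef01c700200014000000000000000000000000000) := Q_34 (nat_lit 226) (C_34 L93266 (C_34 L91299 (C_34 L94275 N_34))) (by decide +kernel)
theorem L94277 : W_34 (nat_lit 2) (nat_lit 0x50002c001e000d0000000200010001000080004000000000000000000000000000) (nat_lit 0x0) (nat_lit 0xa00010000000000000000000000000000000000000000000000000000000000000) := D_34 (nat_lit 263) (nat_lit 244) (nat_lit 261) (nat_lit 3) (nat_lit 4) (nat_lit 14) (nat_lit 0) (nat_lit 8) (nat_lit 15) (by decide +kernel)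
theorem L94278 : W_34 (nat_lit 3) (nat_lit 0x10002c001e000d0000000200010001000080004000000000000000000000000000) (nat_lit 0x0) (nat_lit 0x8000e00010000000000000000000000000000000000000000000000000000000000000) := T_34 (nat_lit 262) (nat_lit 279) (nat_lit 4) (nat_lit 7) (nat_lit 16) L94277 (by decide +kernel)
theorem L94279 : W_34 (nat_lit 4) (nat_lit 0x10000c001e000d0000000200010001000080004000000000000000000000000000) (nat_lit 0x0) (nat_lit 0x8000e00070000000000000000000000000000000000000000000000000000000000000) := T_34 (nat_lit 245) (nat_lit 246) (nat_lit 3) (nat_lit 4) (nat_lit 13) L94278 (by decide +kernel)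
theorem L94280 : W_34 (nat_lit 5) (nat_lit 0x10000c000e000d0000000200010001000080004000000000000000000000000000) (nat_lit 0x0) (nat_lit 0x8000e00070001000008000000000000000000000000000000000000000000000000000) := T_34 (nat_lit 228) (nat_lit 207) (nat_lit 0) (nat_lit 7) (nat_lit 13) L94279 (by decide +kernel)
theorem L94281 : W_34 (nat_lit 6) (nat_lit 0x10000c000e000c0000000200010001000080004000000000000000000000000000) (nat_lit 0x0) (nat_lit 0x8000e00070001000018000800000000000000000000000000000000000000000000000) := T_34 (nat_lit 208) (nat_lit 191) (nat_lit 7) (nat_lit 4) (nat_lit 11) L94280 (by decide +kernel)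
theorem L94282 : W_34 (nat_lit 7) (nat_lit 0x10000c000e000c0000000200010001000080000000000000000000000000000000) (nat_lit 0x0) (nat_lit 0x8000e00070001000018000800000020000000000004000000000000000000000000000) := T_34 (nat_lit 110) (nat_lit 161) (nat_lit 5) (nat_lit 8) (nat_lit 6) L94281 (by decide +kernel)
theorem L94283 : W_34 (nat_lit 8) (nat_lit 0xc000e000c0000000200010001000080000000000000000000000000000000) (nat_lit 0x0) (nat_lit 0xa000f00070001000018000800000020000000000004000000000000000000000000000) := T_34 (nat_lit 260) (nat_lit 277) (nat_lit 6) (nat_lit 5) (nat_lit 16) L94282 (by decide +kernel)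
theorem L94284 : W_34 (nat_lit 9) (nat_lit 0xc000c000c0000000200010001000080000000000000000000000000000000) (nat_lit 0x0) (nat_lit 0xa000f00070001300018000800000020000000000004000000000000000000000000000) := T_34 (nat_lit 225) (nat_lit 224) (nat_lit 2) (nat_lit 3) (nat_lit 13) L94283 (by decide +kernel)
theorem L94285 : W_34 (nat_lit 10) (nat_lit 0x8000c000c0000000200010001000080000000000000000000000000000000) (nat_lit 0x0) (nat_lit 0xf000fe0077001380038001c00000020000000000004000000000000000000000000000) := Q_34 (nat_lit 242) (C_34 L93725 (C_34 L91371 (C_34 L92108 (C_34 L94284 N_34)))) (by decide +kernel)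
theorem L94286 : W_34 (nat_lit 2) (nat_lit 0x8000c000c0002000200010001000080000000000000000000000000000000) (nat_lit 0x0) (nat_lit 0x100010000000020000000000000000000000000000000000000000000000000000) := D_34 (nat_lit 260) (nat_lit 244) (nat_lit 209) (nat_lit 5) (nat_lit 6) (nat_lit 11) (nat_lit 6) (nat_lit 5) (nat_lit 15) (by decide +kernel)
theorem L94287 : W_34 (nat_lit 3) (nat_lit 0x8000c000c0000000200010001000080000000000000000000000000000000) (nat_lit 0x0) (nat_lit 0x100010000000020002000100000000000000000000000000000000000000000000) := T_34 (nat_lit 193) (nat_lit 176) (nat_lit 6) (nat_lit 6) (nat_lit 13) L94286 (by decide +kernel)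
theorem L94288 : W_34 (nat_lit 2) (nat_lit 0x28000d000c0002000200010001000080000000000000000000000000000000) (nat_lit 0x0) (nat_lit 0x400010001000000000000000000000000000000000000000000000000000000000) := D_34 (nat_lit 262) (nat_lit 228) (nat_lit 244) (nat_lit 4) (nat_lit 7) (nat_lit 15) (nat_lit 7) (nat_lit 6) (nat_lit 11) (by decide +kernel)
theorem L94289 : W_34 (nat_lit 3) (nat_lit 0x28000d000c0000000200010001000080000000000000000000000000000000) (nat_lit 0x0) (nat_lit 0x400010001000000002000100000000000000000000000000000000000000000000) := T_34 (nat_lit 193) (nat_lit 176) (nat_lit 6) (nat_lit 6) (nat_lit 13) L94288 (by decide +kernel)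
theorem L94290 : W_34 (nat_lit 4) (nat_lit 0x28000c000c0000000200010001000080000000000000000000000000000000) (nat_lit 0x0) (nat_lit 0x400010001300000002000100000000000000000000000000000000000000000000) := T_34 (nat_lit 224) (nat_lit 225) (nat_lit 2) (nat_lit 3) (nat_lit 13) L94289 (by decide +kernel)
theorem L94291 : W_34 (nat_lit 2) (nat_lit 0x28000c000c0002000200010001000080000000000000000000000000000000) (nat_lit 0x0) (nat_lit 0x400010001000000000000000000000000000000000000000000000000000000000) := D_34 (nat_lit 262) (nat_lit 228) (nat_lit 244) (nat_lit 4) (nat_lit 7) (nat_lit 15) (nat_lit 7) (nat_lit 6) (nat_lit 11) (by decide +kernel)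
theorem L94292 : W_34 (nat_lit 3) (nat_lit 0x28000c000c0000000200010001000080000000000000000000000000000000) (nat_lit 0x0) (nat_lit 0x400010001000000002000100000000000000000000000000000000000000000000) := T_34 (nat_lit 193) (nat_lit 176) (nat_lit 6) (nat_lit 6) (nat_lit 13) L94291 (by decide +kernel)
theorem L94293 : W_34 (nat_lit 2) (nat_lit 0x28000e000c0000000200010001000080000000000000000000000000000000) (nat_lit 0x0) (nat_lit 0x50001000000000000000000000000000000000000000000000000000000000) := D_34 (nat_lit 246) (nat_lit 244) (nat_lit 228) (nat_lit 0) (nat_lit 8) (nat_lit 14) (nat_lit 3) (nat_lit 4) (nat_lit 13) (by decide +kernel)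
theorem L94294 : W_34 (nat_lit 3) (nat_lit 0x28000c000c0000000200010001000080000000000000000000000000000000) (nat_lit 0x0) (nat_lit 0x50001300000000000000000000000000000000000000000000000000000000) := T_34 (nat_lit 225) (nat_lit 224) (nat_lit 2) (nat_lit 3) (nat_lit 13) L94293 (by decide +kernel)
theorem L94295 : W_34 (nat_lit 2) (nat_lit 0x28000e000c0002000200010001000080004000000000000000000000000000) (nat_lit 0x0) (nat_lit 0x400050000000000000000000000000000000000000000000000000000000000000) := D_34 (nat_lit 244) (nat_lit 262) (nat_lit 246) (nat_lit 7) (nat_lit 6) (nat_lit 11) (nat_lit 0) (nat_lit 8) (nat_lit 14) (by decide +kernel)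
theorem L94296 : W_34 (nat_lit 3) (nat_lit 0x28000c000c0002000200010001000080004000000000000000000000000000) (nat_lit 0x0) (nat_lit 0x400050000300000000000000000000000000000000000000000000000000000000) := T_34 (nat_lit 225) (nat_lit 224) (nat_lit 2) (nat_lit 3) (nat_lit 13) L94295 (by decide +kernel)
theorem L94297 : W_34 (nat_lit 4) (nat_lit 0x28000c000c0000000200010001000080004000000000000000000000000000) (nat_lit 0x0) (nat_lit 0x400050000300000002000100000000000000000000000000000000000000000000) := T_34 (nat_lit 193) (nat_lit 176) (nat_lit 6) (nat_lit 6) (nat_lit 13) L94296 (by decide +kernel)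
theorem L94298 : W_34 (nat_lit 5) (nat_lit 0x28000c000c0000000200010001000080000000000000000000000000000000) (nat_lit 0x0) (nat_lit 0x400050000300000002000100020000000000004000000000000000000000000000) := T_34 (nat_lit 110) (nat_lit 161) (nat_lit 5) (nat_lit 8) (nat_lit 6) L94297 (by decide +kernel)
theorem L94299 : W_34 (nat_lit 2) (nat_lit 0x28001c000c0002000200010001000080004000000000000000000000000000) (nat_lit 0x0) (nat_lit 0x40000300000000000000000000000000000000000000000000000000000000) := D_34 (nat_lit 225) (nat_lit 224) (nat_lit 246) (nat_lit 2) (nat_lit 3) (nat_lit 13) (nat_lit 3) (nat_lit 4) (nat_lit 13) (by decide +kernel)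
theorem L94300 : W_34 (nat_lit 3) (nat_lit 0x28000c000c0002000200010001000080004000000000000000000000000000) (nat_lit 0x0) (nat_lit 0x400040001300000000000000000000000000000000000000000000000000000000) := T_34 (nat_lit 228) (nat_lit 262) (nat_lit 4) (nat_lit 7) (nat_lit 15) L94299 (by decide +kernel)
theorem L94301 : W_34 (nat_lit 4) (nat_lit 0x28000c000c0002000200010001000080000000000000000000000000000000) (nat_lit 0x0) (nat_lit 0x400040001300000000000000020000000000004000000000000000000000000000) := T_34 (nat_lit 110) (nat_lit 161) (nat_lit 5) (nat_lit 8) (nat_lit 6) L94300 (by decide +kernel)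
theorem L94302 : W_34 (nat_lit 5) (nat_lit 0x28000c000c0000000200010001000080000000000000000000000000000000) (nat_lit 0x0) (nat_lit 0x400040001300000002000100020000000000004000000000000000000000000000) := T_34 (nat_lit 193) (nat_lit 176) (nat_lit 6) (nat_lit 6) (nat_lit 13) L94301 (by decide +kernel)
theorem L94303 : W_34 (nat_lit 6) (nat_lit 0x8000c000c0000000200010001000080000000000000000000000000000000) (nat_lit 0x0) (nat_lit 0x400070001300000002000100020000000000004000000000000000000000000000) := Q_34 (nat_lit 245) (C_34 L94290 (C_34 L94292 (C_34 L94294 (C_34 L94298 (C_34 L94302 N_34))))) (by decide +kernel)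
theorem L94304 : W_34 (nat_lit 11) (nat_lit 0xc000c0000000200010001000080000000000000000000000000000000) (nat_lit 0x0) (nat_lit 0xf000fe007f001380038003c00100020000000000004000000000000000000000000000) := Q_34 (nat_lit 243) (C_34 L92121 (C_34 L94285 (C_34 L91801 (C_34 L94287 (C_34 L94303 N_34))))) (by decide +kernel)
theorem L94305 : W_34 (nat_lit 2) (nat_lit 0x1c000c001e0009000200010001000080004000000000000000000000000000) (nat_lit 0x0) (nat_lit 0x3001000000000000000000000000000000000000000000000000000000000) := D_34 (nat_lit 241) (nat_lit 228) (nat_lit 240) (nat_lit 2) (nat_lit 3) (nat_lit 14) (nat_lit 2) (nat_lit 2) (nat_lit 14) (by decide +kernel)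
theorem L94306 : W_34 (nat_lit 3) (nat_lit 0x18000c001e0009000200010001000080004000000000000000000000000000) (nat_lit 0x0) (nat_lit 0x80007001000000000000000000000000000000000000000000000000000000000) := T_34 (nat_lit 242) (nat_lit 259) (nat_lit 5) (nat_lit 5) (nat_lit 11) L94305 (by decide +kernel)
theorem L94307 : W_34 (nat_lit 4) (nat_lit 0x8000c001e0009000200010001000080004000000000000000000000000000) (nat_lit 0x0) (nat_lit 0x280017001000000000000000000000000000000000000000000000000000000000) := T_34 (nat_lit 244) (nat_lit 261) (nat_lit 7) (nat_lit 5) (nat_lit 11) L94306 (by decide +kernel)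
theorem L94308 : W_34 (nat_lit 5) (nat_lit 0x8000c001e0008000200010001000080004000000000000000000000000000) (nat_lit 0x0) (nat_lit 0x280017001000000001800000000000000000000000000000000000000000000000) := T_34 (nat_lit 192) (nat_lit 191) (nat_lit 0) (nat_lit 8) (nat_lit 12) L94307 (by decide +kernel)
theorem L94309 : W_34 (nat_lit 6) (nat_lit 0x8000c001e0000000200010001000080004000000000000000000000000000) (nat_lit 0x0) (nat_lit 0x280017001000000019800000000000000000000000000000000000000000000000) := T_34 (nat_lit 195) (nat_lit 196) (nat_lit 2) (nat_lit 5) (nat_lit 12) L94308 (by decide +kernel)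
theorem L94310 : W_34 (nat_lit 7) (nat_lit 0x8000c001e0000000200010001000080000000000000000000000000000000) (nat_lit 0x0) (nat_lit 0x280017001000000019800000020000000000004000000000000000000000000000) := T_34 (nat_lit 110) (nat_lit 161) (nat_lit 5) (nat_lit 8) (nat_lit 6) L94309 (by decide +kernel)
theorem L94311 : W_34 (nat_lit 8) (nat_lit 0x8000c000e0000000200010001000080000000000000000000000000000000) (nat_lit 0x0) (nat_lit 0x280017001000300019800000020000000000004000000000000000000000000000) := T_34 (nat_lit 212) (nat_lit 213) (nat_lit 1) (nat_lit 9) (nat_lit 12) L94310 (by decide +kernel)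
theorem L94312 : W_34 (nat_lit 9) (nat_lit 0x8000c000c0000000200010001000080000000000000000000000000000000) (nat_lit 0x0) (nat_lit 0x700038001700100033c019800040020000000000004000000000000000000000000000) := Q_34 (nat_lit 209) (C_34 L93719 (C_34 L92041 (C_34 L91357 (C_34 L94311 N_34)))) (by decide +kernel)
theorem L94313 : W_34 (nat_lit 2) (nat_lit 0x1c000c000e0003800200010001000080004000000000000000000000000000) (nat_lit 0x0) (nat_lit 0x3001000000000000000000000000000000000000000000000000000000000) := D_34 (nat_lit 241) (nat_lit 228) (nat_lit 240) (nat_lit 2) (nat_lit 3) (nat_lit 14) (nat_lit 2) (nat_lit 2) (nat_lit 14) (by decide +kernel)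
theorem L94314 : W_34 (nat_lit 3) (nat_lit 0x18000c000e0003800200010001000080004000000000000000000000000000) (nat_lit 0x0) (nat_lit 0x80007001000000000000000000000000000000000000000000000000000000000) := T_34 (nat_lit 242) (nat_lit 259) (nat_lit 5) (nat_lit 5) (nat_lit 11) L94313 (by decide +kernel)
theorem L94315 : W_34 (nat_lit 4) (nat_lit 0x8000c000e0003800200010001000080004000000000000000000000000000) (nat_lit 0x0) (nat_lit 0x280017001000000000000000000000000000000000000000000000000000000000) := T_34 (nat_lit 244) (nat_lit 261) (nat_lit 7) (nat_lit 5) (nat_lit 11) L94314 (by decide +kernel)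
theorem L94316 : W_34 (nat_lit 5) (nat_lit 0x8000c000c0003800200010001000080004000000000000000000000000000) (nat_lit 0x0) (nat_lit 0x280017001000020000000040000000000000000000000000000000000000000000) := T_34 (nat_lit 209) (nat_lit 174) (nat_lit 4) (nat_lit 5) (nat_lit 14) L94315 (by decide +kernel)
theorem L94317 : W_34 (nat_lit 2) (nat_lit 0x8000c000c0003800200010001000080004000000000000000000000000000) (nat_lit 0x0) (nat_lit 0x320000000000000000000000000000000000000000000000000000) := D_34 (nat_lit 212) (nat_lit 213) (nat_lit 209) (nat_lit 1) (nat_lit 9) (nat_lit 12) (nat_lit 0) (nat_lit 8) (nat_lit 12) (by decide +kernel)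
theorem L94318 : W_34 (nat_lit 3) (nat_lit 0x8000c000c0002800200010001000080004000000000000000000000000000) (nat_lit 0x0) (nat_lit 0x320001400000000000000000000000000000000000000000000000) := T_34 (nat_lit 192) (nat_lit 190) (nat_lit 3) (nat_lit 3) (nat_lit 11) L94317 (by decide +kernel)
theorem L94319 : W_34 (nat_lit 4) (nat_lit 0x8000c000c0000800200010001000080004000000000000000000000000000) (nat_lit 0x0) (nat_lit 0x320003400100000000000000000000000000000000000000000000) := T_34 (nat_lit 193) (nat_lit 176) (nat_lit 6) (nat_lit 6) (nat_lit 13) L94318 (by decide +kernel)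
theorem L94320 : W_34 (nat_lit 5) (nat_lit 0x8000c000c0000800200010001000080000000000000000000000000000000) (nat_lit 0x0) (nat_lit 0x320003400100020000000000004000000000000000000000000000) := T_34 (nat_lit 110) (nat_lit 161) (nat_lit 5) (nat_lit 8) (nat_lit 6) L94319 (by decide +kernel)
theorem L94321 : W_34 (nat_lit 2) (nat_lit 0x8000c002c0000800b0007e001200080000000000000000000000000000000) (nat_lit 0x0) (nat_lit 0x10000000060000000000000000000000000000000000000000000) := D_34 (nat_lit 174) (nat_lit 173) (nat_lit 208) (nat_lit 1) (nat_lit 7) (nat_lit 9) (nat_lit 6) (nat_lit 4) (nat_lit 12) (by decide +kernel)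
theorem L94322 : W_34 (nat_lit 3) (nat_lit 0x8000c002c0000800b0007c001200080000000000000000000000000000000) (nat_lit 0x0) (nat_lit 0x10000000060003000000000000000000000000000000000000000) := T_34 (nat_lit 157) (nat_lit 156) (nat_lit 3) (nat_lit 3) (nat_lit 9) L94321 (by decide +kernel)
theorem L94323 : W_34 (nat_lit 4) (nat_lit 0x8000c002c0000800b00078001200080000000000000000000000000000000) (nat_lit 0x0) (nat_lit 0x10000000060007000100000000000000000000000000000000000) := T_34 (nat_lit 158) (nat_lit 140) (nat_lit 0) (nat_lit 8) (nat_lit 9) L94322 (by decide +kernel)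
theorem L94324 : W_34 (nat_lit 5) (nat_lit 0x8000c002c0000800b00078001000080000000000000000000000000000000) (nat_lit 0x0) (nat_lit 0x10000000060007000700000000000000000000000000000000000) := T_34 (nat_lit 141) (nat_lit 142) (nat_lit 0) (nat_lit 9) (nat_lit 9) L94323 (by decide +kernel)
theorem L94325 : W_34 (nat_lit 6) (nat_lit 0x8000c002c0000800b00070001000080000000000000000000000000000000) (nat_lit 0x0) (nat_lit 0x1000000106000f000700000000000000000000000000000000000) := T_34 (nat_lit 159) (nat_lit 180) (nat_lit 3) (nat_lit 6) (nat_lit 9) L94324 (by decide +kernel)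
theorem L94326 : W_34 (nat_lit 7) (nat_lit 0x8000c002c0000800300070001000080000000000000000000000000000000) (nat_lit 0x0) (nat_lit 0x1001000186000f000700000000000000000000000000000000000) := T_34 (nat_lit 179) (nat_lit 196) (nat_lit 4) (nat_lit 9) (nat_lit 12) L94325 (by decide +kernel)
theorem L94327 : W_34 (nat_lit 8) (nat_lit 0x8000c002c0000800300030001000080000000000000000000000000000000) (nat_lit 0x0) (nat_lit 0x100100018600cf000700000000000000000000000000000000000) := T_34 (nat_lit 162) (nat_lit 163) (nat_lit 1) (nat_lit 10) (nat_lit 9) L94326 (by decide +kernel)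
theorem L94328 : W_34 (nat_lit 9) (nat_lit 0x8000c002c0000800200030001000080000000000000000000000000000000) (nat_lit 0x0) (nat_lit 0x100120019600cf000700000000000000000000000000000000000) := T_34 (nat_lit 176) (nat_lit 193) (nat_lit 6) (nat_lit 6) (nat_lit 13) L94327 (by decide +kernel)
theorem L94329 : W_34 (nat_lit 10) (nat_lit 0x8000c002c0000800200010001000080000000000000000000000000000000) (nat_lit 0x0) (nat_lit 0x100120019600ef000700000004000000000000000000000000000) := T_34 (nat_lit 161) (nat_lit 110) (nat_lit 5) (nat_lit 8) (nat_lit 6) L94328 (by decide +kernel)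
theorem L94330 : W_34 (nat_lit 11) (nat_lit 0x8000c000c0000800200010001000080000000000000000000000000000000) (nat_lit 0x0) (nat_lit 0x3100120019600ef000700000004000000000000000000000000000) := T_34 (nat_lit 213) (nat_lit 212) (nat_lit 1) (nat_lit 9) (nat_lit 12) L94329 (by decide +kernel)
theorem L94331 : W_34 (nat_lit 6) (nat_lit 0x8000c000c0002800200010001000080004000000000000000000000000000) (nat_lit 0x0) (nat_lit 0x280017001000020001400040000000000000000000000000000000000000000000) := T_34 (nat_lit 192) (nat_lit 190) (nat_lit 3) (nat_lit 3) (nat_lit 11) L94316 (by decide +kernel)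
theorem L94332 : W_34 (nat_lit 7) (nat_lit 0x8000c000c0002800200010001000080000000000000000000000000000000) (nat_lit 0x0) (nat_lit 0x280017001000020001400040020000000000004000000000000000000000000000) := T_34 (nat_lit 110) (nat_lit 161) (nat_lit 5) (nat_lit 8) (nat_lit 6) L94331 (by decide +kernel)
theorem L94333 : W_34 (nat_lit 8) (nat_lit 0x8000c000c0000800200010001000080000000000000000000000000000000) (nat_lit 0x0) (nat_lit 0x280017001000020003400140020000000000004000000000000000000000000000) := T_34 (nat_lit 193) (nat_lit 176) (nat_lit 6) (nat_lit 6) (nat_lit 13) L94332 (by decide +kernel)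
theorem L94334 : W_34 (nat_lit 12) (nat_lit 0x8000c000c0000000200010001000080000000000000000000000000000000) (nat_lit 0x0) (nat_lit 0x28001700100033c013c019600ef000700000004000000000000000000000000000) := Q_34 (nat_lit 191) (C_34 L92048 (C_34 L94320 (C_34 L94330 (C_34 L94333 N_34)))) (by decide +kernel)
theorem L94335 : W_34 (nat_lit 13) (nat_lit 0xc000c0000000200010001000080000000000000000000000000000000) (nat_lit 0x0) (nat_lit 0x700038001f00100033c01bc019600ef000700000004000000000000000000000000000) := Q_34 (nat_lit 243) (C_34 L94287 (C_34 L92044 (C_34 L94312 (C_34 L91801 (C_34 L94334 N_34))))) (by decide +kernel)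
theorem L94336 : W_34 (nat_lit 14) (nat_lit 0x8000c0000000200010001000080000000000000000000000000000000) (nat_lit 0x0) (nat_lit 0xf000fe007f00178033c01bc019600ef000700000004000000000000000000000000000) := Q_34 (nat_lit 226) (C_34 L91299 (C_34 L91297 (C_34 L94304 (C_34 L94335 N_34)))) (by decide +kernel)
theorem L94337 : W_34 (nat_lit 15) (nat_lit 0xc0000000200010001000080000000000000000000000000000000) (nat_lit 0x0) (nat_lit 0x1f001fe00ff01df8073e07bf079e01ef01c700200014000000000000000000000000000) := Q_34 (nat_lit 227) (C_34 L94229 (C_34 L94276 (C_34 L92996 (C_34 L93744 (C_34 L94336 N_34))))) (by decide +kernel)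
theorem L94338 : W_34 (nat_lit 2) (nat_lit 0xc0000000380010001000080000000000000000000000000000000) (nat_lit 0x0) (nat_lit 0x40020000000000004000000000000000000000000000) := D_34 (nat_lit 161) (nat_lit 110) (nat_lit 174) (nat_lit 5) (nat_lit 8) (nat_lit 6) (nat_lit 2) (nat_lit 4) (nat_lit 10) (by decide +kernel)
theorem L94339 : W_34 (nat_lit 2) (nat_lit 0x8000c00004003c0011001000080000000000000000000000000000000) (nat_lit 0x0) (nat_lit 0x200020000800000000000000000000000000000000000000) := D_34 (nat_lit 173) (nat_lit 189) (nat_lit 155) (nat_lit 1) (nat_lit 6) (nat_lit 10) (nat_lit 0) (nat_lit 6) (nat_lit 10) (by decide +kernel)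
theorem L94340 : W_34 (nat_lit 3) (nat_lit 0x8000c00004003c0010001000080000000000000000000000000000000) (nat_lit 0x0) (nat_lit 0x200020003800000000000000000000000000000000000000) := T_34 (nat_lit 156) (nat_lit 157) (nat_lit 0) (nat_lit 7) (nat_lit 10) L94339 (by decide +kernel)
theorem L94341 : W_34 (nat_lit 4) (nat_lit 0x8000c00000003c0010001000080000000000000000000000000000000) (nat_lit 0x0) (nat_lit 0xe00020003800000000000000000000000000000000000000) := T_34 (nat_lit 190) (nat_lit 191) (nat_lit 1) (nat_lit 7) (nat_lit 10) L94340 (by decide +kernel)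
theorem L94342 : W_34 (nat_lit 5) (nat_lit 0x8000c0000000380010001000080000000000000000000000000000000) (nat_lit 0x0) (nat_lit 0xe00060023800000000000000000000000000000000000000) := T_34 (nat_lit 174) (nat_lit 161) (nat_lit 2) (nat_lit 4) (nat_lit 10) L94341 (by decide +kernel)
theorem L94343 : W_34 (nat_lit 6) (nat_lit 0xc0000000380010001000080000000000000000000000000000000) (nat_lit 0x0) (nat_lit 0x800000002e00060023800000000000000000000000000000000000000) := T_34 (nat_lit 227) (nat_lit 193) (nat_lit 6) (nat_lit 6) (nat_lit 13) L94342 (by decide +kernel)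
theorem L94344 : W_34 (nat_lit 2) (nat_lit 0x2000000048001e0011000380010001000080004000000000000000000000000000) (nat_lit 0x0) (nat_lit 0x8000200020000000000000000000000000000000000000000000000000) := D_34 (nat_lit 213) (nat_lit 197) (nat_lit 231) (nat_lit 2) (nat_lit 6) (nat_lit 12) (nat_lit 3) (nat_lit 6) (nat_lit 12) (by decide +kernel)
theorem L94345 : W_34 (nat_lit 3) (nat_lit 0x2000000008001e0011000380010001000080004000000000000000000000000000) (nat_lit 0x0) (nat_lit 0xe000200020000000000000000000000000000000000000000000000000) := T_34 (nat_lit 230) (nat_lit 229) (nat_lit 3) (nat_lit 5) (nat_lit 12) L94344 (by decide +kernel)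
theorem L94346 : W_34 (nat_lit 4) (nat_lit 0x2000000008001e0001000380010001000080004000000000000000000000000000) (nat_lit 0x0) (nat_lit 0xe000200038000000000000000000000000000000000000000000000000) := T_34 (nat_lit 196) (nat_lit 195) (nat_lit 2) (nat_lit 5) (nat_lit 12) L94345 (by decide +kernel)
theorem L94347 : W_34 (nat_lit 5) (nat_lit 0x2000000008000e0001000380010001000080004000000000000000000000000000) (nat_lit 0x0) (nat_lit 0xe000300038800000000000000000000000000000000000000000000000) := T_34 (nat_lit 212) (nat_lit 191) (nat_lit 0) (nat_lit 8) (nat_lit 12) L94346 (by decide +kernel)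
theorem L94348 : W_34 (nat_lit 6) (nat_lit 0x8000e0001000380010001000080004000000000000000000000000000) (nat_lit 0x0) (nat_lit 0x20001000e000300038800000000000000000000000000000000000000000000000) := T_34 (nat_lit 261) (nat_lit 244) (nat_lit 4) (nat_lit 6) (nat_lit 15) L94347 (by decide +kernel)
theorem L94349 : W_34 (nat_lit 7) (nat_lit 0x8000e0000000380010001000080004000000000000000000000000000) (nat_lit 0x0) (nat_lit 0x20001000e000300039800000004000000000000000000000000000000000000000) := T_34 (nat_lit 192) (nat_lit 158) (nat_lit 7) (nat_lit 5) (nat_lit 9) L94348 (by decide +kernel)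
theorem L94350 : W_34 (nat_lit 8) (nat_lit 0xe0000000380010001000080004000000000000000000000000000) (nat_lit 0x0) (nat_lit 0x20001000e80030003b800000004000000000000000000000000000000000000000) := T_34 (nat_lit 227) (nat_lit 193) (nat_lit 6) (nat_lit 6) (nat_lit 13) L94349 (by decide +kernel)
theorem L94351 : W_34 (nat_lit 9) (nat_lit 0xe0000000380010001000080000000000000000000000000000000) (nat_lit 0x0) (nat_lit 0x20001000e80030003b800000024000000000004000000000000000000000000000) := T_34 (nat_lit 110) (nat_lit 161) (nat_lit 5) (nat_lit 8) (nat_lit 6) L94350 (by decide +kernel)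
theorem L94352 : W_34 (nat_lit 2) (nat_lit 0x38001e0011000380010001000080004000000000000000000000000000) (nat_lit 0x0) (nat_lit 0x600020000000000000000000000000000000000000000000000000) := D_34 (nat_lit 213) (nat_lit 197) (nat_lit 214) (nat_lit 2) (nat_lit 6) (nat_lit 12) (nat_lit 1) (nat_lit 10) (nat_lit 12) (by decide +kernel)
theorem L94353 : W_34 (nat_lit 3) (nat_lit 0x28001e0011000380010001000080004000000000000000000000000000) (nat_lit 0x0) (nat_lit 0x1000610020000000000000000000000000000000000000000000000000) := T_34 (nat_lit 228) (nat_lit 208) (nat_lit 3) (nat_lit 4) (nat_lit 12) L94352 (by decide +kernel)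
theorem L94354 : W_34 (nat_lit 4) (nat_lit 0x8001e0011000380010001000080004000000000000000000000000000) (nat_lit 0x0) (nat_lit 0x7000610020000000000000000000000000000000000000000000000000) := T_34 (nat_lit 229) (nat_lit 230) (nat_lit 3) (nat_lit 5) (nat_lit 12) L94353 (by decide +kernel)
theorem L94355 : W_34 (nat_lit 5) (nat_lit 0x8001e0001000380010001000080004000000000000000000000000000) (nat_lit 0x0) (nat_lit 0x7000610038000000000000000000000000000000000000000000000000) := T_34 (nat_lit 196) (nat_lit 195) (nat_lit 2) (nat_lit 5) (nat_lit 12) L94354 (by decide +kernel)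
theorem L94356 : W_34 (nat_lit 6) (nat_lit 0x8000e0001000380010001000080004000000000000000000000000000) (nat_lit 0x0) (nat_lit 0x7000710038800000000000000000000000000000000000000000000000) := T_34 (nat_lit 212) (nat_lit 191) (nat_lit 0) (nat_lit 8) (nat_lit 12) L94355 (by decide +kernel)
theorem L94357 : W_34 (nat_lit 7) (nat_lit 0x8000e0001000380010001000080000000000000000000000000000000) (nat_lit 0x0) (nat_lit 0x7000710038800000020000000000004000000000000000000000000000) := T_34 (nat_lit 110) (nat_lit 161) (nat_lit 5) (nat_lit 8) (nat_lit 6) L94356 (by decide +kernel)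
theorem L94358 : W_34 (nat_lit 8) (nat_lit 0x8000e0000000380010001000080000000000000000000000000000000) (nat_lit 0x0) (nat_lit 0x7000710039800000024000000000004000000000000000000000000000) := T_34 (nat_lit 192) (nat_lit 158) (nat_lit 7) (nat_lit 5) (nat_lit 9) L94357 (by decide +kernel)
theorem L94359 : W_34 (nat_lit 9) (nat_lit 0xe0000000380010001000080000000000000000000000000000000) (nat_lit 0x0) (nat_lit 0x780071003b800000024000000000004000000000000000000000000000) := T_34 (nat_lit 227) (nat_lit 193) (nat_lit 6) (nat_lit 6) (nat_lit 13) L94358 (by decide +kernel)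
theorem L94360 : W_34 (nat_lit 2) (nat_lit 0x2000f0000800380010001000080004000000000000000000000000000) (nat_lit 0x0) (nat_lit 0x100001000000004000000000000000000000000000000000000000) := D_34 (nat_lit 192) (nat_lit 158) (nat_lit 212) (nat_lit 5) (nat_lit 5) (nat_lit 9) (nat_lit 0) (nat_lit 8) (nat_lit 12) (by decide +kernel)
theorem L94361 : W_34 (nat_lit 3) (nat_lit 0x2000f0000000380010001000080004000000000000000000000000000) (nat_lit 0x0) (nat_lit 0x100001c00000004000000000000000000000000000000000000000) := T_34 (nat_lit 191) (nat_lit 190) (nat_lit 0) (nat_lit 7) (nat_lit 12) L94360 (by decide +kernel)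
theorem L94362 : W_34 (nat_lit 4) (nat_lit 0xf0000000380010001000080004000000000000000000000000000) (nat_lit 0x0) (nat_lit 0x300100001c00000004000000000000000000000000000000000000000) := T_34 (nat_lit 225) (nat_lit 224) (nat_lit 1) (nat_lit 7) (nat_lit 12) L94361 (by decide +kernel)
theorem L94363 : W_34 (nat_lit 5) (nat_lit 0xf0000000380010001000080000000000000000000000000000000) (nat_lit 0x0) (nat_lit 0x300100001c00000024000000000004000000000000000000000000000) := T_34 (nat_lit 110) (nat_lit 161) (nat_lit 5) (nat_lit 8) (nat_lit 6) L94362 (by decide +kernel)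
theorem L94364 : W_34 (nat_lit 2) (nat_lit 0x12000f8000000380010001000080000000000000000000000000000000) (nat_lit 0x0) (nat_lit 0xe00000000000000000000000000000000000000000000000) := D_34 (nat_lit 190) (nat_lit 189) (nat_lit 191) (nat_lit 0) (nat_lit 6) (nat_lit 12) (nat_lit 0) (nat_lit 7) (nat_lit 12) (by decide +kernel)
theorem L94365 : W_34 (nat_lit 3) (nat_lit 0x12000f0000000380010001000080000000000000000000000000000000) (nat_lit 0x0) (nat_lit 0x800008000e00000000000000000000000000000000000000000000000) := T_34 (nat_lit 207) (nat_lit 227) (nat_lit 3) (nat_lit 3) (nat_lit 12) L94364 (by decide +kernel)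
theorem L94366 : W_34 (nat_lit 4) (nat_lit 0x2000f0000000380010001000080000000000000000000000000000000) (nat_lit 0x0) (nat_lit 0x3800008000e00000000000000000000000000000000000000000000000) := T_34 (nat_lit 228) (nat_lit 229) (nat_lit 3) (nat_lit 4) (nat_lit 12) L94365 (by decide +kernel)
theorem L94367 : W_34 (nat_lit 5) (nat_lit 0xf0000000380010001000080000000000000000000000000000000) (nat_lit 0x0) (nat_lit 0x3b00008000e00000000000000000000000000000000000000000000000) := T_34 (nat_lit 225) (nat_lit 224) (nat_lit 1) (nat_lit 7) (nat_lit 12) L94366 (by decide +kernel)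
theorem L94368 : W_34 (nat_lit 2) (nat_lit 0x22003f0010000380034001000080000000000000000000000000000000) (nat_lit 0x0) (nat_lit 0x8000c0000000000000000000000000000000000000000) := D_34 (nat_lit 162) (nat_lit 163) (nat_lit 179) (nat_lit 1) (nat_lit 10) (nat_lit 9) (nat_lit 5) (nat_lit 9) (nat_lit 9) (by decide +kernel)
theorem L94369 : W_34 (nat_lit 3) (nat_lit 0x22001f0010000380034001000080000000000000000000000000000000) (nat_lit 0x0) (nat_lit 0x2000200008000c0000000000000000000000000000000000000000) := T_34 (nat_lit 213) (nat_lit 197) (nat_lit 2) (nat_lit 6) (nat_lit 12) L94368 (by decide +kernel)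
theorem L94370 : W_34 (nat_lit 4) (nat_lit 0x22001f0010000380014001000080000000000000000000000000000000) (nat_lit 0x0) (nat_lit 0x2000200008000e0000000000004000000000000000000000000000) := T_34 (nat_lit 161) (nat_lit 110) (nat_lit 5) (nat_lit 8) (nat_lit 6) L94369 (by decide +kernel)
theorem L94371 : W_34 (nat_lit 5) (nat_lit 0x22001f0000000380014001000080000000000000000000000000000000) (nat_lit 0x0) (nat_lit 0x2000380008000e0000000000004000000000000000000000000000) := T_34 (nat_lit 196) (nat_lit 195) (nat_lit 2) (nat_lit 5) (nat_lit 12) L94370 (by decide +kernel)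
theorem L94372 : W_34 (nat_lit 6) (nat_lit 0x22000f0000000380014001000080000000000000000000000000000000) (nat_lit 0x0) (nat_lit 0x40003000380008000e0000000000004000000000000000000000000000) := T_34 (nat_lit 212) (nat_lit 230) (nat_lit 3) (nat_lit 5) (nat_lit 12) L94371 (by decide +kernel)
theorem L94373 : W_34 (nat_lit 7) (nat_lit 0x22000f0000000380010001000080000000000000000000000000000000) (nat_lit 0x0) (nat_lit 0x40003000390008000e4000000000004000000000000000000000000000) := T_34 (nat_lit 158) (nat_lit 192) (nat_lit 5) (nat_lit 5) (nat_lit 9) L94372 (by decide +kernel)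
theorem L94374 : W_34 (nat_lit 8) (nat_lit 0x2000f0000000380010001000080000000000000000000000000000000) (nat_lit 0x0) (nat_lit 0x70003000390008000e4000000000004000000000000000000000000000) := T_34 (nat_lit 229) (nat_lit 228) (nat_lit 3) (nat_lit 4) (nat_lit 12) L94373 (by decide +kernel)
theorem L94375 : W_34 (nat_lit 9) (nat_lit 0xf0000000380010001000080000000000000000000000000000000) (nat_lit 0x0) (nat_lit 0x73003000390008000e4000000000004000000000000000000000000000) := T_34 (nat_lit 225) (nat_lit 224) (nat_lit 1) (nat_lit 7) (nat_lit 12) L94374 (by decide +kernel)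
theorem L94376 : W_34 (nat_lit 2) (nat_lit 0x10800f8001800380010001000080004000000000000000000000000000) (nat_lit 0x0) (nat_lit 0x40006000000000000000000000000000000000000000000000000000) := D_34 (nat_lit 206) (nat_lit 222) (nat_lit 205) (nat_lit 1) (nat_lit 5) (nat_lit 12) (nat_lit 2) (nat_lit 1) (nat_lit 12) (by decide +kernel)
theorem L94377 : W_34 (nat_lit 3) (nat_lit 0x10800f8000800380010001000080004000000000000000000000000000) (nat_lit 0x0) (nat_lit 0x40106001000000000000000000000000000000000000000000000000) := T_34 (nat_lit 192) (nat_lit 212) (nat_lit 0) (nat_lit 8) (nat_lit 12) L94376 (by decide +kernel)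
theorem L94378 : W_34 (nat_lit 4) (nat_lit 0x10000f8000800380010001000080004000000000000000000000000000) (nat_lit 0x0) (nat_lit 0x1c0106001000000000000000000000000000000000000000000000000) := T_34 (nat_lit 223) (nat_lit 224) (nat_lit 1) (nat_lit 6) (nat_lit 12) L94377 (by decide +kernel)
theorem L94379 : W_34 (nat_lit 5) (nat_lit 0x10000f0000800380010001000080004000000000000000000000000000) (nat_lit 0x0) (nat_lit 0x9c010e001000000000000000000000000000000000000000000000000) := T_34 (nat_lit 207) (nat_lit 227) (nat_lit 3) (nat_lit 3) (nat_lit 12) L94378 (by decide +kernel)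
theorem L94380 : W_34 (nat_lit 6) (nat_lit 0xf0000800380010001000080004000000000000000000000000000) (nat_lit 0x0) (nat_lit 0x39c010e001000000000000000000000000000000000000000000000000) := T_34 (nat_lit 228) (nat_lit 229) (nat_lit 3) (nat_lit 4) (nat_lit 12) L94379 (by decide +kernel)
theorem L94381 : W_34 (nat_lit 7) (nat_lit 0xf0000000380010001000080004000000000000000000000000000) (nat_lit 0x0) (nat_lit 0x39c010e001c00000000000000000000000000000000000000000000000) := T_34 (nat_lit 191) (nat_lit 190) (nat_lit 0) (nat_lit 7) (nat_lit 12) L94380 (by decide +kernel)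
theorem L94382 : W_34 (nat_lit 8) (nat_lit 0xf0000000380010001000080000000000000000000000000000000) (nat_lit 0x0) (nat_lit 0x39c010e001c00000020000000000004000000000000000000000000000) := T_34 (nat_lit 110) (nat_lit 161) (nat_lit 5) (nat_lit 8) (nat_lit 6) L94381 (by decide +kernel)
theorem L94383 : W_34 (nat_lit 2) (nat_lit 0x1f0000800380010001000080004000000000000000000000000000) (nat_lit 0x0) (nat_lit 0x7000000000000000000000000000000000000000000000000000000000) := D_34 (nat_lit 229) (nat_lit 228) (nat_lit 230) (nat_lit 3) (nat_lit 4) (nat_lit 12) (nat_lit 3) (nat_lit 5) (nat_lit 12) (by decide +kernel)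
theorem L94384 : W_34 (nat_lit 3) (nat_lit 0xf0000800380010001000080004000000000000000000000000000) (nat_lit 0x0) (nat_lit 0x7000100001000000000000000000000000000000000000000000000000) := T_34 (nat_lit 212) (nat_lit 192) (nat_lit 0) (nat_lit 8) (nat_lit 12) L94383 (by decide +kernel)
theorem L94385 : W_34 (nat_lit 4) (nat_lit 0xf0000800380010001000080000000000000000000000000000000) (nat_lit 0x0) (nat_lit 0x7000100001000000020000000000004000000000000000000000000000) := T_34 (nat_lit 110) (nat_lit 161) (nat_lit 5) (nat_lit 8) (nat_lit 6) L94384 (by decide +kernel)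
theorem L94386 : W_34 (nat_lit 5) (nat_lit 0xf0000000380010001000080000000000000000000000000000000) (nat_lit 0x0) (nat_lit 0x7000100001c00000020000000000004000000000000000000000000000) := T_34 (nat_lit 191) (nat_lit 190) (nat_lit 0) (nat_lit 7) (nat_lit 12) L94385 (by decide +kernel)
theorem L94387 : W_34 (nat_lit 10) (nat_lit 0xe0000000380010001000080000000000000000000000000000000) (nat_lit 0x0) (nat_lit 0x7bc031e039e008000e4000000000004000000000000000000000000000) := Q_34 (nat_lit 208) (C_34 L94363 (C_34 L94367 (C_34 L94375 (C_34 L94382 (C_34 L94386 N_34))))) (by decide +kernel)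
theorem L94388 : W_34 (nat_lit 2) (nat_lit 0x2000000038001e0011000380010001000080000000000000000000000000000000) (nat_lit 0x0) (nat_lit 0x600020000000000000000000000000000000000000000000000000) := D_34 (nat_lit 213) (nat_lit 197) (nat_lit 214) (nat_lit 2) (nat_lit 6) (nat_lit 12) (nat_lit 1) (nat_lit 10) (nat_lit 12) (by decide +kernel)
theorem L94389 : W_34 (nat_lit 3) (nat_lit 0x2000000028001e0011000380010001000080000000000000000000000000000000) (nat_lit 0x0) (nat_lit 0x1000610020000000000000000000000000000000000000000000000000) := T_34 (nat_lit 228) (nat_lit 208) (nat_lit 3) (nat_lit 4) (nat_lit 12) L94388 (by decide +kernel)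
theorem L94390 : W_34 (nat_lit 4) (nat_lit 0x2000000008001e0011000380010001000080000000000000000000000000000000) (nat_lit 0x0) (nat_lit 0x7000610020000000000000000000000000000000000000000000000000) := T_34 (nat_lit 229) (nat_lit 230) (nat_lit 3) (nat_lit 5) (nat_lit 12) L94389 (by decide +kernel)
theorem L94391 : W_34 (nat_lit 5) (nat_lit 0x2000000008001e0001000380010001000080000000000000000000000000000000) (nat_lit 0x0) (nat_lit 0x7000610038000000000000000000000000000000000000000000000000) := T_34 (nat_lit 196) (nat_lit 195) (nat_lit 2) (nat_lit 5) (nat_lit 12) L94390 (by decide +kernel)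
theorem L94392 : W_34 (nat_lit 6) (nat_lit 0x2000000008000e0001000380010001000080000000000000000000000000000000) (nat_lit 0x0) (nat_lit 0x7000710038800000000000000000000000000000000000000000000000) := T_34 (nat_lit 212) (nat_lit 191) (nat_lit 0) (nat_lit 8) (nat_lit 12) L94391 (by decide +kernel)
theorem L94393 : W_34 (nat_lit 7) (nat_lit 0x8000e0001000380010001000080000000000000000000000000000000) (nat_lit 0x0) (nat_lit 0x200010007000710038800000000000000000000000000000000000000000000000) := T_34 (nat_lit 261) (nat_lit 244) (nat_lit 4) (nat_lit 6) (nat_lit 15) L94392 (by decide +kernel)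
theorem L94394 : W_34 (nat_lit 8) (nat_lit 0x8000e0000000380010001000080000000000000000000000000000000) (nat_lit 0x0) (nat_lit 0x200010007000710039800000004000000000000000000000000000000000000000) := T_34 (nat_lit 192) (nat_lit 158) (nat_lit 7) (nat_lit 5) (nat_lit 9) L94393 (by decide +kernel)
theorem L94395 : W_34 (nat_lit 9) (nat_lit 0xe0000000380010001000080000000000000000000000000000000) (nat_lit 0x0) (nat_lit 0x20001000780071003b800000004000000000000000000000000000000000000000) := T_34 (nat_lit 227) (nat_lit 193) (nat_lit 6) (nat_lit 6) (nat_lit 13) L94394 (by decide +kernel)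
theorem L94396 : W_34 (nat_lit 2) (nat_lit 0x2000000048003e0021000380010001000080004000000000000000000000000000) (nat_lit 0x0) (nat_lit 0x1000400040000000000000000000000000000000000000000000000000) := D_34 (nat_lit 214) (nat_lit 228) (nat_lit 198) (nat_lit 1) (nat_lit 10) (nat_lit 12) (nat_lit 2) (nat_lit 7) (nat_lit 12) (by decide +kernel)
theorem L94397 : W_34 (nat_lit 3) (nat_lit 0x2000000048003e0001000380010001000080004000000000000000000000000000) (nat_lit 0x0) (nat_lit 0x1000400070000000000000000000000000000000000000000000000000) := T_34 (nat_lit 197) (nat_lit 196) (nat_lit 2) (nat_lit 6) (nat_lit 12) L94396 (by decide +kernel)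
theorem L94398 : W_34 (nat_lit 4) (nat_lit 0x2000000048001e0001000380010001000080004000000000000000000000000000) (nat_lit 0x0) (nat_lit 0x9000600070000000000000000000000000000000000000000000000000) := T_34 (nat_lit 213) (nat_lit 231) (nat_lit 3) (nat_lit 6) (nat_lit 12) L94397 (by decide +kernel)
theorem L94399 : W_34 (nat_lit 5) (nat_lit 0x2000000008001e0001000380010001000080004000000000000000000000000000) (nat_lit 0x0) (nat_lit 0xf000600070000000000000000000000000000000000000000000000000) := T_34 (nat_lit 230) (nat_lit 229) (nat_lit 3) (nat_lit 5) (nat_lit 12) L94398 (by decide +kernel)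
theorem L94400 : W_34 (nat_lit 6) (nat_lit 0x8001e0001000380010001000080004000000000000000000000000000) (nat_lit 0x0) (nat_lit 0x20001000f000600070000000000000000000000000000000000000000000000000) := T_34 (nat_lit 261) (nat_lit 244) (nat_lit 4) (nat_lit 6) (nat_lit 15) L94399 (by decide +kernel)
theorem L94401 : W_34 (nat_lit 7) (nat_lit 0x8000e0001000380010001000080004000000000000000000000000000) (nat_lit 0x0) (nat_lit 0x20001000f000700070800000000000000000000000000000000000000000000000) := T_34 (nat_lit 212) (nat_lit 191) (nat_lit 0) (nat_lit 8) (nat_lit 12) L94400 (by decide +kernel)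
theorem L94402 : W_34 (nat_lit 8) (nat_lit 0x8000e0001000380010001000080000000000000000000000000000000) (nat_lit 0x0) (nat_lit 0x20001000f000700070800000020000000000004000000000000000000000000000) := T_34 (nat_lit 110) (nat_lit 161) (nat_lit 5) (nat_lit 8) (nat_lit 6) L94401 (by decide +kernel)
theorem L94403 : W_34 (nat_lit 9) (nat_lit 0x8000e0000000380010001000080000000000000000000000000000000) (nat_lit 0x0) (nat_lit 0x20001000f000700071800000024000000000004000000000000000000000000000) := T_34 (nat_lit 192) (nat_lit 158) (nat_lit 7) (nat_lit 5) (nat_lit 9) L94402 (by decide +kernel)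
theorem L94404 : W_34 (nat_lit 10) (nat_lit 0xe0000000380010001000080000000000000000000000000000000) (nat_lit 0x0) (nat_lit 0x20001000f800700073800000024000000000004000000000000000000000000000) := T_34 (nat_lit 227) (nat_lit 193) (nat_lit 6) (nat_lit 6) (nat_lit 13) L94403 (by decide +kernel)
theorem L94405 : W_34 (nat_lit 2) (nat_lit 0x2000f0000800380010001000080004000000000000000000000000000) (nat_lit 0x0) (nat_lit 0x4000000100001000000000000000000000000000000000000000000000000) := D_34 (nat_lit 192) (nat_lit 212) (nat_lit 242) (nat_lit 0) (nat_lit 8) (nat_lit 12) (nat_lit 6) (nat_lit 4) (nat_lit 14) (by decide +kernel)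
theorem L94406 : W_34 (nat_lit 3) (nat_lit 0x2000f0000000380010001000080004000000000000000000000000000) (nat_lit 0x0) (nat_lit 0x4000000100001c00000000000000000000000000000000000000000000000) := T_34 (nat_lit 191) (nat_lit 190) (nat_lit 0) (nat_lit 7) (nat_lit 12) L94405 (by decide +kernel)
theorem L94407 : W_34 (nat_lit 4) (nat_lit 0xf0000000380010001000080004000000000000000000000000000) (nat_lit 0x0) (nat_lit 0x4000300100001c00000000000000000000000000000000000000000000000) := T_34 (nat_lit 225) (nat_lit 224) (nat_lit 1) (nat_lit 7) (nat_lit 12) L94406 (by decide +kernel)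
theorem L94408 : W_34 (nat_lit 5) (nat_lit 0xf0000000380010001000080000000000000000000000000000000) (nat_lit 0x0) (nat_lit 0x4000300100001c00000020000000000004000000000000000000000000000) := T_34 (nat_lit 110) (nat_lit 161) (nat_lit 5) (nat_lit 8) (nat_lit 6) L94407 (by decide +kernel)
theorem L94409 : W_34 (nat_lit 2) (nat_lit 0x8000f0000000380010001000080000000000000000000000000000000) (nat_lit 0x0) (nat_lit 0x3000008000000000000000000000000000000000000000000000000000) := D_34 (nat_lit 228) (nat_lit 207) (nat_lit 229) (nat_lit 3) (nat_lit 3) (nat_lit 12) (nat_lit 3) (nat_lit 4) (nat_lit 12) (by decide +kernel)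
theorem L94410 : W_34 (nat_lit 3) (nat_lit 0xf0000000380010001000080000000000000000000000000000000) (nat_lit 0x0) (nat_lit 0x3800008002000000000000000000000000000000000000000000000000) := T_34 (nat_lit 227) (nat_lit 193) (nat_lit 6) (nat_lit 6) (nat_lit 13) L94409 (by decide +kernel)
theorem L94411 : W_34 (nat_lit 6) (nat_lit 0xe0000000380010001000080000000000000000000000000000000) (nat_lit 0x0) (nat_lit 0x4007b00118003e00000020000000000004000000000000000000000000000) := Q_34 (nat_lit 208) (C_34 L94386 (C_34 L94408 (C_34 L94367 (C_34 L94410 N_34)))) (by decide +kernel)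
theorem L94412 : W_34 (nat_lit 2) (nat_lit 0x9000f0000400380010001000080000000000000000000000000000000) (nat_lit 0x0) (nat_lit 0x80008000200000000000000000000000000000000000000000000000) := D_34 (nat_lit 207) (nat_lit 223) (nat_lit 189) (nat_lit 1) (nat_lit 6) (nat_lit 12) (nat_lit 0) (nat_lit 6) (nat_lit 12) (by decide +kernel)
theorem L94413 : W_34 (nat_lit 3) (nat_lit 0x9000f0000000380010001000080000000000000000000000000000000) (nat_lit 0x0) (nat_lit 0x80008000e00000000000000000000000000000000000000000000000) := T_34 (nat_lit 190) (nat_lit 191) (nat_lit 0) (nat_lit 7) (nat_lit 12) L94412 (by decide +kernel)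
theorem L94414 : W_34 (nat_lit 4) (nat_lit 0x8000f0000000380010001000080000000000000000000000000000000) (nat_lit 0x0) (nat_lit 0x380008000e00000000000000000000000000000000000000000000000) := T_34 (nat_lit 224) (nat_lit 225) (nat_lit 1) (nat_lit 7) (nat_lit 12) L94413 (by decide +kernel)
theorem L94415 : W_34 (nat_lit 5) (nat_lit 0xf0000000380010001000080000000000000000000000000000000) (nat_lit 0x0) (nat_lit 0xb80008002e00000000000000000000000000000000000000000000000) := T_34 (nat_lit 227) (nat_lit 193) (nat_lit 6) (nat_lit 6) (nat_lit 13) L94414 (by decide +kernel)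
theorem L94416 : W_34 (nat_lit 2) (nat_lit 0x11000f0000400380010001000080000000000000000000000000000000) (nat_lit 0x0) (nat_lit 0x80008000200000000000000000000000000000000000000000000000) := D_34 (nat_lit 207) (nat_lit 189) (nat_lit 223) (nat_lit 0) (nat_lit 6) (nat_lit 12) (nat_lit 1) (nat_lit 6) (nat_lit 12) (by decide +kernel)
theorem L94417 : W_34 (nat_lit 3) (nat_lit 0x10000f0000400380010001000080000000000000000000000000000000) (nat_lit 0x0) (nat_lit 0x380008000200000000000000000000000000000000000000000000000) := T_34 (nat_lit 224) (nat_lit 225) (nat_lit 1) (nat_lit 7) (nat_lit 12) L94416 (by decide +kernel)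
theorem L94418 : W_34 (nat_lit 4) (nat_lit 0x10000f0000000380010001000080000000000000000000000000000000) (nat_lit 0x0) (nat_lit 0x380008000e00000000000000000000000000000000000000000000000) := T_34 (nat_lit 190) (nat_lit 191) (nat_lit 0) (nat_lit 7) (nat_lit 12) L94417 (by decide +kernel)
theorem L94419 : W_34 (nat_lit 5) (nat_lit 0xf0000000380010001000080000000000000000000000000000000) (nat_lit 0x0) (nat_lit 0x3380008000e00000000000000000000000000000000000000000000000) := T_34 (nat_lit 228) (nat_lit 229) (nat_lit 3) (nat_lit 4) (nat_lit 12) L94418 (by decide +kernel)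
theorem L94420 : W_34 (nat_lit 2) (nat_lit 0x2a003f0010800380030001000080000000000000000000000000000000) (nat_lit 0x0) (nat_lit 0x8000c0000000000000000000000000000000000000000) := D_34 (nat_lit 162) (nat_lit 163) (nat_lit 179) (nat_lit 1) (nat_lit 10) (nat_lit 9) (nat_lit 5) (nat_lit 9) (nat_lit 9) (by decide +kernel)
theorem L94421 : W_34 (nat_lit 3) (nat_lit 0x2a001f0010800380030001000080000000000000000000000000000000) (nat_lit 0x0) (nat_lit 0x2000200008000c0000000000000000000000000000000000000000) := T_34 (nat_lit 213) (nat_lit 197) (nat_lit 2) (nat_lit 6) (nat_lit 12) L94420 (by decide +kernel)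
theorem L94422 : W_34 (nat_lit 4) (nat_lit 0x2a001f0010800380010001000080000000000000000000000000000000) (nat_lit 0x0) (nat_lit 0x2000200008000e0000000000004000000000000000000000000000) := T_34 (nat_lit 161) (nat_lit 110) (nat_lit 5) (nat_lit 8) (nat_lit 6) L94421 (by decide +kernel)
theorem L94423 : W_34 (nat_lit 5) (nat_lit 0x2a001f0000800380010001000080000000000000000000000000000000) (nat_lit 0x0) (nat_lit 0x2000380008000e0000000000004000000000000000000000000000) := T_34 (nat_lit 196) (nat_lit 195) (nat_lit 2) (nat_lit 5) (nat_lit 12) L94422 (by decide +kernel)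
theorem L94424 : W_34 (nat_lit 6) (nat_lit 0x2a000f0000800380010001000080000000000000000000000000000000) (nat_lit 0x0) (nat_lit 0x40003000380008000e0000000000004000000000000000000000000000) := T_34 (nat_lit 212) (nat_lit 230) (nat_lit 3) (nat_lit 5) (nat_lit 12) L94423 (by decide +kernel)
theorem L94425 : W_34 (nat_lit 7) (nat_lit 0x2a000f0000000380010001000080000000000000000000000000000000) (nat_lit 0x0) (nat_lit 0x4000300038c008000e0000000000004000000000000000000000000000) := T_34 (nat_lit 191) (nat_lit 190) (nat_lit 0) (nat_lit 7) (nat_lit 12) L94424 (by decide +kernel)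
theorem L94426 : W_34 (nat_lit 8) (nat_lit 0xa000f0000000380010001000080000000000000000000000000000000) (nat_lit 0x0) (nat_lit 0x7000300038c008000e0000000000004000000000000000000000000000) := T_34 (nat_lit 229) (nat_lit 228) (nat_lit 3) (nat_lit 4) (nat_lit 12) L94425 (by decide +kernel)
theorem L94427 : W_34 (nat_lit 9) (nat_lit 0x2000f0000000380010001000080000000000000000000000000000000) (nat_lit 0x0) (nat_lit 0x780030003ac008000e0000000000004000000000000000000000000000) := T_34 (nat_lit 227) (nat_lit 193) (nat_lit 6) (nat_lit 6) (nat_lit 13) L94426 (by decide +kernel)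
theorem L94428 : W_34 (nat_lit 10) (nat_lit 0xf0000000380010001000080000000000000000000000000000000) (nat_lit 0x0) (nat_lit 0x7b0030003ac008000e0000000000004000000000000000000000000000) := T_34 (nat_lit 225) (nat_lit 224) (nat_lit 1) (nat_lit 7) (nat_lit 12) L94427 (by decide +kernel)
theorem L94429 : W_34 (nat_lit 11) (nat_lit 0xe0000000380010001000080000000000000000000000000000000) (nat_lit 0x0) (nat_lit 0x7b8031803ae008000e0000000000004000000000000000000000000000) := Q_34 (nat_lit 208) (C_34 L94367 (C_34 L94415 (C_34 L94410 (C_34 L94419 (C_34 L94428 N_34))))) (by decide +kernel)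
theorem L94430 : W_34 (nat_lit 6) (nat_lit 0xe0000000380010001000080000000000000000000000000000000) (nat_lit 0x0) (nat_lit 0x4003b80018003e00000004000000000000000000000000000000000000000) := Q_34 (nat_lit 208) (C_34 L94419 (C_34 L94415 (C_34 L94410 (C_34 L93370 N_34)))) (by decide +kernel)
theorem L94431 : W_34 (nat_lit 2) (nat_lit 0x1000f8002200380010001000080004000000000000000000000000000) (nat_lit 0x0) (nat_lit 0x4001100000000000000000000000000000000000000000000000) := D_34 (nat_lit 206) (nat_lit 192) (nat_lit 188) (nat_lit 2) (nat_lit 2) (nat_lit 12) (nat_lit 0) (nat_lit 5) (nat_lit 12) (by decide +kernel)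
theorem L94432 : W_34 (nat_lit 3) (nat_lit 0x1000f8002000380010001000080004000000000000000000000000000) (nat_lit 0x0) (nat_lit 0x4001700000000000000000000000000000000000000000000000) := T_34 (nat_lit 189) (nat_lit 190) (nat_lit 0) (nat_lit 6) (nat_lit 12) L94431 (by decide +kernel)
theorem L94433 : W_34 (nat_lit 4) (nat_lit 0x1000f0002000380010001000080004000000000000000000000000000) (nat_lit 0x0) (nat_lit 0x8000c001700000000000000000000000000000000000000000000000) := T_34 (nat_lit 207) (nat_lit 223) (nat_lit 1) (nat_lit 6) (nat_lit 12) L94432 (by decide +kernel)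
theorem L94434 : W_34 (nat_lit 5) (nat_lit 0x1000f0000000380010001000080004000000000000000000000000000) (nat_lit 0x0) (nat_lit 0x88000c003700000000000000000000000000000000000000000000000) := T_34 (nat_lit 193) (nat_lit 227) (nat_lit 6) (nat_lit 6) (nat_lit 13) L94433 (by decide +kernel)
theorem L94435 : W_34 (nat_lit 6) (nat_lit 0xf0000000380010001000080004000000000000000000000000000) (nat_lit 0x0) (nat_lit 0xb8000c003700000000000000000000000000000000000000000000000) := T_34 (nat_lit 224) (nat_lit 225) (nat_lit 1) (nat_lit 7) (nat_lit 12) L94434 (by decide +kernel)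
theorem L94436 : W_34 (nat_lit 7) (nat_lit 0xf0000000380010001000080000000000000000000000000000000) (nat_lit 0x0) (nat_lit 0xb8000c003700000020000000000004000000000000000000000000000) := T_34 (nat_lit 110) (nat_lit 161) (nat_lit 5) (nat_lit 8) (nat_lit 6) L94435 (by decide +kernel)
theorem L94437 : W_34 (nat_lit 10) (nat_lit 0xe0000000380010001000080000000000000000000000000000000) (nat_lit 0x0) (nat_lit 0x7b8031c03b7008000e4000000000004000000000000000000000000000) := Q_34 (nat_lit 208) (C_34 L94375 (C_34 L94436 (C_34 L94410 N_34))) (by decide +kernel)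
theorem L94438 : W_34 (nat_lit 10) (nat_lit 0xe0000000380010001000080000000000000000000000000000000) (nat_lit 0x0) (nat_lit 0x4007380318039e008000e4000000000004000000000000000000000000000) := Q_34 (nat_lit 208) (C_34 L94419 (C_34 L94408 (C_34 L94375 (C_34 L94386 N_34)))) (by decide +kernel)
theorem L94439 : W_34 (nat_lit 2) (nat_lit 0x2000000008007e0011000380010001000080004000000000000000000000000000) (nat_lit 0x0) (nat_lit 0x1c000000000000000000000000000000000000000000000000000000000) := D_34 (nat_lit 231) (nat_lit 230) (nat_lit 232) (nat_lit 3) (nat_lit 6) (nat_lit 12) (nat_lit 3) (nat_lit 7) (nat_lit 12) (by decide +kernel)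
theorem L94440 : W_34 (nat_lit 3) (nat_lit 0x2000000008003e0011000380010001000080004000000000000000000000000000) (nat_lit 0x0) (nat_lit 0x1d000400000000000000000000000000000000000000000000000000000) := T_34 (nat_lit 214) (nat_lit 228) (nat_lit 1) (nat_lit 10) (nat_lit 12) L94439 (by decide +kernel)
theorem L94441 : W_34 (nat_lit 4) (nat_lit 0x2000000008001e0011000380010001000080004000000000000000000000000000) (nat_lit 0x0) (nat_lit 0x1d000600020000000000000000000000000000000000000000000000000) := T_34 (nat_lit 213) (nat_lit 197) (nat_lit 2) (nat_lit 6) (nat_lit 12) L94440 (by decide +kernel)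
theorem L94442 : W_34 (nat_lit 5) (nat_lit 0x2000000008001e0001000380010001000080004000000000000000000000000000) (nat_lit 0x0) (nat_lit 0x1d000600038000000000000000000000000000000000000000000000000) := T_34 (nat_lit 196) (nat_lit 195) (nat_lit 2) (nat_lit 5) (nat_lit 12) L94441 (by decide +kernel)
theorem L94443 : W_34 (nat_lit 6) (nat_lit 0x2000000008000e0001000380010001000080004000000000000000000000000000) (nat_lit 0x0) (nat_lit 0x1d000700038800000000000000000000000000000000000000000000000) := T_34 (nat_lit 212) (nat_lit 191) (nat_lit 0) (nat_lit 8) (nat_lit 12) L94442 (by decide +kernel)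
theorem L94444 : W_34 (nat_lit 7) (nat_lit 0x8000e0001000380010001000080004000000000000000000000000000) (nat_lit 0x0) (nat_lit 0x20001001d000700038800000000000000000000000000000000000000000000000) := T_34 (nat_lit 261) (nat_lit 244) (nat_lit 4) (nat_lit 6) (nat_lit 15) L94443 (by decide +kernel)
theorem L94445 : W_34 (nat_lit 8) (nat_lit 0x8000e0000000380010001000080004000000000000000000000000000) (nat_lit 0x0) (nat_lit 0x20001001d000700039800000004000000000000000000000000000000000000000) := T_34 (nat_lit 192) (nat_lit 158) (nat_lit 7) (nat_lit 5) (nat_lit 9) L94444 (by decide +kernel)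
theorem L94446 : W_34 (nat_lit 9) (nat_lit 0xe0000000380010001000080004000000000000000000000000000) (nat_lit 0x0) (nat_lit 0x20001001d80070003b800000004000000000000000000000000000000000000000) := T_34 (nat_lit 227) (nat_lit 193) (nat_lit 6) (nat_lit 6) (nat_lit 13) L94445 (by decide +kernel)
theorem L94447 : W_34 (nat_lit 10) (nat_lit 0xe0000000380010001000080000000000000000000000000000000) (nat_lit 0x0) (nat_lit 0x20001001d80070003b800000024000000000004000000000000000000000000000) := T_34 (nat_lit 110) (nat_lit 161) (nat_lit 5) (nat_lit 8) (nat_lit 6) L94446 (by decide +kernel)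
theorem L94448 : W_34 (nat_lit 12) (nat_lit 0xc0000000380010001000080000000000000000000000000000000) (nat_lit 0x0) (nat_lit 0x20001401fbc073e07bf008000e4000000000004000000000000000000000000000) := Q_34 (nat_lit 209) (C_34 L94351 (C_34 L94359 (C_34 L94387 (C_34 L94395 (C_34 L94404 (C_34 L94411 (C_34 L94429 (C_34 L94430 (C_34 L94437 (C_34 L94438 (C_34 L94447 N_34))))))))))) (by decide +kernel)
theorem L94449 : W_34 (nat_lit 5) (nat_lit 0xc00000003c0010001000080000000000000000000000000000000) (nat_lit 0x0) (nat_lit 0x800000002e00020003800000000000000000000000000000000000000) := T_34 (nat_lit 227) (nat_lit 193) (nat_lit 6) (nat_lit 6) (nat_lit 13) L94341 (by decide +kernel)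
theorem L94450 : W_34 (nat_lit 2) (nat_lit 0xc00004003c0011001000080000000000000000000000000000000) (nat_lit 0x0) (nat_lit 0x200020000800000000000000000000000000000000000000) := D_34 (nat_lit 173) (nat_lit 189) (nat_lit 155) (nat_lit 1) (nat_lit 6) (nat_lit 10) (nat_lit 0) (nat_lit 6) (nat_lit 10) (by decide +kernel)
theorem L94451 : W_34 (nat_lit 3) (nat_lit 0xc00004003c0010001000080000000000000000000000000000000) (nat_lit 0x0) (nat_lit 0x200020003800000000000000000000000000000000000000) := T_34 (nat_lit 156) (nat_lit 157) (nat_lit 0) (nat_lit 7) (nat_lit 10) L94450 (by decide +kernel)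
theorem L94452 : W_34 (nat_lit 4) (nat_lit 0xc00000003c0010001000080000000000000000000000000000000) (nat_lit 0x0) (nat_lit 0xe00020003800000000000000000000000000000000000000) := T_34 (nat_lit 190) (nat_lit 191) (nat_lit 1) (nat_lit 7) (nat_lit 10) L94451 (by decide +kernel)
theorem L94453 : W_34 (nat_lit 2) (nat_lit 0xc00024003e0010801000080000000000000000000000000000000) (nat_lit 0x0) (nat_lit 0x1000010000400000000000000000000000000000000000000) := D_34 (nat_lit 172) (nat_lit 192) (nat_lit 154) (nat_lit 3) (nat_lit 2) (nat_lit 10) (nat_lit 0) (nat_lit 5) (nat_lit 10) (by decide +kernel)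
theorem L94454 : W_34 (nat_lit 3) (nat_lit 0xc00024003e0010001000080000000000000000000000000000000) (nat_lit 0x0) (nat_lit 0x1000010001c00000000000000000000000000000000000000) := T_34 (nat_lit 155) (nat_lit 156) (nat_lit 0) (nat_lit 6) (nat_lit 10) L94453 (by decide +kernel)
theorem L94455 : W_34 (nat_lit 4) (nat_lit 0xc00024003c0010001000080000000000000000000000000000000) (nat_lit 0x0) (nat_lit 0x1200030001c00000000000000000000000000000000000000) := T_34 (nat_lit 173) (nat_lit 189) (nat_lit 1) (nat_lit 6) (nat_lit 10) L94454 (by decide +kernel)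
theorem L94456 : W_34 (nat_lit 5) (nat_lit 0xc00020003c0010001000080000000000000000000000000000000) (nat_lit 0x0) (nat_lit 0x1e00030001c00000000000000000000000000000000000000) := T_34 (nat_lit 190) (nat_lit 191) (nat_lit 1) (nat_lit 7) (nat_lit 10) L94455 (by decide +kernel)
theorem L94457 : W_34 (nat_lit 6) (nat_lit 0xc00000003c0010001000080000000000000000000000000000000) (nat_lit 0x0) (nat_lit 0x800000003e00030001c00000000000000000000000000000000000000) := T_34 (nat_lit 193) (nat_lit 227) (nat_lit 6) (nat_lit 6) (nat_lit 13) L94456 (by decide +kernel)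
theorem L94458 : W_34 (nat_lit 2) (nat_lit 0xc00022003e0011001000080000000000000000000000000000000) (nat_lit 0x0) (nat_lit 0x1100010000000000000000000000000000000000000000000) := D_34 (nat_lit 172) (nat_lit 192) (nat_lit 188) (nat_lit 3) (nat_lit 2) (nat_lit 10) (nat_lit 1) (nat_lit 5) (nat_lit 10) (by decide +kernel)
theorem L94459 : W_34 (nat_lit 3) (nat_lit 0xc00020003e0011001000080000000000000000000000000000000) (nat_lit 0x0) (nat_lit 0x1700010000000000000000000000000000000000000000000) := T_34 (nat_lit 189) (nat_lit 190) (nat_lit 1) (nat_lit 6) (nat_lit 10) L94458 (by decide +kernel)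
theorem L94460 : W_34 (nat_lit 4) (nat_lit 0xc00020003c0011001000080000000000000000000000000000000) (nat_lit 0x0) (nat_lit 0x1700030000800000000000000000000000000000000000000) := T_34 (nat_lit 173) (nat_lit 155) (nat_lit 0) (nat_lit 6) (nat_lit 10) L94459 (by decide +kernel)
theorem L94461 : W_34 (nat_lit 5) (nat_lit 0xc00000003c0011001000080000000000000000000000000000000) (nat_lit 0x0) (nat_lit 0x800000003700030000800000000000000000000000000000000000000) := T_34 (nat_lit 193) (nat_lit 227) (nat_lit 6) (nat_lit 6) (nat_lit 13) L94460 (by decide +kernel)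
theorem L94462 : W_34 (nat_lit 6) (nat_lit 0xc00000003c0010001000080000000000000000000000000000000) (nat_lit 0x0) (nat_lit 0x800000003700030003800000000000000000000000000000000000000) := T_34 (nat_lit 156) (nat_lit 157) (nat_lit 0) (nat_lit 7) (nat_lit 10) L94461 (by decide +kernel)
theorem L94463 : W_34 (nat_lit 2) (nat_lit 0xc00008003c0016001000080000000000000000000000000000000) (nat_lit 0x0) (nat_lit 0x200010000000000000000200000000000000000000000000000000000) := D_34 (nat_lit 208) (nat_lit 225) (nat_lit 141) (nat_lit 6) (nat_lit 4) (nat_lit 13) (nat_lit 6) (nat_lit 4) (nat_lit 12) (by decide +kernel)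
theorem L94464 : W_34 (nat_lit 3) (nat_lit 0xc00008003c0014001000080000000000000000000000000000000) (nat_lit 0x0) (nat_lit 0x200010000000000003000200000000000000000000000000000000000) := T_34 (nat_lit 157) (nat_lit 156) (nat_lit 0) (nat_lit 7) (nat_lit 10) L94463 (by decide +kernel)
theorem L94465 : W_34 (nat_lit 4) (nat_lit 0xc00000003c0014001000080000000000000000000000000000000) (nat_lit 0x0) (nat_lit 0x200010000c00000003000200000000000000000000000000000000000) := T_34 (nat_lit 191) (nat_lit 190) (nat_lit 1) (nat_lit 7) (nat_lit 10) L94464 (by decide +kernel)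
theorem L94466 : W_34 (nat_lit 2) (nat_lit 0x8000f00008003c0016001000080000000000000000000000000000000) (nat_lit 0x0) (nat_lit 0x1100008000000000000000000000000000000000000000000000000000) := D_34 (nat_lit 207) (nat_lit 224) (nat_lit 228) (nat_lit 5) (nat_lit 4) (nat_lit 9) (nat_lit 3) (nat_lit 3) (nat_lit 12) (by decide +kernel)
theorem L94467 : W_34 (nat_lit 3) (nat_lit 0x8000e00008003c0016001000080000000000000000000000000000000) (nat_lit 0x0) (nat_lit 0x1300018000000000000000000000000000000000000000000000000000) := T_34 (nat_lit 208) (nat_lit 225) (nat_lit 6) (nat_lit 4) (nat_lit 13) L94466 (by decide +kernel)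
theorem L94468 : W_34 (nat_lit 4) (nat_lit 0x8000c00008003c0016001000080000000000000000000000000000000) (nat_lit 0x0) (nat_lit 0x1300038001000000000000000000000000000000000000000000000000) := T_34 (nat_lit 209) (nat_lit 192) (nat_lit 7) (nat_lit 5) (nat_lit 9) L94467 (by decide +kernel)
theorem L94469 : W_34 (nat_lit 5) (nat_lit 0x8000c00000003c0016001000080000000000000000000000000000000) (nat_lit 0x0) (nat_lit 0x1300038001c00000000000000000000000000000000000000000000000) := T_34 (nat_lit 191) (nat_lit 190) (nat_lit 1) (nat_lit 7) (nat_lit 10) L94468 (by decide +kernel)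
theorem L94470 : W_34 (nat_lit 6) (nat_lit 0xc00000003c0016001000080000000000000000000000000000000) (nat_lit 0x0) (nat_lit 0x1b00038003c00000000000000000000000000000000000000000000000) := T_34 (nat_lit 227) (nat_lit 193) (nat_lit 6) (nat_lit 6) (nat_lit 13) L94469 (by decide +kernel)
theorem L94471 : W_34 (nat_lit 7) (nat_lit 0xc00000003c0014001000080000000000000000000000000000000) (nat_lit 0x0) (nat_lit 0x1b00038003c00000003000000000000000000000000000000000000000) := T_34 (nat_lit 157) (nat_lit 156) (nat_lit 0) (nat_lit 7) (nat_lit 10) L94470 (by decide +kernel)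
theorem L94472 : W_34 (nat_lit 2) (nat_lit 0x8000d00008003c0014001000080000000000000000000000000000000) (nat_lit 0x0) (nat_lit 0x20001000000000000200000000000000000000000000000000000) := D_34 (nat_lit 192) (nat_lit 209) (nat_lit 141) (nat_lit 7) (nat_lit 5) (nat_lit 9) (nat_lit 5) (nat_lit 5) (nat_lit 8) (by decide +kernel)
theorem L94473 : W_34 (nat_lit 3) (nat_lit 0x8000c00008003c0014001000080000000000000000000000000000000) (nat_lit 0x0) (nat_lit 0x200030001000000000000200000000000000000000000000000000000) := T_34 (nat_lit 208) (nat_lit 225) (nat_lit 6) (nat_lit 4) (nat_lit 13) L94472 (by decide +kernel)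
theorem L94474 : W_34 (nat_lit 4) (nat_lit 0xc00008003c0014001000080000000000000000000000000000000) (nat_lit 0x0) (nat_lit 0xa00030003000000000000200000000000000000000000000000000000) := T_34 (nat_lit 227) (nat_lit 193) (nat_lit 6) (nat_lit 6) (nat_lit 13) L94473 (by decide +kernel)
theorem L94475 : W_34 (nat_lit 5) (nat_lit 0xc00000003c0014001000080000000000000000000000000000000) (nat_lit 0x0) (nat_lit 0xa00030003c00000000000200000000000000000000000000000000000) := T_34 (nat_lit 191) (nat_lit 190) (nat_lit 1) (nat_lit 7) (nat_lit 10) L94474 (by decide +kernel)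
theorem L94476 : W_34 (nat_lit 2) (nat_lit 0xc00020003c0014001000080000000000000000000000000000000) (nat_lit 0x0) (nat_lit 0x1000000000000200010000000000000000000000000000000) := D_34 (nat_lit 141) (nat_lit 124) (nat_lit 192) (nat_lit 7) (nat_lit 5) (nat_lit 7) (nat_lit 7) (nat_lit 5) (nat_lit 8) (by decide +kernel)
theorem L94477 : W_34 (nat_lit 3) (nat_lit 0xc00000003c0014001000080000000000000000000000000000000) (nat_lit 0x0) (nat_lit 0x800000003000000000000200010000000000000000000000000000000) := T_34 (nat_lit 193) (nat_lit 227) (nat_lit 6) (nat_lit 6) (nat_lit 13) L94476 (by decide +kernel)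
theorem L94478 : W_34 (nat_lit 8) (nat_lit 0xc00000003c0010001000080000000000000000000000000000000) (nat_lit 0x0) (nat_lit 0x1b00038003c00000007000200010000000000000000000000000000000) := Q_34 (nat_lit 158) (C_34 L94465 (C_34 L94471 (C_34 L94475 (C_34 L94477 N_34)))) (by decide +kernel)
theorem L94479 : W_34 (nat_lit 2) (nat_lit 0xc00008003c0014001200080000000000000000000000000000000) (nat_lit 0x0) (nat_lit 0x200010001000000000000000000000000000000000000000000000000) := D_34 (nat_lit 208) (nat_lit 225) (nat_lit 192) (nat_lit 6) (nat_lit 4) (nat_lit 13) (nat_lit 5) (nat_lit 5) (nat_lit 8) (by decide +kernel)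
theorem L94480 : W_34 (nat_lit 3) (nat_lit 0xc00008003c0014001000080000000000000000000000000000000) (nat_lit 0x0) (nat_lit 0x200010001000000000000200010000000000000000000000000000000) := T_34 (nat_lit 141) (nat_lit 124) (nat_lit 5) (nat_lit 5) (nat_lit 7) L94479 (by decide +kernel)
theorem L94481 : W_34 (nat_lit 4) (nat_lit 0xc00000003c0014001000080000000000000000000000000000000) (nat_lit 0x0) (nat_lit 0x200010001c00000000000200010000000000000000000000000000000) := T_34 (nat_lit 191) (nat_lit 190) (nat_lit 1) (nat_lit 7) (nat_lit 10) L94480 (by decide +kernel)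
theorem L94482 : W_34 (nat_lit 2) (nat_lit 0x8000f00008003c0014001000080000000000000000000000000000000) (nat_lit 0x0) (nat_lit 0x3000008000000000000000000000000000000000000000000000000000) := D_34 (nat_lit 228) (nat_lit 229) (nat_lit 207) (nat_lit 3) (nat_lit 4) (nat_lit 12) (nat_lit 3) (nat_lit 3) (nat_lit 12) (by decide +kernel)
theorem L94483 : W_34 (nat_lit 3) (nat_lit 0x8000d00008003c0014001000080000000000000000000000000000000) (nat_lit 0x0) (nat_lit 0x3000028001000000000000000000000000000000000000000000000000) := T_34 (nat_lit 209) (nat_lit 192) (nat_lit 7) (nat_lit 5) (nat_lit 9) L94482 (by decide +kernel)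
theorem L94484 : W_34 (nat_lit 4) (nat_lit 0x8000c00008003c0014001000080000000000000000000000000000000) (nat_lit 0x0) (nat_lit 0x3200038001000000000000000000000000000000000000000000000000) := T_34 (nat_lit 208) (nat_lit 225) (nat_lit 6) (nat_lit 4) (nat_lit 13) L94483 (by decide +kernel)
theorem L94485 : W_34 (nat_lit 5) (nat_lit 0xc00008003c0014001000080000000000000000000000000000000) (nat_lit 0x0) (nat_lit 0x3a00038003000000000000000000000000000000000000000000000000) := T_34 (nat_lit 227) (nat_lit 193) (nat_lit 6) (nat_lit 6) (nat_lit 13) L94484 (by decide +kernel)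
theorem L94486 : W_34 (nat_lit 6) (nat_lit 0xc00000003c0014001000080000000000000000000000000000000) (nat_lit 0x0) (nat_lit 0x3a00038003c00000000000000000000000000000000000000000000000) := T_34 (nat_lit 191) (nat_lit 190) (nat_lit 1) (nat_lit 7) (nat_lit 10) L94485 (by decide +kernel)
theorem L94487 : W_34 (nat_lit 2) (nat_lit 0x8000c00008003c0014001200080000000000000000000000000000000) (nat_lit 0x0) (nat_lit 0x200010000000000002000000000000000000000000000000000000000) := D_34 (nat_lit 208) (nat_lit 225) (nat_lit 157) (nat_lit 6) (nat_lit 4) (nat_lit 13) (nat_lit 6) (nat_lit 4) (nat_lit 12) (by decide +kernel)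
theorem L94488 : W_34 (nat_lit 3) (nat_lit 0x8000c00008003c0014001000080000000000000000000000000000000) (nat_lit 0x0) (nat_lit 0x200010000000000002000200010000000000000000000000000000000) := T_34 (nat_lit 141) (nat_lit 124) (nat_lit 5) (nat_lit 5) (nat_lit 7) L94487 (by decide +kernel)
theorem L94489 : W_34 (nat_lit 4) (nat_lit 0x8000c00000003c0014001000080000000000000000000000000000000) (nat_lit 0x0) (nat_lit 0x200010000c00000002000200010000000000000000000000000000000) := T_34 (nat_lit 191) (nat_lit 190) (nat_lit 1) (nat_lit 7) (nat_lit 10) L94488 (by decide +kernel)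
theorem L94490 : W_34 (nat_lit 5) (nat_lit 0xc00000003c0014001000080000000000000000000000000000000) (nat_lit 0x0) (nat_lit 0xa00010002c00000002000200010000000000000000000000000000000) := T_34 (nat_lit 227) (nat_lit 193) (nat_lit 6) (nat_lit 6) (nat_lit 13) L94489 (by decide +kernel)
theorem L94491 : W_34 (nat_lit 7) (nat_lit 0xc00000003c0010001000080000000000000000000000000000000) (nat_lit 0x0) (nat_lit 0x3a00038003c00000006000200010000000000000000000000000000000) := Q_34 (nat_lit 158) (C_34 L94481 (C_34 L94486 (C_34 L94490 (C_34 L94477 N_34)))) (by decide +kernel)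
theorem L94492 : W_34 (nat_lit 2) (nat_lit 0x20001f80030003e0011001200080000000000000000000000000000000) (nat_lit 0x0) (nat_lit 0x380000000000000000000000000000000000000000000000000000000) := D_34 (nat_lit 224) (nat_lit 225) (nat_lit 223) (nat_lit 1) (nat_lit 7) (nat_lit 12) (nat_lit 1) (nat_lit 6) (nat_lit 12) (by decide +kernel)
theorem L94493 : W_34 (nat_lit 3) (nat_lit 0x20001f00030003e0011001200080000000000000000000000000000000) (nat_lit 0x0) (nat_lit 0x38000c000000000000000000000000000000000000000000000000000) := T_34 (nat_lit 207) (nat_lit 206) (nat_lit 2) (nat_lit 2) (nat_lit 12) L94492 (by decide +kernel)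
theorem L94494 : W_34 (nat_lit 4) (nat_lit 0x20001e00030003e0011001200080000000000000000000000000000000) (nat_lit 0x0) (nat_lit 0x138001c000000000000000000000000000000000000000000000000000) := T_34 (nat_lit 208) (nat_lit 228) (nat_lit 3) (nat_lit 4) (nat_lit 12) L94493 (by decide +kernel)
theorem L94495 : W_34 (nat_lit 5) (nat_lit 0x1e00030003e0011001200080000000000000000000000000000000) (nat_lit 0x0) (nat_lit 0x738001c000000000000000000000000000000000000000000000000000) := T_34 (nat_lit 229) (nat_lit 230) (nat_lit 3) (nat_lit 5) (nat_lit 12) L94494 (by decide +kernel)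
theorem L94496 : W_34 (nat_lit 6) (nat_lit 0x1c00030003e0011001200080000000000000000000000000000000) (nat_lit 0x0) (nat_lit 0x738003c000800000000000000000000000000000000000000000000000) := T_34 (nat_lit 209) (nat_lit 191) (nat_lit 0) (nat_lit 8) (nat_lit 12) L94495 (by decide +kernel)
theorem L94497 : W_34 (nat_lit 7) (nat_lit 0x1c00030003e0011001000080000000000000000000000000000000) (nat_lit 0x0) (nat_lit 0x738003c000800000004000200000000000000000000000000000000000) := T_34 (nat_lit 141) (nat_lit 158) (nat_lit 7) (nat_lit 5) (nat_lit 8) L94496 (by decide +kernel)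
theorem L94498 : W_34 (nat_lit 8) (nat_lit 0xc00030003e0011001000080000000000000000000000000000000) (nat_lit 0x0) (nat_lit 0x738033c000800000004000200000000000000000000000000000000000) := T_34 (nat_lit 212) (nat_lit 213) (nat_lit 0) (nat_lit 9) (nat_lit 12) L94497 (by decide +kernel)
theorem L94499 : W_34 (nat_lit 9) (nat_lit 0xc00020003e0011001000080000000000000000000000000000000) (nat_lit 0x0) (nat_lit 0x738033c001800010004000200000000000000000000000000000000000) := T_34 (nat_lit 192) (nat_lit 172) (nat_lit 3) (nat_lit 2) (nat_lit 10) L94498 (by decide +kernel)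
theorem L94500 : W_34 (nat_lit 10) (nat_lit 0xc00020003c0011001000080000000000000000000000000000000) (nat_lit 0x0) (nat_lit 0x738033c001800030004800200000000000000000000000000000000000) := T_34 (nat_lit 173) (nat_lit 155) (nat_lit 0) (nat_lit 6) (nat_lit 10) L94499 (by decide +kernel)
theorem L94501 : W_34 (nat_lit 11) (nat_lit 0xc00020003c0010001000080000000000000000000000000000000) (nat_lit 0x0) (nat_lit 0x738033c001800030007800200000000000000000000000000000000000) := T_34 (nat_lit 156) (nat_lit 157) (nat_lit 0) (nat_lit 7) (nat_lit 10) L94500 (by decide +kernel)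
theorem L94502 : W_34 (nat_lit 12) (nat_lit 0xc00000003c0010001000080000000000000000000000000000000) (nat_lit 0x0) (nat_lit 0x7b8033c003800030007800200000000000000000000000000000000000) := T_34 (nat_lit 193) (nat_lit 227) (nat_lit 6) (nat_lit 6) (nat_lit 13) L94501 (by decide +kernel)
theorem L94503 : W_34 (nat_lit 13) (nat_lit 0xc0000000380010001000080000000000000000000000000000000) (nat_lit 0x0) (nat_lit 0x7b8033c003f00070007c00200010000000000000000000000000000000) := Q_34 (nat_lit 174) (C_34 L94449 (C_34 L94452 (C_34 L94457 (C_34 L94462 (C_34 L94478 (C_34 L94491 (C_34 L94502 N_34))))))) (by decide +kernel)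
theorem L94504 : W_34 (nat_lit 14) (nat_lit 0xc0000000300010001000080000000000000000000000000000000) (nat_lit 0x0) (nat_lit 0x20001401fbc073e07bf008f00e7c00200010004000000000000000000000000000) := Q_34 (nat_lit 175) (C_34 L94338 (C_34 L94343 (C_34 L94448 (C_34 L94503 N_34)))) (by decide +kernel)
theorem L94505 : W_34 (nat_lit 2) (nat_lit 0xc00020003c001e001100080000000000000000000000000000000) (nat_lit 0x0) (nat_lit 0x1000000000000000008000400000000000000000000000000) := D_34 (nat_lit 123) (nat_lit 192) (nat_lit 106) (nat_lit 7) (nat_lit 4) (nat_lit 7) (nat_lit 7) (nat_lit 4) (nat_lit 6) (by decide +kernel)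
theorem L94506 : W_34 (nat_lit 3) (nat_lit 0xc000200034001e001100080000000000000000000000000000000) (nat_lit 0x0) (nat_lit 0x1000080020000000008000400000000000000000000000000) := T_34 (nat_lit 175) (nat_lit 161) (nat_lit 2) (nat_lit 4) (nat_lit 10) L94505 (by decide +kernel)
theorem L94507 : W_34 (nat_lit 4) (nat_lit 0xc000200034001e001000080000000000000000000000000000000) (nat_lit 0x0) (nat_lit 0x1000080020000180008000400000000000000000000000000) := T_34 (nat_lit 140) (nat_lit 139) (nat_lit 0) (nat_lit 7) (nat_lit 9) L94506 (by decide +kernel)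
theorem L94508 : W_34 (nat_lit 5) (nat_lit 0xc000200030001e001000080000000000000000000000000000000) (nat_lit 0x0) (nat_lit 0x10000e0020000180008000400000000000000000000000000) := T_34 (nat_lit 174) (nat_lit 173) (nat_lit 1) (nat_lit 7) (nat_lit 9) L94507 (by decide +kernel)
theorem L94509 : W_34 (nat_lit 6) (nat_lit 0xc000200030001c001000080000000000000000000000000000000) (nat_lit 0x0) (nat_lit 0x10000e0023000180008000400000000000000000000000000) := T_34 (nat_lit 157) (nat_lit 156) (nat_lit 3) (nat_lit 3) (nat_lit 9) L94508 (by decide +kernel)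
theorem L94510 : W_34 (nat_lit 7) (nat_lit 0xc0002000300018001000080000000000000000000000000000000) (nat_lit 0x0) (nat_lit 0x10000e0027000380008000400000000000000000000000000) := T_34 (nat_lit 158) (nat_lit 141) (nat_lit 4) (nat_lit 6) (nat_lit 12) L94509 (by decide +kernel)
theorem L94511 : W_34 (nat_lit 8) (nat_lit 0xc0002000300010001000080000000000000000000000000000000) (nat_lit 0x0) (nat_lit 0x10000000010000e002f000380008000400000000000000000000000000) := T_34 (nat_lit 159) (nat_lit 228) (nat_lit 7) (nat_lit 6) (nat_lit 9) L94510 (by decide +kernel)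
theorem L94512 : W_34 (nat_lit 9) (nat_lit 0xc0000000300010001000080000000000000000000000000000000) (nat_lit 0x0) (nat_lit 0x18000000030000e002f000380008000400000000000000000000000000) := T_34 (nat_lit 193) (nat_lit 227) (nat_lit 6) (nat_lit 6) (nat_lit 13) L94511 (by decide +kernel)
theorem L94513 : W_34 (nat_lit 2) (nat_lit 0x2c0003000b4007e001100080000000000000000000000000000000) (nat_lit 0x0) (nat_lit 0x20000c00000000000000000000000000000000000000000000000) := D_34 (nat_lit 191) (nat_lit 190) (nat_lit 209) (nat_lit 3) (nat_lit 3) (nat_lit 11) (nat_lit 7) (nat_lit 4) (nat_lit 8) (by decide +kernel)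
theorem L94514 : W_34 (nat_lit 3) (nat_lit 0x2c0002000b4007e001100080000000000000000000000000000000) (nat_lit 0x0) (nat_lit 0x120001c00000000000000000000000000000000000000000000000) := T_34 (nat_lit 192) (nat_lit 212) (nat_lit 0) (nat_lit 9) (nat_lit 12) L94513 (by decide +kernel)
theorem L94515 : W_34 (nat_lit 4) (nat_lit 0xc0002000b4007e001100080000000000000000000000000000000) (nat_lit 0x0) (nat_lit 0x320011c00000000000000000000000000000000000000000000000) := T_34 (nat_lit 213) (nat_lit 196) (nat_lit 4) (nat_lit 9) (nat_lit 12) L94514 (by decide +kernel)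
theorem L94516 : W_34 (nat_lit 5) (nat_lit 0xc0002000b0007e001100080000000000000000000000000000000) (nat_lit 0x0) (nat_lit 0x320011c00060000000000000000000000000000000000000000000) := T_34 (nat_lit 174) (nat_lit 173) (nat_lit 1) (nat_lit 7) (nat_lit 9) L94515 (by decide +kernel)
theorem L94517 : W_34 (nat_lit 6) (nat_lit 0xc000200030007e001100080000000000000000000000000000000) (nat_lit 0x0) (nat_lit 0x320011c01860000000000000000000000000000000000000000000) := T_34 (nat_lit 179) (nat_lit 180) (nat_lit 3) (nat_lit 6) (nat_lit 9) L94516 (by decide +kernel)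
theorem L94518 : W_34 (nat_lit 7) (nat_lit 0xc000200030007e001000080000000000000000000000000000000) (nat_lit 0x0) (nat_lit 0x320011c01860000000180000000000000000000000000000000000) := T_34 (nat_lit 140) (nat_lit 139) (nat_lit 0) (nat_lit 7) (nat_lit 9) L94517 (by decide +kernel)
theorem L94519 : W_34 (nat_lit 8) (nat_lit 0xc000200030003e001000080000000000000000000000000000000) (nat_lit 0x0) (nat_lit 0x320011c018600c0000180000000000000000000000000000000000) := T_34 (nat_lit 162) (nat_lit 163) (nat_lit 1) (nat_lit 10) (nat_lit 9) L94518 (by decide +kernel)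
theorem L94520 : W_34 (nat_lit 9) (nat_lit 0xc000200030003c001000080000000000000000000000000000000) (nat_lit 0x0) (nat_lit 0x320011c018600c3000180000000000000000000000000000000000) := T_34 (nat_lit 157) (nat_lit 156) (nat_lit 3) (nat_lit 3) (nat_lit 9) L94519 (by decide +kernel)
theorem L94521 : W_34 (nat_lit 10) (nat_lit 0xc0002000300038001000080000000000000000000000000000000) (nat_lit 0x0) (nat_lit 0x320011c018600c7000380000000000000000000000000000000000) := T_34 (nat_lit 158) (nat_lit 141) (nat_lit 4) (nat_lit 6) (nat_lit 12) L94520 (by decide +kernel)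
theorem L94522 : W_34 (nat_lit 11) (nat_lit 0xc0002000300030001000080000000000000000000000000000000) (nat_lit 0x0) (nat_lit 0x1000320011c018600cf000380000000000000000000000000000000000) := T_34 (nat_lit 159) (nat_lit 228) (nat_lit 7) (nat_lit 6) (nat_lit 9) L94521 (by decide +kernel)
theorem L94523 : W_34 (nat_lit 12) (nat_lit 0xc0002000300010001000080000000000000000000000000000000) (nat_lit 0x0) (nat_lit 0x1000320011c018600ef000380000004000000000000000000000000000) := T_34 (nat_lit 161) (nat_lit 110) (nat_lit 5) (nat_lit 8) (nat_lit 6) L94522 (by decide +kernel)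
theorem L94524 : W_34 (nat_lit 13) (nat_lit 0xc0000000300010001000080000000000000000000000000000000) (nat_lit 0x0) (nat_lit 0x1800320013c018600ef000380000004000000000000000000000000000) := T_34 (nat_lit 193) (nat_lit 227) (nat_lit 6) (nat_lit 6) (nat_lit 13) L94523 (by decide +kernel)
theorem L94525 : W_34 (nat_lit 2) (nat_lit 0xc00020003000180016800a0004000000000000000000000000000) (nat_lit 0x0) (nat_lit 0x20001000080000000000000000000000000000000000000000000) := D_34 (nat_lit 192) (nat_lit 209) (nat_lit 175) (nat_lit 5) (nat_lit 6) (nat_lit 8) (nat_lit 5) (nat_lit 6) (nat_lit 7) (by decide +kernel)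
theorem L94526 : W_34 (nat_lit 3) (nat_lit 0xc0002000300018001680080004000000000000000000000000000) (nat_lit 0x0) (nat_lit 0x20001000080000000000020001000000000000000000000000000) := T_34 (nat_lit 125) (nat_lit 108) (nat_lit 7) (nat_lit 6) (nat_lit 6) L94525 (by decide +kernel)
theorem L94527 : W_34 (nat_lit 4) (nat_lit 0xc0002000300018001600080004000000000000000000000000000) (nat_lit 0x0) (nat_lit 0x20001000080000000180020001000000000000000000000000000) := T_34 (nat_lit 139) (nat_lit 140) (nat_lit 3) (nat_lit 3) (nat_lit 8) L94526 (by decide +kernel)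
theorem L94528 : W_34 (nat_lit 5) (nat_lit 0xc0002000300018001200080004000000000000000000000000000) (nat_lit 0x0) (nat_lit 0x20001000080000000580030001000000000000000000000000000) := T_34 (nat_lit 142) (nat_lit 124) (nat_lit 4) (nat_lit 6) (nat_lit 11) L94527 (by decide +kernel)
theorem L94529 : W_34 (nat_lit 6) (nat_lit 0xc0002000300018001000080004000000000000000000000000000) (nat_lit 0x0) (nat_lit 0x20001000080004000780030001000000000000000000000000000) := T_34 (nat_lit 141) (nat_lit 158) (nat_lit 4) (nat_lit 6) (nat_lit 12) L94528 (by decide +kernel)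
theorem L94530 : W_34 (nat_lit 7) (nat_lit 0xc0002000300010001000080004000000000000000000000000000) (nat_lit 0x0) (nat_lit 0x100002000100008000c000780030001000000000000000000000000000) := T_34 (nat_lit 159) (nat_lit 228) (nat_lit 7) (nat_lit 6) (nat_lit 9) L94529 (by decide +kernel)
theorem L94531 : W_34 (nat_lit 8) (nat_lit 0xc0002000300010001000080000000000000000000000000000000) (nat_lit 0x0) (nat_lit 0x100002000100008002c000780030005000000000000000000000000000) := T_34 (nat_lit 110) (nat_lit 161) (nat_lit 5) (nat_lit 8) (nat_lit 6) L94530 (by decide +kernel)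
theorem L94532 : W_34 (nat_lit 9) (nat_lit 0xc0000000300010001000080000000000000000000000000000000) (nat_lit 0x0) (nat_lit 0x180002000300008002c000780030005000000000000000000000000000) := T_34 (nat_lit 193) (nat_lit 227) (nat_lit 6) (nat_lit 6) (nat_lit 13) L94531 (by decide +kernel)
theorem L94533 : W_34 (nat_lit 2) (nat_lit 0xc00020003000180016800a0000000000000000000000000000000) (nat_lit 0x0) (nat_lit 0x20001000080000000000000000000000000000000000000000000) := D_34 (nat_lit 192) (nat_lit 209) (nat_lit 175) (nat_lit 5) (nat_lit 6) (nat_lit 8) (nat_lit 5) (nat_lit 6) (nat_lit 7) (by decide +kernel)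
theorem L94534 : W_34 (nat_lit 3) (nat_lit 0xc0002000300018001680080000000000000000000000000000000) (nat_lit 0x0) (nat_lit 0x20001000080000000000020001000000000000000000000000000) := T_34 (nat_lit 125) (nat_lit 108) (nat_lit 7) (nat_lit 6) (nat_lit 6) L94533 (by decide +kernel)
theorem L94535 : W_34 (nat_lit 4) (nat_lit 0xc0002000300018001600080000000000000000000000000000000) (nat_lit 0x0) (nat_lit 0x20001000080000000180020001000000000000000000000000000) := T_34 (nat_lit 139) (nat_lit 140) (nat_lit 3) (nat_lit 3) (nat_lit 8) L94534 (by decide +kernel)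
theorem L94536 : W_34 (nat_lit 5) (nat_lit 0xc0002000300018001200080000000000000000000000000000000) (nat_lit 0x0) (nat_lit 0x20001000080000000580030001000000000000000000000000000) := T_34 (nat_lit 142) (nat_lit 124) (nat_lit 4) (nat_lit 6) (nat_lit 11) L94535 (by decide +kernel)
theorem L94537 : W_34 (nat_lit 6) (nat_lit 0xc0002000300018001000080000000000000000000000000000000) (nat_lit 0x0) (nat_lit 0x20001000080004000780030001000000000000000000000000000) := T_34 (nat_lit 141) (nat_lit 158) (nat_lit 4) (nat_lit 6) (nat_lit 12) L94536 (by decide +kernel)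
theorem L94538 : W_34 (nat_lit 7) (nat_lit 0xc0002000300010001000080000000000000000000000000000000) (nat_lit 0x0) (nat_lit 0x100002000100008000c000780030001000000000000000000000000000) := T_34 (nat_lit 159) (nat_lit 228) (nat_lit 7) (nat_lit 6) (nat_lit 9) L94537 (by decide +kernel)
theorem L94539 : W_34 (nat_lit 8) (nat_lit 0xc0000000300010001000080000000000000000000000000000000) (nat_lit 0x0) (nat_lit 0x180002000300008000c000780030001000000000000000000000000000) := T_34 (nat_lit 193) (nat_lit 227) (nat_lit 6) (nat_lit 6) (nat_lit 13) L94538 (by decide +kernel)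
theorem L94540 : W_34 (nat_lit 15) (nat_lit 0xc0000000200010001000080000000000000000000000000000000) (nat_lit 0x0) (nat_lit 0x20001401fbc073e07bf019f00efc00780038005400000000000000000000000000) := Q_34 (nat_lit 176) (C_34 L94504 (C_34 L93487 (C_34 L94512 (C_34 L94524 (C_34 L94532 (C_34 L94539 N_34)))))) (by decide +kernel)
theorem L94541 : W_34 (nat_lit 16) (nat_lit 0x80000000200010001000080000000000000000000000000000000) (nat_lit 0x0) (nat_lit 0x7f803fe01ff07ffe1f7e1fbf879f01efc1c780238015400000000000000000000000000) := Q_34 (nat_lit 210) (C_34 L92300 (C_34 L92513 (C_34 L92630 (C_34 L92835 (C_34 L92964 (C_34 L92997 (C_34 L93061 (C_34 L93268 (C_34 L93493 (C_34 L93671 (C_34 L93782 (C_34 L94184 (C_34 L94337 (C_34 L94540 N_34)))))))))))))) (by decide +kernel)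
theorem L94542 : W_34 (nat_lit 2) (nat_lit 0x80000000200010001000080000000000000000000000000000000) (nat_lit 0x0) (nat_lit 0x4000000020000000000004000000000000000000000000000) := D_34 (nat_lit 161) (nat_lit 110) (nat_lit 194) (nat_lit 5) (nat_lit 8) (nat_lit 6) (nat_lit 6) (nat_lit 7) (nat_lit 12) (by decide +kernel)
theorem L94543 : W_34 (nat_lit 6) (nat_lit 0x80000000200010001000080000000000000000000000000000000) (nat_lit 0x0) (nat_lit 0x40003800140004000100028000400000000000000000000000000000000000) := T_34 (nat_lit 194) (nat_lit 161) (nat_lit 6) (nat_lit 7) (nat_lit 12) L5487 (by decide +kernel)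
theorem L94544 : W_34 (nat_lit 2) (nat_lit 0x2800080004000200018001000080000000000000000000000000000000) (nat_lit 0x0) (nat_lit 0x50001000000000000000000000000000000000000000000000000000000000) := D_34 (nat_lit 228) (nat_lit 246) (nat_lit 244) (nat_lit 7) (nat_lit 7) (nat_lit 10) (nat_lit 5) (nat_lit 7) (nat_lit 10) (by decide +kernel)
theorem L94545 : W_34 (nat_lit 3) (nat_lit 0x2000080004000200018001000080000000000000000000000000000000) (nat_lit 0x0) (nat_lit 0x50001800040000000000000000000000000000000000000000000000000000) := T_34 (nat_lit 227) (nat_lit 210) (nat_lit 5) (nat_lit 7) (nat_lit 9) L94544 (by decide +kernel)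
theorem L94546 : W_34 (nat_lit 4) (nat_lit 0x80004000200018001000080000000000000000000000000000000) (nat_lit 0x0) (nat_lit 0x50003800140000000000000000000000000000000000000000000000000000) := T_34 (nat_lit 229) (nat_lit 212) (nat_lit 7) (nat_lit 7) (nat_lit 9) L94545 (by decide +kernel)
theorem L94547 : W_34 (nat_lit 5) (nat_lit 0x80004000200010001000080000000000000000000000000000000) (nat_lit 0x0) (nat_lit 0x50003800140000000000008000400000000000000000000000000000000000) := T_34 (nat_lit 159) (nat_lit 142) (nat_lit 4) (nat_lit 7) (nat_lit 12) L94546 (by decide +kernel)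
theorem L94548 : W_34 (nat_lit 2) (nat_lit 0x2000f0004000200018001000080000000000000000000000000000000) (nat_lit 0x0) (nat_lit 0x2400100000000000000000000000000000000000000000000000000000) := D_34 (nat_lit 212) (nat_lit 229) (nat_lit 226) (nat_lit 7) (nat_lit 7) (nat_lit 9) (nat_lit 1) (nat_lit 8) (nat_lit 12) (by decide +kernel)
theorem L94549 : W_34 (nat_lit 3) (nat_lit 0xf0004000200018001000080000000000000000000000000000000) (nat_lit 0x0) (nat_lit 0x2700100000000000000000000000000000000000000000000000000000) := T_34 (nat_lit 225) (nat_lit 224) (nat_lit 1) (nat_lit 7) (nat_lit 12) L94548 (by decide +kernel)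
theorem L94550 : W_34 (nat_lit 4) (nat_lit 0xe0004000200018001000080000000000000000000000000000000) (nat_lit 0x0) (nat_lit 0x2700110008000000000000000000000000000000000000000000000000) := T_34 (nat_lit 208) (nat_lit 195) (nat_lit 2) (nat_lit 4) (nat_lit 12) L94549 (by decide +kernel)
theorem L94551 : W_34 (nat_lit 5) (nat_lit 0xe0004000200010001000080000000000000000000000000000000) (nat_lit 0x0) (nat_lit 0x2700110008000000008000400000000000000000000000000000000000) := T_34 (nat_lit 159) (nat_lit 142) (nat_lit 4) (nat_lit 7) (nat_lit 12) L94550 (by decide +kernel)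
theorem L94552 : W_34 (nat_lit 2) (nat_lit 0x1e0004000200010001000080000000000000000000000000000000) (nat_lit 0x0) (nat_lit 0x10018000000000000000000000000000000000000000000000000) := D_34 (nat_lit 195) (nat_lit 196) (nat_lit 208) (nat_lit 2) (nat_lit 5) (nat_lit 12) (nat_lit 2) (nat_lit 4) (nat_lit 12) (by decide +kernel)
theorem L94553 : W_34 (nat_lit 3) (nat_lit 0xe0004000200010001000080000000000000000000000000000000) (nat_lit 0x0) (nat_lit 0x2000110018000000000000000000000000000000000000000000000000) := T_34 (nat_lit 212) (nat_lit 229) (nat_lit 7) (nat_lit 7) (nat_lit 9) L94552 (by decide +kernel)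
theorem L94554 : W_34 (nat_lit 2) (nat_lit 0xf8004000200010001000080000000000000000000000000000000) (nat_lit 0x0) (nat_lit 0x380000000000000000000000000000000000000000000000000000000) := D_34 (nat_lit 224) (nat_lit 223) (nat_lit 225) (nat_lit 1) (nat_lit 6) (nat_lit 12) (nat_lit 1) (nat_lit 7) (nat_lit 12) (by decide +kernel)
theorem L94555 : W_34 (nat_lit 3) (nat_lit 0xf0004000200010001000080000000000000000000000000000000) (nat_lit 0x0) (nat_lit 0x380008002000000000000000000000000000000000000000000000000) := T_34 (nat_lit 207) (nat_lit 193) (nat_lit 2) (nat_lit 3) (nat_lit 12) L94554 (by decide +kernel)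
theorem L94556 : W_34 (nat_lit 4) (nat_lit 0xe0004000200010001000080000000000000000000000000000000) (nat_lit 0x0) (nat_lit 0x38001800a000000000000000000000000000000000000000000000000) := T_34 (nat_lit 208) (nat_lit 195) (nat_lit 2) (nat_lit 4) (nat_lit 12) L94555 (by decide +kernel)
theorem L94557 : W_34 (nat_lit 7) (nat_lit 0xc0004000200010001000080000000000000000000000000000000) (nat_lit 0x0) (nat_lit 0x278013801b800180008000400000000000000000000000000000000000) := Q_34 (nat_lit 209) (C_34 L94551 (C_34 L94553 (C_34 L6130 (C_34 L94556 N_34)))) (by decide +kernel)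
theorem L94558 : W_34 (nat_lit 8) (nat_lit 0x80004000200010001000080000000000000000000000000000000) (nat_lit 0x0) (nat_lit 0x2f8017801b800180008000400000000000000000000000000000000000) := T_34 (nat_lit 210) (nat_lit 227) (nat_lit 5) (nat_lit 7) (nat_lit 9) L94557 (by decide +kernel)
theorem L94559 : W_34 (nat_lit 2) (nat_lit 0x800020001a00580004000300010001000080000000000000000000000000000000) (nat_lit 0x0) (nat_lit 0x10000400000000000000008000000000000000000000000000000000000000000000000) := D_34 (nat_lit 262) (nat_lit 195) (nat_lit 280) (nat_lit 6) (nat_lit 7) (nat_lit 15) (nat_lit 7) (nat_lit 7) (nat_lit 12) (by decide +kernel)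
theorem L94560 : W_34 (nat_lit 3) (nat_lit 0x20001a00580004000300010001000080000000000000000000000000000000) (nat_lit 0x0) (nat_lit 0x10000c00040000000000008000000000000000000000000000000000000000000000000) := T_34 (nat_lit 263) (nat_lit 246) (nat_lit 7) (nat_lit 7) (nat_lit 11) L94559 (by decide +kernel)
theorem L94561 : W_34 (nat_lit 4) (nat_lit 0x20001a00180004000300010001000080000000000000000000000000000000) (nat_lit 0x0) (nat_lit 0x10000c00040000000600008000000000000000000000000000000000000000000000000) := T_34 (nat_lit 214) (nat_lit 213) (nat_lit 1) (nat_lit 10) (nat_lit 12) L94560 (by decide +kernel)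
theorem L94562 : W_34 (nat_lit 5) (nat_lit 0x1a00180004000300010001000080000000000000000000000000000000) (nat_lit 0x0) (nat_lit 0x10000c0006000000060000a000000000000000000000000000000000000000000000000) := T_34 (nat_lit 245) (nat_lit 193) (nat_lit 4) (nat_lit 7) (nat_lit 14) L94561 (by decide +kernel)
theorem L94563 : W_34 (nat_lit 6) (nat_lit 0x1800180004000300010001000080000000000000000000000000000000) (nat_lit 0x0) (nat_lit 0x10000c0006000060060000a000000000000000000000000000000000000000000000000) := T_34 (nat_lit 225) (nat_lit 226) (nat_lit 2) (nat_lit 4) (nat_lit 13) L94562 (by decide +kernel)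
theorem L94564 : W_34 (nat_lit 7) (nat_lit 0x1800180004000200010001000080000000000000000000000000000000) (nat_lit 0x0) (nat_lit 0x10000c0006000060060000a000100008000000000000000000000000000000000000000) := T_34 (nat_lit 176) (nat_lit 159) (nat_lit 4) (nat_lit 7) (nat_lit 13) L94563 (by decide +kernel)
theorem L94565 : W_34 (nat_lit 8) (nat_lit 0x800180004000200010001000080000000000000000000000000000000) (nat_lit 0x0) (nat_lit 0x10000c0007000160060000a000100008000000000000000000000000000000000000000) := T_34 (nat_lit 228) (nat_lit 244) (nat_lit 5) (nat_lit 7) (nat_lit 10) L94564 (by decide +kernel)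
theorem L94566 : W_34 (nat_lit 9) (nat_lit 0x800080004000200010001000080000000000000000000000000000000) (nat_lit 0x0) (nat_lit 0x10000c0007000360070000a000100008000000000000000000000000000000000000000) := T_34 (nat_lit 212) (nat_lit 229) (nat_lit 7) (nat_lit 7) (nat_lit 9) L94565 (by decide +kernel)
theorem L94567 : W_34 (nat_lit 10) (nat_lit 0x80004000200010001000080000000000000000000000000000000) (nat_lit 0x0) (nat_lit 0x10000c00070003e0074000a000100008000000000000000000000000000000000000000) := T_34 (nat_lit 227) (nat_lit 210) (nat_lit 5) (nat_lit 7) (nat_lit 9) L94566 (by decide +kernel)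
theorem L94568 : W_34 (nat_lit 7) (nat_lit 0x80004000200018001000080000000000000000000000000000000) (nat_lit 0x0) (nat_lit 0x4000e00070003800040002000100000000000000000000000000000000000000000000) := T_34 (nat_lit 210) (nat_lit 227) (nat_lit 5) (nat_lit 7) (nat_lit 9) L6138 (by decide +kernel)
theorem L94569 : W_34 (nat_lit 8) (nat_lit 0x80004000200010001000080000000000000000000000000000000) (nat_lit 0x0) (nat_lit 0x4000e00070003800040002000100008000400000000000000000000000000000000000) := T_34 (nat_lit 159) (nat_lit 142) (nat_lit 4) (nat_lit 7) (nat_lit 12) L94568 (by decide +kernel)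
theorem L94570 : W_34 (nat_lit 2) (nat_lit 0x800080004000200018001000080000000000000000000000000000000) (nat_lit 0x0) (nat_lit 0x10001000000000000100000000000000000000000000000000000000000000) := D_34 (nat_lit 228) (nat_lit 176) (nat_lit 244) (nat_lit 4) (nat_lit 7) (nat_lit 13) (nat_lit 5) (nat_lit 7) (nat_lit 10) (by decide +kernel)
theorem L94571 : W_34 (nat_lit 3) (nat_lit 0x80004000200018001000080000000000000000000000000000000) (nat_lit 0x0) (nat_lit 0x10001800040000000100000000000000000000000000000000000000000000) := T_34 (nat_lit 227) (nat_lit 210) (nat_lit 5) (nat_lit 7) (nat_lit 9) L94570 (by decide +kernel)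
theorem L94572 : W_34 (nat_lit 4) (nat_lit 0x80004000200010001000080000000000000000000000000000000) (nat_lit 0x0) (nat_lit 0x10001800040000000100008000400000000000000000000000000000000000) := T_34 (nat_lit 159) (nat_lit 142) (nat_lit 4) (nat_lit 7) (nat_lit 12) L94571 (by decide +kernel)
theorem L94573 : W_34 (nat_lit 11) (nat_lit 0x80000000200010001000080000000000000000000000000000000) (nat_lit 0x0) (nat_lit 0x14000e00070003f8077801f800180008000400000000000000000000000000000000000) := Q_34 (nat_lit 194) (C_34 L5487 (C_34 L94547 (C_34 L94558 (C_34 L94567 (C_34 L6072 (C_34 L6148 (C_34 L94569 (C_34 L6152 (C_34 L94572 N_34))))))))) (by decide +kernel)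
theorem L94574 : W_34 (nat_lit 17) (nat_lit 0x200010001000080000000000000000000000000000000) (nat_lit 0x0) (nat_lit 0x7f803fe01ff07ffe1ffe1fff879f01efc1c780238015400000000000000000000000000) := Q_34 (nat_lit 211) (C_34 L94541 (C_34 L94542 (C_34 L94543 (C_34 L94573 N_34)))) (by decide +kernel)
theorem L94578 : W_34 (nat_lit 2) (nat_lit 0x20009000100028001e000f00040000000000000000000) (nat_lit 0x0) (nat_lit 0x100000000000000002000100000000000) := D_34 (nat_lit 61) (nat_lit 44) (nat_lit 128) (nat_lit 5) (nat_lit 10) (nat_lit 2) (nat_lit 5) (nat_lit 10) (nat_lit 3) (by decide +kernel)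
theorem L94579 : W_34 (nat_lit 3) (nat_lit 0x20009000100028001e000f00000000000000000000000) (nat_lit 0x0) (nat_lit 0x1000000000000c0002000100000000000) := T_34 (nat_lit 78) (nat_lit 79) (nat_lit 2) (nat_lit 7) (nat_lit 5) L94578 (by decide +kernel)
theorem L94580 : W_34 (nat_lit 4) (nat_lit 0x20001000100028001e000f00000000000000000000000) (nat_lit 0x0) (nat_lit 0x800040001000000000000c0002000100000000000) := T_34 (nat_lit 163) (nat_lit 146) (nat_lit 4) (nat_lit 10) (nat_lit 9) L94579 (by decide +kernel)
theorem L94581 : W_34 (nat_lit 5) (nat_lit 0x20001000100008001e000f00000000000000000000000) (nat_lit 0x0) (nat_lit 0x800040007000000000000c0002000100000000000) := T_34 (nat_lit 129) (nat_lit 130) (nat_lit 3) (nat_lit 7) (nat_lit 6) L94580 (by decide +kernel)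
theorem L94582 : W_34 (nat_lit 2) (nat_lit 0x200010001000080025000f80084000000000000000000) (nat_lit 0x0) (nat_lit 0x40001000100000000000000000000) := D_34 (nat_lit 96) (nat_lit 114) (nat_lit 80) (nat_lit 3) (nat_lit 8) (nat_lit 5) (nat_lit 2) (nat_lit 8) (nat_lit 5) (by decide +kernel)
theorem L94583 : W_34 (nat_lit 3) (nat_lit 0x200010001000080025000f80004000000000000000000) (nat_lit 0x0) (nat_lit 0x400010001c0000000000000000000) := T_34 (nat_lit 79) (nat_lit 78) (nat_lit 2) (nat_lit 7) (nat_lit 5) L94582 (by decide +kernel)
theorem L94584 : W_34 (nat_lit 4) (nat_lit 0x200010001000080005000f80004000000000000000000) (nat_lit 0x0) (nat_lit 0x700010001c0000000000000000000) := T_34 (nat_lit 113) (nat_lit 112) (nat_lit 3) (nat_lit 7) (nat_lit 5) L94583 (by decide +kernel)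
theorem L94585 : W_34 (nat_lit 2) (nat_lit 0x200010001000080025000f80080000000000000000000) (nat_lit 0x0) (nat_lit 0x40001000100000000000000000000) := D_34 (nat_lit 96) (nat_lit 80) (nat_lit 114) (nat_lit 2) (nat_lit 8) (nat_lit 5) (nat_lit 3) (nat_lit 8) (nat_lit 5) (by decide +kernel)
theorem L94586 : W_34 (nat_lit 3) (nat_lit 0x200010001000080005000f80080000000000000000000) (nat_lit 0x0) (nat_lit 0x70001000100000000000000000000) := T_34 (nat_lit 113) (nat_lit 112) (nat_lit 3) (nat_lit 7) (nat_lit 5) L94585 (by decide +kernel)
theorem L94587 : W_34 (nat_lit 4) (nat_lit 0x200010001000080005000f80000000000000000000000) (nat_lit 0x0) (nat_lit 0x700010001c0000000000000000000) := T_34 (nat_lit 79) (nat_lit 78) (nat_lit 2) (nat_lit 7) (nat_lit 5) L94586 (by decide +kernel)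
theorem L94588 : W_34 (nat_lit 2) (nat_lit 0x200010001000080004000780000000000000000000000) (nat_lit 0x0) (nat_lit 0x18000040000000000000000000000) := D_34 (nat_lit 111) (nat_lit 112) (nat_lit 90) (nat_lit 3) (nat_lit 6) (nat_lit 5) (nat_lit 3) (nat_lit 5) (nat_lit 5) (by decide +kernel)
theorem L94589 : W_34 (nat_lit 2) (nat_lit 0x200010001000080004800780002000000000000000000) (nat_lit 0x0) (nat_lit 0x400040001000000000000000000) := D_34 (nat_lit 90) (nat_lit 72) (nat_lit 106) (nat_lit 0) (nat_lit 8) (nat_lit 5) (nat_lit 1) (nat_lit 8) (nat_lit 5) (by decide +kernel)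
theorem L94590 : W_34 (nat_lit 3) (nat_lit 0x200010001000080004000780002000000000000000000) (nat_lit 0x0) (nat_lit 0x1c00040001000000000000000000) := T_34 (nat_lit 107) (nat_lit 108) (nat_lit 1) (nat_lit 9) (nat_lit 5) L94589 (by decide +kernel)
theorem L94591 : W_34 (nat_lit 4) (nat_lit 0x200010001000080004000780000000000000000000000) (nat_lit 0x0) (nat_lit 0x1c00040007000000000000000000) := T_34 (nat_lit 73) (nat_lit 74) (nat_lit 0) (nat_lit 9) (nat_lit 5) L94590 (by decide +kernel)
theorem L94592 : W_34 (nat_lit 2) (nat_lit 0x2000100010000800044007c0002000000000000000000) (nat_lit 0x0) (nat_lit 0x2200020000000000000000000000) := D_34 (nat_lit 89) (nat_lit 109) (nat_lit 105) (nat_lit 3) (nat_lit 4) (nat_lit 5) (nat_lit 1) (nat_lit 7) (nat_lit 5) (by decide +kernel)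
theorem L94593 : W_34 (nat_lit 3) (nat_lit 0x2000100010000800040007c0002000000000000000000) (nat_lit 0x0) (nat_lit 0x2e00020000000000000000000000) := T_34 (nat_lit 106) (nat_lit 107) (nat_lit 1) (nat_lit 8) (nat_lit 5) L94592 (by decide +kernel)
theorem L94594 : W_34 (nat_lit 4) (nat_lit 0x200010001000080004000780002000000000000000000) (nat_lit 0x0) (nat_lit 0x2e00060001000000000000000000) := T_34 (nat_lit 90) (nat_lit 72) (nat_lit 0) (nat_lit 8) (nat_lit 5) L94593 (by decide +kernel)
theorem L94595 : W_34 (nat_lit 5) (nat_lit 0x200010001000080004000780000000000000000000000) (nat_lit 0x0) (nat_lit 0x2e00060007000000000000000000) := T_34 (nat_lit 73) (nat_lit 74) (nat_lit 0) (nat_lit 9) (nat_lit 5) L94594 (by decide +kernel)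
theorem L94596 : W_34 (nat_lit 2) (nat_lit 0x2000100010000800060007c0002000000000000000000) (nat_lit 0x0) (nat_lit 0x1001800000000000000000000000) := D_34 (nat_lit 95) (nat_lit 96) (nat_lit 108) (nat_lit 1) (nat_lit 11) (nat_lit 5) (nat_lit 1) (nat_lit 10) (nat_lit 5) (by decide +kernel)
theorem L94597 : W_34 (nat_lit 3) (nat_lit 0x2000100010000800040007c0002000000000000000000) (nat_lit 0x0) (nat_lit 0x3001820000000000000000000000) := T_34 (nat_lit 109) (nat_lit 89) (nat_lit 3) (nat_lit 4) (nat_lit 5) L94596 (by decide +kernel)
theorem L94598 : W_34 (nat_lit 4) (nat_lit 0x200010001000080004000780002000000000000000000) (nat_lit 0x0) (nat_lit 0x3001860001000000000000000000) := T_34 (nat_lit 90) (nat_lit 72) (nat_lit 0) (nat_lit 8) (nat_lit 5) L94597 (by decide +kernel)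
theorem L94599 : W_34 (nat_lit 5) (nat_lit 0x200010001000080004000780000000000000000000000) (nat_lit 0x0) (nat_lit 0x3001860007000000000000000000) := T_34 (nat_lit 73) (nat_lit 74) (nat_lit 0) (nat_lit 9) (nat_lit 5) L94598 (by decide +kernel)
theorem L94600 : W_34 (nat_lit 5) (nat_lit 0x200010001000080005000780004000000000000000000) (nat_lit 0x0) (nat_lit 0x720018001c0000000000000000000) := T_34 (nat_lit 95) (nat_lit 109) (nat_lit 1) (nat_lit 10) (nat_lit 5) L94584 (by decide +kernel)
theorem L94601 : W_34 (nat_lit 6) (nat_lit 0x200010001000080004000780004000000000000000000) (nat_lit 0x0) (nat_lit 0x738018001c0000000000000000000) := T_34 (nat_lit 108) (nat_lit 107) (nat_lit 1) (nat_lit 9) (nat_lit 5) L94600 (by decide +kernel)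
theorem L94602 : W_34 (nat_lit 7) (nat_lit 0x200010001000080004000780000000000000000000000) (nat_lit 0x0) (nat_lit 0x738018001c6000000000000000000) := T_34 (nat_lit 74) (nat_lit 73) (nat_lit 0) (nat_lit 9) (nat_lit 5) L94601 (by decide +kernel)
theorem L94603 : W_34 (nat_lit 5) (nat_lit 0x200010001000080005000780000000000000000000000) (nat_lit 0x0) (nat_lit 0x720018001c0000000000000000000) := T_34 (nat_lit 95) (nat_lit 109) (nat_lit 1) (nat_lit 10) (nat_lit 5) L94587 (by decide +kernel)
theorem L94604 : W_34 (nat_lit 6) (nat_lit 0x200010001000080004000780000000000000000000000) (nat_lit 0x0) (nat_lit 0x738018001c0000000000000000000) := T_34 (nat_lit 108) (nat_lit 107) (nat_lit 1) (nat_lit 9) (nat_lit 5) L94603 (by decide +kernel)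
theorem L94605 : W_34 (nat_lit 8) (nat_lit 0x200010001000080004000700000000000000000000000) (nat_lit 0x0) (nat_lit 0x73e018e01c7000000000000000000) := Q_34 (nat_lit 91) (C_34 L94591 (C_34 L94595 (C_34 L94599 (C_34 L94602 (C_34 L94604 N_34))))) (by decide +kernel)
theorem L94606 : W_34 (nat_lit 2) (nat_lit 0x200010001000080008000600000000000000000000000) (nat_lit 0x0) (nat_lit 0x100004000000020000000000000000000) := D_34 (nat_lit 77) (nat_lit 110) (nat_lit 128) (nat_lit 6) (nat_lit 8) (nat_lit 8) (nat_lit 5) (nat_lit 9) (nat_lit 4) (by decide +kernel)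
theorem L94607 : W_34 (nat_lit 2) (nat_lit 0x200010001000080018000680020001000080000000000) (nat_lit 0x0) (nat_lit 0x2000100008000000) := D_34 (nat_lit 44) (nat_lit 27) (nat_lit 61) (nat_lit 6) (nat_lit 9) (nat_lit 5) (nat_lit 6) (nat_lit 9) (nat_lit 6) (by decide +kernel)
theorem L94608 : W_34 (nat_lit 3) (nat_lit 0x200010001000080018000680020001000000000000000) (nat_lit 0x0) (nat_lit 0x800000002000180008000000) := T_34 (nat_lit 43) (nat_lit 95) (nat_lit 7) (nat_lit 9) (nat_lit 2) L94607 (by decide +kernel)
theorem L94609 : W_34 (nat_lit 4) (nat_lit 0x200010001000080018000680020000000000000000000) (nat_lit 0x0) (nat_lit 0x200000000800000003000180008000000) := T_34 (nat_lit 60) (nat_lit 129) (nat_lit 7) (nat_lit 9) (nat_lit 3) L94608 (by decide +kernel)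
theorem L94610 : W_34 (nat_lit 5) (nat_lit 0x200010001000080018000600020000000000000000000) (nat_lit 0x0) (nat_lit 0x200000000980000003000180008000000) := T_34 (nat_lit 91) (nat_lit 92) (nat_lit 3) (nat_lit 6) (nat_lit 5) L94609 (by decide +kernel)
theorem L94611 : W_34 (nat_lit 6) (nat_lit 0x200010001000080018000600000000000000000000000) (nat_lit 0x0) (nat_lit 0x300000000980020003000180008000000) := T_34 (nat_lit 77) (nat_lit 128) (nat_lit 5) (nat_lit 9) (nat_lit 4) L94610 (by decide +kernel)
theorem L94612 : W_34 (nat_lit 2) (nat_lit 0x200010001000080038000600000000000000000000000) (nat_lit 0x0) (nat_lit 0x980000000000000000000000) := D_34 (nat_lit 92) (nat_lit 91) (nat_lit 95) (nat_lit 3) (nat_lit 6) (nat_lit 5) (nat_lit 3) (nat_lit 7) (nat_lit 5) (by decide +kernel)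
theorem L94613 : W_34 (nat_lit 3) (nat_lit 0x200010001000080018000600000000000000000000000) (nat_lit 0x0) (nat_lit 0x60000980000000000000000000000) := T_34 (nat_lit 113) (nat_lit 114) (nat_lit 0) (nat_lit 12) (nat_lit 6) L94612 (by decide +kernel)
theorem L94614 : W_34 (nat_lit 2) (nat_lit 0x200010001000080058000600020001000080000000000) (nat_lit 0x0) (nat_lit 0x2000100008000000) := D_34 (nat_lit 44) (nat_lit 27) (nat_lit 61) (nat_lit 6) (nat_lit 9) (nat_lit 5) (nat_lit 6) (nat_lit 9) (nat_lit 6) (by decide +kernel)
theorem L94615 : W_34 (nat_lit 3) (nat_lit 0x200010001000080058000600020001000000000000000) (nat_lit 0x0) (nat_lit 0x800000002000180008000000) := T_34 (nat_lit 43) (nat_lit 95) (nat_lit 7) (nat_lit 9) (nat_lit 2) L94614 (by decide +kernel)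
theorem L94616 : W_34 (nat_lit 4) (nat_lit 0x200010001000080058000600020000000000000000000) (nat_lit 0x0) (nat_lit 0x200000000800000003000180008000000) := T_34 (nat_lit 60) (nat_lit 129) (nat_lit 7) (nat_lit 9) (nat_lit 3) L94615 (by decide +kernel)
theorem L94617 : W_34 (nat_lit 5) (nat_lit 0x200010001000080018000600020000000000000000000) (nat_lit 0x0) (nat_lit 0x200060000800000003000180008000000) := T_34 (nat_lit 114) (nat_lit 113) (nat_lit 0) (nat_lit 12) (nat_lit 6) L94616 (by decide +kernel)
theorem L94618 : W_34 (nat_lit 6) (nat_lit 0x200010001000080018000600000000000000000000000) (nat_lit 0x0) (nat_lit 0x300060000800020003000180008000000) := T_34 (nat_lit 77) (nat_lit 128) (nat_lit 5) (nat_lit 9) (nat_lit 4) L94617 (by decide +kernel)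
theorem L94619 : W_34 (nat_lit 2) (nat_lit 0x200010001000080018000680020001000140000000000) (nat_lit 0x0) (nat_lit 0x8000a000000) := D_34 (nat_lit 43) (nat_lit 27) (nat_lit 25) (nat_lit 6) (nat_lit 9) (nat_lit 5) (nat_lit 4) (nat_lit 9) (nat_lit 5) (by decide +kernel)
theorem L94620 : W_34 (nat_lit 3) (nat_lit 0x200010001000080018000680020001000100000000000) (nat_lit 0x0) (nat_lit 0x8000c000a000000) := T_34 (nat_lit 42) (nat_lit 59) (nat_lit 4) (nat_lit 9) (nat_lit 6) L94619 (by decide +kernel)
theorem L94621 : W_34 (nat_lit 4) (nat_lit 0x200010001000080018000680020001000000000000000) (nat_lit 0x0) (nat_lit 0x28001c000a000000) := T_34 (nat_lit 44) (nat_lit 61) (nat_lit 6) (nat_lit 9) (nat_lit 6) L94620 (by decide +kernel)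
theorem L94622 : W_34 (nat_lit 5) (nat_lit 0x200010001000080018000680020000000000000000000) (nat_lit 0x0) (nat_lit 0x2000000000000000038001c000a000000) := T_34 (nat_lit 60) (nat_lit 129) (nat_lit 7) (nat_lit 9) (nat_lit 3) L94621 (by decide +kernel)
theorem L94623 : W_34 (nat_lit 6) (nat_lit 0x200010001000080018000600020000000000000000000) (nat_lit 0x0) (nat_lit 0x2000000001800000038001c000a000000) := T_34 (nat_lit 91) (nat_lit 92) (nat_lit 3) (nat_lit 6) (nat_lit 5) L94622 (by decide +kernel)
theorem L94624 : W_34 (nat_lit 7) (nat_lit 0x200010001000080018000600000000000000000000000) (nat_lit 0x0) (nat_lit 0x3000000001800200038001c000a000000) := T_34 (nat_lit 77) (nat_lit 128) (nat_lit 5) (nat_lit 9) (nat_lit 4) L94623 (by decide +kernel)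
theorem L94625 : W_34 (nat_lit 8) (nat_lit 0x200010001000080008000600000000000000000000000) (nat_lit 0x0) (nat_lit 0x3000700009800200038001c000a000000) := Q_34 (nat_lit 112) (C_34 L94611 (C_34 L94613 (C_34 L94618 (C_34 L94624 N_34)))) (by decide +kernel)
theorem L94626 : W_34 (nat_lit 2) (nat_lit 0x2000100010000800080007c0000000000000000000000) (nat_lit 0x0) (nat_lit 0x1c00000000000000000000000000) := D_34 (nat_lit 107) (nat_lit 106) (nat_lit 108) (nat_lit 1) (nat_lit 8) (nat_lit 5) (nat_lit 1) (nat_lit 9) (nat_lit 5) (by decide +kernel)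
theorem L94627 : W_34 (nat_lit 3) (nat_lit 0x200010001000080008000780000000000000000000000) (nat_lit 0x0) (nat_lit 0x5c00040000000000000000000000) := T_34 (nat_lit 90) (nat_lit 110) (nat_lit 3) (nat_lit 5) (nat_lit 5) L94626 (by decide +kernel)
theorem L94628 : W_34 (nat_lit 4) (nat_lit 0x200010001000080008000700000000000000000000000) (nat_lit 0x0) (nat_lit 0x15c000c0000000000000000000000) := T_34 (nat_lit 91) (nat_lit 112) (nat_lit 3) (nat_lit 6) (nat_lit 5) L94627 (by decide +kernel)
theorem L94629 : W_34 (nat_lit 2) (nat_lit 0x200010001000080008800780002000000000000000000) (nat_lit 0x0) (nat_lit 0x400040001000000000000000000) := D_34 (nat_lit 90) (nat_lit 106) (nat_lit 72) (nat_lit 1) (nat_lit 8) (nat_lit 5) (nat_lit 0) (nat_lit 8) (nat_lit 5) (by decide +kernel)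
theorem L94630 : W_34 (nat_lit 3) (nat_lit 0x200010001000080008800780000000000000000000000) (nat_lit 0x0) (nat_lit 0x400040007000000000000000000) := T_34 (nat_lit 73) (nat_lit 74) (nat_lit 0) (nat_lit 9) (nat_lit 5) L94629 (by decide +kernel)
theorem L94631 : W_34 (nat_lit 4) (nat_lit 0x200010001000080008000780000000000000000000000) (nat_lit 0x0) (nat_lit 0x1c00040007000000000000000000) := T_34 (nat_lit 107) (nat_lit 108) (nat_lit 1) (nat_lit 9) (nat_lit 5) L94630 (by decide +kernel)
theorem L94632 : W_34 (nat_lit 5) (nat_lit 0x200010001000080008000700000000000000000000000) (nat_lit 0x0) (nat_lit 0x11c000c0007000000000000000000) := T_34 (nat_lit 91) (nat_lit 112) (nat_lit 3) (nat_lit 6) (nat_lit 5) L94631 (by decide +kernel)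
theorem L94633 : W_34 (nat_lit 2) (nat_lit 0x2000100010000800080007c0000000000000000000000) (nat_lit 0x0) (nat_lit 0x7000000000000000000) := D_34 (nat_lit 73) (nat_lit 74) (nat_lit 72) (nat_lit 0) (nat_lit 9) (nat_lit 5) (nat_lit 0) (nat_lit 8) (nat_lit 5) (by decide +kernel)
theorem L94634 : W_34 (nat_lit 3) (nat_lit 0x200010001000080008000780000000000000000000000) (nat_lit 0x0) (nat_lit 0x4000040007000000000000000000) := T_34 (nat_lit 90) (nat_lit 110) (nat_lit 3) (nat_lit 5) (nat_lit 5) L94633 (by decide +kernel)
theorem L94635 : W_34 (nat_lit 2) (nat_lit 0x200010001000080009003f80084000000000000000000) (nat_lit 0x0) (nat_lit 0xe0000000000000000000000000000) := D_34 (nat_lit 114) (nat_lit 113) (nat_lit 115) (nat_lit 3) (nat_lit 8) (nat_lit 5) (nat_lit 3) (nat_lit 9) (nat_lit 5) (by decide +kernel)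
theorem L94636 : W_34 (nat_lit 3) (nat_lit 0x200010001000080009001f80084000000000000000000) (nat_lit 0x0) (nat_lit 0xe4002000000000000000000000000) := T_34 (nat_lit 97) (nat_lit 110) (nat_lit 1) (nat_lit 12) (nat_lit 5) L94635 (by decide +kernel)
theorem L94637 : W_34 (nat_lit 4) (nat_lit 0x200010001000080009000f80084000000000000000000) (nat_lit 0x0) (nat_lit 0xe4003000100000000000000000000) := T_34 (nat_lit 96) (nat_lit 80) (nat_lit 2) (nat_lit 8) (nat_lit 5) L94636 (by decide +kernel)
theorem L94638 : W_34 (nat_lit 5) (nat_lit 0x200010001000080009000f80004000000000000000000) (nat_lit 0x0) (nat_lit 0xe40030001c0000000000000000000) := T_34 (nat_lit 79) (nat_lit 78) (nat_lit 2) (nat_lit 7) (nat_lit 5) L94637 (by decide +kernel)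
theorem L94639 : W_34 (nat_lit 6) (nat_lit 0x200010001000080009000780004000000000000000000) (nat_lit 0x0) (nat_lit 0xe60038001c0000000000000000000) := T_34 (nat_lit 95) (nat_lit 109) (nat_lit 1) (nat_lit 10) (nat_lit 5) L94638 (by decide +kernel)
theorem L94640 : W_34 (nat_lit 7) (nat_lit 0x200010001000080008000780004000000000000000000) (nat_lit 0x0) (nat_lit 0xe78038001c0000000000000000000) := T_34 (nat_lit 108) (nat_lit 107) (nat_lit 1) (nat_lit 9) (nat_lit 5) L94639 (by decide +kernel)
theorem L94641 : W_34 (nat_lit 8) (nat_lit 0x200010001000080008000780000000000000000000000) (nat_lit 0x0) (nat_lit 0xe78038001c6000000000000000000) := T_34 (nat_lit 74) (nat_lit 73) (nat_lit 0) (nat_lit 9) (nat_lit 5) L94640 (by decide +kernel)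
theorem L94642 : W_34 (nat_lit 9) (nat_lit 0x200010001000080008000700000000000000000000000) (nat_lit 0x0) (nat_lit 0xe7c038c01c7000000000000000000) := Q_34 (nat_lit 91) (C_34 L94627 (C_34 L94631 (C_34 L94634 (C_34 L94641 N_34)))) (by decide +kernel)
theorem L94643 : W_34 (nat_lit 4) (nat_lit 0x200010001000080008000700000000000000000000000) (nat_lit 0x0) (nat_lit 0x140000c0007000000000000000000) := T_34 (nat_lit 91) (nat_lit 112) (nat_lit 3) (nat_lit 6) (nat_lit 5) L94634 (by decide +kernel)
theorem L94644 : W_34 (nat_lit 6) (nat_lit 0x20001000100008001a000f00000000000000000000000) (nat_lit 0x0) (nat_lit 0x800040007000040010000c0002000100000000000) := T_34 (nat_lit 110) (nat_lit 96) (nat_lit 2) (nat_lit 7) (nat_lit 6) L94581 (by decide +kernel)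
theorem L94645 : W_34 (nat_lit 7) (nat_lit 0x20001000100008000a000f00000000000000000000000) (nat_lit 0x0) (nat_lit 0x800040007000340010000c0002000100000000000) := T_34 (nat_lit 112) (nat_lit 113) (nat_lit 3) (nat_lit 7) (nat_lit 5) L94644 (by decide +kernel)
theorem L94646 : W_34 (nat_lit 8) (nat_lit 0x200010001000080008000f00000000000000000000000) (nat_lit 0x0) (nat_lit 0x800040007000370010000c0002000100000000000) := T_34 (nat_lit 109) (nat_lit 108) (nat_lit 1) (nat_lit 10) (nat_lit 5) L94645 (by decide +kernel)
theorem L94647 : W_34 (nat_lit 2) (nat_lit 0x200010001000080018000f00040000000000000000000) (nat_lit 0x0) (nat_lit 0x100000000000000002000100000000000) := D_34 (nat_lit 61) (nat_lit 44) (nat_lit 128) (nat_lit 5) (nat_lit 10) (nat_lit 2) (nat_lit 5) (nat_lit 10) (nat_lit 3) (by decide +kernel)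
theorem L94648 : W_34 (nat_lit 3) (nat_lit 0x200010001000080018000f00000000000000000000000) (nat_lit 0x0) (nat_lit 0x1000000000000c0002000100000000000) := T_34 (nat_lit 78) (nat_lit 79) (nat_lit 2) (nat_lit 7) (nat_lit 5) L94647 (by decide +kernel)
theorem L94649 : W_34 (nat_lit 4) (nat_lit 0x200010001000080008000f00000000000000000000000) (nat_lit 0x0) (nat_lit 0x1000300000000c0002000100000000000) := T_34 (nat_lit 112) (nat_lit 113) (nat_lit 3) (nat_lit 7) (nat_lit 5) L94648 (by decide +kernel)
theorem L94650 : W_34 (nat_lit 2) (nat_lit 0x20001000100008000a000f00080000000000000000000) (nat_lit 0x0) (nat_lit 0x4001000100000000000000000000) := D_34 (nat_lit 96) (nat_lit 80) (nat_lit 110) (nat_lit 2) (nat_lit 8) (nat_lit 5) (nat_lit 1) (nat_lit 11) (nat_lit 5) (by decide +kernel)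
theorem L94651 : W_34 (nat_lit 3) (nat_lit 0x200010001000080008000f00080000000000000000000) (nat_lit 0x0) (nat_lit 0x7001000100000000000000000000) := T_34 (nat_lit 109) (nat_lit 108) (nat_lit 1) (nat_lit 10) (nat_lit 5) L94650 (by decide +kernel)
theorem L94652 : W_34 (nat_lit 4) (nat_lit 0x200010001000080008000f00000000000000000000000) (nat_lit 0x0) (nat_lit 0x70010001c0000000000000000000) := T_34 (nat_lit 79) (nat_lit 78) (nat_lit 2) (nat_lit 7) (nat_lit 5) L94651 (by decide +kernel)
theorem L94653 : W_34 (nat_lit 2) (nat_lit 0x20001000100008001a001f00100000000000000000000) (nat_lit 0x0) (nat_lit 0x6000200000000000000000000) := D_34 (nat_lit 97) (nat_lit 98) (nat_lit 81) (nat_lit 1) (nat_lit 13) (nat_lit 5) (nat_lit 2) (nat_lit 9) (nat_lit 5) (by decide +kernel)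
theorem L94654 : W_34 (nat_lit 3) (nat_lit 0x20001000100008001a001f00000000000000000000000) (nat_lit 0x0) (nat_lit 0x6000380000000000000000000) := T_34 (nat_lit 80) (nat_lit 79) (nat_lit 2) (nat_lit 8) (nat_lit 5) L94653 (by decide +kernel)
theorem L94655 : W_34 (nat_lit 4) (nat_lit 0x20001000100008001a000f00000000000000000000000) (nat_lit 0x0) (nat_lit 0x4007000380000000000000000000) := T_34 (nat_lit 96) (nat_lit 110) (nat_lit 2) (nat_lit 7) (nat_lit 6) L94654 (by decide +kernel)
theorem L94656 : W_34 (nat_lit 5) (nat_lit 0x200010001000080018000f00000000000000000000000) (nat_lit 0x0) (nat_lit 0x7007000380000000000000000000) := T_34 (nat_lit 109) (nat_lit 108) (nat_lit 1) (nat_lit 10) (nat_lit 5) L94655 (by decide +kernel)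
theorem L94657 : W_34 (nat_lit 6) (nat_lit 0x200010001000080008000f00000000000000000000000) (nat_lit 0x0) (nat_lit 0x37007000380000000000000000000) := T_34 (nat_lit 112) (nat_lit 113) (nat_lit 3) (nat_lit 7) (nat_lit 5) L94656 (by decide +kernel)
theorem L94658 : W_34 (nat_lit 2) (nat_lit 0x20001000100008002a000f00000000000000000000000) (nat_lit 0x0) (nat_lit 0x44001000000000000000000000000) := D_34 (nat_lit 96) (nat_lit 110) (nat_lit 114) (nat_lit 1) (nat_lit 11) (nat_lit 5) (nat_lit 3) (nat_lit 8) (nat_lit 5) (by decide +kernel)
theorem L94659 : W_34 (nat_lit 3) (nat_lit 0x20001000100008000a000f00000000000000000000000) (nat_lit 0x0) (nat_lit 0x74001000000000000000000000000) := T_34 (nat_lit 113) (nat_lit 112) (nat_lit 3) (nat_lit 7) (nat_lit 5) L94658 (by decide +kernel)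
theorem L94660 : W_34 (nat_lit 4) (nat_lit 0x200010001000080008000f00000000000000000000000) (nat_lit 0x0) (nat_lit 0x77001000000000000000000000000) := T_34 (nat_lit 109) (nat_lit 108) (nat_lit 1) (nat_lit 10) (nat_lit 5) L94659 (by decide +kernel)
theorem L94661 : W_34 (nat_lit 9) (nat_lit 0x200010001000080008000700000000000000000000000) (nat_lit 0x0) (nat_lit 0x800040007000770078003c0002000100000000000) := Q_34 (nat_lit 95) (C_34 L94646 (C_34 L94649 (C_34 L94652 (C_34 L94657 (C_34 L94660 N_34))))) (by decide +kernel)
theorem L94662 : W_34 (nat_lit 10) (nat_lit 0x200010001000080008000600000000000000000000000) (nat_lit 0x0) (nat_lit 0x800040007000f7c079c03c7002000100000000000) := Q_34 (nat_lit 92) (C_34 L94628 (C_34 L94632 (C_34 L94642 (C_34 L94643 (C_34 L94661 N_34))))) (by decide +kernel)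
theorem L94663 : W_34 (nat_lit 7) (nat_lit 0x200010001000080018000600000000000000000000000) (nat_lit 0x0) (nat_lit 0x2000040001800200038001c000a000000) := T_34 (nat_lit 77) (nat_lit 110) (nat_lit 6) (nat_lit 8) (nat_lit 8) L94623 (by decide +kernel)
theorem L94664 : W_34 (nat_lit 5) (nat_lit 0x200010001000080058000600000000000000000000000) (nat_lit 0x0) (nat_lit 0x200004000800020003000180008000000) := T_34 (nat_lit 77) (nat_lit 110) (nat_lit 6) (nat_lit 8) (nat_lit 8) L94616 (by decide +kernel)
theorem L94665 : W_34 (nat_lit 6) (nat_lit 0x200010001000080018000600000000000000000000000) (nat_lit 0x0) (nat_lit 0x200064000800020003000180008000000) := T_34 (nat_lit 114) (nat_lit 113) (nat_lit 0) (nat_lit 12) (nat_lit 6) L94664 (by decide +kernel)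
theorem L94666 : W_34 (nat_lit 8) (nat_lit 0x200010001000080008000600000000000000000000000) (nat_lit 0x0) (nat_lit 0x2000740009800200038001c000a000000) := Q_34 (nat_lit 112) (C_34 L94613 (C_34 L94663 (C_34 L94665 N_34))) (by decide +kernel)
theorem L94667 : W_34 (nat_lit 11) (nat_lit 0x200010001000080000000600000000000000000000000) (nat_lit 0x0) (nat_lit 0x800040007000ffc079c03e70038001c000a000000) := Q_34 (nat_lit 111) (C_34 L94606 (C_34 L94625 (C_34 L94662 (C_34 L94666 N_34)))) (by decide +kernel)
theorem L94668 : W_34 (nat_lit 2) (nat_lit 0x200010001000080000000700000000000000000000000) (nat_lit 0x0) (nat_lit 0x4000000028000000000000000000) := D_34 (nat_lit 110) (nat_lit 77) (nat_lit 75) (nat_lit 6) (nat_lit 8) (nat_lit 8) (nat_lit 4) (nat_lit 8) (nat_lit 8) (by decide +kernel)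
theorem L94669 : W_34 (nat_lit 2) (nat_lit 0x2000100010000800000007c0024000000000000000000) (nat_lit 0x0) (nat_lit 0x1c00000000000000000000000000) := D_34 (nat_lit 107) (nat_lit 106) (nat_lit 108) (nat_lit 1) (nat_lit 8) (nat_lit 5) (nat_lit 1) (nat_lit 9) (nat_lit 5) (by decide +kernel)
theorem L94670 : W_34 (nat_lit 3) (nat_lit 0x200010001000080000000780024000000000000000000) (nat_lit 0x0) (nat_lit 0x1c00040010000000000000000000) := T_34 (nat_lit 90) (nat_lit 76) (nat_lit 2) (nat_lit 5) (nat_lit 5) L94669 (by decide +kernel)
theorem L94671 : W_34 (nat_lit 4) (nat_lit 0x200010001000080000000780004000000000000000000) (nat_lit 0x0) (nat_lit 0x1c00040070000000000000000000) := T_34 (nat_lit 77) (nat_lit 78) (nat_lit 2) (nat_lit 6) (nat_lit 5) L94670 (by decide +kernel)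
theorem L94672 : W_34 (nat_lit 5) (nat_lit 0x200010001000080000000780000000000000000000000) (nat_lit 0x0) (nat_lit 0x1c00040076000000000000000000) := T_34 (nat_lit 74) (nat_lit 73) (nat_lit 0) (nat_lit 9) (nat_lit 5) L94671 (by decide +kernel)
theorem L94673 : W_34 (nat_lit 2) (nat_lit 0x200010001000080000000f80024000000000000000000) (nat_lit 0x0) (nat_lit 0x3800000000000000000000000000) := D_34 (nat_lit 108) (nat_lit 107) (nat_lit 109) (nat_lit 1) (nat_lit 9) (nat_lit 5) (nat_lit 1) (nat_lit 10) (nat_lit 5) (by decide +kernel)
theorem L94674 : W_34 (nat_lit 3) (nat_lit 0x200010001000080000000780024000000000000000000) (nat_lit 0x0) (nat_lit 0x3800800008000000000000000000) := T_34 (nat_lit 95) (nat_lit 75) (nat_lit 0) (nat_lit 10) (nat_lit 5) L94673 (by decide +kernel)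
theorem L94675 : W_34 (nat_lit 4) (nat_lit 0x200010001000080000000780004000000000000000000) (nat_lit 0x0) (nat_lit 0x3800800068000000000000000000) := T_34 (nat_lit 77) (nat_lit 78) (nat_lit 2) (nat_lit 6) (nat_lit 5) L94674 (by decide +kernel)
theorem L94676 : W_34 (nat_lit 5) (nat_lit 0x200010001000080000000780000000000000000000000) (nat_lit 0x0) (nat_lit 0x380080006e000000000000000000) := T_34 (nat_lit 74) (nat_lit 73) (nat_lit 0) (nat_lit 9) (nat_lit 5) L94675 (by decide +kernel)
theorem L94677 : W_34 (nat_lit 2) (nat_lit 0x2000100010000800000007c0020000000000000000000) (nat_lit 0x0) (nat_lit 0x7000000000000000000) := D_34 (nat_lit 73) (nat_lit 74) (nat_lit 72) (nat_lit 0) (nat_lit 9) (nat_lit 5) (nat_lit 0) (nat_lit 8) (nat_lit 5) (by decide +kernel)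
theorem L94678 : W_34 (nat_lit 3) (nat_lit 0x200010001000080000000780020000000000000000000) (nat_lit 0x0) (nat_lit 0x40017000000000000000000) := T_34 (nat_lit 90) (nat_lit 76) (nat_lit 2) (nat_lit 5) (nat_lit 5) L94677 (by decide +kernel)
theorem L94679 : W_34 (nat_lit 4) (nat_lit 0x200010001000080000000780000000000000000000000) (nat_lit 0x0) (nat_lit 0x40077000000000000000000) := T_34 (nat_lit 77) (nat_lit 78) (nat_lit 2) (nat_lit 6) (nat_lit 5) L94678 (by decide +kernel)
theorem L94680 : W_34 (nat_lit 2) (nat_lit 0x200010001000080001000780004000000000000000000) (nat_lit 0x0) (nat_lit 0x2000800008000000000000000000) := D_34 (nat_lit 95) (nat_lit 75) (nat_lit 109) (nat_lit 0) (nat_lit 10) (nat_lit 5) (nat_lit 1) (nat_lit 10) (nat_lit 5) (by decide +kernel)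
theorem L94681 : W_34 (nat_lit 3) (nat_lit 0x200010001000080000000780004000000000000000000) (nat_lit 0x0) (nat_lit 0x3800800008000000000000000000) := T_34 (nat_lit 108) (nat_lit 107) (nat_lit 1) (nat_lit 9) (nat_lit 5) L94680 (by decide +kernel)
theorem L94682 : W_34 (nat_lit 4) (nat_lit 0x200010001000080000000780000000000000000000000) (nat_lit 0x0) (nat_lit 0x380080000e000000000000000000) := T_34 (nat_lit 74) (nat_lit 73) (nat_lit 0) (nat_lit 9) (nat_lit 5) L94681 (by decide +kernel)
theorem L94683 : W_34 (nat_lit 2) (nat_lit 0x2000100010000800000007c0020000000000000000000) (nat_lit 0x0) (nat_lit 0x1c00000000000000000000000000) := D_34 (nat_lit 107) (nat_lit 106) (nat_lit 108) (nat_lit 1) (nat_lit 8) (nat_lit 5) (nat_lit 1) (nat_lit 9) (nat_lit 5) (by decide +kernel)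
theorem L94684 : W_34 (nat_lit 3) (nat_lit 0x200010001000080000000780020000000000000000000) (nat_lit 0x0) (nat_lit 0x1c00040010000000000000000000) := T_34 (nat_lit 90) (nat_lit 76) (nat_lit 2) (nat_lit 5) (nat_lit 5) L94683 (by decide +kernel)
theorem L94685 : W_34 (nat_lit 4) (nat_lit 0x200010001000080000000780000000000000000000000) (nat_lit 0x0) (nat_lit 0x1c00040070000000000000000000) := T_34 (nat_lit 77) (nat_lit 78) (nat_lit 2) (nat_lit 6) (nat_lit 5) L94684 (by decide +kernel)
theorem L94686 : W_34 (nat_lit 6) (nat_lit 0x200010001000080000000700000000000000000000000) (nat_lit 0x0) (nat_lit 0x3c008c007f000000000000000000) := Q_34 (nat_lit 91) (C_34 L94672 (C_34 L94676 (C_34 L94679 (C_34 L94682 (C_34 L94685 N_34))))) (by decide +kernel)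
theorem L94687 : W_34 (nat_lit 9) (nat_lit 0x200010001000080000000700000000000000000000000) (nat_lit 0x0) (nat_lit 0x77e018e01e7000000000000000000) := T_34 (nat_lit 110) (nat_lit 77) (nat_lit 6) (nat_lit 8) (nat_lit 8) L94605 (by decide +kernel)
theorem L94688 : W_34 (nat_lit 9) (nat_lit 0x200010001000080000000700000000000000000000000) (nat_lit 0x0) (nat_lit 0x77e018e01cf000000000000000000) := T_34 (nat_lit 110) (nat_lit 75) (nat_lit 4) (nat_lit 8) (nat_lit 8) L94605 (by decide +kernel)
theorem L94689 : W_34 (nat_lit 10) (nat_lit 0x200010001000080000000600000000000000000000000) (nat_lit 0x0) (nat_lit 0x77e019e01ff000000000000000000) := Q_34 (nat_lit 92) (C_34 L94668 (C_34 L94686 (C_34 L94687 (C_34 L94688 N_34)))) (by decide +kernel)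
theorem L94690 : W_34 (nat_lit 2) (nat_lit 0x200010001000080008000780004000000000000000000) (nat_lit 0x0) (nat_lit 0x100000000000060000000000000000000) := D_34 (nat_lit 77) (nat_lit 78) (nat_lit 128) (nat_lit 2) (nat_lit 6) (nat_lit 5) (nat_lit 5) (nat_lit 9) (nat_lit 4) (by decide +kernel)
theorem L94691 : W_34 (nat_lit 3) (nat_lit 0x200010001000080000000780004000000000000000000) (nat_lit 0x0) (nat_lit 0x100018000000060000000000000000000) := T_34 (nat_lit 111) (nat_lit 112) (nat_lit 3) (nat_lit 6) (nat_lit 5) L94690 (by decide +kernel)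
theorem L94692 : W_34 (nat_lit 4) (nat_lit 0x200010001000080000000780000000000000000000000) (nat_lit 0x0) (nat_lit 0x100018000000066000000000000000000) := T_34 (nat_lit 74) (nat_lit 73) (nat_lit 0) (nat_lit 9) (nat_lit 5) L94691 (by decide +kernel)
theorem L94693 : W_34 (nat_lit 2) (nat_lit 0x20001000100008000900078000c000000000000000000) (nat_lit 0x0) (nat_lit 0x20000000000000000400020000000000) := D_34 (nat_lit 58) (nat_lit 41) (nat_lit 125) (nat_lit 5) (nat_lit 7) (nat_lit 2) (nat_lit 6) (nat_lit 6) (nat_lit 7) (by decide +kernel)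
theorem L94694 : W_34 (nat_lit 3) (nat_lit 0x20001000100008000800078000c000000000000000000) (nat_lit 0x0) (nat_lit 0x20001800000000000400020000000000) := T_34 (nat_lit 108) (nat_lit 107) (nat_lit 1) (nat_lit 9) (nat_lit 5) L94693 (by decide +kernel)
theorem L94695 : W_34 (nat_lit 4) (nat_lit 0x200010001000080008000780004000000000000000000) (nat_lit 0x0) (nat_lit 0x20001800800008000400020000000000) := T_34 (nat_lit 75) (nat_lit 95) (nat_lit 0) (nat_lit 10) (nat_lit 5) L94694 (by decide +kernel)
theorem L94696 : W_34 (nat_lit 5) (nat_lit 0x200010001000080000000780004000000000000000000) (nat_lit 0x0) (nat_lit 0x20019800800008000400020000000000) := T_34 (nat_lit 111) (nat_lit 112) (nat_lit 3) (nat_lit 6) (nat_lit 5) L94695 (by decide +kernel)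
theorem L94697 : W_34 (nat_lit 6) (nat_lit 0x200010001000080000000780000000000000000000000) (nat_lit 0x0) (nat_lit 0x2001980080000e000400020000000000) := T_34 (nat_lit 74) (nat_lit 73) (nat_lit 0) (nat_lit 9) (nat_lit 5) L94696 (by decide +kernel)
theorem L94698 : W_34 (nat_lit 7) (nat_lit 0x200010001000080000000700000000000000000000000) (nat_lit 0x0) (nat_lit 0x120019c008c007e000400020000000000) := Q_34 (nat_lit 91) (C_34 L94685 (C_34 L94692 (C_34 L94697 N_34))) (by decide +kernel)
theorem L94699 : W_34 (nat_lit 2) (nat_lit 0x200010001000080008000700020000000000000000000) (nat_lit 0x0) (nat_lit 0x10000080040000000000000000000) := D_34 (nat_lit 91) (nat_lit 112) (nat_lit 78) (nat_lit 3) (nat_lit 6) (nat_lit 5) (nat_lit 2) (nat_lit 6) (nat_lit 5) (by decide +kernel)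
theorem L94700 : W_34 (nat_lit 3) (nat_lit 0x200010001000080000000700020000000000000000000) (nat_lit 0x0) (nat_lit 0x100018000080040000000000000000000) := T_34 (nat_lit 111) (nat_lit 128) (nat_lit 5) (nat_lit 9) (nat_lit 4) L94699 (by decide +kernel)
theorem L94701 : W_34 (nat_lit 4) (nat_lit 0x200010001000080000000700000000000000000000000) (nat_lit 0x0) (nat_lit 0x10001c000080060000000000000000000) := T_34 (nat_lit 77) (nat_lit 110) (nat_lit 6) (nat_lit 8) (nat_lit 8) L94700 (by decide +kernel)
theorem L94702 : W_34 (nat_lit 2) (nat_lit 0x200010001000080000001f00008000000000000000000) (nat_lit 0x0) (nat_lit 0x70000000000000000000000000000) := D_34 (nat_lit 113) (nat_lit 112) (nat_lit 114) (nat_lit 3) (nat_lit 7) (nat_lit 5) (nat_lit 3) (nat_lit 8) (nat_lit 5) (by decide +kernel)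
theorem L94703 : W_34 (nat_lit 3) (nat_lit 0x200010001000080000000f00008000000000000000000) (nat_lit 0x0) (nat_lit 0x70001000010000000000000000000) := T_34 (nat_lit 96) (nat_lit 76) (nat_lit 0) (nat_lit 11) (nat_lit 5) L94702 (by decide +kernel)
theorem L94704 : W_34 (nat_lit 4) (nat_lit 0x200010001000080000000700008000000000000000000) (nat_lit 0x0) (nat_lit 0x70001800014000000000000000000) := T_34 (nat_lit 95) (nat_lit 74) (nat_lit 0) (nat_lit 10) (nat_lit 5) L94703 (by decide +kernel)
theorem L94705 : W_34 (nat_lit 5) (nat_lit 0x200010001000080000000700000000000000000000000) (nat_lit 0x0) (nat_lit 0x7400180001c000000000000000000) := T_34 (nat_lit 75) (nat_lit 110) (nat_lit 4) (nat_lit 8) (nat_lit 8) L94704 (by decide +kernel)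
theorem L94706 : W_34 (nat_lit 8) (nat_lit 0x200010001000080000000600000000000000000000000) (nat_lit 0x0) (nat_lit 0x12007dc019c007e000400020000000000) := Q_34 (nat_lit 92) (C_34 L94668 (C_34 L94698 (C_34 L94701 (C_34 L94705 N_34)))) (by decide +kernel)
theorem L94707 : W_34 (nat_lit 2) (nat_lit 0x200010001000080000000700060000000000000000000) (nat_lit 0x0) (nat_lit 0x190000000000000000000) := D_34 (nat_lit 79) (nat_lit 80) (nat_lit 76) (nat_lit 1) (nat_lit 12) (nat_lit 4) (nat_lit 1) (nat_lit 11) (nat_lit 4) (by decide +kernel)
theorem L94708 : W_34 (nat_lit 3) (nat_lit 0x200010001000080000000600060000000000000000000) (nat_lit 0x0) (nat_lit 0x180190000000000000000000) := T_34 (nat_lit 92) (nat_lit 91) (nat_lit 2) (nat_lit 6) (nat_lit 5) L94707 (by decide +kernel)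
theorem L94709 : W_34 (nat_lit 2) (nat_lit 0x2000100010000800000006000e0000000000000000000) (nat_lit 0x0) (nat_lit 0x980000000000000000000000) := D_34 (nat_lit 92) (nat_lit 91) (nat_lit 95) (nat_lit 2) (nat_lit 6) (nat_lit 5) (nat_lit 2) (nat_lit 7) (nat_lit 5) (by decide +kernel)
theorem L94710 : W_34 (nat_lit 3) (nat_lit 0x200010001000080000000600060000000000000000000) (nat_lit 0x0) (nat_lit 0x980180000000000000000000) := T_34 (nat_lit 79) (nat_lit 80) (nat_lit 1) (nat_lit 12) (nat_lit 4) L94709 (by decide +kernel)
theorem L94711 : W_34 (nat_lit 2) (nat_lit 0x200010001000080008000600060000800000000000000) (nat_lit 0x0) (nat_lit 0x10001000040000000000) := D_34 (nat_lit 42) (nat_lit 76) (nat_lit 60) (nat_lit 7) (nat_lit 8) (nat_lit 2) (nat_lit 4) (nat_lit 9) (nat_lit 6) (by decide +kernel)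
theorem L94712 : W_34 (nat_lit 3) (nat_lit 0x200010001000080000000600060000800000000000000) (nat_lit 0x0) (nat_lit 0x100008000000010001000040000000000) := T_34 (nat_lit 111) (nat_lit 128) (nat_lit 5) (nat_lit 9) (nat_lit 4) L94711 (by decide +kernel)
theorem L94713 : W_34 (nat_lit 2) (nat_lit 0x2000100010000800000006000f8004800000000000000) (nat_lit 0x0) (nat_lit 0x1800004000000000000000000) := D_34 (nat_lit 95) (nat_lit 96) (nat_lit 74) (nat_lit 3) (nat_lit 7) (nat_lit 4) (nat_lit 3) (nat_lit 6) (nat_lit 4) (by decide +kernel)
theorem L94714 : W_34 (nat_lit 3) (nat_lit 0x2000100010000800000006000f0004800000000000000) (nat_lit 0x0) (nat_lit 0x180000c002000000000000000) := T_34 (nat_lit 75) (nat_lit 61) (nat_lit 2) (nat_lit 7) (nat_lit 4) L94713 (by decide +kernel)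
theorem L94715 : W_34 (nat_lit 4) (nat_lit 0x2000100010000800000006000f0000800000000000000) (nat_lit 0x0) (nat_lit 0x180000c00e000000000000000) := T_34 (nat_lit 62) (nat_lit 63) (nat_lit 2) (nat_lit 8) (nat_lit 4) L94714 (by decide +kernel)
theorem L94716 : W_34 (nat_lit 5) (nat_lit 0x2000100010000800000006000e0000800000000000000) (nat_lit 0x0) (nat_lit 0x180001c00e400000000000000) := T_34 (nat_lit 76) (nat_lit 58) (nat_lit 0) (nat_lit 11) (nat_lit 4) L94715 (by decide +kernel)
theorem L94717 : W_34 (nat_lit 6) (nat_lit 0x200010001000080000000600060000800000000000000) (nat_lit 0x0) (nat_lit 0x180019c00e400000000000000) := T_34 (nat_lit 79) (nat_lit 80) (nat_lit 1) (nat_lit 12) (nat_lit 4) L94716 (by decide +kernel)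
theorem L94718 : W_34 (nat_lit 2) (nat_lit 0x200010001000080018000600160001a00080000000000) (nat_lit 0x0) (nat_lit 0x2000100008000000) := D_34 (nat_lit 44) (nat_lit 27) (nat_lit 61) (nat_lit 6) (nat_lit 9) (nat_lit 5) (nat_lit 6) (nat_lit 9) (nat_lit 6) (by decide +kernel)
theorem L94719 : W_34 (nat_lit 3) (nat_lit 0x200010001000080018000600160001a00000000000000) (nat_lit 0x0) (nat_lit 0x800000002000180008000000) := T_34 (nat_lit 43) (nat_lit 95) (nat_lit 7) (nat_lit 9) (nat_lit 2) L94718 (by decide +kernel)
theorem L94720 : W_34 (nat_lit 4) (nat_lit 0x200010001000080008000600160001a00000000000000) (nat_lit 0x0) (nat_lit 0x200010000800000002000180008000000) := T_34 (nat_lit 112) (nat_lit 129) (nat_lit 7) (nat_lit 9) (nat_lit 3) L94719 (by decide +kernel)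
theorem L94721 : W_34 (nat_lit 5) (nat_lit 0x200010001000080008000600160001800000000000000) (nat_lit 0x0) (nat_lit 0x200010000800000002600180008000000) := T_34 (nat_lit 57) (nat_lit 58) (nat_lit 3) (nat_lit 6) (nat_lit 3) L94720 (by decide +kernel)
theorem L94722 : W_34 (nat_lit 6) (nat_lit 0x200010001000080008000600160000800000000000000) (nat_lit 0x0) (nat_lit 0x2000100008000000036001c0008000000) := T_34 (nat_lit 60) (nat_lit 42) (nat_lit 4) (nat_lit 9) (nat_lit 6) L94721 (by decide +kernel)
theorem L94723 : W_34 (nat_lit 7) (nat_lit 0x200010001000080000000600160000800000000000000) (nat_lit 0x0) (nat_lit 0x3000180008000000036001c0008000000) := T_34 (nat_lit 111) (nat_lit 128) (nat_lit 5) (nat_lit 9) (nat_lit 4) L94722 (by decide +kernel)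
theorem L94724 : W_34 (nat_lit 8) (nat_lit 0x200010001000080000000600060000800000000000000) (nat_lit 0x0) (nat_lit 0x3000180008001800036001c0008000000) := T_34 (nat_lit 80) (nat_lit 79) (nat_lit 1) (nat_lit 12) (nat_lit 4) L94723 (by decide +kernel)
theorem L94725 : W_34 (nat_lit 9) (nat_lit 0x200010001000080000000600060000000000000000000) (nat_lit 0x0) (nat_lit 0x30001800180019c00fe001c0008000000) := Q_34 (nat_lit 59) (C_34 L94712 (C_34 L94717 (C_34 L94724 N_34))) (by decide +kernel)
theorem L94726 : W_34 (nat_lit 2) (nat_lit 0x200010001000080058000680060001000080000000000) (nat_lit 0x0) (nat_lit 0x800040002000000) := D_34 (nat_lit 42) (nat_lit 59) (nat_lit 25) (nat_lit 4) (nat_lit 9) (nat_lit 6) (nat_lit 4) (nat_lit 9) (nat_lit 5) (by decide +kernel)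
theorem L94727 : W_34 (nat_lit 3) (nat_lit 0x200010001000080058000680060001000000000000000) (nat_lit 0x0) (nat_lit 0x8000000008000c0002000000) := T_34 (nat_lit 43) (nat_lit 95) (nat_lit 7) (nat_lit 9) (nat_lit 2) L94726 (by decide +kernel)
theorem L94728 : W_34 (nat_lit 4) (nat_lit 0x200010001000080058000680060000000000000000000) (nat_lit 0x0) (nat_lit 0x2000000008000000018000c0002000000) := T_34 (nat_lit 60) (nat_lit 129) (nat_lit 7) (nat_lit 9) (nat_lit 3) L94727 (by decide +kernel)
theorem L94729 : W_34 (nat_lit 5) (nat_lit 0x200010001000080018000680060000000000000000000) (nat_lit 0x0) (nat_lit 0x2000600008000000018000c0002000000) := T_34 (nat_lit 114) (nat_lit 113) (nat_lit 0) (nat_lit 12) (nat_lit 6) L94728 (by decide +kernel)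
theorem L94730 : W_34 (nat_lit 6) (nat_lit 0x200010001000080018000600060000000000000000000) (nat_lit 0x0) (nat_lit 0x2000600009800000018000c0002000000) := T_34 (nat_lit 91) (nat_lit 92) (nat_lit 3) (nat_lit 6) (nat_lit 5) L94729 (by decide +kernel)
theorem L94731 : W_34 (nat_lit 7) (nat_lit 0x200010001000080010000600060000000000000000000) (nat_lit 0x0) (nat_lit 0x3000680009800000018000c0002000000) := T_34 (nat_lit 111) (nat_lit 128) (nat_lit 5) (nat_lit 9) (nat_lit 4) L94730 (by decide +kernel)
theorem L94732 : W_34 (nat_lit 2) (nat_lit 0x200010001000080010000f00060000000000000000000) (nat_lit 0x0) (nat_lit 0x4000200000000000000001000000000000000) := D_34 (nat_lit 129) (nat_lit 60) (nat_lit 146) (nat_lit 4) (nat_lit 10) (nat_lit 7) (nat_lit 4) (nat_lit 10) (nat_lit 8) (by decide +kernel)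
theorem L94733 : W_34 (nat_lit 3) (nat_lit 0x200010001000080010000700060000000000000000000) (nat_lit 0x0) (nat_lit 0x4000200020000800000001000000000000000) := T_34 (nat_lit 95) (nat_lit 113) (nat_lit 3) (nat_lit 7) (nat_lit 5) L94732 (by decide +kernel)
theorem L94734 : W_34 (nat_lit 4) (nat_lit 0x200010001000080010000600060000000000000000000) (nat_lit 0x0) (nat_lit 0x4000200020000980000001000000000000000) := T_34 (nat_lit 92) (nat_lit 91) (nat_lit 2) (nat_lit 6) (nat_lit 5) L94733 (by decide +kernel)
theorem L94735 : W_34 (nat_lit 2) (nat_lit 0x200010001000080018000700060000000000000000000) (nat_lit 0x0) (nat_lit 0x60000800000000000000000000000) := D_34 (nat_lit 113) (nat_lit 114) (nat_lit 95) (nat_lit 0) (nat_lit 12) (nat_lit 6) (nat_lit 3) (nat_lit 7) (nat_lit 5) (by decide +kernel)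
theorem L94736 : W_34 (nat_lit 3) (nat_lit 0x200010001000080010000700060000000000000000000) (nat_lit 0x0) (nat_lit 0x100068000800000000000000000000000) := T_34 (nat_lit 111) (nat_lit 128) (nat_lit 5) (nat_lit 9) (nat_lit 4) L94735 (by decide +kernel)
theorem L94737 : W_34 (nat_lit 4) (nat_lit 0x200010001000080010000600060000000000000000000) (nat_lit 0x0) (nat_lit 0x100068000980000000000000000000000) := T_34 (nat_lit 92) (nat_lit 91) (nat_lit 2) (nat_lit 6) (nat_lit 5) L94736 (by decide +kernel)
theorem L94738 : W_34 (nat_lit 2) (nat_lit 0x200010001000080018000680060001000080000000000) (nat_lit 0x0) (nat_lit 0x800040002000000) := D_34 (nat_lit 42) (nat_lit 59) (nat_lit 25) (nat_lit 4) (nat_lit 9) (nat_lit 6) (nat_lit 4) (nat_lit 9) (nat_lit 5) (by decide +kernel)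
theorem L94739 : W_34 (nat_lit 3) (nat_lit 0x200010001000080018000680060001000000000000000) (nat_lit 0x0) (nat_lit 0x8000000008000c0002000000) := T_34 (nat_lit 43) (nat_lit 95) (nat_lit 7) (nat_lit 9) (nat_lit 2) L94738 (by decide +kernel)
theorem L94740 : W_34 (nat_lit 4) (nat_lit 0x200010001000080018000680060000000000000000000) (nat_lit 0x0) (nat_lit 0x2000000008000000018000c0002000000) := T_34 (nat_lit 60) (nat_lit 129) (nat_lit 7) (nat_lit 9) (nat_lit 3) L94739 (by decide +kernel)
theorem L94741 : W_34 (nat_lit 5) (nat_lit 0x200010001000080018000600060000000000000000000) (nat_lit 0x0) (nat_lit 0x2000000009800000018000c0002000000) := T_34 (nat_lit 91) (nat_lit 92) (nat_lit 3) (nat_lit 6) (nat_lit 5) L94740 (by decide +kernel)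
theorem L94742 : W_34 (nat_lit 6) (nat_lit 0x200010001000080010000600060000000000000000000) (nat_lit 0x0) (nat_lit 0x3000080009800000018000c0002000000) := T_34 (nat_lit 111) (nat_lit 128) (nat_lit 5) (nat_lit 9) (nat_lit 4) L94741 (by decide +kernel)
theorem L94743 : W_34 (nat_lit 2) (nat_lit 0x200010001000080058000600060001000080000000000) (nat_lit 0x0) (nat_lit 0x800040002000000) := D_34 (nat_lit 42) (nat_lit 59) (nat_lit 25) (nat_lit 4) (nat_lit 9) (nat_lit 6) (nat_lit 4) (nat_lit 9) (nat_lit 5) (by decide +kernel)
theorem L94744 : W_34 (nat_lit 3) (nat_lit 0x200010001000080058000600060001000000000000000) (nat_lit 0x0) (nat_lit 0x8000000008000c0002000000) := T_34 (nat_lit 43) (nat_lit 95) (nat_lit 7) (nat_lit 9) (nat_lit 2) L94743 (by decide +kernel)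
theorem L94745 : W_34 (nat_lit 4) (nat_lit 0x200010001000080058000600060000000000000000000) (nat_lit 0x0) (nat_lit 0x2000000008000000018000c0002000000) := T_34 (nat_lit 60) (nat_lit 129) (nat_lit 7) (nat_lit 9) (nat_lit 3) L94744 (by decide +kernel)
theorem L94746 : W_34 (nat_lit 5) (nat_lit 0x200010001000080018000600060000000000000000000) (nat_lit 0x0) (nat_lit 0x2000600008000000018000c0002000000) := T_34 (nat_lit 114) (nat_lit 113) (nat_lit 0) (nat_lit 12) (nat_lit 6) L94745 (by decide +kernel)
theorem L94747 : W_34 (nat_lit 6) (nat_lit 0x200010001000080010000600060000000000000000000) (nat_lit 0x0) (nat_lit 0x3000680008000000018000c0002000000) := T_34 (nat_lit 111) (nat_lit 128) (nat_lit 5) (nat_lit 9) (nat_lit 4) L94746 (by decide +kernel)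
theorem L94748 : W_34 (nat_lit 2) (nat_lit 0x200010001000080058000680068003c00020000000000) (nat_lit 0x0) (nat_lit 0x10004000000001000000) := D_34 (nat_lit 76) (nat_lit 62) (nat_lit 24) (nat_lit 2) (nat_lit 7) (nat_lit 4) (nat_lit 7) (nat_lit 7) (nat_lit 1) (by decide +kernel)
theorem L94749 : W_34 (nat_lit 3) (nat_lit 0x200010001000080058000680068003c00000000000000) (nat_lit 0x0) (nat_lit 0x10004000030001000000) := T_34 (nat_lit 41) (nat_lit 40) (nat_lit 0) (nat_lit 10) (nat_lit 3) L94748 (by decide +kernel)
theorem L94750 : W_34 (nat_lit 4) (nat_lit 0x200010001000080058000680060003c00000000000000) (nat_lit 0x0) (nat_lit 0x1c004000030001000000) := T_34 (nat_lit 75) (nat_lit 74) (nat_lit 1) (nat_lit 10) (nat_lit 3) L94749 (by decide +kernel)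
theorem L94751 : W_34 (nat_lit 5) (nat_lit 0x200010001000080058000680060003800000000000000) (nat_lit 0x0) (nat_lit 0x1c004600030001000000) := T_34 (nat_lit 58) (nat_lit 57) (nat_lit 3) (nat_lit 6) (nat_lit 3) L94750 (by decide +kernel)
theorem L94752 : W_34 (nat_lit 6) (nat_lit 0x200010001000080058000680060003000000000000000) (nat_lit 0x0) (nat_lit 0x1c004e00070001000000) := T_34 (nat_lit 59) (nat_lit 42) (nat_lit 4) (nat_lit 9) (nat_lit 6) L94751 (by decide +kernel)
theorem L94753 : W_34 (nat_lit 7) (nat_lit 0x200010001000080058000680060001000000000000000) (nat_lit 0x0) (nat_lit 0x1c006e00170001000000) := T_34 (nat_lit 61) (nat_lit 44) (nat_lit 6) (nat_lit 9) (nat_lit 6) L94752 (by decide +kernel)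
theorem L94754 : W_34 (nat_lit 8) (nat_lit 0x200010001000080058000680060000000000000000000) (nat_lit 0x0) (nat_lit 0x20000000000001c007e00170001000000) := T_34 (nat_lit 60) (nat_lit 129) (nat_lit 7) (nat_lit 9) (nat_lit 3) L94753 (by decide +kernel)
theorem L94755 : W_34 (nat_lit 9) (nat_lit 0x200010001000080018000680060000000000000000000) (nat_lit 0x0) (nat_lit 0x20006000000001c007e00170001000000) := T_34 (nat_lit 114) (nat_lit 113) (nat_lit 0) (nat_lit 12) (nat_lit 6) L94754 (by decide +kernel)
theorem L94756 : W_34 (nat_lit 10) (nat_lit 0x200010001000080018000600060000000000000000000) (nat_lit 0x0) (nat_lit 0x20006000018001c007e00170001000000) := T_34 (nat_lit 91) (nat_lit 92) (nat_lit 3) (nat_lit 6) (nat_lit 5) L94755 (by decide +kernel)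
theorem L94757 : W_34 (nat_lit 11) (nat_lit 0x200010001000080010000600060000000000000000000) (nat_lit 0x0) (nat_lit 0x30006800018001c007e00170001000000) := T_34 (nat_lit 111) (nat_lit 128) (nat_lit 5) (nat_lit 9) (nat_lit 4) L94756 (by decide +kernel)
theorem L94758 : W_34 (nat_lit 12) (nat_lit 0x200010001000080000000600060000000000000000000) (nat_lit 0x0) (nat_lit 0x400030007800098001c007e001f0003000000) := Q_34 (nat_lit 112) (C_34 L94731 (C_34 L94734 (C_34 L94737 (C_34 L94742 (C_34 L94747 (C_34 L94757 N_34)))))) (by decide +kernel)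
theorem L94759 : W_34 (nat_lit 13) (nat_lit 0x200010001000080000000600020000000000000000000) (nat_lit 0x0) (nat_lit 0x40003000780019801dc00fe001f000b000000) := Q_34 (nat_lit 78) (C_34 L94708 (C_34 L94710 (C_34 L94725 (C_34 L94758 N_34)))) (by decide +kernel)
theorem L94760 : W_34 (nat_lit 2) (nat_lit 0x200010001000080000001e00060000000000000000000) (nat_lit 0x0) (nat_lit 0x6000010000000000000000000) := D_34 (nat_lit 97) (nat_lit 76) (nat_lit 98) (nat_lit 0) (nat_lit 12) (nat_lit 5) (nat_lit 0) (nat_lit 13) (nat_lit 5) (by decide +kernel)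
theorem L94761 : W_34 (nat_lit 2) (nat_lit 0x200010001000080020001e00160000000000000000000) (nat_lit 0x0) (nat_lit 0x6000200000000000000000000) := D_34 (nat_lit 97) (nat_lit 81) (nat_lit 98) (nat_lit 2) (nat_lit 9) (nat_lit 5) (nat_lit 0) (nat_lit 13) (nat_lit 5) (by decide +kernel)
theorem L94762 : W_34 (nat_lit 3) (nat_lit 0x200010001000080020001e00060000000000000000000) (nat_lit 0x0) (nat_lit 0x6000380000000000000000000) := T_34 (nat_lit 80) (nat_lit 79) (nat_lit 2) (nat_lit 8) (nat_lit 5) L94761 (by decide +kernel)
theorem L94763 : W_34 (nat_lit 4) (nat_lit 0x200010001000080000001e00060000000000000000000) (nat_lit 0x0) (nat_lit 0x60006000380000000000000000000) := T_34 (nat_lit 113) (nat_lit 114) (nat_lit 3) (nat_lit 8) (nat_lit 5) L94762 (by decide +kernel)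
theorem L94764 : W_34 (nat_lit 2) (nat_lit 0x200010001000480020001e00160000000000000000000) (nat_lit 0x0) (nat_lit 0x10000000000002000100000000000) := D_34 (nat_lit 61) (nat_lit 44) (nat_lit 112) (nat_lit 7) (nat_lit 10) (nat_lit 2) (nat_lit 7) (nat_lit 10) (nat_lit 3) (by decide +kernel)
theorem L94765 : W_34 (nat_lit 3) (nat_lit 0x200010001000080020001e00160000000000000000000) (nat_lit 0x0) (nat_lit 0x8000400010000000000002000100000000000) := T_34 (nat_lit 130) (nat_lit 147) (nat_lit 4) (nat_lit 11) (nat_lit 8) L94764 (by decide +kernel)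
theorem L94766 : W_34 (nat_lit 4) (nat_lit 0x200010001000080000001e00160000000000000000000) (nat_lit 0x0) (nat_lit 0x8000400070000000000002000100000000000) := T_34 (nat_lit 113) (nat_lit 114) (nat_lit 3) (nat_lit 8) (nat_lit 5) L94765 (by decide +kernel)
theorem L94767 : W_34 (nat_lit 5) (nat_lit 0x200010001000080000001e00060000000000000000000) (nat_lit 0x0) (nat_lit 0x8000400070000000180002000100000000000) := T_34 (nat_lit 80) (nat_lit 79) (nat_lit 2) (nat_lit 8) (nat_lit 5) L94766 (by decide +kernel)
theorem L94768 : W_34 (nat_lit 6) (nat_lit 0x200010001000080000000e00060000000000000000000) (nat_lit 0x0) (nat_lit 0x8000400070007000390002000100000000000) := Q_34 (nat_lit 96) (C_34 L94760 (C_34 L94763 (C_34 L94767 N_34))) (by decide +kernel)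
theorem L94769 : W_34 (nat_lit 2) (nat_lit 0x200010009000080020001e000f0004800100000000000) (nat_lit 0x0) (nat_lit 0x200018000000) := D_34 (nat_lit 45) (nat_lit 27) (nat_lit 28) (nat_lit 4) (nat_lit 11) (nat_lit 5) (nat_lit 5) (nat_lit 11) (nat_lit 1) (by decide +kernel)
theorem L94770 : W_34 (nat_lit 3) (nat_lit 0x200010009000080020001e000f0000800100000000000) (nat_lit 0x0) (nat_lit 0xc000200018000000) := T_34 (nat_lit 62) (nat_lit 63) (nat_lit 2) (nat_lit 8) (nat_lit 4) L94769 (by decide +kernel)
theorem L94771 : W_34 (nat_lit 4) (nat_lit 0x200010009000080020001e000f0000000100000000000) (nat_lit 0x0) (nat_lit 0xcc00200018000000) := T_34 (nat_lit 59) (nat_lit 58) (nat_lit 0) (nat_lit 11) (nat_lit 4) L94770 (by decide +kernel)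
theorem L94772 : W_34 (nat_lit 5) (nat_lit 0x200010009000080020001e00070000000100000000000) (nat_lit 0x0) (nat_lit 0x18000cc00200018000000) := T_34 (nat_lit 79) (nat_lit 80) (nat_lit 2) (nat_lit 8) (nat_lit 5) L94771 (by decide +kernel)
theorem L94773 : W_34 (nat_lit 6) (nat_lit 0x200010001000080020001e00070000000100000000000) (nat_lit 0x0) (nat_lit 0x800040000000000018000cc00200018000000) := T_34 (nat_lit 147) (nat_lit 130) (nat_lit 4) (nat_lit 11) (nat_lit 8) L94772 (by decide +kernel)
theorem L94774 : W_34 (nat_lit 7) (nat_lit 0x200010001000080020001e00070000000000000000000) (nat_lit 0x0) (nat_lit 0x800040000000000018000ec00300018000000) := T_34 (nat_lit 44) (nat_lit 61) (nat_lit 7) (nat_lit 10) (nat_lit 2) L94773 (by decide +kernel)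
theorem L94775 : W_34 (nat_lit 8) (nat_lit 0x200010001000080020001e00060000000000000000000) (nat_lit 0x0) (nat_lit 0x800040000000000019800ec00300018000000) := T_34 (nat_lit 76) (nat_lit 75) (nat_lit 3) (nat_lit 7) (nat_lit 4) L94774 (by decide +kernel)
theorem L94776 : W_34 (nat_lit 9) (nat_lit 0x200010001000080000001e00060000000000000000000) (nat_lit 0x0) (nat_lit 0x800040006000000019800ec00300018000000) := T_34 (nat_lit 113) (nat_lit 114) (nat_lit 3) (nat_lit 8) (nat_lit 5) L94775 (by decide +kernel)
theorem L94777 : W_34 (nat_lit 10) (nat_lit 0x200010001000080000000e00060000000000000000000) (nat_lit 0x0) (nat_lit 0x800040006000700039800ec00300018000000) := Q_34 (nat_lit 96) (C_34 L94760 (C_34 L94763 (C_34 L94776 N_34))) (by decide +kernel)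
theorem L94778 : W_34 (nat_lit 2) (nat_lit 0x200010001000080020005e00060002000000000000000) (nat_lit 0x0) (nat_lit 0x8000400010000000000000000000000000000) := D_34 (nat_lit 130) (nat_lit 147) (nat_lit 112) (nat_lit 4) (nat_lit 11) (nat_lit 8) (nat_lit 7) (nat_lit 10) (nat_lit 3) (by decide +kernel)
theorem L94779 : W_34 (nat_lit 3) (nat_lit 0x200010001000080020005e00060000000000000000000) (nat_lit 0x0) (nat_lit 0x8000400010000000000002000100000000000) := T_34 (nat_lit 61) (nat_lit 44) (nat_lit 7) (nat_lit 10) (nat_lit 2) L94778 (by decide +kernel)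
theorem L94780 : W_34 (nat_lit 4) (nat_lit 0x200010001000080020001e00060000000000000000000) (nat_lit 0x0) (nat_lit 0x8000400010006000000002000100000000000) := T_34 (nat_lit 98) (nat_lit 97) (nat_lit 0) (nat_lit 13) (nat_lit 5) L94779 (by decide +kernel)
theorem L94781 : W_34 (nat_lit 5) (nat_lit 0x200010001000080000001e00060000000000000000000) (nat_lit 0x0) (nat_lit 0x8000400070006000000002000100000000000) := T_34 (nat_lit 113) (nat_lit 114) (nat_lit 3) (nat_lit 8) (nat_lit 5) L94780 (by decide +kernel)
theorem L94782 : W_34 (nat_lit 2) (nat_lit 0x200010001000080000001e00160000000000000000000) (nat_lit 0x0) (nat_lit 0x6000200000000000000000000) := D_34 (nat_lit 97) (nat_lit 98) (nat_lit 81) (nat_lit 0) (nat_lit 13) (nat_lit 5) (nat_lit 2) (nat_lit 9) (nat_lit 5) (by decide +kernel)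
theorem L94783 : W_34 (nat_lit 3) (nat_lit 0x200010001000080000001e00060000000000000000000) (nat_lit 0x0) (nat_lit 0x6000380000000000000000000) := T_34 (nat_lit 80) (nat_lit 79) (nat_lit 2) (nat_lit 8) (nat_lit 5) L94782 (by decide +kernel)
theorem L94784 : W_34 (nat_lit 6) (nat_lit 0x200010001000080000000e00060000000000000000000) (nat_lit 0x0) (nat_lit 0x8000400070007000380002000100000000000) := Q_34 (nat_lit 96) (C_34 L94763 (C_34 L94781 (C_34 L94783 (C_34 L94767 N_34)))) (by decide +kernel)
theorem L94785 : W_34 (nat_lit 2) (nat_lit 0x200010001000080000000e00070000000000000000000) (nat_lit 0x0) (nat_lit 0x3000008000000000000000000) := D_34 (nat_lit 96) (nat_lit 75) (nat_lit 97) (nat_lit 3) (nat_lit 7) (nat_lit 4) (nat_lit 0) (nat_lit 12) (nat_lit 5) (by decide +kernel)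
theorem L94786 : W_34 (nat_lit 2) (nat_lit 0x200010001000280000002e000f0006800060010000000) (nat_lit 0x0) (nat_lit 0x180004000000) := D_34 (nat_lit 43) (nat_lit 26) (nat_lit 44) (nat_lit 6) (nat_lit 8) (nat_lit 5) (nat_lit 3) (nat_lit 7) (nat_lit 2) (by decide +kernel)
theorem L94787 : W_34 (nat_lit 3) (nat_lit 0x200010001000280000002e000f0004800060010000000) (nat_lit 0x0) (nat_lit 0x3000180004000000) := T_34 (nat_lit 61) (nat_lit 60) (nat_lit 0) (nat_lit 11) (nat_lit 3) L94786 (by decide +kernel)
theorem L94788 : W_34 (nat_lit 4) (nat_lit 0x200010001000280000002e000f0004800040010000000) (nat_lit 0x0) (nat_lit 0x30001a0005000000) := T_34 (nat_lit 41) (nat_lit 24) (nat_lit 4) (nat_lit 8) (nat_lit 5) L94787 (by decide +kernel)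
theorem L94789 : W_34 (nat_lit 5) (nat_lit 0x200010001000280000002e000f0004800040000000000) (nat_lit 0x0) (nat_lit 0x30003a0015000000) := T_34 (nat_lit 28) (nat_lit 45) (nat_lit 5) (nat_lit 11) (nat_lit 1) L94788 (by decide +kernel)
theorem L94790 : W_34 (nat_lit 6) (nat_lit 0x200010001000280000002e000f0004800000000000000) (nat_lit 0x0) (nat_lit 0x30003e0017000000) := T_34 (nat_lit 42) (nat_lit 25) (nat_lit 7) (nat_lit 8) (nat_lit 1) L94789 (by decide +kernel)
theorem L94791 : W_34 (nat_lit 7) (nat_lit 0x200010001000080000002e000f0004800000000000000) (nat_lit 0x0) (nat_lit 0x2000100000000000030003e0017000000) := T_34 (nat_lit 129) (nat_lit 112) (nat_lit 6) (nat_lit 10) (nat_lit 7) L94790 (by decide +kernel)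
theorem L94792 : W_34 (nat_lit 8) (nat_lit 0x200010001000080000002e000f0004000000000000000) (nat_lit 0x0) (nat_lit 0x200010000000000003c003e0017000000) := T_34 (nat_lit 59) (nat_lit 58) (nat_lit 0) (nat_lit 11) (nat_lit 4) L94791 (by decide +kernel)
theorem L94793 : W_34 (nat_lit 9) (nat_lit 0x200010001000080000002e000f0000000000000000000) (nat_lit 0x0) (nat_lit 0x20001000000000000fc003e0017000000) := T_34 (nat_lit 62) (nat_lit 63) (nat_lit 2) (nat_lit 8) (nat_lit 4) L94792 (by decide +kernel)
theorem L94794 : W_34 (nat_lit 10) (nat_lit 0x200010001000080000000e000f0000000000000000000) (nat_lit 0x0) (nat_lit 0x20001000300000000fc003e0017000000) := T_34 (nat_lit 97) (nat_lit 96) (nat_lit 3) (nat_lit 8) (nat_lit 4) L94793 (by decide +kernel)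
theorem L94795 : W_34 (nat_lit 11) (nat_lit 0x200010001000080000000e00070000000000000000000) (nat_lit 0x0) (nat_lit 0x20001000300018000fc003e0017000000) := T_34 (nat_lit 79) (nat_lit 80) (nat_lit 1) (nat_lit 12) (nat_lit 4) L94794 (by decide +kernel)
theorem L94796 : W_34 (nat_lit 2) (nat_lit 0x200010001000080000000e00178002c00300001000000) (nat_lit 0x0) (nat_lit 0xc0004000000) := D_34 (nat_lit 43) (nat_lit 42) (nat_lit 26) (nat_lit 1) (nat_lit 11) (nat_lit 2) (nat_lit 4) (nat_lit 10) (nat_lit 5) (by decide +kernel)
theorem L94797 : W_34 (nat_lit 3) (nat_lit 0x200010001000080000000e00178002400300001000000) (nat_lit 0x0) (nat_lit 0x18000c0004000000) := T_34 (nat_lit 59) (nat_lit 60) (nat_lit 2) (nat_lit 7) (nat_lit 3) L94796 (by decide +kernel)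
theorem L94798 : W_34 (nat_lit 4) (nat_lit 0x200010001000080000000e00178002400100001000000) (nat_lit 0x0) (nat_lit 0x18002c0014000000) := T_34 (nat_lit 45) (nat_lit 28) (nat_lit 6) (nat_lit 10) (nat_lit 5) L94797 (by decide +kernel)
theorem L94799 : W_34 (nat_lit 5) (nat_lit 0x200010001000080000000e00178002400100000000000) (nat_lit 0x0) (nat_lit 0x18002e0015000000) := T_34 (nat_lit 24) (nat_lit 41) (nat_lit 7) (nat_lit 7) (nat_lit 1) L94798 (by decide +kernel)
theorem L94800 : W_34 (nat_lit 6) (nat_lit 0x200010001000080000000e00178002400000000000000) (nat_lit 0x0) (nat_lit 0x18003e001d000000) := T_34 (nat_lit 44) (nat_lit 27) (nat_lit 5) (nat_lit 10) (nat_lit 1) L94799 (by decide +kernel)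
theorem L94801 : W_34 (nat_lit 7) (nat_lit 0x200010001000080000000e00178002000000000000000) (nat_lit 0x0) (nat_lit 0x1e003e001d000000) := T_34 (nat_lit 58) (nat_lit 57) (nat_lit 0) (nat_lit 10) (nat_lit 4) L94800 (by decide +kernel)
theorem L94802 : W_34 (nat_lit 8) (nat_lit 0x200010001000080000000e00178000000000000000000) (nat_lit 0x0) (nat_lit 0x7e003e001d000000) := T_34 (nat_lit 61) (nat_lit 62) (nat_lit 2) (nat_lit 7) (nat_lit 4) L94801 (by decide +kernel)
theorem L94803 : W_34 (nat_lit 9) (nat_lit 0x200010001000080000000e00170000000000000000000) (nat_lit 0x0) (nat_lit 0xc007e003e001d000000) := T_34 (nat_lit 75) (nat_lit 74) (nat_lit 3) (nat_lit 6) (nat_lit 4) L94802 (by decide +kernel)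
theorem L94804 : W_34 (nat_lit 10) (nat_lit 0x200010001000080000000e00070000000000000000000) (nat_lit 0x0) (nat_lit 0x18c007e003e001d000000) := T_34 (nat_lit 80) (nat_lit 79) (nat_lit 1) (nat_lit 12) (nat_lit 4) L94803 (by decide +kernel)
theorem L94805 : W_34 (nat_lit 12) (nat_lit 0x200010001000080000000e00060000000000000000000) (nat_lit 0x0) (nat_lit 0x20001000300019c00fe003e001f000000) := Q_34 (nat_lit 76) (C_34 L94785 (C_34 L94795 (C_34 L94804 N_34))) (by decide +kernel)
theorem L94806 : W_34 (nat_lit 2) (nat_lit 0x200010001000480020001e00070000000000000000000) (nat_lit 0x0) (nat_lit 0x10000000000002000100000000000) := D_34 (nat_lit 61) (nat_lit 44) (nat_lit 112) (nat_lit 7) (nat_lit 10) (nat_lit 2) (nat_lit 7) (nat_lit 10) (nat_lit 3) (by decide +kernel)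
theorem L94807 : W_34 (nat_lit 3) (nat_lit 0x200010001000080020001e00070000000000000000000) (nat_lit 0x0) (nat_lit 0x8000400010000000000002000100000000000) := T_34 (nat_lit 130) (nat_lit 147) (nat_lit 4) (nat_lit 11) (nat_lit 8) L94806 (by decide +kernel)
theorem L94808 : W_34 (nat_lit 4) (nat_lit 0x200010001000080000001e00070000000000000000000) (nat_lit 0x0) (nat_lit 0x8000400070000000000002000100000000000) := T_34 (nat_lit 113) (nat_lit 114) (nat_lit 3) (nat_lit 8) (nat_lit 5) L94807 (by decide +kernel)
theorem L94809 : W_34 (nat_lit 5) (nat_lit 0x200010001000080000001e00060000000000000000000) (nat_lit 0x0) (nat_lit 0x8000400070000000018002000100000000000) := T_34 (nat_lit 76) (nat_lit 75) (nat_lit 3) (nat_lit 7) (nat_lit 4) L94808 (by decide +kernel)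
theorem L94810 : W_34 (nat_lit 6) (nat_lit 0x200010001000080000000e00060000000000000000000) (nat_lit 0x0) (nat_lit 0x8000400070007000018002000100000000000) := Q_34 (nat_lit 96) (C_34 L94760 (C_34 L94781 (C_34 L94809 N_34))) (by decide +kernel)
theorem L94811 : W_34 (nat_lit 2) (nat_lit 0x200010001000080010000e000f0004800000002000000) (nat_lit 0x0) (nat_lit 0x2000200010000000) := D_34 (nat_lit 45) (nat_lit 28) (nat_lit 61) (nat_lit 5) (nat_lit 11) (nat_lit 1) (nat_lit 6) (nat_lit 10) (nat_lit 6) (by decide +kernel)
theorem L94812 : W_34 (nat_lit 3) (nat_lit 0x200010001000080000000e000f0004800000002000000) (nat_lit 0x0) (nat_lit 0x200010000000000002000200010000000) := T_34 (nat_lit 112) (nat_lit 129) (nat_lit 6) (nat_lit 10) (nat_lit 7) L94811 (by decide +kernel)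
theorem L94813 : W_34 (nat_lit 4) (nat_lit 0x200010001000080000000e000f0004800000000000000) (nat_lit 0x0) (nat_lit 0x200010000000000002000240012000000) := T_34 (nat_lit 25) (nat_lit 42) (nat_lit 7) (nat_lit 8) (nat_lit 1) L94812 (by decide +kernel)
theorem L94814 : W_34 (nat_lit 5) (nat_lit 0x200010001000080000000e000f0000800000000000000) (nat_lit 0x0) (nat_lit 0x20001000000000000e000240012000000) := T_34 (nat_lit 62) (nat_lit 63) (nat_lit 2) (nat_lit 8) (nat_lit 4) L94813 (by decide +kernel)
theorem L94815 : W_34 (nat_lit 6) (nat_lit 0x200010001000080000000e000f0000000000000000000) (nat_lit 0x0) (nat_lit 0x20001000000000000ec00240012000000) := T_34 (nat_lit 59) (nat_lit 58) (nat_lit 0) (nat_lit 11) (nat_lit 4) L94814 (by decide +kernel)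
theorem L94816 : W_34 (nat_lit 7) (nat_lit 0x200010001000080000000e00070000000000000000000) (nat_lit 0x0) (nat_lit 0x20001000000018000ec00240012000000) := T_34 (nat_lit 79) (nat_lit 80) (nat_lit 1) (nat_lit 12) (nat_lit 4) L94815 (by decide +kernel)
theorem L94817 : W_34 (nat_lit 2) (nat_lit 0x200010001000080000000e00078002c00300001000000) (nat_lit 0x0) (nat_lit 0xc0004000000) := D_34 (nat_lit 43) (nat_lit 42) (nat_lit 26) (nat_lit 1) (nat_lit 11) (nat_lit 2) (nat_lit 4) (nat_lit 10) (nat_lit 5) (by decide +kernel)
theorem L94818 : W_34 (nat_lit 3) (nat_lit 0x200010001000080000000e00078002400300001000000) (nat_lit 0x0) (nat_lit 0x18000c0004000000) := T_34 (nat_lit 59) (nat_lit 60) (nat_lit 2) (nat_lit 7) (nat_lit 3) L94817 (by decide +kernel)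
theorem L94819 : W_34 (nat_lit 4) (nat_lit 0x200010001000080000000e00078002400100001000000) (nat_lit 0x0) (nat_lit 0x18002c0014000000) := T_34 (nat_lit 45) (nat_lit 28) (nat_lit 6) (nat_lit 10) (nat_lit 5) L94818 (by decide +kernel)
theorem L94820 : W_34 (nat_lit 5) (nat_lit 0x200010001000080000000e00078002400100000000000) (nat_lit 0x0) (nat_lit 0x18002e0015000000) := T_34 (nat_lit 24) (nat_lit 41) (nat_lit 7) (nat_lit 7) (nat_lit 1) L94819 (by decide +kernel)
theorem L94821 : W_34 (nat_lit 6) (nat_lit 0x200010001000080000000e00078002400000000000000) (nat_lit 0x0) (nat_lit 0x18003e001d000000) := T_34 (nat_lit 44) (nat_lit 27) (nat_lit 5) (nat_lit 10) (nat_lit 1) L94820 (by decide +kernel)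
theorem L94822 : W_34 (nat_lit 7) (nat_lit 0x200010001000080000000e00078002000000000000000) (nat_lit 0x0) (nat_lit 0x1e003e001d000000) := T_34 (nat_lit 58) (nat_lit 57) (nat_lit 0) (nat_lit 10) (nat_lit 4) L94821 (by decide +kernel)
theorem L94823 : W_34 (nat_lit 8) (nat_lit 0x200010001000080000000e00078000000000000000000) (nat_lit 0x0) (nat_lit 0x7e003e001d000000) := T_34 (nat_lit 61) (nat_lit 62) (nat_lit 2) (nat_lit 7) (nat_lit 4) L94822 (by decide +kernel)
theorem L94824 : W_34 (nat_lit 9) (nat_lit 0x200010001000080000000e00070000000000000000000) (nat_lit 0x0) (nat_lit 0xc007e003e001d000000) := T_34 (nat_lit 75) (nat_lit 74) (nat_lit 3) (nat_lit 6) (nat_lit 4) L94823 (by decide +kernel)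
theorem L94825 : W_34 (nat_lit 2) (nat_lit 0x200010001000080000000e000f4004000200000000000) (nat_lit 0x0) (nat_lit 0x200010000000000002000000000000000) := D_34 (nat_lit 112) (nat_lit 129) (nat_lit 61) (nat_lit 6) (nat_lit 10) (nat_lit 7) (nat_lit 6) (nat_lit 10) (nat_lit 6) (by decide +kernel)
theorem L94826 : W_34 (nat_lit 3) (nat_lit 0x200010001000080000000e000f4004000000000000000) (nat_lit 0x0) (nat_lit 0x200010000000000002000200010000000) := T_34 (nat_lit 45) (nat_lit 28) (nat_lit 5) (nat_lit 11) (nat_lit 1) L94825 (by decide +kernel)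
theorem L94827 : W_34 (nat_lit 4) (nat_lit 0x200010001000080000000e000f4000000000000000000) (nat_lit 0x0) (nat_lit 0x20001000000000000e000200010000000) := T_34 (nat_lit 62) (nat_lit 63) (nat_lit 2) (nat_lit 8) (nat_lit 4) L94826 (by decide +kernel)
theorem L94828 : W_34 (nat_lit 5) (nat_lit 0x200010001000080000000e00074000000000000000000) (nat_lit 0x0) (nat_lit 0x20001000000018000e000200010000000) := T_34 (nat_lit 79) (nat_lit 80) (nat_lit 1) (nat_lit 12) (nat_lit 4) L94827 (by decide +kernel)
theorem L94829 : W_34 (nat_lit 6) (nat_lit 0x200010001000080000000e00070000000000000000000) (nat_lit 0x0) (nat_lit 0x20001000000018c00e000200010000000) := T_34 (nat_lit 74) (nat_lit 75) (nat_lit 3) (nat_lit 6) (nat_lit 4) L94828 (by decide +kernel)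
theorem L94830 : W_34 (nat_lit 2) (nat_lit 0x200010001000080010000e000f4004800040000000000) (nat_lit 0x0) (nat_lit 0x1000080004000000) := D_34 (nat_lit 43) (nat_lit 60) (nat_lit 26) (nat_lit 7) (nat_lit 9) (nat_lit 2) (nat_lit 6) (nat_lit 8) (nat_lit 5) (by decide +kernel)
theorem L94831 : W_34 (nat_lit 3) (nat_lit 0x200010001000080010000e000f4004800000000000000) (nat_lit 0x0) (nat_lit 0x10000c0006000000) := T_34 (nat_lit 42) (nat_lit 25) (nat_lit 7) (nat_lit 8) (nat_lit 1) L94830 (by decide +kernel)
theorem L94832 : W_34 (nat_lit 4) (nat_lit 0x200010001000080000000e000f4004800000000000000) (nat_lit 0x0) (nat_lit 0x2000100000000000010000c0006000000) := T_34 (nat_lit 112) (nat_lit 129) (nat_lit 6) (nat_lit 10) (nat_lit 7) L94831 (by decide +kernel)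
theorem L94833 : W_34 (nat_lit 5) (nat_lit 0x200010001000080000000e000f4004000000000000000) (nat_lit 0x0) (nat_lit 0x200010000000000001c000c0006000000) := T_34 (nat_lit 59) (nat_lit 58) (nat_lit 0) (nat_lit 11) (nat_lit 4) L94832 (by decide +kernel)
theorem L94834 : W_34 (nat_lit 6) (nat_lit 0x200010001000080000000e000f4000000000000000000) (nat_lit 0x0) (nat_lit 0x20001000000000000dc000c0006000000) := T_34 (nat_lit 62) (nat_lit 63) (nat_lit 2) (nat_lit 8) (nat_lit 4) L94833 (by decide +kernel)
theorem L94835 : W_34 (nat_lit 7) (nat_lit 0x200010001000080000000e000f0000000000000000000) (nat_lit 0x0) (nat_lit 0x20001000000000c00dc000c0006000000) := T_34 (nat_lit 74) (nat_lit 75) (nat_lit 3) (nat_lit 6) (nat_lit 4) L94834 (by decide +kernel)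
theorem L94836 : W_34 (nat_lit 8) (nat_lit 0x200010001000080000000e00070000000000000000000) (nat_lit 0x0) (nat_lit 0x20001000000018c00dc000c0006000000) := T_34 (nat_lit 79) (nat_lit 80) (nat_lit 1) (nat_lit 12) (nat_lit 4) L94835 (by decide +kernel)
theorem L94837 : W_34 (nat_lit 2) (nat_lit 0x200010001000080000000e000f40018005e0000000000) (nat_lit 0x0) (nat_lit 0x2000018000000000) := D_34 (nat_lit 40) (nat_lit 61) (nat_lit 39) (nat_lit 3) (nat_lit 6) (nat_lit 2) (nat_lit 3) (nat_lit 5) (nat_lit 2) (by decide +kernel)
theorem L94838 : W_34 (nat_lit 3) (nat_lit 0x200010001000080000000e000f40018005c0000000000) (nat_lit 0x0) (nat_lit 0x2000038001000000) := T_34 (nat_lit 41) (nat_lit 24) (nat_lit 4) (nat_lit 8) (nat_lit 5) L94837 (by decide +kernel)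
theorem L94839 : W_34 (nat_lit 4) (nat_lit 0x200010001000080000000e000f40018001c0000000000) (nat_lit 0x0) (nat_lit 0x2000638001000000) := T_34 (nat_lit 46) (nat_lit 45) (nat_lit 1) (nat_lit 12) (nat_lit 2) L94838 (by decide +kernel)
theorem L94840 : W_34 (nat_lit 5) (nat_lit 0x200010001000080000000e000f40018000c0000000000) (nat_lit 0x0) (nat_lit 0x2000738009000000) := T_34 (nat_lit 44) (nat_lit 27) (nat_lit 6) (nat_lit 9) (nat_lit 5) L94839 (by decide +kernel)
theorem L94841 : W_34 (nat_lit 6) (nat_lit 0x200010001000080000000e000f40008000c0000000000) (nat_lit 0x0) (nat_lit 0x10000000000003000738009000000) := T_34 (nat_lit 60) (nat_lit 112) (nat_lit 7) (nat_lit 9) (nat_lit 2) L94840 (by decide +kernel)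
theorem L94842 : W_34 (nat_lit 7) (nat_lit 0x200010001000080000000e000f4000800040000000000) (nat_lit 0x0) (nat_lit 0x100000000000030007b800d000000) := T_34 (nat_lit 43) (nat_lit 26) (nat_lit 6) (nat_lit 8) (nat_lit 5) L94841 (by decide +kernel)
theorem L94843 : W_34 (nat_lit 8) (nat_lit 0x200010001000080000000e000f4000800000000000000) (nat_lit 0x0) (nat_lit 0x100000000000030007f800f000000) := T_34 (nat_lit 42) (nat_lit 25) (nat_lit 7) (nat_lit 8) (nat_lit 1) L94842 (by decide +kernel)
theorem L94844 : W_34 (nat_lit 9) (nat_lit 0x200010001000080000000e000f4000000000000000000) (nat_lit 0x0) (nat_lit 0x10000000000003c007f800f000000) := T_34 (nat_lit 59) (nat_lit 58) (nat_lit 0) (nat_lit 11) (nat_lit 4) L94843 (by decide +kernel)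
theorem L94845 : W_34 (nat_lit 10) (nat_lit 0x200010001000080000000e000f0000000000000000000) (nat_lit 0x0) (nat_lit 0x1000000000c003c007f800f000000) := T_34 (nat_lit 74) (nat_lit 75) (nat_lit 3) (nat_lit 6) (nat_lit 4) L94844 (by decide +kernel)
theorem L94846 : W_34 (nat_lit 11) (nat_lit 0x200010001000080000000e00070000000000000000000) (nat_lit 0x0) (nat_lit 0x1000000018c003c007f800f000000) := T_34 (nat_lit 79) (nat_lit 80) (nat_lit 1) (nat_lit 12) (nat_lit 4) L94845 (by decide +kernel)
theorem L94847 : W_34 (nat_lit 12) (nat_lit 0x200010001000080000000e00060000000000000000000) (nat_lit 0x0) (nat_lit 0x20001000000019c00fe007f801f000000) := Q_34 (nat_lit 76) (C_34 L94804 (C_34 L94816 (C_34 L94824 (C_34 L94829 (C_34 L94836 (C_34 L94846 N_34)))))) (by decide +kernel)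
theorem L94848 : W_34 (nat_lit 2) (nat_lit 0x200010001000680020001e000e8000000000000000000) (nat_lit 0x0) (nat_lit 0x10000000000005000000000000000) := D_34 (nat_lit 112) (nat_lit 62) (nat_lit 60) (nat_lit 6) (nat_lit 10) (nat_lit 7) (nat_lit 4) (nat_lit 10) (nat_lit 7) (by decide +kernel)
theorem L94849 : W_34 (nat_lit 3) (nat_lit 0x200010001000480020001e000e8000000000000000000) (nat_lit 0x0) (nat_lit 0x4000200010000000000005000000000000000) := T_34 (nat_lit 129) (nat_lit 146) (nat_lit 5) (nat_lit 11) (nat_lit 4) L94848 (by decide +kernel)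
theorem L94850 : W_34 (nat_lit 4) (nat_lit 0x200010001000080020001e000e8000000000000000000) (nat_lit 0x0) (nat_lit 0xc000600010000000000005000000000000000) := T_34 (nat_lit 130) (nat_lit 147) (nat_lit 4) (nat_lit 11) (nat_lit 8) L94849 (by decide +kernel)
theorem L94851 : W_34 (nat_lit 5) (nat_lit 0x200010001000080020001e00068000000000000000000) (nat_lit 0x0) (nat_lit 0xc000600010000000180005000000000000000) := T_34 (nat_lit 79) (nat_lit 80) (nat_lit 2) (nat_lit 8) (nat_lit 5) L94850 (by decide +kernel)
theorem L94852 : W_34 (nat_lit 6) (nat_lit 0x200010001000080020001e00060000000000000000000) (nat_lit 0x0) (nat_lit 0xc000600010000000198005000000000000000) := T_34 (nat_lit 75) (nat_lit 76) (nat_lit 3) (nat_lit 7) (nat_lit 4) L94851 (by decide +kernel)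
theorem L94853 : W_34 (nat_lit 7) (nat_lit 0x200010001000080000001e00060000000000000000000) (nat_lit 0x0) (nat_lit 0xc000600070000000198005000000000000000) := T_34 (nat_lit 113) (nat_lit 114) (nat_lit 3) (nat_lit 8) (nat_lit 5) L94852 (by decide +kernel)
theorem L94854 : W_34 (nat_lit 8) (nat_lit 0x200010001000080000000e00060000000000000000000) (nat_lit 0x0) (nat_lit 0xc000600070007000398005000000000000000) := Q_34 (nat_lit 96) (C_34 L94783 (C_34 L94760 (C_34 L94853 N_34))) (by decide +kernel)
theorem L94855 : W_34 (nat_lit 13) (nat_lit 0x200010001000080000000600060000000000000000000) (nat_lit 0x0) (nat_lit 0xc00060007000780039c00fe007f801f000000) := Q_34 (nat_lit 95) (C_34 L94768 (C_34 L94777 (C_34 L94784 (C_34 L94805 (C_34 L94810 (C_34 L94847 (C_34 L94854 N_34))))))) (by decide +kernel)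
theorem L94856 : W_34 (nat_lit 2) (nat_lit 0x200010001000080012000f00060000000000000000000) (nat_lit 0x0) (nat_lit 0x4000200000000000000001000000000000000) := D_34 (nat_lit 129) (nat_lit 60) (nat_lit 146) (nat_lit 4) (nat_lit 10) (nat_lit 7) (nat_lit 4) (nat_lit 10) (nat_lit 8) (by decide +kernel)
theorem L94857 : W_34 (nat_lit 3) (nat_lit 0x200010001000080002000f00060000000000000000000) (nat_lit 0x0) (nat_lit 0x4000200030000000000001000000000000000) := T_34 (nat_lit 112) (nat_lit 113) (nat_lit 3) (nat_lit 7) (nat_lit 5) L94856 (by decide +kernel)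
theorem L94858 : W_34 (nat_lit 4) (nat_lit 0x200010001000080000000f00060000000000000000000) (nat_lit 0x0) (nat_lit 0x4000200033000000000001000000000000000) := T_34 (nat_lit 109) (nat_lit 108) (nat_lit 1) (nat_lit 10) (nat_lit 5) L94857 (by decide +kernel)
theorem L94859 : W_34 (nat_lit 5) (nat_lit 0x200010001000080000000e00060000000000000000000) (nat_lit 0x0) (nat_lit 0x4000200033000180000001000000000000000) := T_34 (nat_lit 92) (nat_lit 91) (nat_lit 2) (nat_lit 6) (nat_lit 5) L94858 (by decide +kernel)
theorem L94860 : W_34 (nat_lit 2) (nat_lit 0x200010001000080002003f00068000000000000000000) (nat_lit 0x0) (nat_lit 0xe0000000000000000000000000000) := D_34 (nat_lit 114) (nat_lit 113) (nat_lit 115) (nat_lit 3) (nat_lit 8) (nat_lit 5) (nat_lit 3) (nat_lit 9) (nat_lit 5) (by decide +kernel)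
theorem L94861 : W_34 (nat_lit 3) (nat_lit 0x200010001000080002001f00068000000000000000000) (nat_lit 0x0) (nat_lit 0xe0006000000000000000000000000) := T_34 (nat_lit 97) (nat_lit 98) (nat_lit 0) (nat_lit 13) (nat_lit 5) L94860 (by decide +kernel)
theorem L94862 : W_34 (nat_lit 4) (nat_lit 0x200010001000080002000f00068000000000000000000) (nat_lit 0x0) (nat_lit 0xe0007000010000000000000000000) := T_34 (nat_lit 96) (nat_lit 76) (nat_lit 3) (nat_lit 7) (nat_lit 4) L94861 (by decide +kernel)
theorem L94863 : W_34 (nat_lit 5) (nat_lit 0x200010001000080002000f00060000000000000000000) (nat_lit 0x0) (nat_lit 0xe000700001c000000000000000000) := T_34 (nat_lit 75) (nat_lit 74) (nat_lit 0) (nat_lit 10) (nat_lit 5) L94862 (by decide +kernel)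
theorem L94864 : W_34 (nat_lit 6) (nat_lit 0x200010001000080000000f00060000000000000000000) (nat_lit 0x0) (nat_lit 0xe300700001c000000000000000000) := T_34 (nat_lit 109) (nat_lit 108) (nat_lit 1) (nat_lit 10) (nat_lit 5) L94863 (by decide +kernel)
theorem L94865 : W_34 (nat_lit 7) (nat_lit 0x200010001000080000000e00060000000000000000000) (nat_lit 0x0) (nat_lit 0xe300718001c000000000000000000) := T_34 (nat_lit 92) (nat_lit 91) (nat_lit 2) (nat_lit 6) (nat_lit 5) L94864 (by decide +kernel)
theorem L94866 : W_34 (nat_lit 2) (nat_lit 0x200010001000080002000f00078000400040000000000) (nat_lit 0x0) (nat_lit 0x20003000000) := D_34 (nat_lit 41) (nat_lit 25) (nat_lit 24) (nat_lit 6) (nat_lit 7) (nat_lit 5) (nat_lit 7) (nat_lit 7) (nat_lit 1) (by decide +kernel)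
theorem L94867 : W_34 (nat_lit 3) (nat_lit 0x200010001000080002000f00078000400000000000000) (nat_lit 0x0) (nat_lit 0x800060003000000) := T_34 (nat_lit 42) (nat_lit 59) (nat_lit 6) (nat_lit 7) (nat_lit 6) L94866 (by decide +kernel)
theorem L94868 : W_34 (nat_lit 4) (nat_lit 0x200010001000080002000f00078000000000000000000) (nat_lit 0x0) (nat_lit 0xe00060003000000) := T_34 (nat_lit 58) (nat_lit 57) (nat_lit 0) (nat_lit 10) (nat_lit 4) L94867 (by decide +kernel)
theorem L94869 : W_34 (nat_lit 5) (nat_lit 0x200010001000080002000f00068000000000000000000) (nat_lit 0x0) (nat_lit 0x1000010000e00060003000000) := T_34 (nat_lit 76) (nat_lit 96) (nat_lit 3) (nat_lit 7) (nat_lit 4) L94868 (by decide +kernel)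
theorem L94870 : W_34 (nat_lit 6) (nat_lit 0x200010001000080002000f00060000000000000000000) (nat_lit 0x0) (nat_lit 0x100001c000e00060003000000) := T_34 (nat_lit 75) (nat_lit 74) (nat_lit 0) (nat_lit 10) (nat_lit 5) L94869 (by decide +kernel)
theorem L94871 : W_34 (nat_lit 7) (nat_lit 0x200010001000080000000f00060000000000000000000) (nat_lit 0x0) (nat_lit 0x300100001c000e00060003000000) := T_34 (nat_lit 109) (nat_lit 108) (nat_lit 1) (nat_lit 10) (nat_lit 5) L94870 (by decide +kernel)
theorem L94872 : W_34 (nat_lit 8) (nat_lit 0x200010001000080000000e00060000000000000000000) (nat_lit 0x0) (nat_lit 0x300118001c000e00060003000000) := T_34 (nat_lit 92) (nat_lit 91) (nat_lit 2) (nat_lit 6) (nat_lit 5) L94871 (by decide +kernel)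
theorem L94873 : W_34 (nat_lit 9) (nat_lit 0x200010001000080000000600060000000000000000000) (nat_lit 0x0) (nat_lit 0xc0006000f300798001c003e00160003000000) := Q_34 (nat_lit 95) (C_34 L94859 (C_34 L94810 (C_34 L94865 (C_34 L94872 N_34)))) (by decide +kernel)
theorem L94874 : W_34 (nat_lit 14) (nat_lit 0x200010001000080000000600020000000000000000000) (nat_lit 0x0) (nat_lit 0xc0006000f30079803dc00fe007f801f000000) := Q_34 (nat_lit 78) (C_34 L94710 (C_34 L94855 (C_34 L94708 (C_34 L94873 N_34)))) (by decide +kernel)
theorem L94875 : W_34 (nat_lit 2) (nat_lit 0x200010001000080000000600060002000100000000000) (nat_lit 0x0) (nat_lit 0x100008000800000000000000000000000) := D_34 (nat_lit 111) (nat_lit 128) (nat_lit 95) (nat_lit 6) (nat_lit 9) (nat_lit 7) (nat_lit 5) (nat_lit 10) (nat_lit 2) (by decide +kernel)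
theorem L94876 : W_34 (nat_lit 3) (nat_lit 0x200010001000080000000600060002000000000000000) (nat_lit 0x0) (nat_lit 0x100008000800000000000100008000000) := T_34 (nat_lit 44) (nat_lit 27) (nat_lit 5) (nat_lit 10) (nat_lit 1) L94875 (by decide +kernel)
theorem L94877 : W_34 (nat_lit 2) (nat_lit 0x200010001000080008000600060002000000000000000) (nat_lit 0x0) (nat_lit 0x1000100008000000) := D_34 (nat_lit 44) (nat_lit 60) (nat_lit 27) (nat_lit 6) (nat_lit 9) (nat_lit 6) (nat_lit 5) (nat_lit 10) (nat_lit 1) (by decide +kernel)
theorem L94878 : W_34 (nat_lit 3) (nat_lit 0x200010001000080000000600060002000000000000000) (nat_lit 0x0) (nat_lit 0x100008000000000001000100008000000) := T_34 (nat_lit 111) (nat_lit 128) (nat_lit 6) (nat_lit 9) (nat_lit 7) L94877 (by decide +kernel)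
theorem L94879 : W_34 (nat_lit 2) (nat_lit 0x200010001000080000000600078000000000000000000) (nat_lit 0x0) (nat_lit 0x1800004000000000000000000) := D_34 (nat_lit 95) (nat_lit 96) (nat_lit 74) (nat_lit 3) (nat_lit 7) (nat_lit 4) (nat_lit 3) (nat_lit 6) (nat_lit 4) (by decide +kernel)
theorem L94880 : W_34 (nat_lit 2) (nat_lit 0x200010001000080000000680078000000000000000000) (nat_lit 0x0) (nat_lit 0x40006000000000000000000) := D_34 (nat_lit 74) (nat_lit 73) (nat_lit 90) (nat_lit 3) (nat_lit 5) (nat_lit 4) (nat_lit 1) (nat_lit 9) (nat_lit 4) (by decide +kernel)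
theorem L94881 : W_34 (nat_lit 3) (nat_lit 0x200010001000080000000600078000000000000000000) (nat_lit 0x0) (nat_lit 0x1c0006000000000000000000) := T_34 (nat_lit 91) (nat_lit 92) (nat_lit 2) (nat_lit 6) (nat_lit 5) L94880 (by decide +kernel)
theorem L94882 : W_34 (nat_lit 2) (nat_lit 0x200010001000080008000680060001a00180000000000) (nat_lit 0x0) (nat_lit 0x10000800000000000000004000000) := D_34 (nat_lit 95) (nat_lit 26) (nat_lit 112) (nat_lit 7) (nat_lit 9) (nat_lit 1) (nat_lit 7) (nat_lit 9) (nat_lit 2) (by decide +kernel)
theorem L94883 : W_34 (nat_lit 3) (nat_lit 0x200010001000080008000680060001a00100000000000) (nat_lit 0x0) (nat_lit 0x1000080000000000008000c000000) := T_34 (nat_lit 43) (nat_lit 27) (nat_lit 6) (nat_lit 9) (nat_lit 5) L94882 (by decide +kernel)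
theorem L94884 : W_34 (nat_lit 4) (nat_lit 0x200010001000080008000600060001a00100000000000) (nat_lit 0x0) (nat_lit 0x1000098000000000008000c000000) := T_34 (nat_lit 91) (nat_lit 92) (nat_lit 2) (nat_lit 6) (nat_lit 5) L94883 (by decide +kernel)
theorem L94885 : W_34 (nat_lit 5) (nat_lit 0x200010001000080008000600060001a00000000000000) (nat_lit 0x0) (nat_lit 0x1000098000000200018000c000000) := T_34 (nat_lit 44) (nat_lit 61) (nat_lit 6) (nat_lit 9) (nat_lit 6) L94884 (by decide +kernel)
theorem L94886 : W_34 (nat_lit 6) (nat_lit 0x200010001000080008000600060001800000000000000) (nat_lit 0x0) (nat_lit 0x1000098000000260018000c000000) := T_34 (nat_lit 57) (nat_lit 58) (nat_lit 3) (nat_lit 6) (nat_lit 3) L94885 (by decide +kernel)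
theorem L94887 : W_34 (nat_lit 7) (nat_lit 0x200010001000080008000600060001000000000000000) (nat_lit 0x0) (nat_lit 0x10000980000002e001c000c000000) := T_34 (nat_lit 59) (nat_lit 42) (nat_lit 4) (nat_lit 9) (nat_lit 6) L94886 (by decide +kernel)
theorem L94888 : W_34 (nat_lit 8) (nat_lit 0x200010001000080000000600060001000000000000000) (nat_lit 0x0) (nat_lit 0x100018000980000002e001c000c000000) := T_34 (nat_lit 111) (nat_lit 128) (nat_lit 5) (nat_lit 9) (nat_lit 4) L94887 (by decide +kernel)
theorem L94889 : W_34 (nat_lit 2) (nat_lit 0x200010001000080000000600060001000080000000000) (nat_lit 0x0) (nat_lit 0x800010000000000004000000) := D_34 (nat_lit 26) (nat_lit 76) (nat_lit 95) (nat_lit 5) (nat_lit 9) (nat_lit 1) (nat_lit 7) (nat_lit 9) (nat_lit 1) (by decide +kernel)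
theorem L94890 : W_34 (nat_lit 2) (nat_lit 0x200010001000080000000600060001000080000000000) (nat_lit 0x0) (nat_lit 0x10000800000000000000004000000) := D_34 (nat_lit 95) (nat_lit 112) (nat_lit 26) (nat_lit 7) (nat_lit 9) (nat_lit 2) (nat_lit 7) (nat_lit 9) (nat_lit 1) (by decide +kernel)
theorem L94891 : W_34 (nat_lit 2) (nat_lit 0x200010001000080000000680060001000180004000000) (nat_lit 0x0) (nat_lit 0x40002000100) := D_34 (nat_lit 25) (nat_lit 8) (nat_lit 42) (nat_lit 4) (nat_lit 9) (nat_lit 4) (nat_lit 4) (nat_lit 9) (nat_lit 5) (by decide +kernel)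
theorem L94892 : W_34 (nat_lit 3) (nat_lit 0x200010001000080000000680060001000180000000000) (nat_lit 0x0) (nat_lit 0x10000000040006000100) := T_34 (nat_lit 26) (nat_lit 76) (nat_lit 5) (nat_lit 9) (nat_lit 1) L94891 (by decide +kernel)
theorem L94893 : W_34 (nat_lit 4) (nat_lit 0x200010001000080000000680060001000080000000000) (nat_lit 0x0) (nat_lit 0x1000000014000e000100) := T_34 (nat_lit 44) (nat_lit 27) (nat_lit 6) (nat_lit 9) (nat_lit 5) L94892 (by decide +kernel)
theorem L94894 : W_34 (nat_lit 5) (nat_lit 0x200010001000080000000600060001000080000000000) (nat_lit 0x0) (nat_lit 0x18001000000014000e000100) := T_34 (nat_lit 91) (nat_lit 92) (nat_lit 2) (nat_lit 6) (nat_lit 5) L94893 (by decide +kernel)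
theorem L94895 : W_34 (nat_lit 2) (nat_lit 0x200010001000080002000f00078001000180000000000) (nat_lit 0x0) (nat_lit 0x800040002000000) := D_34 (nat_lit 42) (nat_lit 25) (nat_lit 59) (nat_lit 4) (nat_lit 9) (nat_lit 5) (nat_lit 5) (nat_lit 8) (nat_lit 2) (by decide +kernel)
theorem L94896 : W_34 (nat_lit 3) (nat_lit 0x200010001000080002000f00068001000180000000000) (nat_lit 0x0) (nat_lit 0x1000010000800040002000000) := T_34 (nat_lit 76) (nat_lit 96) (nat_lit 3) (nat_lit 7) (nat_lit 4) L94895 (by decide +kernel)
theorem L94897 : W_34 (nat_lit 4) (nat_lit 0x200010001000080000000f00068001000180000000000) (nat_lit 0x0) (nat_lit 0x3001000010000800040002000000) := T_34 (nat_lit 109) (nat_lit 108) (nat_lit 1) (nat_lit 10) (nat_lit 5) L94896 (by decide +kernel)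
theorem L94898 : W_34 (nat_lit 5) (nat_lit 0x200010001000080000000f00060001000180000000000) (nat_lit 0x0) (nat_lit 0x300100001c000800040002000000) := T_34 (nat_lit 75) (nat_lit 74) (nat_lit 0) (nat_lit 10) (nat_lit 5) L94897 (by decide +kernel)
theorem L94899 : W_34 (nat_lit 6) (nat_lit 0x200010001000080000000f00060001000080000000000) (nat_lit 0x0) (nat_lit 0x300100001c00080014000a000000) := T_34 (nat_lit 44) (nat_lit 27) (nat_lit 6) (nat_lit 9) (nat_lit 5) L94898 (by decide +kernel)
theorem L94900 : W_34 (nat_lit 7) (nat_lit 0x200010001000080000000e00060001000080000000000) (nat_lit 0x0) (nat_lit 0x300118001c00080014000a000000) := T_34 (nat_lit 92) (nat_lit 91) (nat_lit 2) (nat_lit 6) (nat_lit 5) L94899 (by decide +kernel)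
theorem L94901 : W_34 (nat_lit 8) (nat_lit 0x200010001000080000000600060001000080000000000) (nat_lit 0x0) (nat_lit 0x1300198001c00080014000a000000) := T_34 (nat_lit 95) (nat_lit 112) (nat_lit 7) (nat_lit 9) (nat_lit 2) L94900 (by decide +kernel)
theorem L94902 : W_34 (nat_lit 9) (nat_lit 0x200010001000080000000600060001000000000000000) (nat_lit 0x0) (nat_lit 0x1300198001c0008001c000e000100) := Q_34 (nat_lit 43) (C_34 L94889 (C_34 L94890 (C_34 L94894 (C_34 L94901 N_34)))) (by decide +kernel)
theorem L94903 : W_34 (nat_lit 2) (nat_lit 0x200010001000080008000680060001a00180000000000) (nat_lit 0x0) (nat_lit 0x800010000000000004000000) := D_34 (nat_lit 26) (nat_lit 76) (nat_lit 95) (nat_lit 5) (nat_lit 9) (nat_lit 1) (nat_lit 7) (nat_lit 9) (nat_lit 1) (by decide +kernel)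
theorem L94904 : W_34 (nat_lit 3) (nat_lit 0x200010001000080008000680060001a00100000000000) (nat_lit 0x0) (nat_lit 0x80001000000008000c000000) := T_34 (nat_lit 43) (nat_lit 27) (nat_lit 6) (nat_lit 9) (nat_lit 5) L94903 (by decide +kernel)
theorem L94905 : W_34 (nat_lit 4) (nat_lit 0x200010001000080008000680060001a00000000000000) (nat_lit 0x0) (nat_lit 0x80001000200018000c000000) := T_34 (nat_lit 44) (nat_lit 61) (nat_lit 6) (nat_lit 9) (nat_lit 6) L94904 (by decide +kernel)
theorem L94906 : W_34 (nat_lit 5) (nat_lit 0x200010001000080008000680060001800000000000000) (nat_lit 0x0) (nat_lit 0x80001000260018000c000000) := T_34 (nat_lit 57) (nat_lit 58) (nat_lit 3) (nat_lit 6) (nat_lit 3) L94905 (by decide +kernel)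
theorem L94907 : W_34 (nat_lit 6) (nat_lit 0x200010001000080008000680060001000000000000000) (nat_lit 0x0) (nat_lit 0x800010002e001c000c000000) := T_34 (nat_lit 59) (nat_lit 42) (nat_lit 4) (nat_lit 9) (nat_lit 6) L94906 (by decide +kernel)
theorem L94908 : W_34 (nat_lit 7) (nat_lit 0x200010001000080000000680060001000000000000000) (nat_lit 0x0) (nat_lit 0x100008000800010002e001c000c000000) := T_34 (nat_lit 111) (nat_lit 128) (nat_lit 5) (nat_lit 9) (nat_lit 4) L94907 (by decide +kernel)
theorem L94909 : W_34 (nat_lit 8) (nat_lit 0x200010001000080000000600060001000000000000000) (nat_lit 0x0) (nat_lit 0x100008000980010002e001c000c000000) := T_34 (nat_lit 91) (nat_lit 92) (nat_lit 2) (nat_lit 6) (nat_lit 5) L94908 (by decide +kernel)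
theorem L94910 : W_34 (nat_lit 2) (nat_lit 0x200010001000080008000600060001a00180000000000) (nat_lit 0x0) (nat_lit 0x800010000000000004000000) := D_34 (nat_lit 26) (nat_lit 76) (nat_lit 95) (nat_lit 5) (nat_lit 9) (nat_lit 1) (nat_lit 7) (nat_lit 9) (nat_lit 1) (by decide +kernel)
theorem L94911 : W_34 (nat_lit 3) (nat_lit 0x200010001000080008000600060001a00100000000000) (nat_lit 0x0) (nat_lit 0x80001000000008000c000000) := T_34 (nat_lit 43) (nat_lit 27) (nat_lit 6) (nat_lit 9) (nat_lit 5) L94910 (by decide +kernel)
theorem L94912 : W_34 (nat_lit 4) (nat_lit 0x200010001000080008000600060001a00000000000000) (nat_lit 0x0) (nat_lit 0x80001000200018000c000000) := T_34 (nat_lit 44) (nat_lit 61) (nat_lit 6) (nat_lit 9) (nat_lit 6) L94911 (by decide +kernel)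
theorem L94913 : W_34 (nat_lit 5) (nat_lit 0x200010001000080008000600060001800000000000000) (nat_lit 0x0) (nat_lit 0x80001000260018000c000000) := T_34 (nat_lit 57) (nat_lit 58) (nat_lit 3) (nat_lit 6) (nat_lit 3) L94912 (by decide +kernel)
theorem L94914 : W_34 (nat_lit 6) (nat_lit 0x200010001000080008000600060001000000000000000) (nat_lit 0x0) (nat_lit 0x800010002e001c000c000000) := T_34 (nat_lit 59) (nat_lit 42) (nat_lit 4) (nat_lit 9) (nat_lit 6) L94913 (by decide +kernel)
theorem L94915 : W_34 (nat_lit 7) (nat_lit 0x200010001000080000000600060001000000000000000) (nat_lit 0x0) (nat_lit 0x100008000800010002e001c000c000000) := T_34 (nat_lit 111) (nat_lit 128) (nat_lit 5) (nat_lit 9) (nat_lit 4) L94914 (by decide +kernel)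
theorem L94916 : W_34 (nat_lit 2) (nat_lit 0x200010001000080008000600068003c00020000000000) (nat_lit 0x0) (nat_lit 0x10004000000001000000) := D_34 (nat_lit 76) (nat_lit 62) (nat_lit 24) (nat_lit 2) (nat_lit 7) (nat_lit 4) (nat_lit 7) (nat_lit 7) (nat_lit 1) (by decide +kernel)
theorem L94917 : W_34 (nat_lit 3) (nat_lit 0x200010001000080008000600068003c00000000000000) (nat_lit 0x0) (nat_lit 0x10004000030001000000) := T_34 (nat_lit 41) (nat_lit 40) (nat_lit 0) (nat_lit 10) (nat_lit 3) L94916 (by decide +kernel)
theorem L94918 : W_34 (nat_lit 4) (nat_lit 0x200010001000080008000600060003c00000000000000) (nat_lit 0x0) (nat_lit 0x1c004000030001000000) := T_34 (nat_lit 75) (nat_lit 74) (nat_lit 1) (nat_lit 10) (nat_lit 3) L94917 (by decide +kernel)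
theorem L94919 : W_34 (nat_lit 5) (nat_lit 0x200010001000080008000600060001c00000000000000) (nat_lit 0x0) (nat_lit 0x1c006000130001000000) := T_34 (nat_lit 61) (nat_lit 44) (nat_lit 6) (nat_lit 9) (nat_lit 6) L94918 (by decide +kernel)
theorem L94920 : W_34 (nat_lit 6) (nat_lit 0x200010001000080008000600060001800000000000000) (nat_lit 0x0) (nat_lit 0x1c006600130001000000) := T_34 (nat_lit 58) (nat_lit 57) (nat_lit 3) (nat_lit 6) (nat_lit 3) L94919 (by decide +kernel)
theorem L94921 : W_34 (nat_lit 7) (nat_lit 0x200010001000080008000600060001000000000000000) (nat_lit 0x0) (nat_lit 0x1c006e00170001000000) := T_34 (nat_lit 59) (nat_lit 42) (nat_lit 4) (nat_lit 9) (nat_lit 6) L94920 (by decide +kernel)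
theorem L94922 : W_34 (nat_lit 8) (nat_lit 0x200010001000080000000600060001000000000000000) (nat_lit 0x0) (nat_lit 0x10000800000001c006e00170001000000) := T_34 (nat_lit 111) (nat_lit 128) (nat_lit 5) (nat_lit 9) (nat_lit 4) L94921 (by decide +kernel)
theorem L94923 : W_34 (nat_lit 2) (nat_lit 0x200010001000080008000680060001000180000000000) (nat_lit 0x0) (nat_lit 0x800010000000000004000000) := D_34 (nat_lit 26) (nat_lit 76) (nat_lit 95) (nat_lit 5) (nat_lit 9) (nat_lit 1) (nat_lit 7) (nat_lit 9) (nat_lit 1) (by decide +kernel)
theorem L94924 : W_34 (nat_lit 3) (nat_lit 0x200010001000080008000680060001000100000000000) (nat_lit 0x0) (nat_lit 0x80001000000008000c000000) := T_34 (nat_lit 43) (nat_lit 27) (nat_lit 6) (nat_lit 9) (nat_lit 5) L94923 (by decide +kernel)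
theorem L94925 : W_34 (nat_lit 4) (nat_lit 0x200010001000080008000680060001000000000000000) (nat_lit 0x0) (nat_lit 0x80001000200018000c000000) := T_34 (nat_lit 44) (nat_lit 61) (nat_lit 6) (nat_lit 9) (nat_lit 6) L94924 (by decide +kernel)
theorem L94926 : W_34 (nat_lit 5) (nat_lit 0x200010001000080000000680060001000000000000000) (nat_lit 0x0) (nat_lit 0x10000800080001000200018000c000000) := T_34 (nat_lit 111) (nat_lit 128) (nat_lit 5) (nat_lit 9) (nat_lit 4) L94925 (by decide +kernel)
theorem L94927 : W_34 (nat_lit 6) (nat_lit 0x200010001000080000000600060001000000000000000) (nat_lit 0x0) (nat_lit 0x10000800098001000200018000c000000) := T_34 (nat_lit 91) (nat_lit 92) (nat_lit 2) (nat_lit 6) (nat_lit 5) L94926 (by decide +kernel)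
theorem L94928 : W_34 (nat_lit 2) (nat_lit 0x2000100010000800080006000600010000c0000000000) (nat_lit 0x0) (nat_lit 0x800010000000000004000000) := D_34 (nat_lit 26) (nat_lit 76) (nat_lit 95) (nat_lit 5) (nat_lit 9) (nat_lit 1) (nat_lit 7) (nat_lit 9) (nat_lit 1) (by decide +kernel)
theorem L94929 : W_34 (nat_lit 3) (nat_lit 0x200010001000080008000600060001000040000000000) (nat_lit 0x0) (nat_lit 0x800010000000080006000000) := T_34 (nat_lit 43) (nat_lit 25) (nat_lit 4) (nat_lit 9) (nat_lit 5) L94928 (by decide +kernel)
theorem L94930 : W_34 (nat_lit 4) (nat_lit 0x200010001000080008000600060001000000000000000) (nat_lit 0x0) (nat_lit 0x8000100008000c0006000000) := T_34 (nat_lit 42) (nat_lit 59) (nat_lit 4) (nat_lit 9) (nat_lit 6) L94929 (by decide +kernel)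
theorem L94931 : W_34 (nat_lit 5) (nat_lit 0x200010001000080000000600060001000000000000000) (nat_lit 0x0) (nat_lit 0x1000080008000100008000c0006000000) := T_34 (nat_lit 111) (nat_lit 128) (nat_lit 5) (nat_lit 9) (nat_lit 4) L94930 (by decide +kernel)
theorem L94932 : W_34 (nat_lit 10) (nat_lit 0x200010001000080000000600060000000000000000000) (nat_lit 0x0) (nat_lit 0x10001b00198001c007e001f000f000100) := Q_34 (nat_lit 60) (C_34 L94888 (C_34 L94902 (C_34 L94909 (C_34 L94915 (C_34 L94922 (C_34 L94927 (C_34 L94931 N_34))))))) (by decide +kernel)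
theorem L94933 : W_34 (nat_lit 2) (nat_lit 0x200010001000080008000600160001a00180000000000) (nat_lit 0x0) (nat_lit 0x10000800000000000000004000000) := D_34 (nat_lit 95) (nat_lit 26) (nat_lit 112) (nat_lit 7) (nat_lit 9) (nat_lit 1) (nat_lit 7) (nat_lit 9) (nat_lit 2) (by decide +kernel)
theorem L94934 : W_34 (nat_lit 3) (nat_lit 0x200010001000080008000600160001a00100000000000) (nat_lit 0x0) (nat_lit 0x1000080000000000008000c000000) := T_34 (nat_lit 43) (nat_lit 27) (nat_lit 6) (nat_lit 9) (nat_lit 5) L94933 (by decide +kernel)
theorem L94935 : W_34 (nat_lit 4) (nat_lit 0x200010001000080008000600160001a00000000000000) (nat_lit 0x0) (nat_lit 0x1000080000000200018000c000000) := T_34 (nat_lit 44) (nat_lit 61) (nat_lit 6) (nat_lit 9) (nat_lit 6) L94934 (by decide +kernel)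
theorem L94936 : W_34 (nat_lit 5) (nat_lit 0x200010001000080008000600160001800000000000000) (nat_lit 0x0) (nat_lit 0x1000080000000260018000c000000) := T_34 (nat_lit 57) (nat_lit 58) (nat_lit 3) (nat_lit 6) (nat_lit 3) L94935 (by decide +kernel)
theorem L94937 : W_34 (nat_lit 6) (nat_lit 0x200010001000080008000600160000800000000000000) (nat_lit 0x0) (nat_lit 0x100008000000036001c000c000000) := T_34 (nat_lit 60) (nat_lit 42) (nat_lit 4) (nat_lit 9) (nat_lit 6) L94936 (by decide +kernel)
theorem L94938 : W_34 (nat_lit 7) (nat_lit 0x200010001000080000000600160000800000000000000) (nat_lit 0x0) (nat_lit 0x1000180008000000036001c000c000000) := T_34 (nat_lit 111) (nat_lit 128) (nat_lit 5) (nat_lit 9) (nat_lit 4) L94937 (by decide +kernel)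
theorem L94939 : W_34 (nat_lit 8) (nat_lit 0x200010001000080000000600060000800000000000000) (nat_lit 0x0) (nat_lit 0x1000180008001800036001c000c000000) := T_34 (nat_lit 80) (nat_lit 79) (nat_lit 1) (nat_lit 12) (nat_lit 4) L94938 (by decide +kernel)
theorem L94940 : W_34 (nat_lit 9) (nat_lit 0x200010001000080000000600060000000000000000000) (nat_lit 0x0) (nat_lit 0x10001800180019c00fe001c000c000000) := Q_34 (nat_lit 59) (C_34 L94939 (C_34 L94717 (C_34 L94712 N_34))) (by decide +kernel)
theorem L94941 : W_34 (nat_lit 11) (nat_lit 0x200010001000080000000600020000000000000000000) (nat_lit 0x0) (nat_lit 0x10001b0019801dc00fe001f000f000100) := Q_34 (nat_lit 78) (C_34 L94932 (C_34 L94710 (C_34 L94940 (C_34 L94708 N_34)))) (by decide +kernel)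
theorem L94942 : W_34 (nat_lit 2) (nat_lit 0x200010001000080008000600060001c00000000000000) (nat_lit 0x0) (nat_lit 0x80002000100000000000) := D_34 (nat_lit 61) (nat_lit 44) (nat_lit 79) (nat_lit 6) (nat_lit 9) (nat_lit 6) (nat_lit 3) (nat_lit 7) (nat_lit 3) (by decide +kernel)
theorem L94943 : W_34 (nat_lit 3) (nat_lit 0x200010001000080008000600060001800000000000000) (nat_lit 0x0) (nat_lit 0x80002600100000000000) := T_34 (nat_lit 58) (nat_lit 57) (nat_lit 3) (nat_lit 6) (nat_lit 3) L94942 (by decide +kernel)
theorem L94944 : W_34 (nat_lit 4) (nat_lit 0x200010001000080008000600060000800000000000000) (nat_lit 0x0) (nat_lit 0x80003600140000000000) := T_34 (nat_lit 60) (nat_lit 42) (nat_lit 4) (nat_lit 9) (nat_lit 6) L94943 (by decide +kernel)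
theorem L94945 : W_34 (nat_lit 5) (nat_lit 0x200010001000080000000600060000800000000000000) (nat_lit 0x0) (nat_lit 0x100008000000080003600140000000000) := T_34 (nat_lit 111) (nat_lit 128) (nat_lit 5) (nat_lit 9) (nat_lit 4) L94944 (by decide +kernel)
theorem L94946 : W_34 (nat_lit 7) (nat_lit 0x200010001000080000000600060000000000000000000) (nat_lit 0x0) (nat_lit 0x10000800180019c00fe00140000000000) := Q_34 (nat_lit 59) (C_34 L94945 (C_34 L94717 (C_34 L94712 N_34))) (by decide +kernel)
theorem L94947 : W_34 (nat_lit 2) (nat_lit 0x200010001000080002000f00078002400040008000000) (nat_lit 0x0) (nat_lit 0x20003000000) := D_34 (nat_lit 41) (nat_lit 24) (nat_lit 25) (nat_lit 7) (nat_lit 7) (nat_lit 1) (nat_lit 6) (nat_lit 7) (nat_lit 5) (by decide +kernel)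
theorem L94948 : W_34 (nat_lit 3) (nat_lit 0x200010001000080002000f00078002000040008000000) (nat_lit 0x0) (nat_lit 0x600020003000000) := T_34 (nat_lit 58) (nat_lit 57) (nat_lit 0) (nat_lit 10) (nat_lit 4) L94947 (by decide +kernel)
theorem L94949 : W_34 (nat_lit 4) (nat_lit 0x200010001000080002000f00078002000000008000000) (nat_lit 0x0) (nat_lit 0xe00060003000000) := T_34 (nat_lit 42) (nat_lit 59) (nat_lit 5) (nat_lit 8) (nat_lit 2) L94948 (by decide +kernel)
theorem L94950 : W_34 (nat_lit 5) (nat_lit 0x200010001000080002000f00078002000000000000000) (nat_lit 0x0) (nat_lit 0xe0016000b000000) := T_34 (nat_lit 27) (nat_lit 44) (nat_lit 5) (nat_lit 10) (nat_lit 1) L94949 (by decide +kernel)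
theorem L94951 : W_34 (nat_lit 6) (nat_lit 0x200010001000080000000f00078002000000000000000) (nat_lit 0x0) (nat_lit 0x3000000000000e0016000b000000) := T_34 (nat_lit 109) (nat_lit 108) (nat_lit 1) (nat_lit 10) (nat_lit 5) L94950 (by decide +kernel)
theorem L94952 : W_34 (nat_lit 7) (nat_lit 0x200010001000080000000700078002000000000000000) (nat_lit 0x0) (nat_lit 0x3001800000000e0016000b000000) := T_34 (nat_lit 95) (nat_lit 96) (nat_lit 3) (nat_lit 7) (nat_lit 4) L94951 (by decide +kernel)
theorem L94953 : W_34 (nat_lit 8) (nat_lit 0x200010001000080000000700078000000000000000000) (nat_lit 0x0) (nat_lit 0x3001800000006e0016000b000000) := T_34 (nat_lit 61) (nat_lit 62) (nat_lit 2) (nat_lit 7) (nat_lit 4) L94952 (by decide +kernel)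
theorem L94954 : W_34 (nat_lit 9) (nat_lit 0x200010001000080000000600078000000000000000000) (nat_lit 0x0) (nat_lit 0x3001980000006e0016000b000000) := T_34 (nat_lit 92) (nat_lit 91) (nat_lit 2) (nat_lit 6) (nat_lit 5) L94953 (by decide +kernel)
theorem L94955 : W_34 (nat_lit 2) (nat_lit 0x200010001000080000000680078002000000000000000) (nat_lit 0x0) (nat_lit 0x40006000000000000000000) := D_34 (nat_lit 74) (nat_lit 90) (nat_lit 73) (nat_lit 1) (nat_lit 9) (nat_lit 4) (nat_lit 3) (nat_lit 5) (nat_lit 4) (by decide +kernel)
theorem L94956 : W_34 (nat_lit 3) (nat_lit 0x200010001000080000000680070002000000000000000) (nat_lit 0x0) (nat_lit 0x4000e004000000000000000) := T_34 (nat_lit 75) (nat_lit 62) (nat_lit 2) (nat_lit 7) (nat_lit 4) L94955 (by decide +kernel)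
theorem L94957 : W_34 (nat_lit 4) (nat_lit 0x200010001000080000000600070002000000000000000) (nat_lit 0x0) (nat_lit 0x1c000e004000000000000000) := T_34 (nat_lit 91) (nat_lit 92) (nat_lit 2) (nat_lit 6) (nat_lit 5) L94956 (by decide +kernel)
theorem L94958 : W_34 (nat_lit 2) (nat_lit 0x200010001000080008000600068001c00000000000000) (nat_lit 0x0) (nat_lit 0x4002000100000000000) := D_34 (nat_lit 61) (nat_lit 44) (nat_lit 74) (nat_lit 6) (nat_lit 9) (nat_lit 6) (nat_lit 1) (nat_lit 10) (nat_lit 3) (by decide +kernel)
theorem L94959 : W_34 (nat_lit 3) (nat_lit 0x200010001000080008000600068001800000000000000) (nat_lit 0x0) (nat_lit 0x4002600100000000000) := T_34 (nat_lit 58) (nat_lit 57) (nat_lit 3) (nat_lit 6) (nat_lit 3) L94958 (by decide +kernel)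
theorem L94960 : W_34 (nat_lit 4) (nat_lit 0x200010001000080008000600068001000000000000000) (nat_lit 0x0) (nat_lit 0x4002e00140000000000) := T_34 (nat_lit 59) (nat_lit 42) (nat_lit 4) (nat_lit 9) (nat_lit 6) L94959 (by decide +kernel)
theorem L94961 : W_34 (nat_lit 5) (nat_lit 0x200010001000080000000600068001000000000000000) (nat_lit 0x0) (nat_lit 0x100008000000004002e00140000000000) := T_34 (nat_lit 111) (nat_lit 128) (nat_lit 5) (nat_lit 9) (nat_lit 4) L94960 (by decide +kernel)
theorem L94962 : W_34 (nat_lit 2) (nat_lit 0x200010001000080002000f000680014001c0000000000) (nat_lit 0x0) (nat_lit 0x200030000000000) := D_34 (nat_lit 57) (nat_lit 40) (nat_lit 41) (nat_lit 4) (nat_lit 7) (nat_lit 6) (nat_lit 1) (nat_lit 10) (nat_lit 2) (by decide +kernel)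
theorem L94963 : W_34 (nat_lit 3) (nat_lit 0x200010001000080002000f000680010001c0000000000) (nat_lit 0x0) (nat_lit 0xe00030000000000) := T_34 (nat_lit 58) (nat_lit 59) (nat_lit 6) (nat_lit 7) (nat_lit 6) L94962 (by decide +kernel)
theorem L94964 : W_34 (nat_lit 4) (nat_lit 0x200010001000080002000f00068001000180000000000) (nat_lit 0x0) (nat_lit 0xe00070002000000) := T_34 (nat_lit 42) (nat_lit 25) (nat_lit 4) (nat_lit 9) (nat_lit 5) L94963 (by decide +kernel)
theorem L94965 : W_34 (nat_lit 5) (nat_lit 0x200010001000080002000f00068001000080000000000) (nat_lit 0x0) (nat_lit 0xe0017000a000000) := T_34 (nat_lit 44) (nat_lit 27) (nat_lit 6) (nat_lit 9) (nat_lit 5) L94964 (by decide +kernel)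
theorem L94966 : W_34 (nat_lit 6) (nat_lit 0x200010001000080002000f00068001000000000000000) (nat_lit 0x0) (nat_lit 0xe001f000e000000) := T_34 (nat_lit 43) (nat_lit 26) (nat_lit 7) (nat_lit 9) (nat_lit 1) L94965 (by decide +kernel)
theorem L94967 : W_34 (nat_lit 7) (nat_lit 0x200010001000080000000f00068001000000000000000) (nat_lit 0x0) (nat_lit 0x3000000000000e001f000e000000) := T_34 (nat_lit 109) (nat_lit 108) (nat_lit 1) (nat_lit 10) (nat_lit 5) L94966 (by decide +kernel)
theorem L94968 : W_34 (nat_lit 8) (nat_lit 0x200010001000080000000700068001000000000000000) (nat_lit 0x0) (nat_lit 0x3000800004000e001f000e000000) := T_34 (nat_lit 95) (nat_lit 74) (nat_lit 0) (nat_lit 10) (nat_lit 5) L94967 (by decide +kernel)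
theorem L94969 : W_34 (nat_lit 9) (nat_lit 0x200010001000080000000600068001000000000000000) (nat_lit 0x0) (nat_lit 0x3000980004000e001f000e000000) := T_34 (nat_lit 92) (nat_lit 91) (nat_lit 2) (nat_lit 6) (nat_lit 5) L94968 (by decide +kernel)
theorem L94970 : W_34 (nat_lit 2) (nat_lit 0x200010001000080008000680068001000180002000000) (nat_lit 0x0) (nat_lit 0x800000000000000004000100) := D_34 (nat_lit 26) (nat_lit 95) (nat_lit 8) (nat_lit 7) (nat_lit 9) (nat_lit 1) (nat_lit 4) (nat_lit 9) (nat_lit 4) (by decide +kernel)
theorem L94971 : W_34 (nat_lit 3) (nat_lit 0x200010001000080008000680068001000180000000000) (nat_lit 0x0) (nat_lit 0x800000000000040006000100) := T_34 (nat_lit 25) (nat_lit 42) (nat_lit 4) (nat_lit 9) (nat_lit 5) L94970 (by decide +kernel)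
theorem L94972 : W_34 (nat_lit 4) (nat_lit 0x200010001000080008000680068001000100000000000) (nat_lit 0x0) (nat_lit 0x8000000000000c000e000100) := T_34 (nat_lit 43) (nat_lit 27) (nat_lit 6) (nat_lit 9) (nat_lit 5) L94971 (by decide +kernel)
theorem L94973 : W_34 (nat_lit 5) (nat_lit 0x200010001000080008000680068001000000000000000) (nat_lit 0x0) (nat_lit 0x8000000020001c000e000100) := T_34 (nat_lit 44) (nat_lit 61) (nat_lit 6) (nat_lit 9) (nat_lit 6) L94972 (by decide +kernel)
theorem L94974 : W_34 (nat_lit 6) (nat_lit 0x200010001000080000000680068001000000000000000) (nat_lit 0x0) (nat_lit 0x1000080008000000020001c000e000100) := T_34 (nat_lit 111) (nat_lit 128) (nat_lit 5) (nat_lit 9) (nat_lit 4) L94973 (by decide +kernel)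
theorem L94975 : W_34 (nat_lit 7) (nat_lit 0x200010001000080000000600068001000000000000000) (nat_lit 0x0) (nat_lit 0x1000080009800000020001c000e000100) := T_34 (nat_lit 91) (nat_lit 92) (nat_lit 2) (nat_lit 6) (nat_lit 5) L94974 (by decide +kernel)
theorem L94976 : W_34 (nat_lit 2) (nat_lit 0x200010001000080008000f00068001000100000000000) (nat_lit 0x0) (nat_lit 0x8000c000000) := D_34 (nat_lit 43) (nat_lit 27) (nat_lit 26) (nat_lit 6) (nat_lit 9) (nat_lit 5) (nat_lit 7) (nat_lit 9) (nat_lit 1) (by decide +kernel)
theorem L94977 : W_34 (nat_lit 3) (nat_lit 0x200010001000080008000700068001000100000000000) (nat_lit 0x0) (nat_lit 0x80000400000008000c000000) := T_34 (nat_lit 95) (nat_lit 74) (nat_lit 0) (nat_lit 10) (nat_lit 5) L94976 (by decide +kernel)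
theorem L94978 : W_34 (nat_lit 4) (nat_lit 0x200010001000080008000700068001000000000000000) (nat_lit 0x0) (nat_lit 0x80000400200018000c000000) := T_34 (nat_lit 44) (nat_lit 61) (nat_lit 6) (nat_lit 9) (nat_lit 6) L94977 (by decide +kernel)
theorem L94979 : W_34 (nat_lit 5) (nat_lit 0x200010001000080008000600068001000000000000000) (nat_lit 0x0) (nat_lit 0x98000400200018000c000000) := T_34 (nat_lit 92) (nat_lit 91) (nat_lit 2) (nat_lit 6) (nat_lit 5) L94978 (by decide +kernel)
theorem L94980 : W_34 (nat_lit 6) (nat_lit 0x200010001000080000000600068001000000000000000) (nat_lit 0x0) (nat_lit 0x10000800098000400200018000c000000) := T_34 (nat_lit 111) (nat_lit 128) (nat_lit 5) (nat_lit 9) (nat_lit 4) L94979 (by decide +kernel)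
theorem L94981 : W_34 (nat_lit 2) (nat_lit 0x200010001000080008000700068001c00000000000000) (nat_lit 0x0) (nat_lit 0x800004002000000000000000) := D_34 (nat_lit 74) (nat_lit 61) (nat_lit 95) (nat_lit 1) (nat_lit 10) (nat_lit 3) (nat_lit 0) (nat_lit 10) (nat_lit 5) (by decide +kernel)
theorem L94982 : W_34 (nat_lit 3) (nat_lit 0x200010001000080008000600068001c00000000000000) (nat_lit 0x0) (nat_lit 0x980004002000000000000000) := T_34 (nat_lit 92) (nat_lit 91) (nat_lit 2) (nat_lit 6) (nat_lit 5) L94981 (by decide +kernel)
theorem L94983 : W_34 (nat_lit 4) (nat_lit 0x200010001000080008000600068001800000000000000) (nat_lit 0x0) (nat_lit 0x980004002600000000000000) := T_34 (nat_lit 58) (nat_lit 57) (nat_lit 3) (nat_lit 6) (nat_lit 3) L94982 (by decide +kernel)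
theorem L94984 : W_34 (nat_lit 5) (nat_lit 0x200010001000080008000600068001000000000000000) (nat_lit 0x0) (nat_lit 0x980004002e00040000000000) := T_34 (nat_lit 59) (nat_lit 42) (nat_lit 4) (nat_lit 9) (nat_lit 6) L94983 (by decide +kernel)
theorem L94985 : W_34 (nat_lit 6) (nat_lit 0x200010001000080000000600068001000000000000000) (nat_lit 0x0) (nat_lit 0x100008000980004002e00040000000000) := T_34 (nat_lit 111) (nat_lit 128) (nat_lit 5) (nat_lit 9) (nat_lit 4) L94984 (by decide +kernel)
theorem L94986 : W_34 (nat_lit 10) (nat_lit 0x200010001000080000000600068000000000000000000) (nat_lit 0x0) (nat_lit 0x10000b000980004003e001f000e000100) := Q_34 (nat_lit 60) (C_34 L94961 (C_34 L94969 (C_34 L94975 (C_34 L94980 (C_34 L94985 N_34))))) (by decide +kernel)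
theorem L94987 : W_34 (nat_lit 2) (nat_lit 0x200010001000080008003f00068000000000000000000) (nat_lit 0x0) (nat_lit 0xe0000000000000000000000000000) := D_34 (nat_lit 114) (nat_lit 113) (nat_lit 115) (nat_lit 3) (nat_lit 8) (nat_lit 5) (nat_lit 3) (nat_lit 9) (nat_lit 5) (by decide +kernel)
theorem L94988 : W_34 (nat_lit 3) (nat_lit 0x200010001000080008001f00068000000000000000000) (nat_lit 0x0) (nat_lit 0xe0006000000000000000000000000) := T_34 (nat_lit 97) (nat_lit 98) (nat_lit 0) (nat_lit 13) (nat_lit 5) L94987 (by decide +kernel)
theorem L94989 : W_34 (nat_lit 4) (nat_lit 0x200010001000080008000f00068000000000000000000) (nat_lit 0x0) (nat_lit 0xe0007000010000000000000000000) := T_34 (nat_lit 96) (nat_lit 76) (nat_lit 3) (nat_lit 7) (nat_lit 4) L94988 (by decide +kernel)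
theorem L94990 : W_34 (nat_lit 5) (nat_lit 0x200010001000080008000700068000000000000000000) (nat_lit 0x0) (nat_lit 0xe0007800014000000000000000000) := T_34 (nat_lit 95) (nat_lit 74) (nat_lit 0) (nat_lit 10) (nat_lit 5) L94989 (by decide +kernel)
theorem L94991 : W_34 (nat_lit 6) (nat_lit 0x200010001000080000000700068000000000000000000) (nat_lit 0x0) (nat_lit 0x1000e8007800014000000000000000000) := T_34 (nat_lit 111) (nat_lit 128) (nat_lit 5) (nat_lit 9) (nat_lit 4) L94990 (by decide +kernel)
theorem L94992 : W_34 (nat_lit 7) (nat_lit 0x200010001000080000000600068000000000000000000) (nat_lit 0x0) (nat_lit 0x1000e8007980014000000000000000000) := T_34 (nat_lit 92) (nat_lit 91) (nat_lit 2) (nat_lit 6) (nat_lit 5) L94991 (by decide +kernel)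
theorem L94993 : W_34 (nat_lit 2) (nat_lit 0x200010001000080000003f00068000000000000000000) (nat_lit 0x0) (nat_lit 0xe0000000000000000000000000000) := D_34 (nat_lit 114) (nat_lit 113) (nat_lit 115) (nat_lit 3) (nat_lit 8) (nat_lit 5) (nat_lit 3) (nat_lit 9) (nat_lit 5) (by decide +kernel)
theorem L94994 : W_34 (nat_lit 3) (nat_lit 0x200010001000080000001f00068000000000000000000) (nat_lit 0x0) (nat_lit 0xe0006000000000000000000000000) := T_34 (nat_lit 97) (nat_lit 98) (nat_lit 0) (nat_lit 13) (nat_lit 5) L94993 (by decide +kernel)
theorem L94995 : W_34 (nat_lit 4) (nat_lit 0x200010001000080000000f00068000000000000000000) (nat_lit 0x0) (nat_lit 0xe0007000010000000000000000000) := T_34 (nat_lit 96) (nat_lit 76) (nat_lit 3) (nat_lit 7) (nat_lit 4) L94994 (by decide +kernel)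
theorem L94996 : W_34 (nat_lit 5) (nat_lit 0x200010001000080000000700068000000000000000000) (nat_lit 0x0) (nat_lit 0xe0007800014000000000000000000) := T_34 (nat_lit 95) (nat_lit 74) (nat_lit 0) (nat_lit 10) (nat_lit 5) L94995 (by decide +kernel)
theorem L94997 : W_34 (nat_lit 6) (nat_lit 0x200010001000080000000600068000000000000000000) (nat_lit 0x0) (nat_lit 0xe0007980014000000000000000000) := T_34 (nat_lit 92) (nat_lit 91) (nat_lit 2) (nat_lit 6) (nat_lit 5) L94996 (by decide +kernel)
theorem L94998 : W_34 (nat_lit 2) (nat_lit 0x20001000100008000800060007a002000000000000000) (nat_lit 0x0) (nat_lit 0x1000100008000000) := D_34 (nat_lit 44) (nat_lit 27) (nat_lit 60) (nat_lit 5) (nat_lit 10) (nat_lit 1) (nat_lit 6) (nat_lit 9) (nat_lit 6) (by decide +kernel)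
theorem L94999 : W_34 (nat_lit 3) (nat_lit 0x20001000100008000000060007a002000000000000000) (nat_lit 0x0) (nat_lit 0x100008000000000001000100008000000) := T_34 (nat_lit 111) (nat_lit 128) (nat_lit 6) (nat_lit 9) (nat_lit 7) L94998 (by decide +kernel)
theorem L95000 : W_34 (nat_lit 4) (nat_lit 0x20001000100008000000060007a000000000000000000) (nat_lit 0x0) (nat_lit 0x100008000000000007000100008000000) := T_34 (nat_lit 61) (nat_lit 62) (nat_lit 2) (nat_lit 7) (nat_lit 4) L94999 (by decide +kernel)
theorem L95001 : W_34 (nat_lit 5) (nat_lit 0x200010001000080000000600078000000000000000000) (nat_lit 0x0) (nat_lit 0x100008000000006007000100008000000) := T_34 (nat_lit 73) (nat_lit 74) (nat_lit 3) (nat_lit 5) (nat_lit 4) L95000 (by decide +kernel)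
theorem L95002 : W_34 (nat_lit 2) (nat_lit 0x200010001000080008001600078002000040000000000) (nat_lit 0x0) (nat_lit 0x1000100008000000) := D_34 (nat_lit 44) (nat_lit 27) (nat_lit 60) (nat_lit 5) (nat_lit 10) (nat_lit 1) (nat_lit 6) (nat_lit 9) (nat_lit 6) (by decide +kernel)
theorem L95003 : W_34 (nat_lit 3) (nat_lit 0x200010001000080008001600078000000040000000000) (nat_lit 0x0) (nat_lit 0x7000100008000000) := T_34 (nat_lit 61) (nat_lit 62) (nat_lit 2) (nat_lit 7) (nat_lit 4) L95002 (by decide +kernel)
theorem L95004 : W_34 (nat_lit 4) (nat_lit 0x200010001000080008000600078000000040000000000) (nat_lit 0x0) (nat_lit 0x1800000007000100008000000) := T_34 (nat_lit 96) (nat_lit 95) (nat_lit 3) (nat_lit 7) (nat_lit 4) L95003 (by decide +kernel)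
theorem L95005 : W_34 (nat_lit 5) (nat_lit 0x200010001000080008000600078000000000000000000) (nat_lit 0x0) (nat_lit 0x1800000007800140008000000) := T_34 (nat_lit 42) (nat_lit 59) (nat_lit 7) (nat_lit 8) (nat_lit 2) L95004 (by decide +kernel)
theorem L95006 : W_34 (nat_lit 6) (nat_lit 0x200010001000080000000600078000000000000000000) (nat_lit 0x0) (nat_lit 0x100008001800000007800140008000000) := T_34 (nat_lit 111) (nat_lit 128) (nat_lit 5) (nat_lit 9) (nat_lit 4) L95005 (by decide +kernel)
theorem L95007 : W_34 (nat_lit 7) (nat_lit 0x200010001000080000000600068000000000000000000) (nat_lit 0x0) (nat_lit 0x100008001800016007800140008000000) := Q_34 (nat_lit 76) (C_34 L94879 (C_34 L95001 (C_34 L95006 N_34))) (by decide +kernel)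
theorem L95008 : W_34 (nat_lit 2) (nat_lit 0x200010001000080008000680078002400040000000000) (nat_lit 0x0) (nat_lit 0x1000100008000000) := D_34 (nat_lit 44) (nat_lit 27) (nat_lit 60) (nat_lit 5) (nat_lit 10) (nat_lit 1) (nat_lit 6) (nat_lit 9) (nat_lit 6) (by decide +kernel)
theorem L95009 : W_34 (nat_lit 3) (nat_lit 0x200010001000080008000680078000400040000000000) (nat_lit 0x0) (nat_lit 0x7000100008000000) := T_34 (nat_lit 61) (nat_lit 62) (nat_lit 2) (nat_lit 7) (nat_lit 4) L95008 (by decide +kernel)
theorem L95010 : W_34 (nat_lit 4) (nat_lit 0x200010001000080008000680078000000040000000000) (nat_lit 0x0) (nat_lit 0x7600100008000000) := T_34 (nat_lit 58) (nat_lit 57) (nat_lit 0) (nat_lit 10) (nat_lit 4) L95009 (by decide +kernel)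
theorem L95011 : W_34 (nat_lit 5) (nat_lit 0x200010001000080008000680078000000000000000000) (nat_lit 0x0) (nat_lit 0x7e00140008000000) := T_34 (nat_lit 42) (nat_lit 59) (nat_lit 7) (nat_lit 8) (nat_lit 2) L95010 (by decide +kernel)
theorem L95012 : W_34 (nat_lit 6) (nat_lit 0x200010001000080000000680078000000000000000000) (nat_lit 0x0) (nat_lit 0x100008000000000007e00140008000000) := T_34 (nat_lit 111) (nat_lit 128) (nat_lit 5) (nat_lit 9) (nat_lit 4) L95011 (by decide +kernel)
theorem L95013 : W_34 (nat_lit 7) (nat_lit 0x200010001000080000000600078000000000000000000) (nat_lit 0x0) (nat_lit 0x100008000180000007e00140008000000) := T_34 (nat_lit 91) (nat_lit 92) (nat_lit 2) (nat_lit 6) (nat_lit 5) L95012 (by decide +kernel)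
theorem L95014 : W_34 (nat_lit 8) (nat_lit 0x200010001000080000000600068000000000000000000) (nat_lit 0x0) (nat_lit 0x1000080001c0016007e00140008000000) := Q_34 (nat_lit 76) (C_34 L95001 (C_34 L94881 (C_34 L95013 N_34))) (by decide +kernel)
theorem L95015 : W_34 (nat_lit 2) (nat_lit 0x200010001000080008000e80078000000000000000000) (nat_lit 0x0) (nat_lit 0x6000100000000000) := D_34 (nat_lit 61) (nat_lit 44) (nat_lit 62) (nat_lit 5) (nat_lit 10) (nat_lit 2) (nat_lit 2) (nat_lit 7) (nat_lit 4) (by decide +kernel)
theorem L95016 : W_34 (nat_lit 3) (nat_lit 0x200010001000080008000680078000000000000000000) (nat_lit 0x0) (nat_lit 0x1800000006000100000000000) := T_34 (nat_lit 95) (nat_lit 96) (nat_lit 3) (nat_lit 7) (nat_lit 4) L95015 (by decide +kernel)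
theorem L95017 : W_34 (nat_lit 4) (nat_lit 0x200010001000080000000680078000000000000000000) (nat_lit 0x0) (nat_lit 0x100008001800000006000100000000000) := T_34 (nat_lit 111) (nat_lit 128) (nat_lit 5) (nat_lit 9) (nat_lit 4) L95016 (by decide +kernel)
theorem L95018 : W_34 (nat_lit 5) (nat_lit 0x200010001000080000000600078000000000000000000) (nat_lit 0x0) (nat_lit 0x100008001980000006000100000000000) := T_34 (nat_lit 91) (nat_lit 92) (nat_lit 2) (nat_lit 6) (nat_lit 5) L95017 (by decide +kernel)
theorem L95019 : W_34 (nat_lit 2) (nat_lit 0x200010001000080008000f00078000400040000000000) (nat_lit 0x0) (nat_lit 0x20003000000) := D_34 (nat_lit 41) (nat_lit 25) (nat_lit 24) (nat_lit 6) (nat_lit 7) (nat_lit 5) (nat_lit 7) (nat_lit 7) (nat_lit 1) (by decide +kernel)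
theorem L95020 : W_34 (nat_lit 3) (nat_lit 0x200010001000080008000f00078000000040000000000) (nat_lit 0x0) (nat_lit 0x600020003000000) := T_34 (nat_lit 58) (nat_lit 57) (nat_lit 0) (nat_lit 10) (nat_lit 4) L95019 (by decide +kernel)
theorem L95021 : W_34 (nat_lit 4) (nat_lit 0x200010001000080008000e00078000000040000000000) (nat_lit 0x0) (nat_lit 0x180000000600020003000000) := T_34 (nat_lit 92) (nat_lit 91) (nat_lit 2) (nat_lit 6) (nat_lit 5) L95020 (by decide +kernel)
theorem L95022 : W_34 (nat_lit 5) (nat_lit 0x200010001000080008000e00078000000000000000000) (nat_lit 0x0) (nat_lit 0x180000000e00060003000000) := T_34 (nat_lit 42) (nat_lit 59) (nat_lit 7) (nat_lit 8) (nat_lit 2) L95021 (by decide +kernel)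
theorem L95023 : W_34 (nat_lit 6) (nat_lit 0x200010001000080000000e00078000000000000000000) (nat_lit 0x0) (nat_lit 0x100008000180000000e00060003000000) := T_34 (nat_lit 111) (nat_lit 128) (nat_lit 5) (nat_lit 9) (nat_lit 4) L95022 (by decide +kernel)
theorem L95024 : W_34 (nat_lit 7) (nat_lit 0x200010001000080000000600078000000000000000000) (nat_lit 0x0) (nat_lit 0x100008001980000000e00060003000000) := T_34 (nat_lit 95) (nat_lit 96) (nat_lit 3) (nat_lit 7) (nat_lit 4) L95023 (by decide +kernel)
theorem L95025 : W_34 (nat_lit 10) (nat_lit 0x200010001000080000000600068000000000000000000) (nat_lit 0x0) (nat_lit 0x10000b001980010007e0016000b000000) := Q_34 (nat_lit 76) (C_34 L95006 (C_34 L94954 (C_34 L95013 (C_34 L95018 (C_34 L95024 N_34))))) (by decide +kernel)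
theorem L95026 : W_34 (nat_lit 11) (nat_lit 0x200010001000080000000600060000000000000000000) (nat_lit 0x0) (nat_lit 0x1000eb0079c001e007e001f000f000100) := Q_34 (nat_lit 75) (C_34 L94986 (C_34 L94992 (C_34 L94997 (C_34 L95007 (C_34 L95014 (C_34 L95025 N_34)))))) (by decide +kernel)
theorem L95027 : W_34 (nat_lit 12) (nat_lit 0x200010001000080000000600020000000000000000000) (nat_lit 0x0) (nat_lit 0x1000eb0079c01de00fe001f000f000100) := Q_34 (nat_lit 78) (C_34 L94710 (C_34 L94946 (C_34 L94708 (C_34 L95026 N_34)))) (by decide +kernel)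
theorem L95028 : W_34 (nat_lit 2) (nat_lit 0x2000100010000800000016000f0006800060000000000) (nat_lit 0x0) (nat_lit 0x180004000000) := D_34 (nat_lit 43) (nat_lit 26) (nat_lit 44) (nat_lit 6) (nat_lit 8) (nat_lit 5) (nat_lit 3) (nat_lit 7) (nat_lit 2) (by decide +kernel)
theorem L95029 : W_34 (nat_lit 3) (nat_lit 0x2000100010000800000016000f0004800060000000000) (nat_lit 0x0) (nat_lit 0x3000180004000000) := T_34 (nat_lit 61) (nat_lit 60) (nat_lit 0) (nat_lit 11) (nat_lit 3) L95028 (by decide +kernel)
theorem L95030 : W_34 (nat_lit 4) (nat_lit 0x2000100010000800000016000f0004800040000000000) (nat_lit 0x0) (nat_lit 0x30001a0005000000) := T_34 (nat_lit 41) (nat_lit 24) (nat_lit 4) (nat_lit 8) (nat_lit 5) L95029 (by decide +kernel)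
theorem L95031 : W_34 (nat_lit 5) (nat_lit 0x2000100010000800000006000f0004800040000000000) (nat_lit 0x0) (nat_lit 0x30000000030001a0005000000) := T_34 (nat_lit 96) (nat_lit 97) (nat_lit 3) (nat_lit 8) (nat_lit 4) L95030 (by decide +kernel)
theorem L95032 : W_34 (nat_lit 6) (nat_lit 0x2000100010000800000006000f0004800000000000000) (nat_lit 0x0) (nat_lit 0x30000000030001e0007000000) := T_34 (nat_lit 42) (nat_lit 25) (nat_lit 7) (nat_lit 8) (nat_lit 1) L95031 (by decide +kernel)
theorem L95033 : W_34 (nat_lit 7) (nat_lit 0x2000100010000800000006000f0000800000000000000) (nat_lit 0x0) (nat_lit 0x300000000f0001e0007000000) := T_34 (nat_lit 62) (nat_lit 63) (nat_lit 2) (nat_lit 8) (nat_lit 4) L95032 (by decide +kernel)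
theorem L95034 : W_34 (nat_lit 8) (nat_lit 0x2000100010000800000006000e0000800000000000000) (nat_lit 0x0) (nat_lit 0x300001000f4001e0007000000) := T_34 (nat_lit 76) (nat_lit 58) (nat_lit 0) (nat_lit 11) (nat_lit 4) L95033 (by decide +kernel)
theorem L95035 : W_34 (nat_lit 9) (nat_lit 0x200010001000080000000600060000800000000000000) (nat_lit 0x0) (nat_lit 0x300019000f4001e0007000000) := T_34 (nat_lit 79) (nat_lit 80) (nat_lit 1) (nat_lit 12) (nat_lit 4) L95034 (by decide +kernel)
theorem L95036 : W_34 (nat_lit 2) (nat_lit 0x2000100010000800080006000e0000800000000000000) (nat_lit 0x0) (nat_lit 0x10000400040000000000) := D_34 (nat_lit 76) (nat_lit 42) (nat_lit 58) (nat_lit 7) (nat_lit 8) (nat_lit 2) (nat_lit 0) (nat_lit 11) (nat_lit 4) (by decide +kernel)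
theorem L95037 : W_34 (nat_lit 3) (nat_lit 0x2000100010000800000006000e0000800000000000000) (nat_lit 0x0) (nat_lit 0x100008000000010000400040000000000) := T_34 (nat_lit 111) (nat_lit 128) (nat_lit 5) (nat_lit 9) (nat_lit 4) L95036 (by decide +kernel)
theorem L95038 : W_34 (nat_lit 4) (nat_lit 0x200010001000080000000600060000800000000000000) (nat_lit 0x0) (nat_lit 0x100008000000190000400040000000000) := T_34 (nat_lit 79) (nat_lit 80) (nat_lit 1) (nat_lit 12) (nat_lit 4) L95037 (by decide +kernel)
theorem L95039 : W_34 (nat_lit 2) (nat_lit 0x2000100010000800080006000e0000c00000000000000) (nat_lit 0x0) (nat_lit 0x3200000000000000) := D_34 (nat_lit 60) (nat_lit 57) (nat_lit 61) (nat_lit 3) (nat_lit 6) (nat_lit 3) (nat_lit 3) (nat_lit 7) (nat_lit 3) (by decide +kernel)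
theorem L95040 : W_34 (nat_lit 3) (nat_lit 0x2000100010000800080006000e0000800000000000000) (nat_lit 0x0) (nat_lit 0x10003600000000000000) := T_34 (nat_lit 58) (nat_lit 76) (nat_lit 0) (nat_lit 11) (nat_lit 4) L95039 (by decide +kernel)
theorem L95041 : W_34 (nat_lit 4) (nat_lit 0x200010001000080008000600060000800000000000000) (nat_lit 0x0) (nat_lit 0x190003600000000000000) := T_34 (nat_lit 79) (nat_lit 80) (nat_lit 1) (nat_lit 12) (nat_lit 4) L95040 (by decide +kernel)
theorem L95042 : W_34 (nat_lit 5) (nat_lit 0x200010001000080000000600060000800000000000000) (nat_lit 0x0) (nat_lit 0x100008000000190003600000000000000) := T_34 (nat_lit 111) (nat_lit 128) (nat_lit 5) (nat_lit 9) (nat_lit 4) L95041 (by decide +kernel)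
theorem L95043 : W_34 (nat_lit 10) (nat_lit 0x200010001000080000000600060000000000000000000) (nat_lit 0x0) (nat_lit 0x10000800300019000fe001e0007000000) := Q_34 (nat_lit 59) (C_34 L94712 (C_34 L94945 (C_34 L95035 (C_34 L95038 (C_34 L95042 N_34))))) (by decide +kernel)
theorem L95044 : W_34 (nat_lit 2) (nat_lit 0x2000100010000800580006800600030000c0000000000) (nat_lit 0x0) (nat_lit 0x10000000000004000200) := D_34 (nat_lit 26) (nat_lit 76) (nat_lit 9) (nat_lit 5) (nat_lit 9) (nat_lit 1) (nat_lit 7) (nat_lit 9) (nat_lit 0) (by decide +kernel)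
theorem L95045 : W_34 (nat_lit 3) (nat_lit 0x200010001000080058000680060003000040000000000) (nat_lit 0x0) (nat_lit 0x10000000080006000200) := T_34 (nat_lit 43) (nat_lit 25) (nat_lit 4) (nat_lit 9) (nat_lit 5) L95044 (by decide +kernel)
theorem L95046 : W_34 (nat_lit 4) (nat_lit 0x200010001000080058000680060003000000000000000) (nat_lit 0x0) (nat_lit 0x100008000c0006000200) := T_34 (nat_lit 42) (nat_lit 59) (nat_lit 4) (nat_lit 9) (nat_lit 6) L95045 (by decide +kernel)
theorem L95047 : W_34 (nat_lit 5) (nat_lit 0x200010001000080058000680060001000000000000000) (nat_lit 0x0) (nat_lit 0x100028001c0006000200) := T_34 (nat_lit 61) (nat_lit 44) (nat_lit 6) (nat_lit 9) (nat_lit 6) L95046 (by decide +kernel)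
theorem L95048 : W_34 (nat_lit 6) (nat_lit 0x200010001000080058000680060000000000000000000) (nat_lit 0x0) (nat_lit 0x2000000000000100038001c0006000200) := T_34 (nat_lit 60) (nat_lit 129) (nat_lit 7) (nat_lit 9) (nat_lit 3) L95047 (by decide +kernel)
theorem L95049 : W_34 (nat_lit 7) (nat_lit 0x200010001000080018000680060000000000000000000) (nat_lit 0x0) (nat_lit 0x2000600000000100038001c0006000200) := T_34 (nat_lit 114) (nat_lit 113) (nat_lit 0) (nat_lit 12) (nat_lit 6) L95048 (by decide +kernel)
theorem L95050 : W_34 (nat_lit 8) (nat_lit 0x200010001000080010000680060000000000000000000) (nat_lit 0x0) (nat_lit 0x3000680000000100038001c0006000200) := T_34 (nat_lit 111) (nat_lit 128) (nat_lit 5) (nat_lit 9) (nat_lit 4) L95049 (by decide +kernel)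
theorem L95051 : W_34 (nat_lit 9) (nat_lit 0x200010001000080010000600060000000000000000000) (nat_lit 0x0) (nat_lit 0x3000680001800100038001c0006000200) := T_34 (nat_lit 91) (nat_lit 92) (nat_lit 2) (nat_lit 6) (nat_lit 5) L95050 (by decide +kernel)
theorem L95052 : W_34 (nat_lit 10) (nat_lit 0x200010001000080000000600060000000000000000000) (nat_lit 0x0) (nat_lit 0x40003000780009800100038001c0006000200) := Q_34 (nat_lit 112) (C_34 L94747 (C_34 L94734 (C_34 L94737 (C_34 L94742 (C_34 L95051 N_34))))) (by decide +kernel)
theorem L95053 : W_34 (nat_lit 11) (nat_lit 0x200010001000080000000600020000000000000000000) (nat_lit 0x0) (nat_lit 0x40003000780039801d000fe001e0007000200) := Q_34 (nat_lit 78) (C_34 L94710 (C_34 L95043 (C_34 L95052 N_34))) (by decide +kernel)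
theorem L95054 : W_34 (nat_lit 2) (nat_lit 0x200010001000080009000f80020000000000000000000) (nat_lit 0x0) (nat_lit 0xe000000000000000000) := D_34 (nat_lit 74) (nat_lit 75) (nat_lit 73) (nat_lit 0) (nat_lit 10) (nat_lit 5) (nat_lit 0) (nat_lit 9) (nat_lit 5) (by decide +kernel)
theorem L95055 : W_34 (nat_lit 3) (nat_lit 0x200010001000080009000780020000000000000000000) (nat_lit 0x0) (nat_lit 0x200080000e000000000000000000) := T_34 (nat_lit 95) (nat_lit 109) (nat_lit 1) (nat_lit 10) (nat_lit 5) L95054 (by decide +kernel)
theorem L95056 : W_34 (nat_lit 4) (nat_lit 0x200010001000080001000780020000000000000000000) (nat_lit 0x0) (nat_lit 0x1a00080000e000000000000000000) := T_34 (nat_lit 111) (nat_lit 112) (nat_lit 3) (nat_lit 6) (nat_lit 5) L95055 (by decide +kernel)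
theorem L95057 : W_34 (nat_lit 5) (nat_lit 0x200010001000080000000780020000000000000000000) (nat_lit 0x0) (nat_lit 0x1b80080000e000000000000000000) := T_34 (nat_lit 108) (nat_lit 107) (nat_lit 1) (nat_lit 9) (nat_lit 5) L95056 (by decide +kernel)
theorem L95058 : W_34 (nat_lit 6) (nat_lit 0x200010001000080000000700020000000000000000000) (nat_lit 0x0) (nat_lit 0x1b80088004e000000000000000000) := T_34 (nat_lit 91) (nat_lit 78) (nat_lit 2) (nat_lit 6) (nat_lit 5) L95057 (by decide +kernel)
theorem L95059 : W_34 (nat_lit 2) (nat_lit 0x200010001000080001000780024000000000000000000) (nat_lit 0x0) (nat_lit 0x2000800008000000000000000000) := D_34 (nat_lit 95) (nat_lit 109) (nat_lit 75) (nat_lit 1) (nat_lit 10) (nat_lit 5) (nat_lit 0) (nat_lit 10) (nat_lit 5) (by decide +kernel)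
theorem L95060 : W_34 (nat_lit 3) (nat_lit 0x200010001000080001000780020000000000000000000) (nat_lit 0x0) (nat_lit 0x200080000e000000000000000000) := T_34 (nat_lit 74) (nat_lit 73) (nat_lit 0) (nat_lit 9) (nat_lit 5) L95059 (by decide +kernel)
theorem L95061 : W_34 (nat_lit 4) (nat_lit 0x200010001000080000000780020000000000000000000) (nat_lit 0x0) (nat_lit 0x380080000e000000000000000000) := T_34 (nat_lit 108) (nat_lit 107) (nat_lit 1) (nat_lit 9) (nat_lit 5) L95060 (by decide +kernel)
theorem L95062 : W_34 (nat_lit 5) (nat_lit 0x200010001000080000000700020000000000000000000) (nat_lit 0x0) (nat_lit 0x380088004e000000000000000000) := T_34 (nat_lit 91) (nat_lit 78) (nat_lit 2) (nat_lit 6) (nat_lit 5) L95061 (by decide +kernel)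
theorem L95063 : W_34 (nat_lit 4) (nat_lit 0x200010001000080008000780020000000000000000000) (nat_lit 0x0) (nat_lit 0x380080000e000000000000000000) := T_34 (nat_lit 108) (nat_lit 107) (nat_lit 1) (nat_lit 9) (nat_lit 5) L95055 (by decide +kernel)
theorem L95064 : W_34 (nat_lit 5) (nat_lit 0x200010001000080008000700020000000000000000000) (nat_lit 0x0) (nat_lit 0x1380088000e000000000000000000) := T_34 (nat_lit 91) (nat_lit 112) (nat_lit 3) (nat_lit 6) (nat_lit 5) L95063 (by decide +kernel)
theorem L95065 : W_34 (nat_lit 6) (nat_lit 0x200010001000080000000700020000000000000000000) (nat_lit 0x0) (nat_lit 0x10001b80088000e000000000000000000) := T_34 (nat_lit 111) (nat_lit 128) (nat_lit 5) (nat_lit 9) (nat_lit 4) L95064 (by decide +kernel)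
theorem L95066 : W_34 (nat_lit 2) (nat_lit 0x200010001000080018000700020000000000000000000) (nat_lit 0x0) (nat_lit 0x60000800000000000000000000000) := D_34 (nat_lit 113) (nat_lit 114) (nat_lit 95) (nat_lit 0) (nat_lit 12) (nat_lit 6) (nat_lit 3) (nat_lit 7) (nat_lit 5) (by decide +kernel)
theorem L95067 : W_34 (nat_lit 3) (nat_lit 0x200010001000080010000700020000000000000000000) (nat_lit 0x0) (nat_lit 0x100068000800000000000000000000000) := T_34 (nat_lit 111) (nat_lit 128) (nat_lit 5) (nat_lit 9) (nat_lit 4) L95066 (by decide +kernel)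
theorem L95068 : W_34 (nat_lit 3) (nat_lit 0x200010001000080010000f00020000000000000000000) (nat_lit 0x0) (nat_lit 0x40002000000000000c0001000000000000000) := T_34 (nat_lit 78) (nat_lit 79) (nat_lit 2) (nat_lit 7) (nat_lit 5) L94732 (by decide +kernel)
theorem L95069 : W_34 (nat_lit 4) (nat_lit 0x200010001000080010000700020000000000000000000) (nat_lit 0x0) (nat_lit 0x40002000200008000c0001000000000000000) := T_34 (nat_lit 95) (nat_lit 113) (nat_lit 3) (nat_lit 7) (nat_lit 5) L95068 (by decide +kernel)
theorem L95070 : W_34 (nat_lit 2) (nat_lit 0x200010001000080018000700020001000080000000000) (nat_lit 0x0) (nat_lit 0x2000100008000000) := D_34 (nat_lit 44) (nat_lit 27) (nat_lit 61) (nat_lit 6) (nat_lit 9) (nat_lit 5) (nat_lit 6) (nat_lit 9) (nat_lit 6) (by decide +kernel)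
theorem L95071 : W_34 (nat_lit 3) (nat_lit 0x200010001000080018000700020001000000000000000) (nat_lit 0x0) (nat_lit 0x800000002000180008000000) := T_34 (nat_lit 43) (nat_lit 95) (nat_lit 7) (nat_lit 9) (nat_lit 2) L95070 (by decide +kernel)
theorem L95072 : W_34 (nat_lit 4) (nat_lit 0x200010001000080018000700020000000000000000000) (nat_lit 0x0) (nat_lit 0x200000000800000003000180008000000) := T_34 (nat_lit 60) (nat_lit 129) (nat_lit 7) (nat_lit 9) (nat_lit 3) L95071 (by decide +kernel)
theorem L95073 : W_34 (nat_lit 5) (nat_lit 0x200010001000080010000700020000000000000000000) (nat_lit 0x0) (nat_lit 0x300008000800000003000180008000000) := T_34 (nat_lit 111) (nat_lit 128) (nat_lit 5) (nat_lit 9) (nat_lit 4) L95072 (by decide +kernel)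
theorem L95074 : W_34 (nat_lit 2) (nat_lit 0x200010001000080058000700020001000140000000000) (nat_lit 0x0) (nat_lit 0x8000a000000) := D_34 (nat_lit 43) (nat_lit 27) (nat_lit 25) (nat_lit 6) (nat_lit 9) (nat_lit 5) (nat_lit 4) (nat_lit 9) (nat_lit 5) (by decide +kernel)
theorem L95075 : W_34 (nat_lit 3) (nat_lit 0x200010001000080058000700020001000100000000000) (nat_lit 0x0) (nat_lit 0x8000c000a000000) := T_34 (nat_lit 42) (nat_lit 59) (nat_lit 4) (nat_lit 9) (nat_lit 6) L95074 (by decide +kernel)
theorem L95076 : W_34 (nat_lit 4) (nat_lit 0x200010001000080058000700020001000000000000000) (nat_lit 0x0) (nat_lit 0x28001c000a000000) := T_34 (nat_lit 44) (nat_lit 61) (nat_lit 6) (nat_lit 9) (nat_lit 6) L95075 (by decide +kernel)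
theorem L95077 : W_34 (nat_lit 5) (nat_lit 0x200010001000080058000700020000000000000000000) (nat_lit 0x0) (nat_lit 0x2000000000000000038001c000a000000) := T_34 (nat_lit 60) (nat_lit 129) (nat_lit 7) (nat_lit 9) (nat_lit 3) L95076 (by decide +kernel)
theorem L95078 : W_34 (nat_lit 6) (nat_lit 0x200010001000080018000700020000000000000000000) (nat_lit 0x0) (nat_lit 0x2000600000000000038001c000a000000) := T_34 (nat_lit 114) (nat_lit 113) (nat_lit 0) (nat_lit 12) (nat_lit 6) L95077 (by decide +kernel)
theorem L95079 : W_34 (nat_lit 7) (nat_lit 0x200010001000080010000700020000000000000000000) (nat_lit 0x0) (nat_lit 0x3000680000000000038001c000a000000) := T_34 (nat_lit 111) (nat_lit 128) (nat_lit 5) (nat_lit 9) (nat_lit 4) L95078 (by decide +kernel)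
theorem L95080 : W_34 (nat_lit 8) (nat_lit 0x200010001000080000000700020000000000000000000) (nat_lit 0x0) (nat_lit 0x40003000780008000c00038001c000a000000) := Q_34 (nat_lit 112) (C_34 L95067 (C_34 L95069 (C_34 L95073 (C_34 L95079 N_34)))) (by decide +kernel)
theorem L95081 : W_34 (nat_lit 9) (nat_lit 0x200010001000080000000600020000000000000000000) (nat_lit 0x0) (nat_lit 0x400030007b8009800ce0038001c000a000000) := Q_34 (nat_lit 92) (C_34 L94700 (C_34 L95058 (C_34 L95062 (C_34 L95065 (C_34 L95080 N_34))))) (by decide +kernel)
theorem L95082 : W_34 (nat_lit 2) (nat_lit 0x20001000100008000000068003c001600000004000000) (nat_lit 0x0) (nat_lit 0x1000000000000000020001000000) := D_34 (nat_lit 41) (nat_lit 24) (nat_lit 108) (nat_lit 7) (nat_lit 7) (nat_lit 1) (nat_lit 6) (nat_lit 6) (nat_lit 6) (by decide +kernel)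
theorem L95083 : W_34 (nat_lit 3) (nat_lit 0x20001000100008000000068003c001200000004000000) (nat_lit 0x0) (nat_lit 0x1000000040000400020001000000) := T_34 (nat_lit 58) (nat_lit 78) (nat_lit 0) (nat_lit 10) (nat_lit 4) L95082 (by decide +kernel)
theorem L95084 : W_34 (nat_lit 4) (nat_lit 0x20001000100008000000068003c001000000004000000) (nat_lit 0x0) (nat_lit 0x1000000040000700020001000000) := T_34 (nat_lit 57) (nat_lit 56) (nat_lit 0) (nat_lit 9) (nat_lit 4) L95083 (by decide +kernel)
theorem L95085 : W_34 (nat_lit 5) (nat_lit 0x20001000100008000000068003c001000000000000000) (nat_lit 0x0) (nat_lit 0x10000000400007000a0005000000) := T_34 (nat_lit 26) (nat_lit 43) (nat_lit 5) (nat_lit 9) (nat_lit 1) L95084 (by decide +kernel)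
theorem L95086 : W_34 (nat_lit 6) (nat_lit 0x20001000100008000000060003c001000000000000000) (nat_lit 0x0) (nat_lit 0x10000c00400007000a0005000000) := T_34 (nat_lit 91) (nat_lit 90) (nat_lit 1) (nat_lit 9) (nat_lit 4) L95085 (by decide +kernel)
theorem L95087 : W_34 (nat_lit 7) (nat_lit 0x20001000100008000000060003c000000000000000000) (nat_lit 0x0) (nat_lit 0x10000c00400037000a0005000000) := T_34 (nat_lit 60) (nat_lit 61) (nat_lit 2) (nat_lit 6) (nat_lit 4) L95086 (by decide +kernel)
theorem L95088 : W_34 (nat_lit 8) (nat_lit 0x200010001000080000000600038000000000000000000) (nat_lit 0x0) (nat_lit 0x10000c00460037000a0005000000) := T_34 (nat_lit 74) (nat_lit 73) (nat_lit 3) (nat_lit 5) (nat_lit 4) L95087 (by decide +kernel)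
theorem L95089 : W_34 (nat_lit 8) (nat_lit 0x200010001000080000000600078002000000000000000) (nat_lit 0x0) (nat_lit 0x1800000001e003e001d000000) := T_34 (nat_lit 95) (nat_lit 96) (nat_lit 3) (nat_lit 7) (nat_lit 4) L94822 (by decide +kernel)
theorem L95090 : W_34 (nat_lit 9) (nat_lit 0x200010001000080000000600078000000000000000000) (nat_lit 0x0) (nat_lit 0x1800000007e003e001d000000) := T_34 (nat_lit 61) (nat_lit 62) (nat_lit 2) (nat_lit 7) (nat_lit 4) L95089 (by decide +kernel)
theorem L95091 : W_34 (nat_lit 2) (nat_lit 0x200010001000080000000600030000800000000000000) (nat_lit 0x0) (nat_lit 0x100008000000000000000040000000000) := D_34 (nat_lit 111) (nat_lit 128) (nat_lit 42) (nat_lit 5) (nat_lit 9) (nat_lit 4) (nat_lit 7) (nat_lit 8) (nat_lit 2) (by decide +kernel)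
theorem L95092 : W_34 (nat_lit 2) (nat_lit 0x200010001000080000000600030001800070000000000) (nat_lit 0x0) (nat_lit 0x6400000000000000) := D_34 (nat_lit 61) (nat_lit 62) (nat_lit 58) (nat_lit 0) (nat_lit 11) (nat_lit 3) (nat_lit 0) (nat_lit 10) (nat_lit 3) (by decide +kernel)
theorem L95093 : W_34 (nat_lit 3) (nat_lit 0x200010001000080000000600030001800060000000000) (nat_lit 0x0) (nat_lit 0x6400018000000000) := T_34 (nat_lit 40) (nat_lit 39) (nat_lit 3) (nat_lit 5) (nat_lit 2) L95092 (by decide +kernel)
theorem L95094 : W_34 (nat_lit 4) (nat_lit 0x200010001000080000000600030001800040000000000) (nat_lit 0x0) (nat_lit 0x6400038001000000) := T_34 (nat_lit 41) (nat_lit 24) (nat_lit 4) (nat_lit 8) (nat_lit 5) L95093 (by decide +kernel)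
theorem L95095 : W_34 (nat_lit 5) (nat_lit 0x200010001000080000000600030001800000000000000) (nat_lit 0x0) (nat_lit 0x6400078003000000) := T_34 (nat_lit 42) (nat_lit 25) (nat_lit 7) (nat_lit 8) (nat_lit 1) L95094 (by decide +kernel)
theorem L95096 : W_34 (nat_lit 2) (nat_lit 0x200010001000080008000600030001800080000000000) (nat_lit 0x0) (nat_lit 0x200010000800000000000000000000000) := D_34 (nat_lit 112) (nat_lit 129) (nat_lit 95) (nat_lit 7) (nat_lit 9) (nat_lit 3) (nat_lit 7) (nat_lit 9) (nat_lit 2) (by decide +kernel)
theorem L95097 : W_34 (nat_lit 3) (nat_lit 0x200010001000080008000600030001800000000000000) (nat_lit 0x0) (nat_lit 0x200010000800000000000080004000000) := T_34 (nat_lit 43) (nat_lit 26) (nat_lit 5) (nat_lit 9) (nat_lit 1) L95096 (by decide +kernel)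
theorem L95098 : W_34 (nat_lit 4) (nat_lit 0x200010001000080000000600030001800000000000000) (nat_lit 0x0) (nat_lit 0x300018000800000000000080004000000) := T_34 (nat_lit 111) (nat_lit 128) (nat_lit 5) (nat_lit 9) (nat_lit 4) L95097 (by decide +kernel)
theorem L95099 : W_34 (nat_lit 2) (nat_lit 0x2000100010000800000006000300018000e0000000000) (nat_lit 0x0) (nat_lit 0x2000018000000000) := D_34 (nat_lit 40) (nat_lit 61) (nat_lit 39) (nat_lit 3) (nat_lit 6) (nat_lit 2) (nat_lit 3) (nat_lit 5) (nat_lit 2) (by decide +kernel)
theorem L95100 : W_34 (nat_lit 3) (nat_lit 0x2000100010000800000006000300018000c0000000000) (nat_lit 0x0) (nat_lit 0x2000038001000000) := T_34 (nat_lit 41) (nat_lit 24) (nat_lit 4) (nat_lit 8) (nat_lit 5) L95099 (by decide +kernel)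
theorem L95101 : W_34 (nat_lit 4) (nat_lit 0x200010001000080000000600030001800040000000000) (nat_lit 0x0) (nat_lit 0x20000b8005000000) := T_34 (nat_lit 43) (nat_lit 26) (nat_lit 6) (nat_lit 8) (nat_lit 5) L95100 (by decide +kernel)
theorem L95102 : W_34 (nat_lit 5) (nat_lit 0x200010001000080000000600030001800000000000000) (nat_lit 0x0) (nat_lit 0x20000f8007000000) := T_34 (nat_lit 42) (nat_lit 25) (nat_lit 7) (nat_lit 8) (nat_lit 1) L95101 (by decide +kernel)
theorem L95103 : W_34 (nat_lit 2) (nat_lit 0x200010001000080000000600030001c00180000000000) (nat_lit 0x0) (nat_lit 0x2000600000000000) := D_34 (nat_lit 45) (nat_lit 46) (nat_lit 61) (nat_lit 1) (nat_lit 12) (nat_lit 2) (nat_lit 2) (nat_lit 7) (nat_lit 3) (by decide +kernel)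
theorem L95104 : W_34 (nat_lit 3) (nat_lit 0x200010001000080000000600030001800180000000000) (nat_lit 0x0) (nat_lit 0x2600600000000000) := T_34 (nat_lit 58) (nat_lit 57) (nat_lit 2) (nat_lit 6) (nat_lit 3) L95103 (by decide +kernel)
theorem L95105 : W_34 (nat_lit 4) (nat_lit 0x200010001000080000000600030001800080000000000) (nat_lit 0x0) (nat_lit 0x2600700008000000) := T_34 (nat_lit 44) (nat_lit 27) (nat_lit 6) (nat_lit 9) (nat_lit 5) L95104 (by decide +kernel)
theorem L95106 : W_34 (nat_lit 5) (nat_lit 0x200010001000080000000600030001800000000000000) (nat_lit 0x0) (nat_lit 0x260078000c000000) := T_34 (nat_lit 43) (nat_lit 26) (nat_lit 5) (nat_lit 9) (nat_lit 1) L95105 (by decide +kernel)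
theorem L95107 : W_34 (nat_lit 2) (nat_lit 0x2000100010000800000006000300018001c0000000000) (nat_lit 0x0) (nat_lit 0x600200000000000) := D_34 (nat_lit 58) (nat_lit 57) (nat_lit 45) (nat_lit 2) (nat_lit 6) (nat_lit 3) (nat_lit 1) (nat_lit 11) (nat_lit 2) (by decide +kernel)
theorem L95108 : W_34 (nat_lit 3) (nat_lit 0x2000100010000800000006000300018000c0000000000) (nat_lit 0x0) (nat_lit 0x600300008000000) := T_34 (nat_lit 44) (nat_lit 27) (nat_lit 6) (nat_lit 9) (nat_lit 5) L95107 (by decide +kernel)
theorem L95109 : W_34 (nat_lit 4) (nat_lit 0x200010001000080000000600030001800080000000000) (nat_lit 0x0) (nat_lit 0x60034000a000000) := T_34 (nat_lit 42) (nat_lit 25) (nat_lit 7) (nat_lit 8) (nat_lit 1) L95108 (by decide +kernel)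
theorem L95110 : W_34 (nat_lit 5) (nat_lit 0x200010001000080000000600030001800000000000000) (nat_lit 0x0) (nat_lit 0x6003c000e000000) := T_34 (nat_lit 43) (nat_lit 26) (nat_lit 5) (nat_lit 9) (nat_lit 1) L95109 (by decide +kernel)
theorem L95111 : W_34 (nat_lit 6) (nat_lit 0x200010001000080000000600030000800000000000000) (nat_lit 0x0) (nat_lit 0x76007f800f000000) := Q_34 (nat_lit 60) (C_34 L95095 (C_34 L95102 (C_34 L95106 (C_34 L95110 N_34)))) (by decide +kernel)
theorem L95112 : W_34 (nat_lit 2) (nat_lit 0x200010001000080058000600038003000000000000000) (nat_lit 0x0) (nat_lit 0xc800000000000000) := D_34 (nat_lit 62) (nat_lit 63) (nat_lit 59) (nat_lit 1) (nat_lit 12) (nat_lit 3) (nat_lit 1) (nat_lit 11) (nat_lit 3) (by decide +kernel)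
theorem L95113 : W_34 (nat_lit 3) (nat_lit 0x200010001000080058000600030003000000000000000) (nat_lit 0x0) (nat_lit 0xc00c800000000000000) := T_34 (nat_lit 75) (nat_lit 74) (nat_lit 2) (nat_lit 6) (nat_lit 4) L95112 (by decide +kernel)
theorem L95114 : W_34 (nat_lit 4) (nat_lit 0x200010001000080058000600030001000000000000000) (nat_lit 0x0) (nat_lit 0xc00e800100000000000) := T_34 (nat_lit 61) (nat_lit 44) (nat_lit 6) (nat_lit 9) (nat_lit 6) L95113 (by decide +kernel)
theorem L95115 : W_34 (nat_lit 5) (nat_lit 0x200010001000080018000600030001000000000000000) (nat_lit 0x0) (nat_lit 0x6000000000c00e800100000000000) := T_34 (nat_lit 114) (nat_lit 113) (nat_lit 0) (nat_lit 12) (nat_lit 6) L95114 (by decide +kernel)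
theorem L95116 : W_34 (nat_lit 6) (nat_lit 0x200010001000080008000600030001000000000000000) (nat_lit 0x0) (nat_lit 0x20007000000000c00e800100000000000) := T_34 (nat_lit 112) (nat_lit 129) (nat_lit 7) (nat_lit 9) (nat_lit 3) L95115 (by decide +kernel)
theorem L95117 : W_34 (nat_lit 7) (nat_lit 0x200010001000080000000600030001000000000000000) (nat_lit 0x0) (nat_lit 0x30007800000000c00e800100000000000) := T_34 (nat_lit 111) (nat_lit 128) (nat_lit 5) (nat_lit 9) (nat_lit 4) L95116 (by decide +kernel)
theorem L95118 : W_34 (nat_lit 2) (nat_lit 0x2000100010000800580006000b0007e00000004000000) (nat_lit 0x0) (nat_lit 0x38000000000) := D_34 (nat_lit 40) (nat_lit 41) (nat_lit 39) (nat_lit 0) (nat_lit 10) (nat_lit 3) (nat_lit 0) (nat_lit 9) (nat_lit 3) (by decide +kernel)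
theorem L95119 : W_34 (nat_lit 3) (nat_lit 0x2000100010000800580006000b0007c00000004000000) (nat_lit 0x0) (nat_lit 0x300038000000000) := T_34 (nat_lit 57) (nat_lit 56) (nat_lit 3) (nat_lit 5) (nat_lit 3) L95118 (by decide +kernel)
theorem L95120 : W_34 (nat_lit 4) (nat_lit 0x2000100010000800580006000b0007800000004000000) (nat_lit 0x0) (nat_lit 0x40000700038000000000) := T_34 (nat_lit 58) (nat_lit 78) (nat_lit 3) (nat_lit 7) (nat_lit 3) L95119 (by decide +kernel)
theorem L95121 : W_34 (nat_lit 5) (nat_lit 0x200010001000080058000600030007800000004000000) (nat_lit 0x0) (nat_lit 0x1c0000700038000000000) := T_34 (nat_lit 79) (nat_lit 80) (nat_lit 3) (nat_lit 8) (nat_lit 3) L95120 (by decide +kernel)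
theorem L95122 : W_34 (nat_lit 6) (nat_lit 0x200010001000080058000600030003800000004000000) (nat_lit 0x0) (nat_lit 0x1c000c700038000000000) := T_34 (nat_lit 62) (nat_lit 63) (nat_lit 1) (nat_lit 12) (nat_lit 3) L95121 (by decide +kernel)
theorem L95123 : W_34 (nat_lit 7) (nat_lit 0x200010001000080058000600030001800000004000000) (nat_lit 0x0) (nat_lit 0x1c000e700138000000000) := T_34 (nat_lit 61) (nat_lit 44) (nat_lit 6) (nat_lit 9) (nat_lit 6) L95122 (by decide +kernel)
theorem L95124 : W_34 (nat_lit 8) (nat_lit 0x200010001000080058000600030001000000004000000) (nat_lit 0x0) (nat_lit 0x1c000ef00178000000000) := T_34 (nat_lit 59) (nat_lit 42) (nat_lit 7) (nat_lit 8) (nat_lit 2) L95123 (by decide +kernel)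
theorem L95125 : W_34 (nat_lit 9) (nat_lit 0x200010001000080018000600030001000000004000000) (nat_lit 0x0) (nat_lit 0x600000001c000ef00178000000000) := T_34 (nat_lit 114) (nat_lit 113) (nat_lit 0) (nat_lit 12) (nat_lit 6) L95124 (by decide +kernel)
theorem L95126 : W_34 (nat_lit 10) (nat_lit 0x200010001000080008000600030001000000004000000) (nat_lit 0x0) (nat_lit 0x2000700000001c000ef00178000000000) := T_34 (nat_lit 112) (nat_lit 129) (nat_lit 7) (nat_lit 9) (nat_lit 3) L95125 (by decide +kernel)
theorem L95127 : W_34 (nat_lit 11) (nat_lit 0x200010001000080000000600030001000000004000000) (nat_lit 0x0) (nat_lit 0x3000780000001c000ef00178000000000) := T_34 (nat_lit 111) (nat_lit 128) (nat_lit 5) (nat_lit 9) (nat_lit 4) L95126 (by decide +kernel)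
theorem L95128 : W_34 (nat_lit 12) (nat_lit 0x200010001000080000000600030001000000000000000) (nat_lit 0x0) (nat_lit 0x3000780000001c000ef001f8004000000) := T_34 (nat_lit 26) (nat_lit 43) (nat_lit 5) (nat_lit 9) (nat_lit 1) L95127 (by decide +kernel)
theorem L95129 : W_34 (nat_lit 6) (nat_lit 0x200010001000080000000600030001000000000000000) (nat_lit 0x0) (nat_lit 0x6e007f800f000000) := Q_34 (nat_lit 59) (C_34 L95110 (C_34 L95095 (C_34 L95102 (C_34 L95106 N_34)))) (by decide +kernel)
theorem L95130 : W_34 (nat_lit 2) (nat_lit 0x200010001000080008000600038003000000004000000) (nat_lit 0x0) (nat_lit 0x4000c000000000000000) := D_34 (nat_lit 62) (nat_lit 63) (nat_lit 78) (nat_lit 1) (nat_lit 12) (nat_lit 3) (nat_lit 2) (nat_lit 7) (nat_lit 4) (by decide +kernel)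
theorem L95131 : W_34 (nat_lit 3) (nat_lit 0x200010001000080008000600030003000000004000000) (nat_lit 0x0) (nat_lit 0x4c00c000000000000000) := T_34 (nat_lit 75) (nat_lit 74) (nat_lit 2) (nat_lit 6) (nat_lit 4) L95130 (by decide +kernel)
theorem L95132 : W_34 (nat_lit 4) (nat_lit 0x200010001000080008000600030001000000004000000) (nat_lit 0x0) (nat_lit 0x4c00e000100000000000) := T_34 (nat_lit 61) (nat_lit 44) (nat_lit 6) (nat_lit 9) (nat_lit 6) L95131 (by decide +kernel)
theorem L95133 : W_34 (nat_lit 5) (nat_lit 0x200010001000080000000600030001000000004000000) (nat_lit 0x0) (nat_lit 0x10000800000004c00e000100000000000) := T_34 (nat_lit 111) (nat_lit 128) (nat_lit 5) (nat_lit 9) (nat_lit 4) L95132 (by decide +kernel)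
theorem L95134 : W_34 (nat_lit 6) (nat_lit 0x200010001000080000000600030001000000000000000) (nat_lit 0x0) (nat_lit 0x10000800000004c00e000180004000000) := T_34 (nat_lit 26) (nat_lit 43) (nat_lit 5) (nat_lit 9) (nat_lit 1) L95133 (by decide +kernel)
theorem L95135 : W_34 (nat_lit 2) (nat_lit 0x200010001000080058000600030001000040000000000) (nat_lit 0x0) (nat_lit 0x80006000000) := D_34 (nat_lit 43) (nat_lit 25) (nat_lit 26) (nat_lit 4) (nat_lit 9) (nat_lit 5) (nat_lit 5) (nat_lit 9) (nat_lit 1) (by decide +kernel)
theorem L95136 : W_34 (nat_lit 3) (nat_lit 0x200010001000080058000600030001000000000000000) (nat_lit 0x0) (nat_lit 0x8000c0006000000) := T_34 (nat_lit 42) (nat_lit 59) (nat_lit 7) (nat_lit 8) (nat_lit 2) L95135 (by decide +kernel)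
theorem L95137 : W_34 (nat_lit 4) (nat_lit 0x200010001000080018000600030001000000000000000) (nat_lit 0x0) (nat_lit 0x600000000000008000c0006000000) := T_34 (nat_lit 114) (nat_lit 113) (nat_lit 0) (nat_lit 12) (nat_lit 6) L95136 (by decide +kernel)
theorem L95138 : W_34 (nat_lit 5) (nat_lit 0x200010001000080008000600030001000000000000000) (nat_lit 0x0) (nat_lit 0x2000700000000000008000c0006000000) := T_34 (nat_lit 112) (nat_lit 129) (nat_lit 7) (nat_lit 9) (nat_lit 3) L95137 (by decide +kernel)
theorem L95139 : W_34 (nat_lit 6) (nat_lit 0x200010001000080000000600030001000000000000000) (nat_lit 0x0) (nat_lit 0x3000780000000000008000c0006000000) := T_34 (nat_lit 111) (nat_lit 128) (nat_lit 5) (nat_lit 9) (nat_lit 4) L95138 (by decide +kernel)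
theorem L95140 : W_34 (nat_lit 13) (nat_lit 0x200010001000080000000600030000000000000000000) (nat_lit 0x0) (nat_lit 0x3000780000001cc00ff007f800f000000) := Q_34 (nat_lit 60) (C_34 L95117 (C_34 L95128 (C_34 L95129 (C_34 L95134 (C_34 L95139 N_34))))) (by decide +kernel)
theorem L95141 : W_34 (nat_lit 2) (nat_lit 0x200010001000080008000600030001000080000000000) (nat_lit 0x0) (nat_lit 0x200010000800000000000000000000000) := D_34 (nat_lit 112) (nat_lit 95) (nat_lit 129) (nat_lit 7) (nat_lit 9) (nat_lit 2) (nat_lit 7) (nat_lit 9) (nat_lit 3) (by decide +kernel)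
theorem L95142 : W_34 (nat_lit 3) (nat_lit 0x200010001000080000000600030001000080000000000) (nat_lit 0x0) (nat_lit 0x300018000800000000000000000000000) := T_34 (nat_lit 111) (nat_lit 128) (nat_lit 5) (nat_lit 9) (nat_lit 4) L95141 (by decide +kernel)
theorem L95143 : W_34 (nat_lit 4) (nat_lit 0x200010001000080000000600030001000000000000000) (nat_lit 0x0) (nat_lit 0x300018000800000000000080004000000) := T_34 (nat_lit 43) (nat_lit 26) (nat_lit 5) (nat_lit 9) (nat_lit 1) L95142 (by decide +kernel)
theorem L95144 : W_34 (nat_lit 2) (nat_lit 0x200010001000080000000e00078002000000000000000) (nat_lit 0x0) (nat_lit 0x100008000000000000000100000000000) := D_34 (nat_lit 111) (nat_lit 128) (nat_lit 44) (nat_lit 6) (nat_lit 9) (nat_lit 7) (nat_lit 5) (nat_lit 10) (nat_lit 2) (by decide +kernel)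
theorem L95145 : W_34 (nat_lit 3) (nat_lit 0x200010001000080000000e00078000000000000000000) (nat_lit 0x0) (nat_lit 0x100008000000000006000100000000000) := T_34 (nat_lit 61) (nat_lit 62) (nat_lit 2) (nat_lit 7) (nat_lit 4) L95144 (by decide +kernel)
theorem L95146 : W_34 (nat_lit 4) (nat_lit 0x200010001000080000000600078000000000000000000) (nat_lit 0x0) (nat_lit 0x100008001800000006000100000000000) := T_34 (nat_lit 95) (nat_lit 96) (nat_lit 3) (nat_lit 7) (nat_lit 4) L95145 (by decide +kernel)
theorem L95147 : W_34 (nat_lit 2) (nat_lit 0x200010001000080000000e000300010000c0000000000) (nat_lit 0x0) (nat_lit 0x100000c000000000000000000) := D_34 (nat_lit 75) (nat_lit 74) (nat_lit 96) (nat_lit 3) (nat_lit 6) (nat_lit 4) (nat_lit 0) (nat_lit 11) (nat_lit 5) (by decide +kernel)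
theorem L95148 : W_34 (nat_lit 3) (nat_lit 0x2000100010000800000006000300010000c0000000000) (nat_lit 0x0) (nat_lit 0x1000180000c000000000000000000) := T_34 (nat_lit 95) (nat_lit 112) (nat_lit 7) (nat_lit 9) (nat_lit 2) L95147 (by decide +kernel)
theorem L95149 : W_34 (nat_lit 4) (nat_lit 0x200010001000080000000600030001000080000000000) (nat_lit 0x0) (nat_lit 0x1000180000c000000040002000000) := T_34 (nat_lit 42) (nat_lit 25) (nat_lit 4) (nat_lit 9) (nat_lit 5) L95148 (by decide +kernel)
theorem L95150 : W_34 (nat_lit 5) (nat_lit 0x200010001000080000000600030001000000000000000) (nat_lit 0x0) (nat_lit 0x1000180000c0000000c0006000000) := T_34 (nat_lit 43) (nat_lit 26) (nat_lit 5) (nat_lit 9) (nat_lit 1) L95149 (by decide +kernel)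
theorem L95151 : W_34 (nat_lit 8) (nat_lit 0x200010001000080000000600030000000000000000000) (nat_lit 0x0) (nat_lit 0x30007800180004c00f8001c0006000000) := Q_34 (nat_lit 60) (C_34 L95143 (C_34 L95150 (C_34 L95134 (C_34 L95117 N_34)))) (by decide +kernel)
theorem L95152 : W_34 (nat_lit 2) (nat_lit 0x200010001000080000000e00030000000000000000000) (nat_lit 0x0) (nat_lit 0x3000008000000000000000000) := D_34 (nat_lit 96) (nat_lit 75) (nat_lit 97) (nat_lit 0) (nat_lit 11) (nat_lit 5) (nat_lit 0) (nat_lit 12) (nat_lit 5) (by decide +kernel)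
theorem L95153 : W_34 (nat_lit 2) (nat_lit 0x200010001000080000000e00030001000000000000000) (nat_lit 0x0) (nat_lit 0x10000000000000000080004000000) := D_34 (nat_lit 43) (nat_lit 26) (nat_lit 112) (nat_lit 5) (nat_lit 9) (nat_lit 1) (nat_lit 7) (nat_lit 9) (nat_lit 2) (by decide +kernel)
theorem L95154 : W_34 (nat_lit 2) (nat_lit 0x200010001000080008000e00030001000040000000000) (nat_lit 0x0) (nat_lit 0x80006000000) := D_34 (nat_lit 43) (nat_lit 25) (nat_lit 26) (nat_lit 4) (nat_lit 9) (nat_lit 5) (nat_lit 5) (nat_lit 9) (nat_lit 1) (by decide +kernel)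
theorem L95155 : W_34 (nat_lit 3) (nat_lit 0x200010001000080008000e00030001000000000000000) (nat_lit 0x0) (nat_lit 0x8000c0006000000) := T_34 (nat_lit 42) (nat_lit 59) (nat_lit 7) (nat_lit 8) (nat_lit 2) L95154 (by decide +kernel)
theorem L95156 : W_34 (nat_lit 4) (nat_lit 0x200010001000080000000e00030001000000000000000) (nat_lit 0x0) (nat_lit 0x1000080000000000008000c0006000000) := T_34 (nat_lit 111) (nat_lit 128) (nat_lit 5) (nat_lit 9) (nat_lit 4) L95155 (by decide +kernel)
theorem L95157 : W_34 (nat_lit 2) (nat_lit 0x200010001000080008000e00070000800000000000000) (nat_lit 0x0) (nat_lit 0x180000400000000000000) := D_34 (nat_lit 79) (nat_lit 80) (nat_lit 58) (nat_lit 1) (nat_lit 12) (nat_lit 4) (nat_lit 0) (nat_lit 11) (nat_lit 4) (by decide +kernel)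
theorem L95158 : W_34 (nat_lit 3) (nat_lit 0x200010001000080008000e00070000000000000000000) (nat_lit 0x0) (nat_lit 0x180000c00040000000000) := T_34 (nat_lit 59) (nat_lit 42) (nat_lit 7) (nat_lit 8) (nat_lit 2) L95157 (by decide +kernel)
theorem L95159 : W_34 (nat_lit 4) (nat_lit 0x200010001000080000000e00070000000000000000000) (nat_lit 0x0) (nat_lit 0x100008000000180000c00040000000000) := T_34 (nat_lit 111) (nat_lit 128) (nat_lit 5) (nat_lit 9) (nat_lit 4) L95158 (by decide +kernel)
theorem L95160 : W_34 (nat_lit 2) (nat_lit 0x200010001000080000000600038000000000000000000) (nat_lit 0x0) (nat_lit 0x800006000000000000000000) := D_34 (nat_lit 74) (nat_lit 95) (nat_lit 73) (nat_lit 3) (nat_lit 6) (nat_lit 4) (nat_lit 3) (nat_lit 5) (nat_lit 4) (by decide +kernel)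
theorem L95161 : W_34 (nat_lit 2) (nat_lit 0x20001000100008000800068003c000600040000000000) (nat_lit 0x0) (nat_lit 0x1000000000000000020001000000) := D_34 (nat_lit 41) (nat_lit 24) (nat_lit 108) (nat_lit 7) (nat_lit 7) (nat_lit 1) (nat_lit 6) (nat_lit 6) (nat_lit 6) (by decide +kernel)
theorem L95162 : W_34 (nat_lit 3) (nat_lit 0x20001000100008000800068003c000200040000000000) (nat_lit 0x0) (nat_lit 0x1000000040000400020001000000) := T_34 (nat_lit 58) (nat_lit 78) (nat_lit 0) (nat_lit 10) (nat_lit 4) L95161 (by decide +kernel)
theorem L95163 : W_34 (nat_lit 4) (nat_lit 0x20001000100008000800068003c000000040000000000) (nat_lit 0x0) (nat_lit 0x1000000040000700020001000000) := T_34 (nat_lit 57) (nat_lit 56) (nat_lit 0) (nat_lit 9) (nat_lit 4) L95162 (by decide +kernel)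
theorem L95164 : W_34 (nat_lit 5) (nat_lit 0x20001000100008000800060003c000000040000000000) (nat_lit 0x0) (nat_lit 0x10000c0040000700020001000000) := T_34 (nat_lit 91) (nat_lit 90) (nat_lit 1) (nat_lit 9) (nat_lit 4) L95163 (by decide +kernel)
theorem L95165 : W_34 (nat_lit 6) (nat_lit 0x200010001000080008000600038000000040000000000) (nat_lit 0x0) (nat_lit 0x10000c0046000700020001000000) := T_34 (nat_lit 74) (nat_lit 73) (nat_lit 3) (nat_lit 5) (nat_lit 4) L95164 (by decide +kernel)
theorem L95166 : W_34 (nat_lit 7) (nat_lit 0x200010001000080008000600038000000000000000000) (nat_lit 0x0) (nat_lit 0x10000c0046000f00060001000000) := T_34 (nat_lit 42) (nat_lit 59) (nat_lit 7) (nat_lit 8) (nat_lit 2) L95165 (by decide +kernel)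
theorem L95167 : W_34 (nat_lit 8) (nat_lit 0x200010001000080000000600038000000000000000000) (nat_lit 0x0) (nat_lit 0x1000090000c0046000f00060001000000) := T_34 (nat_lit 111) (nat_lit 128) (nat_lit 5) (nat_lit 9) (nat_lit 4) L95166 (by decide +kernel)
theorem L95168 : W_34 (nat_lit 2) (nat_lit 0x200010001000080008000600030001000040000000000) (nat_lit 0x0) (nat_lit 0x80006000000) := D_34 (nat_lit 43) (nat_lit 25) (nat_lit 26) (nat_lit 4) (nat_lit 9) (nat_lit 5) (nat_lit 5) (nat_lit 9) (nat_lit 1) (by decide +kernel)
theorem L95169 : W_34 (nat_lit 3) (nat_lit 0x200010001000080008000600030001000000000000000) (nat_lit 0x0) (nat_lit 0x8000c0006000000) := T_34 (nat_lit 42) (nat_lit 59) (nat_lit 7) (nat_lit 8) (nat_lit 2) L95168 (by decide +kernel)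
theorem L95170 : W_34 (nat_lit 4) (nat_lit 0x200010001000080000000600030001000000000000000) (nat_lit 0x0) (nat_lit 0x1000080000000000008000c0006000000) := T_34 (nat_lit 111) (nat_lit 128) (nat_lit 5) (nat_lit 9) (nat_lit 4) L95169 (by decide +kernel)
theorem L95171 : W_34 (nat_lit 2) (nat_lit 0x2000100010000800000016000f8001000000000000000) (nat_lit 0x0) (nat_lit 0xe00000000000000) := D_34 (nat_lit 58) (nat_lit 59) (nat_lit 57) (nat_lit 0) (nat_lit 11) (nat_lit 4) (nat_lit 0) (nat_lit 10) (nat_lit 4) (by decide +kernel)
theorem L95172 : W_34 (nat_lit 3) (nat_lit 0x2000100010000800000016000f0001000000000000000) (nat_lit 0x0) (nat_lit 0x800008000e00000000000000) := T_34 (nat_lit 75) (nat_lit 95) (nat_lit 3) (nat_lit 7) (nat_lit 4) L95171 (by decide +kernel)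
theorem L95173 : W_34 (nat_lit 4) (nat_lit 0x2000100010000800000006000f0001000000000000000) (nat_lit 0x0) (nat_lit 0x3800008000e00000000000000) := T_34 (nat_lit 96) (nat_lit 97) (nat_lit 3) (nat_lit 8) (nat_lit 4) L95172 (by decide +kernel)
theorem L95174 : W_34 (nat_lit 5) (nat_lit 0x200010001000080000000600070001000000000000000) (nat_lit 0x0) (nat_lit 0x3800188000e00000000000000) := T_34 (nat_lit 79) (nat_lit 80) (nat_lit 1) (nat_lit 12) (nat_lit 4) L95173 (by decide +kernel)
theorem L95175 : W_34 (nat_lit 2) (nat_lit 0x2000100010000800080006000f0000000000000000000) (nat_lit 0x0) (nat_lit 0xc00040000000000) := D_34 (nat_lit 59) (nat_lit 42) (nat_lit 58) (nat_lit 7) (nat_lit 8) (nat_lit 2) (nat_lit 0) (nat_lit 11) (nat_lit 4) (by decide +kernel)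
theorem L95176 : W_34 (nat_lit 3) (nat_lit 0x2000100010000800000006000f0000000000000000000) (nat_lit 0x0) (nat_lit 0x100008000000000000c00040000000000) := T_34 (nat_lit 111) (nat_lit 128) (nat_lit 5) (nat_lit 9) (nat_lit 4) L95175 (by decide +kernel)
theorem L95177 : W_34 (nat_lit 4) (nat_lit 0x200010001000080000000600070000000000000000000) (nat_lit 0x0) (nat_lit 0x100008000000180000c00040000000000) := T_34 (nat_lit 79) (nat_lit 80) (nat_lit 1) (nat_lit 12) (nat_lit 4) L95176 (by decide +kernel)
theorem L95178 : W_34 (nat_lit 2) (nat_lit 0x200010009000080020001e000f0004800000002000000) (nat_lit 0x0) (nat_lit 0x10000000000000000200010000000) := D_34 (nat_lit 45) (nat_lit 28) (nat_lit 112) (nat_lit 5) (nat_lit 11) (nat_lit 1) (nat_lit 5) (nat_lit 11) (nat_lit 2) (by decide +kernel)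
theorem L95179 : W_34 (nat_lit 3) (nat_lit 0x200010009000080020001e000f0000800000002000000) (nat_lit 0x0) (nat_lit 0x1000000000000c000200010000000) := T_34 (nat_lit 62) (nat_lit 63) (nat_lit 2) (nat_lit 8) (nat_lit 4) L95178 (by decide +kernel)
theorem L95180 : W_34 (nat_lit 4) (nat_lit 0x200010001000080020001e000f0000800000002000000) (nat_lit 0x0) (nat_lit 0x800040001000000000000c000200010000000) := T_34 (nat_lit 147) (nat_lit 130) (nat_lit 4) (nat_lit 11) (nat_lit 8) L95179 (by decide +kernel)
theorem L95181 : W_34 (nat_lit 5) (nat_lit 0x200010001000080020001e000f0000800000000000000) (nat_lit 0x0) (nat_lit 0x800040001000000000000c000240012000000) := T_34 (nat_lit 25) (nat_lit 42) (nat_lit 7) (nat_lit 8) (nat_lit 1) L95180 (by decide +kernel)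
theorem L95182 : W_34 (nat_lit 6) (nat_lit 0x200010001000080000001e000f0000800000000000000) (nat_lit 0x0) (nat_lit 0x800040007000000000000c000240012000000) := T_34 (nat_lit 113) (nat_lit 114) (nat_lit 3) (nat_lit 8) (nat_lit 5) L95181 (by decide +kernel)
theorem L95183 : W_34 (nat_lit 7) (nat_lit 0x2000100010000800000016000f0000800000000000000) (nat_lit 0x0) (nat_lit 0x800040007000080000800c000240012000000) := T_34 (nat_lit 95) (nat_lit 75) (nat_lit 3) (nat_lit 7) (nat_lit 4) L95182 (by decide +kernel)
theorem L95184 : W_34 (nat_lit 8) (nat_lit 0x2000100010000800000006000f0000800000000000000) (nat_lit 0x0) (nat_lit 0x800040007000380000800c000240012000000) := T_34 (nat_lit 96) (nat_lit 97) (nat_lit 3) (nat_lit 8) (nat_lit 4) L95183 (by decide +kernel)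
theorem L95185 : W_34 (nat_lit 9) (nat_lit 0x2000100010000800000006000f0000000000000000000) (nat_lit 0x0) (nat_lit 0x800040007000380000800cc00240012000000) := T_34 (nat_lit 59) (nat_lit 58) (nat_lit 0) (nat_lit 11) (nat_lit 4) L95184 (by decide +kernel)
theorem L95186 : W_34 (nat_lit 10) (nat_lit 0x200010001000080000000600070000000000000000000) (nat_lit 0x0) (nat_lit 0x800040007000380018800cc00240012000000) := T_34 (nat_lit 79) (nat_lit 80) (nat_lit 1) (nat_lit 12) (nat_lit 4) L95185 (by decide +kernel)
theorem L95187 : W_34 (nat_lit 2) (nat_lit 0x20001000100008000000060007c000000000000000000) (nat_lit 0x0) (nat_lit 0x700000000000000) := D_34 (nat_lit 57) (nat_lit 58) (nat_lit 56) (nat_lit 0) (nat_lit 10) (nat_lit 4) (nat_lit 0) (nat_lit 9) (nat_lit 4) (by decide +kernel)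
theorem L95188 : W_34 (nat_lit 3) (nat_lit 0x200010001000080000000600078000000000000000000) (nat_lit 0x0) (nat_lit 0x6000700000000000000) := T_34 (nat_lit 74) (nat_lit 73) (nat_lit 3) (nat_lit 5) (nat_lit 4) L95187 (by decide +kernel)
theorem L95189 : W_34 (nat_lit 2) (nat_lit 0x200010001000080000000e000700010000c0000000000) (nat_lit 0x0) (nat_lit 0x100000c000000000000000000) := D_34 (nat_lit 75) (nat_lit 96) (nat_lit 74) (nat_lit 3) (nat_lit 7) (nat_lit 4) (nat_lit 3) (nat_lit 6) (nat_lit 4) (by decide +kernel)
theorem L95190 : W_34 (nat_lit 3) (nat_lit 0x2000100010000800000006000700010000c0000000000) (nat_lit 0x0) (nat_lit 0x1000180000c000000000000000000) := T_34 (nat_lit 95) (nat_lit 112) (nat_lit 7) (nat_lit 9) (nat_lit 2) L95189 (by decide +kernel)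
theorem L95191 : W_34 (nat_lit 4) (nat_lit 0x200010001000080000000600070001000080000000000) (nat_lit 0x0) (nat_lit 0x1000180000c000000040002000000) := T_34 (nat_lit 42) (nat_lit 25) (nat_lit 4) (nat_lit 9) (nat_lit 5) L95190 (by decide +kernel)
theorem L95192 : W_34 (nat_lit 5) (nat_lit 0x200010001000080000000600070001000000000000000) (nat_lit 0x0) (nat_lit 0x1000180000c0000000c0006000000) := T_34 (nat_lit 43) (nat_lit 26) (nat_lit 5) (nat_lit 9) (nat_lit 1) L95191 (by decide +kernel)
theorem L95193 : W_34 (nat_lit 2) (nat_lit 0x200010001000080000000600078002000000000000000) (nat_lit 0x0) (nat_lit 0x6001000000000000000) := D_34 (nat_lit 74) (nat_lit 60) (nat_lit 73) (nat_lit 2) (nat_lit 6) (nat_lit 4) (nat_lit 3) (nat_lit 5) (nat_lit 4) (by decide +kernel)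
theorem L95194 : W_34 (nat_lit 3) (nat_lit 0x200010001000080000000600070002000000000000000) (nat_lit 0x0) (nat_lit 0xe005000000000000000) := T_34 (nat_lit 75) (nat_lit 62) (nat_lit 2) (nat_lit 7) (nat_lit 4) L95193 (by decide +kernel)
theorem L95195 : W_34 (nat_lit 2) (nat_lit 0x20001000100008000000060006000f000080008000000) (nat_lit 0x0) (nat_lit 0x10000800000000000000004000000) := D_34 (nat_lit 95) (nat_lit 112) (nat_lit 26) (nat_lit 7) (nat_lit 9) (nat_lit 2) (nat_lit 7) (nat_lit 9) (nat_lit 1) (by decide +kernel)
theorem L95196 : W_34 (nat_lit 3) (nat_lit 0x20001000100008000000060006000f000000008000000) (nat_lit 0x0) (nat_lit 0x100008000000000000c0004000000) := T_34 (nat_lit 43) (nat_lit 42) (nat_lit 0) (nat_lit 12) (nat_lit 3) L95195 (by decide +kernel)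
theorem L95197 : W_34 (nat_lit 4) (nat_lit 0x20001000100008000000060006000e000000008000000) (nat_lit 0x0) (nat_lit 0x100008000100010000c0004000000) := T_34 (nat_lit 60) (nat_lit 76) (nat_lit 1) (nat_lit 12) (nat_lit 3) L95196 (by decide +kernel)
theorem L95198 : W_34 (nat_lit 5) (nat_lit 0x200010001000080000000600060006000000008000000) (nat_lit 0x0) (nat_lit 0x100008000100190000c0004000000) := T_34 (nat_lit 63) (nat_lit 64) (nat_lit 1) (nat_lit 13) (nat_lit 3) L95197 (by decide +kernel)
theorem L95199 : W_34 (nat_lit 6) (nat_lit 0x200010001000080000000600060006000000000000000) (nat_lit 0x0) (nat_lit 0x100008000100190001c000c000000) := T_34 (nat_lit 27) (nat_lit 44) (nat_lit 5) (nat_lit 10) (nat_lit 1) L95198 (by decide +kernel)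
theorem L95200 : W_34 (nat_lit 2) (nat_lit 0x20001000100008000000060006000e000000000000000) (nat_lit 0x0) (nat_lit 0x18001000000000000000) := D_34 (nat_lit 76) (nat_lit 75) (nat_lit 60) (nat_lit 2) (nat_lit 7) (nat_lit 4) (nat_lit 1) (nat_lit 12) (nat_lit 3) (by decide +kernel)
theorem L95201 : W_34 (nat_lit 3) (nat_lit 0x200010001000080000000600060006000000000000000) (nat_lit 0x0) (nat_lit 0x18019000000000000000) := T_34 (nat_lit 63) (nat_lit 64) (nat_lit 1) (nat_lit 13) (nat_lit 3) L95200 (by decide +kernel)
theorem L95202 : W_34 (nat_lit 2) (nat_lit 0x200010001000080008000e00060001000040000000000) (nat_lit 0x0) (nat_lit 0x80006000000) := D_34 (nat_lit 43) (nat_lit 25) (nat_lit 26) (nat_lit 4) (nat_lit 9) (nat_lit 5) (nat_lit 7) (nat_lit 9) (nat_lit 1) (by decide +kernel)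
theorem L95203 : W_34 (nat_lit 3) (nat_lit 0x200010001000080008000e00060001000000000000000) (nat_lit 0x0) (nat_lit 0x8000c0006000000) := T_34 (nat_lit 42) (nat_lit 59) (nat_lit 4) (nat_lit 9) (nat_lit 6) L95202 (by decide +kernel)
theorem L95204 : W_34 (nat_lit 4) (nat_lit 0x200010001000080000000e00060001000000000000000) (nat_lit 0x0) (nat_lit 0x1000080000000000008000c0006000000) := T_34 (nat_lit 111) (nat_lit 128) (nat_lit 5) (nat_lit 9) (nat_lit 4) L95203 (by decide +kernel)
theorem L95205 : W_34 (nat_lit 5) (nat_lit 0x200010001000080000000600070000000000000000000) (nat_lit 0x0) (nat_lit 0x10000800180000e006700100000000000) := Q_34 (nat_lit 75) (C_34 L95188 (C_34 L95146 N_34)) (by decide +kernel)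
theorem L95206 : W_34 (nat_lit 2) (nat_lit 0x200010001000080000000600070002000100000000000) (nat_lit 0x0) (nat_lit 0x100008000000000001000000000000000) := D_34 (nat_lit 111) (nat_lit 128) (nat_lit 60) (nat_lit 6) (nat_lit 9) (nat_lit 7) (nat_lit 6) (nat_lit 9) (nat_lit 6) (by decide +kernel)
theorem L95207 : W_34 (nat_lit 3) (nat_lit 0x200010001000080000000600070002000000000000000) (nat_lit 0x0) (nat_lit 0x100008000000000001000100008000000) := T_34 (nat_lit 44) (nat_lit 27) (nat_lit 5) (nat_lit 10) (nat_lit 1) L95206 (by decide +kernel)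
theorem L95208 : W_34 (nat_lit 2) (nat_lit 0x2000100010000800000006000600030001c0004000000) (nat_lit 0x0) (nat_lit 0x4000030000000000) := D_34 (nat_lit 41) (nat_lit 62) (nat_lit 40) (nat_lit 3) (nat_lit 7) (nat_lit 2) (nat_lit 3) (nat_lit 6) (nat_lit 2) (by decide +kernel)
theorem L95209 : W_34 (nat_lit 3) (nat_lit 0x2000100010000800000006000600010001c0004000000) (nat_lit 0x0) (nat_lit 0x6000030000000200) := T_34 (nat_lit 61) (nat_lit 9) (nat_lit 7) (nat_lit 9) (nat_lit 0) L95208 (by decide +kernel)
theorem L95210 : W_34 (nat_lit 4) (nat_lit 0x2000100010000800000006000600010001c0000000000) (nat_lit 0x0) (nat_lit 0x10006000030004000200) := T_34 (nat_lit 26) (nat_lit 76) (nat_lit 5) (nat_lit 9) (nat_lit 1) L95209 (by decide +kernel)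
theorem L95211 : W_34 (nat_lit 5) (nat_lit 0x2000100010000800000006000600010000c0000000000) (nat_lit 0x0) (nat_lit 0x1000600013000c000200) := T_34 (nat_lit 44) (nat_lit 27) (nat_lit 6) (nat_lit 9) (nat_lit 5) L95210 (by decide +kernel)
theorem L95212 : W_34 (nat_lit 6) (nat_lit 0x200010001000080000000600060001000080000000000) (nat_lit 0x0) (nat_lit 0x1000600017000e000200) := T_34 (nat_lit 42) (nat_lit 25) (nat_lit 4) (nat_lit 9) (nat_lit 5) L95211 (by decide +kernel)
theorem L95213 : W_34 (nat_lit 2) (nat_lit 0x200010001000080000000e00060001000000000000000) (nat_lit 0x0) (nat_lit 0x200010000000000000000080000000000) := D_34 (nat_lit 112) (nat_lit 129) (nat_lit 43) (nat_lit 4) (nat_lit 10) (nat_lit 7) (nat_lit 7) (nat_lit 9) (nat_lit 2) (by decide +kernel)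
theorem L95214 : W_34 (nat_lit 2) (nat_lit 0x200010001000080018000600060001a00080000000000) (nat_lit 0x0) (nat_lit 0x2000100008000000) := D_34 (nat_lit 44) (nat_lit 27) (nat_lit 61) (nat_lit 6) (nat_lit 9) (nat_lit 5) (nat_lit 6) (nat_lit 9) (nat_lit 6) (by decide +kernel)
theorem L95215 : W_34 (nat_lit 3) (nat_lit 0x200010001000080018000600060001a00000000000000) (nat_lit 0x0) (nat_lit 0x800000002000180008000000) := T_34 (nat_lit 43) (nat_lit 95) (nat_lit 7) (nat_lit 9) (nat_lit 2) L95214 (by decide +kernel)
theorem L95216 : W_34 (nat_lit 4) (nat_lit 0x200010001000080008000600060001a00000000000000) (nat_lit 0x0) (nat_lit 0x200010000800000002000180008000000) := T_34 (nat_lit 112) (nat_lit 129) (nat_lit 7) (nat_lit 9) (nat_lit 3) L95215 (by decide +kernel)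
theorem L95217 : W_34 (nat_lit 5) (nat_lit 0x200010001000080008000600060001800000000000000) (nat_lit 0x0) (nat_lit 0x200010000800000002600180008000000) := T_34 (nat_lit 57) (nat_lit 58) (nat_lit 3) (nat_lit 6) (nat_lit 3) L95216 (by decide +kernel)
theorem L95218 : W_34 (nat_lit 6) (nat_lit 0x200010001000080008000600060001000000000000000) (nat_lit 0x0) (nat_lit 0x200010000800000002e001c0008000000) := T_34 (nat_lit 59) (nat_lit 42) (nat_lit 4) (nat_lit 9) (nat_lit 6) L95217 (by decide +kernel)
theorem L95219 : W_34 (nat_lit 2) (nat_lit 0x200010001000080018000600060003000080000000000) (nat_lit 0x0) (nat_lit 0x10000000000004000200) := D_34 (nat_lit 26) (nat_lit 9) (nat_lit 76) (nat_lit 7) (nat_lit 9) (nat_lit 0) (nat_lit 5) (nat_lit 9) (nat_lit 1) (by decide +kernel)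
theorem L95220 : W_34 (nat_lit 3) (nat_lit 0x200010001000080018000600060003000000000000000) (nat_lit 0x0) (nat_lit 0x800010000000080004000200) := T_34 (nat_lit 43) (nat_lit 95) (nat_lit 7) (nat_lit 9) (nat_lit 2) L95219 (by decide +kernel)
theorem L95221 : W_34 (nat_lit 4) (nat_lit 0x200010001000080008000600060003000000000000000) (nat_lit 0x0) (nat_lit 0x200010000800010000000080004000200) := T_34 (nat_lit 112) (nat_lit 129) (nat_lit 7) (nat_lit 9) (nat_lit 3) L95220 (by decide +kernel)
theorem L95222 : W_34 (nat_lit 5) (nat_lit 0x200010001000080008000600060001000000000000000) (nat_lit 0x0) (nat_lit 0x200010000800010002000180004000200) := T_34 (nat_lit 61) (nat_lit 44) (nat_lit 6) (nat_lit 9) (nat_lit 6) L95221 (by decide +kernel)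
theorem L95223 : W_34 (nat_lit 8) (nat_lit 0x200010001000080008000600060000000000000000000) (nat_lit 0x0) (nat_lit 0x20001000080001c007e001f000f000200) := Q_34 (nat_lit 60) (C_34 L94921 (C_34 L94930 (C_34 L95218 (C_34 L95222 N_34)))) (by decide +kernel)
theorem L95224 : W_34 (nat_lit 9) (nat_lit 0x200010001000080000000600060000000000000000000) (nat_lit 0x0) (nat_lit 0x30001800080001c007e001f000f000200) := T_34 (nat_lit 111) (nat_lit 128) (nat_lit 5) (nat_lit 9) (nat_lit 4) L95223 (by decide +kernel)
theorem L95225 : W_34 (nat_lit 2) (nat_lit 0x200010001000080008003e00060000000000000000000) (nat_lit 0x0) (nat_lit 0xe0000000000000000000000000000) := D_34 (nat_lit 114) (nat_lit 113) (nat_lit 115) (nat_lit 3) (nat_lit 8) (nat_lit 5) (nat_lit 3) (nat_lit 9) (nat_lit 5) (by decide +kernel)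
theorem L95226 : W_34 (nat_lit 3) (nat_lit 0x200010001000080008001e00060000000000000000000) (nat_lit 0x0) (nat_lit 0xe0006000000000000000000000000) := T_34 (nat_lit 97) (nat_lit 98) (nat_lit 0) (nat_lit 13) (nat_lit 5) L95225 (by decide +kernel)
theorem L95227 : W_34 (nat_lit 4) (nat_lit 0x200010001000080000001e00060000000000000000000) (nat_lit 0x0) (nat_lit 0x1000e8006000000000000000000000000) := T_34 (nat_lit 111) (nat_lit 128) (nat_lit 5) (nat_lit 9) (nat_lit 4) L95226 (by decide +kernel)
theorem L95228 : W_34 (nat_lit 2) (nat_lit 0x200010001000080010000e00060000000000000000000) (nat_lit 0x0) (nat_lit 0x4000200000000000000001000000000000000) := D_34 (nat_lit 129) (nat_lit 60) (nat_lit 146) (nat_lit 4) (nat_lit 10) (nat_lit 7) (nat_lit 4) (nat_lit 10) (nat_lit 8) (by decide +kernel)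
theorem L95229 : W_34 (nat_lit 2) (nat_lit 0x200010001000080000000e000f00050003c0000000000) (nat_lit 0x0) (nat_lit 0xc00400000000000) := D_34 (nat_lit 59) (nat_lit 46) (nat_lit 58) (nat_lit 1) (nat_lit 12) (nat_lit 2) (nat_lit 1) (nat_lit 11) (nat_lit 2) (by decide +kernel)
theorem L95230 : W_34 (nat_lit 3) (nat_lit 0x200010001000080000000e000f00050002c0000000000) (nat_lit 0x0) (nat_lit 0xc00500008000000) := T_34 (nat_lit 44) (nat_lit 27) (nat_lit 6) (nat_lit 9) (nat_lit 5) L95229 (by decide +kernel)
theorem L95231 : W_34 (nat_lit 4) (nat_lit 0x200010001000080000000e000f0005000280000000000) (nat_lit 0x0) (nat_lit 0xc0054000a000000) := T_34 (nat_lit 42) (nat_lit 25) (nat_lit 4) (nat_lit 9) (nat_lit 5) L95230 (by decide +kernel)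
theorem L95232 : W_34 (nat_lit 5) (nat_lit 0x200010001000080000000e000f0005000080000000000) (nat_lit 0x0) (nat_lit 0xc0074001a000000) := T_34 (nat_lit 45) (nat_lit 28) (nat_lit 5) (nat_lit 11) (nat_lit 1) L95231 (by decide +kernel)
theorem L95233 : W_34 (nat_lit 6) (nat_lit 0x2000100010000800000006000f0005000080000000000) (nat_lit 0x0) (nat_lit 0x10000800000000c0074001a000000) := T_34 (nat_lit 95) (nat_lit 112) (nat_lit 7) (nat_lit 9) (nat_lit 2) L95232 (by decide +kernel)
theorem L95234 : W_34 (nat_lit 7) (nat_lit 0x2000100010000800000006000f0001000080000000000) (nat_lit 0x0) (nat_lit 0x1000080000000cc0074001a000000) := T_34 (nat_lit 62) (nat_lit 63) (nat_lit 2) (nat_lit 8) (nat_lit 4) L95233 (by decide +kernel)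
theorem L95235 : W_34 (nat_lit 8) (nat_lit 0x2000100010000800000006000f0001000000000000000) (nat_lit 0x0) (nat_lit 0x1000080000000cc007c001e000000) := T_34 (nat_lit 43) (nat_lit 26) (nat_lit 5) (nat_lit 9) (nat_lit 1) L95234 (by decide +kernel)
theorem L95236 : W_34 (nat_lit 9) (nat_lit 0x200010001000080000000600070001000000000000000) (nat_lit 0x0) (nat_lit 0x1000080018000cc007c001e000000) := T_34 (nat_lit 79) (nat_lit 80) (nat_lit 1) (nat_lit 12) (nat_lit 4) L95235 (by decide +kernel)
theorem L95237 : W_34 (nat_lit 2) (nat_lit 0x2000100010000800000016000f0005600180000000000) (nat_lit 0x0) (nat_lit 0x60002000000) := D_34 (nat_lit 42) (nat_lit 25) (nat_lit 41) (nat_lit 4) (nat_lit 9) (nat_lit 5) (nat_lit 1) (nat_lit 10) (nat_lit 2) (by decide +kernel)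
theorem L95238 : W_34 (nat_lit 3) (nat_lit 0x2000100010000800000016000f0005400180000000000) (nat_lit 0x0) (nat_lit 0x8000200060002000000) := T_34 (nat_lit 57) (nat_lit 75) (nat_lit 0) (nat_lit 10) (nat_lit 4) L95237 (by decide +kernel)
theorem L95239 : W_34 (nat_lit 4) (nat_lit 0x2000100010000800000006000f0005400180000000000) (nat_lit 0x0) (nat_lit 0x3000008000200060002000000) := T_34 (nat_lit 96) (nat_lit 97) (nat_lit 3) (nat_lit 8) (nat_lit 4) L95238 (by decide +kernel)
theorem L95240 : W_34 (nat_lit 5) (nat_lit 0x2000100010000800000006000f0005000180000000000) (nat_lit 0x0) (nat_lit 0x3000008000e00060002000000) := T_34 (nat_lit 58) (nat_lit 59) (nat_lit 0) (nat_lit 11) (nat_lit 4) L95239 (by decide +kernel)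
theorem L95241 : W_34 (nat_lit 6) (nat_lit 0x2000100010000800000006000f0001000180000000000) (nat_lit 0x0) (nat_lit 0x300000800ce00060002000000) := T_34 (nat_lit 62) (nat_lit 63) (nat_lit 2) (nat_lit 8) (nat_lit 4) L95240 (by decide +kernel)
theorem L95242 : W_34 (nat_lit 7) (nat_lit 0x2000100010000800000006000f0001000080000000000) (nat_lit 0x0) (nat_lit 0x300000800ce0016000a000000) := T_34 (nat_lit 44) (nat_lit 27) (nat_lit 6) (nat_lit 9) (nat_lit 5) L95241 (by decide +kernel)
theorem L95243 : W_34 (nat_lit 8) (nat_lit 0x200010001000080000000600070001000080000000000) (nat_lit 0x0) (nat_lit 0x300018800ce0016000a000000) := T_34 (nat_lit 79) (nat_lit 80) (nat_lit 1) (nat_lit 12) (nat_lit 4) L95242 (by decide +kernel)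
theorem L95244 : W_34 (nat_lit 9) (nat_lit 0x200010001000080000000600070001000000000000000) (nat_lit 0x0) (nat_lit 0x300018800ce001e000e000000) := T_34 (nat_lit 43) (nat_lit 26) (nat_lit 5) (nat_lit 9) (nat_lit 1) L95243 (by decide +kernel)
theorem L95245 : W_34 (nat_lit 10) (nat_lit 0x200010001000080000000600060001000000000000000) (nat_lit 0x0) (nat_lit 0x1000380019c00ce007e001e000000) := Q_34 (nat_lit 76) (C_34 L95174 (C_34 L95192 (C_34 L95236 (C_34 L95244 N_34)))) (by decide +kernel)
theorem L95246 : W_34 (nat_lit 2) (nat_lit 0x200010001000080018000600160001000040000000000) (nat_lit 0x0) (nat_lit 0x800000000000080002000000) := D_34 (nat_lit 43) (nat_lit 95) (nat_lit 25) (nat_lit 7) (nat_lit 9) (nat_lit 2) (nat_lit 4) (nat_lit 9) (nat_lit 5) (by decide +kernel)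
theorem L95247 : W_34 (nat_lit 3) (nat_lit 0x200010001000080008000600160001000040000000000) (nat_lit 0x0) (nat_lit 0x200010000800000000000080002000000) := T_34 (nat_lit 112) (nat_lit 129) (nat_lit 7) (nat_lit 9) (nat_lit 3) L95246 (by decide +kernel)
theorem L95248 : W_34 (nat_lit 4) (nat_lit 0x200010001000080008000600160001000000000000000) (nat_lit 0x0) (nat_lit 0x2000100008000000008000c0002000000) := T_34 (nat_lit 42) (nat_lit 59) (nat_lit 4) (nat_lit 9) (nat_lit 6) L95247 (by decide +kernel)
theorem L95249 : W_34 (nat_lit 5) (nat_lit 0x200010001000080000000600160001000000000000000) (nat_lit 0x0) (nat_lit 0x3000180008000000008000c0002000000) := T_34 (nat_lit 111) (nat_lit 128) (nat_lit 5) (nat_lit 9) (nat_lit 4) L95248 (by decide +kernel)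
theorem L95250 : W_34 (nat_lit 6) (nat_lit 0x200010001000080000000600060001000000000000000) (nat_lit 0x0) (nat_lit 0x3000180008001800008000c0002000000) := T_34 (nat_lit 80) (nat_lit 79) (nat_lit 1) (nat_lit 12) (nat_lit 4) L95249 (by decide +kernel)
theorem L95251 : W_34 (nat_lit 2) (nat_lit 0x200010001000080008000600060001c00000000000000) (nat_lit 0x0) (nat_lit 0x190000000000000000000) := D_34 (nat_lit 79) (nat_lit 80) (nat_lit 76) (nat_lit 1) (nat_lit 12) (nat_lit 4) (nat_lit 0) (nat_lit 11) (nat_lit 4) (by decide +kernel)
theorem L95252 : W_34 (nat_lit 3) (nat_lit 0x200010001000080008000600060001800000000000000) (nat_lit 0x0) (nat_lit 0x190000600000000000000) := T_34 (nat_lit 58) (nat_lit 57) (nat_lit 3) (nat_lit 6) (nat_lit 3) L95251 (by decide +kernel)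
theorem L95253 : W_34 (nat_lit 4) (nat_lit 0x200010001000080008000600060001000000000000000) (nat_lit 0x0) (nat_lit 0x190000e00040000000000) := T_34 (nat_lit 59) (nat_lit 42) (nat_lit 4) (nat_lit 9) (nat_lit 6) L95252 (by decide +kernel)
theorem L95254 : W_34 (nat_lit 5) (nat_lit 0x200010001000080000000600060001000000000000000) (nat_lit 0x0) (nat_lit 0x100008000000190000e00040000000000) := T_34 (nat_lit 111) (nat_lit 128) (nat_lit 5) (nat_lit 9) (nat_lit 4) L95253 (by decide +kernel)
theorem L95255 : W_34 (nat_lit 2) (nat_lit 0x200010001000080018000600160001000180004000000) (nat_lit 0x0) (nat_lit 0x40002000100) := D_34 (nat_lit 25) (nat_lit 8) (nat_lit 42) (nat_lit 4) (nat_lit 9) (nat_lit 4) (nat_lit 4) (nat_lit 9) (nat_lit 5) (by decide +kernel)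
theorem L95256 : W_34 (nat_lit 3) (nat_lit 0x200010001000080018000600160001000180000000000) (nat_lit 0x0) (nat_lit 0x10000000040006000100) := T_34 (nat_lit 26) (nat_lit 76) (nat_lit 5) (nat_lit 9) (nat_lit 1) L95255 (by decide +kernel)
theorem L95257 : W_34 (nat_lit 4) (nat_lit 0x200010001000080018000600160001000080000000000) (nat_lit 0x0) (nat_lit 0x1000000014000e000100) := T_34 (nat_lit 44) (nat_lit 27) (nat_lit 6) (nat_lit 9) (nat_lit 5) L95256 (by decide +kernel)
theorem L95258 : W_34 (nat_lit 5) (nat_lit 0x200010001000080018000600160001000000000000000) (nat_lit 0x0) (nat_lit 0x8000100000001c000e000100) := T_34 (nat_lit 43) (nat_lit 95) (nat_lit 7) (nat_lit 9) (nat_lit 2) L95257 (by decide +kernel)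
theorem L95259 : W_34 (nat_lit 6) (nat_lit 0x200010001000080008000600160001000000000000000) (nat_lit 0x0) (nat_lit 0x2000100008000100000001c000e000100) := T_34 (nat_lit 112) (nat_lit 129) (nat_lit 7) (nat_lit 9) (nat_lit 3) L95258 (by decide +kernel)
theorem L95260 : W_34 (nat_lit 7) (nat_lit 0x200010001000080008000600060001000000000000000) (nat_lit 0x0) (nat_lit 0x2000100008001900000001c000e000100) := T_34 (nat_lit 80) (nat_lit 79) (nat_lit 1) (nat_lit 12) (nat_lit 4) L95259 (by decide +kernel)
theorem L95261 : W_34 (nat_lit 8) (nat_lit 0x200010001000080000000600060001000000000000000) (nat_lit 0x0) (nat_lit 0x3000180008001900000001c000e000100) := T_34 (nat_lit 111) (nat_lit 128) (nat_lit 5) (nat_lit 9) (nat_lit 4) L95260 (by decide +kernel)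
theorem L95262 : W_34 (nat_lit 2) (nat_lit 0x200010001000080018000600160001000080008000000) (nat_lit 0x0) (nat_lit 0x10000000000004000400) := D_34 (nat_lit 26) (nat_lit 76) (nat_lit 10) (nat_lit 5) (nat_lit 9) (nat_lit 1) (nat_lit 6) (nat_lit 9) (nat_lit 4) (by decide +kernel)
theorem L95263 : W_34 (nat_lit 3) (nat_lit 0x200010001000080018000600160001000080000000000) (nat_lit 0x0) (nat_lit 0x1000000010000c000400) := T_34 (nat_lit 27) (nat_lit 44) (nat_lit 6) (nat_lit 9) (nat_lit 5) L95262 (by decide +kernel)
theorem L95264 : W_34 (nat_lit 4) (nat_lit 0x200010001000080018000600160001000000000000000) (nat_lit 0x0) (nat_lit 0x80001000000018000c000400) := T_34 (nat_lit 43) (nat_lit 95) (nat_lit 7) (nat_lit 9) (nat_lit 2) L95263 (by decide +kernel)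
theorem L95265 : W_34 (nat_lit 5) (nat_lit 0x200010001000080008000600160001000000000000000) (nat_lit 0x0) (nat_lit 0x20001000080001000000018000c000400) := T_34 (nat_lit 112) (nat_lit 129) (nat_lit 7) (nat_lit 9) (nat_lit 3) L95264 (by decide +kernel)
theorem L95266 : W_34 (nat_lit 6) (nat_lit 0x200010001000080008000600060001000000000000000) (nat_lit 0x0) (nat_lit 0x20001000080019000000018000c000400) := T_34 (nat_lit 80) (nat_lit 79) (nat_lit 1) (nat_lit 12) (nat_lit 4) L95265 (by decide +kernel)
theorem L95267 : W_34 (nat_lit 7) (nat_lit 0x200010001000080000000600060001000000000000000) (nat_lit 0x0) (nat_lit 0x30001800080019000000018000c000400) := T_34 (nat_lit 111) (nat_lit 128) (nat_lit 5) (nat_lit 9) (nat_lit 4) L95266 (by decide +kernel)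
theorem L95268 : W_34 (nat_lit 11) (nat_lit 0x200010001000080000000600060000000000000000000) (nat_lit 0x0) (nat_lit 0x30001800380019c00de007e001e000500) := Q_34 (nat_lit 60) (C_34 L94931 (C_34 L95245 (C_34 L95250 (C_34 L95254 (C_34 L95261 (C_34 L95267 N_34)))))) (by decide +kernel)
theorem L95269 : W_34 (nat_lit 2) (nat_lit 0x200010001000080018000e00060002000000000000000) (nat_lit 0x0) (nat_lit 0x400060000000000000000000000000000) := D_34 (nat_lit 113) (nat_lit 114) (nat_lit 130) (nat_lit 0) (nat_lit 12) (nat_lit 6) (nat_lit 7) (nat_lit 10) (nat_lit 3) (by decide +kernel)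
theorem L95270 : W_34 (nat_lit 3) (nat_lit 0x200010001000080018000e00060000000000000000000) (nat_lit 0x0) (nat_lit 0x400060000000000002000100000000000) := T_34 (nat_lit 61) (nat_lit 44) (nat_lit 5) (nat_lit 10) (nat_lit 2) L95269 (by decide +kernel)
theorem L95271 : W_34 (nat_lit 4) (nat_lit 0x200010001000080010000e00060000000000000000000) (nat_lit 0x0) (nat_lit 0x500068000000000002000100000000000) := T_34 (nat_lit 111) (nat_lit 128) (nat_lit 5) (nat_lit 9) (nat_lit 4) L95270 (by decide +kernel)
theorem L95272 : W_34 (nat_lit 5) (nat_lit 0x200010001000080000000e00060000000000000000000) (nat_lit 0x0) (nat_lit 0x4000700078000000000003000100000000000) := Q_34 (nat_lit 112) (C_34 L95228 (C_34 L95271 N_34)) (by decide +kernel)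
theorem L95273 : W_34 (nat_lit 2) (nat_lit 0x200010001000080020001e000e0000000000000000000) (nat_lit 0x0) (nat_lit 0x8000400000000000000002000000000000000) := D_34 (nat_lit 130) (nat_lit 61) (nat_lit 147) (nat_lit 4) (nat_lit 11) (nat_lit 7) (nat_lit 4) (nat_lit 11) (nat_lit 8) (by decide +kernel)
theorem L95274 : W_34 (nat_lit 3) (nat_lit 0x200010001000080020001e00060000000000000000000) (nat_lit 0x0) (nat_lit 0x8000400000000000180002000000000000000) := T_34 (nat_lit 79) (nat_lit 80) (nat_lit 2) (nat_lit 8) (nat_lit 5) L95273 (by decide +kernel)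
theorem L95275 : W_34 (nat_lit 4) (nat_lit 0x200010001000080000001e00060000000000000000000) (nat_lit 0x0) (nat_lit 0x8000400060000000180002000000000000000) := T_34 (nat_lit 113) (nat_lit 114) (nat_lit 3) (nat_lit 8) (nat_lit 5) L95274 (by decide +kernel)
theorem L95276 : W_34 (nat_lit 5) (nat_lit 0x200010001000080000000e00060000000000000000000) (nat_lit 0x0) (nat_lit 0x80005000e8007000380002000000000000000) := Q_34 (nat_lit 96) (C_34 L95227 (C_34 L94783 (C_34 L95275 N_34))) (by decide +kernel)
theorem L95277 : W_34 (nat_lit 2) (nat_lit 0x200010001000080018000e000e0017000000000000000) (nat_lit 0x0) (nat_lit 0xc00040000000000) := D_34 (nat_lit 59) (nat_lit 42) (nat_lit 58) (nat_lit 4) (nat_lit 9) (nat_lit 6) (nat_lit 3) (nat_lit 7) (nat_lit 3) (by decide +kernel)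
theorem L95278 : W_34 (nat_lit 3) (nat_lit 0x200010001000080018000e00060017000000000000000) (nat_lit 0x0) (nat_lit 0x180000c00040000000000) := T_34 (nat_lit 79) (nat_lit 80) (nat_lit 1) (nat_lit 12) (nat_lit 4) L95277 (by decide +kernel)
theorem L95279 : W_34 (nat_lit 4) (nat_lit 0x200010001000080018000e00060007000000000000000) (nat_lit 0x0) (nat_lit 0x180018c00040000000000) := T_34 (nat_lit 64) (nat_lit 63) (nat_lit 1) (nat_lit 13) (nat_lit 3) L95278 (by decide +kernel)
theorem L95280 : W_34 (nat_lit 5) (nat_lit 0x200010001000080018000e00060003000000000000000) (nat_lit 0x0) (nat_lit 0x18001cc00240000000000) := T_34 (nat_lit 62) (nat_lit 45) (nat_lit 6) (nat_lit 10) (nat_lit 6) L95279 (by decide +kernel)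
theorem L95281 : W_34 (nat_lit 6) (nat_lit 0x200010001000080008000e00060003000000000000000) (nat_lit 0x0) (nat_lit 0x20001000000018001cc00240000000000) := T_34 (nat_lit 112) (nat_lit 129) (nat_lit 7) (nat_lit 9) (nat_lit 3) L95280 (by decide +kernel)
theorem L95282 : W_34 (nat_lit 7) (nat_lit 0x200010001000080008000e00060001000000000000000) (nat_lit 0x0) (nat_lit 0x20001000000018001ec00340000000000) := T_34 (nat_lit 61) (nat_lit 44) (nat_lit 6) (nat_lit 9) (nat_lit 6) L95281 (by decide +kernel)
theorem L95283 : W_34 (nat_lit 8) (nat_lit 0x200010001000080000000e00060001000000000000000) (nat_lit 0x0) (nat_lit 0x30001800000018001ec00340000000000) := T_34 (nat_lit 111) (nat_lit 128) (nat_lit 5) (nat_lit 9) (nat_lit 4) L95282 (by decide +kernel)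
theorem L95284 : W_34 (nat_lit 9) (nat_lit 0x200010001000080000000e00060000000000000000000) (nat_lit 0x0) (nat_lit 0x30001800000018001fc003c0006000000) := Q_34 (nat_lit 60) (C_34 L95213 (C_34 L95204 (C_34 L95283 N_34))) (by decide +kernel)
theorem L95285 : W_34 (nat_lit 2) (nat_lit 0x200010001000680028001e000e0000000000000000000) (nat_lit 0x0) (nat_lit 0x10000000000005000000000000000) := D_34 (nat_lit 112) (nat_lit 62) (nat_lit 60) (nat_lit 6) (nat_lit 10) (nat_lit 7) (nat_lit 7) (nat_lit 9) (nat_lit 3) (by decide +kernel)
theorem L95286 : W_34 (nat_lit 3) (nat_lit 0x200010001000480028001e000e0000000000000000000) (nat_lit 0x0) (nat_lit 0x4000200010000000000005000000000000000) := T_34 (nat_lit 129) (nat_lit 146) (nat_lit 5) (nat_lit 11) (nat_lit 4) L95285 (by decide +kernel)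
theorem L95287 : W_34 (nat_lit 4) (nat_lit 0x200010001000080028001e000e0000000000000000000) (nat_lit 0x0) (nat_lit 0xc000600010000000000005000000000000000) := T_34 (nat_lit 130) (nat_lit 147) (nat_lit 4) (nat_lit 11) (nat_lit 8) L95286 (by decide +kernel)
theorem L95288 : W_34 (nat_lit 5) (nat_lit 0x200010001000080008001e000e0000000000000000000) (nat_lit 0x0) (nat_lit 0xc000600070000000000005000000000000000) := T_34 (nat_lit 113) (nat_lit 114) (nat_lit 3) (nat_lit 8) (nat_lit 5) L95287 (by decide +kernel)
theorem L95289 : W_34 (nat_lit 6) (nat_lit 0x200010001000080000001e000e0000000000000000000) (nat_lit 0x0) (nat_lit 0xc000700078000000000005000000000000000) := T_34 (nat_lit 111) (nat_lit 128) (nat_lit 5) (nat_lit 9) (nat_lit 4) L95288 (by decide +kernel)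
theorem L95290 : W_34 (nat_lit 7) (nat_lit 0x200010001000080000001e00060000000000000000000) (nat_lit 0x0) (nat_lit 0xc000700078000000180005000000000000000) := T_34 (nat_lit 79) (nat_lit 80) (nat_lit 2) (nat_lit 8) (nat_lit 5) L95289 (by decide +kernel)
theorem L95291 : W_34 (nat_lit 8) (nat_lit 0x200010001000080000000e00060000000000000000000) (nat_lit 0x0) (nat_lit 0xc0007000f8007000380005000000000000000) := Q_34 (nat_lit 96) (C_34 L95227 (C_34 L94783 (C_34 L95290 N_34))) (by decide +kernel)
theorem L95292 : W_34 (nat_lit 10) (nat_lit 0x200010001000080000000600060000000000000000000) (nat_lit 0x0) (nat_lit 0xc0007000f800780038001fc003c0006000000) := Q_34 (nat_lit 95) (C_34 L94784 (C_34 L95272 (C_34 L95276 (C_34 L95284 (C_34 L95291 N_34))))) (by decide +kernel)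
theorem L95293 : W_34 (nat_lit 2) (nat_lit 0x2000100010000800080006000f8004000040000000000) (nat_lit 0x0) (nat_lit 0x3800000000000000000000000) := D_34 (nat_lit 96) (nat_lit 95) (nat_lit 97) (nat_lit 3) (nat_lit 7) (nat_lit 4) (nat_lit 3) (nat_lit 8) (nat_lit 4) (by decide +kernel)
theorem L95294 : W_34 (nat_lit 3) (nat_lit 0x2000100010000800080006000f0004000040000000000) (nat_lit 0x0) (nat_lit 0x3800008002000000000000000) := T_34 (nat_lit 75) (nat_lit 61) (nat_lit 2) (nat_lit 7) (nat_lit 4) L95293 (by decide +kernel)
theorem L95295 : W_34 (nat_lit 4) (nat_lit 0x2000100010000800080006000f0000000040000000000) (nat_lit 0x0) (nat_lit 0x380000800e000000000000000) := T_34 (nat_lit 62) (nat_lit 63) (nat_lit 2) (nat_lit 8) (nat_lit 4) L95294 (by decide +kernel)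
theorem L95296 : W_34 (nat_lit 5) (nat_lit 0x200010001000080008000600070000000040000000000) (nat_lit 0x0) (nat_lit 0x380018800e000000000000000) := T_34 (nat_lit 79) (nat_lit 80) (nat_lit 1) (nat_lit 12) (nat_lit 4) L95295 (by decide +kernel)
theorem L95297 : W_34 (nat_lit 6) (nat_lit 0x200010001000080008000600070000000000000000000) (nat_lit 0x0) (nat_lit 0x380018800e800040000000000) := T_34 (nat_lit 42) (nat_lit 59) (nat_lit 7) (nat_lit 8) (nat_lit 2) L95296 (by decide +kernel)
theorem L95298 : W_34 (nat_lit 7) (nat_lit 0x200010001000080000000600070000000000000000000) (nat_lit 0x0) (nat_lit 0x10000800380018800e800040000000000) := T_34 (nat_lit 111) (nat_lit 128) (nat_lit 5) (nat_lit 9) (nat_lit 4) L95297 (by decide +kernel)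
theorem L95299 : W_34 (nat_lit 11) (nat_lit 0x200010001000080000000600060000000000000000000) (nat_lit 0x0) (nat_lit 0x800050007800380019e00ef00340012000000) := Q_34 (nat_lit 76) (C_34 L95186 (C_34 L95205 (C_34 L95177 (C_34 L95298 N_34)))) (by decide +kernel)
theorem L95300 : W_34 (nat_lit 2) (nat_lit 0x20001000100008000000060016000f000480008000000) (nat_lit 0x0) (nat_lit 0x10000800000000000000004000000) := D_34 (nat_lit 95) (nat_lit 112) (nat_lit 26) (nat_lit 7) (nat_lit 9) (nat_lit 2) (nat_lit 7) (nat_lit 9) (nat_lit 1) (by decide +kernel)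
theorem L95301 : W_34 (nat_lit 3) (nat_lit 0x20001000100008000000060016000f000400008000000) (nat_lit 0x0) (nat_lit 0x100008000000000000c0004000000) := T_34 (nat_lit 43) (nat_lit 42) (nat_lit 0) (nat_lit 12) (nat_lit 3) L95300 (by decide +kernel)
theorem L95302 : W_34 (nat_lit 4) (nat_lit 0x20001000100008000000060016000f000000008000000) (nat_lit 0x0) (nat_lit 0x10000800000000000cc0004000000) := T_34 (nat_lit 46) (nat_lit 47) (nat_lit 2) (nat_lit 9) (nat_lit 3) L95301 (by decide +kernel)
theorem L95303 : W_34 (nat_lit 5) (nat_lit 0x20001000100008000000060016000e000000008000000) (nat_lit 0x0) (nat_lit 0x10000800200001000cc0004000000) := T_34 (nat_lit 60) (nat_lit 81) (nat_lit 3) (nat_lit 9) (nat_lit 3) L95302 (by decide +kernel)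
theorem L95304 : W_34 (nat_lit 6) (nat_lit 0x20001000100008000000060016000e000000000000000) (nat_lit 0x0) (nat_lit 0x10000800200001000dc000c000000) := T_34 (nat_lit 27) (nat_lit 44) (nat_lit 5) (nat_lit 10) (nat_lit 1) L95303 (by decide +kernel)
theorem L95305 : W_34 (nat_lit 7) (nat_lit 0x200010001000080000000600160006000000000000000) (nat_lit 0x0) (nat_lit 0x10000800200019000dc000c000000) := T_34 (nat_lit 63) (nat_lit 64) (nat_lit 1) (nat_lit 13) (nat_lit 3) L95304 (by decide +kernel)
theorem L95306 : W_34 (nat_lit 8) (nat_lit 0x200010001000080000000600060006000000000000000) (nat_lit 0x0) (nat_lit 0x10000800380019000dc000c000000) := T_34 (nat_lit 80) (nat_lit 79) (nat_lit 1) (nat_lit 12) (nat_lit 4) L95305 (by decide +kernel)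
theorem L95307 : W_34 (nat_lit 2) (nat_lit 0x2000100010000800200016000f0016000000008000000) (nat_lit 0x0) (nat_lit 0x800040000800000000000000000000000) := D_34 (nat_lit 114) (nat_lit 95) (nat_lit 131) (nat_lit 3) (nat_lit 8) (nat_lit 5) (nat_lit 7) (nat_lit 11) (nat_lit 3) (by decide +kernel)
theorem L95308 : W_34 (nat_lit 3) (nat_lit 0x2000100010000800000016000f0016000000008000000) (nat_lit 0x0) (nat_lit 0xc00060000800000000000000000000000) := T_34 (nat_lit 113) (nat_lit 130) (nat_lit 4) (nat_lit 11) (nat_lit 7) L95307 (by decide +kernel)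
theorem L95309 : W_34 (nat_lit 4) (nat_lit 0x2000100010000800000006000f0016000000008000000) (nat_lit 0x0) (nat_lit 0xc00060003800000000000000000000000) := T_34 (nat_lit 96) (nat_lit 97) (nat_lit 3) (nat_lit 8) (nat_lit 4) L95308 (by decide +kernel)
theorem L95310 : W_34 (nat_lit 5) (nat_lit 0x2000100010000800000006000f0016000000000000000) (nat_lit 0x0) (nat_lit 0xc00060003800000000000100008000000) := T_34 (nat_lit 27) (nat_lit 44) (nat_lit 5) (nat_lit 10) (nat_lit 1) L95309 (by decide +kernel)
theorem L95311 : W_34 (nat_lit 6) (nat_lit 0x200010001000080000000600070016000000000000000) (nat_lit 0x0) (nat_lit 0xc00060003800180000000100008000000) := T_34 (nat_lit 79) (nat_lit 80) (nat_lit 1) (nat_lit 12) (nat_lit 4) L95310 (by decide +kernel)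
theorem L95312 : W_34 (nat_lit 7) (nat_lit 0x200010001000080000000600060016000000000000000) (nat_lit 0x0) (nat_lit 0xc00060003800198000000100008000000) := T_34 (nat_lit 76) (nat_lit 75) (nat_lit 2) (nat_lit 7) (nat_lit 4) L95311 (by decide +kernel)
theorem L95313 : W_34 (nat_lit 8) (nat_lit 0x200010001000080000000600060006000000000000000) (nat_lit 0x0) (nat_lit 0xc00060003800198018000100008000000) := T_34 (nat_lit 64) (nat_lit 63) (nat_lit 1) (nat_lit 13) (nat_lit 3) L95312 (by decide +kernel)
theorem L95314 : W_34 (nat_lit 2) (nat_lit 0x2000100010000800200016000f0006000000008000000) (nat_lit 0x0) (nat_lit 0x800040000800000000000000000000000) := D_34 (nat_lit 114) (nat_lit 95) (nat_lit 131) (nat_lit 3) (nat_lit 8) (nat_lit 5) (nat_lit 7) (nat_lit 11) (nat_lit 3) (by decide +kernel)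
theorem L95315 : W_34 (nat_lit 3) (nat_lit 0x2000100010000800000016000f0006000000008000000) (nat_lit 0x0) (nat_lit 0xc00060000800000000000000000000000) := T_34 (nat_lit 113) (nat_lit 130) (nat_lit 4) (nat_lit 11) (nat_lit 7) L95314 (by decide +kernel)
theorem L95316 : W_34 (nat_lit 4) (nat_lit 0x2000100010000800000006000f0006000000008000000) (nat_lit 0x0) (nat_lit 0xc00060003800000000000000000000000) := T_34 (nat_lit 96) (nat_lit 97) (nat_lit 3) (nat_lit 8) (nat_lit 4) L95315 (by decide +kernel)
theorem L95317 : W_34 (nat_lit 5) (nat_lit 0x2000100010000800000006000f0006000000000000000) (nat_lit 0x0) (nat_lit 0xc00060003800000000000100008000000) := T_34 (nat_lit 27) (nat_lit 44) (nat_lit 5) (nat_lit 10) (nat_lit 1) L95316 (by decide +kernel)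
theorem L95318 : W_34 (nat_lit 6) (nat_lit 0x2000100010000800000006000e0006000000000000000) (nat_lit 0x0) (nat_lit 0xc00060003800018000000100008000000) := T_34 (nat_lit 76) (nat_lit 75) (nat_lit 2) (nat_lit 7) (nat_lit 4) L95317 (by decide +kernel)
theorem L95319 : W_34 (nat_lit 7) (nat_lit 0x200010001000080000000600060006000000000000000) (nat_lit 0x0) (nat_lit 0xc00060003800198000000100008000000) := T_34 (nat_lit 79) (nat_lit 80) (nat_lit 1) (nat_lit 12) (nat_lit 4) L95318 (by decide +kernel)
theorem L95320 : W_34 (nat_lit 9) (nat_lit 0x200010001000080000000600060002000000000000000) (nat_lit 0x0) (nat_lit 0xc0007000380039801d000dc000c000000) := Q_34 (nat_lit 62) (C_34 L95201 (C_34 L95199 (C_34 L95306 (C_34 L95313 (C_34 L95319 N_34))))) (by decide +kernel)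
theorem L95321 : W_34 (nat_lit 2) (nat_lit 0x200010001000080008000600060002000000000000000) (nat_lit 0x0) (nat_lit 0x800000001000100000000000) := D_34 (nat_lit 44) (nat_lit 95) (nat_lit 60) (nat_lit 5) (nat_lit 10) (nat_lit 2) (nat_lit 6) (nat_lit 9) (nat_lit 6) (by decide +kernel)
theorem L95322 : W_34 (nat_lit 3) (nat_lit 0x200010001000080000000600060002000000000000000) (nat_lit 0x0) (nat_lit 0x100008000800000001000100000000000) := T_34 (nat_lit 111) (nat_lit 128) (nat_lit 6) (nat_lit 9) (nat_lit 7) L95321 (by decide +kernel)
theorem L95323 : W_34 (nat_lit 2) (nat_lit 0x2000100010000800280016000f0002000000000000000) (nat_lit 0x0) (nat_lit 0x50000800000000000000000000000) := D_34 (nat_lit 114) (nat_lit 95) (nat_lit 112) (nat_lit 3) (nat_lit 8) (nat_lit 5) (nat_lit 0) (nat_lit 12) (nat_lit 6) (by decide +kernel)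
theorem L95324 : W_34 (nat_lit 3) (nat_lit 0x2000100010000800080016000f0002000000000000000) (nat_lit 0x0) (nat_lit 0x400070000800000000000000000000000) := T_34 (nat_lit 113) (nat_lit 130) (nat_lit 4) (nat_lit 11) (nat_lit 7) L95323 (by decide +kernel)
theorem L95325 : W_34 (nat_lit 4) (nat_lit 0x2000100010000800080006000f0002000000000000000) (nat_lit 0x0) (nat_lit 0x400070003800000000000000000000000) := T_34 (nat_lit 96) (nat_lit 97) (nat_lit 3) (nat_lit 8) (nat_lit 4) L95324 (by decide +kernel)
theorem L95326 : W_34 (nat_lit 5) (nat_lit 0x2000100010000800000006000f0002000000000000000) (nat_lit 0x0) (nat_lit 0x500078003800000000000000000000000) := T_34 (nat_lit 111) (nat_lit 128) (nat_lit 6) (nat_lit 9) (nat_lit 7) L95325 (by decide +kernel)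
theorem L95327 : W_34 (nat_lit 6) (nat_lit 0x200010001000080000000600070002000000000000000) (nat_lit 0x0) (nat_lit 0x500078003800180000000000000000000) := T_34 (nat_lit 79) (nat_lit 80) (nat_lit 1) (nat_lit 12) (nat_lit 4) L95326 (by decide +kernel)
theorem L95328 : W_34 (nat_lit 7) (nat_lit 0x200010001000080000000600060002000000000000000) (nat_lit 0x0) (nat_lit 0x50007800380019e005000000000000000) := Q_34 (nat_lit 76) (C_34 L95194 (C_34 L95327 N_34)) (by decide +kernel)
theorem L95329 : W_34 (nat_lit 10) (nat_lit 0x200010001000080000000600060000000000000000000) (nat_lit 0x0) (nat_lit 0xd0007800380039e01f000dc000c000000) := Q_34 (nat_lit 61) (C_34 L95320 (C_34 L94878 (C_34 L94876 (C_34 L95322 (C_34 L95328 N_34))))) (by decide +kernel)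
theorem L95330 : W_34 (nat_lit 3) (nat_lit 0x2000100010000800200016000f0002000000008000000) (nat_lit 0x0) (nat_lit 0x80004000080000000c000000000000000) := T_34 (nat_lit 62) (nat_lit 63) (nat_lit 2) (nat_lit 8) (nat_lit 4) L95314 (by decide +kernel)
theorem L95331 : W_34 (nat_lit 4) (nat_lit 0x2000100010000800000016000f0002000000008000000) (nat_lit 0x0) (nat_lit 0xc0006000080000000c000000000000000) := T_34 (nat_lit 113) (nat_lit 130) (nat_lit 4) (nat_lit 11) (nat_lit 7) L95330 (by decide +kernel)
theorem L95332 : W_34 (nat_lit 5) (nat_lit 0x2000100010000800000006000f0002000000008000000) (nat_lit 0x0) (nat_lit 0xc0006000380000000c000000000000000) := T_34 (nat_lit 96) (nat_lit 97) (nat_lit 3) (nat_lit 8) (nat_lit 4) L95331 (by decide +kernel)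
theorem L95333 : W_34 (nat_lit 6) (nat_lit 0x2000100010000800000006000f0002000000000000000) (nat_lit 0x0) (nat_lit 0xc0006000380000000c000100008000000) := T_34 (nat_lit 27) (nat_lit 44) (nat_lit 5) (nat_lit 10) (nat_lit 1) L95332 (by decide +kernel)
theorem L95334 : W_34 (nat_lit 7) (nat_lit 0x200010001000080000000600070002000000000000000) (nat_lit 0x0) (nat_lit 0xc0006000380018000c000100008000000) := T_34 (nat_lit 79) (nat_lit 80) (nat_lit 1) (nat_lit 12) (nat_lit 4) L95333 (by decide +kernel)
theorem L95335 : W_34 (nat_lit 2) (nat_lit 0x2000100010000800000016000f8002000000008000000) (nat_lit 0x0) (nat_lit 0x6001000000000000000) := D_34 (nat_lit 74) (nat_lit 73) (nat_lit 60) (nat_lit 3) (nat_lit 5) (nat_lit 4) (nat_lit 2) (nat_lit 6) (nat_lit 4) (by decide +kernel)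
theorem L95336 : W_34 (nat_lit 3) (nat_lit 0x2000100010000800000016000f0002000000008000000) (nat_lit 0x0) (nat_lit 0x80000e001000000000000000) := T_34 (nat_lit 75) (nat_lit 95) (nat_lit 3) (nat_lit 7) (nat_lit 4) L95335 (by decide +kernel)
theorem L95337 : W_34 (nat_lit 4) (nat_lit 0x2000100010000800000006000f0002000000008000000) (nat_lit 0x0) (nat_lit 0x380000e001000000000000000) := T_34 (nat_lit 96) (nat_lit 97) (nat_lit 3) (nat_lit 8) (nat_lit 4) L95336 (by decide +kernel)
theorem L95338 : W_34 (nat_lit 5) (nat_lit 0x2000100010000800000006000f0002000000000000000) (nat_lit 0x0) (nat_lit 0x380000e001000100008000000) := T_34 (nat_lit 27) (nat_lit 44) (nat_lit 5) (nat_lit 10) (nat_lit 1) L95337 (by decide +kernel)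
theorem L95339 : W_34 (nat_lit 6) (nat_lit 0x200010001000080000000600070002000000000000000) (nat_lit 0x0) (nat_lit 0x380018e001000100008000000) := T_34 (nat_lit 79) (nat_lit 80) (nat_lit 1) (nat_lit 12) (nat_lit 4) L95338 (by decide +kernel)
theorem L95340 : W_34 (nat_lit 8) (nat_lit 0x200010001000080000000600060002000000000000000) (nat_lit 0x0) (nat_lit 0xc0006000380019e00d000100008000000) := Q_34 (nat_lit 76) (C_34 L95194 (C_34 L95334 (C_34 L95339 N_34))) (by decide +kernel)
theorem L95341 : W_34 (nat_lit 9) (nat_lit 0x200010001000080000000600060000000000000000000) (nat_lit 0x0) (nat_lit 0xd0007800380019e00f000100008000000) := Q_34 (nat_lit 61) (C_34 L95340 (C_34 L95322 (C_34 L94878 (C_34 L94876 (C_34 L95328 N_34))))) (by decide +kernel)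
theorem L95342 : W_34 (nat_lit 12) (nat_lit 0x200010001000080000000e00060000000000000000000) (nat_lit 0x0) (nat_lit 0x10001800300019c003c007f800f000000) := Q_34 (nat_lit 76) (C_34 L95159 (C_34 L94846 (C_34 L94785 N_34))) (by decide +kernel)
theorem L95343 : W_34 (nat_lit 2) (nat_lit 0x200010001000680028001e000e8001000080000000000) (nat_lit 0x0) (nat_lit 0x800040002000000) := D_34 (nat_lit 42) (nat_lit 59) (nat_lit 25) (nat_lit 4) (nat_lit 9) (nat_lit 6) (nat_lit 4) (nat_lit 9) (nat_lit 5) (by decide +kernel)
theorem L95344 : W_34 (nat_lit 3) (nat_lit 0x200010001000680028001e000e8001000000000000000) (nat_lit 0x0) (nat_lit 0x8000c0006000000) := T_34 (nat_lit 43) (nat_lit 26) (nat_lit 7) (nat_lit 9) (nat_lit 1) L95343 (by decide +kernel)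
theorem L95345 : W_34 (nat_lit 4) (nat_lit 0x200010001000680028001e000e8000000000000000000) (nat_lit 0x0) (nat_lit 0x100000000000018000c0006000000) := T_34 (nat_lit 60) (nat_lit 112) (nat_lit 7) (nat_lit 9) (nat_lit 3) L95344 (by decide +kernel)
theorem L95346 : W_34 (nat_lit 5) (nat_lit 0x200010001000480028001e000e8000000000000000000) (nat_lit 0x0) (nat_lit 0x40002000100000000000018000c0006000000) := T_34 (nat_lit 129) (nat_lit 146) (nat_lit 5) (nat_lit 11) (nat_lit 4) L95345 (by decide +kernel)
theorem L95347 : W_34 (nat_lit 6) (nat_lit 0x200010001000080028001e000e8000000000000000000) (nat_lit 0x0) (nat_lit 0xc0006000100000000000018000c0006000000) := T_34 (nat_lit 130) (nat_lit 147) (nat_lit 4) (nat_lit 11) (nat_lit 8) L95346 (by decide +kernel)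
theorem L95348 : W_34 (nat_lit 7) (nat_lit 0x200010001000080020001e000e8000000000000000000) (nat_lit 0x0) (nat_lit 0xc0007000180000000000018000c0006000000) := T_34 (nat_lit 111) (nat_lit 128) (nat_lit 5) (nat_lit 9) (nat_lit 4) L95347 (by decide +kernel)
theorem L95349 : W_34 (nat_lit 8) (nat_lit 0x200010001000080020001e000e0000000000000000000) (nat_lit 0x0) (nat_lit 0xc0007000180000000180018000c0006000000) := T_34 (nat_lit 75) (nat_lit 76) (nat_lit 3) (nat_lit 7) (nat_lit 4) L95348 (by decide +kernel)
theorem L95350 : W_34 (nat_lit 9) (nat_lit 0x200010001000080020001e00060000000000000000000) (nat_lit 0x0) (nat_lit 0xc0007000180000001980018000c0006000000) := T_34 (nat_lit 79) (nat_lit 80) (nat_lit 2) (nat_lit 8) (nat_lit 5) L95349 (by decide +kernel)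
theorem L95351 : W_34 (nat_lit 10) (nat_lit 0x200010001000080000001e00060000000000000000000) (nat_lit 0x0) (nat_lit 0xc0007000780000001980018000c0006000000) := T_34 (nat_lit 113) (nat_lit 114) (nat_lit 3) (nat_lit 8) (nat_lit 5) L95350 (by decide +kernel)
theorem L95352 : W_34 (nat_lit 11) (nat_lit 0x200010001000080000000e00060000000000000000000) (nat_lit 0x0) (nat_lit 0xc0007000f80070003980018000c0006000000) := Q_34 (nat_lit 96) (C_34 L95227 (C_34 L94783 (C_34 L95351 N_34))) (by decide +kernel)
theorem L95353 : W_34 (nat_lit 13) (nat_lit 0x200010001000080000000600060000000000000000000) (nat_lit 0x0) (nat_lit 0xc0007000f800780039c003c007f800f000000) := Q_34 (nat_lit 95) (C_34 L94810 (C_34 L95276 (C_34 L95342 (C_34 L95272 (C_34 L95352 N_34))))) (by decide +kernel)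
theorem L95354 : W_34 (nat_lit 2) (nat_lit 0x200010001000080008000e00078003c00020000000000) (nat_lit 0x0) (nat_lit 0x200010000000000000000080000000000) := D_34 (nat_lit 112) (nat_lit 43) (nat_lit 129) (nat_lit 7) (nat_lit 9) (nat_lit 2) (nat_lit 7) (nat_lit 9) (nat_lit 3) (by decide +kernel)
theorem L95355 : W_34 (nat_lit 3) (nat_lit 0x200010001000080008000e00078002c00020000000000) (nat_lit 0x0) (nat_lit 0x200010000000000001000090000000000) := T_34 (nat_lit 60) (nat_lit 40) (nat_lit 0) (nat_lit 10) (nat_lit 3) L95354 (by decide +kernel)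
theorem L95356 : W_34 (nat_lit 4) (nat_lit 0x200010001000080008000e00078002c00000000000000) (nat_lit 0x0) (nat_lit 0x2000100000000000010000b0001000000) := T_34 (nat_lit 41) (nat_lit 24) (nat_lit 7) (nat_lit 7) (nat_lit 1) L95355 (by decide +kernel)
theorem L95357 : W_34 (nat_lit 5) (nat_lit 0x200010001000080008000e00078000c00000000000000) (nat_lit 0x0) (nat_lit 0x2000100000000000070000b0001000000) := T_34 (nat_lit 61) (nat_lit 62) (nat_lit 2) (nat_lit 7) (nat_lit 4) L95356 (by decide +kernel)
theorem L95358 : W_34 (nat_lit 6) (nat_lit 0x200010001000080008000e00078000800000000000000) (nat_lit 0x0) (nat_lit 0x2000100000000000076000b0001000000) := T_34 (nat_lit 58) (nat_lit 57) (nat_lit 0) (nat_lit 10) (nat_lit 4) L95357 (by decide +kernel)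
theorem L95359 : W_34 (nat_lit 7) (nat_lit 0x200010001000080008000600078000800000000000000) (nat_lit 0x0) (nat_lit 0x2000100018000000076000b0001000000) := T_34 (nat_lit 95) (nat_lit 96) (nat_lit 3) (nat_lit 7) (nat_lit 4) L95358 (by decide +kernel)
theorem L95360 : W_34 (nat_lit 8) (nat_lit 0x200010001000080008000600078000000000000000000) (nat_lit 0x0) (nat_lit 0x200010001800000007e000f0001000000) := T_34 (nat_lit 59) (nat_lit 42) (nat_lit 7) (nat_lit 8) (nat_lit 2) L95359 (by decide +kernel)
theorem L95361 : W_34 (nat_lit 9) (nat_lit 0x200010001000080000000600078000000000000000000) (nat_lit 0x0) (nat_lit 0x300018001800000007e000f0001000000) := T_34 (nat_lit 111) (nat_lit 128) (nat_lit 5) (nat_lit 9) (nat_lit 4) L95360 (by decide +kernel)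
theorem L95362 : W_34 (nat_lit 10) (nat_lit 0x200010001000080000000600070000000000000000000) (nat_lit 0x0) (nat_lit 0x30001800180000e007f000f0001000000) := Q_34 (nat_lit 75) (C_34 L95188 (C_34 L95361 (C_34 L94879 N_34))) (by decide +kernel)
theorem L95363 : W_34 (nat_lit 2) (nat_lit 0x2000100010000800080006000f8004000000000000000) (nat_lit 0x0) (nat_lit 0x3800000000000000000000000) := D_34 (nat_lit 96) (nat_lit 95) (nat_lit 97) (nat_lit 3) (nat_lit 7) (nat_lit 4) (nat_lit 3) (nat_lit 8) (nat_lit 4) (by decide +kernel)
theorem L95364 : W_34 (nat_lit 3) (nat_lit 0x2000100010000800080006000f0004000000000000000) (nat_lit 0x0) (nat_lit 0x3800008002000000000000000) := T_34 (nat_lit 75) (nat_lit 61) (nat_lit 2) (nat_lit 7) (nat_lit 4) L95363 (by decide +kernel)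
theorem L95365 : W_34 (nat_lit 4) (nat_lit 0x2000100010000800080006000f0000000000000000000) (nat_lit 0x0) (nat_lit 0x380000800e000000000000000) := T_34 (nat_lit 62) (nat_lit 63) (nat_lit 2) (nat_lit 8) (nat_lit 4) L95364 (by decide +kernel)
theorem L95366 : W_34 (nat_lit 5) (nat_lit 0x200010001000080008000600070000000000000000000) (nat_lit 0x0) (nat_lit 0x380018800e000000000000000) := T_34 (nat_lit 79) (nat_lit 80) (nat_lit 1) (nat_lit 12) (nat_lit 4) L95365 (by decide +kernel)
theorem L95367 : W_34 (nat_lit 6) (nat_lit 0x200010001000080000000600070000000000000000000) (nat_lit 0x0) (nat_lit 0x10000800380018800e000000000000000) := T_34 (nat_lit 111) (nat_lit 128) (nat_lit 5) (nat_lit 9) (nat_lit 4) L95366 (by decide +kernel)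
theorem L95368 : W_34 (nat_lit 11) (nat_lit 0x200010001000080000000600060000000000000000000) (nat_lit 0x0) (nat_lit 0x800070007800380019e00ff002f0013000000) := Q_34 (nat_lit 76) (C_34 L95186 (C_34 L95362 (C_34 L95298 (C_34 L95177 (C_34 L95367 N_34))))) (by decide +kernel)
theorem L95369 : W_34 (nat_lit 14) (nat_lit 0x200010001000080000000600020000000000000000000) (nat_lit 0x0) (nat_lit 0xc000f000f80078003de01ff00ff801f000700) := Q_34 (nat_lit 78) (C_34 L95224 (C_34 L95268 (C_34 L94855 (C_34 L95043 (C_34 L95292 (C_34 L95299 (C_34 L95329 (C_34 L95341 (C_34 L95353 (C_34 L95368 N_34)))))))))) (by decide +kernel)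
theorem L95370 : W_34 (nat_lit 2) (nat_lit 0x200010001000080000000700078003400030008000000) (nat_lit 0x0) (nat_lit 0xc0002000000) := D_34 (nat_lit 42) (nat_lit 25) (nat_lit 43) (nat_lit 6) (nat_lit 7) (nat_lit 5) (nat_lit 3) (nat_lit 6) (nat_lit 2) (by decide +kernel)
theorem L95371 : W_34 (nat_lit 3) (nat_lit 0x200010001000080000000700078002400030008000000) (nat_lit 0x0) (nat_lit 0x18000c0002000000) := T_34 (nat_lit 60) (nat_lit 59) (nat_lit 0) (nat_lit 10) (nat_lit 3) L95370 (by decide +kernel)
theorem L95372 : W_34 (nat_lit 4) (nat_lit 0x200010001000080000000700078002400020008000000) (nat_lit 0x0) (nat_lit 0x18000d0002800000) := T_34 (nat_lit 40) (nat_lit 23) (nat_lit 4) (nat_lit 7) (nat_lit 5) L95371 (by decide +kernel)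
theorem L95373 : W_34 (nat_lit 5) (nat_lit 0x200010001000080000000700078002400020000000000) (nat_lit 0x0) (nat_lit 0x18001d000a800000) := T_34 (nat_lit 27) (nat_lit 44) (nat_lit 5) (nat_lit 10) (nat_lit 1) L95372 (by decide +kernel)
theorem L95374 : W_34 (nat_lit 6) (nat_lit 0x200010001000080000000700078002400000000000000) (nat_lit 0x0) (nat_lit 0x18001f000b800000) := T_34 (nat_lit 41) (nat_lit 24) (nat_lit 7) (nat_lit 7) (nat_lit 1) L95373 (by decide +kernel)
theorem L95375 : W_34 (nat_lit 7) (nat_lit 0x200010001000080000000700078000400000000000000) (nat_lit 0x0) (nat_lit 0x78001f000b800000) := T_34 (nat_lit 61) (nat_lit 62) (nat_lit 2) (nat_lit 7) (nat_lit 4) L95374 (by decide +kernel)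
theorem L95376 : W_34 (nat_lit 8) (nat_lit 0x200010001000080000000700078000000000000000000) (nat_lit 0x0) (nat_lit 0x7e001f000b800000) := T_34 (nat_lit 58) (nat_lit 57) (nat_lit 0) (nat_lit 10) (nat_lit 4) L95375 (by decide +kernel)
theorem L95377 : W_34 (nat_lit 2) (nat_lit 0x200010001000080058000700030001000040000000000) (nat_lit 0x0) (nat_lit 0x80006000000) := D_34 (nat_lit 43) (nat_lit 26) (nat_lit 25) (nat_lit 5) (nat_lit 9) (nat_lit 1) (nat_lit 4) (nat_lit 9) (nat_lit 5) (by decide +kernel)
theorem L95378 : W_34 (nat_lit 3) (nat_lit 0x200010001000080058000700030001000000000000000) (nat_lit 0x0) (nat_lit 0x8000c0006000000) := T_34 (nat_lit 42) (nat_lit 59) (nat_lit 7) (nat_lit 8) (nat_lit 2) L95377 (by decide +kernel)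
theorem L95379 : W_34 (nat_lit 4) (nat_lit 0x200010001000080018000700030001000000000000000) (nat_lit 0x0) (nat_lit 0x600000000000008000c0006000000) := T_34 (nat_lit 114) (nat_lit 113) (nat_lit 0) (nat_lit 12) (nat_lit 6) L95378 (by decide +kernel)
theorem L95380 : W_34 (nat_lit 5) (nat_lit 0x200010001000080008000700030001000000000000000) (nat_lit 0x0) (nat_lit 0x2000700000000000008000c0006000000) := T_34 (nat_lit 112) (nat_lit 129) (nat_lit 7) (nat_lit 9) (nat_lit 3) L95379 (by decide +kernel)
theorem L95381 : W_34 (nat_lit 6) (nat_lit 0x200010001000080000000700030001000000000000000) (nat_lit 0x0) (nat_lit 0x3000780000000000008000c0006000000) := T_34 (nat_lit 111) (nat_lit 128) (nat_lit 5) (nat_lit 9) (nat_lit 4) L95380 (by decide +kernel)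
theorem L95382 : W_34 (nat_lit 2) (nat_lit 0x2000100010000800000007000300018001c0000000000) (nat_lit 0x0) (nat_lit 0x400600000000000) := D_34 (nat_lit 45) (nat_lit 58) (nat_lit 46) (nat_lit 1) (nat_lit 11) (nat_lit 2) (nat_lit 1) (nat_lit 12) (nat_lit 2) (by decide +kernel)
theorem L95383 : W_34 (nat_lit 3) (nat_lit 0x2000100010000800000007000300010001c0000000000) (nat_lit 0x0) (nat_lit 0x2000000000000c00600000000000) := T_34 (nat_lit 59) (nat_lit 109) (nat_lit 5) (nat_lit 8) (nat_lit 2) L95382 (by decide +kernel)
theorem L95384 : W_34 (nat_lit 4) (nat_lit 0x2000100010000800000007000300010000c0000000000) (nat_lit 0x0) (nat_lit 0x2000000000000c00700008000000) := T_34 (nat_lit 44) (nat_lit 27) (nat_lit 6) (nat_lit 9) (nat_lit 5) L95383 (by decide +kernel)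
theorem L95385 : W_34 (nat_lit 5) (nat_lit 0x200010001000080000000700030001000080000000000) (nat_lit 0x0) (nat_lit 0x2000000000000c0074000a000000) := T_34 (nat_lit 42) (nat_lit 25) (nat_lit 4) (nat_lit 9) (nat_lit 5) L95384 (by decide +kernel)
theorem L95386 : W_34 (nat_lit 6) (nat_lit 0x200010001000080000000700030001000000000000000) (nat_lit 0x0) (nat_lit 0x2000000000000c007c000e000000) := T_34 (nat_lit 43) (nat_lit 26) (nat_lit 5) (nat_lit 9) (nat_lit 1) L95385 (by decide +kernel)
theorem L95387 : W_34 (nat_lit 2) (nat_lit 0x2000100010000800080007000b0001000080000000000) (nat_lit 0x0) (nat_lit 0x2000100008000000) := D_34 (nat_lit 44) (nat_lit 27) (nat_lit 61) (nat_lit 6) (nat_lit 9) (nat_lit 5) (nat_lit 6) (nat_lit 9) (nat_lit 6) (by decide +kernel)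
theorem L95388 : W_34 (nat_lit 3) (nat_lit 0x2000100010000800000007000b0001000080000000000) (nat_lit 0x0) (nat_lit 0x100008000000000002000100008000000) := T_34 (nat_lit 111) (nat_lit 128) (nat_lit 5) (nat_lit 9) (nat_lit 4) L95387 (by decide +kernel)
theorem L95389 : W_34 (nat_lit 4) (nat_lit 0x2000100010000800000007000b0001000000000000000) (nat_lit 0x0) (nat_lit 0x10000800000000000200018000c000000) := T_34 (nat_lit 43) (nat_lit 26) (nat_lit 5) (nat_lit 9) (nat_lit 1) L95388 (by decide +kernel)
theorem L95390 : W_34 (nat_lit 5) (nat_lit 0x200010001000080000000700030001000000000000000) (nat_lit 0x0) (nat_lit 0x1000080000000c000200018000c000000) := T_34 (nat_lit 79) (nat_lit 78) (nat_lit 1) (nat_lit 11) (nat_lit 4) L95389 (by decide +kernel)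
theorem L95391 : W_34 (nat_lit 2) (nat_lit 0x200010001000080058000700030007800000000000000) (nat_lit 0x0) (nat_lit 0x1c0000000000000000000) := D_34 (nat_lit 79) (nat_lit 78) (nat_lit 80) (nat_lit 1) (nat_lit 11) (nat_lit 4) (nat_lit 3) (nat_lit 8) (nat_lit 3) (by decide +kernel)
theorem L95392 : W_34 (nat_lit 3) (nat_lit 0x200010001000080058000700030003800000000000000) (nat_lit 0x0) (nat_lit 0x1c000c000000000000000) := T_34 (nat_lit 62) (nat_lit 63) (nat_lit 1) (nat_lit 12) (nat_lit 3) L95391 (by decide +kernel)
theorem L95393 : W_34 (nat_lit 4) (nat_lit 0x200010001000080058000700030001800000000000000) (nat_lit 0x0) (nat_lit 0x1c000e000100000000000) := T_34 (nat_lit 61) (nat_lit 44) (nat_lit 6) (nat_lit 9) (nat_lit 6) L95392 (by decide +kernel)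
theorem L95394 : W_34 (nat_lit 5) (nat_lit 0x200010001000080058000700030001000000000000000) (nat_lit 0x0) (nat_lit 0x1c000e800140000000000) := T_34 (nat_lit 59) (nat_lit 42) (nat_lit 7) (nat_lit 8) (nat_lit 2) L95393 (by decide +kernel)
theorem L95395 : W_34 (nat_lit 6) (nat_lit 0x200010001000080018000700030001000000000000000) (nat_lit 0x0) (nat_lit 0x600000001c000e800140000000000) := T_34 (nat_lit 114) (nat_lit 113) (nat_lit 0) (nat_lit 12) (nat_lit 6) L95394 (by decide +kernel)
theorem L95396 : W_34 (nat_lit 7) (nat_lit 0x200010001000080008000700030001000000000000000) (nat_lit 0x0) (nat_lit 0x2000700000001c000e800140000000000) := T_34 (nat_lit 112) (nat_lit 129) (nat_lit 7) (nat_lit 9) (nat_lit 3) L95395 (by decide +kernel)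
theorem L95397 : W_34 (nat_lit 8) (nat_lit 0x200010001000080000000700030001000000000000000) (nat_lit 0x0) (nat_lit 0x3000780000001c000e800140000000000) := T_34 (nat_lit 111) (nat_lit 128) (nat_lit 5) (nat_lit 9) (nat_lit 4) L95396 (by decide +kernel)
theorem L95398 : W_34 (nat_lit 9) (nat_lit 0x200010001000080000000700030000000000000000000) (nat_lit 0x0) (nat_lit 0x30007a0000001c000fc007c000e000000) := Q_34 (nat_lit 60) (C_34 L95390 (C_34 L95386 (C_34 L95397 (C_34 L95381 N_34)))) (by decide +kernel)
theorem L95399 : W_34 (nat_lit 2) (nat_lit 0x200010001000080008000700078002400040000000000) (nat_lit 0x0) (nat_lit 0x20003000000) := D_34 (nat_lit 41) (nat_lit 25) (nat_lit 24) (nat_lit 6) (nat_lit 7) (nat_lit 5) (nat_lit 7) (nat_lit 7) (nat_lit 1) (by decide +kernel)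
theorem L95400 : W_34 (nat_lit 3) (nat_lit 0x200010001000080008000700078002000040000000000) (nat_lit 0x0) (nat_lit 0x600020003000000) := T_34 (nat_lit 58) (nat_lit 57) (nat_lit 0) (nat_lit 10) (nat_lit 4) L95399 (by decide +kernel)
theorem L95401 : W_34 (nat_lit 2) (nat_lit 0x200010001000080000000600070000000000000000000) (nat_lit 0x0) (nat_lit 0x100180000000000000000000) := D_34 (nat_lit 79) (nat_lit 92) (nat_lit 80) (nat_lit 1) (nat_lit 11) (nat_lit 4) (nat_lit 1) (nat_lit 12) (nat_lit 4) (by decide +kernel)
theorem L95402 : W_34 (nat_lit 8) (nat_lit 0x2000100010000800000006000f0000000000000000000) (nat_lit 0x0) (nat_lit 0x300000000fc001e0007000000) := T_34 (nat_lit 59) (nat_lit 58) (nat_lit 0) (nat_lit 11) (nat_lit 4) L95033 (by decide +kernel)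
theorem L95403 : W_34 (nat_lit 9) (nat_lit 0x200010001000080000000600070000000000000000000) (nat_lit 0x0) (nat_lit 0x300018000fc001e0007000000) := T_34 (nat_lit 79) (nat_lit 80) (nat_lit 1) (nat_lit 12) (nat_lit 4) L95402 (by decide +kernel)
theorem L95404 : W_34 (nat_lit 9) (nat_lit 0x200010001000080000000600078000000000000000000) (nat_lit 0x0) (nat_lit 0x180000007e001f000b800000) := T_34 (nat_lit 92) (nat_lit 91) (nat_lit 2) (nat_lit 6) (nat_lit 5) L95376 (by decide +kernel)
theorem L95405 : W_34 (nat_lit 10) (nat_lit 0x200010001000080000000600070000000000000000000) (nat_lit 0x0) (nat_lit 0x1c000e007f001f000b800000) := Q_34 (nat_lit 75) (C_34 L95188 (C_34 L95404 (C_34 L94881 N_34))) (by decide +kernel)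
theorem L95406 : W_34 (nat_lit 11) (nat_lit 0x200010001000080000000600030000000000000000000) (nat_lit 0x0) (nat_lit 0x31c01ce00ff001f000f800000) := Q_34 (nat_lit 78) (C_34 L95401 (C_34 L95403 (C_34 L95405 N_34))) (by decide +kernel)
theorem L95407 : W_34 (nat_lit 2) (nat_lit 0x200010001000080000000700030000000000000000000) (nat_lit 0x0) (nat_lit 0xc0040000000000000000000) := D_34 (nat_lit 91) (nat_lit 78) (nat_lit 90) (nat_lit 2) (nat_lit 6) (nat_lit 5) (nat_lit 2) (nat_lit 5) (nat_lit 5) (by decide +kernel)
theorem L95408 : W_34 (nat_lit 2) (nat_lit 0x200010001000080008000700030000000000000000000) (nat_lit 0x0) (nat_lit 0x100000c0000000000000000000000) := D_34 (nat_lit 91) (nat_lit 90) (nat_lit 112) (nat_lit 2) (nat_lit 5) (nat_lit 5) (nat_lit 3) (nat_lit 6) (nat_lit 5) (by decide +kernel)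
theorem L95409 : W_34 (nat_lit 3) (nat_lit 0x200010001000080000000700030000000000000000000) (nat_lit 0x0) (nat_lit 0x1000180000c0000000000000000000000) := T_34 (nat_lit 111) (nat_lit 128) (nat_lit 5) (nat_lit 9) (nat_lit 4) L95408 (by decide +kernel)
theorem L95410 : W_34 (nat_lit 10) (nat_lit 0x200010001000080000000600030000000000000000000) (nat_lit 0x0) (nat_lit 0x30007a0001c01c000fc007c000e000000) := Q_34 (nat_lit 92) (C_34 L95407 (C_34 L95409 (C_34 L95398 N_34))) (by decide +kernel)
theorem L95411 : W_34 (nat_lit 2) (nat_lit 0x200010001000080008000600030001000080000000000) (nat_lit 0x0) (nat_lit 0x2000100008000000) := D_34 (nat_lit 44) (nat_lit 61) (nat_lit 27) (nat_lit 6) (nat_lit 9) (nat_lit 6) (nat_lit 6) (nat_lit 9) (nat_lit 5) (by decide +kernel)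
theorem L95412 : W_34 (nat_lit 3) (nat_lit 0x200010001000080008000600030001000000000000000) (nat_lit 0x0) (nat_lit 0x200018000c000000) := T_34 (nat_lit 43) (nat_lit 26) (nat_lit 5) (nat_lit 9) (nat_lit 1) L95411 (by decide +kernel)
theorem L95413 : W_34 (nat_lit 4) (nat_lit 0x200010001000080000000600030001000000000000000) (nat_lit 0x0) (nat_lit 0x10000800000000000200018000c000000) := T_34 (nat_lit 111) (nat_lit 128) (nat_lit 5) (nat_lit 9) (nat_lit 4) L95412 (by decide +kernel)
theorem L95414 : W_34 (nat_lit 8) (nat_lit 0x200010001000080000000600030000000000000000000) (nat_lit 0x0) (nat_lit 0x30007800000000c00fe007f800f000000) := Q_34 (nat_lit 60) (C_34 L95413 (C_34 L95129 (C_34 L95117 (C_34 L95170 N_34)))) (by decide +kernel)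
theorem L95415 : W_34 (nat_lit 4) (nat_lit 0x200010001000080008000600078002000040000000000) (nat_lit 0x0) (nat_lit 0x180000000600020003000000) := T_34 (nat_lit 92) (nat_lit 91) (nat_lit 2) (nat_lit 6) (nat_lit 5) L95400 (by decide +kernel)
theorem L95416 : W_34 (nat_lit 5) (nat_lit 0x200010001000080008000600078000000040000000000) (nat_lit 0x0) (nat_lit 0x180000006600020003000000) := T_34 (nat_lit 61) (nat_lit 62) (nat_lit 2) (nat_lit 7) (nat_lit 4) L95415 (by decide +kernel)
theorem L95417 : W_34 (nat_lit 6) (nat_lit 0x200010001000080008000600078000000000000000000) (nat_lit 0x0) (nat_lit 0x180000006e00060003000000) := T_34 (nat_lit 42) (nat_lit 59) (nat_lit 7) (nat_lit 8) (nat_lit 2) L95416 (by decide +kernel)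
theorem L95418 : W_34 (nat_lit 7) (nat_lit 0x200010001000080000000600078000000000000000000) (nat_lit 0x0) (nat_lit 0x100008000180000006e00060003000000) := T_34 (nat_lit 111) (nat_lit 128) (nat_lit 5) (nat_lit 9) (nat_lit 4) L95417 (by decide +kernel)
theorem L95419 : W_34 (nat_lit 8) (nat_lit 0x200010001000080000000600070000000000000000000) (nat_lit 0x0) (nat_lit 0x1000080001c000e006f00060003000000) := Q_34 (nat_lit 75) (C_34 L95188 (C_34 L95418 (C_34 L94881 N_34))) (by decide +kernel)
theorem L95420 : W_34 (nat_lit 9) (nat_lit 0x200010001000080000000600030000000000000000000) (nat_lit 0x0) (nat_lit 0x1000080001c01ce006f00060003000000) := Q_34 (nat_lit 78) (C_34 L95401 (C_34 L95177 (C_34 L95419 N_34))) (by decide +kernel)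
theorem L95421 : W_34 (nat_lit 2) (nat_lit 0x2000100010000800080006000f8004200000000000000) (nat_lit 0x0) (nat_lit 0x6000100000000000000) := D_34 (nat_lit 74) (nat_lit 73) (nat_lit 56) (nat_lit 3) (nat_lit 5) (nat_lit 4) (nat_lit 0) (nat_lit 9) (nat_lit 4) (by decide +kernel)
theorem L95422 : W_34 (nat_lit 3) (nat_lit 0x2000100010000800080006000f8004000000000000000) (nat_lit 0x0) (nat_lit 0x6000700000000000000) := T_34 (nat_lit 57) (nat_lit 58) (nat_lit 0) (nat_lit 10) (nat_lit 4) L95421 (by decide +kernel)
theorem L95423 : W_34 (nat_lit 4) (nat_lit 0x2000100010000800080006000f0004000000000000000) (nat_lit 0x0) (nat_lit 0xe002700000000000000) := T_34 (nat_lit 75) (nat_lit 61) (nat_lit 2) (nat_lit 7) (nat_lit 4) L95422 (by decide +kernel)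
theorem L95424 : W_34 (nat_lit 5) (nat_lit 0x2000100010000800080006000f0000000000000000000) (nat_lit 0x0) (nat_lit 0xe00e700000000000000) := T_34 (nat_lit 62) (nat_lit 63) (nat_lit 2) (nat_lit 8) (nat_lit 4) L95423 (by decide +kernel)
theorem L95425 : W_34 (nat_lit 6) (nat_lit 0x200010001000080008000600070000000000000000000) (nat_lit 0x0) (nat_lit 0x18e00e700000000000000) := T_34 (nat_lit 79) (nat_lit 80) (nat_lit 1) (nat_lit 12) (nat_lit 4) L95424 (by decide +kernel)
theorem L95426 : W_34 (nat_lit 7) (nat_lit 0x200010001000080000000600070000000000000000000) (nat_lit 0x0) (nat_lit 0x10000800000018e00e700000000000000) := T_34 (nat_lit 111) (nat_lit 128) (nat_lit 5) (nat_lit 9) (nat_lit 4) L95425 (by decide +kernel)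
theorem L95427 : W_34 (nat_lit 2) (nat_lit 0x200010001000080008000680078002400000000000000) (nat_lit 0x0) (nat_lit 0x1000100008000000) := D_34 (nat_lit 44) (nat_lit 27) (nat_lit 60) (nat_lit 5) (nat_lit 10) (nat_lit 1) (nat_lit 6) (nat_lit 9) (nat_lit 6) (by decide +kernel)
theorem L95428 : W_34 (nat_lit 3) (nat_lit 0x200010001000080000000680078002400000000000000) (nat_lit 0x0) (nat_lit 0x100008000000000001000100008000000) := T_34 (nat_lit 111) (nat_lit 128) (nat_lit 6) (nat_lit 9) (nat_lit 7) L95427 (by decide +kernel)
theorem L95429 : W_34 (nat_lit 4) (nat_lit 0x200010001000080000000680078002000000000000000) (nat_lit 0x0) (nat_lit 0x100008000000000001600100008000000) := T_34 (nat_lit 58) (nat_lit 57) (nat_lit 0) (nat_lit 10) (nat_lit 4) L95428 (by decide +kernel)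
theorem L95430 : W_34 (nat_lit 5) (nat_lit 0x200010001000080000000680078000000000000000000) (nat_lit 0x0) (nat_lit 0x100008000000000007600100008000000) := T_34 (nat_lit 61) (nat_lit 62) (nat_lit 2) (nat_lit 7) (nat_lit 4) L95429 (by decide +kernel)
theorem L95431 : W_34 (nat_lit 6) (nat_lit 0x200010001000080000000600078000000000000000000) (nat_lit 0x0) (nat_lit 0x100008000180000007600100008000000) := T_34 (nat_lit 91) (nat_lit 92) (nat_lit 2) (nat_lit 6) (nat_lit 5) L95430 (by decide +kernel)
theorem L95432 : W_34 (nat_lit 7) (nat_lit 0x200010001000080000000600070000000000000000000) (nat_lit 0x0) (nat_lit 0x10000800018000e007700100008000000) := Q_34 (nat_lit 75) (C_34 L95188 (C_34 L95431 (C_34 L95001 N_34))) (by decide +kernel)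
theorem L95433 : W_34 (nat_lit 8) (nat_lit 0x200010001000080000000600030000000000000000000) (nat_lit 0x0) (nat_lit 0x1000080001801ce00f700100008000000) := Q_34 (nat_lit 78) (C_34 L95401 (C_34 L95426 (C_34 L95432 N_34))) (by decide +kernel)
theorem L95434 : W_34 (nat_lit 2) (nat_lit 0x2000100010000800080006000f0006000040000000000) (nat_lit 0x0) (nat_lit 0x1000100008000000) := D_34 (nat_lit 44) (nat_lit 27) (nat_lit 60) (nat_lit 5) (nat_lit 10) (nat_lit 1) (nat_lit 6) (nat_lit 9) (nat_lit 6) (by decide +kernel)
theorem L95435 : W_34 (nat_lit 3) (nat_lit 0x2000100010000800080006000f0004000040000000000) (nat_lit 0x0) (nat_lit 0x8003000100008000000) := T_34 (nat_lit 61) (nat_lit 75) (nat_lit 2) (nat_lit 7) (nat_lit 4) L95434 (by decide +kernel)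
theorem L95436 : W_34 (nat_lit 4) (nat_lit 0x2000100010000800080006000f0000000040000000000) (nat_lit 0x0) (nat_lit 0x800f000100008000000) := T_34 (nat_lit 62) (nat_lit 63) (nat_lit 2) (nat_lit 8) (nat_lit 4) L95435 (by decide +kernel)
theorem L95437 : W_34 (nat_lit 5) (nat_lit 0x200010001000080008000600070000000040000000000) (nat_lit 0x0) (nat_lit 0x18800f000100008000000) := T_34 (nat_lit 79) (nat_lit 80) (nat_lit 1) (nat_lit 12) (nat_lit 4) L95436 (by decide +kernel)
theorem L95438 : W_34 (nat_lit 6) (nat_lit 0x200010001000080008000600070000000000000000000) (nat_lit 0x0) (nat_lit 0x18800f800140008000000) := T_34 (nat_lit 42) (nat_lit 59) (nat_lit 7) (nat_lit 8) (nat_lit 2) L95437 (by decide +kernel)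
theorem L95439 : W_34 (nat_lit 7) (nat_lit 0x200010001000080000000600070000000000000000000) (nat_lit 0x0) (nat_lit 0x10000800000018800f800140008000000) := T_34 (nat_lit 111) (nat_lit 128) (nat_lit 5) (nat_lit 9) (nat_lit 4) L95438 (by decide +kernel)
theorem L95440 : W_34 (nat_lit 5) (nat_lit 0x200010001000080000000600070000000000000000000) (nat_lit 0x0) (nat_lit 0x1000080001c000e007000100008000000) := Q_34 (nat_lit 61) (C_34 L95194 (C_34 L95207 (C_34 L94957 N_34))) (by decide +kernel)
theorem L95441 : W_34 (nat_lit 8) (nat_lit 0x200010001000080000000600030000000000000000000) (nat_lit 0x0) (nat_lit 0x1000080001c01ce00f800140008000000) := Q_34 (nat_lit 78) (C_34 L95401 (C_34 L95439 (C_34 L95440 N_34))) (by decide +kernel)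
theorem L95442 : W_34 (nat_lit 2) (nat_lit 0x200010001000080008000700078000400040000000000) (nat_lit 0x0) (nat_lit 0x20003000000) := D_34 (nat_lit 41) (nat_lit 25) (nat_lit 24) (nat_lit 6) (nat_lit 7) (nat_lit 5) (nat_lit 7) (nat_lit 7) (nat_lit 1) (by decide +kernel)
theorem L95443 : W_34 (nat_lit 3) (nat_lit 0x200010001000080008000700078000000040000000000) (nat_lit 0x0) (nat_lit 0x600020003000000) := T_34 (nat_lit 58) (nat_lit 57) (nat_lit 0) (nat_lit 10) (nat_lit 4) L95442 (by decide +kernel)
theorem L95444 : W_34 (nat_lit 4) (nat_lit 0x200010001000080008000600078000000040000000000) (nat_lit 0x0) (nat_lit 0x180000000600020003000000) := T_34 (nat_lit 92) (nat_lit 91) (nat_lit 2) (nat_lit 6) (nat_lit 5) L95443 (by decide +kernel)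
theorem L95445 : W_34 (nat_lit 5) (nat_lit 0x200010001000080008000600078000000000000000000) (nat_lit 0x0) (nat_lit 0x180000000e00060003000000) := T_34 (nat_lit 42) (nat_lit 59) (nat_lit 7) (nat_lit 8) (nat_lit 2) L95444 (by decide +kernel)
theorem L95446 : W_34 (nat_lit 6) (nat_lit 0x200010001000080000000600078000000000000000000) (nat_lit 0x0) (nat_lit 0x100008000180000000e00060003000000) := T_34 (nat_lit 111) (nat_lit 128) (nat_lit 5) (nat_lit 9) (nat_lit 4) L95445 (by decide +kernel)
theorem L95447 : W_34 (nat_lit 7) (nat_lit 0x200010001000080000000600070000000000000000000) (nat_lit 0x0) (nat_lit 0x1000080001c000e000f00060003000000) := Q_34 (nat_lit 75) (C_34 L95188 (C_34 L95446 (C_34 L94881 N_34))) (by decide +kernel)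
theorem L95448 : W_34 (nat_lit 8) (nat_lit 0x200010001000080000000600030000000000000000000) (nat_lit 0x0) (nat_lit 0x1000080001c01ce000f00060003000000) := Q_34 (nat_lit 78) (C_34 L95401 (C_34 L95177 (C_34 L95447 N_34))) (by decide +kernel)
theorem L95449 : W_34 (nat_lit 14) (nat_lit 0x200010001000080000000600020000000000000000000) (nat_lit 0x0) (nat_lit 0x30007a0031c01de00ff007f800f800000) := Q_34 (nat_lit 76) (C_34 L95140 (C_34 L95406 (C_34 L95410 (C_34 L95414 (C_34 L95420 (C_34 L95433 (C_34 L95441 (C_34 L95448 N_34)))))))) (by decide +kernel)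
theorem L95450 : W_34 (nat_lit 2) (nat_lit 0x200010001000080018000f00020000000000000000000) (nat_lit 0x0) (nat_lit 0x200000000000000001000080000000000) := D_34 (nat_lit 60) (nat_lit 129) (nat_lit 43) (nat_lit 7) (nat_lit 9) (nat_lit 3) (nat_lit 7) (nat_lit 9) (nat_lit 2) (by decide +kernel)
theorem L95451 : W_34 (nat_lit 3) (nat_lit 0x200010001000080008000f00020000000000000000000) (nat_lit 0x0) (nat_lit 0x200030000000000001000080000000000) := T_34 (nat_lit 112) (nat_lit 113) (nat_lit 3) (nat_lit 7) (nat_lit 5) L95450 (by decide +kernel)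
theorem L95452 : W_34 (nat_lit 4) (nat_lit 0x200010001000080000000f00020000000000000000000) (nat_lit 0x0) (nat_lit 0x300038000000000001000080000000000) := T_34 (nat_lit 111) (nat_lit 128) (nat_lit 5) (nat_lit 9) (nat_lit 4) L95451 (by decide +kernel)
theorem L95453 : W_34 (nat_lit 2) (nat_lit 0x200010001000080020000f00028000000000000000000) (nat_lit 0x0) (nat_lit 0x40001000010000000000000000000) := D_34 (nat_lit 96) (nat_lit 114) (nat_lit 76) (nat_lit 3) (nat_lit 8) (nat_lit 5) (nat_lit 0) (nat_lit 11) (nat_lit 5) (by decide +kernel)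
theorem L95454 : W_34 (nat_lit 3) (nat_lit 0x200010001000080020000f00020000000000000000000) (nat_lit 0x0) (nat_lit 0x4000100001c000000000000000000) := T_34 (nat_lit 75) (nat_lit 74) (nat_lit 0) (nat_lit 10) (nat_lit 5) L95453 (by decide +kernel)
theorem L95455 : W_34 (nat_lit 4) (nat_lit 0x200010001000080000000f00020000000000000000000) (nat_lit 0x0) (nat_lit 0x7000100001c000000000000000000) := T_34 (nat_lit 113) (nat_lit 112) (nat_lit 3) (nat_lit 7) (nat_lit 5) L95454 (by decide +kernel)
theorem L95456 : W_34 (nat_lit 2) (nat_lit 0x20001000100008004a001f00128000000000000000000) (nat_lit 0x0) (nat_lit 0x80002000200000000000000000000) := D_34 (nat_lit 97) (nat_lit 115) (nat_lit 81) (nat_lit 3) (nat_lit 9) (nat_lit 5) (nat_lit 2) (nat_lit 9) (nat_lit 5) (by decide +kernel)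
theorem L95457 : W_34 (nat_lit 3) (nat_lit 0x20001000100008004a001f00028000000000000000000) (nat_lit 0x0) (nat_lit 0x80002000380000000000000000000) := T_34 (nat_lit 80) (nat_lit 79) (nat_lit 2) (nat_lit 8) (nat_lit 5) L95456 (by decide +kernel)
theorem L95458 : W_34 (nat_lit 4) (nat_lit 0x20001000100008000a001f00028000000000000000000) (nat_lit 0x0) (nat_lit 0xe0002000380000000000000000000) := T_34 (nat_lit 114) (nat_lit 113) (nat_lit 3) (nat_lit 8) (nat_lit 5) L95457 (by decide +kernel)
theorem L95459 : W_34 (nat_lit 5) (nat_lit 0x20001000100008000a000f00028000000000000000000) (nat_lit 0x0) (nat_lit 0xe0003000390000000000000000000) := T_34 (nat_lit 96) (nat_lit 76) (nat_lit 0) (nat_lit 11) (nat_lit 5) L95458 (by decide +kernel)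
theorem L95460 : W_34 (nat_lit 6) (nat_lit 0x200010001000080008000f00028000000000000000000) (nat_lit 0x0) (nat_lit 0xe3003000390000000000000000000) := T_34 (nat_lit 109) (nat_lit 108) (nat_lit 1) (nat_lit 10) (nat_lit 5) L95459 (by decide +kernel)
theorem L95461 : W_34 (nat_lit 7) (nat_lit 0x200010001000080008000f00020000000000000000000) (nat_lit 0x0) (nat_lit 0xe300300039c000000000000000000) := T_34 (nat_lit 75) (nat_lit 74) (nat_lit 0) (nat_lit 10) (nat_lit 5) L95460 (by decide +kernel)
theorem L95462 : W_34 (nat_lit 8) (nat_lit 0x200010001000080000000f00020000000000000000000) (nat_lit 0x0) (nat_lit 0x1000eb00300039c000000000000000000) := T_34 (nat_lit 111) (nat_lit 128) (nat_lit 5) (nat_lit 9) (nat_lit 4) L95461 (by decide +kernel)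
theorem L95463 : W_34 (nat_lit 2) (nat_lit 0x20001000100008000a007f00128000000000000000000) (nat_lit 0x0) (nat_lit 0x1c0000000000000000000000000000) := D_34 (nat_lit 115) (nat_lit 114) (nat_lit 116) (nat_lit 3) (nat_lit 9) (nat_lit 5) (nat_lit 3) (nat_lit 10) (nat_lit 5) (by decide +kernel)
theorem L95464 : W_34 (nat_lit 3) (nat_lit 0x20001000100008000a003f00128000000000000000000) (nat_lit 0x0) (nat_lit 0x1d0004000000000000000000000000) := T_34 (nat_lit 98) (nat_lit 112) (nat_lit 1) (nat_lit 13) (nat_lit 5) L95463 (by decide +kernel)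
theorem L95465 : W_34 (nat_lit 4) (nat_lit 0x20001000100008000a001f00128000000000000000000) (nat_lit 0x0) (nat_lit 0x1d0006000200000000000000000000) := T_34 (nat_lit 97) (nat_lit 81) (nat_lit 2) (nat_lit 9) (nat_lit 5) L95464 (by decide +kernel)
theorem L95466 : W_34 (nat_lit 5) (nat_lit 0x20001000100008000a001f00028000000000000000000) (nat_lit 0x0) (nat_lit 0x1d0006000380000000000000000000) := T_34 (nat_lit 80) (nat_lit 79) (nat_lit 2) (nat_lit 8) (nat_lit 5) L95465 (by decide +kernel)
theorem L95467 : W_34 (nat_lit 6) (nat_lit 0x200010001000080008001f00028000000000000000000) (nat_lit 0x0) (nat_lit 0x1d3006000380000000000000000000) := T_34 (nat_lit 109) (nat_lit 108) (nat_lit 1) (nat_lit 10) (nat_lit 5) L95466 (by decide +kernel)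
theorem L95468 : W_34 (nat_lit 7) (nat_lit 0x200010001000080008000f00028000000000000000000) (nat_lit 0x0) (nat_lit 0x1d3007000390000000000000000000) := T_34 (nat_lit 96) (nat_lit 76) (nat_lit 0) (nat_lit 11) (nat_lit 5) L95467 (by decide +kernel)
theorem L95469 : W_34 (nat_lit 8) (nat_lit 0x200010001000080000000f00028000000000000000000) (nat_lit 0x0) (nat_lit 0x1001db007000390000000000000000000) := T_34 (nat_lit 111) (nat_lit 128) (nat_lit 5) (nat_lit 9) (nat_lit 4) L95468 (by decide +kernel)
theorem L95470 : W_34 (nat_lit 9) (nat_lit 0x200010001000080000000f00020000000000000000000) (nat_lit 0x0) (nat_lit 0x1001db00700039c000000000000000000) := T_34 (nat_lit 75) (nat_lit 74) (nat_lit 0) (nat_lit 10) (nat_lit 5) L95469 (by decide +kernel)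
theorem L95471 : W_34 (nat_lit 10) (nat_lit 0x200010001000080000000700020000000000000000000) (nat_lit 0x0) (nat_lit 0x3001fb00780039c001000080000000000) := Q_34 (nat_lit 95) (C_34 L95452 (C_34 L95455 (C_34 L95462 (C_34 L95470 N_34)))) (by decide +kernel)
theorem L95472 : W_34 (nat_lit 2) (nat_lit 0x200010001000080042001f00128000000000000000000) (nat_lit 0x0) (nat_lit 0x80002000200000000000000000000) := D_34 (nat_lit 97) (nat_lit 115) (nat_lit 81) (nat_lit 3) (nat_lit 9) (nat_lit 5) (nat_lit 2) (nat_lit 9) (nat_lit 5) (by decide +kernel)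
theorem L95473 : W_34 (nat_lit 3) (nat_lit 0x200010001000080042001f00028000000000000000000) (nat_lit 0x0) (nat_lit 0x80002000380000000000000000000) := T_34 (nat_lit 80) (nat_lit 79) (nat_lit 2) (nat_lit 8) (nat_lit 5) L95472 (by decide +kernel)
theorem L95474 : W_34 (nat_lit 4) (nat_lit 0x200010001000080002001f00028000000000000000000) (nat_lit 0x0) (nat_lit 0xe0002000380000000000000000000) := T_34 (nat_lit 114) (nat_lit 113) (nat_lit 3) (nat_lit 8) (nat_lit 5) L95473 (by decide +kernel)
theorem L95475 : W_34 (nat_lit 5) (nat_lit 0x200010001000080002000f00028000000000000000000) (nat_lit 0x0) (nat_lit 0xe0003000390000000000000000000) := T_34 (nat_lit 96) (nat_lit 76) (nat_lit 0) (nat_lit 11) (nat_lit 5) L95474 (by decide +kernel)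
theorem L95476 : W_34 (nat_lit 6) (nat_lit 0x200010001000080000000f00028000000000000000000) (nat_lit 0x0) (nat_lit 0xe3003000390000000000000000000) := T_34 (nat_lit 109) (nat_lit 108) (nat_lit 1) (nat_lit 10) (nat_lit 5) L95475 (by decide +kernel)
theorem L95477 : W_34 (nat_lit 7) (nat_lit 0x200010001000080000000f00020000000000000000000) (nat_lit 0x0) (nat_lit 0xe300300039c000000000000000000) := T_34 (nat_lit 75) (nat_lit 74) (nat_lit 0) (nat_lit 10) (nat_lit 5) L95476 (by decide +kernel)
theorem L95478 : W_34 (nat_lit 2) (nat_lit 0x200010001000080011000f80022000000080000000000) (nat_lit 0x0) (nat_lit 0x40011000000000000000000) := D_34 (nat_lit 90) (nat_lit 76) (nat_lit 72) (nat_lit 2) (nat_lit 5) (nat_lit 5) (nat_lit 0) (nat_lit 8) (nat_lit 5) (by decide +kernel)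
theorem L95479 : W_34 (nat_lit 3) (nat_lit 0x200010001000080011000f80020000000080000000000) (nat_lit 0x0) (nat_lit 0x40017000000000000000000) := T_34 (nat_lit 73) (nat_lit 74) (nat_lit 0) (nat_lit 9) (nat_lit 5) L95478 (by decide +kernel)
theorem L95480 : W_34 (nat_lit 4) (nat_lit 0x200010001000080011000f00020000000080000000000) (nat_lit 0x0) (nat_lit 0x8000c0017000000000000000000) := T_34 (nat_lit 91) (nat_lit 107) (nat_lit 1) (nat_lit 9) (nat_lit 5) L95479 (by decide +kernel)
theorem L95481 : W_34 (nat_lit 5) (nat_lit 0x200010001000080011000f00020000000000000000000) (nat_lit 0x0) (nat_lit 0x8000c0017001000080000000000) := T_34 (nat_lit 43) (nat_lit 60) (nat_lit 7) (nat_lit 9) (nat_lit 2) L95480 (by decide +kernel)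
theorem L95482 : W_34 (nat_lit 6) (nat_lit 0x200010001000080010000f00020000000000000000000) (nat_lit 0x0) (nat_lit 0x38000c0017001000080000000000) := T_34 (nat_lit 108) (nat_lit 109) (nat_lit 1) (nat_lit 10) (nat_lit 5) L95481 (by decide +kernel)
theorem L95483 : W_34 (nat_lit 7) (nat_lit 0x200010001000080000000f00020000000000000000000) (nat_lit 0x0) (nat_lit 0x338000c0017001000080000000000) := T_34 (nat_lit 112) (nat_lit 113) (nat_lit 3) (nat_lit 7) (nat_lit 5) L95482 (by decide +kernel)
theorem L95484 : W_34 (nat_lit 2) (nat_lit 0x200010001000080001000f00024000000000000000000) (nat_lit 0x0) (nat_lit 0x800080002000000000000000000) := D_34 (nat_lit 91) (nat_lit 107) (nat_lit 73) (nat_lit 1) (nat_lit 9) (nat_lit 5) (nat_lit 0) (nat_lit 9) (nat_lit 5) (by decide +kernel)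
theorem L95485 : W_34 (nat_lit 3) (nat_lit 0x200010001000080001000f00020000000000000000000) (nat_lit 0x0) (nat_lit 0x80008000e000000000000000000) := T_34 (nat_lit 74) (nat_lit 75) (nat_lit 0) (nat_lit 10) (nat_lit 5) L95484 (by decide +kernel)
theorem L95486 : W_34 (nat_lit 4) (nat_lit 0x200010001000080000000f00020000000000000000000) (nat_lit 0x0) (nat_lit 0x380008000e000000000000000000) := T_34 (nat_lit 108) (nat_lit 109) (nat_lit 1) (nat_lit 10) (nat_lit 5) L95485 (by decide +kernel)
theorem L95487 : W_34 (nat_lit 2) (nat_lit 0x200010001000080022001f00020000000000000000000) (nat_lit 0x0) (nat_lit 0x2000018000000000000000000) := D_34 (nat_lit 76) (nat_lit 75) (nat_lit 97) (nat_lit 0) (nat_lit 11) (nat_lit 5) (nat_lit 0) (nat_lit 12) (nat_lit 5) (by decide +kernel)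
theorem L95488 : W_34 (nat_lit 3) (nat_lit 0x200010001000080022000f00020000000000000000000) (nat_lit 0x0) (nat_lit 0x40003000018000000000000000000) := T_34 (nat_lit 96) (nat_lit 114) (nat_lit 3) (nat_lit 8) (nat_lit 5) L95487 (by decide +kernel)
theorem L95489 : W_34 (nat_lit 4) (nat_lit 0x200010001000080002000f00020000000000000000000) (nat_lit 0x0) (nat_lit 0x70003000018000000000000000000) := T_34 (nat_lit 113) (nat_lit 112) (nat_lit 3) (nat_lit 7) (nat_lit 5) L95488 (by decide +kernel)
theorem L95490 : W_34 (nat_lit 5) (nat_lit 0x200010001000080000000f00020000000000000000000) (nat_lit 0x0) (nat_lit 0x73003000018000000000000000000) := T_34 (nat_lit 109) (nat_lit 108) (nat_lit 1) (nat_lit 10) (nat_lit 5) L95489 (by decide +kernel)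
theorem L95491 : W_34 (nat_lit 8) (nat_lit 0x200010001000080000000700020000000000000000000) (nat_lit 0x0) (nat_lit 0xf38038c039f001000080000000000) := Q_34 (nat_lit 95) (C_34 L95455 (C_34 L95477 (C_34 L95483 (C_34 L95486 (C_34 L95490 N_34))))) (by decide +kernel)
theorem L95492 : W_34 (nat_lit 2) (nat_lit 0x2000100010000800080007c0020000000000000000000) (nat_lit 0x0) (nat_lit 0x1c00000000000000000000000000) := D_34 (nat_lit 107) (nat_lit 106) (nat_lit 108) (nat_lit 1) (nat_lit 8) (nat_lit 5) (nat_lit 1) (nat_lit 9) (nat_lit 5) (by decide +kernel)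
theorem L95493 : W_34 (nat_lit 3) (nat_lit 0x200010001000080008000780020000000000000000000) (nat_lit 0x0) (nat_lit 0x1c00040010000000000000000000) := T_34 (nat_lit 90) (nat_lit 76) (nat_lit 2) (nat_lit 5) (nat_lit 5) L95492 (by decide +kernel)
theorem L95494 : W_34 (nat_lit 4) (nat_lit 0x200010001000080008000700020000000000000000000) (nat_lit 0x0) (nat_lit 0x11c000c0010000000000000000000) := T_34 (nat_lit 91) (nat_lit 112) (nat_lit 3) (nat_lit 6) (nat_lit 5) L95493 (by decide +kernel)
theorem L95495 : W_34 (nat_lit 5) (nat_lit 0x200010001000080000000700020000000000000000000) (nat_lit 0x0) (nat_lit 0x100019c000c0010000000000000000000) := T_34 (nat_lit 111) (nat_lit 128) (nat_lit 5) (nat_lit 9) (nat_lit 4) L95494 (by decide +kernel)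
theorem L95496 : W_34 (nat_lit 5) (nat_lit 0x200010001000080000000700020000000000000000000) (nat_lit 0x0) (nat_lit 0x3c008c001f000000000000000000) := Q_34 (nat_lit 91) (C_34 L95061 (C_34 L94684 (C_34 L94678 N_34))) (by decide +kernel)
theorem L95497 : W_34 (nat_lit 2) (nat_lit 0x2000100010000800080007c0020000000000000000000) (nat_lit 0x0) (nat_lit 0x7000000000000000000) := D_34 (nat_lit 73) (nat_lit 74) (nat_lit 72) (nat_lit 0) (nat_lit 9) (nat_lit 5) (nat_lit 0) (nat_lit 8) (nat_lit 5) (by decide +kernel)
theorem L95498 : W_34 (nat_lit 3) (nat_lit 0x200010001000080008000780020000000000000000000) (nat_lit 0x0) (nat_lit 0x40017000000000000000000) := T_34 (nat_lit 90) (nat_lit 76) (nat_lit 2) (nat_lit 5) (nat_lit 5) L95497 (by decide +kernel)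
theorem L95499 : W_34 (nat_lit 4) (nat_lit 0x200010001000080008000700020000000000000000000) (nat_lit 0x0) (nat_lit 0x100000c0017000000000000000000) := T_34 (nat_lit 91) (nat_lit 112) (nat_lit 3) (nat_lit 6) (nat_lit 5) L95498 (by decide +kernel)
theorem L95500 : W_34 (nat_lit 5) (nat_lit 0x200010001000080000000700020000000000000000000) (nat_lit 0x0) (nat_lit 0x1000180000c0017000000000000000000) := T_34 (nat_lit 111) (nat_lit 128) (nat_lit 5) (nat_lit 9) (nat_lit 4) L95499 (by decide +kernel)
theorem L95501 : W_34 (nat_lit 11) (nat_lit 0x200010001000080000000600020000000000000000000) (nat_lit 0x0) (nat_lit 0x3001fbc079c039f001000080000000000) := Q_34 (nat_lit 92) (C_34 L95471 (C_34 L95065 (C_34 L95491 (C_34 L95495 (C_34 L95496 (C_34 L95500 N_34)))))) (by decide +kernel)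
theorem L95502 : W_34 (nat_lit 2) (nat_lit 0x200010001000080012000f00020001000000000000000) (nat_lit 0x0) (nat_lit 0x4000200000000000040000000000000000000) := D_34 (nat_lit 129) (nat_lit 146) (nat_lit 78) (nat_lit 4) (nat_lit 10) (nat_lit 8) (nat_lit 4) (nat_lit 10) (nat_lit 7) (by decide +kernel)
theorem L95503 : W_34 (nat_lit 3) (nat_lit 0x200010001000080012000f00020000000000000000000) (nat_lit 0x0) (nat_lit 0x4000200000000000040001000080000000000) := T_34 (nat_lit 60) (nat_lit 43) (nat_lit 7) (nat_lit 9) (nat_lit 2) L95502 (by decide +kernel)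
theorem L95504 : W_34 (nat_lit 4) (nat_lit 0x200010001000080010000f00020000000000000000000) (nat_lit 0x0) (nat_lit 0x4000200003000000040001000080000000000) := T_34 (nat_lit 109) (nat_lit 108) (nat_lit 1) (nat_lit 10) (nat_lit 5) L95503 (by decide +kernel)
theorem L95505 : W_34 (nat_lit 5) (nat_lit 0x200010001000080010000700020000000000000000000) (nat_lit 0x0) (nat_lit 0x4000200023000800040001000080000000000) := T_34 (nat_lit 95) (nat_lit 113) (nat_lit 3) (nat_lit 7) (nat_lit 5) L95504 (by decide +kernel)
theorem L95506 : W_34 (nat_lit 8) (nat_lit 0x200010001000080000000700020000000000000000000) (nat_lit 0x0) (nat_lit 0x400030007b0008000400038001c000a000000) := Q_34 (nat_lit 112) (C_34 L95073 (C_34 L95079 (C_34 L95505 (C_34 L95067 N_34)))) (by decide +kernel)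
theorem L95507 : W_34 (nat_lit 9) (nat_lit 0x200010001000080000000600020000000000000000000) (nat_lit 0x0) (nat_lit 0x400030007bc009c005f0038001c000a000000) := Q_34 (nat_lit 92) (C_34 L95506 (C_34 L95496 (C_34 L95500 N_34))) (by decide +kernel)
theorem L95508 : W_34 (nat_lit 2) (nat_lit 0x200010001000080028001f00060000000100000000000) (nat_lit 0x0) (nat_lit 0x6000010000000000000000000) := D_34 (nat_lit 97) (nat_lit 98) (nat_lit 76) (nat_lit 0) (nat_lit 13) (nat_lit 5) (nat_lit 0) (nat_lit 12) (nat_lit 5) (by decide +kernel)
theorem L95509 : W_34 (nat_lit 3) (nat_lit 0x200010001000080028000f00060000000100000000000) (nat_lit 0x0) (nat_lit 0x40007000010000000000000000000) := T_34 (nat_lit 96) (nat_lit 114) (nat_lit 3) (nat_lit 8) (nat_lit 5) L95508 (by decide +kernel)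
theorem L95510 : W_34 (nat_lit 4) (nat_lit 0x200010001000080008000f00060000000100000000000) (nat_lit 0x0) (nat_lit 0x70007000010000000000000000000) := T_34 (nat_lit 113) (nat_lit 112) (nat_lit 3) (nat_lit 7) (nat_lit 5) L95509 (by decide +kernel)
theorem L95511 : W_34 (nat_lit 5) (nat_lit 0x200010001000080008000f00060000000000000000000) (nat_lit 0x0) (nat_lit 0x70007000010002000100000000000) := T_34 (nat_lit 44) (nat_lit 61) (nat_lit 5) (nat_lit 10) (nat_lit 2) L95510 (by decide +kernel)
theorem L95512 : W_34 (nat_lit 6) (nat_lit 0x200010001000080000000f00060000000000000000000) (nat_lit 0x0) (nat_lit 0x100078007000010002000100000000000) := T_34 (nat_lit 111) (nat_lit 128) (nat_lit 5) (nat_lit 9) (nat_lit 4) L95511 (by decide +kernel)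
theorem L95513 : W_34 (nat_lit 7) (nat_lit 0x200010001000080000000e00060000000000000000000) (nat_lit 0x0) (nat_lit 0x100078007180010002000100000000000) := T_34 (nat_lit 92) (nat_lit 91) (nat_lit 2) (nat_lit 6) (nat_lit 5) L95512 (by decide +kernel)
theorem L95514 : W_34 (nat_lit 2) (nat_lit 0x200010001000080028001f00020000000000000000000) (nat_lit 0x0) (nat_lit 0x1c0000000000000000000) := D_34 (nat_lit 79) (nat_lit 80) (nat_lit 78) (nat_lit 2) (nat_lit 8) (nat_lit 5) (nat_lit 2) (nat_lit 7) (nat_lit 5) (by decide +kernel)
theorem L95515 : W_34 (nat_lit 3) (nat_lit 0x200010001000080028000f00020000000000000000000) (nat_lit 0x0) (nat_lit 0x400010001c0000000000000000000) := T_34 (nat_lit 96) (nat_lit 114) (nat_lit 3) (nat_lit 8) (nat_lit 5) L95514 (by decide +kernel)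
theorem L95516 : W_34 (nat_lit 4) (nat_lit 0x200010001000080008000f00020000000000000000000) (nat_lit 0x0) (nat_lit 0x700010001c0000000000000000000) := T_34 (nat_lit 113) (nat_lit 112) (nat_lit 3) (nat_lit 7) (nat_lit 5) L95515 (by decide +kernel)
theorem L95517 : W_34 (nat_lit 5) (nat_lit 0x200010001000080000000f00020000000000000000000) (nat_lit 0x0) (nat_lit 0x1000780010001c0000000000000000000) := T_34 (nat_lit 111) (nat_lit 128) (nat_lit 5) (nat_lit 9) (nat_lit 4) L95516 (by decide +kernel)
theorem L95518 : W_34 (nat_lit 2) (nat_lit 0x20001000500008001a000f00068002000000000000000) (nat_lit 0x0) (nat_lit 0x10004000200000000000) := D_34 (nat_lit 62) (nat_lit 45) (nat_lit 76) (nat_lit 6) (nat_lit 10) (nat_lit 6) (nat_lit 2) (nat_lit 7) (nat_lit 4) (by decide +kernel)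
theorem L95519 : W_34 (nat_lit 3) (nat_lit 0x20001000500008001a000f00060002000000000000000) (nat_lit 0x0) (nat_lit 0x1c004000200000000000) := T_34 (nat_lit 75) (nat_lit 74) (nat_lit 0) (nat_lit 10) (nat_lit 5) L95518 (by decide +kernel)
theorem L95520 : W_34 (nat_lit 4) (nat_lit 0x20001000500008001a000f00060000000000000000000) (nat_lit 0x0) (nat_lit 0x1c006000300000000000) := T_34 (nat_lit 61) (nat_lit 44) (nat_lit 5) (nat_lit 10) (nat_lit 2) L95519 (by decide +kernel)
theorem L95521 : W_34 (nat_lit 5) (nat_lit 0x20001000500008001a000f00020000000000000000000) (nat_lit 0x0) (nat_lit 0xdc006000300000000000) := T_34 (nat_lit 78) (nat_lit 79) (nat_lit 2) (nat_lit 7) (nat_lit 5) L95520 (by decide +kernel)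
theorem L95522 : W_34 (nat_lit 6) (nat_lit 0x20001000100008001a000f00020000000000000000000) (nat_lit 0x0) (nat_lit 0x40002000000000000dc006000300000000000) := T_34 (nat_lit 146) (nat_lit 129) (nat_lit 4) (nat_lit 10) (nat_lit 8) L95521 (by decide +kernel)
theorem L95523 : W_34 (nat_lit 7) (nat_lit 0x200010001000080012000f00020000000000000000000) (nat_lit 0x0) (nat_lit 0x40003000080000000dc006000300000000000) := T_34 (nat_lit 111) (nat_lit 128) (nat_lit 5) (nat_lit 9) (nat_lit 4) L95522 (by decide +kernel)
theorem L95524 : W_34 (nat_lit 8) (nat_lit 0x200010001000080002000f00020000000000000000000) (nat_lit 0x0) (nat_lit 0x40003000380000000dc006000300000000000) := T_34 (nat_lit 112) (nat_lit 113) (nat_lit 3) (nat_lit 7) (nat_lit 5) L95523 (by decide +kernel)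
theorem L95525 : W_34 (nat_lit 9) (nat_lit 0x200010001000080000000f00020000000000000000000) (nat_lit 0x0) (nat_lit 0x400030003b0000000dc006000300000000000) := T_34 (nat_lit 109) (nat_lit 108) (nat_lit 1) (nat_lit 10) (nat_lit 5) L95524 (by decide +kernel)
theorem L95526 : W_34 (nat_lit 10) (nat_lit 0x200010001000080000000700020000000000000000000) (nat_lit 0x0) (nat_lit 0x40003001fb0078003dc006000300000000000) := Q_34 (nat_lit 95) (C_34 L95517 (C_34 L95490 (C_34 L95477 (C_34 L95470 (C_34 L95525 N_34))))) (by decide +kernel)
theorem L95527 : W_34 (nat_lit 11) (nat_lit 0x200010001000080000000600020000000000000000000) (nat_lit 0x0) (nat_lit 0x40003001fbc079c03df006000300000000000) := Q_34 (nat_lit 92) (C_34 L95500 (C_34 L95526 (C_34 L95496 (C_34 L95065 (C_34 L95495 N_34))))) (by decide +kernel)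
theorem L95528 : W_34 (nat_lit 15) (nat_lit 0x200010001000080000000600000000000000000000000) (nat_lit 0x0) (nat_lit 0xc000f001fbc079c03ff01ff00ff801f800700) := Q_34 (nat_lit 77) (C_34 L94759 (C_34 L94874 (C_34 L94941 (C_34 L95027 (C_34 L95053 (C_34 L95081 (C_34 L95369 (C_34 L95449 (C_34 L95501 (C_34 L95507 (C_34 L95527 N_34))))))))))) (by decide +kernel)
theorem L95529 : W_34 (nat_lit 13) (nat_lit 0x200010001000080000000600000000000000000000000) (nat_lit 0x0) (nat_lit 0x1000ef0079c01fe00fe001f000f000100) := T_34 (nat_lit 77) (nat_lit 110) (nat_lit 6) (nat_lit 8) (nat_lit 8) L95027 (by decide +kernel)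
theorem L95530 : W_34 (nat_lit 12) (nat_lit 0x200010001000080000000600000000000000000000000) (nat_lit 0x0) (nat_lit 0x10001f0019801fc00fe001f000f000100) := T_34 (nat_lit 77) (nat_lit 110) (nat_lit 6) (nat_lit 8) (nat_lit 8) L94941 (by decide +kernel)
theorem L95531 : W_34 (nat_lit 15) (nat_lit 0x200010001000080000000600000000000000000000000) (nat_lit 0x0) (nat_lit 0x30007e0031c01fe00ff007f800f800000) := T_34 (nat_lit 77) (nat_lit 110) (nat_lit 6) (nat_lit 8) (nat_lit 8) L95449 (by decide +kernel)
theorem L95532 : W_34 (nat_lit 2) (nat_lit 0x200010001000080038000e00060003800000000000000) (nat_lit 0x0) (nat_lit 0x180000400000000000000) := D_34 (nat_lit 79) (nat_lit 80) (nat_lit 58) (nat_lit 1) (nat_lit 12) (nat_lit 4) (nat_lit 3) (nat_lit 7) (nat_lit 3) (by decide +kernel)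
theorem L95533 : W_34 (nat_lit 3) (nat_lit 0x200010001000080038000e00020003800000000000000) (nat_lit 0x0) (nat_lit 0x4000000000001c0000400000000000000) := T_34 (nat_lit 78) (nat_lit 130) (nat_lit 7) (nat_lit 10) (nat_lit 3) L95532 (by decide +kernel)
theorem L95534 : W_34 (nat_lit 2) (nat_lit 0x200010001000080028001e00028003c00010000000000) (nat_lit 0x0) (nat_lit 0x40000200008000000000) := D_34 (nat_lit 57) (nat_lit 78) (nat_lit 39) (nat_lit 3) (nat_lit 6) (nat_lit 3) (nat_lit 0) (nat_lit 9) (nat_lit 3) (by decide +kernel)
theorem L95535 : W_34 (nat_lit 3) (nat_lit 0x200010001000080028001e00028003c00000000000000) (nat_lit 0x0) (nat_lit 0x40000200038000000000) := T_34 (nat_lit 40) (nat_lit 41) (nat_lit 0) (nat_lit 10) (nat_lit 3) L95534 (by decide +kernel)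
theorem L95536 : W_34 (nat_lit 4) (nat_lit 0x200010001000080028001e00028003800000000000000) (nat_lit 0x0) (nat_lit 0x44000600038000000000) := T_34 (nat_lit 58) (nat_lit 74) (nat_lit 1) (nat_lit 10) (nat_lit 3) L95535 (by decide +kernel)
theorem L95537 : W_34 (nat_lit 5) (nat_lit 0x200010001000080028001e00020003800000000000000) (nat_lit 0x0) (nat_lit 0x5c000600038000000000) := T_34 (nat_lit 75) (nat_lit 76) (nat_lit 0) (nat_lit 11) (nat_lit 5) L95536 (by decide +kernel)
theorem L95538 : W_34 (nat_lit 6) (nat_lit 0x200010001000080008001e00020003800000000000000) (nat_lit 0x0) (nat_lit 0x6000000005c000600038000000000) := T_34 (nat_lit 113) (nat_lit 114) (nat_lit 3) (nat_lit 8) (nat_lit 5) L95537 (by decide +kernel)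
theorem L95539 : W_34 (nat_lit 7) (nat_lit 0x200010001000080008001e00020001800000000000000) (nat_lit 0x0) (nat_lit 0x6000000005c002600138000000000) := T_34 (nat_lit 61) (nat_lit 44) (nat_lit 6) (nat_lit 9) (nat_lit 6) L95538 (by decide +kernel)
theorem L95540 : W_34 (nat_lit 8) (nat_lit 0x200010001000080008001e00020001000000000000000) (nat_lit 0x0) (nat_lit 0x6000000005c002e00178000000000) := T_34 (nat_lit 59) (nat_lit 42) (nat_lit 4) (nat_lit 9) (nat_lit 6) L95539 (by decide +kernel)
theorem L95541 : W_34 (nat_lit 2) (nat_lit 0x200010001000080008001e00020001000000000000000) (nat_lit 0x0) (nat_lit 0x200010000000000000000080000000000) := D_34 (nat_lit 112) (nat_lit 43) (nat_lit 129) (nat_lit 7) (nat_lit 9) (nat_lit 2) (nat_lit 7) (nat_lit 9) (nat_lit 3) (by decide +kernel)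
theorem L95542 : W_34 (nat_lit 2) (nat_lit 0x200010001000080028001e000f0000800000000000000) (nat_lit 0x0) (nat_lit 0x8000400000000000000002000000000000000) := D_34 (nat_lit 130) (nat_lit 61) (nat_lit 147) (nat_lit 4) (nat_lit 11) (nat_lit 7) (nat_lit 4) (nat_lit 11) (nat_lit 8) (by decide +kernel)
theorem L95543 : W_34 (nat_lit 3) (nat_lit 0x200010001000080028001e000b0000800000000000000) (nat_lit 0x0) (nat_lit 0x8000400000000000040002400000000000000) := T_34 (nat_lit 78) (nat_lit 58) (nat_lit 0) (nat_lit 11) (nat_lit 4) L95542 (by decide +kernel)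
theorem L95544 : W_34 (nat_lit 2) (nat_lit 0x200010001000080018001e00020000000000000000000) (nat_lit 0x0) (nat_lit 0x4000200000000000000001000000000000000) := D_34 (nat_lit 129) (nat_lit 146) (nat_lit 60) (nat_lit 4) (nat_lit 10) (nat_lit 8) (nat_lit 7) (nat_lit 9) (nat_lit 3) (by decide +kernel)
theorem L95545 : W_34 (nat_lit 2) (nat_lit 0x200010001000080008001e000f0004800000000000000) (nat_lit 0x0) (nat_lit 0x10000000000000000200010000000) := D_34 (nat_lit 45) (nat_lit 28) (nat_lit 112) (nat_lit 5) (nat_lit 11) (nat_lit 1) (nat_lit 5) (nat_lit 11) (nat_lit 2) (by decide +kernel)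
theorem L95546 : W_34 (nat_lit 3) (nat_lit 0x200010001000080008001e000f0000800000000000000) (nat_lit 0x0) (nat_lit 0x1000000000000c000200010000000) := T_34 (nat_lit 62) (nat_lit 63) (nat_lit 2) (nat_lit 8) (nat_lit 4) L95545 (by decide +kernel)
theorem L95547 : W_34 (nat_lit 4) (nat_lit 0x200010001000080008001e000b0000800000000000000) (nat_lit 0x0) (nat_lit 0x1000000004000c400200010000000) := T_34 (nat_lit 78) (nat_lit 58) (nat_lit 0) (nat_lit 11) (nat_lit 4) L95546 (by decide +kernel)
theorem L95548 : W_34 (nat_lit 2) (nat_lit 0x200010001000080008000e00020001000000000000000) (nat_lit 0x0) (nat_lit 0x200010000000000000000080000000000) := D_34 (nat_lit 112) (nat_lit 43) (nat_lit 129) (nat_lit 7) (nat_lit 9) (nat_lit 2) (nat_lit 7) (nat_lit 9) (nat_lit 3) (by decide +kernel)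
theorem L95549 : W_34 (nat_lit 2) (nat_lit 0x200010001000080008000e000200030000c0000000000) (nat_lit 0x0) (nat_lit 0x50000000000004000000) := D_34 (nat_lit 26) (nat_lit 76) (nat_lit 78) (nat_lit 5) (nat_lit 9) (nat_lit 1) (nat_lit 7) (nat_lit 9) (nat_lit 1) (by decide +kernel)
theorem L95550 : W_34 (nat_lit 3) (nat_lit 0x200010001000080008000e00020003000040000000000) (nat_lit 0x0) (nat_lit 0x50000000080006000000) := T_34 (nat_lit 43) (nat_lit 25) (nat_lit 4) (nat_lit 9) (nat_lit 5) L95549 (by decide +kernel)
theorem L95551 : W_34 (nat_lit 4) (nat_lit 0x200010001000080008000e00020003000000000000000) (nat_lit 0x0) (nat_lit 0x500008000c0006000000) := T_34 (nat_lit 42) (nat_lit 59) (nat_lit 4) (nat_lit 9) (nat_lit 6) L95550 (by decide +kernel)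
theorem L95552 : W_34 (nat_lit 5) (nat_lit 0x200010001000080008000e00020001000000000000000) (nat_lit 0x0) (nat_lit 0x500028001c0006000000) := T_34 (nat_lit 61) (nat_lit 44) (nat_lit 6) (nat_lit 9) (nat_lit 6) L95551 (by decide +kernel)
theorem L95553 : W_34 (nat_lit 4) (nat_lit 0x200010001000080038000e00020001800000000000000) (nat_lit 0x0) (nat_lit 0x4000000000001c0002400100000000000) := T_34 (nat_lit 61) (nat_lit 44) (nat_lit 6) (nat_lit 9) (nat_lit 6) L95533 (by decide +kernel)
theorem L95554 : W_34 (nat_lit 5) (nat_lit 0x200010001000080018000e00020001800000000000000) (nat_lit 0x0) (nat_lit 0x4000600000001c0002400100000000000) := T_34 (nat_lit 113) (nat_lit 114) (nat_lit 0) (nat_lit 12) (nat_lit 6) L95553 (by decide +kernel)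
theorem L95555 : W_34 (nat_lit 6) (nat_lit 0x200010001000080008000e00020001800000000000000) (nat_lit 0x0) (nat_lit 0x6000700000001c0002400100000000000) := T_34 (nat_lit 112) (nat_lit 129) (nat_lit 7) (nat_lit 9) (nat_lit 3) L95554 (by decide +kernel)
theorem L95556 : W_34 (nat_lit 7) (nat_lit 0x200010001000080008000e00020001000000000000000) (nat_lit 0x0) (nat_lit 0x6000700000001c0002c00140000000000) := T_34 (nat_lit 59) (nat_lit 42) (nat_lit 4) (nat_lit 9) (nat_lit 6) L95555 (by decide +kernel)
theorem L95557 : W_34 (nat_lit 8) (nat_lit 0x200010001000080008000e00020000000000000000000) (nat_lit 0x0) (nat_lit 0x6000700000001d0003c001c0006000000) := Q_34 (nat_lit 60) (C_34 L95552 (C_34 L95548 (C_34 L95556 N_34))) (by decide +kernel)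
theorem L95558 : W_34 (nat_lit 2) (nat_lit 0x20001000100008002c001e00010000000000000000000) (nat_lit 0x0) (nat_lit 0x100000000000000000800040000000000) := D_34 (nat_lit 59) (nat_lit 128) (nat_lit 42) (nat_lit 7) (nat_lit 8) (nat_lit 3) (nat_lit 7) (nat_lit 8) (nat_lit 2) (by decide +kernel)
theorem L95559 : W_34 (nat_lit 3) (nat_lit 0x20001000100008002c001e00000000000000000000000) (nat_lit 0x0) (nat_lit 0x100000000000018000800040000000000) := T_34 (nat_lit 76) (nat_lit 75) (nat_lit 0) (nat_lit 11) (nat_lit 5) L95558 (by decide +kernel)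
theorem L95560 : W_34 (nat_lit 2) (nat_lit 0x20001000100008000c001e00090000000000000000000) (nat_lit 0x0) (nat_lit 0x100000000000000000800040000000000) := D_34 (nat_lit 59) (nat_lit 128) (nat_lit 42) (nat_lit 7) (nat_lit 8) (nat_lit 3) (nat_lit 7) (nat_lit 8) (nat_lit 2) (by decide +kernel)
theorem L95561 : W_34 (nat_lit 2) (nat_lit 0x200010001000080004001e00090003c00200000000000) (nat_lit 0x0) (nat_lit 0x10000000000004000400000000000) := D_34 (nat_lit 62) (nat_lit 46) (nat_lit 112) (nat_lit 2) (nat_lit 8) (nat_lit 3) (nat_lit 5) (nat_lit 11) (nat_lit 2) (by decide +kernel)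
theorem L95562 : W_34 (nat_lit 3) (nat_lit 0x200010001000080004001e00090003c00000000000000) (nat_lit 0x0) (nat_lit 0x10000000000004000700000000000) := T_34 (nat_lit 45) (nat_lit 44) (nat_lit 2) (nat_lit 7) (nat_lit 3) L95561 (by decide +kernel)
theorem L95563 : W_34 (nat_lit 4) (nat_lit 0x200010001000080004001e00090001c00000000000000) (nat_lit 0x0) (nat_lit 0x10000000040006000700000000000) := T_34 (nat_lit 61) (nat_lit 78) (nat_lit 3) (nat_lit 7) (nat_lit 3) L95562 (by decide +kernel)
theorem L95564 : W_34 (nat_lit 5) (nat_lit 0x200010001000080004001e00090001800000000000000) (nat_lit 0x0) (nat_lit 0x10000000040006400720000000000) := T_34 (nat_lit 58) (nat_lit 41) (nat_lit 4) (nat_lit 8) (nat_lit 6) L95563 (by decide +kernel)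
theorem L95565 : W_34 (nat_lit 6) (nat_lit 0x200010001000080004001e00090000800000000000000) (nat_lit 0x0) (nat_lit 0x100000000400074007a0000000000) := T_34 (nat_lit 60) (nat_lit 43) (nat_lit 6) (nat_lit 8) (nat_lit 6) L95564 (by decide +kernel)
theorem L95566 : W_34 (nat_lit 7) (nat_lit 0x200010001000080004001e00010000800000000000000) (nat_lit 0x0) (nat_lit 0x100000001c00074007a0000000000) := T_34 (nat_lit 79) (nat_lit 80) (nat_lit 2) (nat_lit 8) (nat_lit 5) L95565 (by decide +kernel)
theorem L95567 : W_34 (nat_lit 8) (nat_lit 0x200010001000080000001e00010000800000000000000) (nat_lit 0x0) (nat_lit 0x160000001c00074007a0000000000) := T_34 (nat_lit 110) (nat_lit 109) (nat_lit 1) (nat_lit 11) (nat_lit 5) L95566 (by decide +kernel)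
theorem L95568 : W_34 (nat_lit 2) (nat_lit 0x200010001000080024001e00050003800068000000000) (nat_lit 0x0) (nat_lit 0x8000400010000000000000000000000000000) := D_34 (nat_lit 130) (nat_lit 147) (nat_lit 112) (nat_lit 4) (nat_lit 11) (nat_lit 8) (nat_lit 7) (nat_lit 10) (nat_lit 3) (by decide +kernel)
theorem L95569 : W_34 (nat_lit 3) (nat_lit 0x200010001000080024001e00010003800068000000000) (nat_lit 0x0) (nat_lit 0x8000400010000000040000000100000000000) := T_34 (nat_lit 78) (nat_lit 44) (nat_lit 7) (nat_lit 10) (nat_lit 2) L95568 (by decide +kernel)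
theorem L95570 : W_34 (nat_lit 4) (nat_lit 0x200010001000080024001e00010001800068000000000) (nat_lit 0x0) (nat_lit 0x8000400010000000040006000100000000000) := T_34 (nat_lit 61) (nat_lit 62) (nat_lit 0) (nat_lit 11) (nat_lit 3) L95569 (by decide +kernel)
theorem L95571 : W_34 (nat_lit 5) (nat_lit 0x200010001000080024001e00010001800060000000000) (nat_lit 0x0) (nat_lit 0x8000400010000000040006000118000000000) := T_34 (nat_lit 39) (nat_lit 40) (nat_lit 3) (nat_lit 5) (nat_lit 2) L95570 (by decide +kernel)
theorem L95572 : W_34 (nat_lit 6) (nat_lit 0x200010001000080024001e00010001800020000000000) (nat_lit 0x0) (nat_lit 0x8000400010000000040006000158001000000) := T_34 (nat_lit 42) (nat_lit 24) (nat_lit 4) (nat_lit 8) (nat_lit 5) L95571 (by decide +kernel)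
theorem L95573 : W_34 (nat_lit 7) (nat_lit 0x200010001000080024001e00010001800000000000000) (nat_lit 0x0) (nat_lit 0x8000400010000000040006400178001000000) := T_34 (nat_lit 41) (nat_lit 58) (nat_lit 4) (nat_lit 8) (nat_lit 6) L95572 (by decide +kernel)
theorem L95574 : W_34 (nat_lit 8) (nat_lit 0x200010001000080024001e00010000800000000000000) (nat_lit 0x0) (nat_lit 0x80004000100000000400074001f8001000000) := T_34 (nat_lit 60) (nat_lit 43) (nat_lit 6) (nat_lit 8) (nat_lit 6) L95573 (by decide +kernel)
theorem L95575 : W_34 (nat_lit 9) (nat_lit 0x200010001000080004001e00010000800000000000000) (nat_lit 0x0) (nat_lit 0x80004000700000000400074001f8001000000) := T_34 (nat_lit 113) (nat_lit 114) (nat_lit 3) (nat_lit 8) (nat_lit 5) L95574 (by decide +kernel)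
theorem L95576 : W_34 (nat_lit 10) (nat_lit 0x200010001000080000001e00010000800000000000000) (nat_lit 0x0) (nat_lit 0x80004000760000000400074001f8001000000) := T_34 (nat_lit 110) (nat_lit 109) (nat_lit 1) (nat_lit 11) (nat_lit 5) L95575 (by decide +kernel)
theorem L95577 : W_34 (nat_lit 2) (nat_lit 0x200010001000080044001e00110000000000000000000) (nat_lit 0x0) (nat_lit 0x80002000200000000000000000000) := D_34 (nat_lit 97) (nat_lit 81) (nat_lit 115) (nat_lit 2) (nat_lit 9) (nat_lit 5) (nat_lit 3) (nat_lit 9) (nat_lit 5) (by decide +kernel)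
theorem L95578 : W_34 (nat_lit 3) (nat_lit 0x200010001000080004001e00110000000000000000000) (nat_lit 0x0) (nat_lit 0xe0002000200000000000000000000) := T_34 (nat_lit 114) (nat_lit 113) (nat_lit 3) (nat_lit 8) (nat_lit 5) L95577 (by decide +kernel)
theorem L95579 : W_34 (nat_lit 4) (nat_lit 0x200010001000080004001e00010000000000000000000) (nat_lit 0x0) (nat_lit 0xe0002000380000000000000000000) := T_34 (nat_lit 80) (nat_lit 79) (nat_lit 2) (nat_lit 8) (nat_lit 5) L95578 (by decide +kernel)
theorem L95580 : W_34 (nat_lit 2) (nat_lit 0x200010001000080040001e00110000000000000000000) (nat_lit 0x0) (nat_lit 0x80002000200000000000000000000) := D_34 (nat_lit 97) (nat_lit 81) (nat_lit 115) (nat_lit 2) (nat_lit 9) (nat_lit 5) (nat_lit 3) (nat_lit 9) (nat_lit 5) (by decide +kernel)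
theorem L95581 : W_34 (nat_lit 3) (nat_lit 0x200010001000080000001e00110000000000000000000) (nat_lit 0x0) (nat_lit 0xe0002000200000000000000000000) := T_34 (nat_lit 114) (nat_lit 113) (nat_lit 3) (nat_lit 8) (nat_lit 5) L95580 (by decide +kernel)
theorem L95582 : W_34 (nat_lit 4) (nat_lit 0x200010001000080000001e00010000000000000000000) (nat_lit 0x0) (nat_lit 0xe0002000380000000000000000000) := T_34 (nat_lit 80) (nat_lit 79) (nat_lit 2) (nat_lit 8) (nat_lit 5) L95581 (by decide +kernel)
theorem L95583 : W_34 (nat_lit 2) (nat_lit 0x200010001000080084007e00490000000000000000000) (nat_lit 0x0) (nat_lit 0x8000840000000000000000000) := D_34 (nat_lit 99) (nat_lit 78) (nat_lit 83) (nat_lit 0) (nat_lit 14) (nat_lit 5) (nat_lit 2) (nat_lit 11) (nat_lit 5) (by decide +kernel)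
theorem L95584 : W_34 (nat_lit 3) (nat_lit 0x200010001000080084007e00090000000000000000000) (nat_lit 0x0) (nat_lit 0x8000e40000000000000000000) := T_34 (nat_lit 82) (nat_lit 81) (nat_lit 2) (nat_lit 10) (nat_lit 5) L95583 (by decide +kernel)
theorem L95585 : W_34 (nat_lit 4) (nat_lit 0x200010001000080084003e00090000000000000000000) (nat_lit 0x0) (nat_lit 0x10000c000e40000000000000000000) := T_34 (nat_lit 98) (nat_lit 116) (nat_lit 3) (nat_lit 10) (nat_lit 5) L95584 (by decide +kernel)
theorem L95586 : W_34 (nat_lit 5) (nat_lit 0x200010001000080004003e00090000000000000000000) (nat_lit 0x0) (nat_lit 0x1c000c000e40000000000000000000) := T_34 (nat_lit 115) (nat_lit 114) (nat_lit 3) (nat_lit 9) (nat_lit 5) L95585 (by decide +kernel)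
theorem L95587 : W_34 (nat_lit 6) (nat_lit 0x200010001000080004001e00090000000000000000000) (nat_lit 0x0) (nat_lit 0x1c800e000e40000000000000000000) := T_34 (nat_lit 97) (nat_lit 111) (nat_lit 1) (nat_lit 12) (nat_lit 5) L95586 (by decide +kernel)
theorem L95588 : W_34 (nat_lit 7) (nat_lit 0x200010001000080004001e00010000000000000000000) (nat_lit 0x0) (nat_lit 0x1c800e000fc0000000000000000000) := T_34 (nat_lit 79) (nat_lit 80) (nat_lit 2) (nat_lit 8) (nat_lit 5) L95587 (by decide +kernel)
theorem L95589 : W_34 (nat_lit 2) (nat_lit 0x20001000100008002400fe00210000000000000000000) (nat_lit 0x0) (nat_lit 0x380000000000000000000000000000) := D_34 (nat_lit 116) (nat_lit 115) (nat_lit 117) (nat_lit 3) (nat_lit 10) (nat_lit 5) (nat_lit 3) (nat_lit 11) (nat_lit 5) (by decide +kernel)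
theorem L95590 : W_34 (nat_lit 3) (nat_lit 0x200010001000080024007e00210000000000000000000) (nat_lit 0x0) (nat_lit 0x390008000000000000000000000000) := T_34 (nat_lit 99) (nat_lit 112) (nat_lit 1) (nat_lit 14) (nat_lit 5) L95589 (by decide +kernel)
theorem L95591 : W_34 (nat_lit 4) (nat_lit 0x200010001000080024003e00210000000000000000000) (nat_lit 0x0) (nat_lit 0x39000c000400000000000000000000) := T_34 (nat_lit 98) (nat_lit 82) (nat_lit 2) (nat_lit 10) (nat_lit 5) L95590 (by decide +kernel)
theorem L95592 : W_34 (nat_lit 5) (nat_lit 0x200010001000080024003e00010000000000000000000) (nat_lit 0x0) (nat_lit 0x39000c000700000000000000000000) := T_34 (nat_lit 81) (nat_lit 80) (nat_lit 2) (nat_lit 9) (nat_lit 5) L95591 (by decide +kernel)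
theorem L95593 : W_34 (nat_lit 2) (nat_lit 0x200010001000080004001e00010000800000000000000) (nat_lit 0x0) (nat_lit 0x100008000000000000000040000000000) := D_34 (nat_lit 111) (nat_lit 42) (nat_lit 128) (nat_lit 7) (nat_lit 8) (nat_lit 2) (nat_lit 7) (nat_lit 8) (nat_lit 3) (by decide +kernel)
theorem L95594 : W_34 (nat_lit 3) (nat_lit 0x200010001000080000001e00010000800000000000000) (nat_lit 0x0) (nat_lit 0x10000e000000000000000040000000000) := T_34 (nat_lit 110) (nat_lit 109) (nat_lit 1) (nat_lit 11) (nat_lit 5) L95593 (by decide +kernel)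
theorem L95595 : W_34 (nat_lit 2) (nat_lit 0x200010001000080000001e000100008000e0000000000) (nat_lit 0x0) (nat_lit 0x4000000000001400000000000000) := D_34 (nat_lit 110) (nat_lit 60) (nat_lit 58) (nat_lit 6) (nat_lit 8) (nat_lit 6) (nat_lit 4) (nat_lit 8) (nat_lit 6) (by decide +kernel)
theorem L95596 : W_34 (nat_lit 3) (nat_lit 0x200010001000080000001e000100008000c0000000000) (nat_lit 0x0) (nat_lit 0x4000000000001400020001000000) := T_34 (nat_lit 41) (nat_lit 24) (nat_lit 4) (nat_lit 8) (nat_lit 5) L95595 (by decide +kernel)
theorem L95597 : W_34 (nat_lit 4) (nat_lit 0x200010001000080000001e00010000800040000000000) (nat_lit 0x0) (nat_lit 0x40000000000014000a0005000000) := T_34 (nat_lit 43) (nat_lit 26) (nat_lit 6) (nat_lit 8) (nat_lit 5) L95596 (by decide +kernel)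
theorem L95598 : W_34 (nat_lit 5) (nat_lit 0x200010001000080000001e00010000800000000000000) (nat_lit 0x0) (nat_lit 0xc0000000000014000e0005000000) := T_34 (nat_lit 42) (nat_lit 111) (nat_lit 7) (nat_lit 8) (nat_lit 2) L95597 (by decide +kernel)
theorem L95599 : W_34 (nat_lit 2) (nat_lit 0x200010001000080020001e000900048002c0003400000) (nat_lit 0x0) (nat_lit 0x8000400020000000) := D_34 (nat_lit 46) (nat_lit 63) (nat_lit 29) (nat_lit 6) (nat_lit 11) (nat_lit 6) (nat_lit 6) (nat_lit 11) (nat_lit 5) (by decide +kernel)
theorem L95600 : W_34 (nat_lit 3) (nat_lit 0x200010001000080020001e000900008002c0003400000) (nat_lit 0x0) (nat_lit 0x1000000000000c000400020000000) := T_34 (nat_lit 62) (nat_lit 112) (nat_lit 5) (nat_lit 11) (nat_lit 2) L95599 (by decide +kernel)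
theorem L95601 : W_34 (nat_lit 4) (nat_lit 0x200010001000080020001e000900008000c0003400000) (nat_lit 0x0) (nat_lit 0x1000000000000c000700020000000) := T_34 (nat_lit 45) (nat_lit 44) (nat_lit 0) (nat_lit 11) (nat_lit 2) L95600 (by decide +kernel)
theorem L95602 : W_34 (nat_lit 5) (nat_lit 0x200010001000080020001e000900008000c0003000000) (nat_lit 0x0) (nat_lit 0x1000000000000c000700020c00000) := T_34 (nat_lit 22) (nat_lit 23) (nat_lit 3) (nat_lit 5) (nat_lit 1) L95601 (by decide +kernel)
theorem L95603 : W_34 (nat_lit 6) (nat_lit 0x200010001000080020001e000900008000c0001000000) (nat_lit 0x0) (nat_lit 0x1000000000000c000700022c00080) := T_34 (nat_lit 25) (nat_lit 7) (nat_lit 4) (nat_lit 8) (nat_lit 4) L95602 (by decide +kernel)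
theorem L95604 : W_34 (nat_lit 7) (nat_lit 0x200010001000080000001e000900008000c0001000000) (nat_lit 0x0) (nat_lit 0x7000000000000c000700022c00080) := T_34 (nat_lit 113) (nat_lit 114) (nat_lit 3) (nat_lit 8) (nat_lit 5) L95603 (by decide +kernel)
theorem L95605 : W_34 (nat_lit 8) (nat_lit 0x200010001000080000001e000900008000c0000000000) (nat_lit 0x0) (nat_lit 0x7000000000000c000720023c00080) := T_34 (nat_lit 24) (nat_lit 41) (nat_lit 4) (nat_lit 8) (nat_lit 5) L95604 (by decide +kernel)
theorem L95606 : W_34 (nat_lit 9) (nat_lit 0x200010001000080000001e00090000800040000000000) (nat_lit 0x0) (nat_lit 0x7000000000000c0007a0027c00080) := T_34 (nat_lit 43) (nat_lit 26) (nat_lit 6) (nat_lit 8) (nat_lit 5) L95605 (by decide +kernel)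
theorem L95607 : W_34 (nat_lit 10) (nat_lit 0x200010001000080000001e00090000800000000000000) (nat_lit 0x0) (nat_lit 0x7800000000000c0007e0027c00080) := T_34 (nat_lit 42) (nat_lit 111) (nat_lit 7) (nat_lit 8) (nat_lit 2) L95606 (by decide +kernel)
theorem L95608 : W_34 (nat_lit 11) (nat_lit 0x200010001000080000001e00010000800000000000000) (nat_lit 0x0) (nat_lit 0x7800000018000c0007e0027c00080) := T_34 (nat_lit 79) (nat_lit 80) (nat_lit 2) (nat_lit 8) (nat_lit 5) L95607 (by decide +kernel)
theorem L95609 : W_34 (nat_lit 12) (nat_lit 0x200010001000080000001e00010000000000000000000) (nat_lit 0x0) (nat_lit 0x800050007e0000001c000fc007f8027c00080) := Q_34 (nat_lit 59) (C_34 L95594 (C_34 L95576 (C_34 L95598 (C_34 L95608 (C_34 L95567 N_34))))) (by decide +kernel)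
theorem L95610 : W_34 (nat_lit 3) (nat_lit 0x200010001000080004001e00090000000000000000000) (nat_lit 0x0) (nat_lit 0x100008002000000000800040000000000) := T_34 (nat_lit 111) (nat_lit 97) (nat_lit 1) (nat_lit 12) (nat_lit 5) L95560 (by decide +kernel)
theorem L95611 : W_34 (nat_lit 4) (nat_lit 0x200010001000080000001e00090000000000000000000) (nat_lit 0x0) (nat_lit 0x10000e002000000000800040000000000) := T_34 (nat_lit 110) (nat_lit 109) (nat_lit 1) (nat_lit 11) (nat_lit 5) L95610 (by decide +kernel)
theorem L95612 : W_34 (nat_lit 5) (nat_lit 0x200010001000080000001e00000000000000000000000) (nat_lit 0x0) (nat_lit 0xe0002000398000000000000000000) := T_34 (nat_lit 76) (nat_lit 75) (nat_lit 0) (nat_lit 11) (nat_lit 5) L95582 (by decide +kernel)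
theorem L95613 : W_34 (nat_lit 2) (nat_lit 0x200010001000080024001e00100000000000000000000) (nat_lit 0x0) (nat_lit 0x8002000200000000000000000000) := D_34 (nat_lit 97) (nat_lit 81) (nat_lit 111) (nat_lit 2) (nat_lit 9) (nat_lit 5) (nat_lit 1) (nat_lit 12) (nat_lit 5) (by decide +kernel)
theorem L95614 : W_34 (nat_lit 3) (nat_lit 0x200010001000080020001e00100000000000000000000) (nat_lit 0x0) (nat_lit 0xe002000200000000000000000000) := T_34 (nat_lit 110) (nat_lit 109) (nat_lit 1) (nat_lit 11) (nat_lit 5) L95613 (by decide +kernel)
theorem L95615 : W_34 (nat_lit 4) (nat_lit 0x200010001000080020001e00000000000000000000000) (nat_lit 0x0) (nat_lit 0xe002000380000000000000000000) := T_34 (nat_lit 80) (nat_lit 79) (nat_lit 2) (nat_lit 8) (nat_lit 5) L95614 (by decide +kernel)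
theorem L95616 : W_34 (nat_lit 5) (nat_lit 0x200010001000080000001e00000000000000000000000) (nat_lit 0x0) (nat_lit 0x6e002000380000000000000000000) := T_34 (nat_lit 113) (nat_lit 114) (nat_lit 3) (nat_lit 8) (nat_lit 5) L95615 (by decide +kernel)
theorem L95617 : W_34 (nat_lit 5) (nat_lit 0x200010001000080000001e00080000000000000000000) (nat_lit 0x0) (nat_lit 0x10000e002000018000800040000000000) := T_34 (nat_lit 76) (nat_lit 75) (nat_lit 0) (nat_lit 11) (nat_lit 5) L95611 (by decide +kernel)
theorem L95618 : W_34 (nat_lit 6) (nat_lit 0x200010001000080000001e00000000000000000000000) (nat_lit 0x0) (nat_lit 0x10000e002000198000800040000000000) := T_34 (nat_lit 79) (nat_lit 80) (nat_lit 2) (nat_lit 8) (nat_lit 5) L95617 (by decide +kernel)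
theorem L95619 : W_34 (nat_lit 6) (nat_lit 0x200010001000080024003e00000000000000000000000) (nat_lit 0x0) (nat_lit 0x39000c000718000000000000000000) := T_34 (nat_lit 76) (nat_lit 75) (nat_lit 0) (nat_lit 11) (nat_lit 5) L95592 (by decide +kernel)
theorem L95620 : W_34 (nat_lit 7) (nat_lit 0x200010001000080024001e00000000000000000000000) (nat_lit 0x0) (nat_lit 0x39800e000718000000000000000000) := T_34 (nat_lit 97) (nat_lit 111) (nat_lit 1) (nat_lit 12) (nat_lit 5) L95619 (by decide +kernel)
theorem L95621 : W_34 (nat_lit 8) (nat_lit 0x200010001000080004001e00000000000000000000000) (nat_lit 0x0) (nat_lit 0x3f800e000718000000000000000000) := T_34 (nat_lit 113) (nat_lit 114) (nat_lit 3) (nat_lit 8) (nat_lit 5) L95620 (by decide +kernel)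
theorem L95622 : W_34 (nat_lit 9) (nat_lit 0x200010001000080000001e00000000000000000000000) (nat_lit 0x0) (nat_lit 0x3fe00e000718000000000000000000) := T_34 (nat_lit 110) (nat_lit 109) (nat_lit 1) (nat_lit 11) (nat_lit 5) L95621 (by decide +kernel)
theorem L95623 : W_34 (nat_lit 4) (nat_lit 0x200010001000080024001e00000000000000000000000) (nat_lit 0x0) (nat_lit 0x100008002000018000800040000000000) := T_34 (nat_lit 111) (nat_lit 97) (nat_lit 1) (nat_lit 12) (nat_lit 5) L95559 (by decide +kernel)
theorem L95624 : W_34 (nat_lit 5) (nat_lit 0x200010001000080004001e00000000000000000000000) (nat_lit 0x0) (nat_lit 0x100068002000018000800040000000000) := T_34 (nat_lit 113) (nat_lit 114) (nat_lit 3) (nat_lit 8) (nat_lit 5) L95623 (by decide +kernel)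
theorem L95625 : W_34 (nat_lit 6) (nat_lit 0x200010001000080000001e00000000000000000000000) (nat_lit 0x0) (nat_lit 0x10006e002000018000800040000000000) := T_34 (nat_lit 110) (nat_lit 109) (nat_lit 1) (nat_lit 11) (nat_lit 5) L95624 (by decide +kernel)
theorem L95626 : W_34 (nat_lit 13) (nat_lit 0x200010001000080000001e00000000000000000000000) (nat_lit 0x0) (nat_lit 0x800050007e0000001d800fc007f8027c00080) := T_34 (nat_lit 76) (nat_lit 75) (nat_lit 0) (nat_lit 11) (nat_lit 5) L95609 (by decide +kernel)
theorem L95627 : W_34 (nat_lit 14) (nat_lit 0x200010001000080000000e00000000000000000000000) (nat_lit 0x0) (nat_lit 0x80005003fe00f0007d800fc007f8027c00080) := Q_34 (nat_lit 96) (C_34 L95612 (C_34 L95616 (C_34 L95618 (C_34 L95622 (C_34 L95625 (C_34 L95626 N_34)))))) (by decide +kernel)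
theorem L95628 : W_34 (nat_lit 5) (nat_lit 0x200010001000080004001e00000000000000000000000) (nat_lit 0x0) (nat_lit 0xe0002000398000000000000000000) := T_34 (nat_lit 76) (nat_lit 75) (nat_lit 0) (nat_lit 11) (nat_lit 5) L95579 (by decide +kernel)
theorem L95629 : W_34 (nat_lit 6) (nat_lit 0x200010001000080004000e00000000000000000000000) (nat_lit 0x0) (nat_lit 0xe2003000398000000000000000000) := T_34 (nat_lit 96) (nat_lit 109) (nat_lit 1) (nat_lit 11) (nat_lit 5) L95628 (by decide +kernel)
theorem L95630 : W_34 (nat_lit 7) (nat_lit 0x200010001000080000000e00000000000000000000000) (nat_lit 0x0) (nat_lit 0xe60030003b8000000000000000000) := T_34 (nat_lit 110) (nat_lit 77) (nat_lit 6) (nat_lit 8) (nat_lit 8) L95629 (by decide +kernel)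
theorem L95631 : W_34 (nat_lit 9) (nat_lit 0x200010001000080000000e00020000000000000000000) (nat_lit 0x0) (nat_lit 0x7000780000001d0003c001c0006000000) := T_34 (nat_lit 111) (nat_lit 128) (nat_lit 5) (nat_lit 9) (nat_lit 4) L95557 (by decide +kernel)
theorem L95632 : W_34 (nat_lit 10) (nat_lit 0x200010001000080000000e00000000000000000000000) (nat_lit 0x0) (nat_lit 0x70007c0000001f0003c001c0006000000) := T_34 (nat_lit 77) (nat_lit 110) (nat_lit 6) (nat_lit 8) (nat_lit 8) L95631 (by decide +kernel)
theorem L95633 : W_34 (nat_lit 2) (nat_lit 0x200010001000080000001e000f0004800000000000000) (nat_lit 0x0) (nat_lit 0x10000000000000000200010000000) := D_34 (nat_lit 45) (nat_lit 28) (nat_lit 112) (nat_lit 5) (nat_lit 11) (nat_lit 1) (nat_lit 5) (nat_lit 11) (nat_lit 2) (by decide +kernel)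
theorem L95634 : W_34 (nat_lit 3) (nat_lit 0x200010001000080000001e000f0000800000000000000) (nat_lit 0x0) (nat_lit 0x1000000000000c000200010000000) := T_34 (nat_lit 62) (nat_lit 63) (nat_lit 2) (nat_lit 8) (nat_lit 4) L95633 (by decide +kernel)
theorem L95635 : W_34 (nat_lit 4) (nat_lit 0x200010001000080000001e000f0000000000000000000) (nat_lit 0x0) (nat_lit 0x1000000000000cc00200010000000) := T_34 (nat_lit 59) (nat_lit 58) (nat_lit 0) (nat_lit 11) (nat_lit 4) L95634 (by decide +kernel)
theorem L95636 : W_34 (nat_lit 5) (nat_lit 0x200010001000080000001e000e0000000000000000000) (nat_lit 0x0) (nat_lit 0x1000000001800cc00200010000000) := T_34 (nat_lit 76) (nat_lit 75) (nat_lit 3) (nat_lit 7) (nat_lit 4) L95635 (by decide +kernel)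
theorem L95637 : W_34 (nat_lit 6) (nat_lit 0x200010001000080000001e00060000000000000000000) (nat_lit 0x0) (nat_lit 0x1000000019800cc00200010000000) := T_34 (nat_lit 79) (nat_lit 80) (nat_lit 2) (nat_lit 8) (nat_lit 5) L95636 (by decide +kernel)
theorem L95638 : W_34 (nat_lit 7) (nat_lit 0x200010001000080000001e00020000000000000000000) (nat_lit 0x0) (nat_lit 0x80004000700000001d800ec00300010000000) := Q_34 (nat_lit 78) (C_34 L95275 (C_34 L95637 (C_34 L94809 N_34))) (by decide +kernel)
theorem L95639 : W_34 (nat_lit 2) (nat_lit 0x200010005000080030001e000e000c000080000000000) (nat_lit 0x0) (nat_lit 0x12000100000000000) := D_34 (nat_lit 61) (nat_lit 44) (nat_lit 64) (nat_lit 7) (nat_lit 10) (nat_lit 2) (nat_lit 1) (nat_lit 13) (nat_lit 3) (by decide +kernel)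
theorem L95640 : W_34 (nat_lit 3) (nat_lit 0x200010005000080030001e000a000c000080000000000) (nat_lit 0x0) (nat_lit 0x50012000100000000000) := T_34 (nat_lit 78) (nat_lit 76) (nat_lit 2) (nat_lit 8) (nat_lit 4) L95639 (by decide +kernel)
theorem L95641 : W_34 (nat_lit 4) (nat_lit 0x200010005000080030001e000a0004000080000000000) (nat_lit 0x0) (nat_lit 0x5001a000500000000000) := T_34 (nat_lit 63) (nat_lit 46) (nat_lit 6) (nat_lit 11) (nat_lit 6) L95640 (by decide +kernel)
theorem L95642 : W_34 (nat_lit 5) (nat_lit 0x200010005000080010001e000a0004000080000000000) (nat_lit 0x0) (nat_lit 0x6000000005001a000500000000000) := T_34 (nat_lit 113) (nat_lit 114) (nat_lit 3) (nat_lit 8) (nat_lit 5) L95641 (by decide +kernel)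
theorem L95643 : W_34 (nat_lit 6) (nat_lit 0x200010005000080010001e000a0000000080000000000) (nat_lit 0x0) (nat_lit 0x6000000005001e000700000000000) := T_34 (nat_lit 62) (nat_lit 45) (nat_lit 5) (nat_lit 11) (nat_lit 2) L95642 (by decide +kernel)
theorem L95644 : W_34 (nat_lit 7) (nat_lit 0x200010005000080010001e000a0000000000000000000) (nat_lit 0x0) (nat_lit 0x6000000005001f000780000000000) := T_34 (nat_lit 43) (nat_lit 60) (nat_lit 7) (nat_lit 9) (nat_lit 2) L95643 (by decide +kernel)
theorem L95645 : W_34 (nat_lit 8) (nat_lit 0x200010001000080010001e000a0000000000000000000) (nat_lit 0x0) (nat_lit 0x400020006000000005001f000780000000000) := T_34 (nat_lit 146) (nat_lit 129) (nat_lit 6) (nat_lit 10) (nat_lit 8) L95644 (by decide +kernel)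
theorem L95646 : W_34 (nat_lit 9) (nat_lit 0x200010001000080010001e00020000000000000000000) (nat_lit 0x0) (nat_lit 0x40002000600000001d001f000780000000000) := T_34 (nat_lit 79) (nat_lit 80) (nat_lit 2) (nat_lit 8) (nat_lit 5) L95645 (by decide +kernel)
theorem L95647 : W_34 (nat_lit 2) (nat_lit 0x200010001000080038001e000e000c000080000000000) (nat_lit 0x0) (nat_lit 0x12000100000000000) := D_34 (nat_lit 61) (nat_lit 44) (nat_lit 64) (nat_lit 7) (nat_lit 10) (nat_lit 2) (nat_lit 1) (nat_lit 13) (nat_lit 3) (by decide +kernel)
theorem L95648 : W_34 (nat_lit 3) (nat_lit 0x200010001000080038001e000a000c000080000000000) (nat_lit 0x0) (nat_lit 0x50012000100000000000) := T_34 (nat_lit 78) (nat_lit 76) (nat_lit 2) (nat_lit 8) (nat_lit 4) L95647 (by decide +kernel)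
theorem L95649 : W_34 (nat_lit 4) (nat_lit 0x200010001000080038001e000a0004000080000000000) (nat_lit 0x0) (nat_lit 0x5001a000500000000000) := T_34 (nat_lit 63) (nat_lit 46) (nat_lit 6) (nat_lit 11) (nat_lit 6) L95648 (by decide +kernel)
theorem L95650 : W_34 (nat_lit 5) (nat_lit 0x200010001000080030001e000a0004000080000000000) (nat_lit 0x0) (nat_lit 0x10000800000005001a000500000000000) := T_34 (nat_lit 111) (nat_lit 128) (nat_lit 5) (nat_lit 9) (nat_lit 4) L95649 (by decide +kernel)
theorem L95651 : W_34 (nat_lit 6) (nat_lit 0x200010001000080030001e000a0000000080000000000) (nat_lit 0x0) (nat_lit 0x10000800000005001e000700000000000) := T_34 (nat_lit 62) (nat_lit 45) (nat_lit 5) (nat_lit 11) (nat_lit 2) L95650 (by decide +kernel)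
theorem L95652 : W_34 (nat_lit 7) (nat_lit 0x200010001000080030001e00020000000080000000000) (nat_lit 0x0) (nat_lit 0x1000080000001d001e000700000000000) := T_34 (nat_lit 79) (nat_lit 80) (nat_lit 2) (nat_lit 8) (nat_lit 5) L95651 (by decide +kernel)
theorem L95653 : W_34 (nat_lit 8) (nat_lit 0x200010001000080030001e00020000000000000000000) (nat_lit 0x0) (nat_lit 0x1000080000001d001f000780000000000) := T_34 (nat_lit 43) (nat_lit 60) (nat_lit 7) (nat_lit 9) (nat_lit 2) L95652 (by decide +kernel)
theorem L95654 : W_34 (nat_lit 9) (nat_lit 0x200010001000080010001e00020000000000000000000) (nat_lit 0x0) (nat_lit 0x1000680000001d001f000780000000000) := T_34 (nat_lit 113) (nat_lit 114) (nat_lit 3) (nat_lit 8) (nat_lit 5) L95653 (by decide +kernel)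
theorem L95655 : W_34 (nat_lit 3) (nat_lit 0x200010001000080010001e00020000000000000000000) (nat_lit 0x0) (nat_lit 0x4000300008000000000001000000000000000) := T_34 (nat_lit 111) (nat_lit 128) (nat_lit 5) (nat_lit 9) (nat_lit 4) L95544 (by decide +kernel)
theorem L95656 : W_34 (nat_lit 2) (nat_lit 0x200010001000280058001e000a0000000000000000000) (nat_lit 0x0) (nat_lit 0x40004000200000000000) := D_34 (nat_lit 62) (nat_lit 78) (nat_lit 45) (nat_lit 6) (nat_lit 10) (nat_lit 7) (nat_lit 5) (nat_lit 11) (nat_lit 2) (by decide +kernel)
theorem L95657 : W_34 (nat_lit 3) (nat_lit 0x200010001000280058001e00020000000000000000000) (nat_lit 0x0) (nat_lit 0x1c0004000200000000000) := T_34 (nat_lit 79) (nat_lit 80) (nat_lit 2) (nat_lit 8) (nat_lit 5) L95656 (by decide +kernel)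
theorem L95658 : W_34 (nat_lit 4) (nat_lit 0x200010001000080058001e00020000000000000000000) (nat_lit 0x0) (nat_lit 0x40002000000000001c0004000200000000000) := T_34 (nat_lit 129) (nat_lit 146) (nat_lit 4) (nat_lit 10) (nat_lit 8) L95657 (by decide +kernel)
theorem L95659 : W_34 (nat_lit 5) (nat_lit 0x200010001000080018001e00020000000000000000000) (nat_lit 0x0) (nat_lit 0x40002000600000001c0004000200000000000) := T_34 (nat_lit 114) (nat_lit 113) (nat_lit 3) (nat_lit 8) (nat_lit 5) L95658 (by decide +kernel)
theorem L95660 : W_34 (nat_lit 6) (nat_lit 0x200010001000080010001e00020000000000000000000) (nat_lit 0x0) (nat_lit 0x40003000680000001c0004000200000000000) := T_34 (nat_lit 111) (nat_lit 128) (nat_lit 5) (nat_lit 9) (nat_lit 4) L95659 (by decide +kernel)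
theorem L95661 : W_34 (nat_lit 10) (nat_lit 0x200010001000080000001e00020000000000000000000) (nat_lit 0x0) (nat_lit 0x40003000780000001d001f000780000000000) := Q_34 (nat_lit 112) (C_34 L95646 (C_34 L95654 (C_34 L95655 (C_34 L95660 N_34)))) (by decide +kernel)
theorem L95662 : W_34 (nat_lit 4) (nat_lit 0x200010001000080028001e000b0000000000000000000) (nat_lit 0x0) (nat_lit 0x8000400000000000040002c00040000000000) := T_34 (nat_lit 59) (nat_lit 42) (nat_lit 7) (nat_lit 8) (nat_lit 2) L95543 (by decide +kernel)
theorem L95663 : W_34 (nat_lit 5) (nat_lit 0x200010001000080020001e000b0000000000000000000) (nat_lit 0x0) (nat_lit 0x8000500008000000040002c00040000000000) := T_34 (nat_lit 111) (nat_lit 128) (nat_lit 5) (nat_lit 9) (nat_lit 4) L95662 (by decide +kernel)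
theorem L95664 : W_34 (nat_lit 6) (nat_lit 0x200010001000080000001e000b0000000000000000000) (nat_lit 0x0) (nat_lit 0x8000500068000000040002c00040000000000) := T_34 (nat_lit 113) (nat_lit 114) (nat_lit 3) (nat_lit 8) (nat_lit 5) L95663 (by decide +kernel)
theorem L95665 : W_34 (nat_lit 7) (nat_lit 0x200010001000080000001e000a0000000000000000000) (nat_lit 0x0) (nat_lit 0x8000500068000000058002c00040000000000) := T_34 (nat_lit 76) (nat_lit 75) (nat_lit 0) (nat_lit 11) (nat_lit 5) L95664 (by decide +kernel)
theorem L95666 : W_34 (nat_lit 8) (nat_lit 0x200010001000080000001e00020000000000000000000) (nat_lit 0x0) (nat_lit 0x80005000680000001d8002c00040000000000) := T_34 (nat_lit 79) (nat_lit 80) (nat_lit 2) (nat_lit 8) (nat_lit 5) L95665 (by decide +kernel)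
theorem L95667 : W_34 (nat_lit 2) (nat_lit 0x200010005000080030001e000a000e000080000000000) (nat_lit 0x0) (nat_lit 0x400000000000040010000000000000000) := D_34 (nat_lit 78) (nat_lit 64) (nat_lit 130) (nat_lit 1) (nat_lit 13) (nat_lit 3) (nat_lit 7) (nat_lit 10) (nat_lit 3) (by decide +kernel)
theorem L95668 : W_34 (nat_lit 3) (nat_lit 0x200010005000080030001e000a000c000080000000000) (nat_lit 0x0) (nat_lit 0x400000000000040012000100000000000) := T_34 (nat_lit 61) (nat_lit 44) (nat_lit 4) (nat_lit 11) (nat_lit 6) L95667 (by decide +kernel)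
theorem L95669 : W_34 (nat_lit 4) (nat_lit 0x200010005000080030001e000a0004000080000000000) (nat_lit 0x0) (nat_lit 0x40000000000004001a000500000000000) := T_34 (nat_lit 63) (nat_lit 46) (nat_lit 6) (nat_lit 11) (nat_lit 6) L95668 (by decide +kernel)
theorem L95670 : W_34 (nat_lit 5) (nat_lit 0x200010005000080030001e000a0004000000000000000) (nat_lit 0x0) (nat_lit 0x40000000000004001b000580000000000) := T_34 (nat_lit 43) (nat_lit 60) (nat_lit 7) (nat_lit 9) (nat_lit 2) L95669 (by decide +kernel)
theorem L95671 : W_34 (nat_lit 6) (nat_lit 0x200010005000080030001e000a0000000000000000000) (nat_lit 0x0) (nat_lit 0x40000000000004001f000780000000000) := T_34 (nat_lit 62) (nat_lit 45) (nat_lit 5) (nat_lit 11) (nat_lit 2) L95670 (by decide +kernel)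
theorem L95672 : W_34 (nat_lit 7) (nat_lit 0x200010005000080030001e00020000000000000000000) (nat_lit 0x0) (nat_lit 0x4000000000001c001f000780000000000) := T_34 (nat_lit 79) (nat_lit 80) (nat_lit 2) (nat_lit 8) (nat_lit 5) L95671 (by decide +kernel)
theorem L95673 : W_34 (nat_lit 8) (nat_lit 0x200010001000080030001e00020000000000000000000) (nat_lit 0x0) (nat_lit 0x40006000000000001c001f000780000000000) := T_34 (nat_lit 146) (nat_lit 129) (nat_lit 4) (nat_lit 10) (nat_lit 8) L95672 (by decide +kernel)
theorem L95674 : W_34 (nat_lit 9) (nat_lit 0x200010001000080010001e00020000000000000000000) (nat_lit 0x0) (nat_lit 0x40006000600000001c001f000780000000000) := T_34 (nat_lit 113) (nat_lit 114) (nat_lit 3) (nat_lit 8) (nat_lit 5) L95673 (by decide +kernel)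
theorem L95675 : W_34 (nat_lit 2) (nat_lit 0x200010001000080038001e000a000e000080000000000) (nat_lit 0x0) (nat_lit 0x400000000000040010000000000000000) := D_34 (nat_lit 78) (nat_lit 64) (nat_lit 130) (nat_lit 1) (nat_lit 13) (nat_lit 3) (nat_lit 7) (nat_lit 10) (nat_lit 3) (by decide +kernel)
theorem L95676 : W_34 (nat_lit 3) (nat_lit 0x200010001000080038001e000a0006000080000000000) (nat_lit 0x0) (nat_lit 0x400000000000040018000400000000000) := T_34 (nat_lit 63) (nat_lit 46) (nat_lit 6) (nat_lit 11) (nat_lit 6) L95675 (by decide +kernel)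
theorem L95677 : W_34 (nat_lit 4) (nat_lit 0x200010001000080038001e000a0004000080000000000) (nat_lit 0x0) (nat_lit 0x40000000000004001a000500000000000) := T_34 (nat_lit 61) (nat_lit 44) (nat_lit 4) (nat_lit 11) (nat_lit 6) L95676 (by decide +kernel)
theorem L95678 : W_34 (nat_lit 5) (nat_lit 0x200010001000080038001e000a0000000080000000000) (nat_lit 0x0) (nat_lit 0x40000000000004001e000700000000000) := T_34 (nat_lit 62) (nat_lit 45) (nat_lit 5) (nat_lit 11) (nat_lit 2) L95677 (by decide +kernel)
theorem L95679 : W_34 (nat_lit 6) (nat_lit 0x200010001000080038001e00020000000080000000000) (nat_lit 0x0) (nat_lit 0x4000000000001c001e000700000000000) := T_34 (nat_lit 79) (nat_lit 80) (nat_lit 2) (nat_lit 8) (nat_lit 5) L95678 (by decide +kernel)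
theorem L95680 : W_34 (nat_lit 7) (nat_lit 0x200010001000080030001e00020000000080000000000) (nat_lit 0x0) (nat_lit 0x5000080000001c001e000700000000000) := T_34 (nat_lit 111) (nat_lit 128) (nat_lit 5) (nat_lit 9) (nat_lit 4) L95679 (by decide +kernel)
theorem L95681 : W_34 (nat_lit 8) (nat_lit 0x200010001000080010001e00020000000080000000000) (nat_lit 0x0) (nat_lit 0x5000680000001c001e000700000000000) := T_34 (nat_lit 113) (nat_lit 114) (nat_lit 3) (nat_lit 8) (nat_lit 5) L95680 (by decide +kernel)
theorem L95682 : W_34 (nat_lit 9) (nat_lit 0x200010001000080010001e00020000000000000000000) (nat_lit 0x0) (nat_lit 0x5000680000001c001f000780000000000) := T_34 (nat_lit 43) (nat_lit 60) (nat_lit 7) (nat_lit 9) (nat_lit 2) L95681 (by decide +kernel)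
theorem L95683 : W_34 (nat_lit 10) (nat_lit 0x200010001000080000001e00020000000000000000000) (nat_lit 0x0) (nat_lit 0x40007000780000001c001f000780000000000) := Q_34 (nat_lit 112) (C_34 L95660 (C_34 L95674 (C_34 L95682 (C_34 L95655 N_34)))) (by decide +kernel)
theorem L95684 : W_34 (nat_lit 5) (nat_lit 0x200010001000080008001e000b0000000000000000000) (nat_lit 0x0) (nat_lit 0x1000000004000cc00240010000000) := T_34 (nat_lit 59) (nat_lit 42) (nat_lit 7) (nat_lit 8) (nat_lit 2) L95547 (by decide +kernel)
theorem L95685 : W_34 (nat_lit 6) (nat_lit 0x200010001000080000001e000b0000000000000000000) (nat_lit 0x0) (nat_lit 0x10001800000004000cc00240010000000) := T_34 (nat_lit 111) (nat_lit 128) (nat_lit 5) (nat_lit 9) (nat_lit 4) L95684 (by decide +kernel)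
theorem L95686 : W_34 (nat_lit 7) (nat_lit 0x200010001000080000001e000a0000000000000000000) (nat_lit 0x0) (nat_lit 0x10001800000005800cc00240010000000) := T_34 (nat_lit 76) (nat_lit 75) (nat_lit 0) (nat_lit 11) (nat_lit 5) L95685 (by decide +kernel)
theorem L95687 : W_34 (nat_lit 8) (nat_lit 0x200010001000080000001e00020000000000000000000) (nat_lit 0x0) (nat_lit 0x1000180000001d800cc00240010000000) := T_34 (nat_lit 79) (nat_lit 80) (nat_lit 2) (nat_lit 8) (nat_lit 5) L95686 (by decide +kernel)
theorem L95688 : W_34 (nat_lit 2) (nat_lit 0x200010001000280030001e00020000000080000000000) (nat_lit 0x0) (nat_lit 0x180004000000000000000) := D_34 (nat_lit 79) (nat_lit 62) (nat_lit 80) (nat_lit 5) (nat_lit 11) (nat_lit 3) (nat_lit 2) (nat_lit 8) (nat_lit 5) (by decide +kernel)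
theorem L95689 : W_34 (nat_lit 3) (nat_lit 0x200010001000280010001e00020000000080000000000) (nat_lit 0x0) (nat_lit 0x60000000180004000000000000000) := T_34 (nat_lit 113) (nat_lit 114) (nat_lit 3) (nat_lit 8) (nat_lit 5) L95688 (by decide +kernel)
theorem L95690 : W_34 (nat_lit 4) (nat_lit 0x200010001000080010001e00020000000080000000000) (nat_lit 0x0) (nat_lit 0x4000200060000000180004000000000000000) := T_34 (nat_lit 129) (nat_lit 146) (nat_lit 4) (nat_lit 10) (nat_lit 8) L95689 (by decide +kernel)
theorem L95691 : W_34 (nat_lit 5) (nat_lit 0x200010001000080010001e00020000000000000000000) (nat_lit 0x0) (nat_lit 0x4000200060000000180005000080000000000) := T_34 (nat_lit 43) (nat_lit 60) (nat_lit 7) (nat_lit 9) (nat_lit 2) L95690 (by decide +kernel)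
theorem L95692 : W_34 (nat_lit 2) (nat_lit 0x200010001000080030001e000b0005000000000000000) (nat_lit 0x0) (nat_lit 0xa000100000000000) := D_34 (nat_lit 61) (nat_lit 44) (nat_lit 63) (nat_lit 4) (nat_lit 11) (nat_lit 6) (nat_lit 1) (nat_lit 12) (nat_lit 3) (by decide +kernel)
theorem L95693 : W_34 (nat_lit 3) (nat_lit 0x200010001000080030001e000b0001000000000000000) (nat_lit 0x0) (nat_lit 0xe000300000000000) := T_34 (nat_lit 62) (nat_lit 45) (nat_lit 5) (nat_lit 11) (nat_lit 2) L95692 (by decide +kernel)
theorem L95694 : W_34 (nat_lit 4) (nat_lit 0x200010001000080030001e000a0001000000000000000) (nat_lit 0x0) (nat_lit 0x1800e000300000000000) := T_34 (nat_lit 76) (nat_lit 75) (nat_lit 0) (nat_lit 11) (nat_lit 5) L95693 (by decide +kernel)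
theorem L95695 : W_34 (nat_lit 5) (nat_lit 0x200010001000080030001e00020001000000000000000) (nat_lit 0x0) (nat_lit 0x19800e000300000000000) := T_34 (nat_lit 79) (nat_lit 80) (nat_lit 2) (nat_lit 8) (nat_lit 5) L95694 (by decide +kernel)
theorem L95696 : W_34 (nat_lit 6) (nat_lit 0x200010001000080030001e00020000000000000000000) (nat_lit 0x0) (nat_lit 0x19800f000380000000000) := T_34 (nat_lit 60) (nat_lit 43) (nat_lit 7) (nat_lit 9) (nat_lit 2) L95695 (by decide +kernel)
theorem L95697 : W_34 (nat_lit 7) (nat_lit 0x200010001000080010001e00020000000000000000000) (nat_lit 0x0) (nat_lit 0x6000000019800f000380000000000) := T_34 (nat_lit 113) (nat_lit 114) (nat_lit 3) (nat_lit 8) (nat_lit 5) L95696 (by decide +kernel)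
theorem L95698 : W_34 (nat_lit 2) (nat_lit 0x200010001000280038001e00020000000000000000000) (nat_lit 0x0) (nat_lit 0x180004000000000000000) := D_34 (nat_lit 79) (nat_lit 80) (nat_lit 62) (nat_lit 2) (nat_lit 8) (nat_lit 5) (nat_lit 5) (nat_lit 11) (nat_lit 3) (by decide +kernel)
theorem L95699 : W_34 (nat_lit 3) (nat_lit 0x200010001000080038001e00020000000000000000000) (nat_lit 0x0) (nat_lit 0x4000200000000000180004000000000000000) := T_34 (nat_lit 129) (nat_lit 146) (nat_lit 4) (nat_lit 10) (nat_lit 8) L95698 (by decide +kernel)
theorem L95700 : W_34 (nat_lit 4) (nat_lit 0x200010001000080018001e00020000000000000000000) (nat_lit 0x0) (nat_lit 0x4000200060000000180004000000000000000) := T_34 (nat_lit 113) (nat_lit 114) (nat_lit 3) (nat_lit 8) (nat_lit 5) L95699 (by decide +kernel)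
theorem L95701 : W_34 (nat_lit 5) (nat_lit 0x200010001000080010001e00020000000000000000000) (nat_lit 0x0) (nat_lit 0x4000300068000000180004000000000000000) := T_34 (nat_lit 111) (nat_lit 128) (nat_lit 5) (nat_lit 9) (nat_lit 4) L95700 (by decide +kernel)
theorem L95702 : W_34 (nat_lit 8) (nat_lit 0x200010001000080000001e00020000000000000000000) (nat_lit 0x0) (nat_lit 0x400030007800000019800f000380000000000) := Q_34 (nat_lit 112) (C_34 L95655 (C_34 L95691 (C_34 L95697 (C_34 L95701 N_34)))) (by decide +kernel)
theorem L95703 : W_34 (nat_lit 2) (nat_lit 0x200010001000080020001e00020001000080000000000) (nat_lit 0x0) (nat_lit 0x50000000000004000000) := D_34 (nat_lit 26) (nat_lit 78) (nat_lit 76) (nat_lit 7) (nat_lit 9) (nat_lit 1) (nat_lit 5) (nat_lit 9) (nat_lit 1) (by decide +kernel)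
theorem L95704 : W_34 (nat_lit 3) (nat_lit 0x200010001000080020001e00020001000000000000000) (nat_lit 0x0) (nat_lit 0x10000000050000000080004000000) := T_34 (nat_lit 43) (nat_lit 112) (nat_lit 7) (nat_lit 9) (nat_lit 2) L95703 (by decide +kernel)
theorem L95705 : W_34 (nat_lit 4) (nat_lit 0x200010001000080000001e00020001000000000000000) (nat_lit 0x0) (nat_lit 0x70000000050000000080004000000) := T_34 (nat_lit 113) (nat_lit 114) (nat_lit 3) (nat_lit 8) (nat_lit 5) L95704 (by decide +kernel)
theorem L95706 : W_34 (nat_lit 9) (nat_lit 0x200010001000080000001e00020001000000000000000) (nat_lit 0x0) (nat_lit 0x10006800000005c002e00178000000000) := T_34 (nat_lit 111) (nat_lit 128) (nat_lit 5) (nat_lit 9) (nat_lit 4) L95540 (by decide +kernel)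
theorem L95707 : W_34 (nat_lit 3) (nat_lit 0x200010001000080000001e00020001000000000000000) (nat_lit 0x0) (nat_lit 0x300018000000000000000080000000000) := T_34 (nat_lit 111) (nat_lit 128) (nat_lit 5) (nat_lit 9) (nat_lit 4) L95541 (by decide +kernel)
theorem L95708 : W_34 (nat_lit 10) (nat_lit 0x200010001000080000001e00020000000000000000000) (nat_lit 0x0) (nat_lit 0x30007800000005c003e001f8004000000) := Q_34 (nat_lit 60) (C_34 L95705 (C_34 L95706 (C_34 L95707 N_34))) (by decide +kernel)
theorem L95709 : W_34 (nat_lit 11) (nat_lit 0x200010001000080000001e00000000000000000000000) (nat_lit 0x0) (nat_lit 0xc0007000780000001fc01fe007f8014000000) := Q_34 (nat_lit 77) (C_34 L95638 (C_34 L95661 (C_34 L95666 (C_34 L95683 (C_34 L95687 (C_34 L95702 (C_34 L95708 N_34))))))) (by decide +kernel)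
theorem L95710 : W_34 (nat_lit 2) (nat_lit 0x200010001000080048003e000a0000000200000000000) (nat_lit 0x0) (nat_lit 0x10004000040000000000000000000) := D_34 (nat_lit 98) (nat_lit 112) (nat_lit 78) (nat_lit 1) (nat_lit 13) (nat_lit 5) (nat_lit 0) (nat_lit 13) (nat_lit 5) (by decide +kernel)
theorem L95711 : W_34 (nat_lit 3) (nat_lit 0x200010001000080040003e000a0000000200000000000) (nat_lit 0x0) (nat_lit 0x100018004000040000000000000000000) := T_34 (nat_lit 111) (nat_lit 128) (nat_lit 5) (nat_lit 9) (nat_lit 4) L95710 (by decide +kernel)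
theorem L95712 : W_34 (nat_lit 4) (nat_lit 0x200010001000080040003e000a0000000000000000000) (nat_lit 0x0) (nat_lit 0x100018004000040004000200000000000) := T_34 (nat_lit 45) (nat_lit 62) (nat_lit 7) (nat_lit 11) (nat_lit 2) L95711 (by decide +kernel)
theorem L95713 : W_34 (nat_lit 5) (nat_lit 0x200010001000080040003e00080000000000000000000) (nat_lit 0x0) (nat_lit 0x100018004000070004000200000000000) := T_34 (nat_lit 77) (nat_lit 76) (nat_lit 0) (nat_lit 12) (nat_lit 5) L95712 (by decide +kernel)
theorem L95714 : W_34 (nat_lit 6) (nat_lit 0x200010001000080040001e00080000000000000000000) (nat_lit 0x0) (nat_lit 0x100098006000070004000200000000000) := T_34 (nat_lit 97) (nat_lit 115) (nat_lit 3) (nat_lit 9) (nat_lit 5) L95713 (by decide +kernel)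
theorem L95715 : W_34 (nat_lit 7) (nat_lit 0x200010001000080000001e00080000000000000000000) (nat_lit 0x0) (nat_lit 0x1000f8006000070004000200000000000) := T_34 (nat_lit 114) (nat_lit 113) (nat_lit 3) (nat_lit 8) (nat_lit 5) L95714 (by decide +kernel)
theorem L95716 : W_34 (nat_lit 8) (nat_lit 0x200010001000080000001e00000000000000000000000) (nat_lit 0x0) (nat_lit 0x1000f80060001f0004000200000000000) := T_34 (nat_lit 79) (nat_lit 80) (nat_lit 2) (nat_lit 8) (nat_lit 5) L95715 (by decide +kernel)
theorem L95717 : W_34 (nat_lit 2) (nat_lit 0x200010001000080040001e00100000000000000000000) (nat_lit 0x0) (nat_lit 0x80002000200000000000000000000) := D_34 (nat_lit 97) (nat_lit 115) (nat_lit 81) (nat_lit 3) (nat_lit 9) (nat_lit 5) (nat_lit 2) (nat_lit 9) (nat_lit 5) (by decide +kernel)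
theorem L95718 : W_34 (nat_lit 3) (nat_lit 0x200010001000080040001e00000000000000000000000) (nat_lit 0x0) (nat_lit 0x80002000380000000000000000000) := T_34 (nat_lit 80) (nat_lit 79) (nat_lit 2) (nat_lit 8) (nat_lit 5) L95717 (by decide +kernel)
theorem L95719 : W_34 (nat_lit 4) (nat_lit 0x200010001000080000001e00000000000000000000000) (nat_lit 0x0) (nat_lit 0xe0002000380000000000000000000) := T_34 (nat_lit 114) (nat_lit 113) (nat_lit 3) (nat_lit 8) (nat_lit 5) L95718 (by decide +kernel)
theorem L95720 : W_34 (nat_lit 2) (nat_lit 0x200010001000080090007e002d0000000000000000000) (nat_lit 0x0) (nat_lit 0x4000200000000000000004000000000000000) := D_34 (nat_lit 129) (nat_lit 146) (nat_lit 62) (nat_lit 6) (nat_lit 10) (nat_lit 8) (nat_lit 6) (nat_lit 10) (nat_lit 7) (by decide +kernel)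
theorem L95721 : W_34 (nat_lit 3) (nat_lit 0x200010001000080090007e00290000000000000000000) (nat_lit 0x0) (nat_lit 0x4000200000008000040004000000000000000) := T_34 (nat_lit 78) (nat_lit 99) (nat_lit 0) (nat_lit 14) (nat_lit 5) L95720 (by decide +kernel)
theorem L95722 : W_34 (nat_lit 4) (nat_lit 0x200010001000080080007e00290000000000000000000) (nat_lit 0x0) (nat_lit 0x4000200018008000040004000000000000000) := T_34 (nat_lit 112) (nat_lit 111) (nat_lit 1) (nat_lit 13) (nat_lit 5) L95721 (by decide +kernel)
theorem L95723 : W_34 (nat_lit 5) (nat_lit 0x200010001000080080007e00090000000000000000000) (nat_lit 0x0) (nat_lit 0x4000200018008000640004000000000000000) := T_34 (nat_lit 81) (nat_lit 82) (nat_lit 2) (nat_lit 10) (nat_lit 5) L95722 (by decide +kernel)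
theorem L95724 : W_34 (nat_lit 6) (nat_lit 0x200010001000080080003e00090000000000000000000) (nat_lit 0x0) (nat_lit 0x400020011800c000640004000000000000000) := T_34 (nat_lit 98) (nat_lit 116) (nat_lit 3) (nat_lit 10) (nat_lit 5) L95723 (by decide +kernel)
theorem L95725 : W_34 (nat_lit 7) (nat_lit 0x200010001000080000003e00090000000000000000000) (nat_lit 0x0) (nat_lit 0x40002001d800c000640004000000000000000) := T_34 (nat_lit 115) (nat_lit 114) (nat_lit 3) (nat_lit 9) (nat_lit 5) L95724 (by decide +kernel)
theorem L95726 : W_34 (nat_lit 8) (nat_lit 0x200010001000080000001e00090000000000000000000) (nat_lit 0x0) (nat_lit 0x40002001d800e000660004000000000000000) := T_34 (nat_lit 97) (nat_lit 77) (nat_lit 0) (nat_lit 12) (nat_lit 5) L95725 (by decide +kernel)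
theorem L95727 : W_34 (nat_lit 9) (nat_lit 0x200010001000080000001e00010000000000000000000) (nat_lit 0x0) (nat_lit 0x40002001d800e0007e0004000000000000000) := T_34 (nat_lit 79) (nat_lit 80) (nat_lit 2) (nat_lit 8) (nat_lit 5) L95726 (by decide +kernel)
theorem L95728 : W_34 (nat_lit 10) (nat_lit 0x200010001000080000001e00000000000000000000000) (nat_lit 0x0) (nat_lit 0x40002001d800e0007f8004000000000000000) := T_34 (nat_lit 76) (nat_lit 75) (nat_lit 0) (nat_lit 11) (nat_lit 5) L95727 (by decide +kernel)
theorem L95729 : W_34 (nat_lit 2) (nat_lit 0x200010001000080020007e00210000000000000000000) (nat_lit 0x0) (nat_lit 0x18008000000000000000000000000) := D_34 (nat_lit 112) (nat_lit 99) (nat_lit 111) (nat_lit 1) (nat_lit 14) (nat_lit 5) (nat_lit 1) (nat_lit 13) (nat_lit 5) (by decide +kernel)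
theorem L95730 : W_34 (nat_lit 3) (nat_lit 0x200010001000080020003e00210000000000000000000) (nat_lit 0x0) (nat_lit 0x1800c000400000000000000000000) := T_34 (nat_lit 98) (nat_lit 82) (nat_lit 2) (nat_lit 10) (nat_lit 5) L95729 (by decide +kernel)
theorem L95731 : W_34 (nat_lit 4) (nat_lit 0x200010001000080020003e00010000000000000000000) (nat_lit 0x0) (nat_lit 0x1800c000700000000000000000000) := T_34 (nat_lit 81) (nat_lit 80) (nat_lit 2) (nat_lit 9) (nat_lit 5) L95730 (by decide +kernel)
theorem L95732 : W_34 (nat_lit 5) (nat_lit 0x200010001000080020001e00010000000000000000000) (nat_lit 0x0) (nat_lit 0x1800e000720000000000000000000) := T_34 (nat_lit 97) (nat_lit 77) (nat_lit 0) (nat_lit 12) (nat_lit 5) L95731 (by decide +kernel)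
theorem L95733 : W_34 (nat_lit 6) (nat_lit 0x200010001000080000001e00010000000000000000000) (nat_lit 0x0) (nat_lit 0x7800e000720000000000000000000) := T_34 (nat_lit 113) (nat_lit 114) (nat_lit 3) (nat_lit 8) (nat_lit 5) L95732 (by decide +kernel)
theorem L95734 : W_34 (nat_lit 7) (nat_lit 0x200010001000080000001e00000000000000000000000) (nat_lit 0x0) (nat_lit 0x7800e000738000000000000000000) := T_34 (nat_lit 76) (nat_lit 75) (nat_lit 0) (nat_lit 11) (nat_lit 5) L95733 (by decide +kernel)
theorem L95735 : W_34 (nat_lit 2) (nat_lit 0x200010001000080040001e00010000000000000000000) (nat_lit 0x0) (nat_lit 0x80002000020000000000000000000) := D_34 (nat_lit 97) (nat_lit 77) (nat_lit 115) (nat_lit 0) (nat_lit 12) (nat_lit 5) (nat_lit 3) (nat_lit 9) (nat_lit 5) (by decide +kernel)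
theorem L95736 : W_34 (nat_lit 3) (nat_lit 0x200010001000080000001e00010000000000000000000) (nat_lit 0x0) (nat_lit 0xe0002000020000000000000000000) := T_34 (nat_lit 114) (nat_lit 113) (nat_lit 3) (nat_lit 8) (nat_lit 5) L95735 (by decide +kernel)
theorem L95737 : W_34 (nat_lit 4) (nat_lit 0x200010001000080000001e00000000000000000000000) (nat_lit 0x0) (nat_lit 0xe0002000038000000000000000000) := T_34 (nat_lit 76) (nat_lit 75) (nat_lit 0) (nat_lit 11) (nat_lit 5) L95736 (by decide +kernel)
theorem L95738 : W_34 (nat_lit 7) (nat_lit 0x200010001000080000001e00090000000000000000000) (nat_lit 0x0) (nat_lit 0x10001800200006000cc00240010000000) := T_34 (nat_lit 77) (nat_lit 97) (nat_lit 0) (nat_lit 12) (nat_lit 5) L95685 (by decide +kernel)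
theorem L95739 : W_34 (nat_lit 8) (nat_lit 0x200010001000080000001e00010000000000000000000) (nat_lit 0x0) (nat_lit 0x1000180020001e000cc00240010000000) := T_34 (nat_lit 79) (nat_lit 80) (nat_lit 2) (nat_lit 8) (nat_lit 5) L95738 (by decide +kernel)
theorem L95740 : W_34 (nat_lit 9) (nat_lit 0x200010001000080000001e00000000000000000000000) (nat_lit 0x0) (nat_lit 0x1000180020001f800cc00240010000000) := T_34 (nat_lit 76) (nat_lit 75) (nat_lit 0) (nat_lit 11) (nat_lit 5) L95739 (by decide +kernel)
theorem L95741 : W_34 (nat_lit 12) (nat_lit 0x200010001000080000000e00000000000000000000000) (nat_lit 0x0) (nat_lit 0xc0007001f800f0007fc01fe007f8014000000) := Q_34 (nat_lit 96) (C_34 L95709 (C_34 L95612 (C_34 L95716 (C_34 L95719 (C_34 L95728 (C_34 L95734 (C_34 L95737 (C_34 L95740 N_34)))))))) (by decide +kernel)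
theorem L95742 : W_34 (nat_lit 2) (nat_lit 0x200010001000080004003e00000000000000000000000) (nat_lit 0x0) (nat_lit 0xe0000000000000000000000000000) := D_34 (nat_lit 114) (nat_lit 113) (nat_lit 115) (nat_lit 3) (nat_lit 8) (nat_lit 5) (nat_lit 3) (nat_lit 9) (nat_lit 5) (by decide +kernel)
theorem L95743 : W_34 (nat_lit 3) (nat_lit 0x200010001000080004001e00000000000000000000000) (nat_lit 0x0) (nat_lit 0xe8002000000000000000000000000) := T_34 (nat_lit 97) (nat_lit 111) (nat_lit 1) (nat_lit 12) (nat_lit 5) L95742 (by decide +kernel)
theorem L95744 : W_34 (nat_lit 4) (nat_lit 0x200010001000080004000e00000000000000000000000) (nat_lit 0x0) (nat_lit 0xea003000000000000000000000000) := T_34 (nat_lit 96) (nat_lit 109) (nat_lit 1) (nat_lit 11) (nat_lit 5) L95743 (by decide +kernel)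
theorem L95745 : W_34 (nat_lit 5) (nat_lit 0x200010001000080000000e00000000000000000000000) (nat_lit 0x0) (nat_lit 0xee003000020000000000000000000) := T_34 (nat_lit 110) (nat_lit 77) (nat_lit 6) (nat_lit 8) (nat_lit 8) L95744 (by decide +kernel)
theorem L95746 : W_34 (nat_lit 8) (nat_lit 0x200010001000080004001e00000000000000000000000) (nat_lit 0x0) (nat_lit 0x1c800e000fd8000000000000000000) := T_34 (nat_lit 76) (nat_lit 75) (nat_lit 0) (nat_lit 11) (nat_lit 5) L95588 (by decide +kernel)
theorem L95747 : W_34 (nat_lit 9) (nat_lit 0x200010001000080004000e00000000000000000000000) (nat_lit 0x0) (nat_lit 0x1ca00f000fd8000000000000000000) := T_34 (nat_lit 96) (nat_lit 109) (nat_lit 1) (nat_lit 11) (nat_lit 5) L95746 (by decide +kernel)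
theorem L95748 : W_34 (nat_lit 10) (nat_lit 0x200010001000080000000e00000000000000000000000) (nat_lit 0x0) (nat_lit 0x1ce00f000ff8000000000000000000) := T_34 (nat_lit 110) (nat_lit 77) (nat_lit 6) (nat_lit 8) (nat_lit 8) L95747 (by decide +kernel)
theorem L95749 : W_34 (nat_lit 4) (nat_lit 0x200010001000080004001e00010000000000000000000) (nat_lit 0x0) (nat_lit 0x100008002000180000800040000000000) := T_34 (nat_lit 79) (nat_lit 80) (nat_lit 2) (nat_lit 8) (nat_lit 5) L95610 (by decide +kernel)
theorem L95750 : W_34 (nat_lit 5) (nat_lit 0x200010001000080004001e00000000000000000000000) (nat_lit 0x0) (nat_lit 0x100008002000198000800040000000000) := T_34 (nat_lit 76) (nat_lit 75) (nat_lit 0) (nat_lit 11) (nat_lit 5) L95749 (by decide +kernel)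
theorem L95751 : W_34 (nat_lit 6) (nat_lit 0x200010001000080004000e00000000000000000000000) (nat_lit 0x0) (nat_lit 0x10000a003000198000800040000000000) := T_34 (nat_lit 96) (nat_lit 109) (nat_lit 1) (nat_lit 11) (nat_lit 5) L95750 (by decide +kernel)
theorem L95752 : W_34 (nat_lit 7) (nat_lit 0x200010001000080000000e00000000000000000000000) (nat_lit 0x0) (nat_lit 0x10000e0030001b8000800040000000000) := T_34 (nat_lit 110) (nat_lit 77) (nat_lit 6) (nat_lit 8) (nat_lit 8) L95751 (by decide +kernel)
theorem L95753 : W_34 (nat_lit 15) (nat_lit 0x200010001000080000000600000000000000000000000) (nat_lit 0x0) (nat_lit 0xc0007003fe00f800ffc01fe007f8037c00080) := Q_34 (nat_lit 95) (C_34 L95627 (C_34 L95630 (C_34 L95632 (C_34 L95741 (C_34 L95745 (C_34 L95748 (C_34 L95752 N_34))))))) (by decide +kernel)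
theorem L95754 : W_34 (nat_lit 4) (nat_lit 0x200010001000080000000f00000000000000000000000) (nat_lit 0x0) (nat_lit 0x7000100001c000000000000000000) := T_34 (nat_lit 75) (nat_lit 74) (nat_lit 0) (nat_lit 10) (nat_lit 5) L94703 (by decide +kernel)
theorem L95755 : W_34 (nat_lit 2) (nat_lit 0x200010001000080000000f00088000000000000000000) (nat_lit 0x0) (nat_lit 0x1000110000000000000000000) := D_34 (nat_lit 96) (nat_lit 76) (nat_lit 80) (nat_lit 0) (nat_lit 11) (nat_lit 5) (nat_lit 2) (nat_lit 8) (nat_lit 5) (by decide +kernel)
theorem L95756 : W_34 (nat_lit 3) (nat_lit 0x200010001000080000000f00008000000000000000000) (nat_lit 0x0) (nat_lit 0x10001d0000000000000000000) := T_34 (nat_lit 79) (nat_lit 78) (nat_lit 2) (nat_lit 7) (nat_lit 5) L95755 (by decide +kernel)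
theorem L95757 : W_34 (nat_lit 4) (nat_lit 0x200010001000080000000f00000000000000000000000) (nat_lit 0x0) (nat_lit 0x10001dc000000000000000000) := T_34 (nat_lit 75) (nat_lit 74) (nat_lit 0) (nat_lit 10) (nat_lit 5) L95756 (by decide +kernel)
theorem L95758 : W_34 (nat_lit 2) (nat_lit 0x200010001000080010000f80000000000000000000000) (nat_lit 0x0) (nat_lit 0x3800000000000000000000000000) := D_34 (nat_lit 108) (nat_lit 107) (nat_lit 109) (nat_lit 1) (nat_lit 9) (nat_lit 5) (nat_lit 1) (nat_lit 10) (nat_lit 5) (by decide +kernel)
theorem L95759 : W_34 (nat_lit 3) (nat_lit 0x200010001000080010000f00000000000000000000000) (nat_lit 0x0) (nat_lit 0xb800080000000000000000000000) := T_34 (nat_lit 91) (nat_lit 111) (nat_lit 3) (nat_lit 6) (nat_lit 5) L95758 (by decide +kernel)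
theorem L95760 : W_34 (nat_lit 4) (nat_lit 0x200010001000080000000f00000000000000000000000) (nat_lit 0x0) (nat_lit 0x3b800080000000000000000000000) := T_34 (nat_lit 112) (nat_lit 113) (nat_lit 3) (nat_lit 7) (nat_lit 5) L95759 (by decide +kernel)
theorem L95761 : W_34 (nat_lit 5) (nat_lit 0x200010001000080000000700000000000000000000000) (nat_lit 0x0) (nat_lit 0x7b8018801dc000000000000000000) := Q_34 (nat_lit 95) (C_34 L95754 (C_34 L95757 (C_34 L95760 N_34))) (by decide +kernel)
theorem L95762 : W_34 (nat_lit 4) (nat_lit 0x200010001000080000000700008000000000000000000) (nat_lit 0x0) (nat_lit 0x18001d4000000000000000000) := T_34 (nat_lit 95) (nat_lit 74) (nat_lit 0) (nat_lit 10) (nat_lit 5) L95756 (by decide +kernel)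
theorem L95763 : W_34 (nat_lit 5) (nat_lit 0x200010001000080000000700000000000000000000000) (nat_lit 0x0) (nat_lit 0x40018001dc000000000000000000) := T_34 (nat_lit 75) (nat_lit 110) (nat_lit 4) (nat_lit 8) (nat_lit 8) L95762 (by decide +kernel)
theorem L95764 : W_34 (nat_lit 2) (nat_lit 0x200010001000080012001f00000000000000000000000) (nat_lit 0x0) (nat_lit 0x1c0000000000000000000) := D_34 (nat_lit 79) (nat_lit 78) (nat_lit 80) (nat_lit 2) (nat_lit 7) (nat_lit 5) (nat_lit 2) (nat_lit 8) (nat_lit 5) (by decide +kernel)
theorem L95765 : W_34 (nat_lit 3) (nat_lit 0x200010001000080012000f00000000000000000000000) (nat_lit 0x0) (nat_lit 0x40010001c0000000000000000000) := T_34 (nat_lit 96) (nat_lit 110) (nat_lit 1) (nat_lit 11) (nat_lit 5) L95764 (by decide +kernel)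
theorem L95766 : W_34 (nat_lit 4) (nat_lit 0x200010001000080002000f00000000000000000000000) (nat_lit 0x0) (nat_lit 0x340010001c0000000000000000000) := T_34 (nat_lit 112) (nat_lit 113) (nat_lit 3) (nat_lit 7) (nat_lit 5) L95765 (by decide +kernel)
theorem L95767 : W_34 (nat_lit 5) (nat_lit 0x200010001000080000000f00000000000000000000000) (nat_lit 0x0) (nat_lit 0x370010001c0000000000000000000) := T_34 (nat_lit 109) (nat_lit 108) (nat_lit 1) (nat_lit 10) (nat_lit 5) L95766 (by decide +kernel)
theorem L95768 : W_34 (nat_lit 2) (nat_lit 0x200010001000080010800f80042000000000000000000) (nat_lit 0x0) (nat_lit 0x400040001000000000000000000) := D_34 (nat_lit 90) (nat_lit 106) (nat_lit 72) (nat_lit 1) (nat_lit 8) (nat_lit 5) (nat_lit 0) (nat_lit 8) (nat_lit 5) (by decide +kernel)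
theorem L95769 : W_34 (nat_lit 3) (nat_lit 0x200010001000080010800f80040000000000000000000) (nat_lit 0x0) (nat_lit 0x400040007000000000000000000) := T_34 (nat_lit 73) (nat_lit 74) (nat_lit 0) (nat_lit 9) (nat_lit 5) L95768 (by decide +kernel)
theorem L95770 : W_34 (nat_lit 4) (nat_lit 0x200010001000080010000f80040000000000000000000) (nat_lit 0x0) (nat_lit 0x1c00040007000000000000000000) := T_34 (nat_lit 107) (nat_lit 108) (nat_lit 1) (nat_lit 9) (nat_lit 5) L95769 (by decide +kernel)
theorem L95771 : W_34 (nat_lit 5) (nat_lit 0x200010001000080010000f00040000000000000000000) (nat_lit 0x0) (nat_lit 0x9c000c0007000000000000000000) := T_34 (nat_lit 91) (nat_lit 111) (nat_lit 3) (nat_lit 6) (nat_lit 5) L95770 (by decide +kernel)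
theorem L95772 : W_34 (nat_lit 6) (nat_lit 0x200010001000080000000f00040000000000000000000) (nat_lit 0x0) (nat_lit 0x39c000c0007000000000000000000) := T_34 (nat_lit 112) (nat_lit 113) (nat_lit 3) (nat_lit 7) (nat_lit 5) L95771 (by decide +kernel)
theorem L95773 : W_34 (nat_lit 7) (nat_lit 0x200010001000080000000f00000000000000000000000) (nat_lit 0x0) (nat_lit 0x39c000c00c7000000000000000000) := T_34 (nat_lit 78) (nat_lit 79) (nat_lit 2) (nat_lit 7) (nat_lit 5) L95772 (by decide +kernel)
theorem L95774 : W_34 (nat_lit 2) (nat_lit 0x200010001000080002000f00080000000000000000000) (nat_lit 0x0) (nat_lit 0x4001000100000000000000000000) := D_34 (nat_lit 96) (nat_lit 110) (nat_lit 80) (nat_lit 1) (nat_lit 11) (nat_lit 5) (nat_lit 2) (nat_lit 8) (nat_lit 5) (by decide +kernel)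
theorem L95775 : W_34 (nat_lit 3) (nat_lit 0x200010001000080002000f00000000000000000000000) (nat_lit 0x0) (nat_lit 0x40010001c0000000000000000000) := T_34 (nat_lit 79) (nat_lit 78) (nat_lit 2) (nat_lit 7) (nat_lit 5) L95774 (by decide +kernel)
theorem L95776 : W_34 (nat_lit 4) (nat_lit 0x200010001000080000000f00000000000000000000000) (nat_lit 0x0) (nat_lit 0x70010001c0000000000000000000) := T_34 (nat_lit 109) (nat_lit 108) (nat_lit 1) (nat_lit 10) (nat_lit 5) L95775 (by decide +kernel)
theorem L95777 : W_34 (nat_lit 4) (nat_lit 0x200010001000080010000f00000000000000000000000) (nat_lit 0x0) (nat_lit 0x1000080000800c0002000100000000000) := T_34 (nat_lit 111) (nat_lit 91) (nat_lit 3) (nat_lit 6) (nat_lit 5) L94648 (by decide +kernel)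
theorem L95778 : W_34 (nat_lit 5) (nat_lit 0x200010001000080000000f00000000000000000000000) (nat_lit 0x0) (nat_lit 0x1000380000800c0002000100000000000) := T_34 (nat_lit 112) (nat_lit 113) (nat_lit 3) (nat_lit 7) (nat_lit 5) L95777 (by decide +kernel)
theorem L95779 : W_34 (nat_lit 8) (nat_lit 0x200010001000080000000700000000000000000000000) (nat_lit 0x0) (nat_lit 0x10003fc018c01c7002000100000000000) := Q_34 (nat_lit 95) (C_34 L95767 (C_34 L95760 (C_34 L95773 (C_34 L95776 (C_34 L95778 N_34))))) (by decide +kernel)
theorem L95780 : W_34 (nat_lit 6) (nat_lit 0x200010001000080000000780000000000000000000000) (nat_lit 0x0) (nat_lit 0x6e0006000f000000000000000000) := T_34 (nat_lit 110) (nat_lit 75) (nat_lit 4) (nat_lit 8) (nat_lit 8) L94595 (by decide +kernel)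
theorem L95781 : W_34 (nat_lit 4) (nat_lit 0x200010001000080000800780000000000000000000000) (nat_lit 0x0) (nat_lit 0x18400040007000000000000000000) := T_34 (nat_lit 111) (nat_lit 112) (nat_lit 3) (nat_lit 6) (nat_lit 5) L94630 (by decide +kernel)
theorem L95782 : W_34 (nat_lit 5) (nat_lit 0x200010001000080000000780000000000000000000000) (nat_lit 0x0) (nat_lit 0x19c00040007000000000000000000) := T_34 (nat_lit 107) (nat_lit 108) (nat_lit 1) (nat_lit 9) (nat_lit 5) L95781 (by decide +kernel)
theorem L95783 : W_34 (nat_lit 4) (nat_lit 0x200010001000080000000780000000000000000000000) (nat_lit 0x0) (nat_lit 0x1c000040007000000000000000000) := T_34 (nat_lit 111) (nat_lit 112) (nat_lit 3) (nat_lit 6) (nat_lit 5) L94634 (by decide +kernel)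
theorem L95784 : W_34 (nat_lit 3) (nat_lit 0x200010001000080000000780000000000000000000000) (nat_lit 0x0) (nat_lit 0x1c000040008000000000000000000) := T_34 (nat_lit 110) (nat_lit 75) (nat_lit 4) (nat_lit 8) (nat_lit 8) L94588 (by decide +kernel)
theorem L95785 : W_34 (nat_lit 4) (nat_lit 0x200010001000080008000780004000000000000000000) (nat_lit 0x0) (nat_lit 0x20005800000008000400020000000000) := T_34 (nat_lit 75) (nat_lit 110) (nat_lit 4) (nat_lit 8) (nat_lit 8) L94694 (by decide +kernel)
theorem L95786 : W_34 (nat_lit 5) (nat_lit 0x200010001000080008000780000000000000000000000) (nat_lit 0x0) (nat_lit 0x2000580000000e000400020000000000) := T_34 (nat_lit 74) (nat_lit 73) (nat_lit 0) (nat_lit 9) (nat_lit 5) L95785 (by decide +kernel)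
theorem L95787 : W_34 (nat_lit 6) (nat_lit 0x200010001000080000000780000000000000000000000) (nat_lit 0x0) (nat_lit 0x2001d80000000e000400020000000000) := T_34 (nat_lit 111) (nat_lit 112) (nat_lit 3) (nat_lit 6) (nat_lit 5) L95786 (by decide +kernel)
theorem L95788 : W_34 (nat_lit 7) (nat_lit 0x200010001000080000000700000000000000000000000) (nat_lit 0x0) (nat_lit 0x2001fe000e000f000400020000000000) := Q_34 (nat_lit 91) (C_34 L95780 (C_34 L95782 (C_34 L95783 (C_34 L95784 (C_34 L95787 N_34))))) (by decide +kernel)
theorem L95789 : W_34 (nat_lit 6) (nat_lit 0x200010001000080000000700000000000000000000000) (nat_lit 0x0) (nat_lit 0x10003f8018801c0002000100000000000) := Q_34 (nat_lit 95) (C_34 L95776 (C_34 L95778 (C_34 L95760 N_34))) (by decide +kernel)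
theorem L95790 : W_34 (nat_lit 9) (nat_lit 0x200010001000080000000600000000000000000000000) (nat_lit 0x0) (nat_lit 0x12007fe019e01df002400120000000000) := Q_34 (nat_lit 92) (C_34 L94705 (C_34 L95761 (C_34 L95763 (C_34 L95779 (C_34 L95788 (C_34 L95789 N_34)))))) (by decide +kernel)
theorem L95791 : W_34 (nat_lit 12) (nat_lit 0x200010001000080000000600000000000000000000000) (nat_lit 0x0) (nat_lit 0x3001ffc079c03bf001000080000000000) := T_34 (nat_lit 77) (nat_lit 110) (nat_lit 6) (nat_lit 8) (nat_lit 8) L95501 (by decide +kernel)
theorem L95792 : W_34 (nat_lit 10) (nat_lit 0x200010001000080000000600000000000000000000000) (nat_lit 0x0) (nat_lit 0x400030007fc009c007f0038001c000a000000) := T_34 (nat_lit 77) (nat_lit 110) (nat_lit 6) (nat_lit 8) (nat_lit 8) L95507 (by decide +kernel)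
theorem L95793 : W_34 (nat_lit 12) (nat_lit 0x200010001000080000000600000000000000000000000) (nat_lit 0x0) (nat_lit 0x400030007c0039801f000fe001e0007000200) := T_34 (nat_lit 77) (nat_lit 110) (nat_lit 6) (nat_lit 8) (nat_lit 8) L95053 (by decide +kernel)
theorem L95794 : W_34 (nat_lit 16) (nat_lit 0x200010001000080000000200000000000000000000000) (nat_lit 0x0) (nat_lit 0x8000c000f203ffe0fde0fff01ff00ff803fc00780) := Q_34 (nat_lit 94) (C_34 L94667 (C_34 L94689 (C_34 L94706 (C_34 L95528 (C_34 L95529 (C_34 L95530 (C_34 L95531 (C_34 L95753 (C_34 L95790 (C_34 L95791 (C_34 L95792 (C_34 L95793 N_34)))))))))))) (by decide +kernel)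
theorem L95795 : W_34 (nat_lit 2) (nat_lit 0x200010001000080000000200000000000000000000000) (nat_lit 0x0) (nat_lit 0x4000000000000800000004000000000000000000000000000) := D_34 (nat_lit 143) (nat_lit 110) (nat_lit 194) (nat_lit 5) (nat_lit 8) (nat_lit 5) (nat_lit 6) (nat_lit 7) (nat_lit 11) (by decide +kernel)
theorem L95796 : W_34 (nat_lit 2) (nat_lit 0x1000080004000200018001000080000000600000000000000000000000) (nat_lit 0x0) (nat_lit 0x40002000100000000000000000000000000000000000000000000000000000) := D_34 (nat_lit 229) (nat_lit 212) (nat_lit 246) (nat_lit 7) (nat_lit 7) (nat_lit 9) (nat_lit 7) (nat_lit 7) (nat_lit 10) (by decide +kernel)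
theorem L95797 : W_34 (nat_lit 3) (nat_lit 0x80004000200018001000080000000600000000000000000000000) (nat_lit 0x0) (nat_lit 0x40003000100000000100000000000000000000000000000000000000000000) := T_34 (nat_lit 228) (nat_lit 176) (nat_lit 4) (nat_lit 7) (nat_lit 13) L95796 (by decide +kernel)
theorem L95798 : W_34 (nat_lit 2) (nat_lit 0x800080004000200018001000080000000600000000000000000000000) (nat_lit 0x0) (nat_lit 0x10001000000000000100000000000000000000000000000000000000000000) := D_34 (nat_lit 228) (nat_lit 176) (nat_lit 244) (nat_lit 4) (nat_lit 7) (nat_lit 13) (nat_lit 5) (nat_lit 7) (nat_lit 10) (by decide +kernel)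
theorem L95799 : W_34 (nat_lit 2) (nat_lit 0x4000200010001000080000001f00080000000000000000000) (nat_lit 0x0) (nat_lit 0x1c000000000000000000) := D_34 (nat_lit 75) (nat_lit 76) (nat_lit 74) (nat_lit 0) (nat_lit 11) (nat_lit 5) (nat_lit 0) (nat_lit 10) (nat_lit 5) (by decide +kernel)
theorem L95800 : W_34 (nat_lit 3) (nat_lit 0x4000200010001000080000001e00080000000000000000000) (nat_lit 0x0) (nat_lit 0x10005c000000000000000000) := T_34 (nat_lit 92) (nat_lit 78) (nat_lit 2) (nat_lit 7) (nat_lit 5) L95799 (by decide +kernel)
theorem L95801 : W_34 (nat_lit 4) (nat_lit 0x4000200010001000080000001e00000000000000000000000) (nat_lit 0x0) (nat_lit 0x1001dc000000000000000000) := T_34 (nat_lit 79) (nat_lit 80) (nat_lit 2) (nat_lit 8) (nat_lit 5) L95800 (by decide +kernel)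
theorem L95802 : W_34 (nat_lit 5) (nat_lit 0x200010001000080000001e00000000000000000000000) (nat_lit 0x0) (nat_lit 0x40000000000008000000000001001dc000000000000000000) := T_34 (nat_lit 194) (nat_lit 143) (nat_lit 6) (nat_lit 7) (nat_lit 11) L95801 (by decide +kernel)
theorem L95803 : W_34 (nat_lit 6) (nat_lit 0x200010001000080000000e00000000000000000000000) (nat_lit 0x0) (nat_lit 0x40000000000008000000e00031003fc000000000000000000) := Q_34 (nat_lit 96) (C_34 L95737 (C_34 L95719 (C_34 L95802 N_34))) (by decide +kernel)
theorem L95804 : W_34 (nat_lit 2) (nat_lit 0x4000200010001000080010000f80040000000000000000000) (nat_lit 0x0) (nat_lit 0x3800000000000000000000000000) := D_34 (nat_lit 108) (nat_lit 107) (nat_lit 109) (nat_lit 1) (nat_lit 9) (nat_lit 5) (nat_lit 1) (nat_lit 10) (nat_lit 5) (by decide +kernel)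
theorem L95805 : W_34 (nat_lit 3) (nat_lit 0x4000200010001000080010000f00040000000000000000000) (nat_lit 0x0) (nat_lit 0x3800080020000000000000000000) := T_34 (nat_lit 91) (nat_lit 77) (nat_lit 2) (nat_lit 6) (nat_lit 5) L95804 (by decide +kernel)
theorem L95806 : W_34 (nat_lit 4) (nat_lit 0x4000200010001000080010000f00000000000000000000000) (nat_lit 0x0) (nat_lit 0x38000800e0000000000000000000) := T_34 (nat_lit 78) (nat_lit 79) (nat_lit 2) (nat_lit 7) (nat_lit 5) L95805 (by decide +kernel)
theorem L95807 : W_34 (nat_lit 5) (nat_lit 0x4000200010001000080000000f00000000000000000000000) (nat_lit 0x0) (nat_lit 0x338000800e0000000000000000000) := T_34 (nat_lit 112) (nat_lit 113) (nat_lit 3) (nat_lit 7) (nat_lit 5) L95806 (by decide +kernel)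
theorem L95808 : W_34 (nat_lit 6) (nat_lit 0x200010001000080000000f00000000000000000000000) (nat_lit 0x0) (nat_lit 0x40000000000008000000338000800e0000000000000000000) := T_34 (nat_lit 194) (nat_lit 143) (nat_lit 6) (nat_lit 7) (nat_lit 11) L95807 (by decide +kernel)
theorem L95809 : W_34 (nat_lit 2) (nat_lit 0x2800080004000200010001400080011000fc0042000000000000000000) (nat_lit 0x0) (nat_lit 0x50001000000000000000000000000000000000000000000000000000000000) := D_34 (nat_lit 228) (nat_lit 244) (nat_lit 246) (nat_lit 5) (nat_lit 7) (nat_lit 10) (nat_lit 7) (nat_lit 7) (nat_lit 10) (by decide +kernel)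
theorem L95810 : W_34 (nat_lit 3) (nat_lit 0x800080004000200010001400080011000fc0042000000000000000000) (nat_lit 0x0) (nat_lit 0x50003000100000000000000000000000000000000000000000000000000000) := T_34 (nat_lit 229) (nat_lit 212) (nat_lit 7) (nat_lit 7) (nat_lit 9) L95809 (by decide +kernel)
theorem L95811 : W_34 (nat_lit 4) (nat_lit 0x80004000200010001400080011000fc0042000000000000000000) (nat_lit 0x0) (nat_lit 0x50003800140000000000000000000000000000000000000000000000000000) := T_34 (nat_lit 227) (nat_lit 210) (nat_lit 5) (nat_lit 7) (nat_lit 9) L95810 (by decide +kernel)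
theorem L95812 : W_34 (nat_lit 5) (nat_lit 0x4000200010001400080011000fc0042000000000000000000) (nat_lit 0x0) (nat_lit 0x500038001c0000000000008000000000000000000000000000000000000000) := T_34 (nat_lit 211) (nat_lit 159) (nat_lit 4) (nat_lit 7) (nat_lit 12) L95811 (by decide +kernel)
theorem L95813 : W_34 (nat_lit 6) (nat_lit 0x4000200010001000080011000fc0042000000000000000000) (nat_lit 0x0) (nat_lit 0x500038001c0000000000008000400020000000000000000000000000000000) := T_34 (nat_lit 142) (nat_lit 125) (nat_lit 4) (nat_lit 6) (nat_lit 8) L95812 (by decide +kernel)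
theorem L95814 : W_34 (nat_lit 7) (nat_lit 0x4000200010001000080011000f80042000000000000000000) (nat_lit 0x0) (nat_lit 0x500038001c0000000000008000400020000000040001000000000000000000) := T_34 (nat_lit 90) (nat_lit 72) (nat_lit 0) (nat_lit 8) (nat_lit 5) L95813 (by decide +kernel)
theorem L95815 : W_34 (nat_lit 8) (nat_lit 0x4000200010001000080011000f80040000000000000000000) (nat_lit 0x0) (nat_lit 0x500038001c0000000000008000400020000000040007000000000000000000) := T_34 (nat_lit 73) (nat_lit 74) (nat_lit 0) (nat_lit 9) (nat_lit 5) L95814 (by decide +kernel)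
theorem L95816 : W_34 (nat_lit 9) (nat_lit 0x4000200010001000080010000f80040000000000000000000) (nat_lit 0x0) (nat_lit 0x500038001c0000000000008000400020001800040007000000000000000000) := T_34 (nat_lit 108) (nat_lit 107) (nat_lit 1) (nat_lit 9) (nat_lit 5) L95815 (by decide +kernel)
theorem L95817 : W_34 (nat_lit 10) (nat_lit 0x4000200010001000080010000f00040000000000000000000) (nat_lit 0x0) (nat_lit 0x500038001c00000000000080004000200018000c0027000000000000000000) := T_34 (nat_lit 91) (nat_lit 77) (nat_lit 2) (nat_lit 6) (nat_lit 5) L95816 (by decide +kernel)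
theorem L95818 : W_34 (nat_lit 11) (nat_lit 0x4000200010001000080010000f00000000000000000000000) (nat_lit 0x0) (nat_lit 0x500038001c00000000000080004000200018000c00e7000000000000000000) := T_34 (nat_lit 78) (nat_lit 79) (nat_lit 2) (nat_lit 7) (nat_lit 5) L95817 (by decide +kernel)
theorem L95819 : W_34 (nat_lit 12) (nat_lit 0x4000200010001000080000000f00000000000000000000000) (nat_lit 0x0) (nat_lit 0x500038001c00000000000080004000200318000c00e7000000000000000000) := T_34 (nat_lit 112) (nat_lit 113) (nat_lit 3) (nat_lit 7) (nat_lit 5) L95818 (by decide +kernel)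
theorem L95820 : W_34 (nat_lit 13) (nat_lit 0x200010001000080000000f00000000000000000000000) (nat_lit 0x0) (nat_lit 0x500038001c0004000000008000c000200318000c00e7000000000000000000) := T_34 (nat_lit 194) (nat_lit 143) (nat_lit 6) (nat_lit 7) (nat_lit 11) L95819 (by decide +kernel)
theorem L95821 : W_34 (nat_lit 2) (nat_lit 0x200010001000080000000f80040000000000000000000) (nat_lit 0x0) (nat_lit 0x3800000000000000000000000000) := D_34 (nat_lit 108) (nat_lit 107) (nat_lit 109) (nat_lit 1) (nat_lit 9) (nat_lit 5) (nat_lit 1) (nat_lit 10) (nat_lit 5) (by decide +kernel)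
theorem L95822 : W_34 (nat_lit 3) (nat_lit 0x200010001000080000000f00040000000000000000000) (nat_lit 0x0) (nat_lit 0x3800080020000000000000000000) := T_34 (nat_lit 91) (nat_lit 77) (nat_lit 2) (nat_lit 6) (nat_lit 5) L95821 (by decide +kernel)
theorem L95823 : W_34 (nat_lit 4) (nat_lit 0x200010001000080000000f00000000000000000000000) (nat_lit 0x0) (nat_lit 0x38000800e0000000000000000000) := T_34 (nat_lit 78) (nat_lit 79) (nat_lit 2) (nat_lit 7) (nat_lit 5) L95822 (by decide +kernel)
theorem L95824 : W_34 (nat_lit 2) (nat_lit 0x4000200010001000080010000f00060000000000000000000) (nat_lit 0x0) (nat_lit 0x4000200000000000000001000000000000000) := D_34 (nat_lit 129) (nat_lit 60) (nat_lit 146) (nat_lit 4) (nat_lit 10) (nat_lit 7) (nat_lit 4) (nat_lit 10) (nat_lit 8) (by decide +kernel)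
theorem L95825 : W_34 (nat_lit 3) (nat_lit 0x4000200010001000080000000f00060000000000000000000) (nat_lit 0x0) (nat_lit 0x4000200030000000000001000000000000000) := T_34 (nat_lit 112) (nat_lit 113) (nat_lit 3) (nat_lit 7) (nat_lit 5) L95824 (by decide +kernel)
theorem L95826 : W_34 (nat_lit 4) (nat_lit 0x4000200010001000080000000f00040000000000000000000) (nat_lit 0x0) (nat_lit 0x4000200030000080020001000000000000000) := T_34 (nat_lit 77) (nat_lit 91) (nat_lit 2) (nat_lit 6) (nat_lit 5) L95825 (by decide +kernel)
theorem L95827 : W_34 (nat_lit 5) (nat_lit 0x4000200010001000080000000f00000000000000000000000) (nat_lit 0x0) (nat_lit 0x40002000300000800e0001000000000000000) := T_34 (nat_lit 78) (nat_lit 79) (nat_lit 2) (nat_lit 7) (nat_lit 5) L95826 (by decide +kernel)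
theorem L95828 : W_34 (nat_lit 6) (nat_lit 0x200010001000080000000f00000000000000000000000) (nat_lit 0x0) (nat_lit 0x40000000000048002000300000800e0001000000000000000) := T_34 (nat_lit 194) (nat_lit 143) (nat_lit 6) (nat_lit 7) (nat_lit 11) L95827 (by decide +kernel)
theorem L95829 : W_34 (nat_lit 8) (nat_lit 0x4000200010001000080011000f80002000000000000000000) (nat_lit 0x0) (nat_lit 0x500038001c00000000000080004000200000000400c1000000000000000000) := T_34 (nat_lit 78) (nat_lit 79) (nat_lit 2) (nat_lit 7) (nat_lit 5) L95814 (by decide +kernel)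
theorem L95830 : W_34 (nat_lit 9) (nat_lit 0x4000200010001000080011000f80000000000000000000000) (nat_lit 0x0) (nat_lit 0x500038001c00000000000080004000200000000400c7000000000000000000) := T_34 (nat_lit 73) (nat_lit 74) (nat_lit 0) (nat_lit 9) (nat_lit 5) L95829 (by decide +kernel)
theorem L95831 : W_34 (nat_lit 10) (nat_lit 0x4000200010001000080011000f00000000000000000000000) (nat_lit 0x0) (nat_lit 0x500038001c00000000000080004000200008000c00c7000000000000000000) := T_34 (nat_lit 91) (nat_lit 107) (nat_lit 1) (nat_lit 9) (nat_lit 5) L95830 (by decide +kernel)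
theorem L95832 : W_34 (nat_lit 11) (nat_lit 0x200010001000080011000f00000000000000000000000) (nat_lit 0x0) (nat_lit 0x500038001c0004000000008000c000200008000c00c7000000000000000000) := T_34 (nat_lit 194) (nat_lit 143) (nat_lit 6) (nat_lit 7) (nat_lit 11) L95831 (by decide +kernel)
theorem L95833 : W_34 (nat_lit 12) (nat_lit 0x200010001000080010000f00000000000000000000000) (nat_lit 0x0) (nat_lit 0x500038001c0004000000008000c000200038000c00c7000000000000000000) := T_34 (nat_lit 108) (nat_lit 109) (nat_lit 1) (nat_lit 10) (nat_lit 5) L95832 (by decide +kernel)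
theorem L95834 : W_34 (nat_lit 13) (nat_lit 0x200010001000080000000f00000000000000000000000) (nat_lit 0x0) (nat_lit 0x500038001c0004000000008000c000200338000c00c7000000000000000000) := T_34 (nat_lit 112) (nat_lit 113) (nat_lit 3) (nat_lit 7) (nat_lit 5) L95833 (by decide +kernel)
theorem L95835 : W_34 (nat_lit 2) (nat_lit 0x2800080004000200010001400080011000fc0012000000000000000000) (nat_lit 0x0) (nat_lit 0x50001000000000000000000000000000000000000000000000000000000000) := D_34 (nat_lit 228) (nat_lit 244) (nat_lit 246) (nat_lit 5) (nat_lit 7) (nat_lit 10) (nat_lit 7) (nat_lit 7) (nat_lit 10) (by decide +kernel)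
theorem L95836 : W_34 (nat_lit 3) (nat_lit 0x800080004000200010001400080011000fc0012000000000000000000) (nat_lit 0x0) (nat_lit 0x50003000100000000000000000000000000000000000000000000000000000) := T_34 (nat_lit 229) (nat_lit 212) (nat_lit 7) (nat_lit 7) (nat_lit 9) L95835 (by decide +kernel)
theorem L95837 : W_34 (nat_lit 4) (nat_lit 0x80004000200010001400080011000fc0012000000000000000000) (nat_lit 0x0) (nat_lit 0x50003800140000000000000000000000000000000000000000000000000000) := T_34 (nat_lit 227) (nat_lit 210) (nat_lit 5) (nat_lit 7) (nat_lit 9) L95836 (by decide +kernel)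
theorem L95838 : W_34 (nat_lit 5) (nat_lit 0x4000200010001400080011000fc0012000000000000000000) (nat_lit 0x0) (nat_lit 0x500038001c0000000000008000000000000000000000000000000000000000) := T_34 (nat_lit 211) (nat_lit 159) (nat_lit 4) (nat_lit 7) (nat_lit 12) L95837 (by decide +kernel)
theorem L95839 : W_34 (nat_lit 6) (nat_lit 0x4000200010001000080011000fc0012000000000000000000) (nat_lit 0x0) (nat_lit 0x500038001c0000000000008000400020000000000000000000000000000000) := T_34 (nat_lit 142) (nat_lit 125) (nat_lit 4) (nat_lit 6) (nat_lit 8) L95838 (by decide +kernel)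
theorem L95840 : W_34 (nat_lit 7) (nat_lit 0x4000200010001000080011000fc0002000000000000000000) (nat_lit 0x0) (nat_lit 0x500038001c0000000000008000400020000000000030000000000000000000) := T_34 (nat_lit 76) (nat_lit 77) (nat_lit 2) (nat_lit 5) (nat_lit 5) L95839 (by decide +kernel)
theorem L95841 : W_34 (nat_lit 8) (nat_lit 0x4000200010001000080011000f80002000000000000000000) (nat_lit 0x0) (nat_lit 0x500038001c0000000000008000400020000000040031000000000000000000) := T_34 (nat_lit 90) (nat_lit 72) (nat_lit 0) (nat_lit 8) (nat_lit 5) L95840 (by decide +kernel)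
theorem L95842 : W_34 (nat_lit 9) (nat_lit 0x4000200010001000080011000f80000000000000000000000) (nat_lit 0x0) (nat_lit 0x500038001c0000000000008000400020000000040037000000000000000000) := T_34 (nat_lit 73) (nat_lit 74) (nat_lit 0) (nat_lit 9) (nat_lit 5) L95841 (by decide +kernel)
theorem L95843 : W_34 (nat_lit 10) (nat_lit 0x4000200010001000080011000f00000000000000000000000) (nat_lit 0x0) (nat_lit 0x500038001c00000000000080004000200008000c0037000000000000000000) := T_34 (nat_lit 91) (nat_lit 107) (nat_lit 1) (nat_lit 9) (nat_lit 5) L95842 (by decide +kernel)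
theorem L95844 : W_34 (nat_lit 11) (nat_lit 0x200010001000080011000f00000000000000000000000) (nat_lit 0x0) (nat_lit 0x500038001c0004000000008000c000200008000c0037000000000000000000) := T_34 (nat_lit 194) (nat_lit 143) (nat_lit 6) (nat_lit 7) (nat_lit 11) L95843 (by decide +kernel)
theorem L95845 : W_34 (nat_lit 12) (nat_lit 0x200010001000080010000f00000000000000000000000) (nat_lit 0x0) (nat_lit 0x500038001c0004000000008000c000200038000c0037000000000000000000) := T_34 (nat_lit 108) (nat_lit 109) (nat_lit 1) (nat_lit 10) (nat_lit 5) L95844 (by decide +kernel)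
theorem L95846 : W_34 (nat_lit 13) (nat_lit 0x200010001000080000000f00000000000000000000000) (nat_lit 0x0) (nat_lit 0x500038001c0004000000008000c000200338000c0037000000000000000000) := T_34 (nat_lit 112) (nat_lit 113) (nat_lit 3) (nat_lit 7) (nat_lit 5) L95845 (by decide +kernel)
theorem L95847 : W_34 (nat_lit 2) (nat_lit 0x4000200010001000080020000f00080000000000000000000) (nat_lit 0x0) (nat_lit 0x40001000100000000000000000000) := D_34 (nat_lit 96) (nat_lit 80) (nat_lit 114) (nat_lit 2) (nat_lit 8) (nat_lit 5) (nat_lit 3) (nat_lit 8) (nat_lit 5) (by decide +kernel)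
theorem L95848 : W_34 (nat_lit 3) (nat_lit 0x4000200010001000080000000f00080000000000000000000) (nat_lit 0x0) (nat_lit 0x70001000100000000000000000000) := T_34 (nat_lit 113) (nat_lit 112) (nat_lit 3) (nat_lit 7) (nat_lit 5) L95847 (by decide +kernel)
theorem L95849 : W_34 (nat_lit 4) (nat_lit 0x4000200010001000080000000f00000000000000000000000) (nat_lit 0x0) (nat_lit 0x700010001c0000000000000000000) := T_34 (nat_lit 79) (nat_lit 78) (nat_lit 2) (nat_lit 7) (nat_lit 5) L95848 (by decide +kernel)
theorem L95850 : W_34 (nat_lit 5) (nat_lit 0x200010001000080000000f00000000000000000000000) (nat_lit 0x0) (nat_lit 0x40000000000008000000700010001c0000000000000000000) := T_34 (nat_lit 194) (nat_lit 143) (nat_lit 6) (nat_lit 7) (nat_lit 11) L95849 (by decide +kernel)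
theorem L95851 : W_34 (nat_lit 14) (nat_lit 0x200010001000080000000e00000000000000000000000) (nat_lit 0x0) (nat_lit 0x500038001c0004000000008004c002200738011c01f7001000000000000000) := Q_34 (nat_lit 92) (C_34 L95808 (C_34 L95820 (C_34 L95823 (C_34 L95828 (C_34 L95834 (C_34 L95846 (C_34 L95850 N_34))))))) (by decide +kernel)
theorem L95852 : W_34 (nat_lit 5) (nat_lit 0x200010001000080000000e00000000000000000000000) (nat_lit 0x0) (nat_lit 0x738011801fc000000000000000000) := Q_34 (nat_lit 92) (C_34 L95823 (C_34 L95757 (C_34 L95754 N_34))) (by decide +kernel)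
theorem L95853 : W_34 (nat_lit 2) (nat_lit 0x2800080004000200010001400080011000f80008000000020000000000) (nat_lit 0x0) (nat_lit 0x50001000000000000000000000000000000000000000000000000000000000) := D_34 (nat_lit 228) (nat_lit 244) (nat_lit 246) (nat_lit 5) (nat_lit 7) (nat_lit 10) (nat_lit 7) (nat_lit 7) (nat_lit 10) (by decide +kernel)
theorem L95854 : W_34 (nat_lit 3) (nat_lit 0x800080004000200010001400080011000f80008000000020000000000) (nat_lit 0x0) (nat_lit 0x50003000100000000000000000000000000000000000000000000000000000) := T_34 (nat_lit 229) (nat_lit 212) (nat_lit 7) (nat_lit 7) (nat_lit 9) L95853 (by decide +kernel)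
theorem L95855 : W_34 (nat_lit 4) (nat_lit 0x80004000200010001400080011000f80008000000020000000000) (nat_lit 0x0) (nat_lit 0x50003800140000000000000000000000000000000000000000000000000000) := T_34 (nat_lit 227) (nat_lit 210) (nat_lit 5) (nat_lit 7) (nat_lit 9) L95854 (by decide +kernel)
theorem L95856 : W_34 (nat_lit 5) (nat_lit 0x4000200010001400080011000f80008000000020000000000) (nat_lit 0x0) (nat_lit 0x500038001c0000000000008000000000000000000000000000000000000000) := T_34 (nat_lit 211) (nat_lit 159) (nat_lit 4) (nat_lit 7) (nat_lit 12) L95855 (by decide +kernel)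
theorem L95857 : W_34 (nat_lit 6) (nat_lit 0x4000200010001000080011000f80008000000020000000000) (nat_lit 0x0) (nat_lit 0x500038001c0000000000008000400020000000000000000000000000000000) := T_34 (nat_lit 142) (nat_lit 125) (nat_lit 6) (nat_lit 6) (nat_lit 8) L95856 (by decide +kernel)
theorem L95858 : W_34 (nat_lit 7) (nat_lit 0x4000200010001000080011000f80008000000000000000000) (nat_lit 0x0) (nat_lit 0x500038001c0000000000008000400020000000000000000400020000000000) := T_34 (nat_lit 41) (nat_lit 58) (nat_lit 5) (nat_lit 7) (nat_lit 2) L95857 (by decide +kernel)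
theorem L95859 : W_34 (nat_lit 8) (nat_lit 0x4000200010001000080011000f00008000000000000000000) (nat_lit 0x0) (nat_lit 0x500038001c0000000000008000400020000800080000000400020000000000) := T_34 (nat_lit 91) (nat_lit 107) (nat_lit 1) (nat_lit 9) (nat_lit 5) L95858 (by decide +kernel)
theorem L95860 : W_34 (nat_lit 9) (nat_lit 0x4000200010001000080011000f00000000000000000000000) (nat_lit 0x0) (nat_lit 0x500038001c000000000000800040002000080008000c000400020000000000) := T_34 (nat_lit 75) (nat_lit 74) (nat_lit 0) (nat_lit 10) (nat_lit 5) L95859 (by decide +kernel)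
theorem L95861 : W_34 (nat_lit 10) (nat_lit 0x4000200010001000080010000f00000000000000000000000) (nat_lit 0x0) (nat_lit 0x500038001c000000000000800040002000380008000c000400020000000000) := T_34 (nat_lit 108) (nat_lit 109) (nat_lit 1) (nat_lit 10) (nat_lit 5) L95860 (by decide +kernel)
theorem L95862 : W_34 (nat_lit 11) (nat_lit 0x4000200010001000080000000f00000000000000000000000) (nat_lit 0x0) (nat_lit 0x500038001c000000000000800040002003380008000c000400020000000000) := T_34 (nat_lit 112) (nat_lit 113) (nat_lit 3) (nat_lit 7) (nat_lit 5) L95861 (by decide +kernel)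
theorem L95863 : W_34 (nat_lit 12) (nat_lit 0x200010001000080000000f00000000000000000000000) (nat_lit 0x0) (nat_lit 0x500038001c0004000000008000c0002003380008000c000400020000000000) := T_34 (nat_lit 194) (nat_lit 143) (nat_lit 6) (nat_lit 7) (nat_lit 11) L95862 (by decide +kernel)
theorem L95864 : W_34 (nat_lit 13) (nat_lit 0x200010001000080000000e00000000000000000000000) (nat_lit 0x0) (nat_lit 0x500038001c0004000000008000c000200738011801ec000400020000000000) := Q_34 (nat_lit 92) (C_34 L95850 (C_34 L95823 (C_34 L95863 N_34))) (by decide +kernel)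
theorem L95865 : W_34 (nat_lit 2) (nat_lit 0x2800080004000200010001400080001001f80088000000000000000000) (nat_lit 0x0) (nat_lit 0x50001000000000000000000000000000000000000000000000000000000000) := D_34 (nat_lit 228) (nat_lit 246) (nat_lit 244) (nat_lit 7) (nat_lit 7) (nat_lit 10) (nat_lit 5) (nat_lit 7) (nat_lit 10) (by decide +kernel)
theorem L95866 : W_34 (nat_lit 3) (nat_lit 0x2000080004000200010001400080001001f80088000000000000000000) (nat_lit 0x0) (nat_lit 0x50001800040000000000000000000000000000000000000000000000000000) := T_34 (nat_lit 227) (nat_lit 210) (nat_lit 5) (nat_lit 7) (nat_lit 9) L95865 (by decide +kernel)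
theorem L95867 : W_34 (nat_lit 4) (nat_lit 0x80004000200010001400080001001f80088000000000000000000) (nat_lit 0x0) (nat_lit 0x50003800140000000000000000000000000000000000000000000000000000) := T_34 (nat_lit 229) (nat_lit 212) (nat_lit 7) (nat_lit 7) (nat_lit 9) L95866 (by decide +kernel)
theorem L95868 : W_34 (nat_lit 5) (nat_lit 0x80004000200010001400080001001f80008000000000000000000) (nat_lit 0x0) (nat_lit 0x50003800140000000000000000000000000000000180000000000000000000) := T_34 (nat_lit 79) (nat_lit 80) (nat_lit 2) (nat_lit 8) (nat_lit 5) L95867 (by decide +kernel)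
theorem L95869 : W_34 (nat_lit 6) (nat_lit 0x4000200010001400080001001f80008000000000000000000) (nat_lit 0x0) (nat_lit 0x500038001c0000000000008000000000000000000180000000000000000000) := T_34 (nat_lit 211) (nat_lit 159) (nat_lit 4) (nat_lit 7) (nat_lit 12) L95868 (by decide +kernel)
theorem L95870 : W_34 (nat_lit 7) (nat_lit 0x4000200010001000080001001f80008000000000000000000) (nat_lit 0x0) (nat_lit 0x500038001c0000000000008000400020000000000180000000000000000000) := T_34 (nat_lit 142) (nat_lit 125) (nat_lit 6) (nat_lit 6) (nat_lit 8) L95869 (by decide +kernel)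
theorem L95871 : W_34 (nat_lit 8) (nat_lit 0x4000200010001000080001000f80008000000000000000000) (nat_lit 0x0) (nat_lit 0x500038001c0000000000008000400020000001000190000000000000000000) := T_34 (nat_lit 96) (nat_lit 76) (nat_lit 0) (nat_lit 11) (nat_lit 5) L95870 (by decide +kernel)
theorem L95872 : W_34 (nat_lit 9) (nat_lit 0x4000200010001000080001000f00008000000000000000000) (nat_lit 0x0) (nat_lit 0x500038001c0000000000008000400020000801080190000000000000000000) := T_34 (nat_lit 91) (nat_lit 107) (nat_lit 1) (nat_lit 9) (nat_lit 5) L95871 (by decide +kernel)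
theorem L95873 : W_34 (nat_lit 10) (nat_lit 0x4000200010001000080001000f00000000000000000000000) (nat_lit 0x0) (nat_lit 0x500038001c000000000000800040002000080108019c000000000000000000) := T_34 (nat_lit 75) (nat_lit 74) (nat_lit 0) (nat_lit 10) (nat_lit 5) L95872 (by decide +kernel)
theorem L95874 : W_34 (nat_lit 11) (nat_lit 0x4000200010001000080000000f00000000000000000000000) (nat_lit 0x0) (nat_lit 0x500038001c000000000000800040002000380108019c000000000000000000) := T_34 (nat_lit 108) (nat_lit 109) (nat_lit 1) (nat_lit 10) (nat_lit 5) L95873 (by decide +kernel)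
theorem L95875 : W_34 (nat_lit 12) (nat_lit 0x200010001000080000000f00000000000000000000000) (nat_lit 0x0) (nat_lit 0x500038001c0004000000008000c0002000380108019c000000000000000000) := T_34 (nat_lit 194) (nat_lit 143) (nat_lit 6) (nat_lit 7) (nat_lit 11) L95874 (by decide +kernel)
theorem L95876 : W_34 (nat_lit 2) (nat_lit 0x2800080004000200010001400080001001f80028000000020000000000) (nat_lit 0x0) (nat_lit 0x50001000000000000000000000000000000000000000000000000000000000) := D_34 (nat_lit 228) (nat_lit 246) (nat_lit 244) (nat_lit 7) (nat_lit 7) (nat_lit 10) (nat_lit 5) (nat_lit 7) (nat_lit 10) (by decide +kernel)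
theorem L95877 : W_34 (nat_lit 3) (nat_lit 0x2000080004000200010001400080001001f80028000000020000000000) (nat_lit 0x0) (nat_lit 0x50001800040000000000000000000000000000000000000000000000000000) := T_34 (nat_lit 227) (nat_lit 210) (nat_lit 5) (nat_lit 7) (nat_lit 9) L95876 (by decide +kernel)
theorem L95878 : W_34 (nat_lit 4) (nat_lit 0x80004000200010001400080001001f80028000000020000000000) (nat_lit 0x0) (nat_lit 0x50003800140000000000000000000000000000000000000000000000000000) := T_34 (nat_lit 229) (nat_lit 212) (nat_lit 7) (nat_lit 7) (nat_lit 9) L95877 (by decide +kernel)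
theorem L95879 : W_34 (nat_lit 5) (nat_lit 0x80004000200010001400080001001f80028000000000000000000) (nat_lit 0x0) (nat_lit 0x50003800140000000000000000000000000000000000000400020000000000) := T_34 (nat_lit 41) (nat_lit 58) (nat_lit 5) (nat_lit 7) (nat_lit 2) L95878 (by decide +kernel)
theorem L95880 : W_34 (nat_lit 6) (nat_lit 0x4000200010001400080001001f80028000000000000000000) (nat_lit 0x0) (nat_lit 0x500038001c0000000000008000000000000000000000000400020000000000) := T_34 (nat_lit 211) (nat_lit 159) (nat_lit 4) (nat_lit 7) (nat_lit 12) L95879 (by decide +kernel)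
theorem L95881 : W_34 (nat_lit 7) (nat_lit 0x4000200010001000080001001f80028000000000000000000) (nat_lit 0x0) (nat_lit 0x500038001c0000000000008000400020000000000000000400020000000000) := T_34 (nat_lit 142) (nat_lit 125) (nat_lit 6) (nat_lit 6) (nat_lit 8) L95880 (by decide +kernel)
theorem L95882 : W_34 (nat_lit 8) (nat_lit 0x4000200010001000080001001f80008000000000000000000) (nat_lit 0x0) (nat_lit 0x500038001c0000000000008000400020000000000060000400020000000000) := T_34 (nat_lit 77) (nat_lit 78) (nat_lit 2) (nat_lit 6) (nat_lit 5) L95881 (by decide +kernel)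
theorem L95883 : W_34 (nat_lit 9) (nat_lit 0x4000200010001000080001001f00008000000000000000000) (nat_lit 0x0) (nat_lit 0x500038001c0000000000008000400020000800080060000400020000000000) := T_34 (nat_lit 91) (nat_lit 107) (nat_lit 1) (nat_lit 9) (nat_lit 5) L95882 (by decide +kernel)
theorem L95884 : W_34 (nat_lit 10) (nat_lit 0x4000200010001000080000001f00008000000000000000000) (nat_lit 0x0) (nat_lit 0x500038001c0000000000008000400020003800080060000400020000000000) := T_34 (nat_lit 108) (nat_lit 109) (nat_lit 1) (nat_lit 10) (nat_lit 5) L95883 (by decide +kernel)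
theorem L95885 : W_34 (nat_lit 11) (nat_lit 0x4000200010001000080000000f00008000000000000000000) (nat_lit 0x0) (nat_lit 0x500038001c0000000000008000400020003801080070000400020000000000) := T_34 (nat_lit 96) (nat_lit 76) (nat_lit 0) (nat_lit 11) (nat_lit 5) L95884 (by decide +kernel)
theorem L95886 : W_34 (nat_lit 12) (nat_lit 0x200010001000080000000f00008000000000000000000) (nat_lit 0x0) (nat_lit 0x500038001c0004000000008000c00020003801080070000400020000000000) := T_34 (nat_lit 194) (nat_lit 143) (nat_lit 6) (nat_lit 7) (nat_lit 11) L95885 (by decide +kernel)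
theorem L95887 : W_34 (nat_lit 13) (nat_lit 0x200010001000080000000f00000000000000000000000) (nat_lit 0x0) (nat_lit 0x500038001c0004000000008000c0002000380108007c000400020000000000) := T_34 (nat_lit 75) (nat_lit 74) (nat_lit 0) (nat_lit 10) (nat_lit 5) L95886 (by decide +kernel)
theorem L95888 : W_34 (nat_lit 14) (nat_lit 0x200010001000080000000e00000000000000000000000) (nat_lit 0x0) (nat_lit 0x500038001c0004000000008000c000200038011801fc000400020000000000) := Q_34 (nat_lit 92) (C_34 L95823 (C_34 L95757 (C_34 L95875 (C_34 L95887 N_34)))) (by decide +kernel)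
theorem L95889 : W_34 (nat_lit 2) (nat_lit 0x4000200010001000080080007e00490000000000000000000) (nat_lit 0x0) (nat_lit 0x8000840000000000000000000) := D_34 (nat_lit 99) (nat_lit 78) (nat_lit 83) (nat_lit 0) (nat_lit 14) (nat_lit 5) (nat_lit 2) (nat_lit 11) (nat_lit 5) (by decide +kernel)
theorem L95890 : W_34 (nat_lit 3) (nat_lit 0x4000200010001000080080007e00090000000000000000000) (nat_lit 0x0) (nat_lit 0x8000e40000000000000000000) := T_34 (nat_lit 82) (nat_lit 81) (nat_lit 2) (nat_lit 10) (nat_lit 5) L95889 (by decide +kernel)
theorem L95891 : W_34 (nat_lit 4) (nat_lit 0x4000200010001000080080003e00090000000000000000000) (nat_lit 0x0) (nat_lit 0x10000c000e40000000000000000000) := T_34 (nat_lit 98) (nat_lit 116) (nat_lit 3) (nat_lit 10) (nat_lit 5) L95890 (by decide +kernel)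
theorem L95892 : W_34 (nat_lit 5) (nat_lit 0x4000200010001000080000003e00090000000000000000000) (nat_lit 0x0) (nat_lit 0x1c000c000e40000000000000000000) := T_34 (nat_lit 115) (nat_lit 114) (nat_lit 3) (nat_lit 9) (nat_lit 5) L95891 (by decide +kernel)
theorem L95893 : W_34 (nat_lit 6) (nat_lit 0x4000200010001000080000001e00090000000000000000000) (nat_lit 0x0) (nat_lit 0x1c000e000e60000000000000000000) := T_34 (nat_lit 97) (nat_lit 77) (nat_lit 0) (nat_lit 12) (nat_lit 5) L95892 (by decide +kernel)
theorem L95894 : W_34 (nat_lit 7) (nat_lit 0x4000200010001000080000001e00080000000000000000000) (nat_lit 0x0) (nat_lit 0x1c000e000e78000000000000000000) := T_34 (nat_lit 76) (nat_lit 75) (nat_lit 0) (nat_lit 11) (nat_lit 5) L95893 (by decide +kernel)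
theorem L95895 : W_34 (nat_lit 8) (nat_lit 0x4000200010001000080000001e00000000000000000000000) (nat_lit 0x0) (nat_lit 0x1c000e000ff8000000000000000000) := T_34 (nat_lit 79) (nat_lit 80) (nat_lit 2) (nat_lit 8) (nat_lit 5) L95894 (by decide +kernel)
theorem L95896 : W_34 (nat_lit 9) (nat_lit 0x200010001000080000001e00000000000000000000000) (nat_lit 0x0) (nat_lit 0x40000000000008000001c000e000ff8000000000000000000) := T_34 (nat_lit 194) (nat_lit 143) (nat_lit 6) (nat_lit 7) (nat_lit 11) L95895 (by decide +kernel)
theorem L95897 : W_34 (nat_lit 2) (nat_lit 0x4000200010001000680020001e00090000000000000000000) (nat_lit 0x0) (nat_lit 0x8000000000000000040002000000000000000) := D_34 (nat_lit 78) (nat_lit 147) (nat_lit 61) (nat_lit 4) (nat_lit 11) (nat_lit 8) (nat_lit 4) (nat_lit 11) (nat_lit 7) (by decide +kernel)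
theorem L95898 : W_34 (nat_lit 3) (nat_lit 0x4000200010001000280020001e00090000000000000000000) (nat_lit 0x0) (nat_lit 0xc000400000000000040002000000000000000) := T_34 (nat_lit 130) (nat_lit 146) (nat_lit 5) (nat_lit 11) (nat_lit 4) L95897 (by decide +kernel)
theorem L95899 : W_34 (nat_lit 4) (nat_lit 0x200010001000280020001e00090000000000000000000) (nat_lit 0x0) (nat_lit 0x400000000000c800400000000000040002000000000000000) := T_34 (nat_lit 194) (nat_lit 143) (nat_lit 6) (nat_lit 7) (nat_lit 11) L95898 (by decide +kernel)
theorem L95900 : W_34 (nat_lit 5) (nat_lit 0x200010001000280020001e00010000000000000000000) (nat_lit 0x0) (nat_lit 0x400000000000c8004000000000001c0002000000000000000) := T_34 (nat_lit 79) (nat_lit 80) (nat_lit 2) (nat_lit 8) (nat_lit 5) L95899 (by decide +kernel)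
theorem L95901 : W_34 (nat_lit 6) (nat_lit 0x200010001000280000001e00010000000000000000000) (nat_lit 0x0) (nat_lit 0x400000000000c8004000600000001c0002000000000000000) := T_34 (nat_lit 113) (nat_lit 114) (nat_lit 3) (nat_lit 8) (nat_lit 5) L95900 (by decide +kernel)
theorem L95902 : W_34 (nat_lit 7) (nat_lit 0x200010001000280000001e00000000000000000000000) (nat_lit 0x0) (nat_lit 0x400000000000c8004000600000001d8002000000000000000) := T_34 (nat_lit 76) (nat_lit 75) (nat_lit 0) (nat_lit 11) (nat_lit 5) L95901 (by decide +kernel)
theorem L95903 : W_34 (nat_lit 2) (nat_lit 0x200010001000280020001e00080000000000000000000) (nat_lit 0x0) (nat_lit 0x4000400010000000000000000000000000000) := D_34 (nat_lit 146) (nat_lit 112) (nat_lit 130) (nat_lit 6) (nat_lit 10) (nat_lit 8) (nat_lit 5) (nat_lit 11) (nat_lit 4) (by decide +kernel)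
theorem L95904 : W_34 (nat_lit 3) (nat_lit 0x200010001000280000001e00080000000000000000000) (nat_lit 0x0) (nat_lit 0x4000400070000000000000000000000000000) := T_34 (nat_lit 113) (nat_lit 114) (nat_lit 3) (nat_lit 8) (nat_lit 5) L95903 (by decide +kernel)
theorem L95905 : W_34 (nat_lit 4) (nat_lit 0x200010001000280000001e00000000000000000000000) (nat_lit 0x0) (nat_lit 0x4000400070000000180000000000000000000) := T_34 (nat_lit 79) (nat_lit 80) (nat_lit 2) (nat_lit 8) (nat_lit 5) L95904 (by decide +kernel)
theorem L95906 : W_34 (nat_lit 2) (nat_lit 0x200010001000280010001e00090000000000000000000) (nat_lit 0x0) (nat_lit 0x40004000200000000000) := D_34 (nat_lit 62) (nat_lit 78) (nat_lit 45) (nat_lit 6) (nat_lit 10) (nat_lit 7) (nat_lit 5) (nat_lit 11) (nat_lit 2) (by decide +kernel)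
theorem L95907 : W_34 (nat_lit 3) (nat_lit 0x200010001000280000001e00090000000000000000000) (nat_lit 0x0) (nat_lit 0x4000000010000000040004000200000000000) := T_34 (nat_lit 112) (nat_lit 146) (nat_lit 6) (nat_lit 10) (nat_lit 8) L95906 (by decide +kernel)
theorem L95908 : W_34 (nat_lit 4) (nat_lit 0x200010001000280000001e00080000000000000000000) (nat_lit 0x0) (nat_lit 0x4000000010000000058004000200000000000) := T_34 (nat_lit 76) (nat_lit 75) (nat_lit 0) (nat_lit 11) (nat_lit 5) L95907 (by decide +kernel)
theorem L95909 : W_34 (nat_lit 5) (nat_lit 0x200010001000280000001e00000000000000000000000) (nat_lit 0x0) (nat_lit 0x40000000100000001d8004000200000000000) := T_34 (nat_lit 79) (nat_lit 80) (nat_lit 2) (nat_lit 8) (nat_lit 5) L95908 (by decide +kernel)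
theorem L95910 : W_34 (nat_lit 2) (nat_lit 0x200110009800680020001e00010000000000000000000) (nat_lit 0x0) (nat_lit 0x4000200010000000000000000000000000000000000000) := D_34 (nat_lit 165) (nat_lit 148) (nat_lit 182) (nat_lit 7) (nat_lit 11) (nat_lit 5) (nat_lit 7) (nat_lit 11) (nat_lit 6) (by decide +kernel)
theorem L95911 : W_34 (nat_lit 3) (nat_lit 0x200010009800680020001e00010000000000000000000) (nat_lit 0x0) (nat_lit 0x4000300010000000010000000000000000000000000000) := T_34 (nat_lit 164) (nat_lit 112) (nat_lit 4) (nat_lit 11) (nat_lit 9) L95910 (by decide +kernel)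
theorem L95912 : W_34 (nat_lit 4) (nat_lit 0x200010001800680020001e00010000000000000000000) (nat_lit 0x0) (nat_lit 0x4000300018000000010000000040000000000000000000) := T_34 (nat_lit 147) (nat_lit 78) (nat_lit 4) (nat_lit 11) (nat_lit 8) L95911 (by decide +kernel)
theorem L95913 : W_34 (nat_lit 5) (nat_lit 0x200010001800680000001e00010000000000000000000) (nat_lit 0x0) (nat_lit 0x4000300018000000070000000040000000000000000000) := T_34 (nat_lit 113) (nat_lit 114) (nat_lit 3) (nat_lit 8) (nat_lit 5) L95912 (by decide +kernel)
theorem L95914 : W_34 (nat_lit 6) (nat_lit 0x200010001800280000001e00010000000000000000000) (nat_lit 0x0) (nat_lit 0x4000300018000500070000000040000000000000000000) := T_34 (nat_lit 130) (nat_lit 128) (nat_lit 1) (nat_lit 11) (nat_lit 7) L95913 (by decide +kernel)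
theorem L95915 : W_34 (nat_lit 7) (nat_lit 0x200010001800280000001e00000000000000000000000) (nat_lit 0x0) (nat_lit 0x4000300018000500070000000058000000000000000000) := T_34 (nat_lit 76) (nat_lit 75) (nat_lit 0) (nat_lit 11) (nat_lit 5) L95914 (by decide +kernel)
theorem L95916 : W_34 (nat_lit 8) (nat_lit 0x200010001000280000001e00000000000000000000000) (nat_lit 0x0) (nat_lit 0x4004000300018800500070000000058000000000000000000) := T_34 (nat_lit 143) (nat_lit 194) (nat_lit 6) (nat_lit 7) (nat_lit 11) L95915 (by decide +kernel)
theorem L95917 : W_34 (nat_lit 9) (nat_lit 0x200010001000080000001e00000000000000000000000) (nat_lit 0x0) (nat_lit 0x400400030001c8007000700000001d8006000200000000000) := Q_34 (nat_lit 129) (C_34 L95902 (C_34 L95905 (C_34 L95909 (C_34 L95916 N_34)))) (by decide +kernel)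
theorem L95918 : W_34 (nat_lit 2) (nat_lit 0x4000200010001000080000003e00100000000000000000000) (nat_lit 0x0) (nat_lit 0x38000000000000000000) := D_34 (nat_lit 76) (nat_lit 77) (nat_lit 75) (nat_lit 0) (nat_lit 12) (nat_lit 5) (nat_lit 0) (nat_lit 11) (nat_lit 5) (by decide +kernel)
theorem L95919 : W_34 (nat_lit 3) (nat_lit 0x4000200010001000080000001e00100000000000000000000) (nat_lit 0x0) (nat_lit 0x2000238000000000000000000) := T_34 (nat_lit 97) (nat_lit 81) (nat_lit 2) (nat_lit 9) (nat_lit 5) L95918 (by decide +kernel)
theorem L95920 : W_34 (nat_lit 4) (nat_lit 0x200010001000080000001e00100000000000000000000) (nat_lit 0x0) (nat_lit 0x4000000000000800000000002000238000000000000000000) := T_34 (nat_lit 194) (nat_lit 143) (nat_lit 6) (nat_lit 7) (nat_lit 11) L95919 (by decide +kernel)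
theorem L95921 : W_34 (nat_lit 5) (nat_lit 0x200010001000080000001e00000000000000000000000) (nat_lit 0x0) (nat_lit 0x40000000000008000000000020003b8000000000000000000) := T_34 (nat_lit 80) (nat_lit 79) (nat_lit 2) (nat_lit 8) (nat_lit 5) L95920 (by decide +kernel)
theorem L95922 : W_34 (nat_lit 10) (nat_lit 0x200010001000080000000e00000000000000000000000) (nat_lit 0x0) (nat_lit 0x400400030001c8007001f000f000ff8006000200000000000) := Q_34 (nat_lit 96) (C_34 L95737 (C_34 L95719 (C_34 L95896 (C_34 L95917 (C_34 L95921 N_34))))) (by decide +kernel)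
theorem L95923 : W_34 (nat_lit 13) (nat_lit 0x200010001000080000000e00000000000000000000000) (nat_lit 0x0) (nat_lit 0x500038001c0004000000008000c000200738011801dc000400020000000000) := Q_34 (nat_lit 92) (C_34 L95850 (C_34 L95875 (C_34 L95757 (C_34 L95863 N_34)))) (by decide +kernel)
theorem L95924 : W_34 (nat_lit 2) (nat_lit 0x4000200010001000080021001f80092000000000000000000) (nat_lit 0x0) (nat_lit 0x40021000000000000000000) := D_34 (nat_lit 90) (nat_lit 77) (nat_lit 72) (nat_lit 2) (nat_lit 5) (nat_lit 5) (nat_lit 0) (nat_lit 8) (nat_lit 5) (by decide +kernel)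
theorem L95925 : W_34 (nat_lit 3) (nat_lit 0x4000200010001000080021001f80090000000000000000000) (nat_lit 0x0) (nat_lit 0x40027000000000000000000) := T_34 (nat_lit 73) (nat_lit 74) (nat_lit 0) (nat_lit 9) (nat_lit 5) L95924 (by decide +kernel)
theorem L95926 : W_34 (nat_lit 4) (nat_lit 0x4000200010001000080021001f00090000000000000000000) (nat_lit 0x0) (nat_lit 0x8000c0027000000000000000000) := T_34 (nat_lit 91) (nat_lit 107) (nat_lit 1) (nat_lit 9) (nat_lit 5) L95925 (by decide +kernel)
theorem L95927 : W_34 (nat_lit 5) (nat_lit 0x4000200010001000080020001f00090000000000000000000) (nat_lit 0x0) (nat_lit 0x38000c0027000000000000000000) := T_34 (nat_lit 108) (nat_lit 109) (nat_lit 1) (nat_lit 10) (nat_lit 5) L95926 (by decide +kernel)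
theorem L95928 : W_34 (nat_lit 6) (nat_lit 0x4000200010001000080020001e00090000000000000000000) (nat_lit 0x0) (nat_lit 0x138001c0027000000000000000000) := T_34 (nat_lit 92) (nat_lit 112) (nat_lit 3) (nat_lit 7) (nat_lit 5) L95927 (by decide +kernel)
theorem L95929 : W_34 (nat_lit 7) (nat_lit 0x4000200010001000080000001e00090000000000000000000) (nat_lit 0x0) (nat_lit 0x738001c0027000000000000000000) := T_34 (nat_lit 113) (nat_lit 114) (nat_lit 3) (nat_lit 8) (nat_lit 5) L95928 (by decide +kernel)
theorem L95930 : W_34 (nat_lit 8) (nat_lit 0x4000200010001000080000001e00080000000000000000000) (nat_lit 0x0) (nat_lit 0x738001c003f000000000000000000) := T_34 (nat_lit 76) (nat_lit 75) (nat_lit 0) (nat_lit 11) (nat_lit 5) L95929 (by decide +kernel)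
theorem L95931 : W_34 (nat_lit 9) (nat_lit 0x4000200010001000080000001e00000000000000000000000) (nat_lit 0x0) (nat_lit 0x738001c01bf000000000000000000) := T_34 (nat_lit 79) (nat_lit 80) (nat_lit 2) (nat_lit 8) (nat_lit 5) L95930 (by decide +kernel)
theorem L95932 : W_34 (nat_lit 10) (nat_lit 0x200010001000080000001e00000000000000000000000) (nat_lit 0x0) (nat_lit 0x40000000000008000000738001c01bf000000000000000000) := T_34 (nat_lit 194) (nat_lit 143) (nat_lit 6) (nat_lit 7) (nat_lit 11) L95931 (by decide +kernel)
theorem L95933 : W_34 (nat_lit 11) (nat_lit 0x200010001000080000000e00000000000000000000000) (nat_lit 0x0) (nat_lit 0x40000000000008000000f38031c03bf000000000000000000) := Q_34 (nat_lit 96) (C_34 L95921 (C_34 L95719 (C_34 L95737 (C_34 L95932 N_34)))) (by decide +kernel)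
theorem L95934 : W_34 (nat_lit 2) (nat_lit 0x4000200010001000080022001f00030000000000000000000) (nat_lit 0x0) (nat_lit 0xc0040000000000000000000) := D_34 (nat_lit 91) (nat_lit 90) (nat_lit 78) (nat_lit 2) (nat_lit 5) (nat_lit 5) (nat_lit 2) (nat_lit 6) (nat_lit 5) (by decide +kernel)
theorem L95935 : W_34 (nat_lit 3) (nat_lit 0x4000200010001000080022001f00010000000000000000000) (nat_lit 0x0) (nat_lit 0x20c0060000000000000000000) := T_34 (nat_lit 77) (nat_lit 97) (nat_lit 0) (nat_lit 12) (nat_lit 5) L95934 (by decide +kernel)
theorem L95936 : W_34 (nat_lit 4) (nat_lit 0x4000200010001000080022001f00000000000000000000000) (nat_lit 0x0) (nat_lit 0x20c0078000000000000000000) := T_34 (nat_lit 76) (nat_lit 75) (nat_lit 0) (nat_lit 11) (nat_lit 5) L95935 (by decide +kernel)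
theorem L95937 : W_34 (nat_lit 5) (nat_lit 0x4000200010001000080022000f00000000000000000000000) (nat_lit 0x0) (nat_lit 0x400030c0078000000000000000000) := T_34 (nat_lit 96) (nat_lit 114) (nat_lit 3) (nat_lit 8) (nat_lit 5) L95936 (by decide +kernel)
theorem L95938 : W_34 (nat_lit 6) (nat_lit 0x4000200010001000080002000f00000000000000000000000) (nat_lit 0x0) (nat_lit 0x700030c0078000000000000000000) := T_34 (nat_lit 113) (nat_lit 112) (nat_lit 3) (nat_lit 7) (nat_lit 5) L95937 (by decide +kernel)
theorem L95939 : W_34 (nat_lit 7) (nat_lit 0x4000200010001000080000000f00000000000000000000000) (nat_lit 0x0) (nat_lit 0x730030c0078000000000000000000) := T_34 (nat_lit 109) (nat_lit 108) (nat_lit 1) (nat_lit 10) (nat_lit 5) L95938 (by decide +kernel)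
theorem L95940 : W_34 (nat_lit 8) (nat_lit 0x200010001000080000000f00000000000000000000000) (nat_lit 0x0) (nat_lit 0x40000000000008000000730030c0078000000000000000000) := T_34 (nat_lit 194) (nat_lit 143) (nat_lit 6) (nat_lit 7) (nat_lit 11) L95939 (by decide +kernel)
theorem L95941 : W_34 (nat_lit 14) (nat_lit 0x200010001000080000000e00000000000000000000000) (nat_lit 0x0) (nat_lit 0x500038001c0004000000008000c000200738031c007f000400020000000000) := Q_34 (nat_lit 92) (C_34 L95754 (C_34 L95887 (C_34 L95846 (C_34 L95863 (C_34 L95940 N_34))))) (by decide +kernel)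
theorem L95942 : W_34 (nat_lit 2) (nat_lit 0x4000200010001000080000000f00078002400070008000000) (nat_lit 0x0) (nat_lit 0x1000080004000000) := D_34 (nat_lit 43) (nat_lit 60) (nat_lit 26) (nat_lit 3) (nat_lit 6) (nat_lit 2) (nat_lit 2) (nat_lit 6) (nat_lit 2) (by decide +kernel)
theorem L95943 : W_34 (nat_lit 3) (nat_lit 0x4000200010001000080000000f00078002400060008000000) (nat_lit 0x0) (nat_lit 0x1000090004800000) := T_34 (nat_lit 40) (nat_lit 23) (nat_lit 4) (nat_lit 7) (nat_lit 5) L95942 (by decide +kernel)
theorem L95944 : W_34 (nat_lit 4) (nat_lit 0x4000200010001000080000000f00078002400020008000000) (nat_lit 0x0) (nat_lit 0x10000d0006800000) := T_34 (nat_lit 42) (nat_lit 25) (nat_lit 6) (nat_lit 7) (nat_lit 5) L95943 (by decide +kernel)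
theorem L95945 : W_34 (nat_lit 5) (nat_lit 0x4000200010001000080000000f00078002400000008000000) (nat_lit 0x0) (nat_lit 0x10000f0007800000) := T_34 (nat_lit 41) (nat_lit 24) (nat_lit 7) (nat_lit 7) (nat_lit 1) L95944 (by decide +kernel)
theorem L95946 : W_34 (nat_lit 6) (nat_lit 0x4000200010001000080000000f00078002400000000000000) (nat_lit 0x0) (nat_lit 0x10001f000f800000) := T_34 (nat_lit 27) (nat_lit 44) (nat_lit 5) (nat_lit 10) (nat_lit 1) L95945 (by decide +kernel)
theorem L95947 : W_34 (nat_lit 7) (nat_lit 0x4000200010001000080000000f00078002000000000000000) (nat_lit 0x0) (nat_lit 0x16001f000f800000) := T_34 (nat_lit 58) (nat_lit 57) (nat_lit 0) (nat_lit 10) (nat_lit 4) L95946 (by decide +kernel)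
theorem L95948 : W_34 (nat_lit 8) (nat_lit 0x4000200010001000080000000f00078000000000000000000) (nat_lit 0x0) (nat_lit 0x76001f000f800000) := T_34 (nat_lit 61) (nat_lit 62) (nat_lit 2) (nat_lit 7) (nat_lit 4) L95947 (by decide +kernel)
theorem L95949 : W_34 (nat_lit 2) (nat_lit 0x200010001000080010000f00058006000000000000000) (nat_lit 0x0) (nat_lit 0x1800080000000000) := D_34 (nat_lit 60) (nat_lit 59) (nat_lit 43) (nat_lit 1) (nat_lit 11) (nat_lit 3) (nat_lit 4) (nat_lit 10) (nat_lit 6) (by decide +kernel)
theorem L95950 : W_34 (nat_lit 3) (nat_lit 0x200010001000080010000f00048006000000000000000) (nat_lit 0x0) (nat_lit 0x30001800080000000000) := T_34 (nat_lit 76) (nat_lit 77) (nat_lit 2) (nat_lit 7) (nat_lit 4) L95949 (by decide +kernel)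
theorem L95951 : W_34 (nat_lit 4) (nat_lit 0x200010001000080010000f00048002000000000000000) (nat_lit 0x0) (nat_lit 0x30005800280000000000) := T_34 (nat_lit 62) (nat_lit 45) (nat_lit 6) (nat_lit 10) (nat_lit 6) L95950 (by decide +kernel)
theorem L95952 : W_34 (nat_lit 5) (nat_lit 0x200010001000080010000f00040002000000000000000) (nat_lit 0x0) (nat_lit 0x3c005800280000000000) := T_34 (nat_lit 75) (nat_lit 74) (nat_lit 0) (nat_lit 10) (nat_lit 5) L95951 (by decide +kernel)
theorem L95953 : W_34 (nat_lit 6) (nat_lit 0x200010001000080000000f00040002000000000000000) (nat_lit 0x0) (nat_lit 0x3000000003c005800280000000000) := T_34 (nat_lit 112) (nat_lit 113) (nat_lit 3) (nat_lit 7) (nat_lit 5) L95952 (by decide +kernel)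
theorem L95954 : W_34 (nat_lit 2) (nat_lit 0x200010001000080010000e000c0000000000000000000) (nat_lit 0x0) (nat_lit 0x320000000000000000000) := D_34 (nat_lit 80) (nat_lit 77) (nat_lit 81) (nat_lit 1) (nat_lit 12) (nat_lit 4) (nat_lit 1) (nat_lit 13) (nat_lit 4) (by decide +kernel)
theorem L95955 : W_34 (nat_lit 2) (nat_lit 0x200010001800680010000e00040002000000000000000) (nat_lit 0x0) (nat_lit 0x80004000200000000000) := D_34 (nat_lit 62) (nat_lit 45) (nat_lit 79) (nat_lit 6) (nat_lit 10) (nat_lit 6) (nat_lit 6) (nat_lit 10) (nat_lit 7) (by decide +kernel)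
theorem L95956 : W_34 (nat_lit 3) (nat_lit 0x200010001800680010000e00040000000000000000000) (nat_lit 0x0) (nat_lit 0x20000000080006000200000000000) := T_34 (nat_lit 61) (nat_lit 113) (nat_lit 7) (nat_lit 10) (nat_lit 3) L95955 (by decide +kernel)
theorem L95957 : W_34 (nat_lit 2) (nat_lit 0x20009003d000680010000e00000000000000000000000) (nat_lit 0x0) (nat_lit 0x20001000000000000000020000000000000000000000000000) := D_34 (nat_lit 180) (nat_lit 197) (nat_lit 113) (nat_lit 6) (nat_lit 10) (nat_lit 11) (nat_lit 6) (nat_lit 10) (nat_lit 10) (by decide +kernel)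
theorem L95958 : W_34 (nat_lit 3) (nat_lit 0x20001003d000680010000e00000000000000000000000) (nat_lit 0x0) (nat_lit 0x200010000c0000000000020000000000000000000000000000) := T_34 (nat_lit 163) (nat_lit 162) (nat_lit 1) (nat_lit 13) (nat_lit 8) L95957 (by decide +kernel)
theorem L95959 : W_34 (nat_lit 4) (nat_lit 0x20001001d000680010000e00000000000000000000000) (nat_lit 0x0) (nat_lit 0x200010000c0060000000020000000000000000000000000000) := T_34 (nat_lit 149) (nat_lit 150) (nat_lit 0) (nat_lit 14) (nat_lit 8) L95958 (by decide +kernel)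
theorem L95960 : W_34 (nat_lit 5) (nat_lit 0x20001000d000680010000e00000000000000000000000) (nat_lit 0x0) (nat_lit 0x200010000c0070000100020000000000000000000000000000) := T_34 (nat_lit 148) (nat_lit 128) (nat_lit 3) (nat_lit 8) (nat_lit 7) L95959 (by decide +kernel)
theorem L95961 : W_34 (nat_lit 6) (nat_lit 0x20001000d000280010000e00000000000000000000000) (nat_lit 0x0) (nat_lit 0x200010000c0070000500020000000040000000000000000000) := T_34 (nat_lit 130) (nat_lit 78) (nat_lit 7) (nat_lit 10) (nat_lit 4) L95960 (by decide +kernel)
theorem L95962 : W_34 (nat_lit 7) (nat_lit 0x200010005000280010000e00000000000000000000000) (nat_lit 0x0) (nat_lit 0x200010001c0078000500020000000040000000000000000000) := T_34 (nat_lit 147) (nat_lit 164) (nat_lit 7) (nat_lit 10) (nat_lit 5) L95961 (by decide +kernel)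
theorem L95963 : W_34 (nat_lit 8) (nat_lit 0x200010001000280010000e00000000000000000000000) (nat_lit 0x0) (nat_lit 0x200010001c007c000500020000000060000000000000000000) := T_34 (nat_lit 146) (nat_lit 77) (nat_lit 4) (nat_lit 10) (nat_lit 8) L95962 (by decide +kernel)
theorem L95964 : W_34 (nat_lit 2) (nat_lit 0x20001000d800280010000e00000000000000000000000) (nat_lit 0x0) (nat_lit 0x500000000000040000000000000000000) := D_34 (nat_lit 130) (nat_lit 78) (nat_lit 128) (nat_lit 7) (nat_lit 10) (nat_lit 4) (nat_lit 1) (nat_lit 11) (nat_lit 7) (by decide +kernel)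
theorem L95965 : W_34 (nat_lit 3) (nat_lit 0x200010005800280010000e00000000000000000000000) (nat_lit 0x0) (nat_lit 0x100008000500000000000040000000000000000000) := T_34 (nat_lit 147) (nat_lit 164) (nat_lit 7) (nat_lit 10) (nat_lit 5) L95964 (by decide +kernel)
theorem L95966 : W_34 (nat_lit 4) (nat_lit 0x200010005000280010000e00000000000000000000000) (nat_lit 0x0) (nat_lit 0x4000000100008800500000000000040000000000000000000) := T_34 (nat_lit 143) (nat_lit 194) (nat_lit 6) (nat_lit 7) (nat_lit 11) L95965 (by decide +kernel)
theorem L95967 : W_34 (nat_lit 5) (nat_lit 0x200010001000280010000e00000000000000000000000) (nat_lit 0x0) (nat_lit 0x400000010000c800500000000000060000000000000000000) := T_34 (nat_lit 146) (nat_lit 77) (nat_lit 4) (nat_lit 10) (nat_lit 8) L95966 (by decide +kernel)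
theorem L95968 : W_34 (nat_lit 4) (nat_lit 0x200010001800680010000e00000000000000000000000) (nat_lit 0x0) (nat_lit 0x80000000200000000c0006000200000000000) := T_34 (nat_lit 78) (nat_lit 147) (nat_lit 7) (nat_lit 10) (nat_lit 4) L95956 (by decide +kernel)
theorem L95969 : W_34 (nat_lit 5) (nat_lit 0x200010001800280010000e00000000000000000000000) (nat_lit 0x0) (nat_lit 0x80005000200000000c0006000200000000000) := T_34 (nat_lit 130) (nat_lit 128) (nat_lit 1) (nat_lit 11) (nat_lit 7) L95968 (by decide +kernel)
theorem L95970 : W_34 (nat_lit 6) (nat_lit 0x200010001000280010000e00000000000000000000000) (nat_lit 0x0) (nat_lit 0x40000000000088005000200000000c0006000200000000000) := T_34 (nat_lit 143) (nat_lit 194) (nat_lit 6) (nat_lit 7) (nat_lit 11) L95969 (by decide +kernel)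
theorem L95971 : W_34 (nat_lit 2) (nat_lit 0x4000200010001000280010000e00020000000000000000000) (nat_lit 0x0) (nat_lit 0x40001000080000000000) := D_34 (nat_lit 60) (nat_lit 78) (nat_lit 43) (nat_lit 4) (nat_lit 10) (nat_lit 7) (nat_lit 7) (nat_lit 9) (nat_lit 2) (by decide +kernel)
theorem L95972 : W_34 (nat_lit 3) (nat_lit 0x4000200010001000280010000e00000000000000000000000) (nat_lit 0x0) (nat_lit 0x4000000000000000060001000080000000000) := T_34 (nat_lit 77) (nat_lit 146) (nat_lit 4) (nat_lit 10) (nat_lit 8) L95971 (by decide +kernel)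
theorem L95973 : W_34 (nat_lit 4) (nat_lit 0x200010001000280010000e00000000000000000000000) (nat_lit 0x0) (nat_lit 0x4000000000004800000000000000060001000080000000000) := T_34 (nat_lit 194) (nat_lit 143) (nat_lit 6) (nat_lit 7) (nat_lit 11) L95972 (by decide +kernel)
theorem L95974 : W_34 (nat_lit 2) (nat_lit 0x1200190005800680010000e00000000000000000000000) (nat_lit 0x0) (nat_lit 0x10000800040000000000000000000000000000000000000000) := D_34 (nat_lit 179) (nat_lit 196) (nat_lit 162) (nat_lit 5) (nat_lit 10) (nat_lit 7) (nat_lit 5) (nat_lit 10) (nat_lit 6) (by decide +kernel)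
theorem L95975 : W_34 (nat_lit 3) (nat_lit 0x200190005800680010000e00000000000000000000000) (nat_lit 0x0) (nat_lit 0x10001800040000000000020000000000000000000000000000) := T_34 (nat_lit 180) (nat_lit 113) (nat_lit 6) (nat_lit 10) (nat_lit 10) L95974 (by decide +kernel)
theorem L95976 : W_34 (nat_lit 4) (nat_lit 0x200110005800680010000e00000000000000000000000) (nat_lit 0x0) (nat_lit 0x100038000c0000000000020000000000000000000000000000) := T_34 (nat_lit 163) (nat_lit 181) (nat_lit 7) (nat_lit 10) (nat_lit 6) L95975 (by decide +kernel)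
theorem L95977 : W_34 (nat_lit 5) (nat_lit 0x200110005800280010000e00000000000000000000000) (nat_lit 0x0) (nat_lit 0x100038000c0000000500020000000000000000000000000000) := T_34 (nat_lit 130) (nat_lit 128) (nat_lit 1) (nat_lit 11) (nat_lit 7) L95976 (by decide +kernel)
theorem L95978 : W_34 (nat_lit 6) (nat_lit 0x200010005800280010000e00000000000000000000000) (nat_lit 0x0) (nat_lit 0x100038001c0008000500020000000000000000000000000000) := T_34 (nat_lit 164) (nat_lit 147) (nat_lit 7) (nat_lit 10) (nat_lit 5) L95977 (by decide +kernel)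
theorem L95979 : W_34 (nat_lit 7) (nat_lit 0x200010005000280010000e00000000000000000000000) (nat_lit 0x0) (nat_lit 0x140038001c0008800500020000000000000000000000000000) := T_34 (nat_lit 143) (nat_lit 194) (nat_lit 6) (nat_lit 7) (nat_lit 11) L95978 (by decide +kernel)
theorem L95980 : W_34 (nat_lit 8) (nat_lit 0x200010001000280010000e00000000000000000000000) (nat_lit 0x0) (nat_lit 0x140038001c000c800500020000000020000000000000000000) := T_34 (nat_lit 146) (nat_lit 77) (nat_lit 4) (nat_lit 10) (nat_lit 8) L95979 (by decide +kernel)
theorem L95981 : W_34 (nat_lit 9) (nat_lit 0x200010001000080010000e00000000000000000000000) (nat_lit 0x0) (nat_lit 0x340038001c007c8007000200000000e0007000280000000000) := Q_34 (nat_lit 129) (C_34 L95963 (C_34 L95967 (C_34 L95970 (C_34 L95973 (C_34 L95980 N_34))))) (by decide +kernel)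
theorem L95982 : W_34 (nat_lit 11) (nat_lit 0x4000200010001000080010000e00000000000000000000000) (nat_lit 0x0) (nat_lit 0x500038001c000000000000800040002002380018000c000400020000000000) := T_34 (nat_lit 92) (nat_lit 113) (nat_lit 3) (nat_lit 7) (nat_lit 5) L95861 (by decide +kernel)
theorem L95983 : W_34 (nat_lit 12) (nat_lit 0x200010001000080010000e00000000000000000000000) (nat_lit 0x0) (nat_lit 0x500038001c0004000000008000c0002002380018000c000400020000000000) := T_34 (nat_lit 194) (nat_lit 143) (nat_lit 6) (nat_lit 7) (nat_lit 11) L95982 (by decide +kernel)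
theorem L95984 : W_34 (nat_lit 5) (nat_lit 0x200010001000080010000f00040000000000000000000) (nat_lit 0x0) (nat_lit 0x1c000c0027000000000000000000) := T_34 (nat_lit 91) (nat_lit 77) (nat_lit 2) (nat_lit 6) (nat_lit 5) L95770 (by decide +kernel)
theorem L95985 : W_34 (nat_lit 6) (nat_lit 0x200010001000080010000f00000000000000000000000) (nat_lit 0x0) (nat_lit 0x1c000c00e7000000000000000000) := T_34 (nat_lit 78) (nat_lit 79) (nat_lit 2) (nat_lit 7) (nat_lit 5) L95984 (by decide +kernel)
theorem L95986 : W_34 (nat_lit 7) (nat_lit 0x200010001000080010000e00000000000000000000000) (nat_lit 0x0) (nat_lit 0x21c001c00e7000000000000000000) := T_34 (nat_lit 92) (nat_lit 113) (nat_lit 3) (nat_lit 7) (nat_lit 5) L95985 (by decide +kernel)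
theorem L95987 : W_34 (nat_lit 2) (nat_lit 0x4000200010001000080010000f80040000000000000000000) (nat_lit 0x0) (nat_lit 0xe000000000000000000) := D_34 (nat_lit 74) (nat_lit 73) (nat_lit 75) (nat_lit 0) (nat_lit 9) (nat_lit 5) (nat_lit 0) (nat_lit 10) (nat_lit 5) (by decide +kernel)
theorem L95988 : W_34 (nat_lit 3) (nat_lit 0x4000200010001000080010000f00040000000000000000000) (nat_lit 0x0) (nat_lit 0x8002e000000000000000000) := T_34 (nat_lit 91) (nat_lit 77) (nat_lit 2) (nat_lit 6) (nat_lit 5) L95987 (by decide +kernel)
theorem L95989 : W_34 (nat_lit 4) (nat_lit 0x4000200010001000080010000e00040000000000000000000) (nat_lit 0x0) (nat_lit 0x1800ae000000000000000000) := T_34 (nat_lit 92) (nat_lit 79) (nat_lit 2) (nat_lit 7) (nat_lit 5) L95988 (by decide +kernel)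
theorem L95990 : W_34 (nat_lit 5) (nat_lit 0x200010001000080010000e00040000000000000000000) (nat_lit 0x0) (nat_lit 0x40000000000008000000000001800ae000000000000000000) := T_34 (nat_lit 194) (nat_lit 143) (nat_lit 6) (nat_lit 7) (nat_lit 11) L95989 (by decide +kernel)
theorem L95991 : W_34 (nat_lit 3) (nat_lit 0x200010001000080010000e00040000000000000000000) (nat_lit 0x0) (nat_lit 0x1003a0000000000000000000) := T_34 (nat_lit 79) (nat_lit 92) (nat_lit 2) (nat_lit 7) (nat_lit 5) L95954 (by decide +kernel)
theorem L95992 : W_34 (nat_lit 2) (nat_lit 0x200010001000280010000e00040000000000000000000) (nat_lit 0x0) (nat_lit 0x4000000000000000020001000000000000000) := D_34 (nat_lit 77) (nat_lit 60) (nat_lit 146) (nat_lit 4) (nat_lit 10) (nat_lit 7) (nat_lit 4) (nat_lit 10) (nat_lit 8) (by decide +kernel)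
theorem L95993 : W_34 (nat_lit 2) (nat_lit 0x200010001000680010000e00040000000000000000000) (nat_lit 0x0) (nat_lit 0x4000000000000800100000000000000000000000000000000) := D_34 (nat_lit 143) (nat_lit 128) (nat_lit 194) (nat_lit 1) (nat_lit 11) (nat_lit 7) (nat_lit 6) (nat_lit 7) (nat_lit 11) (by decide +kernel)
theorem L95994 : W_34 (nat_lit 3) (nat_lit 0x200010001000280010000e00040000000000000000000) (nat_lit 0x0) (nat_lit 0x4000000000008800500000000000000000000000000000000) := T_34 (nat_lit 130) (nat_lit 147) (nat_lit 7) (nat_lit 10) (nat_lit 4) L95993 (by decide +kernel)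
theorem L95995 : W_34 (nat_lit 4) (nat_lit 0x200010001000080010000e00040000000000000000000) (nat_lit 0x0) (nat_lit 0x400000000000c800700000000000020001000000000000000) := Q_34 (nat_lit 129) (C_34 L95992 (C_34 L95994 N_34)) (by decide +kernel)
theorem L95996 : W_34 (nat_lit 2) (nat_lit 0x2800080004000200010001400080011000f80048000000020000000000) (nat_lit 0x0) (nat_lit 0x50001000000000000000000000000000000000000000000000000000000000) := D_34 (nat_lit 228) (nat_lit 244) (nat_lit 246) (nat_lit 5) (nat_lit 7) (nat_lit 10) (nat_lit 7) (nat_lit 7) (nat_lit 10) (by decide +kernel)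
theorem L95997 : W_34 (nat_lit 3) (nat_lit 0x800080004000200010001400080011000f80048000000020000000000) (nat_lit 0x0) (nat_lit 0x50003000100000000000000000000000000000000000000000000000000000) := T_34 (nat_lit 229) (nat_lit 212) (nat_lit 7) (nat_lit 7) (nat_lit 9) L95996 (by decide +kernel)
theorem L95998 : W_34 (nat_lit 4) (nat_lit 0x80004000200010001400080011000f80048000000020000000000) (nat_lit 0x0) (nat_lit 0x50003800140000000000000000000000000000000000000000000000000000) := T_34 (nat_lit 227) (nat_lit 210) (nat_lit 5) (nat_lit 7) (nat_lit 9) L95997 (by decide +kernel)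
theorem L95999 : W_34 (nat_lit 5) (nat_lit 0x4000200010001400080011000f80048000000020000000000) (nat_lit 0x0) (nat_lit 0x500038001c0000000000008000000000000000000000000000000000000000) := T_34 (nat_lit 211) (nat_lit 159) (nat_lit 4) (nat_lit 7) (nat_lit 12) L95998 (by decide +kernel)
theorem L96000 : W_34 (nat_lit 6) (nat_lit 0x4000200010001000080011000f80048000000020000000000) (nat_lit 0x0) (nat_lit 0x500038001c0000000000008000400020000000000000000000000000000000) := T_34 (nat_lit 142) (nat_lit 125) (nat_lit 6) (nat_lit 6) (nat_lit 8) L95999 (by decide +kernel)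
theorem L96001 : W_34 (nat_lit 7) (nat_lit 0x4000200010001000080011000f80048000000000000000000) (nat_lit 0x0) (nat_lit 0x500038001c0000000000008000400020000000000000000400020000000000) := T_34 (nat_lit 41) (nat_lit 58) (nat_lit 5) (nat_lit 7) (nat_lit 2) L96000 (by decide +kernel)
theorem L96002 : W_34 (nat_lit 8) (nat_lit 0x4000200010001000080011000f00048000000000000000000) (nat_lit 0x0) (nat_lit 0x500038001c0000000000008000400020000800080000000400020000000000) := T_34 (nat_lit 91) (nat_lit 107) (nat_lit 1) (nat_lit 9) (nat_lit 5) L96001 (by decide +kernel)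
theorem L96003 : W_34 (nat_lit 9) (nat_lit 0x4000200010001000080011000f00040000000000000000000) (nat_lit 0x0) (nat_lit 0x500038001c000000000000800040002000080008000c000400020000000000) := T_34 (nat_lit 75) (nat_lit 74) (nat_lit 0) (nat_lit 10) (nat_lit 5) L96002 (by decide +kernel)
theorem L96004 : W_34 (nat_lit 10) (nat_lit 0x4000200010001000080010000f00040000000000000000000) (nat_lit 0x0) (nat_lit 0x500038001c000000000000800040002000380008000c000400020000000000) := T_34 (nat_lit 108) (nat_lit 109) (nat_lit 1) (nat_lit 10) (nat_lit 5) L96003 (by decide +kernel)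
theorem L96005 : W_34 (nat_lit 11) (nat_lit 0x4000200010001000080010000e00040000000000000000000) (nat_lit 0x0) (nat_lit 0x500038001c000000000000800040002000380018008c000400020000000000) := T_34 (nat_lit 92) (nat_lit 79) (nat_lit 2) (nat_lit 7) (nat_lit 5) L96004 (by decide +kernel)
theorem L96006 : W_34 (nat_lit 12) (nat_lit 0x200010001000080010000e00040000000000000000000) (nat_lit 0x0) (nat_lit 0x500038001c0004000000008000c0002000380018008c000400020000000000) := T_34 (nat_lit 194) (nat_lit 143) (nat_lit 6) (nat_lit 7) (nat_lit 11) L96005 (by decide +kernel)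
theorem L96007 : W_34 (nat_lit 13) (nat_lit 0x200010001000080010000e00000000000000000000000) (nat_lit 0x0) (nat_lit 0x500038001c000400000000800cc007200038001803ee001400020000000000) := Q_34 (nat_lit 78) (C_34 L95990 (C_34 L95991 (C_34 L95995 (C_34 L96006 N_34)))) (by decide +kernel)
theorem L96008 : W_34 (nat_lit 14) (nat_lit 0x200010001000080000000e00000000000000000000000) (nat_lit 0x0) (nat_lit 0x500038001c00340038001c807cc00720033c001c03ef0074002a0000000000) := Q_34 (nat_lit 112) (C_34 L95981 (C_34 L95983 (C_34 L95986 (C_34 L96007 N_34)))) (by decide +kernel)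
theorem L96009 : W_34 (nat_lit 15) (nat_lit 0x200010001000080000000600000000000000000000000) (nat_lit 0x0) (nat_lit 0x500038001c00340078003c807cc007201f3c0f9c0fff0074002a0000000000) := Q_34 (nat_lit 95) (C_34 L95803 (C_34 L95851 (C_34 L95852 (C_34 L95864 (C_34 L95888 (C_34 L95922 (C_34 L95923 (C_34 L95933 (C_34 L95941 (C_34 L96008 N_34)))))))))) (by decide +kernel)
theorem L96010 : W_34 (nat_lit 2) (nat_lit 0x4000200010001000080000003f00068000000000000000000) (nat_lit 0x0) (nat_lit 0xe0000000000000000000000000000) := D_34 (nat_lit 114) (nat_lit 113) (nat_lit 115) (nat_lit 3) (nat_lit 8) (nat_lit 5) (nat_lit 3) (nat_lit 9) (nat_lit 5) (by decide +kernel)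
theorem L96011 : W_34 (nat_lit 3) (nat_lit 0x4000200010001000080000001f00068000000000000000000) (nat_lit 0x0) (nat_lit 0xe0006000000000000000000000000) := T_34 (nat_lit 97) (nat_lit 98) (nat_lit 0) (nat_lit 13) (nat_lit 5) L96010 (by decide +kernel)
theorem L96012 : W_34 (nat_lit 4) (nat_lit 0x4000200010001000080000000f00068000000000000000000) (nat_lit 0x0) (nat_lit 0xe0007000010000000000000000000) := T_34 (nat_lit 96) (nat_lit 76) (nat_lit 3) (nat_lit 7) (nat_lit 4) L96011 (by decide +kernel)
theorem L96013 : W_34 (nat_lit 5) (nat_lit 0x4000200010001000080000000f00060000000000000000000) (nat_lit 0x0) (nat_lit 0xe000700001c000000000000000000) := T_34 (nat_lit 75) (nat_lit 74) (nat_lit 0) (nat_lit 10) (nat_lit 5) L96012 (by decide +kernel)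
theorem L96014 : W_34 (nat_lit 6) (nat_lit 0x4000200010001000080000000e00060000000000000000000) (nat_lit 0x0) (nat_lit 0xe000718001c000000000000000000) := T_34 (nat_lit 92) (nat_lit 91) (nat_lit 2) (nat_lit 6) (nat_lit 5) L96013 (by decide +kernel)
theorem L96015 : W_34 (nat_lit 7) (nat_lit 0x200010001000080000000e00060000000000000000000) (nat_lit 0x0) (nat_lit 0x40000000000008000000e000718001c000000000000000000) := T_34 (nat_lit 194) (nat_lit 143) (nat_lit 6) (nat_lit 7) (nat_lit 11) L96014 (by decide +kernel)
theorem L96016 : W_34 (nat_lit 4) (nat_lit 0x200010001000080000000f00060000000000000000000) (nat_lit 0x0) (nat_lit 0x4000000000004800200030000000000001000000000000000) := T_34 (nat_lit 194) (nat_lit 143) (nat_lit 6) (nat_lit 7) (nat_lit 11) L95825 (by decide +kernel)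
theorem L96017 : W_34 (nat_lit 5) (nat_lit 0x200010001000080000000e00060000000000000000000) (nat_lit 0x0) (nat_lit 0x4000000000004800200030000180000001000000000000000) := T_34 (nat_lit 92) (nat_lit 91) (nat_lit 2) (nat_lit 6) (nat_lit 5) L96016 (by decide +kernel)
theorem L96018 : W_34 (nat_lit 9) (nat_lit 0x4000200010001000080000000f00068000000000000000000) (nat_lit 0x0) (nat_lit 0x10000100076001f000f800000) := T_34 (nat_lit 76) (nat_lit 96) (nat_lit 3) (nat_lit 7) (nat_lit 4) L95948 (by decide +kernel)
theorem L96019 : W_34 (nat_lit 10) (nat_lit 0x4000200010001000080000000f00060000000000000000000) (nat_lit 0x0) (nat_lit 0x100001c0076001f000f800000) := T_34 (nat_lit 75) (nat_lit 74) (nat_lit 0) (nat_lit 10) (nat_lit 5) L96018 (by decide +kernel)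
theorem L96020 : W_34 (nat_lit 11) (nat_lit 0x200010001000080000000f00060000000000000000000) (nat_lit 0x0) (nat_lit 0x400000000000080000000000100001c0076001f000f800000) := T_34 (nat_lit 194) (nat_lit 143) (nat_lit 6) (nat_lit 7) (nat_lit 11) L96019 (by decide +kernel)
theorem L96021 : W_34 (nat_lit 12) (nat_lit 0x200010001000080000000e00060000000000000000000) (nat_lit 0x0) (nat_lit 0x400000000000080000000000118001c0076001f000f800000) := T_34 (nat_lit 92) (nat_lit 91) (nat_lit 2) (nat_lit 6) (nat_lit 5) L96020 (by decide +kernel)
theorem L96022 : W_34 (nat_lit 13) (nat_lit 0x200010001000080000000600060000000000000000000) (nat_lit 0x0) (nat_lit 0x400000000000c8006000f000798001c0076001f000f800000) := Q_34 (nat_lit 95) (C_34 L94810 (C_34 L96015 (C_34 L96017 (C_34 L96021 N_34)))) (by decide +kernel)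
theorem L96023 : W_34 (nat_lit 14) (nat_lit 0x200010001000080000000600020000000000000000000) (nat_lit 0x0) (nat_lit 0x400000000000c8006000f00079803dc00fe007f801f800000) := Q_34 (nat_lit 78) (C_34 L94855 (C_34 L94710 (C_34 L94708 (C_34 L96022 N_34)))) (by decide +kernel)
theorem L96024 : W_34 (nat_lit 2) (nat_lit 0x4000200010001000080000001f000680010001c0000000000) (nat_lit 0x0) (nat_lit 0x60000000000002000000000000000) := D_34 (nat_lit 113) (nat_lit 61) (nat_lit 114) (nat_lit 7) (nat_lit 10) (nat_lit 2) (nat_lit 3) (nat_lit 8) (nat_lit 5) (by decide +kernel)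
theorem L96025 : W_34 (nat_lit 3) (nat_lit 0x4000200010001000080000000f000680010001c0000000000) (nat_lit 0x0) (nat_lit 0x60001000010002000000000000000) := T_34 (nat_lit 96) (nat_lit 76) (nat_lit 3) (nat_lit 7) (nat_lit 4) L96024 (by decide +kernel)
theorem L96026 : W_34 (nat_lit 4) (nat_lit 0x4000200010001000080000000f000600010001c0000000000) (nat_lit 0x0) (nat_lit 0x6000100001c002000000000000000) := T_34 (nat_lit 75) (nat_lit 74) (nat_lit 0) (nat_lit 10) (nat_lit 5) L96025 (by decide +kernel)
theorem L96027 : W_34 (nat_lit 5) (nat_lit 0x4000200010001000080000000e000600010001c0000000000) (nat_lit 0x0) (nat_lit 0x6000118001c002000000000000000) := T_34 (nat_lit 92) (nat_lit 91) (nat_lit 2) (nat_lit 6) (nat_lit 5) L96026 (by decide +kernel)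
theorem L96028 : W_34 (nat_lit 6) (nat_lit 0x4000200010001000080000000e00060001000180000000000) (nat_lit 0x0) (nat_lit 0x6000118001c002000040002000000) := T_34 (nat_lit 42) (nat_lit 25) (nat_lit 4) (nat_lit 9) (nat_lit 5) L96027 (by decide +kernel)
theorem L96029 : W_34 (nat_lit 7) (nat_lit 0x4000200010001000080000000600060001000180000000000) (nat_lit 0x0) (nat_lit 0x7000198001c002000040002000000) := T_34 (nat_lit 95) (nat_lit 112) (nat_lit 7) (nat_lit 9) (nat_lit 2) L96028 (by decide +kernel)
theorem L96030 : W_34 (nat_lit 8) (nat_lit 0x4000200010001000080000000600060001000080000000000) (nat_lit 0x0) (nat_lit 0x7000198001c00200014000a000000) := T_34 (nat_lit 44) (nat_lit 27) (nat_lit 6) (nat_lit 9) (nat_lit 5) L96029 (by decide +kernel)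
theorem L96031 : W_34 (nat_lit 9) (nat_lit 0x200010001000080000000600060001000080000000000) (nat_lit 0x0) (nat_lit 0x400000000000080000007000198001c00200014000a000000) := T_34 (nat_lit 194) (nat_lit 143) (nat_lit 6) (nat_lit 7) (nat_lit 11) L96030 (by decide +kernel)
theorem L96032 : W_34 (nat_lit 10) (nat_lit 0x200010001000080000000600060001000000000000000) (nat_lit 0x0) (nat_lit 0x400000000000080000007000198001c0060001f000e000200) := Q_34 (nat_lit 43) (C_34 L95212 (C_34 L94890 (C_34 L96031 N_34))) (by decide +kernel)
theorem L96033 : W_34 (nat_lit 11) (nat_lit 0x200010001000080000000600060000000000000000000) (nat_lit 0x0) (nat_lit 0x400000000000080010007800198001c007e001f000f000200) := Q_34 (nat_lit 60) (C_34 L94888 (C_34 L94931 (C_34 L96032 (C_34 L94922 (C_34 L94927 N_34))))) (by decide +kernel)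
theorem L96034 : W_34 (nat_lit 12) (nat_lit 0x200010001000080000000600020000000000000000000) (nat_lit 0x0) (nat_lit 0x4000000000000800d000780039801de00fe001f000f000200) := Q_34 (nat_lit 78) (C_34 L95341 (C_34 L94710 (C_34 L95043 (C_34 L96033 N_34)))) (by decide +kernel)
theorem L96035 : W_34 (nat_lit 2) (nat_lit 0x40002000100010000800080006800600030000c0000000000) (nat_lit 0x0) (nat_lit 0x800000000000000004000200) := D_34 (nat_lit 26) (nat_lit 9) (nat_lit 95) (nat_lit 7) (nat_lit 9) (nat_lit 0) (nat_lit 7) (nat_lit 9) (nat_lit 1) (by decide +kernel)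
theorem L96036 : W_34 (nat_lit 3) (nat_lit 0x4000200010001000080008000680060003000040000000000) (nat_lit 0x0) (nat_lit 0x800000000000080006000200) := T_34 (nat_lit 43) (nat_lit 25) (nat_lit 4) (nat_lit 9) (nat_lit 5) L96035 (by decide +kernel)
theorem L96037 : W_34 (nat_lit 4) (nat_lit 0x4000200010001000080008000600060003000040000000000) (nat_lit 0x0) (nat_lit 0x980000000000080006000200) := T_34 (nat_lit 91) (nat_lit 92) (nat_lit 2) (nat_lit 6) (nat_lit 5) L96036 (by decide +kernel)
theorem L96038 : W_34 (nat_lit 5) (nat_lit 0x4000200010001000080008000600060003000000000000000) (nat_lit 0x0) (nat_lit 0x9800000008000c0006000200) := T_34 (nat_lit 42) (nat_lit 59) (nat_lit 4) (nat_lit 9) (nat_lit 6) L96037 (by decide +kernel)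
theorem L96039 : W_34 (nat_lit 6) (nat_lit 0x4000200010001000080008000600060001000000000000000) (nat_lit 0x0) (nat_lit 0x9800000028001c0006000200) := T_34 (nat_lit 61) (nat_lit 44) (nat_lit 6) (nat_lit 9) (nat_lit 6) L96038 (by decide +kernel)
theorem L96040 : W_34 (nat_lit 7) (nat_lit 0x200010001000080008000600060001000000000000000) (nat_lit 0x0) (nat_lit 0x40000000000008000000000009800000028001c0006000200) := T_34 (nat_lit 194) (nat_lit 143) (nat_lit 6) (nat_lit 7) (nat_lit 11) L96039 (by decide +kernel)
theorem L96041 : W_34 (nat_lit 5) (nat_lit 0x200010001000080008000600060001000000000000000) (nat_lit 0x0) (nat_lit 0x98001000200018000c000000) := T_34 (nat_lit 91) (nat_lit 92) (nat_lit 2) (nat_lit 6) (nat_lit 5) L94925 (by decide +kernel)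
theorem L96042 : W_34 (nat_lit 8) (nat_lit 0x200010001000080008000600060000000000000000000) (nat_lit 0x0) (nat_lit 0x400000000000080000000000098001c007e001f000f000200) := Q_34 (nat_lit 60) (C_34 L94930 (C_34 L96040 (C_34 L94921 (C_34 L96041 N_34)))) (by decide +kernel)
theorem L96043 : W_34 (nat_lit 9) (nat_lit 0x200010001000080000000600060000000000000000000) (nat_lit 0x0) (nat_lit 0x400000000000080010000800098001c007e001f000f000200) := T_34 (nat_lit 111) (nat_lit 128) (nat_lit 5) (nat_lit 9) (nat_lit 4) L96042 (by decide +kernel)
theorem L96044 : W_34 (nat_lit 11) (nat_lit 0x200010001000080000000600020000000000000000000) (nat_lit 0x0) (nat_lit 0x40000000000008001000080039801dc00fe001f000f000200) := Q_34 (nat_lit 78) (C_34 L95043 (C_34 L94710 (C_34 L96043 N_34))) (by decide +kernel)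
theorem L96045 : W_34 (nat_lit 2) (nat_lit 0x400020001000100008000100078002c000000000000000000) (nat_lit 0x0) (nat_lit 0x20000000000000000400020000000000) := D_34 (nat_lit 58) (nat_lit 41) (nat_lit 125) (nat_lit 5) (nat_lit 7) (nat_lit 2) (nat_lit 6) (nat_lit 6) (nat_lit 7) (by decide +kernel)
theorem L96046 : W_34 (nat_lit 3) (nat_lit 0x4000200010001000080001000780024000000000000000000) (nat_lit 0x0) (nat_lit 0x20000000800008000400020000000000) := T_34 (nat_lit 75) (nat_lit 95) (nat_lit 0) (nat_lit 10) (nat_lit 5) L96045 (by decide +kernel)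
theorem L96047 : W_34 (nat_lit 4) (nat_lit 0x200010001000080001000780024000000000000000000) (nat_lit 0x0) (nat_lit 0x4000000000000800020000000800008000400020000000000) := T_34 (nat_lit 194) (nat_lit 143) (nat_lit 6) (nat_lit 7) (nat_lit 11) L96046 (by decide +kernel)
theorem L96048 : W_34 (nat_lit 5) (nat_lit 0x200010001000080001000780020000000000000000000) (nat_lit 0x0) (nat_lit 0x400000000000080002000000080000e000400020000000000) := T_34 (nat_lit 74) (nat_lit 73) (nat_lit 0) (nat_lit 9) (nat_lit 5) L96047 (by decide +kernel)
theorem L96049 : W_34 (nat_lit 6) (nat_lit 0x200010001000080000000780020000000000000000000) (nat_lit 0x0) (nat_lit 0x400000000000080002000180080000e000400020000000000) := T_34 (nat_lit 108) (nat_lit 107) (nat_lit 1) (nat_lit 9) (nat_lit 5) L96048 (by decide +kernel)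
theorem L96050 : W_34 (nat_lit 7) (nat_lit 0x200010001000080000000700020000000000000000000) (nat_lit 0x0) (nat_lit 0x400000000000080002000180088004e000400020000000000) := T_34 (nat_lit 91) (nat_lit 78) (nat_lit 2) (nat_lit 6) (nat_lit 5) L96049 (by decide +kernel)
theorem L96051 : W_34 (nat_lit 2) (nat_lit 0x400020001000100008000900078002c000000000000000000) (nat_lit 0x0) (nat_lit 0x20000000000000000400020000000000) := D_34 (nat_lit 58) (nat_lit 41) (nat_lit 125) (nat_lit 5) (nat_lit 7) (nat_lit 2) (nat_lit 6) (nat_lit 6) (nat_lit 7) (by decide +kernel)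
theorem L96052 : W_34 (nat_lit 3) (nat_lit 0x4000200010001000080009000780024000000000000000000) (nat_lit 0x0) (nat_lit 0x20000000800008000400020000000000) := T_34 (nat_lit 75) (nat_lit 95) (nat_lit 0) (nat_lit 10) (nat_lit 5) L96051 (by decide +kernel)
theorem L96053 : W_34 (nat_lit 4) (nat_lit 0x4000200010001000080009000780020000000000000000000) (nat_lit 0x0) (nat_lit 0x2000000080000e000400020000000000) := T_34 (nat_lit 74) (nat_lit 73) (nat_lit 0) (nat_lit 9) (nat_lit 5) L96052 (by decide +kernel)
theorem L96054 : W_34 (nat_lit 5) (nat_lit 0x4000200010001000080008000780020000000000000000000) (nat_lit 0x0) (nat_lit 0x2000180080000e000400020000000000) := T_34 (nat_lit 108) (nat_lit 107) (nat_lit 1) (nat_lit 9) (nat_lit 5) L96053 (by decide +kernel)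
theorem L96055 : W_34 (nat_lit 6) (nat_lit 0x4000200010001000080008000700020000000000000000000) (nat_lit 0x0) (nat_lit 0x2001180088000e000400020000000000) := T_34 (nat_lit 91) (nat_lit 112) (nat_lit 3) (nat_lit 6) (nat_lit 5) L96054 (by decide +kernel)
theorem L96056 : W_34 (nat_lit 7) (nat_lit 0x4000200010001000080000000700020000000000000000000) (nat_lit 0x0) (nat_lit 0x12001980088000e000400020000000000) := T_34 (nat_lit 111) (nat_lit 128) (nat_lit 5) (nat_lit 9) (nat_lit 4) L96055 (by decide +kernel)
theorem L96057 : W_34 (nat_lit 8) (nat_lit 0x200010001000080000000700020000000000000000000) (nat_lit 0x0) (nat_lit 0x400000000000080012001980088000e000400020000000000) := T_34 (nat_lit 194) (nat_lit 143) (nat_lit 6) (nat_lit 7) (nat_lit 11) L96056 (by decide +kernel)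
theorem L96058 : W_34 (nat_lit 9) (nat_lit 0x200010001000080000000600020000000000000000000) (nat_lit 0x0) (nat_lit 0x40000000000048003200798009800ce003c001e000a000000) := Q_34 (nat_lit 92) (C_34 L94700 (C_34 L95080 (C_34 L96050 (C_34 L96057 N_34)))) (by decide +kernel)
theorem L96059 : W_34 (nat_lit 2) (nat_lit 0x40002000100010000800380006800f0007800000000000000) (nat_lit 0x0) (nat_lit 0x400000003000000000000000000000000) := D_34 (nat_lit 96) (nat_lit 130) (nat_lit 97) (nat_lit 4) (nat_lit 11) (nat_lit 7) (nat_lit 3) (nat_lit 8) (nat_lit 4) (by decide +kernel)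
theorem L96060 : W_34 (nat_lit 3) (nat_lit 0x40002000100010000800380006800b0007800000000000000) (nat_lit 0x0) (nat_lit 0x400000003000040000400000000000000) := T_34 (nat_lit 78) (nat_lit 58) (nat_lit 3) (nat_lit 7) (nat_lit 3) L96059 (by decide +kernel)
theorem L96061 : W_34 (nat_lit 4) (nat_lit 0x4000200010001000080038000680030007800000000000000) (nat_lit 0x0) (nat_lit 0x4000000030001c0000400000000000000) := T_34 (nat_lit 79) (nat_lit 80) (nat_lit 3) (nat_lit 8) (nat_lit 3) L96060 (by decide +kernel)
theorem L96062 : W_34 (nat_lit 5) (nat_lit 0x4000200010001000080038000680030003800000000000000) (nat_lit 0x0) (nat_lit 0x4000000030001c000c400000000000000) := T_34 (nat_lit 62) (nat_lit 63) (nat_lit 1) (nat_lit 12) (nat_lit 3) L96061 (by decide +kernel)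
theorem L96063 : W_34 (nat_lit 6) (nat_lit 0x4000200010001000080038000680030001800000000000000) (nat_lit 0x0) (nat_lit 0x4000000030001c000e400100000000000) := T_34 (nat_lit 61) (nat_lit 44) (nat_lit 6) (nat_lit 9) (nat_lit 6) L96062 (by decide +kernel)
theorem L96064 : W_34 (nat_lit 7) (nat_lit 0x4000200010001000080038000680030001000000000000000) (nat_lit 0x0) (nat_lit 0x4000000030001c000ec00140000000000) := T_34 (nat_lit 59) (nat_lit 42) (nat_lit 7) (nat_lit 8) (nat_lit 2) L96063 (by decide +kernel)
theorem L96065 : W_34 (nat_lit 8) (nat_lit 0x4000200010001000080018000680030001000000000000000) (nat_lit 0x0) (nat_lit 0x4000600030001c000ec00140000000000) := T_34 (nat_lit 113) (nat_lit 114) (nat_lit 0) (nat_lit 12) (nat_lit 6) L96064 (by decide +kernel)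
theorem L96066 : W_34 (nat_lit 9) (nat_lit 0x4000200010001000080018000600030001000000000000000) (nat_lit 0x0) (nat_lit 0x4000600031801c000ec00140000000000) := T_34 (nat_lit 91) (nat_lit 92) (nat_lit 3) (nat_lit 6) (nat_lit 5) L96065 (by decide +kernel)
theorem L96067 : W_34 (nat_lit 10) (nat_lit 0x4000200010001000080008000600030001000000000000000) (nat_lit 0x0) (nat_lit 0x6000700031801c000ec00140000000000) := T_34 (nat_lit 112) (nat_lit 129) (nat_lit 7) (nat_lit 9) (nat_lit 3) L96066 (by decide +kernel)
theorem L96068 : W_34 (nat_lit 11) (nat_lit 0x4000200010001000080000000600030001000000000000000) (nat_lit 0x0) (nat_lit 0x7000780031801c000ec00140000000000) := T_34 (nat_lit 111) (nat_lit 128) (nat_lit 5) (nat_lit 9) (nat_lit 4) L96067 (by decide +kernel)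
theorem L96069 : W_34 (nat_lit 12) (nat_lit 0x200010001000080000000600030001000000000000000) (nat_lit 0x0) (nat_lit 0x40000000000008007000780031801c000ec00140000000000) := T_34 (nat_lit 194) (nat_lit 143) (nat_lit 6) (nat_lit 7) (nat_lit 11) L96068 (by decide +kernel)
theorem L96070 : W_34 (nat_lit 13) (nat_lit 0x200010001000080000000600030000000000000000000) (nat_lit 0x0) (nat_lit 0x40000000000008007000780031801c000fe007f800f000000) := Q_34 (nat_lit 60) (C_34 L95413 (C_34 L95129 (C_34 L96069 (C_34 L95170 N_34)))) (by decide +kernel)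
theorem L96071 : W_34 (nat_lit 14) (nat_lit 0x200010001000080000000600020000000000000000000) (nat_lit 0x0) (nat_lit 0x40000000000008007000780031c01de00ff007f800f800000) := Q_34 (nat_lit 76) (C_34 L95448 (C_34 L95406 (C_34 L96070 (C_34 L95414 (C_34 L95433 (C_34 L95441 N_34)))))) (by decide +kernel)
theorem L96072 : W_34 (nat_lit 2) (nat_lit 0x400020001000100008000000068003c001600180000000000) (nat_lit 0x0) (nat_lit 0x60002000000) := D_34 (nat_lit 42) (nat_lit 41) (nat_lit 25) (nat_lit 1) (nat_lit 10) (nat_lit 2) (nat_lit 4) (nat_lit 9) (nat_lit 5) (by decide +kernel)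
theorem L96073 : W_34 (nat_lit 3) (nat_lit 0x400020001000100008000000068003c001200180000000000) (nat_lit 0x0) (nat_lit 0xc00060002000000) := T_34 (nat_lit 58) (nat_lit 59) (nat_lit 2) (nat_lit 6) (nat_lit 3) L96072 (by decide +kernel)
theorem L96074 : W_34 (nat_lit 4) (nat_lit 0x400020001000100008000000068003c001200080000000000) (nat_lit 0x0) (nat_lit 0xc0016000a000000) := T_34 (nat_lit 44) (nat_lit 27) (nat_lit 6) (nat_lit 9) (nat_lit 5) L96073 (by decide +kernel)
theorem L96075 : W_34 (nat_lit 5) (nat_lit 0x400020001000100008000000068003c001000080000000000) (nat_lit 0x0) (nat_lit 0xf0016000a000000) := T_34 (nat_lit 57) (nat_lit 56) (nat_lit 0) (nat_lit 9) (nat_lit 4) L96074 (by decide +kernel)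
theorem L96076 : W_34 (nat_lit 6) (nat_lit 0x400020001000100008000000068003c001000000000000000) (nat_lit 0x0) (nat_lit 0xf001e000e000000) := T_34 (nat_lit 43) (nat_lit 26) (nat_lit 5) (nat_lit 9) (nat_lit 1) L96075 (by decide +kernel)
theorem L96077 : W_34 (nat_lit 7) (nat_lit 0x400020001000100008000000060003c001000000000000000) (nat_lit 0x0) (nat_lit 0xc0000000f001e000e000000) := T_34 (nat_lit 91) (nat_lit 90) (nat_lit 1) (nat_lit 9) (nat_lit 4) L96076 (by decide +kernel)
theorem L96078 : W_34 (nat_lit 8) (nat_lit 0x400020001000100008000000060003c000000000000000000) (nat_lit 0x0) (nat_lit 0xc0000003f001e000e000000) := T_34 (nat_lit 60) (nat_lit 61) (nat_lit 2) (nat_lit 6) (nat_lit 4) L96077 (by decide +kernel)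
theorem L96079 : W_34 (nat_lit 9) (nat_lit 0x4000200010001000080000000600038000000000000000000) (nat_lit 0x0) (nat_lit 0xc0006003f001e000e000000) := T_34 (nat_lit 74) (nat_lit 73) (nat_lit 3) (nat_lit 5) (nat_lit 4) L96078 (by decide +kernel)
theorem L96080 : W_34 (nat_lit 10) (nat_lit 0x200010001000080000000600038000000000000000000) (nat_lit 0x0) (nat_lit 0x40000000000008000000000000c0006003f001e000e000000) := T_34 (nat_lit 194) (nat_lit 143) (nat_lit 6) (nat_lit 7) (nat_lit 11) L96079 (by decide +kernel)
theorem L96081 : W_34 (nat_lit 2) (nat_lit 0x4000200010001000080030001e000b0000000000000000000) (nat_lit 0x0) (nat_lit 0x4000200000000000000004000000000000000) := D_34 (nat_lit 129) (nat_lit 146) (nat_lit 62) (nat_lit 6) (nat_lit 10) (nat_lit 8) (nat_lit 5) (nat_lit 11) (nat_lit 3) (by decide +kernel)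
theorem L96082 : W_34 (nat_lit 3) (nat_lit 0x4000200010001000080020001e000b0000000000000000000) (nat_lit 0x0) (nat_lit 0x4000200010000100000004000000000000000) := T_34 (nat_lit 112) (nat_lit 92) (nat_lit 3) (nat_lit 7) (nat_lit 5) L96081 (by decide +kernel)
theorem L96083 : W_34 (nat_lit 4) (nat_lit 0x4000200010001000080000001e000b0000000000000000000) (nat_lit 0x0) (nat_lit 0x4000200070000100000004000000000000000) := T_34 (nat_lit 113) (nat_lit 114) (nat_lit 3) (nat_lit 8) (nat_lit 5) L96082 (by decide +kernel)
theorem L96084 : W_34 (nat_lit 5) (nat_lit 0x4000200010001000080000001e00030000000000000000000) (nat_lit 0x0) (nat_lit 0x4000200070000100180004000000000000000) := T_34 (nat_lit 79) (nat_lit 80) (nat_lit 2) (nat_lit 8) (nat_lit 5) L96083 (by decide +kernel)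
theorem L96085 : W_34 (nat_lit 2) (nat_lit 0x200010001000080000001e00020000000000000000000) (nat_lit 0x0) (nat_lit 0x2000018000000000000000000) := D_34 (nat_lit 76) (nat_lit 75) (nat_lit 97) (nat_lit 0) (nat_lit 11) (nat_lit 5) (nat_lit 0) (nat_lit 12) (nat_lit 5) (by decide +kernel)
theorem L96086 : W_34 (nat_lit 2) (nat_lit 0x4000200010001000080000003e000a0000000000000000000) (nat_lit 0x0) (nat_lit 0xe0000000000000000000000000000) := D_34 (nat_lit 114) (nat_lit 113) (nat_lit 115) (nat_lit 3) (nat_lit 8) (nat_lit 5) (nat_lit 3) (nat_lit 9) (nat_lit 5) (by decide +kernel)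
theorem L96087 : W_34 (nat_lit 3) (nat_lit 0x4000200010001000080000001e000a0000000000000000000) (nat_lit 0x0) (nat_lit 0xe0002000010000000000000000000) := T_34 (nat_lit 97) (nat_lit 76) (nat_lit 0) (nat_lit 12) (nat_lit 5) L96086 (by decide +kernel)
theorem L96088 : W_34 (nat_lit 4) (nat_lit 0x4000200010001000080000001e00020000000000000000000) (nat_lit 0x0) (nat_lit 0xe0002000190000000000000000000) := T_34 (nat_lit 79) (nat_lit 80) (nat_lit 2) (nat_lit 8) (nat_lit 5) L96087 (by decide +kernel)
theorem L96089 : W_34 (nat_lit 5) (nat_lit 0x200010001000080000001e00020000000000000000000) (nat_lit 0x0) (nat_lit 0x40000000000008000000e0002000190000000000000000000) := T_34 (nat_lit 194) (nat_lit 143) (nat_lit 6) (nat_lit 7) (nat_lit 11) L96088 (by decide +kernel)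
theorem L96090 : W_34 (nat_lit 2) (nat_lit 0x200010001800580021003f80124000000000000000000) (nat_lit 0x0) (nat_lit 0x600020000000000000000000000000000000) := D_34 (nat_lit 142) (nat_lit 125) (nat_lit 141) (nat_lit 7) (nat_lit 6) (nat_lit 5) (nat_lit 2) (nat_lit 5) (nat_lit 8) (by decide +kernel)
theorem L96091 : W_34 (nat_lit 3) (nat_lit 0x200010001800480021003f80124000000000000000000) (nat_lit 0x0) (nat_lit 0x600320000000000000000000000000000000) := T_34 (nat_lit 128) (nat_lit 129) (nat_lit 1) (nat_lit 11) (nat_lit 7) L96090 (by decide +kernel)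
theorem L96092 : W_34 (nat_lit 4) (nat_lit 0x200010001000480021003f80124000000000000000000) (nat_lit 0x0) (nat_lit 0x4000000000000e00320000000000000000000000000000000) := T_34 (nat_lit 143) (nat_lit 194) (nat_lit 6) (nat_lit 7) (nat_lit 11) L96091 (by decide +kernel)
theorem L96093 : W_34 (nat_lit 5) (nat_lit 0x200010001000080021003f80124000000000000000000) (nat_lit 0x0) (nat_lit 0x4000000000008e00720000000000000000000000000000000) := T_34 (nat_lit 130) (nat_lit 147) (nat_lit 6) (nat_lit 11) (nat_lit 8) L96092 (by decide +kernel)
theorem L96094 : W_34 (nat_lit 6) (nat_lit 0x200010001000080020003f80124000000000000000000) (nat_lit 0x0) (nat_lit 0x4000000000008e00720001800000000000000000000000000) := T_34 (nat_lit 108) (nat_lit 107) (nat_lit 1) (nat_lit 9) (nat_lit 5) L96093 (by decide +kernel)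
theorem L96095 : W_34 (nat_lit 7) (nat_lit 0x200010001000080020001f80124000000000000000000) (nat_lit 0x0) (nat_lit 0x4000000000008e00720001802000200000000000000000000) := T_34 (nat_lit 97) (nat_lit 81) (nat_lit 2) (nat_lit 9) (nat_lit 5) L96094 (by decide +kernel)
theorem L96096 : W_34 (nat_lit 8) (nat_lit 0x200010001000080020001f00124000000000000000000) (nat_lit 0x0) (nat_lit 0x4000000000008e00720001802080202000000000000000000) := T_34 (nat_lit 91) (nat_lit 73) (nat_lit 0) (nat_lit 9) (nat_lit 5) L96095 (by decide +kernel)
theorem L96097 : W_34 (nat_lit 9) (nat_lit 0x200010001000080020001f00024000000000000000000) (nat_lit 0x0) (nat_lit 0x4000000000008e00720001802080382000000000000000000) := T_34 (nat_lit 80) (nat_lit 79) (nat_lit 2) (nat_lit 8) (nat_lit 5) L96096 (by decide +kernel)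
theorem L96098 : W_34 (nat_lit 10) (nat_lit 0x200010001000080020001f00020000000000000000000) (nat_lit 0x0) (nat_lit 0x4000000000008e0072000180208038e000000000000000000) := T_34 (nat_lit 74) (nat_lit 75) (nat_lit 0) (nat_lit 10) (nat_lit 5) L96097 (by decide +kernel)
theorem L96099 : W_34 (nat_lit 11) (nat_lit 0x200010001000080020001e00020000000000000000000) (nat_lit 0x0) (nat_lit 0x4000000000008e0072001180218038e000000000000000000) := T_34 (nat_lit 92) (nat_lit 112) (nat_lit 3) (nat_lit 7) (nat_lit 5) L96098 (by decide +kernel)
theorem L96100 : W_34 (nat_lit 12) (nat_lit 0x200010001000080000001e00020000000000000000000) (nat_lit 0x0) (nat_lit 0x4000000000008e0072007180218038e000000000000000000) := T_34 (nat_lit 113) (nat_lit 114) (nat_lit 3) (nat_lit 8) (nat_lit 5) L96099 (by decide +kernel)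
theorem L96101 : W_34 (nat_lit 6) (nat_lit 0x4000200010001000080000001e00020000000000000000000) (nat_lit 0x0) (nat_lit 0x4000200070000100198004000000000000000) := T_34 (nat_lit 76) (nat_lit 75) (nat_lit 0) (nat_lit 11) (nat_lit 5) L96084 (by decide +kernel)
theorem L96102 : W_34 (nat_lit 7) (nat_lit 0x200010001000080000001e00020000000000000000000) (nat_lit 0x0) (nat_lit 0x4000000000004800200070000100198004000000000000000) := T_34 (nat_lit 194) (nat_lit 143) (nat_lit 6) (nat_lit 7) (nat_lit 11) L96101 (by decide +kernel)
theorem L96103 : W_34 (nat_lit 13) (nat_lit 0x200010001000080000000e00020000000000000000000) (nat_lit 0x0) (nat_lit 0x400000000000ce007200f180318039e004000000000000000) := Q_34 (nat_lit 96) (C_34 L96085 (C_34 L96089 (C_34 L96100 (C_34 L96102 N_34)))) (by decide +kernel)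
theorem L96104 : W_34 (nat_lit 2) (nat_lit 0x200010001a00380010800f80024000000080000000000) (nat_lit 0x0) (nat_lit 0x10000400040000000000000000000000) := D_34 (nat_lit 90) (nat_lit 106) (nat_lit 124) (nat_lit 1) (nat_lit 8) (nat_lit 5) (nat_lit 6) (nat_lit 5) (nat_lit 8) (by decide +kernel)
theorem L96105 : W_34 (nat_lit 3) (nat_lit 0x200010001a00380010000f80024000000080000000000) (nat_lit 0x0) (nat_lit 0x10001c00040000000000000000000000) := T_34 (nat_lit 107) (nat_lit 108) (nat_lit 1) (nat_lit 9) (nat_lit 5) L96104 (by decide +kernel)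
theorem L96106 : W_34 (nat_lit 4) (nat_lit 0x200010001a00380010000f00024000000080000000000) (nat_lit 0x0) (nat_lit 0x10001c000c0002000000000000000000) := T_34 (nat_lit 91) (nat_lit 73) (nat_lit 0) (nat_lit 9) (nat_lit 5) L96105 (by decide +kernel)
theorem L96107 : W_34 (nat_lit 5) (nat_lit 0x200010001a00380010000f00024000000000000000000) (nat_lit 0x0) (nat_lit 0x10001c000c0002001000080000000000) := T_34 (nat_lit 43) (nat_lit 60) (nat_lit 7) (nat_lit 9) (nat_lit 2) L96106 (by decide +kernel)
theorem L96108 : W_34 (nat_lit 6) (nat_lit 0x200010001a00380010000f00020000000000000000000) (nat_lit 0x0) (nat_lit 0x10001c000c000e001000080000000000) := T_34 (nat_lit 74) (nat_lit 75) (nat_lit 0) (nat_lit 10) (nat_lit 5) L96107 (by decide +kernel)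
theorem L96109 : W_34 (nat_lit 7) (nat_lit 0x200010001a00380010000e00020000000000000000000) (nat_lit 0x0) (nat_lit 0x10021c001c000e001000080000000000) := T_34 (nat_lit 92) (nat_lit 113) (nat_lit 3) (nat_lit 7) (nat_lit 5) L96108 (by decide +kernel)
theorem L96110 : W_34 (nat_lit 8) (nat_lit 0x200010001a00380000000e00020000000000000000000) (nat_lit 0x0) (nat_lit 0x4000010031c001c000e001000080000000000) := T_34 (nat_lit 112) (nat_lit 146) (nat_lit 4) (nat_lit 10) (nat_lit 8) L96109 (by decide +kernel)
theorem L96111 : W_34 (nat_lit 9) (nat_lit 0x200010001a00180000000e00020000000000000000000) (nat_lit 0x0) (nat_lit 0x4000610031c001c000e001000080000000000) := T_34 (nat_lit 129) (nat_lit 130) (nat_lit 1) (nat_lit 11) (nat_lit 7) L96110 (by decide +kernel)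
theorem L96112 : W_34 (nat_lit 10) (nat_lit 0x200010001800180000000e00020000000000000000000) (nat_lit 0x0) (nat_lit 0x4600610031c001c000e001000080000000000) := T_34 (nat_lit 141) (nat_lit 142) (nat_lit 2) (nat_lit 5) (nat_lit 8) L96111 (by decide +kernel)
theorem L96113 : W_34 (nat_lit 11) (nat_lit 0x200010001800080000000e00020000000000000000000) (nat_lit 0x0) (nat_lit 0x4600710039c001c000e001000080000000000) := T_34 (nat_lit 128) (nat_lit 111) (nat_lit 5) (nat_lit 9) (nat_lit 4) L96112 (by decide +kernel)
theorem L96114 : W_34 (nat_lit 12) (nat_lit 0x200010001000080000000e00020000000000000000000) (nat_lit 0x0) (nat_lit 0x4000000000004e00710039c001c000e001000080000000000) := T_34 (nat_lit 143) (nat_lit 194) (nat_lit 6) (nat_lit 7) (nat_lit 11) L96113 (by decide +kernel)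
theorem L96115 : W_34 (nat_lit 2) (nat_lit 0x200010001800380010800f80024000000080000000000) (nat_lit 0x0) (nat_lit 0x400040010000000000000000000) := D_34 (nat_lit 90) (nat_lit 76) (nat_lit 106) (nat_lit 2) (nat_lit 5) (nat_lit 5) (nat_lit 1) (nat_lit 8) (nat_lit 5) (by decide +kernel)
theorem L96116 : W_34 (nat_lit 3) (nat_lit 0x200010001800380010000f80024000000080000000000) (nat_lit 0x0) (nat_lit 0x1c00040010000000000000000000) := T_34 (nat_lit 107) (nat_lit 108) (nat_lit 1) (nat_lit 9) (nat_lit 5) L96115 (by decide +kernel)
theorem L96117 : W_34 (nat_lit 4) (nat_lit 0x200010001800380010000f00024000000080000000000) (nat_lit 0x0) (nat_lit 0x1c000c0012000000000000000000) := T_34 (nat_lit 91) (nat_lit 73) (nat_lit 0) (nat_lit 9) (nat_lit 5) L96116 (by decide +kernel)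
theorem L96118 : W_34 (nat_lit 5) (nat_lit 0x200010001800380010000f00024000000000000000000) (nat_lit 0x0) (nat_lit 0x1c000c0012001000080000000000) := T_34 (nat_lit 43) (nat_lit 60) (nat_lit 7) (nat_lit 9) (nat_lit 2) L96117 (by decide +kernel)
theorem L96119 : W_34 (nat_lit 6) (nat_lit 0x200010001800380010000f00020000000000000000000) (nat_lit 0x0) (nat_lit 0x1c000c001e001000080000000000) := T_34 (nat_lit 74) (nat_lit 75) (nat_lit 0) (nat_lit 10) (nat_lit 5) L96118 (by decide +kernel)
theorem L96120 : W_34 (nat_lit 7) (nat_lit 0x200010001800380010000e00020000000000000000000) (nat_lit 0x0) (nat_lit 0x21c001c001e001000080000000000) := T_34 (nat_lit 92) (nat_lit 113) (nat_lit 3) (nat_lit 7) (nat_lit 5) L96119 (by decide +kernel)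
theorem L96121 : W_34 (nat_lit 8) (nat_lit 0x200010001800380000000e00020000000000000000000) (nat_lit 0x0) (nat_lit 0x4000000031c001c001e001000080000000000) := T_34 (nat_lit 112) (nat_lit 146) (nat_lit 4) (nat_lit 10) (nat_lit 8) L96120 (by decide +kernel)
theorem L96122 : W_34 (nat_lit 9) (nat_lit 0x200010001800180000000e00020000000000000000000) (nat_lit 0x0) (nat_lit 0x4000600031c001c001e001000080000000000) := T_34 (nat_lit 129) (nat_lit 130) (nat_lit 1) (nat_lit 11) (nat_lit 7) L96121 (by decide +kernel)
theorem L96123 : W_34 (nat_lit 10) (nat_lit 0x200010001000180000000e00020000000000000000000) (nat_lit 0x0) (nat_lit 0x4000000000004800600031c001c001e001000080000000000) := T_34 (nat_lit 143) (nat_lit 194) (nat_lit 6) (nat_lit 7) (nat_lit 11) L96122 (by decide +kernel)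
theorem L96124 : W_34 (nat_lit 11) (nat_lit 0x200010001000080000000e00020000000000000000000) (nat_lit 0x0) (nat_lit 0x4000000000004800700039c001c001e001000080000000000) := T_34 (nat_lit 128) (nat_lit 111) (nat_lit 5) (nat_lit 9) (nat_lit 4) L96123 (by decide +kernel)
theorem L96125 : W_34 (nat_lit 2) (nat_lit 0x200010001800180021001f80024000000000000000000) (nat_lit 0x0) (nat_lit 0x600020000000000000000000000000000000) := D_34 (nat_lit 142) (nat_lit 141) (nat_lit 125) (nat_lit 2) (nat_lit 5) (nat_lit 8) (nat_lit 7) (nat_lit 6) (nat_lit 5) (by decide +kernel)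
theorem L96126 : W_34 (nat_lit 3) (nat_lit 0x200010001800180020001f80024000000000000000000) (nat_lit 0x0) (nat_lit 0x600020001800000000000000000000000000) := T_34 (nat_lit 108) (nat_lit 107) (nat_lit 1) (nat_lit 9) (nat_lit 5) L96125 (by decide +kernel)
theorem L96127 : W_34 (nat_lit 4) (nat_lit 0x200010001000180020001f80024000000000000000000) (nat_lit 0x0) (nat_lit 0x4000000000000e00020001800000000000000000000000000) := T_34 (nat_lit 143) (nat_lit 194) (nat_lit 6) (nat_lit 7) (nat_lit 11) L96126 (by decide +kernel)
theorem L96128 : W_34 (nat_lit 5) (nat_lit 0x200010001000180020001f00024000000000000000000) (nat_lit 0x0) (nat_lit 0x4000000000000e00020001800080002000000000000000000) := T_34 (nat_lit 91) (nat_lit 73) (nat_lit 0) (nat_lit 9) (nat_lit 5) L96127 (by decide +kernel)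
theorem L96129 : W_34 (nat_lit 6) (nat_lit 0x200010001000080020001f00024000000000000000000) (nat_lit 0x0) (nat_lit 0x4000000000000e00120009800080002000000000000000000) := T_34 (nat_lit 128) (nat_lit 111) (nat_lit 5) (nat_lit 9) (nat_lit 4) L96128 (by decide +kernel)
theorem L96130 : W_34 (nat_lit 7) (nat_lit 0x200010001000080020001f00020000000000000000000) (nat_lit 0x0) (nat_lit 0x4000000000000e0012000980008000e000000000000000000) := T_34 (nat_lit 74) (nat_lit 75) (nat_lit 0) (nat_lit 10) (nat_lit 5) L96129 (by decide +kernel)
theorem L96131 : W_34 (nat_lit 8) (nat_lit 0x200010001000080020001e00020000000000000000000) (nat_lit 0x0) (nat_lit 0x4000000000000e0012001980018000e000000000000000000) := T_34 (nat_lit 92) (nat_lit 112) (nat_lit 3) (nat_lit 7) (nat_lit 5) L96130 (by decide +kernel)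
theorem L96132 : W_34 (nat_lit 9) (nat_lit 0x200010001000080000001e00020000000000000000000) (nat_lit 0x0) (nat_lit 0x4000000000000e0012007980018000e000000000000000000) := T_34 (nat_lit 113) (nat_lit 114) (nat_lit 3) (nat_lit 8) (nat_lit 5) L96131 (by decide +kernel)
theorem L96133 : W_34 (nat_lit 10) (nat_lit 0x200010001000080000000e00020000000000000000000) (nat_lit 0x0) (nat_lit 0x4000000000000e001200f980318019e000000000000000000) := Q_34 (nat_lit 96) (C_34 L96089 (C_34 L96085 (C_34 L96132 N_34))) (by decide +kernel)
theorem L96134 : W_34 (nat_lit 2) (nat_lit 0x4000200010001000080020001e000b00050001c0000000000) (nat_lit 0x0) (nat_lit 0x8000600000000000) := D_34 (nat_lit 63) (nat_lit 45) (nat_lit 46) (nat_lit 3) (nat_lit 8) (nat_lit 2) (nat_lit 6) (nat_lit 11) (nat_lit 6) (by decide +kernel)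
theorem L96135 : W_34 (nat_lit 3) (nat_lit 0x4000200010001000080020001e000b00010001c0000000000) (nat_lit 0x0) (nat_lit 0xe000600000000000) := T_34 (nat_lit 62) (nat_lit 61) (nat_lit 4) (nat_lit 11) (nat_lit 6) L96134 (by decide +kernel)
theorem L96136 : W_34 (nat_lit 2) (nat_lit 0x200010001000080048001e00120000000000000000000) (nat_lit 0x0) (nat_lit 0x80002000200000000000000000000) := D_34 (nat_lit 97) (nat_lit 81) (nat_lit 115) (nat_lit 2) (nat_lit 9) (nat_lit 5) (nat_lit 3) (nat_lit 9) (nat_lit 5) (by decide +kernel)
theorem L96137 : W_34 (nat_lit 3) (nat_lit 0x200010001000080008001e00120000000000000000000) (nat_lit 0x0) (nat_lit 0xe0002000200000000000000000000) := T_34 (nat_lit 114) (nat_lit 113) (nat_lit 3) (nat_lit 8) (nat_lit 5) L96136 (by decide +kernel)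
theorem L96138 : W_34 (nat_lit 4) (nat_lit 0x200010001000080008001e00020000000000000000000) (nat_lit 0x0) (nat_lit 0xe0002000380000000000000000000) := T_34 (nat_lit 80) (nat_lit 79) (nat_lit 2) (nat_lit 8) (nat_lit 5) L96137 (by decide +kernel)
theorem L96139 : W_34 (nat_lit 5) (nat_lit 0x200010001000080000001e00020000000000000000000) (nat_lit 0x0) (nat_lit 0x1000e8002000380000000000000000000) := T_34 (nat_lit 111) (nat_lit 128) (nat_lit 5) (nat_lit 9) (nat_lit 4) L96138 (by decide +kernel)
theorem L96140 : W_34 (nat_lit 2) (nat_lit 0x4000200010001000080028001e000a0001000140000000000) (nat_lit 0x0) (nat_lit 0x8000a000000) := D_34 (nat_lit 43) (nat_lit 25) (nat_lit 27) (nat_lit 4) (nat_lit 9) (nat_lit 5) (nat_lit 6) (nat_lit 9) (nat_lit 5) (by decide +kernel)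
theorem L96141 : W_34 (nat_lit 3) (nat_lit 0x4000200010001000080028001e000a0001000040000000000) (nat_lit 0x0) (nat_lit 0x200018000a000000) := T_34 (nat_lit 44) (nat_lit 61) (nat_lit 6) (nat_lit 9) (nat_lit 6) L96140 (by decide +kernel)
theorem L96142 : W_34 (nat_lit 4) (nat_lit 0x4000200010001000080028001e000a0001000000000000000) (nat_lit 0x0) (nat_lit 0x28001c000a000000) := T_34 (nat_lit 42) (nat_lit 59) (nat_lit 4) (nat_lit 9) (nat_lit 6) L96141 (by decide +kernel)
theorem L96143 : W_34 (nat_lit 5) (nat_lit 0x4000200010001000080020001e000a0001000000000000000) (nat_lit 0x0) (nat_lit 0x1000080000000000028001c000a000000) := T_34 (nat_lit 111) (nat_lit 128) (nat_lit 5) (nat_lit 9) (nat_lit 4) L96142 (by decide +kernel)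
theorem L96144 : W_34 (nat_lit 6) (nat_lit 0x4000200010001000080000001e000a0001000000000000000) (nat_lit 0x0) (nat_lit 0x1000680000000000028001c000a000000) := T_34 (nat_lit 113) (nat_lit 114) (nat_lit 3) (nat_lit 8) (nat_lit 5) L96143 (by decide +kernel)
theorem L96145 : W_34 (nat_lit 7) (nat_lit 0x200010001000080000001e000a0001000000000000000) (nat_lit 0x0) (nat_lit 0x40000000000008001000680000000000028001c000a000000) := T_34 (nat_lit 194) (nat_lit 143) (nat_lit 6) (nat_lit 7) (nat_lit 11) L96144 (by decide +kernel)
theorem L96146 : W_34 (nat_lit 8) (nat_lit 0x200010001000080000001e00020001000000000000000) (nat_lit 0x0) (nat_lit 0x40000000000008001000680000001800028001c000a000000) := T_34 (nat_lit 79) (nat_lit 80) (nat_lit 2) (nat_lit 8) (nat_lit 5) L96145 (by decide +kernel)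
theorem L96147 : W_34 (nat_lit 2) (nat_lit 0x200010001000080008001e00028003800000000000000) (nat_lit 0x0) (nat_lit 0x100004000400000000000000) := D_34 (nat_lit 74) (nat_lit 92) (nat_lit 58) (nat_lit 0) (nat_lit 10) (nat_lit 5) (nat_lit 1) (nat_lit 10) (nat_lit 3) (by decide +kernel)
theorem L96148 : W_34 (nat_lit 3) (nat_lit 0x200010001000080008001e00020003800000000000000) (nat_lit 0x0) (nat_lit 0x10001c000400000000000000) := T_34 (nat_lit 75) (nat_lit 76) (nat_lit 0) (nat_lit 11) (nat_lit 5) L96147 (by decide +kernel)
theorem L96149 : W_34 (nat_lit 4) (nat_lit 0x200010001000080008001e00020001800000000000000) (nat_lit 0x0) (nat_lit 0x10001c002400100000000000) := T_34 (nat_lit 61) (nat_lit 44) (nat_lit 6) (nat_lit 9) (nat_lit 6) L96148 (by decide +kernel)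
theorem L96150 : W_34 (nat_lit 5) (nat_lit 0x200010001000080008001e00020001000000000000000) (nat_lit 0x0) (nat_lit 0x10001c002c00140000000000) := T_34 (nat_lit 59) (nat_lit 42) (nat_lit 4) (nat_lit 9) (nat_lit 6) L96149 (by decide +kernel)
theorem L96151 : W_34 (nat_lit 6) (nat_lit 0x200010001000080000001e00020001000000000000000) (nat_lit 0x0) (nat_lit 0x10000800010001c002c00140000000000) := T_34 (nat_lit 111) (nat_lit 128) (nat_lit 5) (nat_lit 9) (nat_lit 4) L96150 (by decide +kernel)
theorem L96152 : W_34 (nat_lit 4) (nat_lit 0x4000200010001000080020001e000b00010000c0000000000) (nat_lit 0x0) (nat_lit 0xe000700008000000) := T_34 (nat_lit 44) (nat_lit 27) (nat_lit 6) (nat_lit 9) (nat_lit 5) L96135 (by decide +kernel)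
theorem L96153 : W_34 (nat_lit 5) (nat_lit 0x4000200010001000080020001e000b0001000080000000000) (nat_lit 0x0) (nat_lit 0xe00074000a000000) := T_34 (nat_lit 42) (nat_lit 25) (nat_lit 4) (nat_lit 9) (nat_lit 5) L96152 (by decide +kernel)
theorem L96154 : W_34 (nat_lit 6) (nat_lit 0x4000200010001000080020001e000b0001000000000000000) (nat_lit 0x0) (nat_lit 0xe0007c000e000000) := T_34 (nat_lit 43) (nat_lit 26) (nat_lit 5) (nat_lit 9) (nat_lit 1) L96153 (by decide +kernel)
theorem L96155 : W_34 (nat_lit 7) (nat_lit 0x200010001000080020001e000b0001000000000000000) (nat_lit 0x0) (nat_lit 0x400000000000080000000000000000000e0007c000e000000) := T_34 (nat_lit 194) (nat_lit 143) (nat_lit 6) (nat_lit 7) (nat_lit 11) L96154 (by decide +kernel)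
theorem L96156 : W_34 (nat_lit 8) (nat_lit 0x200010001000080020001e000a0001000000000000000) (nat_lit 0x0) (nat_lit 0x400000000000080000000000000001800e0007c000e000000) := T_34 (nat_lit 76) (nat_lit 75) (nat_lit 0) (nat_lit 11) (nat_lit 5) L96155 (by decide +kernel)
theorem L96157 : W_34 (nat_lit 9) (nat_lit 0x200010001000080020001e00020001000000000000000) (nat_lit 0x0) (nat_lit 0x400000000000080000000000000019800e0007c000e000000) := T_34 (nat_lit 79) (nat_lit 80) (nat_lit 2) (nat_lit 8) (nat_lit 5) L96156 (by decide +kernel)
theorem L96158 : W_34 (nat_lit 10) (nat_lit 0x200010001000080000001e00020001000000000000000) (nat_lit 0x0) (nat_lit 0x400000000000080000006000000019800e0007c000e000000) := T_34 (nat_lit 113) (nat_lit 114) (nat_lit 3) (nat_lit 8) (nat_lit 5) L96157 (by decide +kernel)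
theorem L96159 : W_34 (nat_lit 2) (nat_lit 0x200010001000080008001e00030001000100000000000) (nat_lit 0x0) (nat_lit 0x8000c000000) := D_34 (nat_lit 43) (nat_lit 26) (nat_lit 27) (nat_lit 5) (nat_lit 9) (nat_lit 1) (nat_lit 6) (nat_lit 9) (nat_lit 5) (by decide +kernel)
theorem L96160 : W_34 (nat_lit 3) (nat_lit 0x200010001000080008001e00030001000000000000000) (nat_lit 0x0) (nat_lit 0x200018000c000000) := T_34 (nat_lit 44) (nat_lit 61) (nat_lit 6) (nat_lit 9) (nat_lit 6) L96159 (by decide +kernel)
theorem L96161 : W_34 (nat_lit 4) (nat_lit 0x200010001000080000001e00030001000000000000000) (nat_lit 0x0) (nat_lit 0x10000800000000000200018000c000000) := T_34 (nat_lit 111) (nat_lit 128) (nat_lit 5) (nat_lit 9) (nat_lit 4) L96160 (by decide +kernel)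
theorem L96162 : W_34 (nat_lit 5) (nat_lit 0x200010001000080000001e00020001000000000000000) (nat_lit 0x0) (nat_lit 0x10000800000001800200018000c000000) := T_34 (nat_lit 76) (nat_lit 75) (nat_lit 0) (nat_lit 11) (nat_lit 5) L96161 (by decide +kernel)
theorem L96163 : W_34 (nat_lit 2) (nat_lit 0x4000200010001000080008001e000a00010000c0000000000) (nat_lit 0x0) (nat_lit 0x18000000000004000000) := D_34 (nat_lit 76) (nat_lit 75) (nat_lit 26) (nat_lit 0) (nat_lit 11) (nat_lit 5) (nat_lit 5) (nat_lit 9) (nat_lit 1) (by decide +kernel)
theorem L96164 : W_34 (nat_lit 3) (nat_lit 0x4000200010001000080008001e000a0001000040000000000) (nat_lit 0x0) (nat_lit 0x18000000080006000000) := T_34 (nat_lit 43) (nat_lit 25) (nat_lit 4) (nat_lit 9) (nat_lit 5) L96163 (by decide +kernel)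
theorem L96165 : W_34 (nat_lit 4) (nat_lit 0x4000200010001000080008001e00020001000040000000000) (nat_lit 0x0) (nat_lit 0x198000000080006000000) := T_34 (nat_lit 79) (nat_lit 80) (nat_lit 2) (nat_lit 8) (nat_lit 5) L96164 (by decide +kernel)
theorem L96166 : W_34 (nat_lit 5) (nat_lit 0x4000200010001000080008001e00020001000000000000000) (nat_lit 0x0) (nat_lit 0x1980008000c0006000000) := T_34 (nat_lit 42) (nat_lit 59) (nat_lit 4) (nat_lit 9) (nat_lit 6) L96165 (by decide +kernel)
theorem L96167 : W_34 (nat_lit 6) (nat_lit 0x4000200010001000080000001e00020001000000000000000) (nat_lit 0x0) (nat_lit 0x1000080000001980008000c0006000000) := T_34 (nat_lit 111) (nat_lit 128) (nat_lit 5) (nat_lit 9) (nat_lit 4) L96166 (by decide +kernel)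
theorem L96168 : W_34 (nat_lit 7) (nat_lit 0x200010001000080000001e00020001000000000000000) (nat_lit 0x0) (nat_lit 0x40000000000008001000080000001980008000c0006000000) := T_34 (nat_lit 194) (nat_lit 143) (nat_lit 6) (nat_lit 7) (nat_lit 11) L96167 (by decide +kernel)
theorem L96169 : W_34 (nat_lit 11) (nat_lit 0x200010001000080000001e00020000000000000000000) (nat_lit 0x0) (nat_lit 0x400000000000080010006800010019c00fc007c000e000000) := Q_34 (nat_lit 60) (C_34 L96146 (C_34 L96151 (C_34 L96158 (C_34 L96162 (C_34 L96168 N_34))))) (by decide +kernel)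
theorem L96170 : W_34 (nat_lit 12) (nat_lit 0x200010001000080000000e00020000000000000000000) (nat_lit 0x0) (nat_lit 0x40000000000008001000e800310039c00fc007c000e000000) := Q_34 (nat_lit 96) (C_34 L96089 (C_34 L96085 (C_34 L96139 (C_34 L96169 N_34)))) (by decide +kernel)
theorem L96171 : W_34 (nat_lit 2) (nat_lit 0x200010001a00380030000e00020000000000000000000) (nat_lit 0x0) (nat_lit 0xc0001000000000000000000000000) := D_34 (nat_lit 114) (nat_lit 115) (nat_lit 96) (nat_lit 1) (nat_lit 13) (nat_lit 6) (nat_lit 3) (nat_lit 8) (nat_lit 5) (by decide +kernel)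
theorem L96172 : W_34 (nat_lit 3) (nat_lit 0x200010001a00380010000e00020000000000000000000) (nat_lit 0x0) (nat_lit 0xe0001100000000000000000000000) := T_34 (nat_lit 113) (nat_lit 92) (nat_lit 3) (nat_lit 7) (nat_lit 5) L96171 (by decide +kernel)
theorem L96173 : W_34 (nat_lit 4) (nat_lit 0x200010001a00380000000e00020000000000000000000) (nat_lit 0x0) (nat_lit 0x40000000f0001100000000000000000000000) := T_34 (nat_lit 112) (nat_lit 146) (nat_lit 4) (nat_lit 10) (nat_lit 8) L96172 (by decide +kernel)
theorem L96174 : W_34 (nat_lit 5) (nat_lit 0x200010001a00180000000e00020000000000000000000) (nat_lit 0x0) (nat_lit 0x40006000f0001100000000000000000000000) := T_34 (nat_lit 129) (nat_lit 130) (nat_lit 1) (nat_lit 11) (nat_lit 7) L96173 (by decide +kernel)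
theorem L96175 : W_34 (nat_lit 6) (nat_lit 0x200010001800180000000e00020000000000000000000) (nat_lit 0x0) (nat_lit 0x46006000f0001100000000000000000000000) := T_34 (nat_lit 141) (nat_lit 142) (nat_lit 2) (nat_lit 5) (nat_lit 8) L96174 (by decide +kernel)
theorem L96176 : W_34 (nat_lit 7) (nat_lit 0x200010001800080000000e00020000000000000000000) (nat_lit 0x0) (nat_lit 0x46007000f8001100000000000000000000000) := T_34 (nat_lit 128) (nat_lit 111) (nat_lit 5) (nat_lit 9) (nat_lit 4) L96175 (by decide +kernel)
theorem L96177 : W_34 (nat_lit 8) (nat_lit 0x200010001000080000000e00020000000000000000000) (nat_lit 0x0) (nat_lit 0x4000000000004e007000f8001100000000000000000000000) := T_34 (nat_lit 143) (nat_lit 194) (nat_lit 6) (nat_lit 7) (nat_lit 11) L96176 (by decide +kernel)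
theorem L96178 : W_34 (nat_lit 9) (nat_lit 0x200010001000080000000e00020000000000000000000) (nat_lit 0x0) (nat_lit 0x40003000f800300039800f000380000000000) := Q_34 (nat_lit 96) (C_34 L96139 (C_34 L96085 (C_34 L95702 N_34))) (by decide +kernel)
theorem L96179 : W_34 (nat_lit 2) (nat_lit 0x200010001000080018001e80030007000040000000000) (nat_lit 0x0) (nat_lit 0x180000000200000000000) := D_34 (nat_lit 79) (nat_lit 80) (nat_lit 45) (nat_lit 2) (nat_lit 8) (nat_lit 5) (nat_lit 5) (nat_lit 11) (nat_lit 2) (by decide +kernel)
theorem L96180 : W_34 (nat_lit 3) (nat_lit 0x200010001000080018001e80030003000040000000000) (nat_lit 0x0) (nat_lit 0x18000c000200000000000) := T_34 (nat_lit 62) (nat_lit 63) (nat_lit 1) (nat_lit 12) (nat_lit 3) L96179 (by decide +kernel)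
theorem L96181 : W_34 (nat_lit 4) (nat_lit 0x200010001000080018001e80030001000040000000000) (nat_lit 0x0) (nat_lit 0x18000e000300000000000) := T_34 (nat_lit 61) (nat_lit 44) (nat_lit 6) (nat_lit 9) (nat_lit 6) L96180 (by decide +kernel)
theorem L96182 : W_34 (nat_lit 5) (nat_lit 0x200010001000080018001e80030001000000000000000) (nat_lit 0x0) (nat_lit 0x18000e800340000000000) := T_34 (nat_lit 42) (nat_lit 59) (nat_lit 7) (nat_lit 8) (nat_lit 2) L96181 (by decide +kernel)
theorem L96183 : W_34 (nat_lit 6) (nat_lit 0x200010001000080018001e00030001000000000000000) (nat_lit 0x0) (nat_lit 0x18018000e800340000000000) := T_34 (nat_lit 91) (nat_lit 92) (nat_lit 3) (nat_lit 6) (nat_lit 5) L96182 (by decide +kernel)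
theorem L96184 : W_34 (nat_lit 7) (nat_lit 0x200010001000080008001e00030001000000000000000) (nat_lit 0x0) (nat_lit 0x20001000018018000e800340000000000) := T_34 (nat_lit 112) (nat_lit 129) (nat_lit 7) (nat_lit 9) (nat_lit 3) L96183 (by decide +kernel)
theorem L96185 : W_34 (nat_lit 8) (nat_lit 0x200010001000080000001e00030001000000000000000) (nat_lit 0x0) (nat_lit 0x30001800018018000e800340000000000) := T_34 (nat_lit 111) (nat_lit 128) (nat_lit 5) (nat_lit 9) (nat_lit 4) L96184 (by decide +kernel)
theorem L96186 : W_34 (nat_lit 9) (nat_lit 0x200010001000080000000e00030001000000000000000) (nat_lit 0x0) (nat_lit 0x30001800318018000e800340000000000) := T_34 (nat_lit 96) (nat_lit 97) (nat_lit 0) (nat_lit 12) (nat_lit 5) L96185 (by decide +kernel)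
theorem L96187 : W_34 (nat_lit 10) (nat_lit 0x200010001000080000000e00030000000000000000000) (nat_lit 0x0) (nat_lit 0x30001800318018000f8003c0006000000) := Q_34 (nat_lit 60) (C_34 L95153 (C_34 L95156 (C_34 L96186 N_34))) (by decide +kernel)
theorem L96188 : W_34 (nat_lit 2) (nat_lit 0x200010001000080018000e80038001800000000000000) (nat_lit 0x0) (nat_lit 0x6000100000000000) := D_34 (nat_lit 61) (nat_lit 44) (nat_lit 62) (nat_lit 6) (nat_lit 9) (nat_lit 6) (nat_lit 1) (nat_lit 11) (nat_lit 3) (by decide +kernel)
theorem L96189 : W_34 (nat_lit 3) (nat_lit 0x200010001000080018000e80038001000000000000000) (nat_lit 0x0) (nat_lit 0x6800140000000000) := T_34 (nat_lit 59) (nat_lit 42) (nat_lit 7) (nat_lit 8) (nat_lit 2) L96188 (by decide +kernel)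
theorem L96190 : W_34 (nat_lit 4) (nat_lit 0x200010001000080018000e00038001000000000000000) (nat_lit 0x0) (nat_lit 0x180000006800140000000000) := T_34 (nat_lit 91) (nat_lit 92) (nat_lit 3) (nat_lit 6) (nat_lit 5) L96189 (by decide +kernel)
theorem L96191 : W_34 (nat_lit 5) (nat_lit 0x200010001000080008000e00038001000000000000000) (nat_lit 0x0) (nat_lit 0x200010000180000006800140000000000) := T_34 (nat_lit 112) (nat_lit 129) (nat_lit 7) (nat_lit 9) (nat_lit 3) L96190 (by decide +kernel)
theorem L96192 : W_34 (nat_lit 6) (nat_lit 0x200010001000080000000e00038001000000000000000) (nat_lit 0x0) (nat_lit 0x300018000180000006800140000000000) := T_34 (nat_lit 111) (nat_lit 128) (nat_lit 5) (nat_lit 9) (nat_lit 4) L96191 (by decide +kernel)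
theorem L96193 : W_34 (nat_lit 7) (nat_lit 0x200010001000080000000e00030001000000000000000) (nat_lit 0x0) (nat_lit 0x30001800018000c006800140000000000) := T_34 (nat_lit 75) (nat_lit 74) (nat_lit 3) (nat_lit 6) (nat_lit 4) L96192 (by decide +kernel)
theorem L96194 : W_34 (nat_lit 8) (nat_lit 0x200010001000080000000e00030000000000000000000) (nat_lit 0x0) (nat_lit 0x30001800018000c0078001c0006000000) := Q_34 (nat_lit 60) (C_34 L95153 (C_34 L95156 (C_34 L96193 N_34))) (by decide +kernel)
theorem L96195 : W_34 (nat_lit 11) (nat_lit 0x200010001000080000000e00020000000000000000000) (nat_lit 0x0) (nat_lit 0x30001800318019c00f8003c0006000000) := Q_34 (nat_lit 76) (C_34 L96187 (C_34 L95152 (C_34 L96194 N_34))) (by decide +kernel)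
theorem L96196 : W_34 (nat_lit 2) (nat_lit 0x4000200010001000080030001e000a0000000000000000000) (nat_lit 0x0) (nat_lit 0x4000200000000000000004000000000000000) := D_34 (nat_lit 129) (nat_lit 146) (nat_lit 62) (nat_lit 6) (nat_lit 10) (nat_lit 8) (nat_lit 5) (nat_lit 11) (nat_lit 3) (by decide +kernel)
theorem L96197 : W_34 (nat_lit 3) (nat_lit 0x4000200010001000080020001e000a0000000000000000000) (nat_lit 0x0) (nat_lit 0x4000200010000100000004000000000000000) := T_34 (nat_lit 112) (nat_lit 92) (nat_lit 3) (nat_lit 7) (nat_lit 5) L96196 (by decide +kernel)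
theorem L96198 : W_34 (nat_lit 4) (nat_lit 0x4000200010001000080000001e000a0000000000000000000) (nat_lit 0x0) (nat_lit 0x4000200070000100000004000000000000000) := T_34 (nat_lit 113) (nat_lit 114) (nat_lit 3) (nat_lit 8) (nat_lit 5) L96197 (by decide +kernel)
theorem L96199 : W_34 (nat_lit 5) (nat_lit 0x4000200010001000080000001e00020000000000000000000) (nat_lit 0x0) (nat_lit 0x4000200070000100180004000000000000000) := T_34 (nat_lit 79) (nat_lit 80) (nat_lit 2) (nat_lit 8) (nat_lit 5) L96198 (by decide +kernel)
theorem L96200 : W_34 (nat_lit 6) (nat_lit 0x200010001000080000001e00020000000000000000000) (nat_lit 0x0) (nat_lit 0x4000000000004800200070000100180004000000000000000) := T_34 (nat_lit 194) (nat_lit 143) (nat_lit 6) (nat_lit 7) (nat_lit 11) L96199 (by decide +kernel)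
theorem L96201 : W_34 (nat_lit 8) (nat_lit 0x200010001000080000000e00020000000000000000000) (nat_lit 0x0) (nat_lit 0x40000000000048002000f0003100198004000000000000000) := Q_34 (nat_lit 96) (C_34 L96089 (C_34 L96102 (C_34 L96085 (C_34 L96200 N_34)))) (by decide +kernel)
theorem L96202 : W_34 (nat_lit 14) (nat_lit 0x200010001000080000000600020000000000000000000) (nat_lit 0x0) (nat_lit 0x400000000000ce007300f9c039c039e00fc007c000e000000) := Q_34 (nat_lit 95) (C_34 L96103 (C_34 L96114 (C_34 L96124 (C_34 L96133 (C_34 L96170 (C_34 L96177 (C_34 L96178 (C_34 L96195 (C_34 L96201 N_34))))))))) (by decide +kernel)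
theorem L96203 : W_34 (nat_lit 2) (nat_lit 0x4000200010001000080010000f00078002400000008000000) (nat_lit 0x0) (nat_lit 0x200000000000000001000080000000000) := D_34 (nat_lit 60) (nat_lit 43) (nat_lit 129) (nat_lit 7) (nat_lit 9) (nat_lit 2) (nat_lit 4) (nat_lit 10) (nat_lit 7) (by decide +kernel)
theorem L96204 : W_34 (nat_lit 3) (nat_lit 0x4000200010001000080000000f00078002400000008000000) (nat_lit 0x0) (nat_lit 0x200030000000000001000080000000000) := T_34 (nat_lit 112) (nat_lit 113) (nat_lit 3) (nat_lit 7) (nat_lit 5) L96203 (by decide +kernel)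
theorem L96205 : W_34 (nat_lit 4) (nat_lit 0x4000200010001000080000000f00078002000000008000000) (nat_lit 0x0) (nat_lit 0x200030000000000001600080000000000) := T_34 (nat_lit 58) (nat_lit 57) (nat_lit 0) (nat_lit 10) (nat_lit 4) L96204 (by decide +kernel)
theorem L96206 : W_34 (nat_lit 5) (nat_lit 0x4000200010001000080000000f00078002000000000000000) (nat_lit 0x0) (nat_lit 0x200030000000000001600180008000000) := T_34 (nat_lit 27) (nat_lit 44) (nat_lit 5) (nat_lit 10) (nat_lit 1) L96205 (by decide +kernel)
theorem L96207 : W_34 (nat_lit 6) (nat_lit 0x4000200010001000080000000e00078002000000000000000) (nat_lit 0x0) (nat_lit 0x200030000180000001600180008000000) := T_34 (nat_lit 92) (nat_lit 91) (nat_lit 2) (nat_lit 6) (nat_lit 5) L96206 (by decide +kernel)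
theorem L96208 : W_34 (nat_lit 7) (nat_lit 0x4000200010001000080000000e00078000000000000000000) (nat_lit 0x0) (nat_lit 0x200030000180000007600180008000000) := T_34 (nat_lit 61) (nat_lit 62) (nat_lit 2) (nat_lit 7) (nat_lit 4) L96207 (by decide +kernel)
theorem L96209 : W_34 (nat_lit 8) (nat_lit 0x4000200010001000080000000600078000000000000000000) (nat_lit 0x0) (nat_lit 0x200030001980000007600180008000000) := T_34 (nat_lit 95) (nat_lit 96) (nat_lit 3) (nat_lit 7) (nat_lit 4) L96208 (by decide +kernel)
theorem L96210 : W_34 (nat_lit 9) (nat_lit 0x200010001000080000000600078000000000000000000) (nat_lit 0x0) (nat_lit 0x4000000000000800200030001980000007600180008000000) := T_34 (nat_lit 194) (nat_lit 143) (nat_lit 6) (nat_lit 7) (nat_lit 11) L96209 (by decide +kernel)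
theorem L96211 : W_34 (nat_lit 2) (nat_lit 0x4000200010001000080000000e80078002400380001000000) (nat_lit 0x0) (nat_lit 0x800040002000000) := D_34 (nat_lit 42) (nat_lit 59) (nat_lit 25) (nat_lit 1) (nat_lit 11) (nat_lit 2) (nat_lit 0) (nat_lit 11) (nat_lit 2) (by decide +kernel)
theorem L96212 : W_34 (nat_lit 3) (nat_lit 0x4000200010001000080000000e80078002400180001000000) (nat_lit 0x0) (nat_lit 0x800240012000000) := T_34 (nat_lit 45) (nat_lit 28) (nat_lit 6) (nat_lit 10) (nat_lit 5) L96211 (by decide +kernel)
theorem L96213 : W_34 (nat_lit 4) (nat_lit 0x4000200010001000080000000e80078002400100001000000) (nat_lit 0x0) (nat_lit 0x8002c0016000000) := T_34 (nat_lit 43) (nat_lit 26) (nat_lit 4) (nat_lit 10) (nat_lit 5) L96212 (by decide +kernel)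
theorem L96214 : W_34 (nat_lit 5) (nat_lit 0x4000200010001000080000000e80078002400000001000000) (nat_lit 0x0) (nat_lit 0x8003c001e000000) := T_34 (nat_lit 44) (nat_lit 27) (nat_lit 5) (nat_lit 10) (nat_lit 1) L96213 (by decide +kernel)
theorem L96215 : W_34 (nat_lit 6) (nat_lit 0x4000200010001000080000000e80078000400000001000000) (nat_lit 0x0) (nat_lit 0x68003c001e000000) := T_34 (nat_lit 61) (nat_lit 62) (nat_lit 2) (nat_lit 7) (nat_lit 4) L96214 (by decide +kernel)
theorem L96216 : W_34 (nat_lit 7) (nat_lit 0x200010001000080000000e80078000400000001000000) (nat_lit 0x0) (nat_lit 0x40000000000008000000000000000000068003c001e000000) := T_34 (nat_lit 194) (nat_lit 143) (nat_lit 6) (nat_lit 7) (nat_lit 11) L96215 (by decide +kernel)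
theorem L96217 : W_34 (nat_lit 8) (nat_lit 0x200010001000080000000680078000400000001000000) (nat_lit 0x0) (nat_lit 0x40000000000008000000000018000000068003c001e000000) := T_34 (nat_lit 95) (nat_lit 96) (nat_lit 3) (nat_lit 7) (nat_lit 4) L96216 (by decide +kernel)
theorem L96218 : W_34 (nat_lit 9) (nat_lit 0x200010001000080000000680078000400000000000000) (nat_lit 0x0) (nat_lit 0x40000000000008000000000018000000068003e001f000000) := T_34 (nat_lit 24) (nat_lit 41) (nat_lit 7) (nat_lit 7) (nat_lit 1) L96217 (by decide +kernel)
theorem L96219 : W_34 (nat_lit 10) (nat_lit 0x200010001000080000000600078000400000000000000) (nat_lit 0x0) (nat_lit 0x40000000000008000000000019800000068003e001f000000) := T_34 (nat_lit 91) (nat_lit 92) (nat_lit 2) (nat_lit 6) (nat_lit 5) L96218 (by decide +kernel)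
theorem L96220 : W_34 (nat_lit 11) (nat_lit 0x200010001000080000000600078000000000000000000) (nat_lit 0x0) (nat_lit 0x4000000000000800000000001980000006e003e001f000000) := T_34 (nat_lit 58) (nat_lit 57) (nat_lit 0) (nat_lit 10) (nat_lit 4) L96219 (by decide +kernel)
theorem L96221 : W_34 (nat_lit 2) (nat_lit 0x200010001000080010000f00078002400000008000000) (nat_lit 0x0) (nat_lit 0x4000200000000000000001000000000000000) := D_34 (nat_lit 129) (nat_lit 60) (nat_lit 146) (nat_lit 4) (nat_lit 10) (nat_lit 7) (nat_lit 4) (nat_lit 10) (nat_lit 8) (by decide +kernel)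
theorem L96222 : W_34 (nat_lit 3) (nat_lit 0x200010001000080000000f00078002400000008000000) (nat_lit 0x0) (nat_lit 0x4000200030000000000001000000000000000) := T_34 (nat_lit 112) (nat_lit 113) (nat_lit 3) (nat_lit 7) (nat_lit 5) L96221 (by decide +kernel)
theorem L96223 : W_34 (nat_lit 4) (nat_lit 0x200010001000080000000700078002400000008000000) (nat_lit 0x0) (nat_lit 0x4000200030001800000001000000000000000) := T_34 (nat_lit 95) (nat_lit 96) (nat_lit 3) (nat_lit 7) (nat_lit 4) L96222 (by decide +kernel)
theorem L96224 : W_34 (nat_lit 5) (nat_lit 0x200010001000080000000700078002000000008000000) (nat_lit 0x0) (nat_lit 0x4000200030001800000001600000000000000) := T_34 (nat_lit 58) (nat_lit 57) (nat_lit 0) (nat_lit 10) (nat_lit 4) L96223 (by decide +kernel)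
theorem L96225 : W_34 (nat_lit 6) (nat_lit 0x200010001000080000000700078002000000000000000) (nat_lit 0x0) (nat_lit 0x4000200030001800000001600100008000000) := T_34 (nat_lit 27) (nat_lit 44) (nat_lit 5) (nat_lit 10) (nat_lit 1) L96224 (by decide +kernel)
theorem L96226 : W_34 (nat_lit 7) (nat_lit 0x200010001000080000000600078002000000000000000) (nat_lit 0x0) (nat_lit 0x4000200030001980000001600100008000000) := T_34 (nat_lit 92) (nat_lit 91) (nat_lit 2) (nat_lit 6) (nat_lit 5) L96225 (by decide +kernel)
end Crest.Agent.Helper32.Snaky.R1_0
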