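import Crest.Agent.Helper32.Snaky.Gen.R1_0_p34
set_option autoImplicit false
set_option maxRecDepth 100000
set_option linter.all false
set_option Elab.async false
namespace Crest.Agent.Helper32.Snaky.R1_0
@[reducible] def W_35 (d M Bz Z : Nat) : Prop := Crest.Agent.Helper32.Snaky.Wins (nat_lit 17) d M Bz Z
theorem D_35 {d M Bz Z : Nat} (m t1 t2 o1 x1 y1 o2 x2 y2 : Nat) (h : Crest.Agent.Helper32.Snaky.chkDoubleC (nat_lit 17) d M Bz Z m t1 t2 o1 x1 y1 o2 x2 y2 = true) : W_35 d M Bz Z := Crest.Agent.Helper32.Snaky.doubleC m t1 t2 o1 x1 y1 o2 x2 y2 h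
theorem T_35 {d M Bz Z cd cM cBz cZ : Nat} (m t o x y : Nat) (child : W_35 cd cM cBz cZ) (h : Crest.Agent.Helper32.Snaky.chkThreatC (nat_lit 17) d M Bz Z cd cM cBz cZ m t o x y = true) : W_35 d M Bz Z := Crest.Agent.Helper32.Snaky.threatC m t o x y child h
theorem Q_35 {d M Bz Z : Nat} (m : Nat) {l : List Crest.Agent.Helper32.Snaky.Spec} (kids : Crest.Agent.Helper32.Snaky.AllWins (nat_lit 17) l) (h : Crest.Agent.Helper32.Snaky.chkQuiet d M Bz Z m l = true) : W_35 d M Bz Z := Crest.Agent.Helper32.Snaky.quiet m kids h
theorem C_35 {cd cM cBz cZ : Nat} {l : List Crest.Agent.Helper32.Snaky.Spec} (h : W_35 cd cM cBz cZ) (hl : Crest.Agent.Helper32.Snaky.AllWins (nat_lit 17) l) : Crest.Agent.Helper32.Snaky.AllWins (nat_lit 17) ((cd, cM, cBz, cZ) :: l) := Crest.Agent.Helper32.Snaky.AllWins.cons h hl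
theorem N_35 : Crest.Agent.Helper32.Snaky.AllWins (nat_lit 17) [] := Crest.Agent.Helper32.Snaky.AllWins.nil
theorem L96227 : W_35 (nat_lit 8) (nat_lit 0x200010001000080000000600078000000000000000000) (nat_lit 0x0) (nat_lit 0x4000200030001980000007600100008000000) := T_35 (nat_lit 61) (nat_lit 62) (nat_lit 2) (nat_lit 7) (nat_lit 4) L96226 (by decide +kernel)
theorem L96228 : W_35 (nat_lit 2) (nat_lit 0x4000200010001000280010000e80078002000380000000000) (nat_lit 0x0) (nat_lit 0x8000400020000000000000000000000000000) := D_35 (nat_lit 130) (nat_lit 113) (nat_lit 147) (nat_lit 7) (nat_lit 10) (nat_lit 3) (nat_lit 7) (nat_lit 10) (nat_lit 4) (by decide +kernel)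
theorem L96229 : W_35 (nat_lit 3) (nat_lit 0x4000200010001000080010000e80078002000380000000000) (nat_lit 0x0) (nat_lit 0xc000600020000000000000000000000000000) := T_35 (nat_lit 129) (nat_lit 146) (nat_lit 4) (nat_lit 10) (nat_lit 8) L96228 (by decide +kernel)
theorem L96230 : W_35 (nat_lit 4) (nat_lit 0x4000200010001000080000000e80078002000380000000000) (nat_lit 0x0) (nat_lit 0xc000600030000000000001000000000000000) := T_35 (nat_lit 112) (nat_lit 60) (nat_lit 7) (nat_lit 9) (nat_lit 2) L96229 (by decide +kernel)
theorem L96231 : W_35 (nat_lit 5) (nat_lit 0x4000200010001000080000000e80078002000300000000000) (nat_lit 0x0) (nat_lit 0xc000600030000000000001000080004000000) := T_35 (nat_lit 43) (nat_lit 26) (nat_lit 4) (nat_lit 10) (nat_lit 5) L96230 (by decide +kernel)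
theorem L96232 : W_35 (nat_lit 6) (nat_lit 0x4000200010001000080000000e80078002000100000000000) (nat_lit 0x0) (nat_lit 0xc000600030000000000001000280014000000) := T_35 (nat_lit 45) (nat_lit 28) (nat_lit 6) (nat_lit 10) (nat_lit 5) L96231 (by decide +kernel)
theorem L96233 : W_35 (nat_lit 7) (nat_lit 0x200010001000080000000e80078002000100000000000) (nat_lit 0x0) (nat_lit 0x400000000000c800600030000000000001000280014000000) := T_35 (nat_lit 194) (nat_lit 143) (nat_lit 6) (nat_lit 7) (nat_lit 11) L96232 (by decide +kernel)
theorem L96234 : W_35 (nat_lit 8) (nat_lit 0x200010001000080000000e80078002000000000000000) (nat_lit 0x0) (nat_lit 0x400000000000c80060003000000000000100038001c000000) := T_35 (nat_lit 44) (nat_lit 27) (nat_lit 5) (nat_lit 10) (nat_lit 1) L96233 (by decide +kernel)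
theorem L96235 : W_35 (nat_lit 9) (nat_lit 0x200010001000080000000680078002000000000000000) (nat_lit 0x0) (nat_lit 0x400000000000c80060003000180000000100038001c000000) := T_35 (nat_lit 95) (nat_lit 96) (nat_lit 3) (nat_lit 7) (nat_lit 4) L96234 (by decide +kernel)
theorem L96236 : W_35 (nat_lit 10) (nat_lit 0x200010001000080000000680078000000000000000000) (nat_lit 0x0) (nat_lit 0x400000000000c80060003000180000000700038001c000000) := T_35 (nat_lit 61) (nat_lit 62) (nat_lit 2) (nat_lit 7) (nat_lit 4) L96235 (by decide +kernel)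
theorem L96237 : W_35 (nat_lit 11) (nat_lit 0x200010001000080000000600078000000000000000000) (nat_lit 0x0) (nat_lit 0x400000000000c80060003000198000000700038001c000000) := T_35 (nat_lit 91) (nat_lit 92) (nat_lit 2) (nat_lit 6) (nat_lit 5) L96236 (by decide +kernel)
theorem L96238 : W_35 (nat_lit 2) (nat_lit 0x4000200010001000080010000f00078000400000000000000) (nat_lit 0x0) (nat_lit 0x4000200000000000000001000000000000000) := D_35 (nat_lit 129) (nat_lit 60) (nat_lit 146) (nat_lit 4) (nat_lit 10) (nat_lit 7) (nat_lit 4) (nat_lit 10) (nat_lit 8) (by decide +kernel)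
theorem L96239 : W_35 (nat_lit 3) (nat_lit 0x4000200010001000080000000f00078000400000000000000) (nat_lit 0x0) (nat_lit 0x4000200030000000000001000000000000000) := T_35 (nat_lit 112) (nat_lit 113) (nat_lit 3) (nat_lit 7) (nat_lit 5) L96238 (by decide +kernel)
theorem L96240 : W_35 (nat_lit 4) (nat_lit 0x4000200010001000080000000f00078000000000000000000) (nat_lit 0x0) (nat_lit 0x4000200030000000000001600000000000000) := T_35 (nat_lit 58) (nat_lit 57) (nat_lit 0) (nat_lit 10) (nat_lit 4) L96239 (by decide +kernel)
theorem L96241 : W_35 (nat_lit 5) (nat_lit 0x4000200010001000080000000700078000000000000000000) (nat_lit 0x0) (nat_lit 0x4000200030001800000001600000000000000) := T_35 (nat_lit 95) (nat_lit 96) (nat_lit 3) (nat_lit 7) (nat_lit 4) L96240 (by decide +kernel)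
theorem L96242 : W_35 (nat_lit 6) (nat_lit 0x4000200010001000080000000600078000000000000000000) (nat_lit 0x0) (nat_lit 0x4000200030001980000001600000000000000) := T_35 (nat_lit 92) (nat_lit 91) (nat_lit 2) (nat_lit 6) (nat_lit 5) L96241 (by decide +kernel)
theorem L96243 : W_35 (nat_lit 7) (nat_lit 0x200010001000080000000600078000000000000000000) (nat_lit 0x0) (nat_lit 0x4000000000004800200030001980000001600000000000000) := T_35 (nat_lit 194) (nat_lit 143) (nat_lit 6) (nat_lit 7) (nat_lit 11) L96242 (by decide +kernel)
theorem L96244 : W_35 (nat_lit 12) (nat_lit 0x200010001000080000000600038000000000000000000) (nat_lit 0x0) (nat_lit 0x400000000000c800600030001980040007e003f001f800000) := Q_35 (nat_lit 78) (C_35 L96210 (C_35 L95404 (C_35 L95090 (C_35 L96220 (C_35 L96227 (C_35 L96237 (C_35 L96243 N_35))))))) (by decide +kernel)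
theorem L96245 : W_35 (nat_lit 13) (nat_lit 0x200010001000080000000600030000000000000000000) (nat_lit 0x0) (nat_lit 0x400000000000c8006000300019c004e007f003f001f800000) := Q_35 (nat_lit 75) (C_35 L95160 (C_35 L96080 (C_35 L96244 N_35))) (by decide +kernel)
theorem L96246 : W_35 (nat_lit 12) (nat_lit 0x200010001000080000000600038000000000000000000) (nat_lit 0x0) (nat_lit 0x4000000000000800100008001980040007e003e001f000000) := Q_35 (nat_lit 78) (C_35 L95431 (C_35 L96220 (C_35 L95146 (C_35 L95446 N_35)))) (by decide +kernel)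
theorem L96247 : W_35 (nat_lit 13) (nat_lit 0x200010001000080000000600030000000000000000000) (nat_lit 0x0) (nat_lit 0x40000000000008001000090019c004e007f003e001f000000) := Q_35 (nat_lit 75) (C_35 L95167 (C_35 L96080 (C_35 L95160 (C_35 L96246 N_35)))) (by decide +kernel)
theorem L96248 : W_35 (nat_lit 2) (nat_lit 0x400020001000100008001800070003000b800000000000000) (nat_lit 0x0) (nat_lit 0x60000800000000000000000000000) := D_35 (nat_lit 113) (nat_lit 114) (nat_lit 95) (nat_lit 0) (nat_lit 12) (nat_lit 6) (nat_lit 3) (nat_lit 7) (nat_lit 5) (by decide +kernel)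
theorem L96249 : W_35 (nat_lit 3) (nat_lit 0x400020001000100008001800060003000b800000000000000) (nat_lit 0x0) (nat_lit 0x60000980000000000000000000000) := T_35 (nat_lit 92) (nat_lit 91) (nat_lit 3) (nat_lit 6) (nat_lit 5) L96248 (by decide +kernel)
theorem L96250 : W_35 (nat_lit 4) (nat_lit 0x400020001000100008000800060003000b800000000000000) (nat_lit 0x0) (nat_lit 0x200070000980000000000000000000000) := T_35 (nat_lit 112) (nat_lit 129) (nat_lit 7) (nat_lit 9) (nat_lit 3) L96249 (by decide +kernel)
theorem L96251 : W_35 (nat_lit 5) (nat_lit 0x4000200010001000080008000600030003800000000000000) (nat_lit 0x0) (nat_lit 0x20007000098000000c000000000000000) := T_35 (nat_lit 63) (nat_lit 62) (nat_lit 1) (nat_lit 12) (nat_lit 3) L96250 (by decide +kernel)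
theorem L96252 : W_35 (nat_lit 6) (nat_lit 0x4000200010001000080008000600030001800000000000000) (nat_lit 0x0) (nat_lit 0x20007000098000000e000100000000000) := T_35 (nat_lit 61) (nat_lit 44) (nat_lit 6) (nat_lit 9) (nat_lit 6) L96251 (by decide +kernel)
theorem L96253 : W_35 (nat_lit 7) (nat_lit 0x4000200010001000080000000600030001800000000000000) (nat_lit 0x0) (nat_lit 0x30007800098000000e000100000000000) := T_35 (nat_lit 111) (nat_lit 128) (nat_lit 5) (nat_lit 9) (nat_lit 4) L96252 (by decide +kernel)
theorem L96254 : W_35 (nat_lit 8) (nat_lit 0x200010001000080000000600030001800000000000000) (nat_lit 0x0) (nat_lit 0x400000000000080030007800098000000e000100000000000) := T_35 (nat_lit 194) (nat_lit 143) (nat_lit 6) (nat_lit 7) (nat_lit 11) L96253 (by decide +kernel)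
theorem L96255 : W_35 (nat_lit 9) (nat_lit 0x200010001000080000000600030000800000000000000) (nat_lit 0x0) (nat_lit 0x400000000000080030007800098000000f60078000c000000) := Q_35 (nat_lit 60) (C_35 L95106 (C_35 L96254 (C_35 L95098 N_35))) (by decide +kernel)
theorem L96256 : W_35 (nat_lit 10) (nat_lit 0x200010001000080000000600030000000000000000000) (nat_lit 0x0) (nat_lit 0x400000000000080030007800098000000fe007f800f000000) := Q_35 (nat_lit 59) (C_35 L95091 (C_35 L95111 (C_35 L96255 N_35))) (by decide +kernel)
theorem L96257 : W_35 (nat_lit 2) (nat_lit 0x200010001a00380010000f00038000000000000000000) (nat_lit 0x0) (nat_lit 0xc0040000000000000000000) := D_35 (nat_lit 91) (nat_lit 78) (nat_lit 90) (nat_lit 2) (nat_lit 6) (nat_lit 5) (nat_lit 2) (nat_lit 5) (nat_lit 5) (by decide +kernel)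
theorem L96258 : W_35 (nat_lit 3) (nat_lit 0x200010001a00380010000e00038000000000000000000) (nat_lit 0x0) (nat_lit 0x200001c0040000000000000000000) := T_35 (nat_lit 92) (nat_lit 113) (nat_lit 3) (nat_lit 7) (nat_lit 5) L96257 (by decide +kernel)
theorem L96259 : W_35 (nat_lit 4) (nat_lit 0x200010001a00380000000e00038000000000000000000) (nat_lit 0x0) (nat_lit 0x40000000300001c0040000000000000000000) := T_35 (nat_lit 112) (nat_lit 146) (nat_lit 4) (nat_lit 10) (nat_lit 8) L96258 (by decide +kernel)
theorem L96260 : W_35 (nat_lit 5) (nat_lit 0x200010001800380000000e00038000000000000000000) (nat_lit 0x0) (nat_lit 0x46000000300001c0040000000000000000000) := T_35 (nat_lit 141) (nat_lit 142) (nat_lit 2) (nat_lit 5) (nat_lit 8) L96259 (by decide +kernel)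
theorem L96261 : W_35 (nat_lit 6) (nat_lit 0x200010001800180000000e00038000000000000000000) (nat_lit 0x0) (nat_lit 0x46006000300001c0040000000000000000000) := T_35 (nat_lit 129) (nat_lit 130) (nat_lit 1) (nat_lit 11) (nat_lit 7) L96260 (by decide +kernel)
theorem L96262 : W_35 (nat_lit 7) (nat_lit 0x200010001800180000000600038000000000000000000) (nat_lit 0x0) (nat_lit 0x46006000300019c0040000000000000000000) := T_35 (nat_lit 95) (nat_lit 96) (nat_lit 0) (nat_lit 11) (nat_lit 5) L96261 (by decide +kernel)
theorem L96263 : W_35 (nat_lit 8) (nat_lit 0x200010001000180000000600038000000000000000000) (nat_lit 0x0) (nat_lit 0x4000000000004e006000300019c0040000000000000000000) := T_35 (nat_lit 143) (nat_lit 194) (nat_lit 6) (nat_lit 7) (nat_lit 11) L96262 (by decide +kernel)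
theorem L96264 : W_35 (nat_lit 9) (nat_lit 0x200010001000080000000600038000000000000000000) (nat_lit 0x0) (nat_lit 0x4000000000004e007000380019c0040000000000000000000) := T_35 (nat_lit 128) (nat_lit 111) (nat_lit 5) (nat_lit 9) (nat_lit 4) L96263 (by decide +kernel)
theorem L96265 : W_35 (nat_lit 10) (nat_lit 0x200010001000080000000600030000000000000000000) (nat_lit 0x0) (nat_lit 0x4000000000004e007000390019c004e000f00060001000000) := Q_35 (nat_lit 75) (C_35 L95167 (C_35 L95160 (C_35 L96264 N_35))) (by decide +kernel)
theorem L96266 : W_35 (nat_lit 10) (nat_lit 0x200010001000080000000600030000000000000000000) (nat_lit 0x0) (nat_lit 0x4000000000004e007000390019c004e0037000a0005000000) := Q_35 (nat_lit 75) (C_35 L96264 (C_35 L95160 (C_35 L95088 N_35))) (by decide +kernel)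
theorem L96267 : W_35 (nat_lit 14) (nat_lit 0x200010001000080000000600020000000000000000000) (nat_lit 0x0) (nat_lit 0x400000000000ce007000790019c005e00ff007f801f800000) := Q_35 (nat_lit 76) (C_35 L96245 (C_35 L96247 (C_35 L96256 (C_35 L95414 (C_35 L96265 (C_35 L96266 (C_35 L95151 N_35))))))) (by decide +kernel)
theorem L96268 : W_35 (nat_lit 2) (nat_lit 0x200010001800180020001e80070000000000000000000) (nat_lit 0x0) (nat_lit 0x8000600000000000000000000000000000000) := D_35 (nat_lit 130) (nat_lit 129) (nat_lit 147) (nat_lit 1) (nat_lit 11) (nat_lit 7) (nat_lit 4) (nat_lit 11) (nat_lit 8) (by decide +kernel)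
theorem L96269 : W_35 (nat_lit 3) (nat_lit 0x200010001800180000001e80070000000000000000000) (nat_lit 0x0) (nat_lit 0x8000600060000000000000000000000000000) := T_35 (nat_lit 113) (nat_lit 114) (nat_lit 3) (nat_lit 8) (nat_lit 5) L96268 (by decide +kernel)
theorem L96270 : W_35 (nat_lit 4) (nat_lit 0x200010001800180000001e00070000000000000000000) (nat_lit 0x0) (nat_lit 0x8000600060000180000000000000000000000) := T_35 (nat_lit 91) (nat_lit 92) (nat_lit 2) (nat_lit 6) (nat_lit 5) L96269 (by decide +kernel)
theorem L96271 : W_35 (nat_lit 5) (nat_lit 0x200010001800180000000e00070000000000000000000) (nat_lit 0x0) (nat_lit 0x8000600060003180000000000000000000000) := T_35 (nat_lit 96) (nat_lit 97) (nat_lit 0) (nat_lit 12) (nat_lit 5) L96270 (by decide +kernel)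
theorem L96272 : W_35 (nat_lit 6) (nat_lit 0x200010001800080000000e00070000000000000000000) (nat_lit 0x0) (nat_lit 0x8000700068003180000000000000000000000) := T_35 (nat_lit 128) (nat_lit 111) (nat_lit 5) (nat_lit 9) (nat_lit 4) L96271 (by decide +kernel)
theorem L96273 : W_35 (nat_lit 7) (nat_lit 0x200010001000080000000e00070000000000000000000) (nat_lit 0x0) (nat_lit 0x4000000000008800700068003180000000000000000000000) := T_35 (nat_lit 143) (nat_lit 194) (nat_lit 6) (nat_lit 7) (nat_lit 11) L96272 (by decide +kernel)
theorem L96274 : W_35 (nat_lit 2) (nat_lit 0x200010001800580020000f00060000000000000000000) (nat_lit 0x0) (nat_lit 0x8000000040001000000000000000000000000) := D_35 (nat_lit 96) (nat_lit 114) (nat_lit 147) (nat_lit 3) (nat_lit 8) (nat_lit 5) (nat_lit 4) (nat_lit 11) (nat_lit 8) (by decide +kernel)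
theorem L96275 : W_35 (nat_lit 3) (nat_lit 0x200010001800580000000f00060000000000000000000) (nat_lit 0x0) (nat_lit 0x8000000070001000000000000000000000000) := T_35 (nat_lit 113) (nat_lit 112) (nat_lit 3) (nat_lit 7) (nat_lit 5) L96274 (by decide +kernel)
theorem L96276 : W_35 (nat_lit 4) (nat_lit 0x200010001800180000000f00060000000000000000000) (nat_lit 0x0) (nat_lit 0x8000600070001000000000000000000000000) := T_35 (nat_lit 130) (nat_lit 129) (nat_lit 1) (nat_lit 11) (nat_lit 7) L96275 (by decide +kernel)
theorem L96277 : W_35 (nat_lit 5) (nat_lit 0x200010001800180000000e00060000000000000000000) (nat_lit 0x0) (nat_lit 0x8000600070001180000000000000000000000) := T_35 (nat_lit 92) (nat_lit 91) (nat_lit 2) (nat_lit 6) (nat_lit 5) L96276 (by decide +kernel)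
theorem L96278 : W_35 (nat_lit 6) (nat_lit 0x200010001000180000000e00060000000000000000000) (nat_lit 0x0) (nat_lit 0x4000000000008800600070001180000000000000000000000) := T_35 (nat_lit 143) (nat_lit 194) (nat_lit 6) (nat_lit 7) (nat_lit 11) L96277 (by decide +kernel)
theorem L96279 : W_35 (nat_lit 7) (nat_lit 0x200010001000080000000e00060000000000000000000) (nat_lit 0x0) (nat_lit 0x4000000000008800700078001180000000000000000000000) := T_35 (nat_lit 128) (nat_lit 111) (nat_lit 5) (nat_lit 9) (nat_lit 4) L96278 (by decide +kernel)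
theorem L96280 : W_35 (nat_lit 2) (nat_lit 0x4000200010001000080008000f00078000400140000000000) (nat_lit 0x0) (nat_lit 0x20003000000) := D_35 (nat_lit 41) (nat_lit 25) (nat_lit 24) (nat_lit 6) (nat_lit 7) (nat_lit 5) (nat_lit 7) (nat_lit 7) (nat_lit 1) (by decide +kernel)
theorem L96281 : W_35 (nat_lit 3) (nat_lit 0x4000200010001000080008000f00078000000140000000000) (nat_lit 0x0) (nat_lit 0x600020003000000) := T_35 (nat_lit 58) (nat_lit 57) (nat_lit 0) (nat_lit 10) (nat_lit 4) L96280 (by decide +kernel)
theorem L96282 : W_35 (nat_lit 4) (nat_lit 0x4000200010001000080008000f00078000000100000000000) (nat_lit 0x0) (nat_lit 0xe00060003000000) := T_35 (nat_lit 42) (nat_lit 59) (nat_lit 7) (nat_lit 8) (nat_lit 2) L96281 (by decide +kernel)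
theorem L96283 : W_35 (nat_lit 5) (nat_lit 0x4000200010001000080008000f00068000000100000000000) (nat_lit 0x0) (nat_lit 0x1000010000e00060003000000) := T_35 (nat_lit 76) (nat_lit 96) (nat_lit 3) (nat_lit 7) (nat_lit 4) L96282 (by decide +kernel)
theorem L96284 : W_35 (nat_lit 6) (nat_lit 0x200010001000080008000f00068000000100000000000) (nat_lit 0x0) (nat_lit 0x4000000000000800000000001000010000e00060003000000) := T_35 (nat_lit 194) (nat_lit 143) (nat_lit 6) (nat_lit 7) (nat_lit 11) L96283 (by decide +kernel)
theorem L96285 : W_35 (nat_lit 7) (nat_lit 0x200010001000080008000f00060000000100000000000) (nat_lit 0x0) (nat_lit 0x400000000000080000000000100001c000e00060003000000) := T_35 (nat_lit 75) (nat_lit 74) (nat_lit 0) (nat_lit 10) (nat_lit 5) L96284 (by decide +kernel)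
theorem L96286 : W_35 (nat_lit 8) (nat_lit 0x200010001000080008000f00060000000000000000000) (nat_lit 0x0) (nat_lit 0x400000000000080000000000100001c002e00160003000000) := T_35 (nat_lit 44) (nat_lit 61) (nat_lit 5) (nat_lit 10) (nat_lit 2) L96285 (by decide +kernel)
theorem L96287 : W_35 (nat_lit 9) (nat_lit 0x200010001000080000000f00060000000000000000000) (nat_lit 0x0) (nat_lit 0x400000000000080010000800100001c002e00160003000000) := T_35 (nat_lit 111) (nat_lit 128) (nat_lit 5) (nat_lit 9) (nat_lit 4) L96286 (by decide +kernel)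
theorem L96288 : W_35 (nat_lit 10) (nat_lit 0x200010001000080000000e00060000000000000000000) (nat_lit 0x0) (nat_lit 0x400000000000080010000800118001c002e00160003000000) := T_35 (nat_lit 92) (nat_lit 91) (nat_lit 2) (nat_lit 6) (nat_lit 5) L96287 (by decide +kernel)
theorem L96289 : W_35 (nat_lit 2) (nat_lit 0x4000200010001000080018000f00060006000000000000000) (nat_lit 0x0) (nat_lit 0x1c000000000000000000) := D_35 (nat_lit 75) (nat_lit 76) (nat_lit 74) (nat_lit 2) (nat_lit 7) (nat_lit 4) (nat_lit 0) (nat_lit 10) (nat_lit 5) (by decide +kernel)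
theorem L96290 : W_35 (nat_lit 3) (nat_lit 0x4000200010001000080018000f00060002000000000000000) (nat_lit 0x0) (nat_lit 0x1c004000200000000000) := T_35 (nat_lit 62) (nat_lit 45) (nat_lit 6) (nat_lit 10) (nat_lit 6) L96289 (by decide +kernel)
theorem L96291 : W_35 (nat_lit 4) (nat_lit 0x4000200010001000080008000f00060002000000000000000) (nat_lit 0x0) (nat_lit 0x3000000001c004000200000000000) := T_35 (nat_lit 112) (nat_lit 113) (nat_lit 3) (nat_lit 7) (nat_lit 5) L96290 (by decide +kernel)
theorem L96292 : W_35 (nat_lit 5) (nat_lit 0x200010001000080008000f00060002000000000000000) (nat_lit 0x0) (nat_lit 0x400000000000080000003000000001c004000200000000000) := T_35 (nat_lit 194) (nat_lit 143) (nat_lit 6) (nat_lit 7) (nat_lit 11) L96291 (by decide +kernel)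
theorem L96293 : W_35 (nat_lit 6) (nat_lit 0x200010001000080008000e00060002000000000000000) (nat_lit 0x0) (nat_lit 0x400000000000080000003000018001c004000200000000000) := T_35 (nat_lit 92) (nat_lit 91) (nat_lit 2) (nat_lit 6) (nat_lit 5) L96292 (by decide +kernel)
theorem L96294 : W_35 (nat_lit 7) (nat_lit 0x200010001000080008000e00060000000000000000000) (nat_lit 0x0) (nat_lit 0x400000000000080000003000018001c006000300000000000) := T_35 (nat_lit 61) (nat_lit 44) (nat_lit 5) (nat_lit 10) (nat_lit 2) L96293 (by decide +kernel)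
theorem L96295 : W_35 (nat_lit 8) (nat_lit 0x200010001000080000000e00060000000000000000000) (nat_lit 0x0) (nat_lit 0x400000000000080010003800018001c006000300000000000) := T_35 (nat_lit 111) (nat_lit 128) (nat_lit 5) (nat_lit 9) (nat_lit 4) L96294 (by decide +kernel)
theorem L96296 : W_35 (nat_lit 11) (nat_lit 0x200010001000080000000600060000000000000000000) (nat_lit 0x0) (nat_lit 0x40000000000088007000f800798001c006e00360003000000) := Q_35 (nat_lit 95) (C_35 L95513 (C_35 L96015 (C_35 L96279 (C_35 L96288 (C_35 L94810 (C_35 L96295 N_35)))))) (by decide +kernel)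
theorem L96297 : W_35 (nat_lit 12) (nat_lit 0x200010001000080000000600020000000000000000000) (nat_lit 0x0) (nat_lit 0x40000000000088007000f80079801de00ef00360013000000) := Q_35 (nat_lit 78) (C_35 L94710 (C_35 L95299 (C_35 L94708 (C_35 L96296 N_35)))) (by decide +kernel)
theorem L96298 : W_35 (nat_lit 14) (nat_lit 0x200010001000080000000600020000000000000000000) (nat_lit 0x0) (nat_lit 0x400000000000c800f000f80079801de00f6001f000f800000) := Q_35 (nat_lit 78) (C_35 L96022 (C_35 L94710 (C_35 L95341 (C_35 L94708 N_35)))) (by decide +kernel)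
theorem L96299 : W_35 (nat_lit 11) (nat_lit 0x200010001000080000000600020000000000000000000) (nat_lit 0x0) (nat_lit 0x4000f000780039801de00f8001c000e000200) := Q_35 (nat_lit 78) (C_35 L94710 (C_35 L95341 (C_35 L94708 (C_35 L95052 N_35)))) (by decide +kernel)
theorem L96300 : W_35 (nat_lit 2) (nat_lit 0x200010001a00380000000e80060000000000000000000) (nat_lit 0x0) (nat_lit 0x4000000010000000000001000000000000000) := D_35 (nat_lit 112) (nat_lit 60) (nat_lit 146) (nat_lit 4) (nat_lit 10) (nat_lit 7) (nat_lit 4) (nat_lit 10) (nat_lit 8) (by decide +kernel)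
theorem L96301 : W_35 (nat_lit 3) (nat_lit 0x200010001a00180000000e80060000000000000000000) (nat_lit 0x0) (nat_lit 0x4000600010000000000001000000000000000) := T_35 (nat_lit 129) (nat_lit 130) (nat_lit 1) (nat_lit 11) (nat_lit 7) L96300 (by decide +kernel)
theorem L96302 : W_35 (nat_lit 4) (nat_lit 0x200010001800180000000e80060000000000000000000) (nat_lit 0x0) (nat_lit 0x4600600010000000000001000000000000000) := T_35 (nat_lit 141) (nat_lit 142) (nat_lit 2) (nat_lit 5) (nat_lit 8) L96301 (by decide +kernel)
theorem L96303 : W_35 (nat_lit 5) (nat_lit 0x200010001800080000000e80060000000000000000000) (nat_lit 0x0) (nat_lit 0x4600700018000000000001000000000000000) := T_35 (nat_lit 128) (nat_lit 111) (nat_lit 5) (nat_lit 9) (nat_lit 4) L96302 (by decide +kernel)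
theorem L96304 : W_35 (nat_lit 6) (nat_lit 0x200010001000080000000e80060000000000000000000) (nat_lit 0x0) (nat_lit 0x4000000000004e00700018000000000001000000000000000) := T_35 (nat_lit 143) (nat_lit 194) (nat_lit 6) (nat_lit 7) (nat_lit 11) L96303 (by decide +kernel)
theorem L96305 : W_35 (nat_lit 7) (nat_lit 0x200010001000080000000e00060000000000000000000) (nat_lit 0x0) (nat_lit 0x4000000000004e00700018000180000001000000000000000) := T_35 (nat_lit 91) (nat_lit 92) (nat_lit 2) (nat_lit 6) (nat_lit 5) L96304 (by decide +kernel)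
theorem L96306 : W_35 (nat_lit 9) (nat_lit 0x200010001000080000000600060000000000000000000) (nat_lit 0x0) (nat_lit 0x400000000000ce007000f800798001c007000300000000000) := Q_35 (nat_lit 95) (C_35 L96279 (C_35 L96295 (C_35 L96017 (C_35 L96015 (C_35 L95513 (C_35 L96305 (C_35 L95272 N_35))))))) (by decide +kernel)
theorem L96307 : W_35 (nat_lit 10) (nat_lit 0x200010001000080000000600020000000000000000000) (nat_lit 0x0) (nat_lit 0x400000000000ce00f000f80079801de00f000300008000000) := Q_35 (nat_lit 78) (C_35 L94710 (C_35 L95341 (C_35 L94708 (C_35 L96306 N_35)))) (by decide +kernel)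
theorem L96308 : W_35 (nat_lit 2) (nat_lit 0x200010001800680020001e80070000000000000000000) (nat_lit 0x0) (nat_lit 0x4000000010000000000001000000000000000) := D_35 (nat_lit 112) (nat_lit 60) (nat_lit 146) (nat_lit 4) (nat_lit 10) (nat_lit 7) (nat_lit 4) (nat_lit 10) (nat_lit 8) (by decide +kernel)
theorem L96309 : W_35 (nat_lit 3) (nat_lit 0x200010001800480020001e80070000000000000000000) (nat_lit 0x0) (nat_lit 0x4000300010000000000001000000000000000) := T_35 (nat_lit 129) (nat_lit 128) (nat_lit 1) (nat_lit 11) (nat_lit 7) L96308 (by decide +kernel)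
theorem L96310 : W_35 (nat_lit 4) (nat_lit 0x200010001800080020001e80070000000000000000000) (nat_lit 0x0) (nat_lit 0xc000700010000000000001000000000000000) := T_35 (nat_lit 130) (nat_lit 147) (nat_lit 4) (nat_lit 11) (nat_lit 8) L96309 (by decide +kernel)
theorem L96311 : W_35 (nat_lit 5) (nat_lit 0x200010001800080000001e80070000000000000000000) (nat_lit 0x0) (nat_lit 0xc000700070000000000001000000000000000) := T_35 (nat_lit 113) (nat_lit 114) (nat_lit 3) (nat_lit 8) (nat_lit 5) L96310 (by decide +kernel)
theorem L96312 : W_35 (nat_lit 6) (nat_lit 0x200010001800080000000e80070000000000000000000) (nat_lit 0x0) (nat_lit 0xc000700070003000000001000000000000000) := T_35 (nat_lit 96) (nat_lit 97) (nat_lit 0) (nat_lit 12) (nat_lit 5) L96311 (by decide +kernel)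
theorem L96313 : W_35 (nat_lit 7) (nat_lit 0x200010001000080000000e80070000000000000000000) (nat_lit 0x0) (nat_lit 0x400000000000c800700070003000000001000000000000000) := T_35 (nat_lit 143) (nat_lit 194) (nat_lit 6) (nat_lit 7) (nat_lit 11) L96312 (by decide +kernel)
theorem L96314 : W_35 (nat_lit 8) (nat_lit 0x200010001000080000000e00070000000000000000000) (nat_lit 0x0) (nat_lit 0x400000000000c800700070003180000001000000000000000) := T_35 (nat_lit 91) (nat_lit 92) (nat_lit 2) (nat_lit 6) (nat_lit 5) L96313 (by decide +kernel)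
theorem L96315 : W_35 (nat_lit 2) (nat_lit 0x200010001000080018002f00070000000040000000000) (nat_lit 0x0) (nat_lit 0x200000000000000001000080000000000) := D_35 (nat_lit 60) (nat_lit 129) (nat_lit 43) (nat_lit 7) (nat_lit 9) (nat_lit 3) (nat_lit 7) (nat_lit 9) (nat_lit 2) (by decide +kernel)
theorem L96316 : W_35 (nat_lit 3) (nat_lit 0x200010001000080008002f00070000000040000000000) (nat_lit 0x0) (nat_lit 0x200030000000000001000080000000000) := T_35 (nat_lit 112) (nat_lit 113) (nat_lit 3) (nat_lit 7) (nat_lit 5) L96315 (by decide +kernel)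
theorem L96317 : W_35 (nat_lit 4) (nat_lit 0x200010001000080008002f00070000000000000000000) (nat_lit 0x0) (nat_lit 0x2000300000000000018000c0000000000) := T_35 (nat_lit 42) (nat_lit 59) (nat_lit 7) (nat_lit 8) (nat_lit 2) L96316 (by decide +kernel)
theorem L96318 : W_35 (nat_lit 5) (nat_lit 0x200010001000080000002f00070000000000000000000) (nat_lit 0x0) (nat_lit 0x3000380000000000018000c0000000000) := T_35 (nat_lit 111) (nat_lit 128) (nat_lit 5) (nat_lit 9) (nat_lit 4) L96317 (by decide +kernel)
theorem L96319 : W_35 (nat_lit 6) (nat_lit 0x200010001000080000002e00070000000000000000000) (nat_lit 0x0) (nat_lit 0x3000380001800000018000c0000000000) := T_35 (nat_lit 92) (nat_lit 91) (nat_lit 2) (nat_lit 6) (nat_lit 5) L96318 (by decide +kernel)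
theorem L96320 : W_35 (nat_lit 7) (nat_lit 0x200010001000080000000e00070000000000000000000) (nat_lit 0x0) (nat_lit 0x3000380031800000018000c0000000000) := T_35 (nat_lit 97) (nat_lit 96) (nat_lit 0) (nat_lit 12) (nat_lit 5) L96319 (by decide +kernel)
theorem L96321 : W_35 (nat_lit 2) (nat_lit 0x4000200010001000080020000f00070000000000000000000) (nat_lit 0x0) (nat_lit 0x40003000000000000000000000000) := D_35 (nat_lit 96) (nat_lit 97) (nat_lit 114) (nat_lit 0) (nat_lit 12) (nat_lit 5) (nat_lit 3) (nat_lit 8) (nat_lit 5) (by decide +kernel)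
theorem L96322 : W_35 (nat_lit 3) (nat_lit 0x4000200010001000080000000f00070000000000000000000) (nat_lit 0x0) (nat_lit 0x70003000000000000000000000000) := T_35 (nat_lit 113) (nat_lit 112) (nat_lit 3) (nat_lit 7) (nat_lit 5) L96321 (by decide +kernel)
theorem L96323 : W_35 (nat_lit 4) (nat_lit 0x200010001000080000000f00070000000000000000000) (nat_lit 0x0) (nat_lit 0x4000000000000800000070003000000000000000000000000) := T_35 (nat_lit 194) (nat_lit 143) (nat_lit 6) (nat_lit 7) (nat_lit 11) L96322 (by decide +kernel)
theorem L96324 : W_35 (nat_lit 5) (nat_lit 0x200010001000080000000e00070000000000000000000) (nat_lit 0x0) (nat_lit 0x4000000000000800000070003180000000000000000000000) := T_35 (nat_lit 92) (nat_lit 91) (nat_lit 2) (nat_lit 6) (nat_lit 5) L96323 (by decide +kernel)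
theorem L96325 : W_35 (nat_lit 2) (nat_lit 0x200010001a00380000002e80070000000000000000000) (nat_lit 0x0) (nat_lit 0x4000000010000000000001000000000000000) := D_35 (nat_lit 112) (nat_lit 60) (nat_lit 146) (nat_lit 4) (nat_lit 10) (nat_lit 7) (nat_lit 4) (nat_lit 10) (nat_lit 8) (by decide +kernel)
theorem L96326 : W_35 (nat_lit 3) (nat_lit 0x200010001a00180000002e80070000000000000000000) (nat_lit 0x0) (nat_lit 0x4000600010000000000001000000000000000) := T_35 (nat_lit 129) (nat_lit 130) (nat_lit 1) (nat_lit 11) (nat_lit 7) L96325 (by decide +kernel)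
theorem L96327 : W_35 (nat_lit 4) (nat_lit 0x200010001800180000002e80070000000000000000000) (nat_lit 0x0) (nat_lit 0x4600600010000000000001000000000000000) := T_35 (nat_lit 141) (nat_lit 142) (nat_lit 2) (nat_lit 5) (nat_lit 8) L96326 (by decide +kernel)
theorem L96328 : W_35 (nat_lit 5) (nat_lit 0x200010001800080000002e80070000000000000000000) (nat_lit 0x0) (nat_lit 0x4600700018000000000001000000000000000) := T_35 (nat_lit 128) (nat_lit 111) (nat_lit 5) (nat_lit 9) (nat_lit 4) L96327 (by decide +kernel)
theorem L96329 : W_35 (nat_lit 6) (nat_lit 0x200010001800080000002e00070000000000000000000) (nat_lit 0x0) (nat_lit 0x4600700018000180000001000000000000000) := T_35 (nat_lit 91) (nat_lit 92) (nat_lit 2) (nat_lit 6) (nat_lit 5) L96328 (by decide +kernel)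
theorem L96330 : W_35 (nat_lit 7) (nat_lit 0x200010001000080000002e00070000000000000000000) (nat_lit 0x0) (nat_lit 0x4000000000004e00700018000180000001000000000000000) := T_35 (nat_lit 143) (nat_lit 194) (nat_lit 6) (nat_lit 7) (nat_lit 11) L96329 (by decide +kernel)
theorem L96331 : W_35 (nat_lit 8) (nat_lit 0x200010001000080000000e00070000000000000000000) (nat_lit 0x0) (nat_lit 0x4000000000004e00700018003180000001000000000000000) := T_35 (nat_lit 97) (nat_lit 96) (nat_lit 0) (nat_lit 12) (nat_lit 5) L96330 (by decide +kernel)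
theorem L96332 : W_35 (nat_lit 2) (nat_lit 0x200010001a00380000002e00070000000000000000000) (nat_lit 0x0) (nat_lit 0x4000000010000000000001000000000000000) := D_35 (nat_lit 112) (nat_lit 60) (nat_lit 146) (nat_lit 4) (nat_lit 10) (nat_lit 7) (nat_lit 4) (nat_lit 10) (nat_lit 8) (by decide +kernel)
theorem L96333 : W_35 (nat_lit 3) (nat_lit 0x200010001a00180000002e00070000000000000000000) (nat_lit 0x0) (nat_lit 0x4000600010000000000001000000000000000) := T_35 (nat_lit 129) (nat_lit 130) (nat_lit 1) (nat_lit 11) (nat_lit 7) L96332 (by decide +kernel)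
theorem L96334 : W_35 (nat_lit 4) (nat_lit 0x200010001800180000002e00070000000000000000000) (nat_lit 0x0) (nat_lit 0x4600600010000000000001000000000000000) := T_35 (nat_lit 141) (nat_lit 142) (nat_lit 2) (nat_lit 5) (nat_lit 8) L96333 (by decide +kernel)
theorem L96335 : W_35 (nat_lit 5) (nat_lit 0x200010001000180000002e00070000000000000000000) (nat_lit 0x0) (nat_lit 0x4000000000004e00600010000000000001000000000000000) := T_35 (nat_lit 143) (nat_lit 194) (nat_lit 6) (nat_lit 7) (nat_lit 11) L96334 (by decide +kernel)
theorem L96336 : W_35 (nat_lit 6) (nat_lit 0x200010001000180000000e00070000000000000000000) (nat_lit 0x0) (nat_lit 0x4000000000004e00600010003000000001000000000000000) := T_35 (nat_lit 97) (nat_lit 96) (nat_lit 0) (nat_lit 12) (nat_lit 5) L96335 (by decide +kernel)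
theorem L96337 : W_35 (nat_lit 7) (nat_lit 0x200010001000080000000e00070000000000000000000) (nat_lit 0x0) (nat_lit 0x4000000000004e00700018003000000001000000000000000) := T_35 (nat_lit 128) (nat_lit 111) (nat_lit 5) (nat_lit 9) (nat_lit 4) L96336 (by decide +kernel)
theorem L96338 : W_35 (nat_lit 2) (nat_lit 0x4000200010001000080018000f00070000000040000000000) (nat_lit 0x0) (nat_lit 0x200000000000000001000080000000000) := D_35 (nat_lit 60) (nat_lit 129) (nat_lit 43) (nat_lit 7) (nat_lit 9) (nat_lit 3) (nat_lit 7) (nat_lit 9) (nat_lit 2) (by decide +kernel)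
theorem L96339 : W_35 (nat_lit 3) (nat_lit 0x4000200010001000080008000f00070000000040000000000) (nat_lit 0x0) (nat_lit 0x200030000000000001000080000000000) := T_35 (nat_lit 112) (nat_lit 113) (nat_lit 3) (nat_lit 7) (nat_lit 5) L96338 (by decide +kernel)
theorem L96340 : W_35 (nat_lit 4) (nat_lit 0x4000200010001000080008000e00070000000040000000000) (nat_lit 0x0) (nat_lit 0x200030000180000001000080000000000) := T_35 (nat_lit 92) (nat_lit 91) (nat_lit 2) (nat_lit 6) (nat_lit 5) L96339 (by decide +kernel)
theorem L96341 : W_35 (nat_lit 5) (nat_lit 0x4000200010001000080008000e00070000000000000000000) (nat_lit 0x0) (nat_lit 0x2000300001800000018000c0000000000) := T_35 (nat_lit 42) (nat_lit 59) (nat_lit 7) (nat_lit 8) (nat_lit 2) L96340 (by decide +kernel)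
theorem L96342 : W_35 (nat_lit 6) (nat_lit 0x4000200010001000080000000e00070000000000000000000) (nat_lit 0x0) (nat_lit 0x3000380001800000018000c0000000000) := T_35 (nat_lit 111) (nat_lit 128) (nat_lit 5) (nat_lit 9) (nat_lit 4) L96341 (by decide +kernel)
theorem L96343 : W_35 (nat_lit 7) (nat_lit 0x200010001000080000000e00070000000000000000000) (nat_lit 0x0) (nat_lit 0x40000000000008003000380001800000018000c0000000000) := T_35 (nat_lit 194) (nat_lit 143) (nat_lit 6) (nat_lit 7) (nat_lit 11) L96342 (by decide +kernel)
theorem L96344 : W_35 (nat_lit 9) (nat_lit 0x200010001000080000000600070000000000000000000) (nat_lit 0x0) (nat_lit 0x400000000000ce007000780039800000018000c0000000000) := Q_35 (nat_lit 95) (C_35 L96314 (C_35 L96320 (C_35 L96324 (C_35 L96273 (C_35 L96331 (C_35 L96337 (C_35 L96343 N_35))))))) (by decide +kernel)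
theorem L96345 : W_35 (nat_lit 8) (nat_lit 0x200010001000080000000600070000000000000000000) (nat_lit 0x0) (nat_lit 0x40000000000048002000300019c000e001700000000000000) := Q_35 (nat_lit 75) (C_35 L95188 (C_35 L96243 (C_35 L94881 N_35))) (by decide +kernel)
theorem L96346 : W_35 (nat_lit 2) (nat_lit 0x200010001800380000000e00078000400000001000000) (nat_lit 0x0) (nat_lit 0x4000000010000000000001000000000000000) := D_35 (nat_lit 112) (nat_lit 60) (nat_lit 146) (nat_lit 4) (nat_lit 10) (nat_lit 7) (nat_lit 4) (nat_lit 10) (nat_lit 8) (by decide +kernel)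
theorem L96347 : W_35 (nat_lit 3) (nat_lit 0x200010001800180000000e00078000400000001000000) (nat_lit 0x0) (nat_lit 0x4000600010000000000001000000000000000) := T_35 (nat_lit 129) (nat_lit 130) (nat_lit 1) (nat_lit 11) (nat_lit 7) L96346 (by decide +kernel)
theorem L96348 : W_35 (nat_lit 4) (nat_lit 0x200010001800180000000e00078000400000000000000) (nat_lit 0x0) (nat_lit 0x4000600010000000000001000020001000000) := T_35 (nat_lit 24) (nat_lit 41) (nat_lit 7) (nat_lit 7) (nat_lit 1) L96347 (by decide +kernel)
theorem L96349 : W_35 (nat_lit 5) (nat_lit 0x200010001000180000000e00078000400000000000000) (nat_lit 0x0) (nat_lit 0x4000000000004800600010000000000001000020001000000) := T_35 (nat_lit 143) (nat_lit 194) (nat_lit 6) (nat_lit 7) (nat_lit 11) L96348 (by decide +kernel)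
theorem L96350 : W_35 (nat_lit 6) (nat_lit 0x200010001000180000000e00078000000000000000000) (nat_lit 0x0) (nat_lit 0x4000000000004800600010000000000001600020001000000) := T_35 (nat_lit 58) (nat_lit 57) (nat_lit 0) (nat_lit 10) (nat_lit 4) L96349 (by decide +kernel)
theorem L96351 : W_35 (nat_lit 7) (nat_lit 0x200010001000080000000e00078000000000000000000) (nat_lit 0x0) (nat_lit 0x4000000000004800700018000000000001600020001000000) := T_35 (nat_lit 128) (nat_lit 111) (nat_lit 5) (nat_lit 9) (nat_lit 4) L96350 (by decide +kernel)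
theorem L96352 : W_35 (nat_lit 8) (nat_lit 0x200010001000080000000600078000000000000000000) (nat_lit 0x0) (nat_lit 0x4000000000004800700018001800000001600020001000000) := T_35 (nat_lit 95) (nat_lit 96) (nat_lit 3) (nat_lit 7) (nat_lit 4) L96351 (by decide +kernel)
theorem L96353 : W_35 (nat_lit 9) (nat_lit 0x200010001000080000000600070000000000000000000) (nat_lit 0x0) (nat_lit 0x400000000000480070001800180000e001700020001000000) := Q_35 (nat_lit 75) (C_35 L95188 (C_35 L96352 (C_35 L94879 N_35))) (by decide +kernel)
theorem L96354 : W_35 (nat_lit 10) (nat_lit 0x200010001000080000000600060000000000000000000) (nat_lit 0x0) (nat_lit 0x400000000000ce007000780039c001e001f000e0003000000) := Q_35 (nat_lit 76) (C_35 L95447 (C_35 L96344 (C_35 L96345 (C_35 L96353 N_35)))) (by decide +kernel)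
theorem L96355 : W_35 (nat_lit 12) (nat_lit 0x200010001000080000000600020000000000000000000) (nat_lit 0x0) (nat_lit 0x400000000000ce007000780039c01de00df007e001f000500) := Q_35 (nat_lit 78) (C_35 L94710 (C_35 L95268 (C_35 L94708 (C_35 L96354 N_35)))) (by decide +kernel)
theorem L96356 : W_35 (nat_lit 12) (nat_lit 0x200010001000080000000600020000000000000000000) (nat_lit 0x0) (nat_lit 0x400000000000ce007000780039c01de00ff002f0013000000) := Q_35 (nat_lit 78) (C_35 L94710 (C_35 L96354 (C_35 L95368 (C_35 L94708 N_35)))) (by decide +kernel)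
theorem L96357 : W_35 (nat_lit 15) (nat_lit 0x200010001000080000000600000000000000000000000) (nat_lit 0x0) (nat_lit 0x400000000000ce00f300f9c079c03fe01ff00ff801f800700) := Q_35 (nat_lit 77) (C_35 L95369 (C_35 L96023 (C_35 L96034 (C_35 L96044 (C_35 L95053 (C_35 L96058 (C_35 L96071 (C_35 L96202 (C_35 L96267 (C_35 L96297 (C_35 L96298 (C_35 L96299 (C_35 L96307 (C_35 L96355 (C_35 L96356 N_35))))))))))))))) (by decide +kernel)
theorem L96358 : W_35 (nat_lit 6) (nat_lit 0x200010001000080000000700000000000000000000000) (nat_lit 0x0) (nat_lit 0x100019c000c0077000000000000000000) := Q_35 (nat_lit 91) (C_35 L95782 (C_35 L94685 (C_35 L94692 N_35))) (by decide +kernel)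
theorem L96359 : W_35 (nat_lit 13) (nat_lit 0x200010001000080000000700000000000000000000000) (nat_lit 0x0) (nat_lit 0x500038001c0004000000008000c000200738018801ec000400020000000000) := Q_35 (nat_lit 95) (C_35 L95863 (C_35 L95850 (C_35 L95823 N_35))) (by decide +kernel)
theorem L96360 : W_35 (nat_lit 6) (nat_lit 0x200010001000080000000700000000000000000000000) (nat_lit 0x0) (nat_lit 0x40000000000008001000780018801dc002000100000000000) := Q_35 (nat_lit 95) (C_35 L95850 (C_35 L95757 (C_35 L95754 (C_35 L95778 N_35)))) (by decide +kernel)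
theorem L96361 : W_35 (nat_lit 2) (nat_lit 0x40002000100010000800084007c002c000000000000000000) (nat_lit 0x0) (nat_lit 0x200030000000000000000000000) := D_35 (nat_lit 89) (nat_lit 105) (nat_lit 88) (nat_lit 1) (nat_lit 7) (nat_lit 5) (nat_lit 2) (nat_lit 3) (nat_lit 5) (by decide +kernel)
theorem L96362 : W_35 (nat_lit 3) (nat_lit 0x40002000100010000800084007c0024000000000000000000) (nat_lit 0x0) (nat_lit 0x200830008000000000000000000) := T_35 (nat_lit 75) (nat_lit 95) (nat_lit 0) (nat_lit 10) (nat_lit 5) L96361 (by decide +kernel)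
theorem L96363 : W_35 (nat_lit 4) (nat_lit 0x40002000100010000800080007c0024000000000000000000) (nat_lit 0x0) (nat_lit 0xe00830008000000000000000000) := T_35 (nat_lit 106) (nat_lit 107) (nat_lit 1) (nat_lit 8) (nat_lit 5) L96362 (by decide +kernel)
theorem L96364 : W_35 (nat_lit 5) (nat_lit 0x4000200010001000080008000780024000000000000000000) (nat_lit 0x0) (nat_lit 0xe00870018000000000000000000) := T_35 (nat_lit 90) (nat_lit 76) (nat_lit 2) (nat_lit 5) (nat_lit 5) L96363 (by decide +kernel)
theorem L96365 : W_35 (nat_lit 6) (nat_lit 0x4000200010001000080008000780004000000000000000000) (nat_lit 0x0) (nat_lit 0x100000e00870038000000000000000000) := T_35 (nat_lit 77) (nat_lit 128) (nat_lit 5) (nat_lit 9) (nat_lit 4) L96364 (by decide +kernel)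
theorem L96366 : W_35 (nat_lit 7) (nat_lit 0x4000200010001000080008000780000000000000000000000) (nat_lit 0x0) (nat_lit 0x100000e0087003e000000000000000000) := T_35 (nat_lit 74) (nat_lit 73) (nat_lit 0) (nat_lit 9) (nat_lit 5) L96365 (by decide +kernel)
theorem L96367 : W_35 (nat_lit 8) (nat_lit 0x4000200010001000080000000780000000000000000000000) (nat_lit 0x0) (nat_lit 0x100018e0087003e000000000000000000) := T_35 (nat_lit 111) (nat_lit 112) (nat_lit 3) (nat_lit 6) (nat_lit 5) L96366 (by decide +kernel)
theorem L96368 : W_35 (nat_lit 9) (nat_lit 0x200010001000080000000780000000000000000000000) (nat_lit 0x0) (nat_lit 0x4000000000000800100018e0087003e000000000000000000) := T_35 (nat_lit 194) (nat_lit 143) (nat_lit 6) (nat_lit 7) (nat_lit 11) L96367 (by decide +kernel)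
theorem L96369 : W_35 (nat_lit 2) (nat_lit 0x4000200010001000080000000f80004000000000000000000) (nat_lit 0x0) (nat_lit 0x38000000000000000000000000000) := D_35 (nat_lit 112) (nat_lit 111) (nat_lit 113) (nat_lit 3) (nat_lit 6) (nat_lit 5) (nat_lit 3) (nat_lit 7) (nat_lit 5) (by decide +kernel)
theorem L96370 : W_35 (nat_lit 3) (nat_lit 0x4000200010001000080000000780004000000000000000000) (nat_lit 0x0) (nat_lit 0x38000800008000000000000000000) := T_35 (nat_lit 95) (nat_lit 75) (nat_lit 0) (nat_lit 10) (nat_lit 5) L96369 (by decide +kernel)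
theorem L96371 : W_35 (nat_lit 4) (nat_lit 0x200010001000080000000780004000000000000000000) (nat_lit 0x0) (nat_lit 0x4000000000000800000038000800008000000000000000000) := T_35 (nat_lit 194) (nat_lit 143) (nat_lit 6) (nat_lit 7) (nat_lit 11) L96370 (by decide +kernel)
theorem L96372 : W_35 (nat_lit 5) (nat_lit 0x200010001000080000000780000000000000000000000) (nat_lit 0x0) (nat_lit 0x400000000000080000003800080000e000000000000000000) := T_35 (nat_lit 74) (nat_lit 73) (nat_lit 0) (nat_lit 9) (nat_lit 5) L96371 (by decide +kernel)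
theorem L96373 : W_35 (nat_lit 2) (nat_lit 0x40002000100010000800080007c0020000000000000000000) (nat_lit 0x0) (nat_lit 0x1c00000000000000000000000000) := D_35 (nat_lit 107) (nat_lit 106) (nat_lit 108) (nat_lit 1) (nat_lit 8) (nat_lit 5) (nat_lit 1) (nat_lit 9) (nat_lit 5) (by decide +kernel)
theorem L96374 : W_35 (nat_lit 3) (nat_lit 0x4000200010001000080008000780020000000000000000000) (nat_lit 0x0) (nat_lit 0x1c00040010000000000000000000) := T_35 (nat_lit 90) (nat_lit 76) (nat_lit 2) (nat_lit 5) (nat_lit 5) L96373 (by decide +kernel)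
theorem L96375 : W_35 (nat_lit 4) (nat_lit 0x4000200010001000080008000780000000000000000000000) (nat_lit 0x0) (nat_lit 0x100001c00040030000000000000000000) := T_35 (nat_lit 77) (nat_lit 128) (nat_lit 5) (nat_lit 9) (nat_lit 4) L96374 (by decide +kernel)
theorem L96376 : W_35 (nat_lit 5) (nat_lit 0x200010001000080008000780000000000000000000000) (nat_lit 0x0) (nat_lit 0x4000000000000800100001c00040030000000000000000000) := T_35 (nat_lit 194) (nat_lit 143) (nat_lit 6) (nat_lit 7) (nat_lit 11) L96375 (by decide +kernel)
theorem L96377 : W_35 (nat_lit 6) (nat_lit 0x200010001000080000000780000000000000000000000) (nat_lit 0x0) (nat_lit 0x4000000000000800100019c00040030000000000000000000) := T_35 (nat_lit 111) (nat_lit 112) (nat_lit 3) (nat_lit 6) (nat_lit 5) L96376 (by decide +kernel)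
theorem L96378 : W_35 (nat_lit 10) (nat_lit 0x200010001000080000000700000000000000000000000) (nat_lit 0x0) (nat_lit 0x400000000000080010003be008f003f000000000000000000) := Q_35 (nat_lit 91) (C_35 L95782 (C_35 L94682 (C_35 L96368 (C_35 L96372 (C_35 L96377 N_35))))) (by decide +kernel)
theorem L96379 : W_35 (nat_lit 2) (nat_lit 0x4000200010001000080002000f00048002000100008000000) (nat_lit 0x0) (nat_lit 0x80004000200) := D_35 (nat_lit 26) (nat_lit 9) (nat_lit 43) (nat_lit 4) (nat_lit 10) (nat_lit 4) (nat_lit 4) (nat_lit 10) (nat_lit 5) (by decide +kernel)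
theorem L96380 : W_35 (nat_lit 3) (nat_lit 0x4000200010001000080002000f00048002000100000000000) (nat_lit 0x0) (nat_lit 0x2000000008000c000200) := T_35 (nat_lit 27) (nat_lit 77) (nat_lit 5) (nat_lit 10) (nat_lit 1) L96379 (by decide +kernel)
theorem L96381 : W_35 (nat_lit 4) (nat_lit 0x4000200010001000080002000f00048002000000000000000) (nat_lit 0x0) (nat_lit 0x800000002000000018000c000200) := T_35 (nat_lit 44) (nat_lit 111) (nat_lit 5) (nat_lit 10) (nat_lit 2) L96380 (by decide +kernel)
theorem L96382 : W_35 (nat_lit 5) (nat_lit 0x200010001000080002000f00048002000000000000000) (nat_lit 0x0) (nat_lit 0x400000000000080000000800000002000000018000c000200) := T_35 (nat_lit 194) (nat_lit 143) (nat_lit 6) (nat_lit 7) (nat_lit 11) L96381 (by decide +kernel)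
theorem L96383 : W_35 (nat_lit 6) (nat_lit 0x200010001000080000000f00048002000000000000000) (nat_lit 0x0) (nat_lit 0x400000000000080000000b00000002000000018000c000200) := T_35 (nat_lit 109) (nat_lit 108) (nat_lit 1) (nat_lit 10) (nat_lit 5) L96382 (by decide +kernel)
theorem L96384 : W_35 (nat_lit 7) (nat_lit 0x200010001000080000000f00040002000000000000000) (nat_lit 0x0) (nat_lit 0x400000000000080000000b00000002c00000018000c000200) := T_35 (nat_lit 75) (nat_lit 74) (nat_lit 0) (nat_lit 10) (nat_lit 5) L96383 (by decide +kernel)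
theorem L96385 : W_35 (nat_lit 2) (nat_lit 0x4000200010001000080010000f00040002000000000000000) (nat_lit 0x0) (nat_lit 0x100008000000000000000100000000000) := D_35 (nat_lit 111) (nat_lit 44) (nat_lit 128) (nat_lit 5) (nat_lit 10) (nat_lit 2) (nat_lit 5) (nat_lit 10) (nat_lit 3) (by decide +kernel)
theorem L96386 : W_35 (nat_lit 3) (nat_lit 0x4000200010001000080000000f00040002000000000000000) (nat_lit 0x0) (nat_lit 0x100038000000000000000100000000000) := T_35 (nat_lit 112) (nat_lit 113) (nat_lit 3) (nat_lit 7) (nat_lit 5) L96385 (by decide +kernel)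
theorem L96387 : W_35 (nat_lit 4) (nat_lit 0x200010001000080000000f00040002000000000000000) (nat_lit 0x0) (nat_lit 0x4000000000000800100038000000000000000100000000000) := T_35 (nat_lit 194) (nat_lit 143) (nat_lit 6) (nat_lit 7) (nat_lit 11) L96386 (by decide +kernel)
theorem L96388 : W_35 (nat_lit 8) (nat_lit 0x200010001000080000000f00040000000000000000000) (nat_lit 0x0) (nat_lit 0x400000000000080010003b00000003c00780038000c000200) := Q_35 (nat_lit 61) (C_35 L95953 (C_35 L96384 (C_35 L96387 N_35))) (by decide +kernel)
theorem L96389 : W_35 (nat_lit 9) (nat_lit 0x200010001000080000000f00000000000000000000000) (nat_lit 0x0) (nat_lit 0x400000000000080010003b0000000fc00780038000c000200) := T_35 (nat_lit 78) (nat_lit 79) (nat_lit 2) (nat_lit 7) (nat_lit 5) L96388 (by decide +kernel)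
theorem L96390 : W_35 (nat_lit 10) (nat_lit 0x200010001000080000000700000000000000000000000) (nat_lit 0x0) (nat_lit 0x400000000000080010007b0018001fc00780038000c000200) := Q_35 (nat_lit 95) (C_35 L95850 (C_35 L95757 (C_35 L95754 (C_35 L96389 N_35)))) (by decide +kernel)
theorem L96391 : W_35 (nat_lit 9) (nat_lit 0x200010001000080000000700000000000000000000000) (nat_lit 0x0) (nat_lit 0x400000000000080000007b8038c01f8000000000000000000) := Q_35 (nat_lit 95) (C_35 L95940 (C_35 L95850 (C_35 L95823 (C_35 L95760 N_35)))) (by decide +kernel)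
theorem L96392 : W_35 (nat_lit 14) (nat_lit 0x200010001000080000000600000000000000000000000) (nat_lit 0x0) (nat_lit 0x500038001c0004000000008000c0012007be039f01ff007c003a000c000200) := Q_35 (nat_lit 92) (C_35 L95761 (C_35 L94686 (C_35 L94698 (C_35 L96358 (C_35 L96359 (C_35 L96360 (C_35 L96378 (C_35 L96390 (C_35 L96391 N_35))))))))) (by decide +kernel)
theorem L96393 : W_35 (nat_lit 4) (nat_lit 0x80004000200010001000080000000600000000000000000000000) (nat_lit 0x0) (nat_lit 0x40003000100000000100008000400000000000000000000000000000000000) := T_35 (nat_lit 159) (nat_lit 142) (nat_lit 4) (nat_lit 7) (nat_lit 12) L95797 (by decide +kernel)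
theorem L96394 : W_35 (nat_lit 2) (nat_lit 0x7c0004000200018001000080000000600000000000000000000000) (nat_lit 0x0) (nat_lit 0x1c000000000000000000000000000000000000000000000000000000000) := D_35 (nat_lit 231) (nat_lit 230) (nat_lit 232) (nat_lit 3) (nat_lit 6) (nat_lit 12) (nat_lit 3) (nat_lit 7) (nat_lit 12) (by decide +kernel)
theorem L96395 : W_35 (nat_lit 3) (nat_lit 0x780004000200018001000080000000600000000000000000000000) (nat_lit 0x0) (nat_lit 0x1c800040000000000000000000000000000000000000000000000000000) := T_35 (nat_lit 210) (nat_lit 227) (nat_lit 5) (nat_lit 7) (nat_lit 9) L96394 (by decide +kernel)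
theorem L96396 : W_35 (nat_lit 4) (nat_lit 0x380004000200018001000080000000600000000000000000000000) (nat_lit 0x0) (nat_lit 0x1c800440002000000000000000000000000000000000000000000000000) := T_35 (nat_lit 214) (nat_lit 193) (nat_lit 0) (nat_lit 10) (nat_lit 12) L96395 (by decide +kernel)
theorem L96397 : W_35 (nat_lit 5) (nat_lit 0x380004000200010001000080000000600000000000000000000000) (nat_lit 0x0) (nat_lit 0x1c800440002000000008000400000000000000000000000000000000000) := T_35 (nat_lit 159) (nat_lit 142) (nat_lit 4) (nat_lit 7) (nat_lit 12) L96396 (by decide +kernel)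
theorem L96398 : W_35 (nat_lit 2) (nat_lit 0x42003e0014800200010001000080000000600000000000000000000000) (nat_lit 0x0) (nat_lit 0x100010000400000000000000000000000000000000000000000000000) := D_35 (nat_lit 208) (nat_lit 224) (nat_lit 190) (nat_lit 1) (nat_lit 7) (nat_lit 12) (nat_lit 0) (nat_lit 7) (nat_lit 12) (by decide +kernel)
theorem L96399 : W_35 (nat_lit 3) (nat_lit 0x42003e0014000200010001000080000000600000000000000000000000) (nat_lit 0x0) (nat_lit 0x100010001c00000000000000000000000000000000000000000000000) := T_35 (nat_lit 191) (nat_lit 192) (nat_lit 0) (nat_lit 8) (nat_lit 12) L96398 (by decide +kernel)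
theorem L96400 : W_35 (nat_lit 4) (nat_lit 0x40003e0014000200010001000080000000600000000000000000000000) (nat_lit 0x0) (nat_lit 0x700010001c00000000000000000000000000000000000000000000000) := T_35 (nat_lit 225) (nat_lit 226) (nat_lit 1) (nat_lit 8) (nat_lit 12) L96399 (by decide +kernel)
theorem L96401 : W_35 (nat_lit 5) (nat_lit 0x40003c0014000200010001000080000000600000000000000000000000) (nat_lit 0x0) (nat_lit 0x700030009c00000000000000000000000000000000000000000000000) := T_35 (nat_lit 209) (nat_lit 195) (nat_lit 2) (nat_lit 5) (nat_lit 12) L96400 (by decide +kernel)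
theorem L96402 : W_35 (nat_lit 6) (nat_lit 0x40003c0004000200010001000080000000600000000000000000000000) (nat_lit 0x0) (nat_lit 0x700030039c00000000000000000000000000000000000000000000000) := T_35 (nat_lit 196) (nat_lit 197) (nat_lit 2) (nat_lit 6) (nat_lit 12) L96401 (by decide +kernel)
theorem L96403 : W_35 (nat_lit 7) (nat_lit 0x3c0004000200010001000080000000600000000000000000000000) (nat_lit 0x0) (nat_lit 0xc700030039c00000000000000000000000000000000000000000000000) := T_35 (nat_lit 230) (nat_lit 231) (nat_lit 3) (nat_lit 6) (nat_lit 12) L96402 (by decide +kernel)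
theorem L96404 : W_35 (nat_lit 8) (nat_lit 0x380004000200010001000080000000600000000000000000000000) (nat_lit 0x0) (nat_lit 0xcf00070039c00000000000000000000000000000000000000000000000) := T_35 (nat_lit 210) (nat_lit 227) (nat_lit 5) (nat_lit 7) (nat_lit 9) L96403 (by decide +kernel)
theorem L96405 : W_35 (nat_lit 2) (nat_lit 0xf80004000200018001000080000000600000000000000000000000) (nat_lit 0x0) (nat_lit 0x38000000000000000000000000000000000000000000000000000000000) := D_35 (nat_lit 232) (nat_lit 231) (nat_lit 233) (nat_lit 3) (nat_lit 7) (nat_lit 12) (nat_lit 3) (nat_lit 8) (nat_lit 12) (by decide +kernel)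
theorem L96406 : W_35 (nat_lit 3) (nat_lit 0x780004000200018001000080000000600000000000000000000000) (nat_lit 0x0) (nat_lit 0x38000800008000000000000000000000000000000000000000000000000) := T_35 (nat_lit 215) (nat_lit 195) (nat_lit 0) (nat_lit 11) (nat_lit 12) L96405 (by decide +kernel)
theorem L96407 : W_35 (nat_lit 4) (nat_lit 0x380004000200018001000080000000600000000000000000000000) (nat_lit 0x0) (nat_lit 0x38000c0000a000000000000000000000000000000000000000000000000) := T_35 (nat_lit 214) (nat_lit 193) (nat_lit 0) (nat_lit 10) (nat_lit 12) L96406 (by decide +kernel)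
theorem L96408 : W_35 (nat_lit 5) (nat_lit 0x380004000200010001000080000000600000000000000000000000) (nat_lit 0x0) (nat_lit 0x38000c0000a000000008000400000000000000000000000000000000000) := T_35 (nat_lit 159) (nat_lit 142) (nat_lit 4) (nat_lit 7) (nat_lit 12) L96407 (by decide +kernel)
theorem L96409 : W_35 (nat_lit 2) (nat_lit 0x7c0004000200010001000080000000600000000000000000000000) (nat_lit 0x0) (nat_lit 0x70000000000000000000000000000000000000000000000000) := D_35 (nat_lit 197) (nat_lit 196) (nat_lit 198) (nat_lit 2) (nat_lit 6) (nat_lit 12) (nat_lit 2) (nat_lit 7) (nat_lit 12) (by decide +kernel)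
theorem L96410 : W_35 (nat_lit 3) (nat_lit 0x780004000200010001000080000000600000000000000000000000) (nat_lit 0x0) (nat_lit 0x800040070000000000000000000000000000000000000000000000000) := T_35 (nat_lit 210) (nat_lit 227) (nat_lit 5) (nat_lit 7) (nat_lit 9) L96409 (by decide +kernel)
theorem L96411 : W_35 (nat_lit 4) (nat_lit 0x380004000200010001000080000000600000000000000000000000) (nat_lit 0x0) (nat_lit 0x800440072000000000000000000000000000000000000000000000000) := T_35 (nat_lit 214) (nat_lit 193) (nat_lit 0) (nat_lit 10) (nat_lit 12) L96410 (by decide +kernel)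
theorem L96412 : W_35 (nat_lit 9) (nat_lit 0x180004000200010001000080000000600000000000000000000000) (nat_lit 0x0) (nat_lit 0x3cf00e7007bc00000008000400000000000000000000000000000000000) := Q_35 (nat_lit 213) (C_35 L96397 (C_35 L96404 (C_35 L96408 (C_35 L96411 N_35)))) (by decide +kernel)
theorem L96413 : W_35 (nat_lit 10) (nat_lit 0x80004000200010001000080000000600000000000000000000000) (nat_lit 0x0) (nat_lit 0x3ef00f7007bc00000008000400000000000000000000000000000000000) := T_35 (nat_lit 212) (nat_lit 229) (nat_lit 7) (nat_lit 7) (nat_lit 9) L96412 (by decide +kernel)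
theorem L96414 : W_35 (nat_lit 2) (nat_lit 0x800020001a00580004000300010001000080000000600000000000000000000000) (nat_lit 0x0) (nat_lit 0x10000400000000000000008000000000000000000000000000000000000000000000000) := D_35 (nat_lit 262) (nat_lit 195) (nat_lit 280) (nat_lit 6) (nat_lit 7) (nat_lit 15) (nat_lit 7) (nat_lit 7) (nat_lit 12) (by decide +kernel)
theorem L96415 : W_35 (nat_lit 3) (nat_lit 0x20001a00580004000300010001000080000000600000000000000000000000) (nat_lit 0x0) (nat_lit 0x10000c00040000000000008000000000000000000000000000000000000000000000000) := T_35 (nat_lit 263) (nat_lit 246) (nat_lit 7) (nat_lit 7) (nat_lit 11) L96414 (by decide +kernel)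
theorem L96416 : W_35 (nat_lit 4) (nat_lit 0x20001a00180004000300010001000080000000600000000000000000000000) (nat_lit 0x0) (nat_lit 0x10000c00040000000600008000000000000000000000000000000000000000000000000) := T_35 (nat_lit 214) (nat_lit 213) (nat_lit 1) (nat_lit 10) (nat_lit 12) L96415 (by decide +kernel)
theorem L96417 : W_35 (nat_lit 5) (nat_lit 0x1a00180004000300010001000080000000600000000000000000000000) (nat_lit 0x0) (nat_lit 0x10000c0006000000060000a000000000000000000000000000000000000000000000000) := T_35 (nat_lit 245) (nat_lit 193) (nat_lit 4) (nat_lit 7) (nat_lit 14) L96416 (by decide +kernel)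
theorem L96418 : W_35 (nat_lit 6) (nat_lit 0x1800180004000300010001000080000000600000000000000000000000) (nat_lit 0x0) (nat_lit 0x10000c0006000060060000a000000000000000000000000000000000000000000000000) := T_35 (nat_lit 225) (nat_lit 226) (nat_lit 2) (nat_lit 4) (nat_lit 13) L96417 (by decide +kernel)
theorem L96419 : W_35 (nat_lit 7) (nat_lit 0x1800180004000200010001000080000000600000000000000000000000) (nat_lit 0x0) (nat_lit 0x10000c0006000060060000a000100008000000000000000000000000000000000000000) := T_35 (nat_lit 176) (nat_lit 159) (nat_lit 4) (nat_lit 7) (nat_lit 13) L96418 (by decide +kernel)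
theorem L96420 : W_35 (nat_lit 8) (nat_lit 0x800180004000200010001000080000000600000000000000000000000) (nat_lit 0x0) (nat_lit 0x10000c0007000160060000a000100008000000000000000000000000000000000000000) := T_35 (nat_lit 228) (nat_lit 244) (nat_lit 5) (nat_lit 7) (nat_lit 10) L96419 (by decide +kernel)
theorem L96421 : W_35 (nat_lit 9) (nat_lit 0x800080004000200010001000080000000600000000000000000000000) (nat_lit 0x0) (nat_lit 0x10000c0007000360070000a000100008000000000000000000000000000000000000000) := T_35 (nat_lit 212) (nat_lit 229) (nat_lit 7) (nat_lit 7) (nat_lit 9) L96420 (by decide +kernel)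
theorem L96422 : W_35 (nat_lit 10) (nat_lit 0x80004000200010001000080000000600000000000000000000000) (nat_lit 0x0) (nat_lit 0x10000c00070003e0074000a000100008000000000000000000000000000000000000000) := T_35 (nat_lit 227) (nat_lit 210) (nat_lit 5) (nat_lit 7) (nat_lit 9) L96421 (by decide +kernel)
theorem L96423 : W_35 (nat_lit 2) (nat_lit 0x2800080004000200010001000080000000600000000000000000000000) (nat_lit 0x0) (nat_lit 0x50001000000000000000000000000000000000000000000000000000000000) := D_35 (nat_lit 228) (nat_lit 244) (nat_lit 246) (nat_lit 5) (nat_lit 7) (nat_lit 10) (nat_lit 7) (nat_lit 7) (nat_lit 10) (by decide +kernel)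
theorem L96424 : W_35 (nat_lit 3) (nat_lit 0x800080004000200010001000080000000600000000000000000000000) (nat_lit 0x0) (nat_lit 0x50003000100000000000000000000000000000000000000000000000000000) := T_35 (nat_lit 229) (nat_lit 212) (nat_lit 7) (nat_lit 7) (nat_lit 9) L96423 (by decide +kernel)
theorem L96425 : W_35 (nat_lit 4) (nat_lit 0x80004000200010001000080000000600000000000000000000000) (nat_lit 0x0) (nat_lit 0x50003800140000000000000000000000000000000000000000000000000000) := T_35 (nat_lit 227) (nat_lit 210) (nat_lit 5) (nat_lit 7) (nat_lit 9) L96424 (by decide +kernel)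
theorem L96426 : W_35 (nat_lit 2) (nat_lit 0x2000600010000c0004000200018001000080000000600000000000000000000000) (nat_lit 0x0) (nat_lit 0x4000400000000000000002000000000000000000000000000000000000000000000000) := D_35 (nat_lit 262) (nat_lit 193) (nat_lit 278) (nat_lit 4) (nat_lit 7) (nat_lit 15) (nat_lit 5) (nat_lit 7) (nat_lit 12) (by decide +kernel)
theorem L96427 : W_35 (nat_lit 3) (nat_lit 0x600010000c0004000200018001000080000000600000000000000000000000) (nat_lit 0x0) (nat_lit 0x4000600010000000000002000000000000000000000000000000000000000000000000) := T_35 (nat_lit 261) (nat_lit 244) (nat_lit 5) (nat_lit 7) (nat_lit 11) L96426 (by decide +kernel)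
theorem L96428 : W_35 (nat_lit 4) (nat_lit 0x400010000c0004000200018001000080000000600000000000000000000000) (nat_lit 0x0) (nat_lit 0x4000e00030000000000002000000000000000000000000000000000000000000000000) := T_35 (nat_lit 245) (nat_lit 263) (nat_lit 7) (nat_lit 7) (nat_lit 11) L96427 (by decide +kernel)
theorem L96429 : W_35 (nat_lit 5) (nat_lit 0x10000c0004000200018001000080000000600000000000000000000000) (nat_lit 0x0) (nat_lit 0x4000e00070002000000002000000000000000000000000000000000000000000000000) := T_35 (nat_lit 246) (nat_lit 229) (nat_lit 7) (nat_lit 7) (nat_lit 10) L96428 (by decide +kernel)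
theorem L96430 : W_35 (nat_lit 6) (nat_lit 0xc0004000200018001000080000000600000000000000000000000) (nat_lit 0x0) (nat_lit 0x4000e00070003000000002000100000000000000000000000000000000000000000000) := T_35 (nat_lit 228) (nat_lit 176) (nat_lit 4) (nat_lit 7) (nat_lit 13) L96429 (by decide +kernel)
theorem L96431 : W_35 (nat_lit 7) (nat_lit 0xc0004000200010001000080000000600000000000000000000000) (nat_lit 0x0) (nat_lit 0x4000e00070003000000002000100008000400000000000000000000000000000000000) := T_35 (nat_lit 159) (nat_lit 142) (nat_lit 4) (nat_lit 7) (nat_lit 12) L96430 (by decide +kernel)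
theorem L96432 : W_35 (nat_lit 8) (nat_lit 0x80004000200010001000080000000600000000000000000000000) (nat_lit 0x0) (nat_lit 0x4000e00070003800040002000100008000400000000000000000000000000000000000) := T_35 (nat_lit 210) (nat_lit 227) (nat_lit 5) (nat_lit 7) (nat_lit 9) L96431 (by decide +kernel)
theorem L96433 : W_35 (nat_lit 3) (nat_lit 0x80004000200018001000080000000600000000000000000000000) (nat_lit 0x0) (nat_lit 0x10001800040000000100000000000000000000000000000000000000000000) := T_35 (nat_lit 227) (nat_lit 210) (nat_lit 5) (nat_lit 7) (nat_lit 9) L95798 (by decide +kernel)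
theorem L96434 : W_35 (nat_lit 4) (nat_lit 0x80004000200010001000080000000600000000000000000000000) (nat_lit 0x0) (nat_lit 0x10001800040000000100008000400000000000000000000000000000000000) := T_35 (nat_lit 159) (nat_lit 142) (nat_lit 4) (nat_lit 7) (nat_lit 12) L96433 (by decide +kernel)
theorem L96435 : W_35 (nat_lit 11) (nat_lit 0x4000200010001000080000000600000000000000000000000) (nat_lit 0x0) (nat_lit 0x14000e0007003ff00ff007bc00100008000400000000000000000000000000000000000) := Q_35 (nat_lit 211) (C_35 L96393 (C_35 L96413 (C_35 L96422 (C_35 L96425 (C_35 L96432 (C_35 L96434 N_35)))))) (by decide +kernel)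
theorem L96436 : W_35 (nat_lit 12) (nat_lit 0x200010001000080000000600000000000000000000000) (nat_lit 0x0) (nat_lit 0x14000e0007003ff00ff007fc00100008000c00000000000000000000000000000000000) := T_35 (nat_lit 194) (nat_lit 143) (nat_lit 6) (nat_lit 7) (nat_lit 11) L96435 (by decide +kernel)
theorem L96437 : W_35 (nat_lit 16) (nat_lit 0x200010001000080000000200000000000000000000000) (nat_lit 0x0) (nat_lit 0x14000e0007003ff00ff007fc079003c807ce00f301fbe0fdf0fff01ff00ff801f800700) := Q_35 (nat_lit 94) (C_35 L95528 (C_35 L96009 (C_35 L96357 (C_35 L96392 (C_35 L96436 N_35))))) (by decide +kernel)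
theorem L96438 : W_35 (nat_lit 17) (nat_lit 0x200010001000080000000000000000000000000000000) (nat_lit 0x0) (nat_lit 0x14000e0007003ff00ff007fc079003c807ce00f303ffe0fff0fff01ff00ff803fc00780) := Q_35 (nat_lit 93) (C_35 L95794 (C_35 L95795 (C_35 L96437 N_35))) (by decide +kernel)
theorem L96439 : W_35 (nat_lit 2) (nat_lit 0x4000200010001000080000000000000000000000000000000) (nat_lit 0x0) (nat_lit 0x80000000000020000000000004000000000000000000000000000) := D_35 (nat_lit 161) (nat_lit 110) (nat_lit 211) (nat_lit 5) (nat_lit 8) (nat_lit 6) (nat_lit 6) (nat_lit 7) (nat_lit 12) (by decide +kernel)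
theorem L96440 : W_35 (nat_lit 3) (nat_lit 0x200010001000080000000000000000000000000000000) (nat_lit 0x0) (nat_lit 0x80004000000020000800000004000000000000000000000000000) := T_35 (nat_lit 194) (nat_lit 143) (nat_lit 6) (nat_lit 7) (nat_lit 11) L96439 (by decide +kernel)
theorem L96441 : W_35 (nat_lit 5) (nat_lit 0x4000200010001000080000000000000000000000000000000) (nat_lit 0x0) (nat_lit 0x100018000c0000000100028000400000000000000000000000000000000000) := T_35 (nat_lit 211) (nat_lit 161) (nat_lit 6) (nat_lit 7) (nat_lit 12) L94572 (by decide +kernel)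
theorem L96442 : W_35 (nat_lit 6) (nat_lit 0x200010001000080000000000000000000000000000000) (nat_lit 0x0) (nat_lit 0x100018000c0004000100028000c00000000000000000000000000000000000) := T_35 (nat_lit 194) (nat_lit 143) (nat_lit 6) (nat_lit 7) (nat_lit 11) L96441 (by decide +kernel)
theorem L96443 : W_35 (nat_lit 2) (nat_lit 0x200010001800080000000000000000000000000000000) (nat_lit 0x0) (nat_lit 0x20000000000004000200000000000000000000000) := D_35 (nat_lit 110) (nat_lit 161) (nat_lit 93) (nat_lit 5) (nat_lit 8) (nat_lit 6) (nat_lit 5) (nat_lit 8) (nat_lit 5) (by decide +kernel)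
theorem L96444 : W_35 (nat_lit 3) (nat_lit 0x200010001000080000000000000000000000000000000) (nat_lit 0x0) (nat_lit 0x4000000020000800000004000200000000000000000000000) := T_35 (nat_lit 143) (nat_lit 194) (nat_lit 6) (nat_lit 7) (nat_lit 11) L96443 (by decide +kernel)
theorem L96447 : W_35 (nat_lit 18) (nat_lit 0x200000001000080000000000000000000000000000000) (nat_lit 0x0) (nat_lit 0x7f803fe01ff07ffe1ffe1fff879f03ffc7cf80f383ffe0fff0fff01ff00ff803fc00780) := Q_35 (nat_lit 160) (C_35 L94574 (C_35 L96438 (C_35 L96440 (C_35 L96442 (C_35 L96444 (C_35 L96446 N_35)))))) (by decide +kernel)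
end Crest.Agent.Helper32.Snaky.R1_0
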