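import Crest.Agent.Helper32.Snaky.Gen.R1_0_p28
set_option autoImplicit false
set_option maxRecDepth 100000
set_option linter.all false
set_option Elab.async false
namespace Crest.Agent.Helper32.Snaky.R1_0
@[reducible] def W_36 (d M Bz Z : Nat) : Prop := Crest.Agent.Helper32.Snaky.Wins (nat_lit 17) d M Bz Z
theorem D_36 {d M Bz Z : Nat} (m t1 t2 o1 x1 y1 o2 x2 y2 : Nat) (h : Crest.Agent.Helper32.Snaky.chkDoubleC (nat_lit 17) d M Bz Z m t1 t2 o1 x1 y1 o2 x2 y2 = true) : W_36 d M Bz Z := Crest.Agent.Helper32.Snaky.doubleC m t1 t2 o1 x1 y1 o2 x2 y2 h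
theorem T_36 {d M Bz Z cd cM cBz cZ : Nat} (m t o x y : Nat) (child : W_36 cd cM cBz cZ) (h : Crest.Agent.Helper32.Snaky.chkThreatC (nat_lit 17) d M Bz Z cd cM cBz cZ m t o x y = true) : W_36 d M Bz Z := Crest.Agent.Helper32.Snaky.threatC m t o x y child h
theorem Q_36 {d M Bz Z : Nat} (m : Nat) {l : List Crest.Agent.Helper32.Snaky.Spec} (kids : Crest.Agent.Helper32.Snaky.AllWins (nat_lit 17) l) (h : Crest.Agent.Helper32.Snaky.chkQuiet d M Bz Z m l = true) : W_36 d M Bz Z := Crest.Agent.Helper32.Snaky.quiet m kids h
theorem C_36 {cd cM cBz cZ : Nat} {l : List Crest.Agent.Helper32.Snaky.Spec} (h : W_36 cd cM cBz cZ) (hl : Crest.Agent.Helper32.Snaky.AllWins (nat_lit 17) l) : Crest.Agent.Helper32.Snaky.AllWins (nat_lit 17) ((cd, cM, cBz, cZ) :: l) := Crest.Agent.Helper32.Snaky.AllWins.cons h hl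
theorem N_36 : Crest.Agent.Helper32.Snaky.AllWins (nat_lit 17) [] := Crest.Agent.Helper32.Snaky.AllWins.nil
theorem L76247 : W_36 (nat_lit 2) (nat_lit 0x600020001000080004000000000000000000000000000) (nat_lit 0x0) (nat_lit 0x10000800040000000000000000000000000000000000000000) := D_36 (nat_lit 179) (nat_lit 162) (nat_lit 196) (nat_lit 7) (nat_lit 8) (nat_lit 6) (nat_lit 7) (nat_lit 8) (nat_lit 7) (by decide +kernel)
theorem L76248 : W_36 (nat_lit 3) (nat_lit 0x200020001000080004000000000000000000000000000) (nat_lit 0x0) (nat_lit 0x14000c00040000000000000000000000000000000000000000) := T_36 (nat_lit 178) (nat_lit 194) (nat_lit 5) (nat_lit 8) (nat_lit 7) L76247 (by decide +kernel)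
theorem L76249 : W_36 (nat_lit 4) (nat_lit 0x200020001000080000000000000000000000000000000) (nat_lit 0x0) (nat_lit 0x14000c00050000000000004000000000000000000000000000) := T_36 (nat_lit 110) (nat_lit 160) (nat_lit 5) (nat_lit 8) (nat_lit 6) L76248 (by decide +kernel)
theorem L76250 : W_36 (nat_lit 2) (nat_lit 0x200030001000080000000000000000000000000000000) (nat_lit 0x0) (nat_lit 0x80004000000000000800000000000000000000000000000000000) := D_36 (nat_lit 194) (nat_lit 143) (nat_lit 211) (nat_lit 6) (nat_lit 7) (nat_lit 11) (nat_lit 6) (nat_lit 7) (nat_lit 12) (by decide +kernel)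
theorem L76251 : W_36 (nat_lit 3) (nat_lit 0x200020001000080000000000000000000000000000000) (nat_lit 0x0) (nat_lit 0x80004000000010000800000004000000000000000000000000000) := T_36 (nat_lit 160) (nat_lit 110) (nat_lit 5) (nat_lit 8) (nat_lit 6) L76250 (by decide +kernel)
theorem L76259 : W_36 (nat_lit 5) (nat_lit 0x200020001000080000000000000000000000000000000) (nat_lit 0x0) (nat_lit 0x10000c0005000000010000c000400000000000000000000000) := T_36 (nat_lit 110) (nat_lit 160) (nat_lit 5) (nat_lit 8) (nat_lit 6) L76258 (by decide +kernel)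
theorem L76262 : W_36 (nat_lit 7) (nat_lit 0x200000001000080000000000000000000000000000000) (nat_lit 0x0) (nat_lit 0x80014000d800f000080010000c000400000000000000000000000) := Q_36 (nat_lit 161) (C_36 L76249 (C_36 L76251 (C_36 L76255 (C_36 L76259 (C_36 L76261 N_36))))) (by decide +kernel)
theorem L76265 : W_36 (nat_lit 2) (nat_lit 0xe00020001000080004000500000000000000000000000) (nat_lit 0x0) (nat_lit 0x200028000000000000000000) := D_36 (nat_lit 93) (nat_lit 77) (nat_lit 75) (nat_lit 6) (nat_lit 8) (nat_lit 8) (nat_lit 4) (nat_lit 8) (nat_lit 8) (by decide +kernel)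
theorem L76266 : W_36 (nat_lit 3) (nat_lit 0xe00020001000080004000400000000000000000000000) (nat_lit 0x0) (nat_lit 0x2000300028000000000000000000) := T_36 (nat_lit 92) (nat_lit 109) (nat_lit 4) (nat_lit 8) (nat_lit 9) L76265 (by decide +kernel)
theorem L76267 : W_36 (nat_lit 4) (nat_lit 0xe00020001000080004000000000000000000000000000) (nat_lit 0x0) (nat_lit 0xa000700028000000000000000000) := T_36 (nat_lit 94) (nat_lit 111) (nat_lit 6) (nat_lit 8) (nat_lit 9) L76266 (by decide +kernel)
theorem L76268 : W_36 (nat_lit 5) (nat_lit 0xe00020001000080000000000000000000000000000000) (nat_lit 0x0) (nat_lit 0x4000000000000e000700028000000000000000000) := T_36 (nat_lit 110) (nat_lit 162) (nat_lit 7) (nat_lit 8) (nat_lit 6) L76267 (by decide +kernel)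
theorem L76269 : W_36 (nat_lit 6) (nat_lit 0x600020001000080000000000000000000000000000000) (nat_lit 0x0) (nat_lit 0x1000080004000000000000e000700028000000000000000000) := T_36 (nat_lit 179) (nat_lit 196) (nat_lit 7) (nat_lit 8) (nat_lit 7) L76268 (by decide +kernel)
theorem L76270 : W_36 (nat_lit 7) (nat_lit 0x200020001000080000000000000000000000000000000) (nat_lit 0x0) (nat_lit 0x14000c0004000000000000e000700028000000000000000000) := T_36 (nat_lit 178) (nat_lit 194) (nat_lit 5) (nat_lit 8) (nat_lit 7) L76269 (by decide +kernel)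
theorem L76276 : W_36 (nat_lit 8) (nat_lit 0x200000001000080000000000000000000000000000000) (nat_lit 0x0) (nat_lit 0x80014000c0007000080000000e000700028000000000000000000) := Q_36 (nat_lit 161) (C_36 L76264 (C_36 L76270 (C_36 L76261 (C_36 L76275 N_36)))) (by decide +kernel)
theorem L76277 : W_36 (nat_lit 2) (nat_lit 0x42001f00128001000180000000000000000000000000000000) (nat_lit 0x0) (nat_lit 0x80002000200000000000000000000000000000000000000000) := D_36 (nat_lit 181) (nat_lit 199) (nat_lit 165) (nat_lit 3) (nat_lit 8) (nat_lit 10) (nat_lit 2) (nat_lit 8) (nat_lit 10) (by decide +kernel)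
theorem L76278 : W_36 (nat_lit 3) (nat_lit 0x42001f00028001000180000000000000000000000000000000) (nat_lit 0x0) (nat_lit 0x80002000380000000000000000000000000000000000000000) := T_36 (nat_lit 164) (nat_lit 163) (nat_lit 2) (nat_lit 7) (nat_lit 10) L76277 (by decide +kernel)
theorem L76279 : W_36 (nat_lit 4) (nat_lit 0x2001f00028001000180000000000000000000000000000000) (nat_lit 0x0) (nat_lit 0xe0002000380000000000000000000000000000000000000000) := T_36 (nat_lit 198) (nat_lit 197) (nat_lit 3) (nat_lit 7) (nat_lit 10) L76278 (by decide +kernel)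
theorem L76280 : W_36 (nat_lit 5) (nat_lit 0x2000f00028001000180000000000000000000000000000000) (nat_lit 0x0) (nat_lit 0xe0003000390000000000000000000000000000000000000000) := T_36 (nat_lit 180) (nat_lit 160) (nat_lit 0) (nat_lit 10) (nat_lit 10) L76279 (by decide +kernel)
theorem L76281 : W_36 (nat_lit 6) (nat_lit 0x2000f00028001000080000000000000000000000000000000) (nat_lit 0x0) (nat_lit 0xe0003000390000000100008000000000000000000000000000) := T_36 (nat_lit 128) (nat_lit 111) (nat_lit 6) (nat_lit 8) (nat_lit 10) L76280 (by decide +kernel)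
theorem L76282 : W_36 (nat_lit 7) (nat_lit 0x2000f00020001000080000000000000000000000000000000) (nat_lit 0x0) (nat_lit 0xe000300039c000000100008000000000000000000000000000) := T_36 (nat_lit 159) (nat_lit 158) (nat_lit 0) (nat_lit 9) (nat_lit 10) L76281 (by decide +kernel)
theorem L76283 : W_36 (nat_lit 8) (nat_lit 0xf00020001000080000000000000000000000000000000) (nat_lit 0x0) (nat_lit 0xe300300039c000000100008000000000000000000000000000) := T_36 (nat_lit 193) (nat_lit 192) (nat_lit 1) (nat_lit 9) (nat_lit 10) L76282 (by decide +kernel)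
theorem L76284 : W_36 (nat_lit 9) (nat_lit 0x700020001000080000000000000000000000000000000) (nat_lit 0x0) (nat_lit 0xf300380039c000000100008000000000000000000000000000) := T_36 (nat_lit 179) (nat_lit 196) (nat_lit 7) (nat_lit 8) (nat_lit 7) L76283 (by decide +kernel)
theorem L76285 : W_36 (nat_lit 10) (nat_lit 0x600020001000080000000000000000000000000000000) (nat_lit 0x0) (nat_lit 0xfbc079c03dc000000100008000000000000000000000000000) := Q_36 (nat_lit 176) (C_36 L4935 (C_36 L4938 (C_36 L5699 (C_36 L76284 N_36)))) (by decide +kernel)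
theorem L76286 : W_36 (nat_lit 11) (nat_lit 0x200020001000080000000000000000000000000000000) (nat_lit 0x0) (nat_lit 0xffc07dc03dc000000100008000000000000000000000000000) := T_36 (nat_lit 178) (nat_lit 194) (nat_lit 5) (nat_lit 8) (nat_lit 7) L76285 (by decide +kernel)
theorem L76287 : W_36 (nat_lit 4) (nat_lit 0x200020001000080000000000000000000000000000000) (nat_lit 0x0) (nat_lit 0x400040001000000010000c000400000000000000000000000) := T_36 (nat_lit 178) (nat_lit 194) (nat_lit 5) (nat_lit 8) (nat_lit 7) L577 (by decide +kernel)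
theorem L76288 : W_36 (nat_lit 12) (nat_lit 0x200000001000080000000000000000000000000000000) (nat_lit 0x0) (nat_lit 0xffc07dc03fc00000010000e000700028000000000000000000) := Q_36 (nat_lit 161) (C_36 L76286 (C_36 L76275 (C_36 L76255 (C_36 L76287 (C_36 L76264 N_36))))) (by decide +kernel)
theorem L76289 : W_36 (nat_lit 6) (nat_lit 0x600000001000080000000000000000000000000000000) (nat_lit 0x0) (nat_lit 0x140009800e000000010000c000000000000000000000000000) := T_36 (nat_lit 161) (nat_lit 194) (nat_lit 5) (nat_lit 8) (nat_lit 7) L76254 (by decide +kernel)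
theorem L76290 : W_36 (nat_lit 5) (nat_lit 0x600000001000080000000000000000000000000000000) (nat_lit 0x0) (nat_lit 0x140009800e0000000000004000000000000000000000000000) := T_36 (nat_lit 161) (nat_lit 194) (nat_lit 5) (nat_lit 8) (nat_lit 7) L1739 (by decide +kernel)
theorem L76291 : W_36 (nat_lit 2) (nat_lit 0xe00020001000080008000000000000000000000000000) (nat_lit 0x0) (nat_lit 0x40000000000004000400000000000000000000000) := D_36 (nat_lit 110) (nat_lit 162) (nat_lit 94) (nat_lit 7) (nat_lit 8) (nat_lit 6) (nat_lit 6) (nat_lit 8) (nat_lit 9) (by decide +kernel)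
theorem L76292 : W_36 (nat_lit 3) (nat_lit 0x600020001000080008000000000000000000000000000) (nat_lit 0x0) (nat_lit 0x10000800040000000000004000400000000000000000000000) := T_36 (nat_lit 179) (nat_lit 196) (nat_lit 7) (nat_lit 8) (nat_lit 7) L76291 (by decide +kernel)
theorem L76293 : W_36 (nat_lit 4) (nat_lit 0x600020001000080000000000000000000000000000000) (nat_lit 0x0) (nat_lit 0x1000080004000000010000c000400000000000000000000000) := T_36 (nat_lit 111) (nat_lit 128) (nat_lit 6) (nat_lit 8) (nat_lit 10) L76292 (by decide +kernel)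
theorem L76294 : W_36 (nat_lit 5) (nat_lit 0x600000001000080000000000000000000000000000000) (nat_lit 0x0) (nat_lit 0x1400080006000000010000c000400000000000000000000000) := T_36 (nat_lit 161) (nat_lit 194) (nat_lit 5) (nat_lit 8) (nat_lit 7) L76293 (by decide +kernel)
theorem L76295 : W_36 (nat_lit 2) (nat_lit 0xe00020001000080004000000000000000000000000000) (nat_lit 0x0) (nat_lit 0x100008000400000000000000000000000) := D_36 (nat_lit 111) (nat_lit 94) (nat_lit 128) (nat_lit 6) (nat_lit 8) (nat_lit 9) (nat_lit 6) (nat_lit 8) (nat_lit 10) (by decide +kernel)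
theorem L76296 : W_36 (nat_lit 3) (nat_lit 0xe00020001000080000000000000000000000000000000) (nat_lit 0x0) (nat_lit 0x4000000010000c000400000000000000000000000) := T_36 (nat_lit 110) (nat_lit 162) (nat_lit 7) (nat_lit 8) (nat_lit 6) L76295 (by decide +kernel)
theorem L76297 : W_36 (nat_lit 4) (nat_lit 0xe00000001000080000000000000000000000000000000) (nat_lit 0x0) (nat_lit 0x1000000006000000010000c000400000000000000000000000) := T_36 (nat_lit 161) (nat_lit 196) (nat_lit 7) (nat_lit 8) (nat_lit 7) L76296 (by decide +kernel)
theorem L76298 : W_36 (nat_lit 4) (nat_lit 0xe00000001000080000000000000000000000000000000) (nat_lit 0x0) (nat_lit 0x100001800e0000000000004000000000000000000000000000) := T_36 (nat_lit 161) (nat_lit 196) (nat_lit 7) (nat_lit 8) (nat_lit 7) L1738 (by decide +kernel)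
theorem L76299 : W_36 (nat_lit 2) (nat_lit 0x1001f00084001000080000000000000000000000000000000) (nat_lit 0x0) (nat_lit 0x800080002000000000000000000000000000000000000000) := D_36 (nat_lit 175) (nat_lit 191) (nat_lit 157) (nat_lit 1) (nat_lit 8) (nat_lit 10) (nat_lit 0) (nat_lit 8) (nat_lit 10) (by decide +kernel)
theorem L76300 : W_36 (nat_lit 3) (nat_lit 0x1001f00080001000080000000000000000000000000000000) (nat_lit 0x0) (nat_lit 0x80008000e000000000000000000000000000000000000000) := T_36 (nat_lit 158) (nat_lit 159) (nat_lit 0) (nat_lit 9) (nat_lit 10) L76299 (by decide +kernel)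
theorem L76301 : W_36 (nat_lit 4) (nat_lit 0x1f00080001000080000000000000000000000000000000) (nat_lit 0x0) (nat_lit 0x380008000e000000000000000000000000000000000000000) := T_36 (nat_lit 192) (nat_lit 193) (nat_lit 1) (nat_lit 9) (nat_lit 10) L76300 (by decide +kernel)
theorem L76302 : W_36 (nat_lit 5) (nat_lit 0x1e00080001000080000000000000000000000000000000) (nat_lit 0x0) (nat_lit 0x380018004e000000000000000000000000000000000000000) := T_36 (nat_lit 176) (nat_lit 162) (nat_lit 2) (nat_lit 6) (nat_lit 10) L76301 (by decide +kernel)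
theorem L76303 : W_36 (nat_lit 6) (nat_lit 0x1e00000001000080000000000000000000000000000000) (nat_lit 0x0) (nat_lit 0x38001801ce000000000000000000000000000000000000000) := T_36 (nat_lit 163) (nat_lit 164) (nat_lit 2) (nat_lit 7) (nat_lit 10) L76302 (by decide +kernel)
theorem L76304 : W_36 (nat_lit 2) (nat_lit 0x20000000080007e0012000100048001e001000000000000000000000000) (nat_lit 0x0) (nat_lit 0x800020002000000000000000000000000) := D_36 (nat_lit 113) (nat_lit 131) (nat_lit 97) (nat_lit 3) (nat_lit 8) (nat_lit 6) (nat_lit 2) (nat_lit 8) (nat_lit 6) (by decide +kernel)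
theorem L76305 : W_36 (nat_lit 3) (nat_lit 0x20000000080007e0012000100048001e000000000000000000000000000) (nat_lit 0x0) (nat_lit 0x800020003800000000000000000000000) := T_36 (nat_lit 96) (nat_lit 95) (nat_lit 2) (nat_lit 7) (nat_lit 6) L76304 (by decide +kernel)
theorem L76306 : W_36 (nat_lit 4) (nat_lit 0x20000000080007e0012000100048000e000000000000000000000000000) (nat_lit 0x0) (nat_lit 0xa00030003800000000000000000000000) := T_36 (nat_lit 112) (nat_lit 129) (nat_lit 3) (nat_lit 7) (nat_lit 6) L76305 (by decide +kernel)
theorem L76307 : W_36 (nat_lit 5) (nat_lit 0x20000000080007e0012000100048000c000000000000000000000000000) (nat_lit 0x0) (nat_lit 0xa00032003900000000000000000000000) := T_36 (nat_lit 109) (nat_lit 92) (nat_lit 4) (nat_lit 8) (nat_lit 9) L76306 (by decide +kernel)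
theorem L76308 : W_36 (nat_lit 6) (nat_lit 0x20000000080007e00120001000480008000000000000000000000000000) (nat_lit 0x0) (nat_lit 0xa00036003d00000000000000000000000) := T_36 (nat_lit 110) (nat_lit 94) (nat_lit 6) (nat_lit 8) (nat_lit 9) L76307 (by decide +kernel)
theorem L76309 : W_36 (nat_lit 7) (nat_lit 0x80007e00120001000480008000000000000000000000000000) (nat_lit 0x0) (nat_lit 0x20001000000000000000000000a00036003d00000000000000000000000) := T_36 (nat_lit 233) (nat_lit 216) (nat_lit 4) (nat_lit 12) (nat_lit 13) L76308 (by decide +kernel)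
theorem L76310 : W_36 (nat_lit 8) (nat_lit 0x80007e00120001000480000000000000000000000000000000) (nat_lit 0x0) (nat_lit 0x20001000000000000000000000b0003e003d00000000000000000000000) := T_36 (nat_lit 111) (nat_lit 128) (nat_lit 6) (nat_lit 8) (nat_lit 10) L76309 (by decide +kernel)
theorem L76311 : W_36 (nat_lit 9) (nat_lit 0x80007e00120001000080000000000000000000000000000000) (nat_lit 0x0) (nat_lit 0x20001000000000000000008000f0003e003d00000000000000000000000) := T_36 (nat_lit 130) (nat_lit 147) (nat_lit 7) (nat_lit 11) (nat_lit 7) L76310 (by decide +kernel)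
theorem L76312 : W_36 (nat_lit 10) (nat_lit 0x80007e00100001000080000000000000000000000000000000) (nat_lit 0x0) (nat_lit 0x20001000000000000060008000f0003e003d00000000000000000000000) := T_36 (nat_lit 161) (nat_lit 162) (nat_lit 0) (nat_lit 12) (nat_lit 10) L76311 (by decide +kernel)
theorem L76313 : W_36 (nat_lit 11) (nat_lit 0x80003e00100001000080000000000000000000000000000000) (nat_lit 0x0) (nat_lit 0x20001000100004000060008000f0003e003d00000000000000000000000) := T_36 (nat_lit 182) (nat_lit 200) (nat_lit 3) (nat_lit 9) (nat_lit 10) L76312 (by decide +kernel)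
theorem L76314 : W_36 (nat_lit 12) (nat_lit 0x80003e00000001000080000000000000000000000000000000) (nat_lit 0x0) (nat_lit 0x20001000100004000360008000f0003e003d00000000000000000000000) := T_36 (nat_lit 164) (nat_lit 165) (nat_lit 2) (nat_lit 8) (nat_lit 10) L76313 (by decide +kernel)
theorem L76315 : W_36 (nat_lit 13) (nat_lit 0x3e00000001000080000000000000000000000000000000) (nat_lit 0x0) (nat_lit 0x200010001c0004000360008000f0003e003d00000000000000000000000) := T_36 (nat_lit 199) (nat_lit 198) (nat_lit 3) (nat_lit 8) (nat_lit 10) L76314 (by decide +kernel)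
theorem L76316 : W_36 (nat_lit 2) (nat_lit 0x3e00100001000780000000000000000000000000000000) (nat_lit 0x0) (nat_lit 0x20000000000018000000000000000000000000000000000000) := D_36 (nat_lit 147) (nat_lit 197) (nat_lit 148) (nat_lit 5) (nat_lit 11) (nat_lit 7) (nat_lit 3) (nat_lit 8) (nat_lit 7) (by decide +kernel)
theorem L76317 : W_36 (nat_lit 3) (nat_lit 0x3e00100001000580000000000000000000000000000000) (nat_lit 0x0) (nat_lit 0x20000000000018800200000000000000000000000000000000) := T_36 (nat_lit 129) (nat_lit 143) (nat_lit 1) (nat_lit 11) (nat_lit 7) L76316 (by decide +kernel)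
theorem L76318 : W_36 (nat_lit 4) (nat_lit 0x3e00000001000580000000000000000000000000000000) (nat_lit 0x0) (nat_lit 0x20000000300018800200000000000000000000000000000000) := T_36 (nat_lit 164) (nat_lit 165) (nat_lit 2) (nat_lit 8) (nat_lit 10) L76317 (by decide +kernel)
theorem L76319 : W_36 (nat_lit 2) (nat_lit 0x3e00100009000580000000000000000000000000000000) (nat_lit 0x0) (nat_lit 0x10000200010000000000000000000000000000) := D_36 (nat_lit 129) (nat_lit 112) (nat_lit 148) (nat_lit 4) (nat_lit 11) (nat_lit 10) (nat_lit 3) (nat_lit 8) (nat_lit 7) (by decide +kernel)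
theorem L76320 : W_36 (nat_lit 3) (nat_lit 0x3e00100001000580000000000000000000000000000000) (nat_lit 0x0) (nat_lit 0x20000000000018000200010000000000000000000000000000) := T_36 (nat_lit 147) (nat_lit 197) (nat_lit 5) (nat_lit 11) (nat_lit 7) L76319 (by decide +kernel)
theorem L76321 : W_36 (nat_lit 4) (nat_lit 0x3e00000001000580000000000000000000000000000000) (nat_lit 0x0) (nat_lit 0x20000000300018000200010000000000000000000000000000) := T_36 (nat_lit 164) (nat_lit 165) (nat_lit 2) (nat_lit 8) (nat_lit 10) L76320 (by decide +kernel)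
theorem L76322 : W_36 (nat_lit 2) (nat_lit 0x80007e00240011000d80000000000000000000000000000000) (nat_lit 0x0) (nat_lit 0x20001000080000000000000000000000000000) := D_36 (nat_lit 132) (nat_lit 149) (nat_lit 115) (nat_lit 6) (nat_lit 12) (nat_lit 11) (nat_lit 6) (nat_lit 12) (nat_lit 10) (by decide +kernel)
theorem L76323 : W_36 (nat_lit 3) (nat_lit 0x80007e00240011000580000000000000000000000000000000) (nat_lit 0x0) (nat_lit 0x200018000a0000000000000000000000000000) := T_36 (nat_lit 131) (nat_lit 113) (nat_lit 4) (nat_lit 12) (nat_lit 10) L76322 (by decide +kernel)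
theorem L76324 : W_36 (nat_lit 4) (nat_lit 0x80007e00240001000580000000000000000000000000000000) (nat_lit 0x0) (nat_lit 0x380018000a0000000000000000000000000000) := T_36 (nat_lit 148) (nat_lit 147) (nat_lit 4) (nat_lit 12) (nat_lit 11) L76323 (by decide +kernel)
theorem L76325 : W_36 (nat_lit 5) (nat_lit 0x7e00240001000580000000000000000000000000000000) (nat_lit 0x0) (nat_lit 0x1800000000000380018000a0000000000000000000000000000) := T_36 (nat_lit 199) (nat_lit 200) (nat_lit 3) (nat_lit 9) (nat_lit 10) L76324 (by decide +kernel)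
theorem L76326 : W_36 (nat_lit 6) (nat_lit 0x7e00200001000580000000000000000000000000000000) (nat_lit 0x0) (nat_lit 0x1800000000600380018000a0000000000000000000000000000) := T_36 (nat_lit 162) (nat_lit 161) (nat_lit 0) (nat_lit 12) (nat_lit 10) L76325 (by decide +kernel)
theorem L76327 : W_36 (nat_lit 7) (nat_lit 0x3e00200001000580000000000000000000000000000000) (nat_lit 0x0) (nat_lit 0x1800040004600380018000a0000000000000000000000000000) := T_36 (nat_lit 182) (nat_lit 166) (nat_lit 2) (nat_lit 9) (nat_lit 10) L76326 (by decide +kernel)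
theorem L76328 : W_36 (nat_lit 8) (nat_lit 0x3e00000001000580000000000000000000000000000000) (nat_lit 0x0) (nat_lit 0x1800040007600380018000a0000000000000000000000000000) := T_36 (nat_lit 165) (nat_lit 164) (nat_lit 2) (nat_lit 8) (nat_lit 10) L76327 (by decide +kernel)
theorem L76329 : W_36 (nat_lit 2) (nat_lit 0x3e00020011000f80004000000000000000000000000000) (nat_lit 0x0) (nat_lit 0xe0000000000000000000000000000) := D_36 (nat_lit 114) (nat_lit 115) (nat_lit 113) (nat_lit 2) (nat_lit 9) (nat_lit 7) (nat_lit 2) (nat_lit 8) (nat_lit 7) (by decide +kernel)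
theorem L76330 : W_36 (nat_lit 3) (nat_lit 0x3e00020011000780004000000000000000000000000000) (nat_lit 0x0) (nat_lit 0x200008000e0000000000000000000000000000) := T_36 (nat_lit 131) (nat_lit 149) (nat_lit 3) (nat_lit 9) (nat_lit 7) L76329 (by decide +kernel)
theorem L76331 : W_36 (nat_lit 4) (nat_lit 0x3e00000011000780004000000000000000000000000000) (nat_lit 0x0) (nat_lit 0x600200008000e0000000000000000000000000000) := T_36 (nat_lit 161) (nat_lit 162) (nat_lit 7) (nat_lit 8) (nat_lit 6) L76330 (by decide +kernel)
theorem L76332 : W_36 (nat_lit 5) (nat_lit 0x3e00000001000780004000000000000000000000000000) (nat_lit 0x0) (nat_lit 0x600380008000e0000000000000000000000000000) := T_36 (nat_lit 148) (nat_lit 147) (nat_lit 3) (nat_lit 8) (nat_lit 7) L76331 (by decide +kernel)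
theorem L76333 : W_36 (nat_lit 6) (nat_lit 0x3e00000001000780000000000000000000000000000000) (nat_lit 0x0) (nat_lit 0x600380008000e6000000000000000000000000000) := T_36 (nat_lit 110) (nat_lit 109) (nat_lit 0) (nat_lit 11) (nat_lit 7) L76332 (by decide +kernel)
theorem L76334 : W_36 (nat_lit 7) (nat_lit 0x3e00000001000580000000000000000000000000000000) (nat_lit 0x0) (nat_lit 0x60038800a000e6000000000000000000000000000) := T_36 (nat_lit 129) (nat_lit 143) (nat_lit 1) (nat_lit 11) (nat_lit 7) L76333 (by decide +kernel)
theorem L76335 : W_36 (nat_lit 2) (nat_lit 0x3e00120001000780024000000000000000000000000000) (nat_lit 0x0) (nat_lit 0x20000000000008000000010000000000000000000000000000) := D_36 (nat_lit 147) (nat_lit 112) (nat_lit 197) (nat_lit 4) (nat_lit 11) (nat_lit 10) (nat_lit 5) (nat_lit 11) (nat_lit 7) (by decide +kernel)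
theorem L76336 : W_36 (nat_lit 3) (nat_lit 0x3e00020001000780024000000000000000000000000000) (nat_lit 0x0) (nat_lit 0x20000000300008000000010000000000000000000000000000) := T_36 (nat_lit 164) (nat_lit 165) (nat_lit 2) (nat_lit 8) (nat_lit 10) L76335 (by decide +kernel)
theorem L76337 : W_36 (nat_lit 4) (nat_lit 0x3e00000001000780024000000000000000000000000000) (nat_lit 0x0) (nat_lit 0x20000000360008000000010000000000000000000000000000) := T_36 (nat_lit 161) (nat_lit 162) (nat_lit 7) (nat_lit 8) (nat_lit 6) L76336 (by decide +kernel)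
theorem L76338 : W_36 (nat_lit 5) (nat_lit 0x3e00000001000780004000000000000000000000000000) (nat_lit 0x0) (nat_lit 0x20000000360008000000070000000000000000000000000000) := T_36 (nat_lit 113) (nat_lit 114) (nat_lit 2) (nat_lit 8) (nat_lit 7) L76337 (by decide +kernel)
theorem L76339 : W_36 (nat_lit 6) (nat_lit 0x3e00000001000780000000000000000000000000000000) (nat_lit 0x0) (nat_lit 0x20000000360008000000076000000000000000000000000000) := T_36 (nat_lit 110) (nat_lit 109) (nat_lit 0) (nat_lit 11) (nat_lit 7) L76338 (by decide +kernel)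
theorem L76340 : W_36 (nat_lit 7) (nat_lit 0x3e00000001000580000000000000000000000000000000) (nat_lit 0x0) (nat_lit 0x20000000360008800200076000000000000000000000000000) := T_36 (nat_lit 129) (nat_lit 143) (nat_lit 1) (nat_lit 11) (nat_lit 7) L76339 (by decide +kernel)
theorem L76341 : W_36 (nat_lit 2) (nat_lit 0x7e00220011000f80044000000000000000000000000000) (nat_lit 0x0) (nat_lit 0x180008000000000000000000000000000000000000000000000) := D_36 (nat_lit 200) (nat_lit 199) (nat_lit 183) (nat_lit 3) (nat_lit 9) (nat_lit 10) (nat_lit 7) (nat_lit 12) (nat_lit 7) (by decide +kernel)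
theorem L76342 : W_36 (nat_lit 3) (nat_lit 0x7e00220001000f80044000000000000000000000000000) (nat_lit 0x0) (nat_lit 0x180008000000030000000000000000000000000000000000000) := T_36 (nat_lit 148) (nat_lit 149) (nat_lit 3) (nat_lit 9) (nat_lit 7) L76341 (by decide +kernel)
theorem L76343 : W_36 (nat_lit 4) (nat_lit 0x3e00220001000f80044000000000000000000000000000) (nat_lit 0x0) (nat_lit 0x18000c000400030000000000000000000000000000000000000) := T_36 (nat_lit 182) (nat_lit 166) (nat_lit 2) (nat_lit 9) (nat_lit 10) L76342 (by decide +kernel)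
theorem L76344 : W_36 (nat_lit 5) (nat_lit 0x3e00220001000780044000000000000000000000000000) (nat_lit 0x0) (nat_lit 0x18000c000400030000800080000000000000000000000000000) := T_36 (nat_lit 131) (nat_lit 115) (nat_lit 2) (nat_lit 9) (nat_lit 7) L76343 (by decide +kernel)
theorem L76345 : W_36 (nat_lit 6) (nat_lit 0x3e00200001000780044000000000000000000000000000) (nat_lit 0x0) (nat_lit 0x18000c000460030000800080000000000000000000000000000) := T_36 (nat_lit 161) (nat_lit 162) (nat_lit 7) (nat_lit 8) (nat_lit 6) L76344 (by decide +kernel)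
theorem L76346 : W_36 (nat_lit 7) (nat_lit 0x3e00200001000780004000000000000000000000000000) (nat_lit 0x0) (nat_lit 0x18000c0004600300008000e0000000000000000000000000000) := T_36 (nat_lit 114) (nat_lit 113) (nat_lit 2) (nat_lit 8) (nat_lit 7) L76345 (by decide +kernel)
theorem L76347 : W_36 (nat_lit 8) (nat_lit 0x3e00200001000780000000000000000000000000000000) (nat_lit 0x0) (nat_lit 0x18000c0004600300008000e6000000000000000000000000000) := T_36 (nat_lit 110) (nat_lit 109) (nat_lit 0) (nat_lit 11) (nat_lit 7) L76346 (by decide +kernel)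
theorem L76348 : W_36 (nat_lit 9) (nat_lit 0x3e00200001000580000000000000000000000000000000) (nat_lit 0x0) (nat_lit 0x18000c000460030800a000e6000000000000000000000000000) := T_36 (nat_lit 129) (nat_lit 143) (nat_lit 1) (nat_lit 11) (nat_lit 7) L76347 (by decide +kernel)
theorem L76349 : W_36 (nat_lit 10) (nat_lit 0x3e00000001000580000000000000000000000000000000) (nat_lit 0x0) (nat_lit 0x18000c000760030800a000e6000000000000000000000000000) := T_36 (nat_lit 165) (nat_lit 164) (nat_lit 2) (nat_lit 8) (nat_lit 10) L76348 (by decide +kernel)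
theorem L76350 : W_36 (nat_lit 11) (nat_lit 0x3e00000001000180000000000000000000000000000000) (nat_lit 0x0) (nat_lit 0x1a000c000760038801e000f6000000000000000000000000000) := Q_36 (nat_lit 130) (C_36 L76318 (C_36 L76321 (C_36 L76328 (C_36 L76334 (C_36 L76340 (C_36 L76349 N_36)))))) (by decide +kernel)
theorem L76351 : W_36 (nat_lit 2) (nat_lit 0x3e00120001000180000000000000000000000000000000) (nat_lit 0x0) (nat_lit 0x4000040000000000004000000000000000000000000000) := D_36 (nat_lit 162) (nat_lit 182) (nat_lit 110) (nat_lit 0) (nat_lit 12) (nat_lit 10) (nat_lit 7) (nat_lit 8) (nat_lit 6) (by decide +kernel)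
theorem L76352 : W_36 (nat_lit 3) (nat_lit 0x3e00100001000180000000000000000000000000000000) (nat_lit 0x0) (nat_lit 0x400006000000000000c000000000000000000000000000) := T_36 (nat_lit 161) (nat_lit 111) (nat_lit 6) (nat_lit 8) (nat_lit 10) L76351 (by decide +kernel)
theorem L76353 : W_36 (nat_lit 4) (nat_lit 0x3e00000001000180000000000000000000000000000000) (nat_lit 0x0) (nat_lit 0x400036000000000000c000000000000000000000000000) := T_36 (nat_lit 164) (nat_lit 165) (nat_lit 2) (nat_lit 8) (nat_lit 10) L76352 (by decide +kernel)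
theorem L76354 : W_36 (nat_lit 2) (nat_lit 0x7e00100009000580060000000000000000000000000000) (nat_lit 0x0) (nat_lit 0x18000800000000000000000000000) := D_36 (nat_lit 112) (nat_lit 95) (nat_lit 111) (nat_lit 4) (nat_lit 11) (nat_lit 9) (nat_lit 1) (nat_lit 12) (nat_lit 6) (by decide +kernel)
theorem L76355 : W_36 (nat_lit 3) (nat_lit 0x7e00100009000580040000000000000000000000000000) (nat_lit 0x0) (nat_lit 0x38002800000000000000000000000) := T_36 (nat_lit 113) (nat_lit 97) (nat_lit 6) (nat_lit 11) (nat_lit 9) L76354 (by decide +kernel)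
theorem L76356 : W_36 (nat_lit 4) (nat_lit 0x3e00100009000580040000000000000000000000000000) (nat_lit 0x0) (nat_lit 0x80004000000000000000038002800000000000000000000000) := T_36 (nat_lit 182) (nat_lit 199) (nat_lit 7) (nat_lit 11) (nat_lit 7) L76355 (by decide +kernel)
theorem L76357 : W_36 (nat_lit 5) (nat_lit 0x3e00100009000580000000000000000000000000000000) (nat_lit 0x0) (nat_lit 0x80004000000000000800078002800000000000000000000000) := T_36 (nat_lit 114) (nat_lit 131) (nat_lit 6) (nat_lit 11) (nat_lit 10) L76356 (by decide +kernel)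
theorem L76358 : W_36 (nat_lit 6) (nat_lit 0x3e00100001000580000000000000000000000000000000) (nat_lit 0x0) (nat_lit 0xa0004000000008000800078002800000000000000000000000) := T_36 (nat_lit 147) (nat_lit 197) (nat_lit 5) (nat_lit 11) (nat_lit 7) L76357 (by decide +kernel)
theorem L76359 : W_36 (nat_lit 7) (nat_lit 0x3e00000001000580000000000000000000000000000000) (nat_lit 0x0) (nat_lit 0xa0004000300008000800078002800000000000000000000000) := T_36 (nat_lit 164) (nat_lit 165) (nat_lit 2) (nat_lit 8) (nat_lit 10) L76358 (by decide +kernel)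
theorem L76360 : W_36 (nat_lit 2) (nat_lit 0x3e00100001000780000000000000000000000000000000) (nat_lit 0x0) (nat_lit 0x18000000010000000000000000000000000000) := D_36 (nat_lit 147) (nat_lit 148) (nat_lit 112) (nat_lit 3) (nat_lit 8) (nat_lit 7) (nat_lit 4) (nat_lit 11) (nat_lit 10) (by decide +kernel)
theorem L76361 : W_36 (nat_lit 3) (nat_lit 0x3e00100001000580000000000000000000000000000000) (nat_lit 0x0) (nat_lit 0x18800200010000000000000000000000000000) := T_36 (nat_lit 129) (nat_lit 143) (nat_lit 1) (nat_lit 11) (nat_lit 7) L76360 (by decide +kernel)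
theorem L76362 : W_36 (nat_lit 4) (nat_lit 0x3e00000001000580000000000000000000000000000000) (nat_lit 0x0) (nat_lit 0x300018800200010000000000000000000000000000) := T_36 (nat_lit 164) (nat_lit 165) (nat_lit 2) (nat_lit 8) (nat_lit 10) L76361 (by decide +kernel)
theorem L76363 : W_36 (nat_lit 2) (nat_lit 0x3e00000009000f80004000000000000000000000000000) (nat_lit 0x0) (nat_lit 0xe0000000000000000000000000000) := D_36 (nat_lit 114) (nat_lit 113) (nat_lit 115) (nat_lit 2) (nat_lit 8) (nat_lit 7) (nat_lit 2) (nat_lit 9) (nat_lit 7) (by decide +kernel)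
theorem L76364 : W_36 (nat_lit 3) (nat_lit 0x3e00000009000780004000000000000000000000000000) (nat_lit 0x0) (nat_lit 0x8000e8000000000000000000000000000) := T_36 (nat_lit 131) (nat_lit 111) (nat_lit 0) (nat_lit 12) (nat_lit 7) L76363 (by decide +kernel)
theorem L76365 : W_36 (nat_lit 4) (nat_lit 0x3e00000001000780004000000000000000000000000000) (nat_lit 0x0) (nat_lit 0x180008000e8000000000000000000000000000) := T_36 (nat_lit 147) (nat_lit 148) (nat_lit 3) (nat_lit 8) (nat_lit 7) L76364 (by decide +kernel)
theorem L76366 : W_36 (nat_lit 5) (nat_lit 0x3e00000001000780000000000000000000000000000000) (nat_lit 0x0) (nat_lit 0x180008000ee000000000000000000000000000) := T_36 (nat_lit 110) (nat_lit 109) (nat_lit 0) (nat_lit 11) (nat_lit 7) L76365 (by decide +kernel)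
theorem L76367 : W_36 (nat_lit 6) (nat_lit 0x3e00000001000580000000000000000000000000000000) (nat_lit 0x0) (nat_lit 0x18800a000ee000000000000000000000000000) := T_36 (nat_lit 129) (nat_lit 143) (nat_lit 1) (nat_lit 11) (nat_lit 7) L76366 (by decide +kernel)
theorem L76368 : W_36 (nat_lit 2) (nat_lit 0x3e00100021001f80124000000000000000000000000000) (nat_lit 0x0) (nat_lit 0x2000210000000000000000000000000000) := D_36 (nat_lit 133) (nat_lit 112) (nat_lit 117) (nat_lit 0) (nat_lit 14) (nat_lit 7) (nat_lit 2) (nat_lit 11) (nat_lit 7) (by decide +kernel)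
theorem L76369 : W_36 (nat_lit 3) (nat_lit 0x3e00100021001f80024000000000000000000000000000) (nat_lit 0x0) (nat_lit 0x2000390000000000000000000000000000) := T_36 (nat_lit 116) (nat_lit 115) (nat_lit 2) (nat_lit 10) (nat_lit 7) L76368 (by decide +kernel)
theorem L76370 : W_36 (nat_lit 4) (nat_lit 0x3e00100021000f80024000000000000000000000000000) (nat_lit 0x0) (nat_lit 0x40003000390000000000000000000000000000) := T_36 (nat_lit 132) (nat_lit 150) (nat_lit 3) (nat_lit 10) (nat_lit 7) L76369 (by decide +kernel)
theorem L76371 : W_36 (nat_lit 5) (nat_lit 0x3e00100001000f80024000000000000000000000000000) (nat_lit 0x0) (nat_lit 0x70003000390000000000000000000000000000) := T_36 (nat_lit 149) (nat_lit 148) (nat_lit 3) (nat_lit 9) (nat_lit 7) L76370 (by decide +kernel)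
theorem L76372 : W_36 (nat_lit 6) (nat_lit 0x3e00000001000f80024000000000000000000000000000) (nat_lit 0x0) (nat_lit 0x300070003000390000000000000000000000000000) := T_36 (nat_lit 164) (nat_lit 165) (nat_lit 2) (nat_lit 8) (nat_lit 10) L76371 (by decide +kernel)
theorem L76373 : W_36 (nat_lit 7) (nat_lit 0x3e00000001000780024000000000000000000000000000) (nat_lit 0x0) (nat_lit 0x300070003800398000000000000000000000000000) := T_36 (nat_lit 131) (nat_lit 111) (nat_lit 0) (nat_lit 12) (nat_lit 7) L76372 (by decide +kernel)
theorem L76374 : W_36 (nat_lit 8) (nat_lit 0x3e00000001000780004000000000000000000000000000) (nat_lit 0x0) (nat_lit 0x3000700038003f8000000000000000000000000000) := T_36 (nat_lit 113) (nat_lit 114) (nat_lit 2) (nat_lit 8) (nat_lit 7) L76373 (by decide +kernel)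
theorem L76375 : W_36 (nat_lit 9) (nat_lit 0x3e00000001000780000000000000000000000000000000) (nat_lit 0x0) (nat_lit 0x3000700038003fe000000000000000000000000000) := T_36 (nat_lit 110) (nat_lit 109) (nat_lit 0) (nat_lit 11) (nat_lit 7) L76374 (by decide +kernel)
theorem L76376 : W_36 (nat_lit 10) (nat_lit 0x3e00000001000580000000000000000000000000000000) (nat_lit 0x0) (nat_lit 0x300070803a003fe000000000000000000000000000) := T_36 (nat_lit 129) (nat_lit 143) (nat_lit 1) (nat_lit 11) (nat_lit 7) L76375 (by decide +kernel)
theorem L76377 : W_36 (nat_lit 11) (nat_lit 0x3e00000001000180000000000000000000000000000000) (nat_lit 0x0) (nat_lit 0xa0004000300078803e003fe002800000000000000000000000) := Q_36 (nat_lit 130) (C_36 L76321 (C_36 L76318 (C_36 L76359 (C_36 L76362 (C_36 L76367 (C_36 L76376 N_36)))))) (by decide +kernel)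
theorem L76378 : W_36 (nat_lit 2) (nat_lit 0x3e00220001000180000000000000000000000000000000) (nat_lit 0x0) (nat_lit 0x4000440000000000000000000000000000000000000000) := D_36 (nat_lit 182) (nat_lit 162) (nat_lit 166) (nat_lit 0) (nat_lit 12) (nat_lit 10) (nat_lit 2) (nat_lit 9) (nat_lit 10) (by decide +kernel)
theorem L76379 : W_36 (nat_lit 3) (nat_lit 0x3e00200001000180000000000000000000000000000000) (nat_lit 0x0) (nat_lit 0x4000460000000000008000000000000000000000000000) := T_36 (nat_lit 161) (nat_lit 111) (nat_lit 6) (nat_lit 8) (nat_lit 10) L76378 (by decide +kernel)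
theorem L76380 : W_36 (nat_lit 4) (nat_lit 0x3e00000001000180000000000000000000000000000000) (nat_lit 0x0) (nat_lit 0x4000760000000000008000000000000000000000000000) := T_36 (nat_lit 165) (nat_lit 164) (nat_lit 2) (nat_lit 8) (nat_lit 10) L76379 (by decide +kernel)
theorem L76381 : W_36 (nat_lit 2) (nat_lit 0x3e00020001000180000000000000000000000000000000) (nat_lit 0x0) (nat_lit 0x4000040000000000004000000000000000000000000000) := D_36 (nat_lit 162) (nat_lit 182) (nat_lit 110) (nat_lit 0) (nat_lit 12) (nat_lit 10) (nat_lit 7) (nat_lit 8) (nat_lit 6) (by decide +kernel)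
theorem L76382 : W_36 (nat_lit 3) (nat_lit 0x3e00000001000180000000000000000000000000000000) (nat_lit 0x0) (nat_lit 0x400006000000000000c000000000000000000000000000) := T_36 (nat_lit 161) (nat_lit 111) (nat_lit 6) (nat_lit 8) (nat_lit 10) L76381 (by decide +kernel)
theorem L76383 : W_36 (nat_lit 2) (nat_lit 0x3e00120009000580064000700000000000000000000000) (nat_lit 0x0) (nat_lit 0x10001800000000000000000000000) := D_36 (nat_lit 95) (nat_lit 112) (nat_lit 96) (nat_lit 3) (nat_lit 7) (nat_lit 5) (nat_lit 3) (nat_lit 8) (nat_lit 5) (by decide +kernel)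
theorem L76384 : W_36 (nat_lit 3) (nat_lit 0x3e00120009000580044000700000000000000000000000) (nat_lit 0x0) (nat_lit 0x30003800000000000000000000000) := T_36 (nat_lit 113) (nat_lit 97) (nat_lit 6) (nat_lit 11) (nat_lit 9) L76383 (by decide +kernel)
theorem L76385 : W_36 (nat_lit 4) (nat_lit 0x3e00120009000580044000300000000000000000000000) (nat_lit 0x0) (nat_lit 0x30003c00020000000000000000000) := T_36 (nat_lit 94) (nat_lit 77) (nat_lit 6) (nat_lit 8) (nat_lit 8) L76384 (by decide +kernel)
theorem L76386 : W_36 (nat_lit 5) (nat_lit 0x3e00120009000580004000300000000000000000000000) (nat_lit 0x0) (nat_lit 0x800070003c00020000000000000000000) := T_36 (nat_lit 114) (nat_lit 131) (nat_lit 6) (nat_lit 11) (nat_lit 10) L76385 (by decide +kernel)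
theorem L76387 : W_36 (nat_lit 6) (nat_lit 0x3e00120009000580004000100000000000000000000000) (nat_lit 0x0) (nat_lit 0x800070003e00028000000000000000000) := T_36 (nat_lit 93) (nat_lit 75) (nat_lit 4) (nat_lit 8) (nat_lit 8) L76386 (by decide +kernel)
theorem L76388 : W_36 (nat_lit 7) (nat_lit 0x3e00120001000580004000100000000000000000000000) (nat_lit 0x0) (nat_lit 0x20000000000008000800070003e00028000000000000000000) := T_36 (nat_lit 147) (nat_lit 197) (nat_lit 5) (nat_lit 11) (nat_lit 7) L76387 (by decide +kernel)
theorem L76389 : W_36 (nat_lit 8) (nat_lit 0x3e00120001000580004000000000000000000000000000) (nat_lit 0x0) (nat_lit 0x20000000000008000800072003f00028000000000000000000) := T_36 (nat_lit 92) (nat_lit 109) (nat_lit 4) (nat_lit 8) (nat_lit 9) L76388 (by decide +kernel)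
theorem L76390 : W_36 (nat_lit 9) (nat_lit 0x3e00120001000580000000000000000000000000000000) (nat_lit 0x0) (nat_lit 0x20000000040008000800076003f00028000000000000000000) := T_36 (nat_lit 110) (nat_lit 162) (nat_lit 7) (nat_lit 8) (nat_lit 6) L76389 (by decide +kernel)
theorem L76391 : W_36 (nat_lit 10) (nat_lit 0x3e00020001000580000000000000000000000000000000) (nat_lit 0x0) (nat_lit 0x20000000340008000800076003f00028000000000000000000) := T_36 (nat_lit 164) (nat_lit 165) (nat_lit 2) (nat_lit 8) (nat_lit 10) L76390 (by decide +kernel)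
theorem L76392 : W_36 (nat_lit 11) (nat_lit 0x3e00000001000580000000000000000000000000000000) (nat_lit 0x0) (nat_lit 0x2000000036000800080007e003f00028000000000000000000) := T_36 (nat_lit 161) (nat_lit 111) (nat_lit 6) (nat_lit 8) (nat_lit 10) L76391 (by decide +kernel)
theorem L76393 : W_36 (nat_lit 12) (nat_lit 0x3e00000001000180000000000000000000000000000000) (nat_lit 0x0) (nat_lit 0x20000000360078803e003fe003f00028000000000000000000) := Q_36 (nat_lit 130) (C_36 L76376 (C_36 L76321 (C_36 L76367 (C_36 L76392 N_36)))) (by decide +kernel)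
theorem L76394 : W_36 (nat_lit 13) (nat_lit 0x3e00000001000080000000000000000000000000000000) (nat_lit 0x0) (nat_lit 0x1a000c000760078803f003fe003f00028000000000000000000) := Q_36 (nat_lit 128) (C_36 L76350 (C_36 L76353 (C_36 L76377 (C_36 L76380 (C_36 L76382 (C_36 L76393 N_36)))))) (by decide +kernel)
theorem L76395 : W_36 (nat_lit 2) (nat_lit 0x3e00020001000080000000000000000000000000000000) (nat_lit 0x0) (nat_lit 0x4000040000000000004000000000000000000000000000) := D_36 (nat_lit 162) (nat_lit 182) (nat_lit 110) (nat_lit 0) (nat_lit 12) (nat_lit 10) (nat_lit 7) (nat_lit 8) (nat_lit 6) (by decide +kernel)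
theorem L76396 : W_36 (nat_lit 2) (nat_lit 0x3e00220001000080000000000000000000000000000000) (nat_lit 0x0) (nat_lit 0x4000440000000000000000000000000000000000000000) := D_36 (nat_lit 182) (nat_lit 162) (nat_lit 166) (nat_lit 0) (nat_lit 12) (nat_lit 10) (nat_lit 2) (nat_lit 9) (nat_lit 10) (by decide +kernel)
theorem L76397 : W_36 (nat_lit 3) (nat_lit 0x3e00020001000080000000000000000000000000000000) (nat_lit 0x0) (nat_lit 0x4000740000000000000000000000000000000000000000) := T_36 (nat_lit 165) (nat_lit 164) (nat_lit 2) (nat_lit 8) (nat_lit 10) L76396 (by decide +kernel)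
theorem L76398 : W_36 (nat_lit 2) (nat_lit 0x8000000020003e0012000100048001e001000000000000000000000000) (nat_lit 0x0) (nat_lit 0x800020002000000000000000000000000) := D_36 (nat_lit 113) (nat_lit 131) (nat_lit 97) (nat_lit 3) (nat_lit 8) (nat_lit 6) (nat_lit 2) (nat_lit 8) (nat_lit 6) (by decide +kernel)
theorem L76399 : W_36 (nat_lit 3) (nat_lit 0x8000000020003e0012000100048001e000000000000000000000000000) (nat_lit 0x0) (nat_lit 0x800020003800000000000000000000000) := T_36 (nat_lit 96) (nat_lit 95) (nat_lit 2) (nat_lit 7) (nat_lit 6) L76398 (by decide +kernel)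
theorem L76400 : W_36 (nat_lit 4) (nat_lit 0x8000000020003e0012000100048000e000000000000000000000000000) (nat_lit 0x0) (nat_lit 0xa00030003800000000000000000000000) := T_36 (nat_lit 112) (nat_lit 129) (nat_lit 3) (nat_lit 7) (nat_lit 6) L76399 (by decide +kernel)
theorem L76401 : W_36 (nat_lit 5) (nat_lit 0x8000000020003e0012000100008000e000000000000000000000000000) (nat_lit 0x0) (nat_lit 0x8000e00030003800000000000000000000000) := T_36 (nat_lit 130) (nat_lit 147) (nat_lit 5) (nat_lit 11) (nat_lit 7) L76400 (by decide +kernel)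
theorem L76402 : W_36 (nat_lit 6) (nat_lit 0x8000000020003e0012000100008000c000000000000000000000000000) (nat_lit 0x0) (nat_lit 0x8000e00032003900000000000000000000000) := T_36 (nat_lit 109) (nat_lit 92) (nat_lit 4) (nat_lit 8) (nat_lit 9) L76401 (by decide +kernel)
theorem L76403 : W_36 (nat_lit 7) (nat_lit 0x8000000020003e00120001000080008000000000000000000000000000) (nat_lit 0x0) (nat_lit 0x8000e00036003d00000000000000000000000) := T_36 (nat_lit 110) (nat_lit 94) (nat_lit 6) (nat_lit 8) (nat_lit 9) L76402 (by decide +kernel)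
theorem L76404 : W_36 (nat_lit 8) (nat_lit 0x20003e00120001000080008000000000000000000000000000) (nat_lit 0x0) (nat_lit 0x8000400000000000000008000e00036003d00000000000000000000000) := T_36 (nat_lit 231) (nat_lit 214) (nat_lit 6) (nat_lit 10) (nat_lit 13) L76403 (by decide +kernel)
theorem L76405 : W_36 (nat_lit 9) (nat_lit 0x20003e00120001000080000000000000000000000000000000) (nat_lit 0x0) (nat_lit 0x8000400000000000000008000f0003e003d00000000000000000000000) := T_36 (nat_lit 111) (nat_lit 128) (nat_lit 6) (nat_lit 8) (nat_lit 10) L76404 (by decide +kernel)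
theorem L76406 : W_36 (nat_lit 10) (nat_lit 0x20003e00020001000080000000000000000000000000000000) (nat_lit 0x0) (nat_lit 0x8000400000000000300008000f0003e003d00000000000000000000000) := T_36 (nat_lit 164) (nat_lit 165) (nat_lit 2) (nat_lit 8) (nat_lit 10) L76405 (by decide +kernel)
theorem L76407 : W_36 (nat_lit 11) (nat_lit 0x3e00020001000080000000000000000000000000000000) (nat_lit 0x0) (nat_lit 0x8000400060000000300008000f0003e003d00000000000000000000000) := T_36 (nat_lit 197) (nat_lit 198) (nat_lit 3) (nat_lit 7) (nat_lit 10) L76406 (by decide +kernel)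
theorem L76408 : W_36 (nat_lit 12) (nat_lit 0x3e00000001000080000000000000000000000000000000) (nat_lit 0x0) (nat_lit 0x8000400060004000760008000f0003e003d00000000000000000000000) := Q_36 (nat_lit 161) (C_36 L76395 (C_36 L76397 (C_36 L76407 N_36))) (by decide +kernel)
theorem L76409 : W_36 (nat_lit 14) (nat_lit 0x1e00000001000080000000000000000000000000000000) (nat_lit 0x0) (nat_lit 0x280014001e000e000760078803f003fe003f00028000000000000000000) := Q_36 (nat_lit 181) (C_36 L16991 (C_36 L76315 (C_36 L76394 (C_36 L76408 N_36)))) (by decide +kernel)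
theorem L76410 : W_36 (nat_lit 2) (nat_lit 0x42003f00048001000080000000000000000000000000000000) (nat_lit 0x0) (nat_lit 0x4000020000000000004000000000000000000000000000) := D_36 (nat_lit 161) (nat_lit 182) (nat_lit 110) (nat_lit 0) (nat_lit 12) (nat_lit 10) (nat_lit 7) (nat_lit 8) (nat_lit 6) (by decide +kernel)
theorem L76411 : W_36 (nat_lit 3) (nat_lit 0x42003f00008001000080000000000000000000000000000000) (nat_lit 0x0) (nat_lit 0x40000e0000000000004000000000000000000000000000) := T_36 (nat_lit 162) (nat_lit 163) (nat_lit 2) (nat_lit 6) (nat_lit 10) L76410 (by decide +kernel)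
theorem L76412 : W_36 (nat_lit 4) (nat_lit 0x40003f00008001000080000000000000000000000000000000) (nat_lit 0x0) (nat_lit 0x30040000e0000000000004000000000000000000000000000) := T_36 (nat_lit 193) (nat_lit 192) (nat_lit 1) (nat_lit 9) (nat_lit 10) L76411 (by decide +kernel)
theorem L76413 : W_36 (nat_lit 5) (nat_lit 0x40001f00008001000080000000000000000000000000000000) (nat_lit 0x0) (nat_lit 0x830060000e0000000000004000000000000000000000000000) := T_36 (nat_lit 181) (nat_lit 199) (nat_lit 3) (nat_lit 8) (nat_lit 10) L76412 (by decide +kernel)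
theorem L76414 : W_36 (nat_lit 6) (nat_lit 0x40001f00000001000080000000000000000000000000000000) (nat_lit 0x0) (nat_lit 0x830060000ec000000000004000000000000000000000000000) := T_36 (nat_lit 159) (nat_lit 158) (nat_lit 0) (nat_lit 9) (nat_lit 10) L76413 (by decide +kernel)
theorem L76415 : W_36 (nat_lit 7) (nat_lit 0x1f00000001000080000000000000000000000000000000) (nat_lit 0x0) (nat_lit 0xe30060000ec000000000004000000000000000000000000000) := T_36 (nat_lit 198) (nat_lit 197) (nat_lit 3) (nat_lit 7) (nat_lit 10) L76414 (by decide +kernel)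
theorem L76416 : W_36 (nat_lit 2) (nat_lit 0x1f00040001000080000000000000000000000000000000) (nat_lit 0x0) (nat_lit 0x80020000000000004000000000000000000000000000) := D_36 (nat_lit 161) (nat_lit 175) (nat_lit 110) (nat_lit 2) (nat_lit 5) (nat_lit 10) (nat_lit 7) (nat_lit 8) (nat_lit 6) (by decide +kernel)
theorem L76417 : W_36 (nat_lit 3) (nat_lit 0x1f00000001000080000000000000000000000000000000) (nat_lit 0x0) (nat_lit 0x800e0000000000004000000000000000000000000000) := T_36 (nat_lit 162) (nat_lit 163) (nat_lit 2) (nat_lit 6) (nat_lit 10) L76416 (by decide +kernel)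
theorem L76418 : W_36 (nat_lit 2) (nat_lit 0x20001f80044001000080000000000000000000000000000000) (nat_lit 0x0) (nat_lit 0x3800000000000000000000000000000000000000000000000) := D_36 (nat_lit 192) (nat_lit 193) (nat_lit 191) (nat_lit 1) (nat_lit 9) (nat_lit 10) (nat_lit 1) (nat_lit 8) (nat_lit 10) (by decide +kernel)
theorem L76419 : W_36 (nat_lit 3) (nat_lit 0x20001f00044001000080000000000000000000000000000000) (nat_lit 0x0) (nat_lit 0x3800080002000000000000000000000000000000000000000) := T_36 (nat_lit 175) (nat_lit 157) (nat_lit 0) (nat_lit 8) (nat_lit 10) L76418 (by decide +kernel)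
theorem L76420 : W_36 (nat_lit 4) (nat_lit 0x1f00044001000080000000000000000000000000000000) (nat_lit 0x0) (nat_lit 0x63800080002000000000000000000000000000000000000000) := T_36 (nat_lit 197) (nat_lit 198) (nat_lit 3) (nat_lit 7) (nat_lit 10) L76419 (by decide +kernel)
theorem L76421 : W_36 (nat_lit 5) (nat_lit 0x1f00040001000080000000000000000000000000000000) (nat_lit 0x0) (nat_lit 0x6380008000e000000000000000000000000000000000000000) := T_36 (nat_lit 158) (nat_lit 159) (nat_lit 0) (nat_lit 9) (nat_lit 10) L76420 (by decide +kernel)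
theorem L76422 : W_36 (nat_lit 6) (nat_lit 0x1f00000001000080000000000000000000000000000000) (nat_lit 0x0) (nat_lit 0x638000800ce000000000000000000000000000000000000000) := T_36 (nat_lit 162) (nat_lit 163) (nat_lit 2) (nat_lit 6) (nat_lit 10) L76421 (by decide +kernel)
theorem L76423 : W_36 (nat_lit 2) (nat_lit 0x800000022001f8002400100009000f800000000000000000000000000) (nat_lit 0x0) (nat_lit 0xe0000000000000000000000) := D_36 (nat_lit 90) (nat_lit 89) (nat_lit 91) (nat_lit 0) (nat_lit 8) (nat_lit 6) (nat_lit 0) (nat_lit 9) (nat_lit 6) (by decide +kernel)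
theorem L76424 : W_36 (nat_lit 3) (nat_lit 0x800000022001f8002400100009000f000000000000000000000000000) (nat_lit 0x0) (nat_lit 0x80008000e0000000000000000000000) := T_36 (nat_lit 107) (nat_lit 123) (nat_lit 1) (nat_lit 8) (nat_lit 6) L76423 (by decide +kernel)
theorem L76425 : W_36 (nat_lit 4) (nat_lit 0x800000022001f8002400100009000e000000000000000000000000000) (nat_lit 0x0) (nat_lit 0x280018000e0000000000000000000000) := T_36 (nat_lit 108) (nat_lit 125) (nat_lit 1) (nat_lit 9) (nat_lit 6) L76424 (by decide +kernel)
theorem L76426 : W_36 (nat_lit 5) (nat_lit 0x800000022001f8002400100009000c000000000000000000000000000) (nat_lit 0x0) (nat_lit 0x280038001e0000000000000000000000) := T_36 (nat_lit 109) (nat_lit 92) (nat_lit 4) (nat_lit 8) (nat_lit 9) L76425 (by decide +kernel)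
theorem L76427 : W_36 (nat_lit 6) (nat_lit 0x800000022001f80024001000090008000000000000000000000000000) (nat_lit 0x0) (nat_lit 0x280078005e0000000000000000000000) := T_36 (nat_lit 110) (nat_lit 94) (nat_lit 6) (nat_lit 8) (nat_lit 9) L76426 (by decide +kernel)
theorem L76428 : W_36 (nat_lit 7) (nat_lit 0x22001f80024001000090008000000000000000000000000000) (nat_lit 0x0) (nat_lit 0x8000400000000000000000000280078005e0000000000000000000000) := T_36 (nat_lit 227) (nat_lit 210) (nat_lit 4) (nat_lit 6) (nat_lit 13) L76427 (by decide +kernel)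
theorem L76429 : W_36 (nat_lit 8) (nat_lit 0x22001f80024001000090000000000000000000000000000000) (nat_lit 0x0) (nat_lit 0x80004000000000000000000012800f8005e0000000000000000000000) := T_36 (nat_lit 111) (nat_lit 128) (nat_lit 6) (nat_lit 8) (nat_lit 10) L76428 (by decide +kernel)
theorem L76430 : W_36 (nat_lit 9) (nat_lit 0x22001f80024001000080000000000000000000000000000000) (nat_lit 0x0) (nat_lit 0x80004000000000000000020013800f8005e0000000000000000000000) := T_36 (nat_lit 124) (nat_lit 141) (nat_lit 7) (nat_lit 5) (nat_lit 7) L76429 (by decide +kernel)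
theorem L76431 : W_36 (nat_lit 10) (nat_lit 0x22001f80004001000080000000000000000000000000000000) (nat_lit 0x0) (nat_lit 0x80004000000000006000020013800f8005e0000000000000000000000) := T_36 (nat_lit 161) (nat_lit 162) (nat_lit 2) (nat_lit 5) (nat_lit 10) L76430 (by decide +kernel)
theorem L76432 : W_36 (nat_lit 11) (nat_lit 0x22001f00004001000080000000000000000000000000000000) (nat_lit 0x0) (nat_lit 0x80004000000008006200020013800f8005e0000000000000000000000) := T_36 (nat_lit 175) (nat_lit 157) (nat_lit 0) (nat_lit 8) (nat_lit 10) L76431 (by decide +kernel)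
theorem L76433 : W_36 (nat_lit 12) (nat_lit 0x20001f00004001000080000000000000000000000000000000) (nat_lit 0x0) (nat_lit 0x80004000300008006200020013800f8005e0000000000000000000000) := T_36 (nat_lit 193) (nat_lit 192) (nat_lit 1) (nat_lit 9) (nat_lit 10) L76432 (by decide +kernel)
theorem L76434 : W_36 (nat_lit 13) (nat_lit 0x20001f00000001000080000000000000000000000000000000) (nat_lit 0x0) (nat_lit 0x80004000300008006e00020013800f8005e0000000000000000000000) := T_36 (nat_lit 158) (nat_lit 159) (nat_lit 0) (nat_lit 9) (nat_lit 10) L76433 (by decide +kernel)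
theorem L76435 : W_36 (nat_lit 14) (nat_lit 0x1f00000001000080000000000000000000000000000000) (nat_lit 0x0) (nat_lit 0x80004006300008006e00020013800f8005e0000000000000000000000) := T_36 (nat_lit 197) (nat_lit 198) (nat_lit 3) (nat_lit 7) (nat_lit 10) L76434 (by decide +kernel)
theorem L76436 : W_36 (nat_lit 2) (nat_lit 0x21001f80000001000080000000000000000000000000000000) (nat_lit 0x0) (nat_lit 0xe000000000000000000000000000000000000000) := D_36 (nat_lit 158) (nat_lit 157) (nat_lit 159) (nat_lit 0) (nat_lit 8) (nat_lit 10) (nat_lit 0) (nat_lit 9) (nat_lit 10) (by decide +kernel)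
theorem L76437 : W_36 (nat_lit 3) (nat_lit 0x21001f00000001000080000000000000000000000000000000) (nat_lit 0x0) (nat_lit 0x80008000e000000000000000000000000000000000000000) := T_36 (nat_lit 175) (nat_lit 191) (nat_lit 1) (nat_lit 8) (nat_lit 10) L76436 (by decide +kernel)
theorem L76438 : W_36 (nat_lit 4) (nat_lit 0x1001f00000001000080000000000000000000000000000000) (nat_lit 0x0) (nat_lit 0x6080008000e000000000000000000000000000000000000000) := T_36 (nat_lit 197) (nat_lit 198) (nat_lit 3) (nat_lit 7) (nat_lit 10) L76437 (by decide +kernel)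
theorem L76439 : W_36 (nat_lit 5) (nat_lit 0x1f00000001000080000000000000000000000000000000) (nat_lit 0x0) (nat_lit 0x6380008000e000000000000000000000000000000000000000) := T_36 (nat_lit 192) (nat_lit 193) (nat_lit 1) (nat_lit 9) (nat_lit 10) L76438 (by decide +kernel)
theorem L76440 : W_36 (nat_lit 15) (nat_lit 0x1e00000001000080000000000000000000000000000000) (nat_lit 0x0) (nat_lit 0x8000400e38061800ee00020013800f8005e0000000000000000000000) := Q_36 (nat_lit 176) (C_36 L76415 (C_36 L76417 (C_36 L76422 (C_36 L76435 (C_36 L76439 N_36))))) (by decide +kernel)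
theorem L76441 : W_36 (nat_lit 16) (nat_lit 0xe00000001000080000000000000000000000000000000) (nat_lit 0x0) (nat_lit 0x288014401e380f1807ee078a03f383ff803fe0028000000000000000000) := Q_36 (nat_lit 180) (C_36 L76303 (C_36 L4789 (C_36 L76409 (C_36 L76440 N_36)))) (by decide +kernel)
theorem L76442 : W_36 (nat_lit 2) (nat_lit 0x1f00088001000080000000000000000000000000000000) (nat_lit 0x0) (nat_lit 0x70000000000000000000000000000000000000000000000000) := D_36 (nat_lit 197) (nat_lit 196) (nat_lit 198) (nat_lit 3) (nat_lit 6) (nat_lit 10) (nat_lit 3) (nat_lit 7) (nat_lit 10) (by decide +kernel)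
theorem L76443 : W_36 (nat_lit 3) (nat_lit 0xf00088001000080000000000000000000000000000000) (nat_lit 0x0) (nat_lit 0x70001000100000000000000000000000000000000000000000) := T_36 (nat_lit 180) (nat_lit 164) (nat_lit 2) (nat_lit 7) (nat_lit 10) L76442 (by decide +kernel)
theorem L76444 : W_36 (nat_lit 4) (nat_lit 0xf00080001000080000000000000000000000000000000) (nat_lit 0x0) (nat_lit 0x7000100010c000000000000000000000000000000000000000) := T_36 (nat_lit 159) (nat_lit 158) (nat_lit 0) (nat_lit 9) (nat_lit 10) L76443 (by decide +kernel)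
theorem L76445 : W_36 (nat_lit 5) (nat_lit 0xf00000001000080000000000000000000000000000000) (nat_lit 0x0) (nat_lit 0x700010001cc000000000000000000000000000000000000000) := T_36 (nat_lit 163) (nat_lit 162) (nat_lit 2) (nat_lit 6) (nat_lit 10) L76444 (by decide +kernel)
theorem L76446 : W_36 (nat_lit 6) (nat_lit 0xe00000001000080000000000000000000000000000000) (nat_lit 0x0) (nat_lit 0x7b8011801ce000000000000000000000000000000000000000) := Q_36 (nat_lit 176) (C_36 L72794 (C_36 L76445 (C_36 L4774 (C_36 L11381 N_36)))) (by decide +kernel)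
theorem L76447 : W_36 (nat_lit 17) (nat_lit 0x600000001000080000000000000000000000000000000) (nat_lit 0x0) (nat_lit 0x288014401fb80f9807ee078a03f383ff803fe0028000000000000000000) := Q_36 (nat_lit 179) (C_36 L76297 (C_36 L76298 (C_36 L76441 (C_36 L76446 (C_36 L5919 N_36))))) (by decide +kernel)
theorem L76461 : W_36 (nat_lit 2) (nat_lit 0xf00020001000080000000000000000000000000000000) (nat_lit 0x0) (nat_lit 0xc0000000000004000000000000000000000000000) := D_36 (nat_lit 162) (nat_lit 163) (nat_lit 110) (nat_lit 2) (nat_lit 6) (nat_lit 10) (nat_lit 7) (nat_lit 8) (nat_lit 6) (by decide +kernel)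
theorem L76462 : W_36 (nat_lit 3) (nat_lit 0xf00000001000080000000000000000000000000000000) (nat_lit 0x0) (nat_lit 0x40000000e0000000000004000000000000000000000000000) := T_36 (nat_lit 161) (nat_lit 194) (nat_lit 5) (nat_lit 8) (nat_lit 7) L76461 (by decide +kernel)
theorem L76463 : W_36 (nat_lit 2) (nat_lit 0x3f00000001000080000000000000000000000000000000) (nat_lit 0x0) (nat_lit 0xe0000000000000000000000000000000000000000000000000) := D_36 (nat_lit 198) (nat_lit 197) (nat_lit 199) (nat_lit 3) (nat_lit 7) (nat_lit 10) (nat_lit 3) (nat_lit 8) (nat_lit 10) (by decide +kernel)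
theorem L76464 : W_36 (nat_lit 2) (nat_lit 0x80007f0012800100048001e001000000000000000000000000) (nat_lit 0x0) (nat_lit 0x800020002000000000000000000000000) := D_36 (nat_lit 113) (nat_lit 131) (nat_lit 97) (nat_lit 3) (nat_lit 8) (nat_lit 6) (nat_lit 2) (nat_lit 8) (nat_lit 6) (by decide +kernel)
theorem L76465 : W_36 (nat_lit 3) (nat_lit 0x80007f0012800100048001e000000000000000000000000000) (nat_lit 0x0) (nat_lit 0x800020003800000000000000000000000) := T_36 (nat_lit 96) (nat_lit 95) (nat_lit 2) (nat_lit 7) (nat_lit 6) L76464 (by decide +kernel)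
theorem L76466 : W_36 (nat_lit 4) (nat_lit 0x80007f0012800100048000e000000000000000000000000000) (nat_lit 0x0) (nat_lit 0xa00030003800000000000000000000000) := T_36 (nat_lit 112) (nat_lit 129) (nat_lit 3) (nat_lit 7) (nat_lit 6) L76465 (by decide +kernel)
theorem L76467 : W_36 (nat_lit 5) (nat_lit 0x80007f0012800100048000c000000000000000000000000000) (nat_lit 0x0) (nat_lit 0xa00032003900000000000000000000000) := T_36 (nat_lit 109) (nat_lit 92) (nat_lit 4) (nat_lit 8) (nat_lit 9) L76466 (by decide +kernel)
theorem L76468 : W_36 (nat_lit 6) (nat_lit 0x80007f00128001000480008000000000000000000000000000) (nat_lit 0x0) (nat_lit 0xa00036003d00000000000000000000000) := T_36 (nat_lit 110) (nat_lit 94) (nat_lit 6) (nat_lit 8) (nat_lit 9) L76467 (by decide +kernel)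
theorem L76469 : W_36 (nat_lit 7) (nat_lit 0x80007f00128001000480000000000000000000000000000000) (nat_lit 0x0) (nat_lit 0xb0003e003d00000000000000000000000) := T_36 (nat_lit 111) (nat_lit 128) (nat_lit 6) (nat_lit 8) (nat_lit 10) L76468 (by decide +kernel)
theorem L76470 : W_36 (nat_lit 8) (nat_lit 0x80007f00128001000080000000000000000000000000000000) (nat_lit 0x0) (nat_lit 0x8000f0003e003d00000000000000000000000) := T_36 (nat_lit 130) (nat_lit 147) (nat_lit 7) (nat_lit 11) (nat_lit 7) L76469 (by decide +kernel)
theorem L76471 : W_36 (nat_lit 9) (nat_lit 0x80007f00108001000080000000000000000000000000000000) (nat_lit 0x0) (nat_lit 0x60008000f0003e003d00000000000000000000000) := T_36 (nat_lit 161) (nat_lit 162) (nat_lit 0) (nat_lit 12) (nat_lit 10) L76470 (by decide +kernel)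
theorem L76472 : W_36 (nat_lit 10) (nat_lit 0x80003f00108001000080000000000000000000000000000000) (nat_lit 0x0) (nat_lit 0x100004000060008000f0003e003d00000000000000000000000) := T_36 (nat_lit 182) (nat_lit 200) (nat_lit 3) (nat_lit 9) (nat_lit 10) L76471 (by decide +kernel)
theorem L76473 : W_36 (nat_lit 11) (nat_lit 0x3f00108001000080000000000000000000000000000000) (nat_lit 0x0) (nat_lit 0x1c0004000060008000f0003e003d00000000000000000000000) := T_36 (nat_lit 199) (nat_lit 198) (nat_lit 3) (nat_lit 8) (nat_lit 10) L76472 (by decide +kernel)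
theorem L76474 : W_36 (nat_lit 12) (nat_lit 0x3f00008001000080000000000000000000000000000000) (nat_lit 0x0) (nat_lit 0x1c0004000360008000f0003e003d00000000000000000000000) := T_36 (nat_lit 164) (nat_lit 165) (nat_lit 2) (nat_lit 8) (nat_lit 10) L76473 (by decide +kernel)
theorem L76475 : W_36 (nat_lit 13) (nat_lit 0x3f00000001000080000000000000000000000000000000) (nat_lit 0x0) (nat_lit 0x1c000400036c008000f0003e003d00000000000000000000000) := T_36 (nat_lit 159) (nat_lit 158) (nat_lit 0) (nat_lit 9) (nat_lit 10) L76474 (by decide +kernel)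
theorem L76476 : W_36 (nat_lit 2) (nat_lit 0x3f00020001000080000000000000000000000000000000) (nat_lit 0x0) (nat_lit 0x4000040000000000004000000000000000000000000000) := D_36 (nat_lit 162) (nat_lit 110) (nat_lit 182) (nat_lit 7) (nat_lit 8) (nat_lit 6) (nat_lit 0) (nat_lit 12) (nat_lit 10) (by decide +kernel)
theorem L76477 : W_36 (nat_lit 2) (nat_lit 0x2007f00020001000180000000000000000000000000000000) (nat_lit 0x0) (nat_lit 0x700000000000000000000000000000000000000000) := D_36 (nat_lit 165) (nat_lit 164) (nat_lit 166) (nat_lit 2) (nat_lit 8) (nat_lit 10) (nat_lit 2) (nat_lit 9) (nat_lit 10) (by decide +kernel)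
theorem L76478 : W_36 (nat_lit 3) (nat_lit 0x2003f00020001000180000000000000000000000000000000) (nat_lit 0x0) (nat_lit 0x4000740000000000000000000000000000000000000000) := T_36 (nat_lit 182) (nat_lit 162) (nat_lit 0) (nat_lit 12) (nat_lit 10) L76477 (by decide +kernel)
theorem L76479 : W_36 (nat_lit 4) (nat_lit 0x2003f00020001000080000000000000000000000000000000) (nat_lit 0x0) (nat_lit 0x4000740000000100008000000000000000000000000000) := T_36 (nat_lit 128) (nat_lit 111) (nat_lit 6) (nat_lit 8) (nat_lit 10) L76478 (by decide +kernel)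
theorem L76480 : W_36 (nat_lit 5) (nat_lit 0x3f00020001000080000000000000000000000000000000) (nat_lit 0x0) (nat_lit 0x3004000740000000100008000000000000000000000000000) := T_36 (nat_lit 193) (nat_lit 192) (nat_lit 1) (nat_lit 9) (nat_lit 10) L76479 (by decide +kernel)
theorem L76481 : W_36 (nat_lit 2) (nat_lit 0x2003f00128009000680000000000000000000000000000000) (nat_lit 0x0) (nat_lit 0x10800100000000000000000000000000000000) := D_36 (nat_lit 128) (nat_lit 148) (nat_lit 143) (nat_lit 3) (nat_lit 8) (nat_lit 7) (nat_lit 1) (nat_lit 11) (nat_lit 7) (by decide +kernel)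
theorem L76482 : W_36 (nat_lit 3) (nat_lit 0x2003f00128009000480000000000000000000000000000000) (nat_lit 0x0) (nat_lit 0x10800300010000000000000000000000000000) := T_36 (nat_lit 129) (nat_lit 112) (nat_lit 4) (nat_lit 11) (nat_lit 10) L76481 (by decide +kernel)
theorem L76483 : W_36 (nat_lit 4) (nat_lit 0x2003f00128001000480000000000000000000000000000000) (nat_lit 0x0) (nat_lit 0x20000000000018800300010000000000000000000000000000) := T_36 (nat_lit 147) (nat_lit 197) (nat_lit 5) (nat_lit 11) (nat_lit 7) L76482 (by decide +kernel)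
theorem L76484 : W_36 (nat_lit 5) (nat_lit 0x2003f00028001000480000000000000000000000000000000) (nat_lit 0x0) (nat_lit 0x20000000300018800300010000000000000000000000000000) := T_36 (nat_lit 164) (nat_lit 165) (nat_lit 2) (nat_lit 8) (nat_lit 10) L76483 (by decide +kernel)
theorem L76485 : W_36 (nat_lit 6) (nat_lit 0x3f00028001000480000000000000000000000000000000) (nat_lit 0x0) (nat_lit 0x23000000300018800300010000000000000000000000000000) := T_36 (nat_lit 193) (nat_lit 192) (nat_lit 1) (nat_lit 9) (nat_lit 10) L76484 (by decide +kernel)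
theorem L76486 : W_36 (nat_lit 7) (nat_lit 0x3f00020001000480000000000000000000000000000000) (nat_lit 0x0) (nat_lit 0x2300000030c018800300010000000000000000000000000000) := T_36 (nat_lit 159) (nat_lit 158) (nat_lit 0) (nat_lit 9) (nat_lit 10) L76485 (by decide +kernel)
theorem L76487 : W_36 (nat_lit 2) (nat_lit 0x3f00120009000580000000000000000000000000000000) (nat_lit 0x0) (nat_lit 0x10000200010000000000000000000000000000) := D_36 (nat_lit 129) (nat_lit 112) (nat_lit 148) (nat_lit 4) (nat_lit 11) (nat_lit 10) (nat_lit 3) (nat_lit 8) (nat_lit 7) (by decide +kernel)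
theorem L76488 : W_36 (nat_lit 3) (nat_lit 0x3f00120001000580000000000000000000000000000000) (nat_lit 0x0) (nat_lit 0x20000000000018000200010000000000000000000000000000) := T_36 (nat_lit 147) (nat_lit 197) (nat_lit 5) (nat_lit 11) (nat_lit 7) L76487 (by decide +kernel)
theorem L76489 : W_36 (nat_lit 4) (nat_lit 0x3f00120001000480000000000000000000000000000000) (nat_lit 0x0) (nat_lit 0x20000000000018000300018000000000000000000000000000) := T_36 (nat_lit 128) (nat_lit 111) (nat_lit 6) (nat_lit 8) (nat_lit 10) L76488 (by decide +kernel)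
theorem L76490 : W_36 (nat_lit 5) (nat_lit 0x3f00020001000480000000000000000000000000000000) (nat_lit 0x0) (nat_lit 0x20000000300018000300018000000000000000000000000000) := T_36 (nat_lit 164) (nat_lit 165) (nat_lit 2) (nat_lit 8) (nat_lit 10) L76489 (by decide +kernel)
theorem L76491 : W_36 (nat_lit 2) (nat_lit 0x7f00128009000480030000000000000000000000000000) (nat_lit 0x0) (nat_lit 0x800040002000000000000000000000000) := D_36 (nat_lit 114) (nat_lit 131) (nat_lit 97) (nat_lit 6) (nat_lit 11) (nat_lit 10) (nat_lit 6) (nat_lit 11) (nat_lit 9) (by decide +kernel)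
theorem L76492 : W_36 (nat_lit 3) (nat_lit 0x7f00128009000480010000000000000000000000000000) (nat_lit 0x0) (nat_lit 0x800060002800000000000000000000000) := T_36 (nat_lit 113) (nat_lit 95) (nat_lit 4) (nat_lit 11) (nat_lit 9) L76491 (by decide +kernel)
theorem L76493 : W_36 (nat_lit 4) (nat_lit 0x3f00128009000480010000000000000000000000000000) (nat_lit 0x0) (nat_lit 0x80004000000000000800060002800000000000000000000000) := T_36 (nat_lit 182) (nat_lit 199) (nat_lit 7) (nat_lit 11) (nat_lit 7) L76492 (by decide +kernel)
theorem L76494 : W_36 (nat_lit 5) (nat_lit 0x3f00128009000480000000000000000000000000000000) (nat_lit 0x0) (nat_lit 0x80004000000000000a00070002800000000000000000000000) := T_36 (nat_lit 112) (nat_lit 129) (nat_lit 4) (nat_lit 11) (nat_lit 10) L76493 (by decide +kernel)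
theorem L76495 : W_36 (nat_lit 6) (nat_lit 0x3f00128001000480000000000000000000000000000000) (nat_lit 0x0) (nat_lit 0xa0004000000008000a00070002800000000000000000000000) := T_36 (nat_lit 147) (nat_lit 197) (nat_lit 5) (nat_lit 11) (nat_lit 7) L76494 (by decide +kernel)
theorem L76496 : W_36 (nat_lit 7) (nat_lit 0x3f00120001000480000000000000000000000000000000) (nat_lit 0x0) (nat_lit 0xa000400000c008000a00070002800000000000000000000000) := T_36 (nat_lit 159) (nat_lit 158) (nat_lit 0) (nat_lit 9) (nat_lit 10) L76495 (by decide +kernel)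
theorem L76497 : W_36 (nat_lit 8) (nat_lit 0x3f00020001000480000000000000000000000000000000) (nat_lit 0x0) (nat_lit 0xa000400030c008000a00070002800000000000000000000000) := T_36 (nat_lit 164) (nat_lit 165) (nat_lit 2) (nat_lit 8) (nat_lit 10) L76496 (by decide +kernel)
theorem L76498 : W_36 (nat_lit 2) (nat_lit 0x3f00120001000780000000000000000000000000000000) (nat_lit 0x0) (nat_lit 0x20000000000018000000000000000000000000000000000000) := D_36 (nat_lit 147) (nat_lit 197) (nat_lit 148) (nat_lit 5) (nat_lit 11) (nat_lit 7) (nat_lit 3) (nat_lit 8) (nat_lit 7) (by decide +kernel)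
theorem L76499 : W_36 (nat_lit 3) (nat_lit 0x3f00120001000580000000000000000000000000000000) (nat_lit 0x0) (nat_lit 0x20000000000018800200000000000000000000000000000000) := T_36 (nat_lit 129) (nat_lit 143) (nat_lit 1) (nat_lit 11) (nat_lit 7) L76498 (by decide +kernel)
theorem L76500 : W_36 (nat_lit 4) (nat_lit 0x3f00120001000480000000000000000000000000000000) (nat_lit 0x0) (nat_lit 0x20000000000018800300008000000000000000000000000000) := T_36 (nat_lit 128) (nat_lit 111) (nat_lit 6) (nat_lit 8) (nat_lit 10) L76499 (by decide +kernel)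
theorem L76501 : W_36 (nat_lit 5) (nat_lit 0x3f00020001000480000000000000000000000000000000) (nat_lit 0x0) (nat_lit 0x20000000300018800300008000000000000000000000000000) := T_36 (nat_lit 164) (nat_lit 165) (nat_lit 2) (nat_lit 8) (nat_lit 10) L76500 (by decide +kernel)
theorem L76502 : W_36 (nat_lit 2) (nat_lit 0x2003f0012000900048002c000340000000000000000000000) (nat_lit 0x0) (nat_lit 0x800040002000000000000000000000000) := D_36 (nat_lit 114) (nat_lit 131) (nat_lit 97) (nat_lit 6) (nat_lit 11) (nat_lit 10) (nat_lit 6) (nat_lit 11) (nat_lit 9) (by decide +kernel)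
theorem L76503 : W_36 (nat_lit 3) (nat_lit 0x2003f0012000900048000c000340000000000000000000000) (nat_lit 0x0) (nat_lit 0x800070002000000000000000000000000) := T_36 (nat_lit 113) (nat_lit 112) (nat_lit 0) (nat_lit 11) (nat_lit 6) L76502 (by decide +kernel)
theorem L76504 : W_36 (nat_lit 4) (nat_lit 0x2003f0012000900048000c000300000000000000000000000) (nat_lit 0x0) (nat_lit 0x8000700020c0000000000000000000000) := T_36 (nat_lit 90) (nat_lit 91) (nat_lit 3) (nat_lit 5) (nat_lit 5) L76503 (by decide +kernel)
theorem L76505 : W_36 (nat_lit 5) (nat_lit 0x2003f0012000900048000c000100000000000000000000000) (nat_lit 0x0) (nat_lit 0x8000700022c0008000000000000000000) := T_36 (nat_lit 93) (nat_lit 75) (nat_lit 4) (nat_lit 8) (nat_lit 8) L76504 (by decide +kernel)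
theorem L76506 : W_36 (nat_lit 6) (nat_lit 0x3f0012000900048000c000100000000000000000000000) (nat_lit 0x0) (nat_lit 0x30000000000000008000700022c0008000000000000000000) := T_36 (nat_lit 193) (nat_lit 192) (nat_lit 1) (nat_lit 9) (nat_lit 10) L76505 (by decide +kernel)
theorem L76507 : W_36 (nat_lit 7) (nat_lit 0x3f0012000900048000c000000000000000000000000000) (nat_lit 0x0) (nat_lit 0x30000000000000008000720023c0008000000000000000000) := T_36 (nat_lit 92) (nat_lit 109) (nat_lit 4) (nat_lit 8) (nat_lit 9) L76506 (by decide +kernel)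
theorem L76508 : W_36 (nat_lit 8) (nat_lit 0x3f00120009000480008000000000000000000000000000) (nat_lit 0x0) (nat_lit 0x30000000000000008000760027c0008000000000000000000) := T_36 (nat_lit 110) (nat_lit 94) (nat_lit 6) (nat_lit 8) (nat_lit 9) L76507 (by decide +kernel)
theorem L76509 : W_36 (nat_lit 9) (nat_lit 0x3f00120001000480008000000000000000000000000000) (nat_lit 0x0) (nat_lit 0x230000000000080008000760027c0008000000000000000000) := T_36 (nat_lit 147) (nat_lit 197) (nat_lit 5) (nat_lit 11) (nat_lit 7) L76508 (by decide +kernel)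
theorem L76510 : W_36 (nat_lit 10) (nat_lit 0x3f00120001000480000000000000000000000000000000) (nat_lit 0x0) (nat_lit 0x2300000000000800090007e0027c0008000000000000000000) := T_36 (nat_lit 111) (nat_lit 128) (nat_lit 6) (nat_lit 8) (nat_lit 10) L76509 (by decide +kernel)
theorem L76511 : W_36 (nat_lit 11) (nat_lit 0x3f00020001000480000000000000000000000000000000) (nat_lit 0x0) (nat_lit 0x2300000030000800090007e0027c0008000000000000000000) := T_36 (nat_lit 164) (nat_lit 165) (nat_lit 2) (nat_lit 8) (nat_lit 10) L76510 (by decide +kernel)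
theorem L76512 : W_36 (nat_lit 2) (nat_lit 0x3f00120001000780000000000000000000000000000000) (nat_lit 0x0) (nat_lit 0x18000000010000000000000000000000000000) := D_36 (nat_lit 147) (nat_lit 148) (nat_lit 112) (nat_lit 3) (nat_lit 8) (nat_lit 7) (nat_lit 4) (nat_lit 11) (nat_lit 10) (by decide +kernel)
theorem L76513 : W_36 (nat_lit 3) (nat_lit 0x3f00120001000580000000000000000000000000000000) (nat_lit 0x0) (nat_lit 0x18800200010000000000000000000000000000) := T_36 (nat_lit 129) (nat_lit 143) (nat_lit 1) (nat_lit 11) (nat_lit 7) L76512 (by decide +kernel)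
theorem L76514 : W_36 (nat_lit 4) (nat_lit 0x3f00120001000480000000000000000000000000000000) (nat_lit 0x0) (nat_lit 0x18800300018000000000000000000000000000) := T_36 (nat_lit 128) (nat_lit 111) (nat_lit 6) (nat_lit 8) (nat_lit 10) L76513 (by decide +kernel)
theorem L76515 : W_36 (nat_lit 5) (nat_lit 0x3f00020001000480000000000000000000000000000000) (nat_lit 0x0) (nat_lit 0x300018800300018000000000000000000000000000) := T_36 (nat_lit 164) (nat_lit 165) (nat_lit 2) (nat_lit 8) (nat_lit 10) L76514 (by decide +kernel)
theorem L76516 : W_36 (nat_lit 2) (nat_lit 0x3f00028011000780044000000000000000000000000000) (nat_lit 0x0) (nat_lit 0x20000800080000000000000000000000000000) := D_36 (nat_lit 131) (nat_lit 149) (nat_lit 115) (nat_lit 3) (nat_lit 9) (nat_lit 7) (nat_lit 2) (nat_lit 9) (nat_lit 7) (by decide +kernel)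
theorem L76517 : W_36 (nat_lit 3) (nat_lit 0x3f00028011000780004000000000000000000000000000) (nat_lit 0x0) (nat_lit 0x200008000e0000000000000000000000000000) := T_36 (nat_lit 114) (nat_lit 113) (nat_lit 2) (nat_lit 8) (nat_lit 7) L76516 (by decide +kernel)
theorem L76518 : W_36 (nat_lit 4) (nat_lit 0x3f00028001000780004000000000000000000000000000) (nat_lit 0x0) (nat_lit 0x380008000e0000000000000000000000000000) := T_36 (nat_lit 148) (nat_lit 147) (nat_lit 3) (nat_lit 8) (nat_lit 7) L76517 (by decide +kernel)
theorem L76519 : W_36 (nat_lit 5) (nat_lit 0x3f00028001000780000000000000000000000000000000) (nat_lit 0x0) (nat_lit 0x380008000e6000000000000000000000000000) := T_36 (nat_lit 110) (nat_lit 109) (nat_lit 0) (nat_lit 11) (nat_lit 7) L76518 (by decide +kernel)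
theorem L76520 : W_36 (nat_lit 6) (nat_lit 0x3f00028001000580000000000000000000000000000000) (nat_lit 0x0) (nat_lit 0x38800a000e6000000000000000000000000000) := T_36 (nat_lit 129) (nat_lit 143) (nat_lit 1) (nat_lit 11) (nat_lit 7) L76519 (by decide +kernel)
theorem L76521 : W_36 (nat_lit 7) (nat_lit 0x3f00028001000480000000000000000000000000000000) (nat_lit 0x0) (nat_lit 0x38800b000ee000000000000000000000000000) := T_36 (nat_lit 128) (nat_lit 111) (nat_lit 6) (nat_lit 8) (nat_lit 10) L76520 (by decide +kernel)
theorem L76522 : W_36 (nat_lit 8) (nat_lit 0x3f00020001000480000000000000000000000000000000) (nat_lit 0x0) (nat_lit 0xc038800b000ee000000000000000000000000000) := T_36 (nat_lit 159) (nat_lit 158) (nat_lit 0) (nat_lit 9) (nat_lit 10) L76521 (by decide +kernel)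
theorem L76523 : W_36 (nat_lit 2) (nat_lit 0x2003f0012800100048001e001000000000000000000000000) (nat_lit 0x0) (nat_lit 0x800020002000000000000000000000000) := D_36 (nat_lit 113) (nat_lit 131) (nat_lit 97) (nat_lit 3) (nat_lit 8) (nat_lit 6) (nat_lit 2) (nat_lit 8) (nat_lit 6) (by decide +kernel)
theorem L76524 : W_36 (nat_lit 3) (nat_lit 0x2003f0012800100048001e000000000000000000000000000) (nat_lit 0x0) (nat_lit 0x800020003800000000000000000000000) := T_36 (nat_lit 96) (nat_lit 95) (nat_lit 2) (nat_lit 7) (nat_lit 6) L76523 (by decide +kernel)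
theorem L76525 : W_36 (nat_lit 4) (nat_lit 0x2003f0012800100048000e000000000000000000000000000) (nat_lit 0x0) (nat_lit 0xa00030003800000000000000000000000) := T_36 (nat_lit 112) (nat_lit 129) (nat_lit 3) (nat_lit 7) (nat_lit 6) L76524 (by decide +kernel)
theorem L76526 : W_36 (nat_lit 5) (nat_lit 0x2003f0012800100048000c000000000000000000000000000) (nat_lit 0x0) (nat_lit 0xa00032003900000000000000000000000) := T_36 (nat_lit 109) (nat_lit 92) (nat_lit 4) (nat_lit 8) (nat_lit 9) L76525 (by decide +kernel)
theorem L76527 : W_36 (nat_lit 6) (nat_lit 0x2003f00128001000480008000000000000000000000000000) (nat_lit 0x0) (nat_lit 0xa00036003d00000000000000000000000) := T_36 (nat_lit 110) (nat_lit 94) (nat_lit 6) (nat_lit 8) (nat_lit 9) L76526 (by decide +kernel)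
theorem L76528 : W_36 (nat_lit 7) (nat_lit 0x2003f00128001000480000000000000000000000000000000) (nat_lit 0x0) (nat_lit 0xb0003e003d00000000000000000000000) := T_36 (nat_lit 111) (nat_lit 128) (nat_lit 6) (nat_lit 8) (nat_lit 10) L76527 (by decide +kernel)
theorem L76529 : W_36 (nat_lit 8) (nat_lit 0x2003f00120001000480000000000000000000000000000000) (nat_lit 0x0) (nat_lit 0xc000000b0003e003d00000000000000000000000) := T_36 (nat_lit 159) (nat_lit 158) (nat_lit 0) (nat_lit 9) (nat_lit 10) L76528 (by decide +kernel)
theorem L76530 : W_36 (nat_lit 9) (nat_lit 0x2003f00020001000480000000000000000000000000000000) (nat_lit 0x0) (nat_lit 0x30c000000b0003e003d00000000000000000000000) := T_36 (nat_lit 164) (nat_lit 165) (nat_lit 2) (nat_lit 8) (nat_lit 10) L76529 (by decide +kernel)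
theorem L76531 : W_36 (nat_lit 10) (nat_lit 0x3f00020001000480000000000000000000000000000000) (nat_lit 0x0) (nat_lit 0x300000030c000000b0003e003d00000000000000000000000) := T_36 (nat_lit 193) (nat_lit 192) (nat_lit 1) (nat_lit 9) (nat_lit 10) L76530 (by decide +kernel)
theorem L76532 : W_36 (nat_lit 12) (nat_lit 0x3f00020001000080000000000000000000000000000000) (nat_lit 0x0) (nat_lit 0xa300400030c038800f000fe003fc0008000000000000000000) := Q_36 (nat_lit 130) (C_36 L76486 (C_36 L76490 (C_36 L76497 (C_36 L76501 (C_36 L76511 (C_36 L76515 (C_36 L76522 (C_36 L76531 N_36)))))))) (by decide +kernel)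
theorem L76533 : W_36 (nat_lit 2) (nat_lit 0x3f00020001000080008000000000000000000000000000) (nat_lit 0x0) (nat_lit 0x40000000000004000400000000000000000000000) := D_36 (nat_lit 110) (nat_lit 162) (nat_lit 94) (nat_lit 7) (nat_lit 8) (nat_lit 6) (nat_lit 6) (nat_lit 8) (nat_lit 9) (by decide +kernel)
theorem L76534 : W_36 (nat_lit 3) (nat_lit 0x3f00020001000080000000000000000000000000000000) (nat_lit 0x0) (nat_lit 0x4000000010000c000400000000000000000000000) := T_36 (nat_lit 111) (nat_lit 128) (nat_lit 6) (nat_lit 8) (nat_lit 10) L76533 (by decide +kernel)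
theorem L76535 : W_36 (nat_lit 13) (nat_lit 0x3f00000001000080000000000000000000000000000000) (nat_lit 0x0) (nat_lit 0xa300400076c038800f000fe003fc0008000000000000000000) := Q_36 (nat_lit 161) (C_36 L76476 (C_36 L76480 (C_36 L76532 (C_36 L76534 N_36)))) (by decide +kernel)
theorem L76536 : W_36 (nat_lit 2) (nat_lit 0x8000000020003f0012800100048001e001000000000000000000000000) (nat_lit 0x0) (nat_lit 0x800020002000000000000000000000000) := D_36 (nat_lit 113) (nat_lit 131) (nat_lit 97) (nat_lit 3) (nat_lit 8) (nat_lit 6) (nat_lit 2) (nat_lit 8) (nat_lit 6) (by decide +kernel)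
theorem L76537 : W_36 (nat_lit 3) (nat_lit 0x8000000020003f0012800100048001e000000000000000000000000000) (nat_lit 0x0) (nat_lit 0x800020003800000000000000000000000) := T_36 (nat_lit 96) (nat_lit 95) (nat_lit 2) (nat_lit 7) (nat_lit 6) L76536 (by decide +kernel)
theorem L76538 : W_36 (nat_lit 4) (nat_lit 0x8000000020003f0012800100048000e000000000000000000000000000) (nat_lit 0x0) (nat_lit 0xa00030003800000000000000000000000) := T_36 (nat_lit 112) (nat_lit 129) (nat_lit 3) (nat_lit 7) (nat_lit 6) L76537 (by decide +kernel)
theorem L76539 : W_36 (nat_lit 5) (nat_lit 0x8000000020003f0012800100008000e000000000000000000000000000) (nat_lit 0x0) (nat_lit 0x8000e00030003800000000000000000000000) := T_36 (nat_lit 130) (nat_lit 147) (nat_lit 5) (nat_lit 11) (nat_lit 7) L76538 (by decide +kernel)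
theorem L76540 : W_36 (nat_lit 6) (nat_lit 0x8000000020003f0012800100008000c000000000000000000000000000) (nat_lit 0x0) (nat_lit 0x8000e00032003900000000000000000000000) := T_36 (nat_lit 109) (nat_lit 92) (nat_lit 4) (nat_lit 8) (nat_lit 9) L76539 (by decide +kernel)
theorem L76541 : W_36 (nat_lit 7) (nat_lit 0x8000000020003f00128001000080008000000000000000000000000000) (nat_lit 0x0) (nat_lit 0x8000e00036003d00000000000000000000000) := T_36 (nat_lit 110) (nat_lit 94) (nat_lit 6) (nat_lit 8) (nat_lit 9) L76540 (by decide +kernel)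
theorem L76542 : W_36 (nat_lit 8) (nat_lit 0x20003f00128001000080008000000000000000000000000000) (nat_lit 0x0) (nat_lit 0x8000400000000000000008000e00036003d00000000000000000000000) := T_36 (nat_lit 231) (nat_lit 214) (nat_lit 6) (nat_lit 10) (nat_lit 13) L76541 (by decide +kernel)
theorem L76543 : W_36 (nat_lit 9) (nat_lit 0x20003f00128001000080000000000000000000000000000000) (nat_lit 0x0) (nat_lit 0x8000400000000000000008000f0003e003d00000000000000000000000) := T_36 (nat_lit 111) (nat_lit 128) (nat_lit 6) (nat_lit 8) (nat_lit 10) L76542 (by decide +kernel)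
theorem L76544 : W_36 (nat_lit 10) (nat_lit 0x3f00128001000080000000000000000000000000000000) (nat_lit 0x0) (nat_lit 0x8000400060000000000008000f0003e003d00000000000000000000000) := T_36 (nat_lit 197) (nat_lit 198) (nat_lit 3) (nat_lit 7) (nat_lit 10) L76543 (by decide +kernel)
theorem L76545 : W_36 (nat_lit 11) (nat_lit 0x3f00028001000080000000000000000000000000000000) (nat_lit 0x0) (nat_lit 0x8000400060000000300008000f0003e003d00000000000000000000000) := T_36 (nat_lit 164) (nat_lit 165) (nat_lit 2) (nat_lit 8) (nat_lit 10) L76544 (by decide +kernel)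
theorem L76546 : W_36 (nat_lit 12) (nat_lit 0x3f00020001000080000000000000000000000000000000) (nat_lit 0x0) (nat_lit 0x800040006000000030c008000f0003e003d00000000000000000000000) := T_36 (nat_lit 159) (nat_lit 158) (nat_lit 0) (nat_lit 9) (nat_lit 10) L76545 (by decide +kernel)
theorem L76547 : W_36 (nat_lit 13) (nat_lit 0x3f00000001000080000000000000000000000000000000) (nat_lit 0x0) (nat_lit 0x800040006300400076c008000f0003e003d00000000000000000000000) := Q_36 (nat_lit 161) (C_36 L76534 (C_36 L76476 (C_36 L76480 (C_36 L76546 N_36)))) (by decide +kernel)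
theorem L76548 : W_36 (nat_lit 14) (nat_lit 0x1f00000001000080000000000000000000000000000000) (nat_lit 0x0) (nat_lit 0x80004001e300600076c038800f000fe003fc0008000000000000000000) := Q_36 (nat_lit 181) (C_36 L76463 (C_36 L76475 (C_36 L76535 (C_36 L76547 N_36)))) (by decide +kernel)
theorem L76549 : W_36 (nat_lit 2) (nat_lit 0x2003f00108001000080000000000000000000000000000000) (nat_lit 0x0) (nat_lit 0xe0000000000000000000000000000000000000000000000000) := D_36 (nat_lit 198) (nat_lit 197) (nat_lit 199) (nat_lit 3) (nat_lit 7) (nat_lit 10) (nat_lit 3) (nat_lit 8) (nat_lit 10) (by decide +kernel)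
theorem L76550 : W_36 (nat_lit 3) (nat_lit 0x2001f00108001000080000000000000000000000000000000) (nat_lit 0x0) (nat_lit 0xe0002000200000000000000000000000000000000000000000) := T_36 (nat_lit 181) (nat_lit 165) (nat_lit 2) (nat_lit 8) (nat_lit 10) L76549 (by decide +kernel)
theorem L76551 : W_36 (nat_lit 4) (nat_lit 0x2001f00100001000080000000000000000000000000000000) (nat_lit 0x0) (nat_lit 0xe000200020c000000000000000000000000000000000000000) := T_36 (nat_lit 159) (nat_lit 158) (nat_lit 0) (nat_lit 9) (nat_lit 10) L76550 (by decide +kernel)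
theorem L76552 : W_36 (nat_lit 5) (nat_lit 0x2001f00000001000080000000000000000000000000000000) (nat_lit 0x0) (nat_lit 0xe000200038c000000000000000000000000000000000000000) := T_36 (nat_lit 164) (nat_lit 163) (nat_lit 2) (nat_lit 7) (nat_lit 10) L76551 (by decide +kernel)
theorem L76553 : W_36 (nat_lit 6) (nat_lit 0x1f00000001000080000000000000000000000000000000) (nat_lit 0x0) (nat_lit 0xe300200038c000000000000000000000000000000000000000) := T_36 (nat_lit 193) (nat_lit 192) (nat_lit 1) (nat_lit 9) (nat_lit 10) L76552 (by decide +kernel)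
theorem L76554 : W_36 (nat_lit 15) (nat_lit 0xf00000001000080000000000000000000000000000000) (nat_lit 0x0) (nat_lit 0x80004001e30070007ec038800f000fe003fc0008000000000000000000) := Q_36 (nat_lit 180) (C_36 L76415 (C_36 L72912 (C_36 L76548 (C_36 L76553 N_36)))) (by decide +kernel)
theorem L76555 : W_36 (nat_lit 2) (nat_lit 0xf00028001000080004000000000000000000000000000) (nat_lit 0x0) (nat_lit 0x100008000400000000000000000000000) := D_36 (nat_lit 111) (nat_lit 94) (nat_lit 128) (nat_lit 6) (nat_lit 8) (nat_lit 9) (nat_lit 6) (nat_lit 8) (nat_lit 10) (by decide +kernel)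
theorem L76556 : W_36 (nat_lit 3) (nat_lit 0xf00028001000080000000000000000000000000000000) (nat_lit 0x0) (nat_lit 0x4000000010000c000400000000000000000000000) := T_36 (nat_lit 110) (nat_lit 162) (nat_lit 7) (nat_lit 8) (nat_lit 6) L76555 (by decide +kernel)
theorem L76557 : W_36 (nat_lit 4) (nat_lit 0xf00020001000080000000000000000000000000000000) (nat_lit 0x0) (nat_lit 0x4c00000010000c000400000000000000000000000) := T_36 (nat_lit 159) (nat_lit 158) (nat_lit 0) (nat_lit 9) (nat_lit 10) L76556 (by decide +kernel)
theorem L76558 : W_36 (nat_lit 5) (nat_lit 0xf00000001000080000000000000000000000000000000) (nat_lit 0x0) (nat_lit 0x400000006c00000010000c000400000000000000000000000) := T_36 (nat_lit 161) (nat_lit 194) (nat_lit 5) (nat_lit 8) (nat_lit 7) L76557 (by decide +kernel)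
theorem L76559 : W_36 (nat_lit 3) (nat_lit 0xf00000001000080000000000000000000000000000000) (nat_lit 0x0) (nat_lit 0x7001000020000000000000000000000000000000000000000) := T_36 (nat_lit 194) (nat_lit 161) (nat_lit 5) (nat_lit 8) (nat_lit 7) L8185 (by decide +kernel)
theorem L76560 : W_36 (nat_lit 16) (nat_lit 0x700000001000080000000000000000000000000000000) (nat_lit 0x0) (nat_lit 0x80004001e70078007ec038800f000fe003fc0008000000000000000000) := Q_36 (nat_lit 179) (C_36 L76462 (C_36 L76554 (C_36 L11341 (C_36 L76558 (C_36 L76559 N_36))))) (by decide +kernel)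
theorem L76566 : W_36 (nat_lit 11) (nat_lit 0x780024001000080000000000000000000000000000000) (nat_lit 0x0) (nat_lit 0x200010001c0004000000020013800f8005e0000000000000000000000) := T_36 (nat_lit 191) (nat_lit 192) (nat_lit 1) (nat_lit 8) (nat_lit 10) L76456 (by decide +kernel)
theorem L76567 : W_36 (nat_lit 12) (nat_lit 0x780004001000080000000000000000000000000000000) (nat_lit 0x0) (nat_lit 0x200010001c0004006000020013800f8005e0000000000000000000000) := T_36 (nat_lit 161) (nat_lit 162) (nat_lit 2) (nat_lit 5) (nat_lit 10) L76566 (by decide +kernel)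
theorem L76568 : W_36 (nat_lit 13) (nat_lit 0x780000001000080000000000000000000000000000000) (nat_lit 0x0) (nat_lit 0x200010001c0004006600020013800f8005e0000000000000000000000) := T_36 (nat_lit 158) (nat_lit 157) (nat_lit 0) (nat_lit 8) (nat_lit 10) L76567 (by decide +kernel)
theorem L76569 : W_36 (nat_lit 5) (nat_lit 0x780000001000080000000000000000000000000000000) (nat_lit 0x0) (nat_lit 0x380080006e000000000000000000000000000000000000000) := T_36 (nat_lit 161) (nat_lit 162) (nat_lit 2) (nat_lit 5) (nat_lit 10) L76563 (by decide +kernel)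
theorem L76573 : W_36 (nat_lit 2) (nat_lit 0x780044001000080000000000000000000000000000000) (nat_lit 0x0) (nat_lit 0x800088000000000000000000000000000000000000000) := D_36 (nat_lit 179) (nat_lit 163) (nat_lit 159) (nat_lit 2) (nat_lit 6) (nat_lit 10) (nat_lit 0) (nat_lit 9) (nat_lit 10) (by decide +kernel)
theorem L76574 : W_36 (nat_lit 3) (nat_lit 0x780040001000080000000000000000000000000000000) (nat_lit 0x0) (nat_lit 0x80008e000000000000000000000000000000000000000) := T_36 (nat_lit 158) (nat_lit 157) (nat_lit 0) (nat_lit 8) (nat_lit 10) L76573 (by decide +kernel)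
theorem L76575 : W_36 (nat_lit 4) (nat_lit 0x780000001000080000000000000000000000000000000) (nat_lit 0x0) (nat_lit 0x8000ee000000000000000000000000000000000000000) := T_36 (nat_lit 162) (nat_lit 161) (nat_lit 2) (nat_lit 5) (nat_lit 10) L76574 (by decide +kernel)
theorem L76576 : W_36 (nat_lit 14) (nat_lit 0x700000001000080000000000000000000000000000000) (nat_lit 0x0) (nat_lit 0x200010003c008c00ee00020013800f8005e0000000000000000000000) := Q_36 (nat_lit 175) (C_36 L76568 (C_36 L76569 (C_36 L11395 (C_36 L76572 (C_36 L76575 N_36))))) (by decide +kernel)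
theorem L76586 : W_36 (nat_lit 9) (nat_lit 0x700000001000080000000000000000000000000000000) (nat_lit 0x0) (nat_lit 0x18000e000fc038f01cfc00600020000000000000000000000000000000) := Q_36 (nat_lit 175) (C_36 L76583 (C_36 L11395 (C_36 L76585 (C_36 L74450 (C_36 L11400 (C_36 L11392 (C_36 L11407 N_36))))))) (by decide +kernel)
theorem L76590 : W_36 (nat_lit 2) (nat_lit 0x40007e0004001000080000000000000000000000000000000) (nat_lit 0x0) (nat_lit 0x810008000000000000000000000000000000000000000) := D_36 (nat_lit 159) (nat_lit 172) (nat_lit 179) (nat_lit 2) (nat_lit 2) (nat_lit 10) (nat_lit 0) (nat_lit 9) (nat_lit 10) (by decide +kernel)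
theorem L76591 : W_36 (nat_lit 3) (nat_lit 0x40007c0004001000080000000000000000000000000000000) (nat_lit 0x0) (nat_lit 0x2000830008000000000000000000000000000000000000000) := T_36 (nat_lit 173) (nat_lit 193) (nat_lit 3) (nat_lit 3) (nat_lit 10) L76590 (by decide +kernel)
theorem L76592 : W_36 (nat_lit 4) (nat_lit 0x4000780004001000080000000000000000000000000000000) (nat_lit 0x0) (nat_lit 0xa000870008000000000000000000000000000000000000000) := T_36 (nat_lit 174) (nat_lit 195) (nat_lit 3) (nat_lit 4) (nat_lit 10) L76591 (by decide +kernel)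
theorem L76593 : W_36 (nat_lit 5) (nat_lit 0x4000780000001000080000000000000000000000000000000) (nat_lit 0x0) (nat_lit 0xa00087000e000000000000000000000000000000000000000) := T_36 (nat_lit 158) (nat_lit 157) (nat_lit 0) (nat_lit 8) (nat_lit 10) L76592 (by decide +kernel)
theorem L76594 : W_36 (nat_lit 6) (nat_lit 0x780000001000080000000000000000000000000000000) (nat_lit 0x0) (nat_lit 0xe00087002e000000000000000000000000000000000000000) := T_36 (nat_lit 194) (nat_lit 161) (nat_lit 5) (nat_lit 8) (nat_lit 7) L76593 (by decide +kernel)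
theorem L76595 : W_36 (nat_lit 9) (nat_lit 0x700000001000080000000000000000000000000000000) (nat_lit 0x0) (nat_lit 0x10000a000fc018f002f800400020000000000000000000000000000000) := Q_36 (nat_lit 175) (C_36 L11400 (C_36 L11407 (C_36 L74450 (C_36 L76594 N_36)))) (by decide +kernel)
theorem L76596 : W_36 (nat_lit 17) (nat_lit 0x600000001000080000000000000000000000000000000) (nat_lit 0x0) (nat_lit 0x9a004f01efc079f07efc38e00f380ff803fe0008000000000000000000) := Q_36 (nat_lit 176) (C_36 L76460 (C_36 L76560 (C_36 L76565 (C_36 L76576 (C_36 L76586 (C_36 L76589 (C_36 L76595 N_36))))))) (by decide +kernel)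
theorem L76597 : W_36 (nat_lit 2) (nat_lit 0xa00020009000780004001700080000000000000000000000000000000) (nat_lit 0x0) (nat_lit 0x14000400000000000000000000000000000000000000000000000000000000) := D_36 (nat_lit 226) (nat_lit 242) (nat_lit 244) (nat_lit 5) (nat_lit 5) (nat_lit 10) (nat_lit 7) (nat_lit 5) (nat_lit 10) (by decide +kernel)
theorem L76598 : W_36 (nat_lit 3) (nat_lit 0x200020009000780004001700080000000000000000000000000000000) (nat_lit 0x0) (nat_lit 0x14000c00040000000000000000000000000000000000000000000000000000) := T_36 (nat_lit 227) (nat_lit 210) (nat_lit 7) (nat_lit 5) (nat_lit 9) L76597 (by decide +kernel)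
theorem L76599 : W_36 (nat_lit 4) (nat_lit 0x20009000780004001700080000000000000000000000000000000) (nat_lit 0x0) (nat_lit 0x14000e00050000000000000000000000000000000000000000000000000000) := T_36 (nat_lit 225) (nat_lit 208) (nat_lit 5) (nat_lit 5) (nat_lit 9) L76598 (by decide +kernel)
theorem L76600 : W_36 (nat_lit 5) (nat_lit 0x9000780004001700080000000000000000000000000000000) (nat_lit 0x0) (nat_lit 0x14000e00070000000000008000000000000000000000000000000000000000) := T_36 (nat_lit 209) (nat_lit 159) (nat_lit 6) (nat_lit 5) (nat_lit 12) L76599 (by decide +kernel)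
theorem L76601 : W_36 (nat_lit 6) (nat_lit 0x9000780004001300080000000000000000000000000000000) (nat_lit 0x0) (nat_lit 0x14000e00070000000000008000400020000000000000000000000000000000) := T_36 (nat_lit 142) (nat_lit 125) (nat_lit 6) (nat_lit 5) (nat_lit 11) L76600 (by decide +kernel)
theorem L76602 : W_36 (nat_lit 7) (nat_lit 0x9000780004001200080000000000000000000000000000000) (nat_lit 0x0) (nat_lit 0x14000e00070000000000008000500028000000000000000000000000000000) := T_36 (nat_lit 140) (nat_lit 123) (nat_lit 4) (nat_lit 5) (nat_lit 11) L76601 (by decide +kernel)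
theorem L76603 : W_36 (nat_lit 8) (nat_lit 0x8000780004001200080000000000000000000000000000000) (nat_lit 0x0) (nat_lit 0x14000e00070001800000008000500028000000000000000000000000000000) := T_36 (nat_lit 192) (nat_lit 191) (nat_lit 1) (nat_lit 8) (nat_lit 10) L76602 (by decide +kernel)
theorem L76604 : W_36 (nat_lit 9) (nat_lit 0x780004001200080000000000000000000000000000000) (nat_lit 0x0) (nat_lit 0x14000e00070019800000008000500028000000000000000000000000000000) := T_36 (nat_lit 195) (nat_lit 196) (nat_lit 3) (nat_lit 5) (nat_lit 10) L76603 (by decide +kernel)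
theorem L76605 : W_36 (nat_lit 10) (nat_lit 0x780004001000080000000000000000000000000000000) (nat_lit 0x0) (nat_lit 0x14000e0007001b800000008000700038001800080000000000000000000000) := Q_36 (nat_lit 141) (C_36 L72823 (C_36 L12879 (C_36 L76604 N_36))) (by decide +kernel)
theorem L76606 : W_36 (nat_lit 11) (nat_lit 0x780000001000080000000000000000000000000000000) (nat_lit 0x0) (nat_lit 0x14000e0007001b80000000e000700038001800080000000000000000000000) := T_36 (nat_lit 158) (nat_lit 157) (nat_lit 0) (nat_lit 8) (nat_lit 10) L76605 (by decide +kernel)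
theorem L76607 : W_36 (nat_lit 2) (nat_lit 0x80007c0000001000080000000000000000000000000000000) (nat_lit 0x0) (nat_lit 0x7000000000000000000000000000000000000000) := D_36 (nat_lit 157) (nat_lit 156) (nat_lit 158) (nat_lit 0) (nat_lit 7) (nat_lit 10) (nat_lit 0) (nat_lit 8) (nat_lit 10) (by decide +kernel)
theorem L76608 : W_36 (nat_lit 3) (nat_lit 0x8000780000001000080000000000000000000000000000000) (nat_lit 0x0) (nat_lit 0x4000040007000000000000000000000000000000000000000) := T_36 (nat_lit 174) (nat_lit 194) (nat_lit 3) (nat_lit 4) (nat_lit 10) L76607 (by decide +kernel)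
theorem L76609 : W_36 (nat_lit 4) (nat_lit 0x780000001000080000000000000000000000000000000) (nat_lit 0x0) (nat_lit 0x1c000040007000000000000000000000000000000000000000) := T_36 (nat_lit 195) (nat_lit 196) (nat_lit 3) (nat_lit 5) (nat_lit 10) L76608 (by decide +kernel)
theorem L76610 : W_36 (nat_lit 2) (nat_lit 0x8800780000001000080000000000000000000000000000000) (nat_lit 0x0) (nat_lit 0x4400040000000000000000000000000000000000000000000) := D_36 (nat_lit 174) (nat_lit 194) (nat_lit 190) (nat_lit 3) (nat_lit 4) (nat_lit 10) (nat_lit 1) (nat_lit 7) (nat_lit 10) (by decide +kernel)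
theorem L76611 : W_36 (nat_lit 3) (nat_lit 0x800780000001000080000000000000000000000000000000) (nat_lit 0x0) (nat_lit 0x1c400040000000000000000000000000000000000000000000) := T_36 (nat_lit 195) (nat_lit 196) (nat_lit 3) (nat_lit 5) (nat_lit 10) L76610 (by decide +kernel)
theorem L76612 : W_36 (nat_lit 4) (nat_lit 0x780000001000080000000000000000000000000000000) (nat_lit 0x0) (nat_lit 0x1dc00040000000000000000000000000000000000000000000) := T_36 (nat_lit 191) (nat_lit 192) (nat_lit 1) (nat_lit 8) (nat_lit 10) L76611 (by decide +kernel)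
theorem L76613 : W_36 (nat_lit 12) (nat_lit 0x700000001000080000000000000000000000000000000) (nat_lit 0x0) (nat_lit 0x14000e0007001fe000f000fc00700038001800080000000000000000000000) := Q_36 (nat_lit 175) (C_36 L11400 (C_36 L72815 (C_36 L76606 (C_36 L11320 (C_36 L76609 (C_36 L76612 N_36)))))) (by decide +kernel)
theorem L76614 : W_36 (nat_lit 2) (nat_lit 0x16000f00008001000080000000000000000000000000000000) (nat_lit 0x0) (nat_lit 0x80000000000000000400020000000000000000000000000000000) := D_36 (nat_lit 142) (nat_lit 211) (nat_lit 125) (nat_lit 7) (nat_lit 6) (nat_lit 8) (nat_lit 7) (nat_lit 6) (nat_lit 7) (by decide +kernel)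
theorem L76615 : W_36 (nat_lit 3) (nat_lit 0x12000f00008001000080000000000000000000000000000000) (nat_lit 0x0) (nat_lit 0x80004001000000000400020000000000000000000000000000000) := T_36 (nat_lit 194) (nat_lit 180) (nat_lit 1) (nat_lit 10) (nat_lit 10) L76614 (by decide +kernel)
theorem L76616 : W_36 (nat_lit 4) (nat_lit 0x10000f00008001000080000000000000000000000000000000) (nat_lit 0x0) (nat_lit 0x80007001000000000400020000000000000000000000000000000) := T_36 (nat_lit 193) (nat_lit 192) (nat_lit 1) (nat_lit 9) (nat_lit 10) L76615 (by decide +kernel)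
theorem L76617 : W_36 (nat_lit 5) (nat_lit 0xf00008001000080000000000000000000000000000000) (nat_lit 0x0) (nat_lit 0x80037001000000000400020000000000000000000000000000000) := T_36 (nat_lit 196) (nat_lit 197) (nat_lit 3) (nat_lit 6) (nat_lit 10) L76616 (by decide +kernel)
theorem L76618 : W_36 (nat_lit 6) (nat_lit 0xf00000001000080000000000000000000000000000000) (nat_lit 0x0) (nat_lit 0x8003700100000c000400020000000000000000000000000000000) := T_36 (nat_lit 159) (nat_lit 158) (nat_lit 0) (nat_lit 9) (nat_lit 10) L76617 (by decide +kernel)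
theorem L76619 : W_36 (nat_lit 2) (nat_lit 0x1e0012000f00048001e00080000000000000000000000000000000) (nat_lit 0x0) (nat_lit 0x6000200000000000000000000000000000000000000000000000000000) := D_36 (nat_lit 229) (nat_lit 230) (nat_lit 213) (nat_lit 3) (nat_lit 5) (nat_lit 12) (nat_lit 5) (nat_lit 9) (nat_lit 9) (by decide +kernel)
theorem L76620 : W_36 (nat_lit 3) (nat_lit 0xe0012000f00048001e00080000000000000000000000000000000) (nat_lit 0x0) (nat_lit 0x6000300008000000000000000000000000000000000000000000000000) := T_36 (nat_lit 212) (nat_lit 195) (nat_lit 2) (nat_lit 5) (nat_lit 12) L76619 (by decide +kernel)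
theorem L76621 : W_36 (nat_lit 4) (nat_lit 0xe0002000f00048001e00080000000000000000000000000000000) (nat_lit 0x0) (nat_lit 0x6000300038000000000000000000000000000000000000000000000000) := T_36 (nat_lit 196) (nat_lit 197) (nat_lit 3) (nat_lit 6) (nat_lit 10) L76620 (by decide +kernel)
theorem L76622 : W_36 (nat_lit 5) (nat_lit 0xc0002000f00048001e00080000000000000000000000000000000) (nat_lit 0x0) (nat_lit 0x6400320038000000000000000000000000000000000000000000000000) := T_36 (nat_lit 209) (nat_lit 226) (nat_lit 5) (nat_lit 6) (nat_lit 9) L76621 (by decide +kernel)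
theorem L76623 : W_36 (nat_lit 6) (nat_lit 0xc0002000f00048001600080000000000000000000000000000000) (nat_lit 0x0) (nat_lit 0x6400320038000000000000800100000000000000000000000000000000) := T_36 (nat_lit 143) (nat_lit 128) (nat_lit 2) (nat_lit 5) (nat_lit 8) L76622 (by decide +kernel)
theorem L76624 : W_36 (nat_lit 7) (nat_lit 0xc0002000f00048001400080000000000000000000000000000000) (nat_lit 0x0) (nat_lit 0x6400320038000000000000a00110000000000000000000000000000000) := T_36 (nat_lit 141) (nat_lit 124) (nat_lit 4) (nat_lit 6) (nat_lit 11) L76623 (by decide +kernel)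
theorem L76625 : W_36 (nat_lit 8) (nat_lit 0xc0002000f00048001000080000000000000000000000000000000) (nat_lit 0x0) (nat_lit 0x640032003c000000000000e00110000000000000000000000000000000) := T_36 (nat_lit 142) (nat_lit 194) (nat_lit 7) (nat_lit 6) (nat_lit 8) L76624 (by decide +kernel)
theorem L76626 : W_36 (nat_lit 9) (nat_lit 0x40002000f00048001000080000000000000000000000000000000) (nat_lit 0x0) (nat_lit 0x74003a003c000000000000e00110000000000000000000000000000000) := T_36 (nat_lit 211) (nat_lit 228) (nat_lit 7) (nat_lit 6) (nat_lit 9) L76625 (by decide +kernel)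
theorem L76627 : W_36 (nat_lit 10) (nat_lit 0x40002000f00008001000080000000000000000000000000000000) (nat_lit 0x0) (nat_lit 0x74003a003c0000000c0000e00110000000000000000000000000000000) := T_36 (nat_lit 162) (nat_lit 163) (nat_lit 2) (nat_lit 6) (nat_lit 10) L76626 (by decide +kernel)
theorem L76628 : W_36 (nat_lit 2) (nat_lit 0x1e0012000f00048001600080000000000000000000000000000000) (nat_lit 0x0) (nat_lit 0x6000200000000000000000000000000000000000000000000000000000) := D_36 (nat_lit 229) (nat_lit 230) (nat_lit 213) (nat_lit 3) (nat_lit 5) (nat_lit 12) (nat_lit 5) (nat_lit 9) (nat_lit 9) (by decide +kernel)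
theorem L76629 : W_36 (nat_lit 3) (nat_lit 0xe0012000f00048001600080000000000000000000000000000000) (nat_lit 0x0) (nat_lit 0x6000300008000000000000000000000000000000000000000000000000) := T_36 (nat_lit 212) (nat_lit 195) (nat_lit 2) (nat_lit 5) (nat_lit 12) L76628 (by decide +kernel)
theorem L76630 : W_36 (nat_lit 4) (nat_lit 0xc0012000f00048001600080000000000000000000000000000000) (nat_lit 0x0) (nat_lit 0x6400320008000000000000000000000000000000000000000000000000) := T_36 (nat_lit 209) (nat_lit 226) (nat_lit 5) (nat_lit 6) (nat_lit 9) L76629 (by decide +kernel)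
theorem L76631 : W_36 (nat_lit 5) (nat_lit 0xc0012000f00048001400080000000000000000000000000000000) (nat_lit 0x0) (nat_lit 0x6400320008000000000000200010000000000000000000000000000000) := T_36 (nat_lit 141) (nat_lit 124) (nat_lit 4) (nat_lit 6) (nat_lit 11) L76630 (by decide +kernel)
theorem L76632 : W_36 (nat_lit 6) (nat_lit 0xc0012000f00048001000080000000000000000000000000000000) (nat_lit 0x0) (nat_lit 0x640032000c000000000000600010000000000000000000000000000000) := T_36 (nat_lit 142) (nat_lit 194) (nat_lit 7) (nat_lit 6) (nat_lit 8) L76631 (by decide +kernel)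
theorem L76633 : W_36 (nat_lit 7) (nat_lit 0x40012000f00048001000080000000000000000000000000000000) (nat_lit 0x0) (nat_lit 0x74003a000c000000000000600010000000000000000000000000000000) := T_36 (nat_lit 211) (nat_lit 228) (nat_lit 7) (nat_lit 6) (nat_lit 9) L76632 (by decide +kernel)
theorem L76634 : W_36 (nat_lit 8) (nat_lit 0x40012000f00008001000080000000000000000000000000000000) (nat_lit 0x0) (nat_lit 0x74003a000c0000000c0000600010000000000000000000000000000000) := T_36 (nat_lit 162) (nat_lit 163) (nat_lit 2) (nat_lit 6) (nat_lit 10) L76633 (by decide +kernel)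
theorem L76635 : W_36 (nat_lit 9) (nat_lit 0x40002000f00008001000080000000000000000000000000000000) (nat_lit 0x0) (nat_lit 0x74003a003c0000000c0000600010000000000000000000000000000000) := T_36 (nat_lit 196) (nat_lit 197) (nat_lit 3) (nat_lit 6) (nat_lit 10) L76634 (by decide +kernel)
theorem L76636 : W_36 (nat_lit 2) (nat_lit 0xc00040012000f00008001000080000000000000000000000000000000) (nat_lit 0x0) (nat_lit 0x20001000080000000000000000000000000000000000000000000000000000) := D_36 (nat_lit 228) (nat_lit 211) (nat_lit 245) (nat_lit 7) (nat_lit 6) (nat_lit 9) (nat_lit 7) (nat_lit 6) (nat_lit 10) (by decide +kernel)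
theorem L76637 : W_36 (nat_lit 3) (nat_lit 0x400040012000f00008001000080000000000000000000000000000000) (nat_lit 0x0) (nat_lit 0x28001800080000000000000000000000000000000000000000000000000000) := T_36 (nat_lit 227) (nat_lit 243) (nat_lit 5) (nat_lit 6) (nat_lit 10) L76636 (by decide +kernel)
theorem L76638 : W_36 (nat_lit 4) (nat_lit 0x400040002000f00008001000080000000000000000000000000000000) (nat_lit 0x0) (nat_lit 0x28001800080030000000000000000000000000000000000000000000000000) := T_36 (nat_lit 196) (nat_lit 197) (nat_lit 3) (nat_lit 6) (nat_lit 10) L76637 (by decide +kernel)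
theorem L76639 : W_36 (nat_lit 5) (nat_lit 0x40002000f00008001000080000000000000000000000000000000) (nat_lit 0x0) (nat_lit 0x28001c000a0030000000000000000000000000000000000000000000000000) := T_36 (nat_lit 226) (nat_lit 209) (nat_lit 5) (nat_lit 6) (nat_lit 9) L76638 (by decide +kernel)
theorem L76640 : W_36 (nat_lit 2) (nat_lit 0xe0006000f00048001000080000000000000000000000000000000) (nat_lit 0x0) (nat_lit 0x18008000000000000000000000000000000000000000000000000) := D_36 (nat_lit 208) (nat_lit 207) (nat_lit 195) (nat_lit 2) (nat_lit 3) (nat_lit 12) (nat_lit 2) (nat_lit 4) (nat_lit 12) (by decide +kernel)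
theorem L76641 : W_36 (nat_lit 3) (nat_lit 0xe0002000f00048001000080000000000000000000000000000000) (nat_lit 0x0) (nat_lit 0x1800c000000000000400000000000000000000000000000000000) := T_36 (nat_lit 194) (nat_lit 142) (nat_lit 7) (nat_lit 6) (nat_lit 8) L76640 (by decide +kernel)
theorem L76642 : W_36 (nat_lit 4) (nat_lit 0x60002000f00048001000080000000000000000000000000000000) (nat_lit 0x0) (nat_lit 0x100009800c000000000000400000000000000000000000000000000000) := T_36 (nat_lit 211) (nat_lit 228) (nat_lit 7) (nat_lit 6) (nat_lit 9) L76641 (by decide +kernel)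
theorem L76643 : W_36 (nat_lit 5) (nat_lit 0x40002000f00048001000080000000000000000000000000000000) (nat_lit 0x0) (nat_lit 0x14000b800c000000000000400000000000000000000000000000000000) := T_36 (nat_lit 209) (nat_lit 226) (nat_lit 5) (nat_lit 6) (nat_lit 9) L76642 (by decide +kernel)
theorem L76644 : W_36 (nat_lit 6) (nat_lit 0x40002000f00008001000080000000000000000000000000000000) (nat_lit 0x0) (nat_lit 0x14000b800c0000000c0000400000000000000000000000000000000000) := T_36 (nat_lit 162) (nat_lit 163) (nat_lit 2) (nat_lit 6) (nat_lit 10) L76643 (by decide +kernel)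
theorem L76645 : W_36 (nat_lit 2) (nat_lit 0x6001a000f00048001000080000000000000000000000000000000) (nat_lit 0x0) (nat_lit 0x2000180000000000000000000000000000000000000000000000000000) := D_36 (nat_lit 212) (nat_lit 211) (nat_lit 229) (nat_lit 2) (nat_lit 5) (nat_lit 12) (nat_lit 6) (nat_lit 8) (nat_lit 13) (by decide +kernel)
theorem L76646 : W_36 (nat_lit 3) (nat_lit 0x60012000f00048001000080000000000000000000000000000000) (nat_lit 0x0) (nat_lit 0x200018000c000000000000000000000000000000000000000000000000) := T_36 (nat_lit 195) (nat_lit 194) (nat_lit 1) (nat_lit 9) (nat_lit 11) L76645 (by decide +kernel)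
theorem L76647 : W_36 (nat_lit 4) (nat_lit 0x40012000f00048001000080000000000000000000000000000000) (nat_lit 0x0) (nat_lit 0x24001a000c000000000000000000000000000000000000000000000000) := T_36 (nat_lit 209) (nat_lit 226) (nat_lit 5) (nat_lit 6) (nat_lit 9) L76646 (by decide +kernel)
theorem L76648 : W_36 (nat_lit 5) (nat_lit 0x40012000f00008001000080000000000000000000000000000000) (nat_lit 0x0) (nat_lit 0x24001a000c0000000c0000000000000000000000000000000000000000) := T_36 (nat_lit 162) (nat_lit 163) (nat_lit 2) (nat_lit 6) (nat_lit 10) L76647 (by decide +kernel)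
theorem L76649 : W_36 (nat_lit 6) (nat_lit 0x40002000f00008001000080000000000000000000000000000000) (nat_lit 0x0) (nat_lit 0x24001a003c0000000c0000000000000000000000000000000000000000) := T_36 (nat_lit 196) (nat_lit 197) (nat_lit 3) (nat_lit 6) (nat_lit 10) L76648 (by decide +kernel)
theorem L76650 : W_36 (nat_lit 2) (nat_lit 0x20000c00040012000f00048001000080000000000000000000000000000000) (nat_lit 0x0) (nat_lit 0x400010000000000004000000000000000000000000000000000000000000000000) := D_36 (nat_lit 244) (nat_lit 194) (nat_lit 262) (nat_lit 6) (nat_lit 6) (nat_lit 14) (nat_lit 7) (nat_lit 6) (nat_lit 11) (by decide +kernel)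
theorem L76651 : W_36 (nat_lit 3) (nat_lit 0xc00040012000f00048001000080000000000000000000000000000000) (nat_lit 0x0) (nat_lit 0x400030001000000004000000000000000000000000000000000000000000000000) := T_36 (nat_lit 245) (nat_lit 228) (nat_lit 7) (nat_lit 6) (nat_lit 10) L76650 (by decide +kernel)
theorem L76652 : W_36 (nat_lit 4) (nat_lit 0xc00040012000f00008001000080000000000000000000000000000000) (nat_lit 0x0) (nat_lit 0x4000300010000000040000000c0000000000000000000000000000000000000000) := T_36 (nat_lit 162) (nat_lit 163) (nat_lit 2) (nat_lit 6) (nat_lit 10) L76651 (by decide +kernel)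
theorem L76653 : W_36 (nat_lit 5) (nat_lit 0x400040012000f00008001000080000000000000000000000000000000) (nat_lit 0x0) (nat_lit 0x4000380018000000040000000c0000000000000000000000000000000000000000) := T_36 (nat_lit 227) (nat_lit 243) (nat_lit 5) (nat_lit 6) (nat_lit 10) L76652 (by decide +kernel)
theorem L76654 : W_36 (nat_lit 6) (nat_lit 0x400040002000f00008001000080000000000000000000000000000000) (nat_lit 0x0) (nat_lit 0x4000380018000000340000000c0000000000000000000000000000000000000000) := T_36 (nat_lit 196) (nat_lit 197) (nat_lit 3) (nat_lit 6) (nat_lit 10) L76653 (by decide +kernel)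
theorem L76655 : W_36 (nat_lit 7) (nat_lit 0x40002000f00008001000080000000000000000000000000000000) (nat_lit 0x0) (nat_lit 0x400038001c000200340000000c0000000000000000000000000000000000000000) := T_36 (nat_lit 226) (nat_lit 209) (nat_lit 5) (nat_lit 6) (nat_lit 9) L76654 (by decide +kernel)
theorem L76656 : W_36 (nat_lit 2) (nat_lit 0xd002c0016000f00048001000080000000000000000000000000000000) (nat_lit 0x0) (nat_lit 0x8000400008000000000000000000000000000000000000000000000000) := D_36 (nat_lit 214) (nat_lit 231) (nat_lit 195) (nat_lit 7) (nat_lit 9) (nat_lit 9) (nat_lit 3) (nat_lit 6) (nat_lit 11) (by decide +kernel)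
theorem L76657 : W_36 (nat_lit 3) (nat_lit 0xd000c0016000f00048001000080000000000000000000000000000000) (nat_lit 0x0) (nat_lit 0x8000700008000000000000000000000000000000000000000000000000) := T_36 (nat_lit 213) (nat_lit 212) (nat_lit 1) (nat_lit 9) (nat_lit 12) L76656 (by decide +kernel)
theorem L76658 : W_36 (nat_lit 4) (nat_lit 0xc000c0016000f00048001000080000000000000000000000000000000) (nat_lit 0x0) (nat_lit 0x8300700008000000000000000000000000000000000000000000000000) := T_36 (nat_lit 224) (nat_lit 225) (nat_lit 2) (nat_lit 3) (nat_lit 13) L76657 (by decide +kernel)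
theorem L76659 : W_36 (nat_lit 5) (nat_lit 0x8000c0016000f00048001000080000000000000000000000000000000) (nat_lit 0x0) (nat_lit 0x8008700700008000000000000000000000000000000000000000000000000) := T_36 (nat_lit 226) (nat_lit 243) (nat_lit 5) (nat_lit 6) (nat_lit 10) L76658 (by decide +kernel)
theorem L76660 : W_36 (nat_lit 6) (nat_lit 0x8000c0006000f00048001000080000000000000000000000000000000) (nat_lit 0x0) (nat_lit 0x8008700700038000000000000000000000000000000000000000000000000) := T_36 (nat_lit 196) (nat_lit 197) (nat_lit 3) (nat_lit 6) (nat_lit 10) L76659 (by decide +kernel)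
theorem L76661 : W_36 (nat_lit 7) (nat_lit 0xc0006000f00048001000080000000000000000000000000000000) (nat_lit 0x0) (nat_lit 0x18008f00700038000000000000000000000000000000000000000000000000) := T_36 (nat_lit 227) (nat_lit 244) (nat_lit 6) (nat_lit 6) (nat_lit 14) L76660 (by decide +kernel)
theorem L76662 : W_36 (nat_lit 8) (nat_lit 0xc0006000f00008001000080000000000000000000000000000000) (nat_lit 0x0) (nat_lit 0x18008f007000380000000c0000000000000000000000000000000000000000) := T_36 (nat_lit 162) (nat_lit 163) (nat_lit 2) (nat_lit 6) (nat_lit 10) L76661 (by decide +kernel)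
theorem L76663 : W_36 (nat_lit 9) (nat_lit 0xc0002000f00008001000080000000000000000000000000000000) (nat_lit 0x0) (nat_lit 0x18008f0070003c0000000c0000400000000000000000000000000000000000) := T_36 (nat_lit 194) (nat_lit 142) (nat_lit 7) (nat_lit 6) (nat_lit 8) L76662 (by decide +kernel)
theorem L76664 : W_36 (nat_lit 10) (nat_lit 0x40002000f00008001000080000000000000000000000000000000) (nat_lit 0x0) (nat_lit 0x18009f0078003c0000000c0000400000000000000000000000000000000000) := T_36 (nat_lit 211) (nat_lit 228) (nat_lit 7) (nat_lit 6) (nat_lit 9) L76663 (by decide +kernel)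
theorem L76665 : W_36 (nat_lit 2) (nat_lit 0x100000003c001e000f00048001000080000000000000000000000000000000) (nat_lit 0x0) (nat_lit 0x8000c000000000000000000000000000000000000000000000000000000000) := D_36 (nat_lit 230) (nat_lit 247) (nat_lit 231) (nat_lit 4) (nat_lit 9) (nat_lit 14) (nat_lit 3) (nat_lit 6) (nat_lit 12) (by decide +kernel)
theorem L76666 : W_36 (nat_lit 3) (nat_lit 0x100000002c001e000f00048001000080000000000000000000000000000000) (nat_lit 0x0) (nat_lit 0x8000e000100000000000000000000000000000000000000000000000000000) := T_36 (nat_lit 212) (nat_lit 229) (nat_lit 6) (nat_lit 8) (nat_lit 13) L76665 (by decide +kernel)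
theorem L76667 : W_36 (nat_lit 4) (nat_lit 0x100000000c001e000f00048001000080000000000000000000000000000000) (nat_lit 0x0) (nat_lit 0x8000e000700000000000000000000000000000000000000000000000000000) := T_36 (nat_lit 213) (nat_lit 214) (nat_lit 3) (nat_lit 6) (nat_lit 11) L76666 (by decide +kernel)
theorem L76668 : W_36 (nat_lit 5) (nat_lit 0xc001e000f00048001000080000000000000000000000000000000) (nat_lit 0x0) (nat_lit 0x9000e800700000000000000000000000000000000000000000000000000000) := T_36 (nat_lit 244) (nat_lit 227) (nat_lit 6) (nat_lit 6) (nat_lit 14) L76667 (by decide +kernel)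
theorem L76669 : W_36 (nat_lit 6) (nat_lit 0xc0016000f00048001000080000000000000000000000000000000) (nat_lit 0x0) (nat_lit 0x9000e800720008000000000000000000000000000000000000000000000000) := T_36 (nat_lit 195) (nat_lit 209) (nat_lit 1) (nat_lit 9) (nat_lit 11) L76668 (by decide +kernel)
theorem L76670 : W_36 (nat_lit 7) (nat_lit 0xc0006000f00048001000080000000000000000000000000000000) (nat_lit 0x0) (nat_lit 0x9000e800720038000000000000000000000000000000000000000000000000) := T_36 (nat_lit 196) (nat_lit 197) (nat_lit 3) (nat_lit 6) (nat_lit 10) L76669 (by decide +kernel)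
theorem L76671 : W_36 (nat_lit 8) (nat_lit 0xc0002000f00048001000080000000000000000000000000000000) (nat_lit 0x0) (nat_lit 0x9000e80072003c000000000000400000000000000000000000000000000000) := T_36 (nat_lit 194) (nat_lit 142) (nat_lit 7) (nat_lit 6) (nat_lit 8) L76670 (by decide +kernel)
theorem L76672 : W_36 (nat_lit 9) (nat_lit 0x40002000f00048001000080000000000000000000000000000000) (nat_lit 0x0) (nat_lit 0x9000f8007a003c000000000000400000000000000000000000000000000000) := T_36 (nat_lit 211) (nat_lit 228) (nat_lit 7) (nat_lit 6) (nat_lit 9) L76671 (by decide +kernel)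
theorem L76673 : W_36 (nat_lit 10) (nat_lit 0x40002000f00008001000080000000000000000000000000000000) (nat_lit 0x0) (nat_lit 0x9000f8007a003c0000000c0000400000000000000000000000000000000000) := T_36 (nat_lit 162) (nat_lit 163) (nat_lit 2) (nat_lit 6) (nat_lit 10) L76672 (by decide +kernel)
theorem L76674 : W_36 (nat_lit 11) (nat_lit 0x2000f00008001000080000000000000000000000000000000) (nat_lit 0x0) (nat_lit 0x4000b800ff007f803c0000000c0000e00110000000000000000000000000000000) := Q_36 (nat_lit 210) (C_36 L76627 (C_36 L76635 (C_36 L76639 (C_36 L76644 (C_36 L76649 (C_36 L76655 (C_36 L76664 (C_36 L76673 N_36)))))))) (by decide +kernel)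
theorem L76675 : W_36 (nat_lit 12) (nat_lit 0xf00008001000080000000000000000000000000000000) (nat_lit 0x0) (nat_lit 0x4000b800ff007f803f0000000c0000e00110000000000000000000000000000000) := T_36 (nat_lit 193) (nat_lit 192) (nat_lit 1) (nat_lit 9) (nat_lit 10) L76674 (by decide +kernel)
theorem L76676 : W_36 (nat_lit 13) (nat_lit 0xf00000001000080000000000000000000000000000000) (nat_lit 0x0) (nat_lit 0x4000b800ff007f803f0000000cc000e00110000000000000000000000000000000) := T_36 (nat_lit 159) (nat_lit 158) (nat_lit 0) (nat_lit 9) (nat_lit 10) L76675 (by decide +kernel)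
theorem L76677 : W_36 (nat_lit 14) (nat_lit 0x700000001000080000000000000000000000000000000) (nat_lit 0x0) (nat_lit 0x4000b800ff007f807f0018001cc000e00130000000000000000000000000000000) := Q_36 (nat_lit 179) (C_36 L11341 (C_36 L4834 (C_36 L76445 (C_36 L76618 (C_36 L76676 N_36))))) (by decide +kernel)
theorem L76678 : W_36 (nat_lit 7) (nat_lit 0x700000001000080000000000000000000000000000000) (nat_lit 0x0) (nat_lit 0x800778018801ce000400020000000000000000000000000000000) := Q_36 (nat_lit 179) (C_36 L76618 (C_36 L4834 (C_36 L11381 (C_36 L76445 N_36)))) (by decide +kernel)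
theorem L76679 : W_36 (nat_lit 4) (nat_lit 0x10000f00080001000080000000000000000000000000000000) (nat_lit 0x0) (nat_lit 0xc007080100000000000000000000000000000000000000000) := T_36 (nat_lit 195) (nat_lit 175) (nat_lit 3) (nat_lit 5) (nat_lit 10) L8375 (by decide +kernel)
theorem L76680 : W_36 (nat_lit 5) (nat_lit 0xf00080001000080000000000000000000000000000000) (nat_lit 0x0) (nat_lit 0x3c007080100000000000000000000000000000000000000000) := T_36 (nat_lit 196) (nat_lit 197) (nat_lit 3) (nat_lit 6) (nat_lit 10) L76679 (by decide +kernel)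
theorem L76681 : W_36 (nat_lit 6) (nat_lit 0xf00000001000080000000000000000000000000000000) (nat_lit 0x0) (nat_lit 0x3c0070801c0000000000000000000000000000000000000000) := T_36 (nat_lit 163) (nat_lit 162) (nat_lit 2) (nat_lit 6) (nat_lit 10) L76680 (by decide +kernel)
theorem L76682 : W_36 (nat_lit 7) (nat_lit 0x700000001000080000000000000000000000000000000) (nat_lit 0x0) (nat_lit 0x3fc078c01c7000000000000000000000000000000000000000) := Q_36 (nat_lit 179) (C_36 L4834 (C_36 L4774 (C_36 L4847 (C_36 L11372 (C_36 L76681 N_36))))) (by decide +kernel)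
theorem L76683 : W_36 (nat_lit 7) (nat_lit 0x700000001000080000000000000000000000000000000) (nat_lit 0x0) (nat_lit 0x7bc018c01cf000000000000000000000000000000000000000) := Q_36 (nat_lit 179) (C_36 L11372 (C_36 L76445 (C_36 L11381 (C_36 L4774 N_36)))) (by decide +kernel)
theorem L76684 : W_36 (nat_lit 6) (nat_lit 0x700000001000080000000000000000000000000000000) (nat_lit 0x0) (nat_lit 0x2001dc008c000f000400020000000000000000000000000000000) := Q_36 (nat_lit 175) (C_36 L76612 (C_36 L72815 (C_36 L74450 (C_36 L76609 N_36)))) (by decide +kernel)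
theorem L76685 : W_36 (nat_lit 7) (nat_lit 0x700000001000080000000000000000000000000000000) (nat_lit 0x0) (nat_lit 0x3f8078801c0000000000000000000000000000000000000000) := Q_36 (nat_lit 179) (C_36 L76681 (C_36 L4847 (C_36 L4774 N_36))) (by decide +kernel)
theorem L76686 : W_36 (nat_lit 8) (nat_lit 0x700000001000080000000000000000000000000000000) (nat_lit 0x0) (nat_lit 0xfe0078c01ce000000000000000000000000000000000000000) := Q_36 (nat_lit 179) (C_36 L76681 (C_36 L76445 (C_36 L11428 (C_36 L11439 (C_36 L11436 N_36))))) (by decide +kernel)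
theorem L76687 : W_36 (nat_lit 15) (nat_lit 0x600000001000080000000000000000000000000000000) (nat_lit 0x0) (nat_lit 0x4000bc00ff007f80ffe079f01cfc00f00138001800080000000000000000000000) := Q_36 (nat_lit 176) (C_36 L76613 (C_36 L76677 (C_36 L76678 (C_36 L76682 (C_36 L76683 (C_36 L76586 (C_36 L76684 (C_36 L76685 (C_36 L76686 N_36))))))))) (by decide +kernel)
theorem L76688 : W_36 (nat_lit 2) (nat_lit 0x40001800080005000600000001000080000000000000000000000000000000) (nat_lit 0x0) (nat_lit 0x800020000000000008000000000000000000000000000000000000000000000000) := D_36 (nat_lit 245) (nat_lit 195) (nat_lit 263) (nat_lit 6) (nat_lit 7) (nat_lit 14) (nat_lit 7) (nat_lit 7) (nat_lit 11) (by decide +kernel)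
theorem L76689 : W_36 (nat_lit 3) (nat_lit 0x1800080005000600000001000080000000000000000000000000000000) (nat_lit 0x0) (nat_lit 0x800060002000000008000000000000000000000000000000000000000000000000) := T_36 (nat_lit 246) (nat_lit 229) (nat_lit 7) (nat_lit 7) (nat_lit 10) L76688 (by decide +kernel)
theorem L76690 : W_36 (nat_lit 4) (nat_lit 0x1000080005000600000001000080000000000000000000000000000000) (nat_lit 0x0) (nat_lit 0x800070002800000008000000000000000000000000000000000000000000000000) := T_36 (nat_lit 227) (nat_lit 244) (nat_lit 5) (nat_lit 7) (nat_lit 10) L76689 (by decide +kernel)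
theorem L76691 : W_36 (nat_lit 2) (nat_lit 0x50001000080005000600000001000080000000000000000000000000000000) (nat_lit 0x0) (nat_lit 0xa00020000000000000000000000000000000000000000000000000000000000000) := D_36 (nat_lit 245) (nat_lit 261) (nat_lit 263) (nat_lit 5) (nat_lit 7) (nat_lit 11) (nat_lit 7) (nat_lit 7) (nat_lit 11) (by decide +kernel)
theorem L76692 : W_36 (nat_lit 3) (nat_lit 0x10001000080005000600000001000080000000000000000000000000000000) (nat_lit 0x0) (nat_lit 0xa00060002000000000000000000000000000000000000000000000000000000000) := T_36 (nat_lit 246) (nat_lit 229) (nat_lit 7) (nat_lit 7) (nat_lit 10) L76691 (by decide +kernel)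
theorem L76693 : W_36 (nat_lit 4) (nat_lit 0x1000080005000600000001000080000000000000000000000000000000) (nat_lit 0x0) (nat_lit 0xa00070002800000000000000000000000000000000000000000000000000000000) := T_36 (nat_lit 244) (nat_lit 227) (nat_lit 5) (nat_lit 7) (nat_lit 10) L76692 (by decide +kernel)
theorem L76694 : W_36 (nat_lit 2) (nat_lit 0x10001000080005000600000001000080000000000000000000000000000000) (nat_lit 0x0) (nat_lit 0x200020000000000008000000000000000000000000000000000000000000000000) := D_36 (nat_lit 245) (nat_lit 195) (nat_lit 261) (nat_lit 6) (nat_lit 7) (nat_lit 14) (nat_lit 5) (nat_lit 7) (nat_lit 11) (by decide +kernel)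
theorem L76695 : W_36 (nat_lit 3) (nat_lit 0x1000080005000600000001000080000000000000000000000000000000) (nat_lit 0x0) (nat_lit 0x200030000800000008000000000000000000000000000000000000000000000000) := T_36 (nat_lit 244) (nat_lit 227) (nat_lit 5) (nat_lit 7) (nat_lit 10) L76694 (by decide +kernel)
theorem L76696 : W_36 (nat_lit 2) (nat_lit 0x800078002d0005000600000001000080000000000000000000000000000000) (nat_lit 0x0) (nat_lit 0x400100008000000000000000000000000000000000000000000000000) := D_36 (nat_lit 212) (nat_lit 226) (nat_lit 195) (nat_lit 2) (nat_lit 5) (nat_lit 13) (nat_lit 7) (nat_lit 8) (nat_lit 10) (by decide +kernel)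
theorem L76697 : W_36 (nat_lit 3) (nat_lit 0x800078000d0005000600000001000080000000000000000000000000000000) (nat_lit 0x0) (nat_lit 0x400700008000000000000000000000000000000000000000000000000) := T_36 (nat_lit 213) (nat_lit 214) (nat_lit 2) (nat_lit 6) (nat_lit 13) L76696 (by decide +kernel)
theorem L76698 : W_36 (nat_lit 4) (nat_lit 0x78000d0005000600000001000080000000000000000000000000000000) (nat_lit 0x0) (nat_lit 0x180000400700008000000000000000000000000000000000000000000000000) := T_36 (nat_lit 247) (nat_lit 248) (nat_lit 3) (nat_lit 6) (nat_lit 13) L76697 (by decide +kernel)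
theorem L76699 : W_36 (nat_lit 5) (nat_lit 0x70000d0005000600000001000080000000000000000000000000000000) (nat_lit 0x0) (nat_lit 0x190000c00700008000000000000000000000000000000000000000000000000) := T_36 (nat_lit 227) (nat_lit 244) (nat_lit 5) (nat_lit 7) (nat_lit 10) L76698 (by decide +kernel)
theorem L76700 : W_36 (nat_lit 6) (nat_lit 0x30000d0005000600000001000080000000000000000000000000000000) (nat_lit 0x0) (nat_lit 0x19000cc00700008000000000000000000000000000000000000000000000000) := T_36 (nat_lit 230) (nat_lit 231) (nat_lit 0) (nat_lit 10) (nat_lit 13) L76699 (by decide +kernel)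
theorem L76701 : W_36 (nat_lit 7) (nat_lit 0x30000c0005000600000001000080000000000000000000000000000000) (nat_lit 0x0) (nat_lit 0x19000cc00730008000000000000000000000000000000000000000000000000) := T_36 (nat_lit 208) (nat_lit 209) (nat_lit 3) (nat_lit 4) (nat_lit 12) L76700 (by decide +kernel)
theorem L76702 : W_36 (nat_lit 8) (nat_lit 0x10000c0005000600000001000080000000000000000000000000000000) (nat_lit 0x0) (nat_lit 0x1d000ec00730008000000000000000000000000000000000000000000000000) := T_36 (nat_lit 229) (nat_lit 246) (nat_lit 7) (nat_lit 7) (nat_lit 10) L76701 (by decide +kernel)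
theorem L76703 : W_36 (nat_lit 2) (nat_lit 0x38000c0005000600000001000080000000000000000000000000000000) (nat_lit 0x0) (nat_lit 0x4000030000000000000000000000000000000000000000000000000000) := D_36 (nat_lit 209) (nat_lit 208) (nat_lit 230) (nat_lit 3) (nat_lit 4) (nat_lit 12) (nat_lit 0) (nat_lit 9) (nat_lit 13) (by decide +kernel)
theorem L76704 : W_36 (nat_lit 3) (nat_lit 0x18000c0005000600000001000080000000000000000000000000000000) (nat_lit 0x0) (nat_lit 0x40006000030000000000000000000000000000000000000000000000000000) := T_36 (nat_lit 229) (nat_lit 246) (nat_lit 7) (nat_lit 7) (nat_lit 10) L76703 (by decide +kernel)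
theorem L76705 : W_36 (nat_lit 4) (nat_lit 0x10000c0005000600000001000080000000000000000000000000000000) (nat_lit 0x0) (nat_lit 0x50006800030000000000000000000000000000000000000000000000000000) := T_36 (nat_lit 227) (nat_lit 244) (nat_lit 5) (nat_lit 7) (nat_lit 10) L76704 (by decide +kernel)
theorem L76706 : W_36 (nat_lit 2) (nat_lit 0x18000e0005000600000001000080000000000000000000000000000000) (nat_lit 0x0) (nat_lit 0x18008000000000000000000000000000000000000000000000000) := D_36 (nat_lit 208) (nat_lit 195) (nat_lit 207) (nat_lit 2) (nat_lit 4) (nat_lit 12) (nat_lit 3) (nat_lit 3) (nat_lit 12) (by decide +kernel)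
theorem L76707 : W_36 (nat_lit 3) (nat_lit 0x10000e0005000600000001000080000000000000000000000000000000) (nat_lit 0x0) (nat_lit 0x10000800018008000000000000000000000000000000000000000000000000) := T_36 (nat_lit 227) (nat_lit 244) (nat_lit 5) (nat_lit 7) (nat_lit 10) L76706 (by decide +kernel)
theorem L76708 : W_36 (nat_lit 2) (nat_lit 0x18001e8005000600004001000080000000000000000000000000000000) (nat_lit 0x0) (nat_lit 0x600200000000000000000000000000000000000000000000000000000) := D_36 (nat_lit 226) (nat_lit 225) (nat_lit 213) (nat_lit 2) (nat_lit 4) (nat_lit 13) (nat_lit 1) (nat_lit 9) (nat_lit 12) (by decide +kernel)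
theorem L76709 : W_36 (nat_lit 3) (nat_lit 0x18000e8005000600004001000080000000000000000000000000000000) (nat_lit 0x0) (nat_lit 0x600300000800000000000000000000000000000000000000000000000) := T_36 (nat_lit 212) (nat_lit 191) (nat_lit 0) (nat_lit 8) (nat_lit 12) L76708 (by decide +kernel)
theorem L76710 : W_36 (nat_lit 4) (nat_lit 0x18000e0005000600004001000080000000000000000000000000000000) (nat_lit 0x0) (nat_lit 0x600318000800000000000000000000000000000000000000000000000) := T_36 (nat_lit 207) (nat_lit 208) (nat_lit 3) (nat_lit 3) (nat_lit 12) L76709 (by decide +kernel)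
theorem L76711 : W_36 (nat_lit 5) (nat_lit 0x18000e0005000600000001000080000000000000000000000000000000) (nat_lit 0x0) (nat_lit 0x600318000800080004000000000000000000000000000000000000000) := T_36 (nat_lit 158) (nat_lit 175) (nat_lit 7) (nat_lit 5) (nat_lit 9) L76710 (by decide +kernel)
theorem L76712 : W_36 (nat_lit 6) (nat_lit 0x10000e0005000600000001000080000000000000000000000000000000) (nat_lit 0x0) (nat_lit 0x10000e00318000800080004000000000000000000000000000000000000000) := T_36 (nat_lit 227) (nat_lit 244) (nat_lit 5) (nat_lit 7) (nat_lit 10) L76711 (by decide +kernel)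
theorem L76713 : W_36 (nat_lit 2) (nat_lit 0x10001e0005000600000001000080000000000000000000000000000000) (nat_lit 0x0) (nat_lit 0x10018000000000000000000000000000000000000000000000000) := D_36 (nat_lit 195) (nat_lit 208) (nat_lit 196) (nat_lit 2) (nat_lit 4) (nat_lit 12) (nat_lit 2) (nat_lit 5) (nat_lit 12) (by decide +kernel)
theorem L76714 : W_36 (nat_lit 3) (nat_lit 0x10000e0005000600000001000080000000000000000000000000000000) (nat_lit 0x0) (nat_lit 0x110018800000000000000000000000000000000000000000000000) := T_36 (nat_lit 212) (nat_lit 191) (nat_lit 0) (nat_lit 8) (nat_lit 12) L76713 (by decide +kernel)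
theorem L76715 : W_36 (nat_lit 2) (nat_lit 0x18001e0005000600004001000080000000000000000000000000000000) (nat_lit 0x0) (nat_lit 0x600200000000000000000000000000000000000000000000000000000) := D_36 (nat_lit 226) (nat_lit 225) (nat_lit 213) (nat_lit 2) (nat_lit 4) (nat_lit 13) (nat_lit 1) (nat_lit 9) (nat_lit 12) (by decide +kernel)
theorem L76716 : W_36 (nat_lit 3) (nat_lit 0x18000e0005000600004001000080000000000000000000000000000000) (nat_lit 0x0) (nat_lit 0x600300000800000000000000000000000000000000000000000000000) := T_36 (nat_lit 212) (nat_lit 191) (nat_lit 0) (nat_lit 8) (nat_lit 12) L76715 (by decide +kernel)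
theorem L76717 : W_36 (nat_lit 4) (nat_lit 0x18000e0005000600000001000080000000000000000000000000000000) (nat_lit 0x0) (nat_lit 0x600300000800080004000000000000000000000000000000000000000) := T_36 (nat_lit 158) (nat_lit 175) (nat_lit 7) (nat_lit 5) (nat_lit 9) L76716 (by decide +kernel)
theorem L76718 : W_36 (nat_lit 5) (nat_lit 0x10000e0005000600000001000080000000000000000000000000000000) (nat_lit 0x0) (nat_lit 0x10000e00300000800080004000000000000000000000000000000000000000) := T_36 (nat_lit 227) (nat_lit 244) (nat_lit 5) (nat_lit 7) (nat_lit 10) L76717 (by decide +kernel)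
theorem L76719 : W_36 (nat_lit 7) (nat_lit 0x10000c0005000600000001000080000000000000000000000000000000) (nat_lit 0x0) (nat_lit 0x10000e00338018800080004000000000000000000000000000000000000000) := Q_36 (nat_lit 209) (C_36 L76707 (C_36 L76712 (C_36 L76714 (C_36 L76718 N_36)))) (by decide +kernel)
theorem L76720 : W_36 (nat_lit 2) (nat_lit 0x7e002c0005000600000001000080000000000000000000000000000000) (nat_lit 0x0) (nat_lit 0xe000000000000000000000000000000000000000000000000000000000000) := D_36 (nat_lit 242) (nat_lit 243) (nat_lit 241) (nat_lit 1) (nat_lit 8) (nat_lit 13) (nat_lit 1) (nat_lit 7) (nat_lit 13) (by decide +kernel)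
theorem L76721 : W_36 (nat_lit 3) (nat_lit 0x7c002c0005000600000001000080000000000000000000000000000000) (nat_lit 0x0) (nat_lit 0xe000300000000000000000000000000000000000000000000000000000000) := T_36 (nat_lit 225) (nat_lit 224) (nat_lit 2) (nat_lit 3) (nat_lit 13) L76720 (by decide +kernel)
theorem L76722 : W_36 (nat_lit 4) (nat_lit 0x78002c0005000600000001000080000000000000000000000000000000) (nat_lit 0x0) (nat_lit 0xe000700100000000000000000000000000000000000000000000000000000) := T_36 (nat_lit 226) (nat_lit 212) (nat_lit 2) (nat_lit 5) (nat_lit 13) L76721 (by decide +kernel)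
theorem L76723 : W_36 (nat_lit 5) (nat_lit 0x78000c0005000600000001000080000000000000000000000000000000) (nat_lit 0x0) (nat_lit 0xe000700700000000000000000000000000000000000000000000000000000) := T_36 (nat_lit 213) (nat_lit 214) (nat_lit 2) (nat_lit 6) (nat_lit 13) L76722 (by decide +kernel)
theorem L76724 : W_36 (nat_lit 6) (nat_lit 0x38000c0005000600000001000080000000000000000000000000000000) (nat_lit 0x0) (nat_lit 0xe00c700700000000000000000000000000000000000000000000000000000) := T_36 (nat_lit 230) (nat_lit 231) (nat_lit 0) (nat_lit 10) (nat_lit 13) L76723 (by decide +kernel)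
theorem L76725 : W_36 (nat_lit 7) (nat_lit 0x18000c0005000600000001000080000000000000000000000000000000) (nat_lit 0x0) (nat_lit 0x4e00e700700000000000000000000000000000000000000000000000000000) := T_36 (nat_lit 229) (nat_lit 246) (nat_lit 7) (nat_lit 7) (nat_lit 10) L76724 (by decide +kernel)
theorem L76726 : W_36 (nat_lit 8) (nat_lit 0x10000c0005000600000001000080000000000000000000000000000000) (nat_lit 0x0) (nat_lit 0x5e00ef00700000000000000000000000000000000000000000000000000000) := T_36 (nat_lit 227) (nat_lit 244) (nat_lit 5) (nat_lit 7) (nat_lit 10) L76725 (by decide +kernel)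
theorem L76727 : W_36 (nat_lit 2) (nat_lit 0x30000e0005000600000001000080000000000000000000000000000000) (nat_lit 0x0) (nat_lit 0xc000100000000000000000000000000000000000000000000000000000) := D_36 (nat_lit 230) (nat_lit 231) (nat_lit 212) (nat_lit 0) (nat_lit 10) (nat_lit 13) (nat_lit 3) (nat_lit 5) (nat_lit 12) (by decide +kernel)
theorem L76728 : W_36 (nat_lit 3) (nat_lit 0x30000c0005000600000001000080000000000000000000000000000000) (nat_lit 0x0) (nat_lit 0xc000130000000000000000000000000000000000000000000000000000) := T_36 (nat_lit 209) (nat_lit 208) (nat_lit 3) (nat_lit 4) (nat_lit 12) L76727 (by decide +kernel)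
theorem L76729 : W_36 (nat_lit 4) (nat_lit 0x10000c0005000600000001000080000000000000000000000000000000) (nat_lit 0x0) (nat_lit 0x4000e000130000000000000000000000000000000000000000000000000000) := T_36 (nat_lit 229) (nat_lit 246) (nat_lit 7) (nat_lit 7) (nat_lit 10) L76728 (by decide +kernel)
theorem L76730 : W_36 (nat_lit 9) (nat_lit 0x1000080005000600000001000080000000000000000000000000000000) (nat_lit 0x0) (nat_lit 0x1de00ef00778018800080004000000000000000000000000000000000000000) := Q_36 (nat_lit 210) (C_36 L76702 (C_36 L76705 (C_36 L76719 (C_36 L76726 (C_36 L76729 N_36))))) (by decide +kernel)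
theorem L76731 : W_36 (nat_lit 2) (nat_lit 0x40001000080005000600000001000080000000000000000000000000000000) (nat_lit 0x0) (nat_lit 0x800020000000000008000000000000000000000000000000000000000000000000) := D_36 (nat_lit 245) (nat_lit 195) (nat_lit 263) (nat_lit 6) (nat_lit 7) (nat_lit 14) (nat_lit 7) (nat_lit 7) (nat_lit 11) (by decide +kernel)
theorem L76732 : W_36 (nat_lit 3) (nat_lit 0x1000080005000600000001000080000000000000000000000000000000) (nat_lit 0x0) (nat_lit 0x800060002000000008000000000000000000000000000000000000000000000000) := T_36 (nat_lit 246) (nat_lit 229) (nat_lit 7) (nat_lit 7) (nat_lit 10) L76731 (by decide +kernel)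
theorem L76733 : W_36 (nat_lit 10) (nat_lit 0x80005000600000001000080000000000000000000000000000000) (nat_lit 0x0) (nat_lit 0xa001fe00ff00778018800080004000000000000000000000000000000000000000) := Q_36 (nat_lit 228) (C_36 L76690 (C_36 L76693 (C_36 L76695 (C_36 L76730 (C_36 L76732 N_36))))) (by decide +kernel)
theorem L76734 : W_36 (nat_lit 2) (nat_lit 0x7a005c0005800600000001000080000000000000000000000000000000) (nat_lit 0x0) (nat_lit 0x180000000000008000000000000000000000000000000000000000000000000) := D_36 (nat_lit 247) (nat_lit 195) (nat_lit 248) (nat_lit 7) (nat_lit 8) (nat_lit 10) (nat_lit 3) (nat_lit 6) (nat_lit 13) (by decide +kernel)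
theorem L76735 : W_36 (nat_lit 3) (nat_lit 0x3a005c0005800600000001000080000000000000000000000000000000) (nat_lit 0x0) (nat_lit 0x18000c000000008000000000000000000000000000000000000000000000000) := T_36 (nat_lit 230) (nat_lit 231) (nat_lit 0) (nat_lit 10) (nat_lit 13) L76734 (by decide +kernel)
theorem L76736 : W_36 (nat_lit 4) (nat_lit 0x3a00580005800600000001000080000000000000000000000000000000) (nat_lit 0x0) (nat_lit 0x18000c000060008000000000000000000000000000000000000000000000000) := T_36 (nat_lit 210) (nat_lit 209) (nat_lit 0) (nat_lit 8) (nat_lit 12) L76735 (by decide +kernel)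
theorem L76737 : W_36 (nat_lit 5) (nat_lit 0x1a00580005800600000001000080000000000000000000000000000000) (nat_lit 0x0) (nat_lit 0x1c000e000060008000000000000000000000000000000000000000000000000) := T_36 (nat_lit 229) (nat_lit 246) (nat_lit 7) (nat_lit 7) (nat_lit 10) L76736 (by decide +kernel)
theorem L76738 : W_36 (nat_lit 6) (nat_lit 0x1a00580005000600000001000080000000000000000000000000000000) (nat_lit 0x0) (nat_lit 0x1c000e00006000a800000000000000000000000000000000000000000000000) := T_36 (nat_lit 191) (nat_lit 193) (nat_lit 3) (nat_lit 4) (nat_lit 11) L76737 (by decide +kernel)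
theorem L76739 : W_36 (nat_lit 7) (nat_lit 0x1a00180005000600000001000080000000000000000000000000000000) (nat_lit 0x0) (nat_lit 0x1c000e00066000a800000000000000000000000000000000000000000000000) := T_36 (nat_lit 214) (nat_lit 213) (nat_lit 1) (nat_lit 10) (nat_lit 12) L76738 (by decide +kernel)
theorem L76740 : W_36 (nat_lit 8) (nat_lit 0x1800180005000600000001000080000000000000000000000000000000) (nat_lit 0x0) (nat_lit 0x1c000e60066000a800000000000000000000000000000000000000000000000) := T_36 (nat_lit 225) (nat_lit 226) (nat_lit 2) (nat_lit 4) (nat_lit 13) L76739 (by decide +kernel)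
theorem L76741 : W_36 (nat_lit 9) (nat_lit 0x1000180005000600000001000080000000000000000000000000000000) (nat_lit 0x0) (nat_lit 0x1d000ee0066000a800000000000000000000000000000000000000000000000) := T_36 (nat_lit 227) (nat_lit 244) (nat_lit 5) (nat_lit 7) (nat_lit 10) L76740 (by decide +kernel)
theorem L76742 : W_36 (nat_lit 2) (nat_lit 0x3800180005000600000001000080000000000000000000000000000000) (nat_lit 0x0) (nat_lit 0x600200000000000000000000000000000000000000000000000000000) := D_36 (nat_lit 226) (nat_lit 213) (nat_lit 225) (nat_lit 2) (nat_lit 5) (nat_lit 13) (nat_lit 2) (nat_lit 4) (nat_lit 13) (by decide +kernel)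
theorem L76743 : W_36 (nat_lit 3) (nat_lit 0x3000180005000600000001000080000000000000000000000000000000) (nat_lit 0x0) (nat_lit 0x10000e00200000000000000000000000000000000000000000000000000000) := T_36 (nat_lit 227) (nat_lit 244) (nat_lit 5) (nat_lit 7) (nat_lit 10) L76742 (by decide +kernel)
theorem L76744 : W_36 (nat_lit 4) (nat_lit 0x1000180005000600000001000080000000000000000000000000000000) (nat_lit 0x0) (nat_lit 0x50002e00200000000000000000000000000000000000000000000000000000) := T_36 (nat_lit 229) (nat_lit 246) (nat_lit 7) (nat_lit 7) (nat_lit 10) L76743 (by decide +kernel)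
theorem L76745 : W_36 (nat_lit 2) (nat_lit 0x7a001c0005800600000001000080000000000000000000000000000000) (nat_lit 0x0) (nat_lit 0x180000000000008000000000000000000000000000000000000000000000000) := D_36 (nat_lit 247) (nat_lit 195) (nat_lit 248) (nat_lit 7) (nat_lit 8) (nat_lit 10) (nat_lit 3) (nat_lit 6) (nat_lit 13) (by decide +kernel)
theorem L76746 : W_36 (nat_lit 3) (nat_lit 0x3a001c0005800600000001000080000000000000000000000000000000) (nat_lit 0x0) (nat_lit 0x18000c000000008000000000000000000000000000000000000000000000000) := T_36 (nat_lit 230) (nat_lit 231) (nat_lit 0) (nat_lit 10) (nat_lit 13) L76745 (by decide +kernel)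
theorem L76747 : W_36 (nat_lit 4) (nat_lit 0x3a00180005800600000001000080000000000000000000000000000000) (nat_lit 0x0) (nat_lit 0x18000c000060008000000000000000000000000000000000000000000000000) := T_36 (nat_lit 210) (nat_lit 209) (nat_lit 0) (nat_lit 8) (nat_lit 12) L76746 (by decide +kernel)
theorem L76748 : W_36 (nat_lit 5) (nat_lit 0x3800180005800600000001000080000000000000000000000000000000) (nat_lit 0x0) (nat_lit 0x18000c600060008000000000000000000000000000000000000000000000000) := T_36 (nat_lit 225) (nat_lit 226) (nat_lit 2) (nat_lit 4) (nat_lit 13) L76747 (by decide +kernel)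
theorem L76749 : W_36 (nat_lit 6) (nat_lit 0x3000180005800600000001000080000000000000000000000000000000) (nat_lit 0x0) (nat_lit 0x19000ce00060008000000000000000000000000000000000000000000000000) := T_36 (nat_lit 227) (nat_lit 244) (nat_lit 5) (nat_lit 7) (nat_lit 10) L76748 (by decide +kernel)
theorem L76750 : W_36 (nat_lit 7) (nat_lit 0x1000180005800600000001000080000000000000000000000000000000) (nat_lit 0x0) (nat_lit 0x1d000ee00060008000000000000000000000000000000000000000000000000) := T_36 (nat_lit 229) (nat_lit 246) (nat_lit 7) (nat_lit 7) (nat_lit 10) L76749 (by decide +kernel)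
theorem L76751 : W_36 (nat_lit 8) (nat_lit 0x1000180005000600000001000080000000000000000000000000000000) (nat_lit 0x0) (nat_lit 0x1d000ee0006000a800000000000000000000000000000000000000000000000) := T_36 (nat_lit 191) (nat_lit 193) (nat_lit 3) (nat_lit 4) (nat_lit 11) L76750 (by decide +kernel)
theorem L76752 : W_36 (nat_lit 2) (nat_lit 0x18001c0005800600000001000080000000000000000000000000000000) (nat_lit 0x0) (nat_lit 0x600200000000000000000000000000000000000000000000000000000) := D_36 (nat_lit 226) (nat_lit 225) (nat_lit 213) (nat_lit 2) (nat_lit 4) (nat_lit 13) (nat_lit 1) (nat_lit 9) (nat_lit 12) (by decide +kernel)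
theorem L76753 : W_36 (nat_lit 3) (nat_lit 0x10001c0005800600000001000080000000000000000000000000000000) (nat_lit 0x0) (nat_lit 0x10000e00200000000000000000000000000000000000000000000000000000) := T_36 (nat_lit 227) (nat_lit 244) (nat_lit 5) (nat_lit 7) (nat_lit 10) L76752 (by decide +kernel)
theorem L76754 : W_36 (nat_lit 4) (nat_lit 0x1000180005800600000001000080000000000000000000000000000000) (nat_lit 0x0) (nat_lit 0x10000e00260000000000000000000000000000000000000000000000000000) := T_36 (nat_lit 210) (nat_lit 209) (nat_lit 0) (nat_lit 8) (nat_lit 12) L76753 (by decide +kernel)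
theorem L76755 : W_36 (nat_lit 5) (nat_lit 0x1000180005000600000001000080000000000000000000000000000000) (nat_lit 0x0) (nat_lit 0x10000e00260002800000000000000000000000000000000000000000000000) := T_36 (nat_lit 191) (nat_lit 193) (nat_lit 3) (nat_lit 4) (nat_lit 11) L76754 (by decide +kernel)
theorem L76756 : W_36 (nat_lit 2) (nat_lit 0x78005c0005800600000001000080000000000000000000000000000000) (nat_lit 0x0) (nat_lit 0x180000000000008000000000000000000000000000000000000000000000000) := D_36 (nat_lit 247) (nat_lit 195) (nat_lit 248) (nat_lit 7) (nat_lit 8) (nat_lit 10) (nat_lit 3) (nat_lit 6) (nat_lit 13) (by decide +kernel)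
theorem L76757 : W_36 (nat_lit 3) (nat_lit 0x38005c0005800600000001000080000000000000000000000000000000) (nat_lit 0x0) (nat_lit 0x18000c000000008000000000000000000000000000000000000000000000000) := T_36 (nat_lit 230) (nat_lit 231) (nat_lit 0) (nat_lit 10) (nat_lit 13) L76756 (by decide +kernel)
theorem L76758 : W_36 (nat_lit 4) (nat_lit 0x3800580005800600000001000080000000000000000000000000000000) (nat_lit 0x0) (nat_lit 0x18000c000060008000000000000000000000000000000000000000000000000) := T_36 (nat_lit 210) (nat_lit 209) (nat_lit 0) (nat_lit 8) (nat_lit 12) L76757 (by decide +kernel)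
theorem L76759 : W_36 (nat_lit 5) (nat_lit 0x3800580005000600000001000080000000000000000000000000000000) (nat_lit 0x0) (nat_lit 0x18000c00006000a800000000000000000000000000000000000000000000000) := T_36 (nat_lit 191) (nat_lit 193) (nat_lit 3) (nat_lit 4) (nat_lit 11) L76758 (by decide +kernel)
theorem L76760 : W_36 (nat_lit 6) (nat_lit 0x1800580005000600000001000080000000000000000000000000000000) (nat_lit 0x0) (nat_lit 0x1c000e00006000a800000000000000000000000000000000000000000000000) := T_36 (nat_lit 229) (nat_lit 246) (nat_lit 7) (nat_lit 7) (nat_lit 10) L76759 (by decide +kernel)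
theorem L76761 : W_36 (nat_lit 7) (nat_lit 0x1800180005000600000001000080000000000000000000000000000000) (nat_lit 0x0) (nat_lit 0x1c000e00066000a800000000000000000000000000000000000000000000000) := T_36 (nat_lit 214) (nat_lit 213) (nat_lit 1) (nat_lit 10) (nat_lit 12) L76760 (by decide +kernel)
theorem L76762 : W_36 (nat_lit 8) (nat_lit 0x1000180005000600000001000080000000000000000000000000000000) (nat_lit 0x0) (nat_lit 0x1d000e80066000a800000000000000000000000000000000000000000000000) := T_36 (nat_lit 227) (nat_lit 244) (nat_lit 5) (nat_lit 7) (nat_lit 10) L76761 (by decide +kernel)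
theorem L76763 : W_36 (nat_lit 2) (nat_lit 0x200000000800078001c0005800600000001000080000000000000000000000000000000) (nat_lit 0x0) (nat_lit 0x400600000000000000000000000000000000000000000000000000000) := D_36 (nat_lit 213) (nat_lit 214) (nat_lit 226) (nat_lit 2) (nat_lit 6) (nat_lit 13) (nat_lit 2) (nat_lit 5) (nat_lit 13) (by decide +kernel)
theorem L76764 : W_36 (nat_lit 3) (nat_lit 0x200000000800070001c0005800600000001000080000000000000000000000000000000) (nat_lit 0x0) (nat_lit 0x100000c00600000000000000000000000000000000000000000000000000000) := T_36 (nat_lit 227) (nat_lit 248) (nat_lit 3) (nat_lit 6) (nat_lit 13) L76763 (by decide +kernel)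
theorem L76765 : W_36 (nat_lit 4) (nat_lit 0x800070001c0005800600000001000080000000000000000000000000000000) (nat_lit 0x0) (nat_lit 0x20001000100000c00600000000000000000000000000000000000000000000000000000) := T_36 (nat_lit 281) (nat_lit 264) (nat_lit 4) (nat_lit 9) (nat_lit 16) L76764 (by decide +kernel)
theorem L76766 : W_36 (nat_lit 5) (nat_lit 0x70001c0005800600000001000080000000000000000000000000000000) (nat_lit 0x0) (nat_lit 0x20001000180000c00600008000000000000000000000000000000000000000000000000) := T_36 (nat_lit 247) (nat_lit 195) (nat_lit 7) (nat_lit 8) (nat_lit 10) L76765 (by decide +kernel)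
theorem L76767 : W_36 (nat_lit 6) (nat_lit 0x30001c0005800600000001000080000000000000000000000000000000) (nat_lit 0x0) (nat_lit 0x2000100018000cc00600008000000000000000000000000000000000000000000000000) := T_36 (nat_lit 230) (nat_lit 231) (nat_lit 0) (nat_lit 10) (nat_lit 13) L76766 (by decide +kernel)
theorem L76768 : W_36 (nat_lit 7) (nat_lit 0x10001c0005800600000001000080000000000000000000000000000000) (nat_lit 0x0) (nat_lit 0x200010001c000ec00600008000000000000000000000000000000000000000000000000) := T_36 (nat_lit 229) (nat_lit 246) (nat_lit 7) (nat_lit 7) (nat_lit 10) L76767 (by decide +kernel)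
theorem L76769 : W_36 (nat_lit 8) (nat_lit 0x1000180005800600000001000080000000000000000000000000000000) (nat_lit 0x0) (nat_lit 0x200010001c000ec00660008000000000000000000000000000000000000000000000000) := T_36 (nat_lit 210) (nat_lit 209) (nat_lit 0) (nat_lit 8) (nat_lit 12) L76768 (by decide +kernel)
theorem L76770 : W_36 (nat_lit 9) (nat_lit 0x1000180005000600000001000080000000000000000000000000000000) (nat_lit 0x0) (nat_lit 0x200010001c000ec0066000a800000000000000000000000000000000000000000000000) := T_36 (nat_lit 191) (nat_lit 193) (nat_lit 3) (nat_lit 4) (nat_lit 11) L76769 (by decide +kernel)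
theorem L76771 : W_36 (nat_lit 2) (nat_lit 0x3000180007000600000001000080000000000000000000000000000000) (nat_lit 0x0) (nat_lit 0x640000000000000000000000000000000000000000000000000000) := D_36 (nat_lit 213) (nat_lit 214) (nat_lit 210) (nat_lit 0) (nat_lit 10) (nat_lit 12) (nat_lit 0) (nat_lit 9) (nat_lit 12) (by decide +kernel)
theorem L76772 : W_36 (nat_lit 3) (nat_lit 0x3000180005000600000001000080000000000000000000000000000000) (nat_lit 0x0) (nat_lit 0x640002800000000000000000000000000000000000000000000000) := T_36 (nat_lit 193) (nat_lit 191) (nat_lit 3) (nat_lit 4) (nat_lit 11) L76771 (by decide +kernel)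
theorem L76773 : W_36 (nat_lit 4) (nat_lit 0x1000180005000600000001000080000000000000000000000000000000) (nat_lit 0x0) (nat_lit 0x40002000640002800000000000000000000000000000000000000000000000) := T_36 (nat_lit 229) (nat_lit 246) (nat_lit 7) (nat_lit 7) (nat_lit 10) L76772 (by decide +kernel)
theorem L76774 : W_36 (nat_lit 10) (nat_lit 0x1000080005000600000001000080000000000000000000000000000000) (nat_lit 0x0) (nat_lit 0x200010001d000ee0076000a800000000000000000000000000000000000000000000000) := Q_36 (nat_lit 212) (C_36 L76741 (C_36 L76744 (C_36 L76751 (C_36 L76755 (C_36 L76762 (C_36 L76770 (C_36 L76773 N_36))))))) (by decide +kernel)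
theorem L76775 : W_36 (nat_lit 11) (nat_lit 0x80005000600000001000080000000000000000000000000000000) (nat_lit 0x0) (nat_lit 0x20001a001f000fe0076000a800000000000000000000000000000000000000000000000) := Q_36 (nat_lit 228) (C_36 L76732 (C_36 L76693 (C_36 L76695 (C_36 L76774 N_36)))) (by decide +kernel)
theorem L76776 : W_36 (nat_lit 2) (nat_lit 0x400030001000080007000600000001000080000000000000000000000000000000) (nat_lit 0x0) (nat_lit 0x10000800040000000000000000000000000000000000000000000000000000000000000) := D_36 (nat_lit 263) (nat_lit 246) (nat_lit 280) (nat_lit 7) (nat_lit 7) (nat_lit 11) (nat_lit 7) (nat_lit 7) (nat_lit 12) (by decide +kernel)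
theorem L76777 : W_36 (nat_lit 3) (nat_lit 0x30001000080007000600000001000080000000000000000000000000000000) (nat_lit 0x0) (nat_lit 0x10000c00040000000040000000000000000000000000000000000000000000000000000) := T_36 (nat_lit 262) (nat_lit 210) (nat_lit 4) (nat_lit 7) (nat_lit 15) L76776 (by decide +kernel)
theorem L76778 : W_36 (nat_lit 4) (nat_lit 0x10001000080007000600000001000080000000000000000000000000000000) (nat_lit 0x0) (nat_lit 0x10000e00060000000040000000000000000000000000000000000000000000000000000) := T_36 (nat_lit 245) (nat_lit 261) (nat_lit 5) (nat_lit 7) (nat_lit 11) L76777 (by decide +kernel)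
theorem L76779 : W_36 (nat_lit 5) (nat_lit 0x1000080007000600000001000080000000000000000000000000000000) (nat_lit 0x0) (nat_lit 0x10000e00070000800040000000000000000000000000000000000000000000000000000) := T_36 (nat_lit 244) (nat_lit 227) (nat_lit 5) (nat_lit 7) (nat_lit 10) L76778 (by decide +kernel)
theorem L76780 : W_36 (nat_lit 6) (nat_lit 0x1000080005000600000001000080000000000000000000000000000000) (nat_lit 0x0) (nat_lit 0x10000e00070000800040002800000000000000000000000000000000000000000000000) := T_36 (nat_lit 193) (nat_lit 191) (nat_lit 2) (nat_lit 4) (nat_lit 11) L76779 (by decide +kernel)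
theorem L76781 : W_36 (nat_lit 2) (nat_lit 0x38001a0005800600000001000080000000000000000000000000000000) (nat_lit 0x0) (nat_lit 0x600010000000000000000000000000000000000000000000000000000) := D_36 (nat_lit 226) (nat_lit 225) (nat_lit 208) (nat_lit 2) (nat_lit 4) (nat_lit 13) (nat_lit 0) (nat_lit 8) (nat_lit 13) (by decide +kernel)
theorem L76782 : W_36 (nat_lit 3) (nat_lit 0x30001a0005800600000001000080000000000000000000000000000000) (nat_lit 0x0) (nat_lit 0x10000e00010000000000000000000000000000000000000000000000000000) := T_36 (nat_lit 227) (nat_lit 244) (nat_lit 5) (nat_lit 7) (nat_lit 10) L76781 (by decide +kernel)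
theorem L76783 : W_36 (nat_lit 4) (nat_lit 0x10001a0005800600000001000080000000000000000000000000000000) (nat_lit 0x0) (nat_lit 0x50002e00010000000000000000000000000000000000000000000000000000) := T_36 (nat_lit 229) (nat_lit 246) (nat_lit 7) (nat_lit 7) (nat_lit 10) L76782 (by decide +kernel)
theorem L76784 : W_36 (nat_lit 5) (nat_lit 0x1000180005800600000001000080000000000000000000000000000000) (nat_lit 0x0) (nat_lit 0x50002e00070000000000000000000000000000000000000000000000000000) := T_36 (nat_lit 209) (nat_lit 210) (nat_lit 0) (nat_lit 8) (nat_lit 12) L76783 (by decide +kernel)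
theorem L76785 : W_36 (nat_lit 6) (nat_lit 0x1000180005000600000001000080000000000000000000000000000000) (nat_lit 0x0) (nat_lit 0x50002e00070002800000000000000000000000000000000000000000000000) := T_36 (nat_lit 191) (nat_lit 193) (nat_lit 3) (nat_lit 4) (nat_lit 11) L76784 (by decide +kernel)
theorem L76786 : W_36 (nat_lit 7) (nat_lit 0x1000080005000600000001000080000000000000000000000000000000) (nat_lit 0x0) (nat_lit 0x50002e00770002800000000000000000000000000000000000000000000000) := Q_36 (nat_lit 212) (C_36 L76773 (C_36 L76785 (C_36 L76744 (C_36 L76755 N_36)))) (by decide +kernel)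
theorem L76787 : W_36 (nat_lit 2) (nat_lit 0x30000e0005000600000001000080000000000000000000000000000000) (nat_lit 0x0) (nat_lit 0xc800000000000000000000000000000000000000000000000000000000) := D_36 (nat_lit 230) (nat_lit 231) (nat_lit 227) (nat_lit 0) (nat_lit 10) (nat_lit 13) (nat_lit 0) (nat_lit 9) (nat_lit 13) (by decide +kernel)
theorem L76788 : W_36 (nat_lit 3) (nat_lit 0x30000c0005000600000001000080000000000000000000000000000000) (nat_lit 0x0) (nat_lit 0xc800030000000000000000000000000000000000000000000000000000) := T_36 (nat_lit 209) (nat_lit 208) (nat_lit 3) (nat_lit 4) (nat_lit 12) L76787 (by decide +kernel)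
theorem L76789 : W_36 (nat_lit 4) (nat_lit 0x10000c0005000600000001000080000000000000000000000000000000) (nat_lit 0x0) (nat_lit 0x4000e800030000000000000000000000000000000000000000000000000000) := T_36 (nat_lit 229) (nat_lit 246) (nat_lit 7) (nat_lit 7) (nat_lit 10) L76788 (by decide +kernel)
theorem L76790 : W_36 (nat_lit 2) (nat_lit 0x10000e0005800600000001000080000000000000000000000000000000) (nat_lit 0x0) (nat_lit 0x10000600000000000000000000000000000000000000000000000) := D_36 (nat_lit 190) (nat_lit 208) (nat_lit 189) (nat_lit 0) (nat_lit 7) (nat_lit 12) (nat_lit 3) (nat_lit 2) (nat_lit 11) (by decide +kernel)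
theorem L76791 : W_36 (nat_lit 3) (nat_lit 0x10000c0005800600000001000080000000000000000000000000000000) (nat_lit 0x0) (nat_lit 0x130000600000000000000000000000000000000000000000000000) := T_36 (nat_lit 209) (nat_lit 212) (nat_lit 0) (nat_lit 8) (nat_lit 12) L76790 (by decide +kernel)
theorem L76792 : W_36 (nat_lit 4) (nat_lit 0x10000c0005000600000001000080000000000000000000000000000000) (nat_lit 0x0) (nat_lit 0x130002e00000000000000000000000000000000000000000000000) := T_36 (nat_lit 191) (nat_lit 193) (nat_lit 2) (nat_lit 4) (nat_lit 11) L76791 (by decide +kernel)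
theorem L76793 : W_36 (nat_lit 2) (nat_lit 0x400010000c0007000600000001000080000000000000000000000000000000) (nat_lit 0x0) (nat_lit 0xc00020000000000000000000000000000000000000000000000000000000000000) := D_36 (nat_lit 245) (nat_lit 262) (nat_lit 263) (nat_lit 4) (nat_lit 7) (nat_lit 15) (nat_lit 7) (nat_lit 7) (nat_lit 11) (by decide +kernel)
theorem L76794 : W_36 (nat_lit 3) (nat_lit 0x10000c0007000600000001000080000000000000000000000000000000) (nat_lit 0x0) (nat_lit 0xc00060002000000000000000000000000000000000000000000000000000000000) := T_36 (nat_lit 246) (nat_lit 229) (nat_lit 7) (nat_lit 7) (nat_lit 10) L76793 (by decide +kernel)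
theorem L76795 : W_36 (nat_lit 4) (nat_lit 0x10000c0005000600000001000080000000000000000000000000000000) (nat_lit 0x0) (nat_lit 0xc00060002000000002800000000000000000000000000000000000000000000000) := T_36 (nat_lit 193) (nat_lit 191) (nat_lit 2) (nat_lit 4) (nat_lit 11) L76794 (by decide +kernel)
theorem L76796 : W_36 (nat_lit 5) (nat_lit 0x1000080005000600000001000080000000000000000000000000000000) (nat_lit 0x0) (nat_lit 0xc0006000e800170002e00000000000000000000000000000000000000000000000) := Q_36 (nat_lit 210) (C_36 L76729 (C_36 L76789 (C_36 L76792 (C_36 L76795 N_36)))) (by decide +kernel)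
theorem L76797 : W_36 (nat_lit 2) (nat_lit 0x18000e0005000600000001000080000000000000000000000000000000) (nat_lit 0x0) (nat_lit 0x2000018000000000000000000000000000000000000000000000000000) := D_36 (nat_lit 208) (nat_lit 207) (nat_lit 229) (nat_lit 3) (nat_lit 3) (nat_lit 12) (nat_lit 3) (nat_lit 4) (nat_lit 12) (by decide +kernel)
theorem L76798 : W_36 (nat_lit 3) (nat_lit 0x10000e0005000600000001000080000000000000000000000000000000) (nat_lit 0x0) (nat_lit 0x10002800018000000000000000000000000000000000000000000000000000) := T_36 (nat_lit 227) (nat_lit 244) (nat_lit 5) (nat_lit 7) (nat_lit 10) L76797 (by decide +kernel)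
theorem L76799 : W_36 (nat_lit 2) (nat_lit 0x10000f0005000600000001000080000000000000000000000000000000) (nat_lit 0x0) (nat_lit 0x100000c00000000000000000000000000000000000000000000000) := D_36 (nat_lit 191) (nat_lit 212) (nat_lit 190) (nat_lit 0) (nat_lit 8) (nat_lit 12) (nat_lit 0) (nat_lit 7) (nat_lit 12) (by decide +kernel)
theorem L76800 : W_36 (nat_lit 3) (nat_lit 0x10000e0005000600000001000080000000000000000000000000000000) (nat_lit 0x0) (nat_lit 0x2000110000c00000000000000000000000000000000000000000000000) := T_36 (nat_lit 208) (nat_lit 229) (nat_lit 3) (nat_lit 4) (nat_lit 12) L76799 (by decide +kernel)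
theorem L76801 : W_36 (nat_lit 6) (nat_lit 0x10000c0005000600000001000080000000000000000000000000000000) (nat_lit 0x0) (nat_lit 0x10002e00338000c00080004000000000000000000000000000000000000000) := Q_36 (nat_lit 209) (C_36 L76718 (C_36 L76798 (C_36 L76800 N_36))) (by decide +kernel)
theorem L76802 : W_36 (nat_lit 2) (nat_lit 0x100010000c0007000600000001000080000000000000000000000000000000) (nat_lit 0x0) (nat_lit 0x600020000000000000000000000000000000000000000000000000000000000000) := D_36 (nat_lit 245) (nat_lit 261) (nat_lit 262) (nat_lit 5) (nat_lit 7) (nat_lit 11) (nat_lit 4) (nat_lit 7) (nat_lit 15) (by decide +kernel)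
theorem L76803 : W_36 (nat_lit 3) (nat_lit 0x100010000c0005000600000001000080000000000000000000000000000000) (nat_lit 0x0) (nat_lit 0x600020000000000002800000000000000000000000000000000000000000000000) := T_36 (nat_lit 193) (nat_lit 191) (nat_lit 2) (nat_lit 4) (nat_lit 11) L76802 (by decide +kernel)
theorem L76804 : W_36 (nat_lit 4) (nat_lit 0x10000c0005000600000001000080000000000000000000000000000000) (nat_lit 0x0) (nat_lit 0x600030000800000002800000000000000000000000000000000000000000000000) := T_36 (nat_lit 244) (nat_lit 227) (nat_lit 5) (nat_lit 7) (nat_lit 10) L76803 (by decide +kernel)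
theorem L76805 : W_36 (nat_lit 2) (nat_lit 0x1a001f0005000600004001000080000000000000000000000000000000) (nat_lit 0x0) (nat_lit 0x600002000000000000000000000000000000000000000000000000) := D_36 (nat_lit 213) (nat_lit 193) (nat_lit 214) (nat_lit 0) (nat_lit 9) (nat_lit 12) (nat_lit 1) (nat_lit 10) (nat_lit 12) (by decide +kernel)
theorem L76806 : W_36 (nat_lit 3) (nat_lit 0x1a000f0005000600004001000080000000000000000000000000000000) (nat_lit 0x0) (nat_lit 0x400700002000000000000000000000000000000000000000000000000) := T_36 (nat_lit 212) (nat_lit 226) (nat_lit 2) (nat_lit 4) (nat_lit 13) L76805 (by decide +kernel)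
theorem L76807 : W_36 (nat_lit 4) (nat_lit 0x18000f0005000600004001000080000000000000000000000000000000) (nat_lit 0x0) (nat_lit 0x700700002000000000000000000000000000000000000000000000000) := T_36 (nat_lit 225) (nat_lit 224) (nat_lit 1) (nat_lit 7) (nat_lit 12) L76806 (by decide +kernel)
theorem L76808 : W_36 (nat_lit 5) (nat_lit 0x18000e0005000600004001000080000000000000000000000000000000) (nat_lit 0x0) (nat_lit 0x700718002000000000000000000000000000000000000000000000000) := T_36 (nat_lit 208) (nat_lit 207) (nat_lit 3) (nat_lit 3) (nat_lit 12) L76807 (by decide +kernel)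
theorem L76809 : W_36 (nat_lit 6) (nat_lit 0x18000e0005000600000001000080000000000000000000000000000000) (nat_lit 0x0) (nat_lit 0x700718002000080004000000000000000000000000000000000000000) := T_36 (nat_lit 158) (nat_lit 175) (nat_lit 7) (nat_lit 5) (nat_lit 9) L76808 (by decide +kernel)
theorem L76810 : W_36 (nat_lit 7) (nat_lit 0x10000e0005000600000001000080000000000000000000000000000000) (nat_lit 0x0) (nat_lit 0x10000f00718002000080004000000000000000000000000000000000000000) := T_36 (nat_lit 227) (nat_lit 244) (nat_lit 5) (nat_lit 7) (nat_lit 10) L76809 (by decide +kernel)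
theorem L76811 : W_36 (nat_lit 2) (nat_lit 0x10000f0005000600000001000080000000000000000000000000000000) (nat_lit 0x0) (nat_lit 0x800008002000000000000000000000000000000000000000000000000) := D_36 (nat_lit 207) (nat_lit 227) (nat_lit 193) (nat_lit 3) (nat_lit 3) (nat_lit 12) (nat_lit 2) (nat_lit 3) (nat_lit 12) (by decide +kernel)
theorem L76812 : W_36 (nat_lit 3) (nat_lit 0x10000e0005000600000001000080000000000000000000000000000000) (nat_lit 0x0) (nat_lit 0x2800018002000000000000000000000000000000000000000000000000) := T_36 (nat_lit 208) (nat_lit 229) (nat_lit 3) (nat_lit 4) (nat_lit 12) L76811 (by decide +kernel)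
theorem L76813 : W_36 (nat_lit 2) (nat_lit 0x380030001e0007000600000001000080000000000000000000000000000000) (nat_lit 0x0) (nat_lit 0x100000000600000000000000000000000000000000000000000000000000000000) := D_36 (nat_lit 226) (nat_lit 225) (nat_lit 260) (nat_lit 1) (nat_lit 8) (nat_lit 12) (nat_lit 6) (nat_lit 5) (nat_lit 15) (by decide +kernel)
theorem L76814 : W_36 (nat_lit 3) (nat_lit 0x300030001e0007000600000001000080000000000000000000000000000000) (nat_lit 0x0) (nat_lit 0x10000c000600000000000000000000000000000000000000000000000000000000) := T_36 (nat_lit 243) (nat_lit 242) (nat_lit 2) (nat_lit 4) (nat_lit 14) L76813 (by decide +kernel)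
theorem L76815 : W_36 (nat_lit 4) (nat_lit 0x300010001e0007000600000001000080000000000000000000000000000000) (nat_lit 0x0) (nat_lit 0x10000c006600000000000000000000000000000000000000000000000000000000) := T_36 (nat_lit 229) (nat_lit 230) (nat_lit 3) (nat_lit 5) (nat_lit 12) L76814 (by decide +kernel)
theorem L76816 : W_36 (nat_lit 5) (nat_lit 0x300010000e0007000600000001000080000000000000000000000000000000) (nat_lit 0x0) (nat_lit 0x10000c006600300000000000000000000000000000000000000000000000000000) := T_36 (nat_lit 212) (nat_lit 213) (nat_lit 0) (nat_lit 9) (nat_lit 12) L76815 (by decide +kernel)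
theorem L76817 : W_36 (nat_lit 6) (nat_lit 0x300010000e0005000600000001000080000000000000000000000000000000) (nat_lit 0x0) (nat_lit 0x50000c006600300002000000000000000000000000000000000000000000000000) := T_36 (nat_lit 193) (nat_lit 262) (nat_lit 4) (nat_lit 7) (nat_lit 15) L76816 (by decide +kernel)
theorem L76818 : W_36 (nat_lit 7) (nat_lit 0x100010000e0005000600000001000080000000000000000000000000000000) (nat_lit 0x0) (nat_lit 0x70002c006600300002000000000000000000000000000000000000000000000000) := T_36 (nat_lit 245) (nat_lit 261) (nat_lit 5) (nat_lit 7) (nat_lit 11) L76817 (by decide +kernel)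
theorem L76819 : W_36 (nat_lit 8) (nat_lit 0x10000e0005000600000001000080000000000000000000000000000000) (nat_lit 0x0) (nat_lit 0x70003c006e00300002000000000000000000000000000000000000000000000000) := T_36 (nat_lit 244) (nat_lit 227) (nat_lit 5) (nat_lit 7) (nat_lit 10) L76818 (by decide +kernel)
theorem L76820 : W_36 (nat_lit 2) (nat_lit 0x10000f8005000600000001000080000000000000000000000000000000) (nat_lit 0x0) (nat_lit 0x380000000000000000000000000000000000000000000000000000000) := D_36 (nat_lit 224) (nat_lit 223) (nat_lit 225) (nat_lit 1) (nat_lit 6) (nat_lit 12) (nat_lit 1) (nat_lit 7) (nat_lit 12) (by decide +kernel)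
theorem L76821 : W_36 (nat_lit 3) (nat_lit 0x10000f0005000600000001000080000000000000000000000000000000) (nat_lit 0x0) (nat_lit 0x380008002000000000000000000000000000000000000000000000000) := T_36 (nat_lit 207) (nat_lit 193) (nat_lit 2) (nat_lit 3) (nat_lit 12) L76820 (by decide +kernel)
theorem L76822 : W_36 (nat_lit 4) (nat_lit 0x10000e0005000600000001000080000000000000000000000000000000) (nat_lit 0x0) (nat_lit 0x2380018002000000000000000000000000000000000000000000000000) := T_36 (nat_lit 208) (nat_lit 229) (nat_lit 3) (nat_lit 4) (nat_lit 12) L76821 (by decide +kernel)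
theorem L76823 : W_36 (nat_lit 9) (nat_lit 0x10000c0005000600000001000080000000000000000000000000000000) (nat_lit 0x0) (nat_lit 0x70003c006f80738002000080004000000000000000000000000000000000000000) := Q_36 (nat_lit 209) (C_36 L76798 (C_36 L76810 (C_36 L76812 (C_36 L76819 (C_36 L76822 N_36))))) (by decide +kernel)
theorem L76824 : W_36 (nat_lit 10) (nat_lit 0x1000080005000600000001000080000000000000000000000000000000) (nat_lit 0x0) (nat_lit 0x70003c006f80778002e00080004000000000000000000000000000000000000000) := Q_36 (nat_lit 210) (C_36 L76801 (C_36 L76792 (C_36 L76804 (C_36 L76823 N_36)))) (by decide +kernel)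
theorem L76825 : W_36 (nat_lit 2) (nat_lit 0x200060001000080007000600000001000080000000000000000000000000000000) (nat_lit 0x0) (nat_lit 0x4000400000000000040000000000000000000000000000000000000000000000000000) := D_36 (nat_lit 262) (nat_lit 210) (nat_lit 278) (nat_lit 4) (nat_lit 7) (nat_lit 15) (nat_lit 5) (nat_lit 7) (nat_lit 12) (by decide +kernel)
theorem L76826 : W_36 (nat_lit 3) (nat_lit 0x60001000080007000600000001000080000000000000000000000000000000) (nat_lit 0x0) (nat_lit 0x4000600010000000040000000000000000000000000000000000000000000000000000) := T_36 (nat_lit 261) (nat_lit 244) (nat_lit 5) (nat_lit 7) (nat_lit 11) L76825 (by decide +kernel)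
theorem L76827 : W_36 (nat_lit 4) (nat_lit 0x40001000080007000600000001000080000000000000000000000000000000) (nat_lit 0x0) (nat_lit 0x4000e00030000000040000000000000000000000000000000000000000000000000000) := T_36 (nat_lit 245) (nat_lit 263) (nat_lit 7) (nat_lit 7) (nat_lit 11) L76826 (by decide +kernel)
theorem L76828 : W_36 (nat_lit 5) (nat_lit 0x40001000080005000600000001000080000000000000000000000000000000) (nat_lit 0x0) (nat_lit 0x4000e00030000000040002800000000000000000000000000000000000000000000000) := T_36 (nat_lit 193) (nat_lit 191) (nat_lit 2) (nat_lit 4) (nat_lit 11) L76827 (by decide +kernel)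
theorem L76829 : W_36 (nat_lit 6) (nat_lit 0x1000080005000600000001000080000000000000000000000000000000) (nat_lit 0x0) (nat_lit 0x4000e00070002000040002800000000000000000000000000000000000000000000000) := T_36 (nat_lit 246) (nat_lit 229) (nat_lit 7) (nat_lit 7) (nat_lit 10) L76828 (by decide +kernel)
theorem L76830 : W_36 (nat_lit 11) (nat_lit 0x80005000600000001000080000000000000000000000000000000) (nat_lit 0x0) (nat_lit 0x14000f0007c00ff80778002e00080004000000000000000000000000000000000000000) := Q_36 (nat_lit 228) (C_36 L76693 (C_36 L76780 (C_36 L76786 (C_36 L76796 (C_36 L76824 (C_36 L76829 N_36)))))) (by decide +kernel)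
theorem L76831 : W_36 (nat_lit 2) (nat_lit 0x30000b0005000600000001000080000000000000000000000000000000) (nat_lit 0x0) (nat_lit 0x10000c00000000000000000000000000000000000000000000000000000000) := D_36 (nat_lit 227) (nat_lit 226) (nat_lit 244) (nat_lit 0) (nat_lit 8) (nat_lit 13) (nat_lit 5) (nat_lit 7) (nat_lit 10) (by decide +kernel)
theorem L76832 : W_36 (nat_lit 3) (nat_lit 0x30000a0005000600000001000080000000000000000000000000000000) (nat_lit 0x0) (nat_lit 0x10000c00050000000000000000000000000000000000000000000000000000) := T_36 (nat_lit 208) (nat_lit 210) (nat_lit 3) (nat_lit 4) (nat_lit 12) L76831 (by decide +kernel)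
theorem L76833 : W_36 (nat_lit 4) (nat_lit 0x10000a0005000600000001000080000000000000000000000000000000) (nat_lit 0x0) (nat_lit 0x50002c00050000000000000000000000000000000000000000000000000000) := T_36 (nat_lit 229) (nat_lit 246) (nat_lit 7) (nat_lit 7) (nat_lit 10) L76832 (by decide +kernel)
theorem L76834 : W_36 (nat_lit 2) (nat_lit 0x100008001c001a0005800600000001000080000000000000000000000000000000) (nat_lit 0x0) (nat_lit 0x1000080004000000000000000000000000000000000000000000000000000000000000) := D_36 (nat_lit 259) (nat_lit 242) (nat_lit 276) (nat_lit 5) (nat_lit 5) (nat_lit 11) (nat_lit 5) (nat_lit 5) (nat_lit 12) (by decide +kernel)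
theorem L76835 : W_36 (nat_lit 3) (nat_lit 0x8001c001a0005800600000001000080000000000000000000000000000000) (nat_lit 0x0) (nat_lit 0x1000180004000000010000000000000000000000000000000000000000000000000000) := T_36 (nat_lit 260) (nat_lit 208) (nat_lit 4) (nat_lit 5) (nat_lit 15) L76834 (by decide +kernel)
theorem L76836 : W_36 (nat_lit 4) (nat_lit 0x1c001a0005800600000001000080000000000000000000000000000000) (nat_lit 0x0) (nat_lit 0x100018000c000000010000000040000000000000000000000000000000000000000000) := T_36 (nat_lit 243) (nat_lit 174) (nat_lit 4) (nat_lit 5) (nat_lit 14) L76835 (by decide +kernel)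
theorem L76837 : W_36 (nat_lit 5) (nat_lit 0x18001a0005800600000001000080000000000000000000000000000000) (nat_lit 0x0) (nat_lit 0x100018000c000600010000000040000000000000000000000000000000000000000000) := T_36 (nat_lit 226) (nat_lit 225) (nat_lit 2) (nat_lit 4) (nat_lit 13) L76836 (by decide +kernel)
theorem L76838 : W_36 (nat_lit 6) (nat_lit 0x18000a0005800600000001000080000000000000000000000000000000) (nat_lit 0x0) (nat_lit 0x100018000c000600150000000040000000000000000000000000000000000000000000) := T_36 (nat_lit 212) (nat_lit 210) (nat_lit 0) (nat_lit 8) (nat_lit 12) L76837 (by decide +kernel)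
theorem L76839 : W_36 (nat_lit 7) (nat_lit 0x18000a0005000600000001000080000000000000000000000000000000) (nat_lit 0x0) (nat_lit 0x100018000c000600150002800040000000000000000000000000000000000000000000) := T_36 (nat_lit 191) (nat_lit 193) (nat_lit 2) (nat_lit 4) (nat_lit 11) L76838 (by decide +kernel)
theorem L76840 : W_36 (nat_lit 8) (nat_lit 0x10000a0005000600000001000080000000000000000000000000000000) (nat_lit 0x0) (nat_lit 0x100018001c000e00150002800040000000000000000000000000000000000000000000) := T_36 (nat_lit 227) (nat_lit 244) (nat_lit 5) (nat_lit 7) (nat_lit 10) L76839 (by decide +kernel)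
theorem L76841 : W_36 (nat_lit 2) (nat_lit 0x3c000a0005800600000001000080000000000000000000000000000000) (nat_lit 0x0) (nat_lit 0xc000000000000000040000000000000000000000000000000000000000000) := D_36 (nat_lit 243) (nat_lit 242) (nat_lit 174) (nat_lit 1) (nat_lit 8) (nat_lit 13) (nat_lit 4) (nat_lit 5) (nat_lit 14) (by decide +kernel)
theorem L76842 : W_36 (nat_lit 3) (nat_lit 0x38000a0005800600000001000080000000000000000000000000000000) (nat_lit 0x0) (nat_lit 0xc000400010000000040000000000000000000000000000000000000000000) := T_36 (nat_lit 226) (nat_lit 208) (nat_lit 0) (nat_lit 8) (nat_lit 13) L76841 (by decide +kernel)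
theorem L76843 : W_36 (nat_lit 4) (nat_lit 0x30000a0005800600000001000080000000000000000000000000000000) (nat_lit 0x0) (nat_lit 0x1c000c00010000000040000000000000000000000000000000000000000000) := T_36 (nat_lit 227) (nat_lit 244) (nat_lit 5) (nat_lit 7) (nat_lit 10) L76842 (by decide +kernel)
theorem L76844 : W_36 (nat_lit 5) (nat_lit 0x10000a0005800600000001000080000000000000000000000000000000) (nat_lit 0x0) (nat_lit 0x5c002c00010000000040000000000000000000000000000000000000000000) := T_36 (nat_lit 229) (nat_lit 246) (nat_lit 7) (nat_lit 7) (nat_lit 10) L76843 (by decide +kernel)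
theorem L76845 : W_36 (nat_lit 6) (nat_lit 0x10000a0005000600000001000080000000000000000000000000000000) (nat_lit 0x0) (nat_lit 0x5c002c00010002800040000000000000000000000000000000000000000000) := T_36 (nat_lit 191) (nat_lit 193) (nat_lit 2) (nat_lit 4) (nat_lit 11) L76844 (by decide +kernel)
theorem L76846 : W_36 (nat_lit 2) (nat_lit 0x18000e0005800600000001000080000000000000000000000000000000) (nat_lit 0x0) (nat_lit 0x40006000000000000000000000000000000000000000000000000000000000) := D_36 (nat_lit 229) (nat_lit 246) (nat_lit 230) (nat_lit 7) (nat_lit 7) (nat_lit 10) (nat_lit 0) (nat_lit 9) (nat_lit 13) (by decide +kernel)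
theorem L76847 : W_36 (nat_lit 3) (nat_lit 0x18000a0005800600000001000080000000000000000000000000000000) (nat_lit 0x0) (nat_lit 0x40006000140000000000000000000000000000000000000000000000000000) := T_36 (nat_lit 210) (nat_lit 212) (nat_lit 0) (nat_lit 8) (nat_lit 12) L76846 (by decide +kernel)
theorem L76848 : W_36 (nat_lit 4) (nat_lit 0x18000a0005000600000001000080000000000000000000000000000000) (nat_lit 0x0) (nat_lit 0x40006000140002800000000000000000000000000000000000000000000000) := T_36 (nat_lit 191) (nat_lit 193) (nat_lit 2) (nat_lit 4) (nat_lit 11) L76847 (by decide +kernel)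
theorem L76849 : W_36 (nat_lit 5) (nat_lit 0x10000a0005000600000001000080000000000000000000000000000000) (nat_lit 0x0) (nat_lit 0x50006800140002800000000000000000000000000000000000000000000000) := T_36 (nat_lit 227) (nat_lit 244) (nat_lit 5) (nat_lit 7) (nat_lit 10) L76848 (by decide +kernel)
theorem L76850 : W_36 (nat_lit 2) (nat_lit 0x30000b0005000600000001000080000000000000000000000000000000) (nat_lit 0x0) (nat_lit 0xa800000000000000000000000000000000000000000000000) := D_36 (nat_lit 193) (nat_lit 195) (nat_lit 191) (nat_lit 1) (nat_lit 8) (nat_lit 11) (nat_lit 2) (nat_lit 4) (nat_lit 11) (by decide +kernel)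
theorem L76851 : W_36 (nat_lit 3) (nat_lit 0x30000a0005000600000001000080000000000000000000000000000000) (nat_lit 0x0) (nat_lit 0x5000a800000000000000000000000000000000000000000000000) := T_36 (nat_lit 208) (nat_lit 210) (nat_lit 3) (nat_lit 4) (nat_lit 12) L76850 (by decide +kernel)
theorem L76852 : W_36 (nat_lit 4) (nat_lit 0x10000a0005000600000001000080000000000000000000000000000000) (nat_lit 0x0) (nat_lit 0x4000200005000a800000000000000000000000000000000000000000000000) := T_36 (nat_lit 229) (nat_lit 246) (nat_lit 7) (nat_lit 7) (nat_lit 10) L76851 (by decide +kernel)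
theorem L76853 : W_36 (nat_lit 9) (nat_lit 0x1000080005000600000001000080000000000000000000000000000000) (nat_lit 0x0) (nat_lit 0x100018005c006e0017000a800040000000000000000000000000000000000000000000) := Q_36 (nat_lit 209) (C_36 L76833 (C_36 L76840 (C_36 L76845 (C_36 L76849 (C_36 L76852 N_36))))) (by decide +kernel)
theorem L76854 : W_36 (nat_lit 10) (nat_lit 0x80005000600000001000080000000000000000000000000000000) (nat_lit 0x0) (nat_lit 0x15000f8007c007e0017000a800040000000000000000000000000000000000000000000) := Q_36 (nat_lit 228) (C_36 L76829 (C_36 L76732 (C_36 L76780 (C_36 L76853 (C_36 L76695 N_36))))) (by decide +kernel)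
theorem L76855 : W_36 (nat_lit 2) (nat_lit 0xe0005800600000001000080000000000000000000000000000000) (nat_lit 0x0) (nat_lit 0x10000600000000000000000000000000000000000000000000000) := D_36 (nat_lit 190) (nat_lit 208) (nat_lit 189) (nat_lit 0) (nat_lit 7) (nat_lit 12) (nat_lit 3) (nat_lit 2) (nat_lit 11) (by decide +kernel)
theorem L76856 : W_36 (nat_lit 2) (nat_lit 0x1e0005000600000001000080000000000000000000000000000000) (nat_lit 0x0) (nat_lit 0x10018000000000000000000000000000000000000000000000000) := D_36 (nat_lit 195) (nat_lit 208) (nat_lit 196) (nat_lit 2) (nat_lit 4) (nat_lit 12) (nat_lit 2) (nat_lit 5) (nat_lit 12) (by decide +kernel)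
theorem L76857 : W_36 (nat_lit 3) (nat_lit 0xe0005000600000001000080000000000000000000000000000000) (nat_lit 0x0) (nat_lit 0x110018800000000000000000000000000000000000000000000000) := T_36 (nat_lit 212) (nat_lit 191) (nat_lit 0) (nat_lit 8) (nat_lit 12) L76856 (by decide +kernel)
theorem L76858 : W_36 (nat_lit 2) (nat_lit 0x2c001e0005000600000001000080000000000000000000000000000000) (nat_lit 0x0) (nat_lit 0x200010000000000000000080000000000000000000000000000000000000000000) := D_36 (nat_lit 244) (nat_lit 261) (nat_lit 175) (nat_lit 6) (nat_lit 6) (nat_lit 15) (nat_lit 7) (nat_lit 5) (nat_lit 10) (by decide +kernel)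
theorem L76859 : W_36 (nat_lit 3) (nat_lit 0x24001e0005000600000001000080000000000000000000000000000000) (nat_lit 0x0) (nat_lit 0x200010000800200000000080000000000000000000000000000000000000000000) := T_36 (nat_lit 227) (nat_lit 213) (nat_lit 1) (nat_lit 9) (nat_lit 12) L76858 (by decide +kernel)
theorem L76860 : W_36 (nat_lit 4) (nat_lit 0x4001e0005000600000001000080000000000000000000000000000000) (nat_lit 0x0) (nat_lit 0x200010006800200000000080000000000000000000000000000000000000000000) := T_36 (nat_lit 229) (nat_lit 230) (nat_lit 3) (nat_lit 5) (nat_lit 12) L76859 (by decide +kernel)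
theorem L76861 : W_36 (nat_lit 5) (nat_lit 0x1e0005000600000001000080000000000000000000000000000000) (nat_lit 0x0) (nat_lit 0x200010006e00200000000080000000000000000000000000000000000000000000) := T_36 (nat_lit 226) (nat_lit 225) (nat_lit 1) (nat_lit 8) (nat_lit 12) L76860 (by decide +kernel)
theorem L76862 : W_36 (nat_lit 6) (nat_lit 0xe0005000600000001000080000000000000000000000000000000) (nat_lit 0x0) (nat_lit 0x200010006e00300000800080000000000000000000000000000000000000000000) := T_36 (nat_lit 212) (nat_lit 191) (nat_lit 0) (nat_lit 8) (nat_lit 12) L76861 (by decide +kernel)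
theorem L76863 : W_36 (nat_lit 2) (nat_lit 0x2000f0005800600000001000080000000000000000000000000000000) (nat_lit 0x0) (nat_lit 0x80004000000000000000080000000000000000000000000000000000000000000) := D_36 (nat_lit 242) (nat_lit 259) (nat_lit 175) (nat_lit 6) (nat_lit 4) (nat_lit 15) (nat_lit 6) (nat_lit 4) (nat_lit 14) (by decide +kernel)
theorem L76864 : W_36 (nat_lit 3) (nat_lit 0x2000f0005000600000001000080000000000000000000000000000000) (nat_lit 0x0) (nat_lit 0x80004000000000000c00080000000000000000000000000000000000000000000) := T_36 (nat_lit 191) (nat_lit 190) (nat_lit 0) (nat_lit 7) (nat_lit 12) L76863 (by decide +kernel)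
theorem L76865 : W_36 (nat_lit 4) (nat_lit 0xf0005000600000001000080000000000000000000000000000000) (nat_lit 0x0) (nat_lit 0x80004000300000000c00080000000000000000000000000000000000000000000) := T_36 (nat_lit 225) (nat_lit 224) (nat_lit 1) (nat_lit 7) (nat_lit 12) L76864 (by decide +kernel)
theorem L76866 : W_36 (nat_lit 5) (nat_lit 0xe0005000600000001000080000000000000000000000000000000) (nat_lit 0x0) (nat_lit 0x80004000300010008c00080000000000000000000000000000000000000000000) := T_36 (nat_lit 208) (nat_lit 195) (nat_lit 2) (nat_lit 4) (nat_lit 12) L76865 (by decide +kernel)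
theorem L76867 : W_36 (nat_lit 2) (nat_lit 0x6000f0005000600000001000080000000000000000000000000000000) (nat_lit 0x0) (nat_lit 0x80004000000000000000080000000000000000000000000000000000000000000) := D_36 (nat_lit 242) (nat_lit 259) (nat_lit 175) (nat_lit 6) (nat_lit 4) (nat_lit 15) (nat_lit 5) (nat_lit 5) (nat_lit 10) (by decide +kernel)
theorem L76868 : W_36 (nat_lit 3) (nat_lit 0x2000f0005000600000001000080000000000000000000000000000000) (nat_lit 0x0) (nat_lit 0x80004000400100000000080000000000000000000000000000000000000000000) := T_36 (nat_lit 226) (nat_lit 212) (nat_lit 1) (nat_lit 8) (nat_lit 12) L76867 (by decide +kernel)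
theorem L76869 : W_36 (nat_lit 4) (nat_lit 0xf0005000600000001000080000000000000000000000000000000) (nat_lit 0x0) (nat_lit 0x80004000700100000000080000000000000000000000000000000000000000000) := T_36 (nat_lit 225) (nat_lit 224) (nat_lit 1) (nat_lit 7) (nat_lit 12) L76868 (by decide +kernel)
theorem L76870 : W_36 (nat_lit 5) (nat_lit 0xe0005000600000001000080000000000000000000000000000000) (nat_lit 0x0) (nat_lit 0x80004000700110008000080000000000000000000000000000000000000000000) := T_36 (nat_lit 208) (nat_lit 195) (nat_lit 2) (nat_lit 4) (nat_lit 12) L76869 (by decide +kernel)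
theorem L76871 : W_36 (nat_lit 2) (nat_lit 0xf8005000600000001000080000000000000000000000000000000) (nat_lit 0x0) (nat_lit 0x380000000000000000000000000000000000000000000000000000000) := D_36 (nat_lit 224) (nat_lit 223) (nat_lit 225) (nat_lit 1) (nat_lit 6) (nat_lit 12) (nat_lit 1) (nat_lit 7) (nat_lit 12) (by decide +kernel)
theorem L76872 : W_36 (nat_lit 3) (nat_lit 0xf0005000600000001000080000000000000000000000000000000) (nat_lit 0x0) (nat_lit 0x380008002000000000000000000000000000000000000000000000000) := T_36 (nat_lit 207) (nat_lit 193) (nat_lit 2) (nat_lit 3) (nat_lit 12) L76871 (by decide +kernel)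
theorem L76873 : W_36 (nat_lit 4) (nat_lit 0xe0005000600000001000080000000000000000000000000000000) (nat_lit 0x0) (nat_lit 0x38001800a000000000000000000000000000000000000000000000000) := T_36 (nat_lit 208) (nat_lit 195) (nat_lit 2) (nat_lit 4) (nat_lit 12) L76872 (by decide +kernel)
theorem L76874 : W_36 (nat_lit 7) (nat_lit 0xa0005000600000001000080000000000000000000000000000000) (nat_lit 0x0) (nat_lit 0x280014006f00350018c00080000000000000000000000000000000000000000000) := Q_36 (nat_lit 210) (C_36 L76870 (C_36 L76857 (C_36 L76862 (C_36 L76866 N_36)))) (by decide +kernel)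
theorem L76875 : W_36 (nat_lit 3) (nat_lit 0xa0005800600000001000080000000000000000000000000000000) (nat_lit 0x0) (nat_lit 0x150000600000000000000000000000000000000000000000000000) := T_36 (nat_lit 210) (nat_lit 212) (nat_lit 0) (nat_lit 8) (nat_lit 12) L76855 (by decide +kernel)
theorem L76876 : W_36 (nat_lit 4) (nat_lit 0xa0005000600000001000080000000000000000000000000000000) (nat_lit 0x0) (nat_lit 0x150002e00000000000000000000000000000000000000000000000) := T_36 (nat_lit 191) (nat_lit 193) (nat_lit 2) (nat_lit 4) (nat_lit 11) L76875 (by decide +kernel)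
theorem L76877 : W_36 (nat_lit 2) (nat_lit 0xa003f000680000001000080000000000000000000000000000000) (nat_lit 0x0) (nat_lit 0xe00000000000000000000000000000000000000000000000000000) := D_36 (nat_lit 214) (nat_lit 213) (nat_lit 215) (nat_lit 3) (nat_lit 6) (nat_lit 11) (nat_lit 3) (nat_lit 7) (nat_lit 11) (by decide +kernel)
theorem L76878 : W_36 (nat_lit 3) (nat_lit 0xa001f000680000001000080000000000000000000000000000000) (nat_lit 0x0) (nat_lit 0xe00060000000000000000000000000000000000000000000000000) := T_36 (nat_lit 197) (nat_lit 198) (nat_lit 0) (nat_lit 11) (nat_lit 11) L76877 (by decide +kernel)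
theorem L76879 : W_36 (nat_lit 4) (nat_lit 0xa000f000680000001000080000000000000000000000000000000) (nat_lit 0x0) (nat_lit 0xe40070000000000000000000000000000000000000000000000000) := T_36 (nat_lit 196) (nat_lit 210) (nat_lit 1) (nat_lit 9) (nat_lit 11) L76878 (by decide +kernel)
theorem L76880 : W_36 (nat_lit 5) (nat_lit 0xa000f000600000001000080000000000000000000000000000000) (nat_lit 0x0) (nat_lit 0xe400700000c0000000000000000000000000000000000000000000) := T_36 (nat_lit 175) (nat_lit 174) (nat_lit 0) (nat_lit 8) (nat_lit 11) L76879 (by decide +kernel)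
theorem L76881 : W_36 (nat_lit 6) (nat_lit 0xa0007000600000001000080000000000000000000000000000000) (nat_lit 0x0) (nat_lit 0xe500780000c0000000000000000000000000000000000000000000) := T_36 (nat_lit 195) (nat_lit 208) (nat_lit 1) (nat_lit 8) (nat_lit 11) L76880 (by decide +kernel)
theorem L76882 : W_36 (nat_lit 7) (nat_lit 0xa0005000600000001000080000000000000000000000000000000) (nat_lit 0x0) (nat_lit 0xe5007a8000c0000000000000000000000000000000000000000000) := T_36 (nat_lit 193) (nat_lit 191) (nat_lit 2) (nat_lit 4) (nat_lit 11) L76881 (by decide +kernel)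
theorem L76883 : W_36 (nat_lit 2) (nat_lit 0x4000a000500068000e001000080000000000000000000000000000000) (nat_lit 0x0) (nat_lit 0x4000200010000000000000000000000000000000000000000000000000000) := D_36 (nat_lit 225) (nat_lit 208) (nat_lit 242) (nat_lit 5) (nat_lit 5) (nat_lit 9) (nat_lit 5) (nat_lit 5) (nat_lit 10) (by decide +kernel)
theorem L76884 : W_36 (nat_lit 3) (nat_lit 0xa000500068000e001000080000000000000000000000000000000) (nat_lit 0x0) (nat_lit 0x4000600010000000040000000000000000000000000000000000000000000) := T_36 (nat_lit 226) (nat_lit 174) (nat_lit 4) (nat_lit 5) (nat_lit 13) L76883 (by decide +kernel)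
theorem L76885 : W_36 (nat_lit 4) (nat_lit 0xa0005000680006001000080000000000000000000000000000000) (nat_lit 0x0) (nat_lit 0x4000600010000000040008000400000000000000000000000000000000000) := T_36 (nat_lit 159) (nat_lit 142) (nat_lit 6) (nat_lit 5) (nat_lit 12) L76884 (by decide +kernel)
theorem L76886 : W_36 (nat_lit 5) (nat_lit 0xa0005000680004001000080000000000000000000000000000000) (nat_lit 0x0) (nat_lit 0x400060001000000004000a000500000000000000000000000000000000000) := T_36 (nat_lit 157) (nat_lit 140) (nat_lit 4) (nat_lit 5) (nat_lit 12) L76885 (by decide +kernel)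
theorem L76887 : W_36 (nat_lit 2) (nat_lit 0xb0005000680004001200080000000000000000000000000000000) (nat_lit 0x0) (nat_lit 0x2000100008000000000000000000000000000000) := D_36 (nat_lit 140) (nat_lit 123) (nat_lit 157) (nat_lit 4) (nat_lit 5) (nat_lit 11) (nat_lit 4) (nat_lit 5) (nat_lit 12) (by decide +kernel)
theorem L76888 : W_36 (nat_lit 3) (nat_lit 0xb0005000680004001000080000000000000000000000000000000) (nat_lit 0x0) (nat_lit 0x800000002000300008000000000000000000000000000000) := T_36 (nat_lit 141) (nat_lit 191) (nat_lit 5) (nat_lit 5) (nat_lit 8) L76887 (by decide +kernel)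
theorem L76889 : W_36 (nat_lit 4) (nat_lit 0xa0005000680004001000080000000000000000000000000000000) (nat_lit 0x0) (nat_lit 0x200010000800000002000300008000000000000000000000000000000) := T_36 (nat_lit 208) (nat_lit 225) (nat_lit 5) (nat_lit 5) (nat_lit 9) L76888 (by decide +kernel)
theorem L76890 : W_36 (nat_lit 2) (nat_lit 0xb0005000680004001400080000000000000000000000000000000) (nat_lit 0x0) (nat_lit 0x800000000000200020000000000000000000000000000000) := D_36 (nat_lit 141) (nat_lit 191) (nat_lit 125) (nat_lit 5) (nat_lit 5) (nat_lit 8) (nat_lit 6) (nat_lit 5) (nat_lit 11) (by decide +kernel)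
theorem L76891 : W_36 (nat_lit 3) (nat_lit 0xa0005000680004001400080000000000000000000000000000000) (nat_lit 0x0) (nat_lit 0x200010000800000000000200020000000000000000000000000000000) := T_36 (nat_lit 208) (nat_lit 225) (nat_lit 5) (nat_lit 5) (nat_lit 9) L76890 (by decide +kernel)
theorem L76892 : W_36 (nat_lit 4) (nat_lit 0xa0005000680004001000080000000000000000000000000000000) (nat_lit 0x0) (nat_lit 0x200010000800000008000600020000000000000000000000000000000) := T_36 (nat_lit 142) (nat_lit 159) (nat_lit 6) (nat_lit 5) (nat_lit 12) L76891 (by decide +kernel)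
theorem L76893 : W_36 (nat_lit 2) (nat_lit 0x140004000a000500068000e001000080000000000000000000000000000000) (nat_lit 0x0) (nat_lit 0x280008000000000000000000000000000000000000000000000000000000000000) := D_36 (nat_lit 243) (nat_lit 259) (nat_lit 261) (nat_lit 5) (nat_lit 5) (nat_lit 11) (nat_lit 7) (nat_lit 5) (nat_lit 11) (by decide +kernel)
theorem L76894 : W_36 (nat_lit 3) (nat_lit 0x40004000a000500068000e001000080000000000000000000000000000000) (nat_lit 0x0) (nat_lit 0x280018000800000000000000000000000000000000000000000000000000000000) := T_36 (nat_lit 244) (nat_lit 227) (nat_lit 7) (nat_lit 5) (nat_lit 10) L76893 (by decide +kernel)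
theorem L76895 : W_36 (nat_lit 4) (nat_lit 0x4000a000500068000e001000080000000000000000000000000000000) (nat_lit 0x0) (nat_lit 0x28001c000a00000000000000000000000000000000000000000000000000000000) := T_36 (nat_lit 242) (nat_lit 225) (nat_lit 5) (nat_lit 5) (nat_lit 10) L76894 (by decide +kernel)
theorem L76896 : W_36 (nat_lit 5) (nat_lit 0xa000500068000e001000080000000000000000000000000000000) (nat_lit 0x0) (nat_lit 0x28001c000e00000000000040000000000000000000000000000000000000000000) := T_36 (nat_lit 226) (nat_lit 174) (nat_lit 4) (nat_lit 5) (nat_lit 13) L76895 (by decide +kernel)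
theorem L76897 : W_36 (nat_lit 6) (nat_lit 0xa0005000680006001000080000000000000000000000000000000) (nat_lit 0x0) (nat_lit 0x28001c000e00000000000040008000400000000000000000000000000000000000) := T_36 (nat_lit 159) (nat_lit 142) (nat_lit 6) (nat_lit 5) (nat_lit 12) L76896 (by decide +kernel)
theorem L76898 : W_36 (nat_lit 7) (nat_lit 0xa0005000680004001000080000000000000000000000000000000) (nat_lit 0x0) (nat_lit 0x28001c000e0000000000004000a000500000000000000000000000000000000000) := T_36 (nat_lit 157) (nat_lit 140) (nat_lit 4) (nat_lit 5) (nat_lit 12) L76897 (by decide +kernel)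
theorem L76899 : W_36 (nat_lit 2) (nat_lit 0xa0005000680006001400080000000000000000000000000000000) (nat_lit 0x0) (nat_lit 0xa00020000000000000000000000000000000) := D_36 (nat_lit 141) (nat_lit 125) (nat_lit 143) (nat_lit 6) (nat_lit 5) (nat_lit 11) (nat_lit 1) (nat_lit 8) (nat_lit 8) (by decide +kernel)
theorem L76900 : W_36 (nat_lit 3) (nat_lit 0xa0005000680006001000080000000000000000000000000000000) (nat_lit 0x0) (nat_lit 0x8000e00020000000000000000000000000000000) := T_36 (nat_lit 142) (nat_lit 159) (nat_lit 6) (nat_lit 5) (nat_lit 12) L76899 (by decide +kernel)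
theorem L76901 : W_36 (nat_lit 4) (nat_lit 0xa0005000680004001000080000000000000000000000000000000) (nat_lit 0x0) (nat_lit 0xa000f00020000000000000000000000000000000) := T_36 (nat_lit 157) (nat_lit 140) (nat_lit 4) (nat_lit 5) (nat_lit 12) L76900 (by decide +kernel)
theorem L76902 : W_36 (nat_lit 8) (nat_lit 0xa0005000680000001000080000000000000000000000000000000) (nat_lit 0x0) (nat_lit 0x28001c000e0001000080004000e000f00028000000000000000000000000000000) := Q_36 (nat_lit 158) (C_36 L76886 (C_36 L76889 (C_36 L76892 (C_36 L76898 (C_36 L76901 N_36))))) (by decide +kernel)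
theorem L76903 : W_36 (nat_lit 2) (nat_lit 0xa0007000680000001000080000000000000000000000000000000) (nat_lit 0x0) (nat_lit 0x10008000040000000000000000000000000000000000000000000) := D_36 (nat_lit 195) (nat_lit 208) (nat_lit 174) (nat_lit 1) (nat_lit 8) (nat_lit 11) (nat_lit 0) (nat_lit 8) (nat_lit 11) (by decide +kernel)
theorem L76904 : W_36 (nat_lit 3) (nat_lit 0xa0005000680000001000080000000000000000000000000000000) (nat_lit 0x0) (nat_lit 0x1000a800040000000000000000000000000000000000000000000) := T_36 (nat_lit 193) (nat_lit 191) (nat_lit 2) (nat_lit 4) (nat_lit 11) L76903 (by decide +kernel)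
theorem L76905 : W_36 (nat_lit 2) (nat_lit 0xb4007000680006001400080000000000000000000000000000000) (nat_lit 0x0) (nat_lit 0xa00020000000000000000000000000000000) := D_36 (nat_lit 141) (nat_lit 125) (nat_lit 143) (nat_lit 6) (nat_lit 5) (nat_lit 11) (nat_lit 1) (nat_lit 8) (nat_lit 8) (by decide +kernel)
theorem L76906 : W_36 (nat_lit 3) (nat_lit 0xb4007000680006001000080000000000000000000000000000000) (nat_lit 0x0) (nat_lit 0x8000e00020000000000000000000000000000000) := T_36 (nat_lit 142) (nat_lit 159) (nat_lit 6) (nat_lit 5) (nat_lit 12) L76905 (by decide +kernel)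
theorem L76907 : W_36 (nat_lit 4) (nat_lit 0xb4007000680004001000080000000000000000000000000000000) (nat_lit 0x0) (nat_lit 0xa000f00020000000000000000000000000000000) := T_36 (nat_lit 157) (nat_lit 140) (nat_lit 4) (nat_lit 5) (nat_lit 12) L76906 (by decide +kernel)
theorem L76908 : W_36 (nat_lit 5) (nat_lit 0xb4007000680000001000080000000000000000000000000000000) (nat_lit 0x0) (nat_lit 0x20000000000000000e000f00020000000000000000000000000000000) := T_36 (nat_lit 158) (nat_lit 225) (nat_lit 5) (nat_lit 5) (nat_lit 9) L76907 (by decide +kernel)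
theorem L76909 : W_36 (nat_lit 6) (nat_lit 0xb0007000680000001000080000000000000000000000000000000) (nat_lit 0x0) (nat_lit 0x20000c00000000000e000f00020000000000000000000000000000000) := T_36 (nat_lit 206) (nat_lit 207) (nat_lit 2) (nat_lit 2) (nat_lit 12) L76908 (by decide +kernel)
theorem L76910 : W_36 (nat_lit 7) (nat_lit 0xa0007000680000001000080000000000000000000000000000000) (nat_lit 0x0) (nat_lit 0x20001c00800000000e000f00020000000000000000000000000000000) := T_36 (nat_lit 208) (nat_lit 195) (nat_lit 1) (nat_lit 8) (nat_lit 11) L76909 (by decide +kernel)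
theorem L76911 : W_36 (nat_lit 8) (nat_lit 0xa0005000680000001000080000000000000000000000000000000) (nat_lit 0x0) (nat_lit 0x20001c00a80000000e000f00020000000000000000000000000000000) := T_36 (nat_lit 193) (nat_lit 191) (nat_lit 2) (nat_lit 4) (nat_lit 11) L76910 (by decide +kernel)
theorem L76912 : W_36 (nat_lit 2) (nat_lit 0x2000a0005000680006001000080000000000000000000000000000000) (nat_lit 0x0) (nat_lit 0x4000400000000000040000000000000000000000000000000000000000000) := D_36 (nat_lit 226) (nat_lit 174) (nat_lit 242) (nat_lit 4) (nat_lit 5) (nat_lit 13) (nat_lit 5) (nat_lit 5) (nat_lit 10) (by decide +kernel)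
theorem L76913 : W_36 (nat_lit 3) (nat_lit 0xa0005000680006001000080000000000000000000000000000000) (nat_lit 0x0) (nat_lit 0x4000600010000000040000000000000000000000000000000000000000000) := T_36 (nat_lit 225) (nat_lit 208) (nat_lit 5) (nat_lit 5) (nat_lit 9) L76912 (by decide +kernel)
theorem L76914 : W_36 (nat_lit 4) (nat_lit 0xa0005000680004001000080000000000000000000000000000000) (nat_lit 0x0) (nat_lit 0x4000600010000000040002000100000000000000000000000000000000000) := T_36 (nat_lit 157) (nat_lit 140) (nat_lit 4) (nat_lit 5) (nat_lit 12) L76913 (by decide +kernel)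
theorem L76915 : W_36 (nat_lit 2) (nat_lit 0xb000d000680004001600088000000000000000000000000000000) (nat_lit 0x0) (nat_lit 0x800110000000000000000000000000000000) := D_36 (nat_lit 143) (nat_lit 128) (nat_lit 124) (nat_lit 2) (nat_lit 5) (nat_lit 8) (nat_lit 0) (nat_lit 8) (nat_lit 8) (by decide +kernel)
theorem L76916 : W_36 (nat_lit 3) (nat_lit 0xb000d000680004001600080000000000000000000000000000000) (nat_lit 0x0) (nat_lit 0x900118000000000000000000000000000000) := T_36 (nat_lit 123) (nat_lit 140) (nat_lit 4) (nat_lit 5) (nat_lit 11) L76915 (by decide +kernel)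
theorem L76917 : W_36 (nat_lit 4) (nat_lit 0xb000d000680004001400080000000000000000000000000000000) (nat_lit 0x0) (nat_lit 0xb00138000000000000000000000000000000) := T_36 (nat_lit 141) (nat_lit 125) (nat_lit 6) (nat_lit 5) (nat_lit 11) L76916 (by decide +kernel)
theorem L76918 : W_36 (nat_lit 5) (nat_lit 0xb0005000680004001400080000000000000000000000000000000) (nat_lit 0x0) (nat_lit 0xa000000000000b00138000000000000000000000000000000) := T_36 (nat_lit 195) (nat_lit 193) (nat_lit 1) (nat_lit 8) (nat_lit 11) L76917 (by decide +kernel)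
theorem L76919 : W_36 (nat_lit 6) (nat_lit 0xa0005000680004001400080000000000000000000000000000000) (nat_lit 0x0) (nat_lit 0x20001000a000000000000b00138000000000000000000000000000000) := T_36 (nat_lit 208) (nat_lit 225) (nat_lit 5) (nat_lit 5) (nat_lit 9) L76918 (by decide +kernel)
theorem L76920 : W_36 (nat_lit 7) (nat_lit 0xa0005000680004001000080000000000000000000000000000000) (nat_lit 0x0) (nat_lit 0x20001000a000000008000f00138000000000000000000000000000000) := T_36 (nat_lit 142) (nat_lit 159) (nat_lit 6) (nat_lit 5) (nat_lit 12) L76919 (by decide +kernel)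
theorem L76921 : W_36 (nat_lit 2) (nat_lit 0xb000d000680004001600080000000000000000000000000000000) (nat_lit 0x0) (nat_lit 0x2000800100000000000000000000000000000000) := D_36 (nat_lit 143) (nat_lit 128) (nat_lit 157) (nat_lit 2) (nat_lit 5) (nat_lit 8) (nat_lit 1) (nat_lit 8) (nat_lit 8) (by decide +kernel)
theorem L76922 : W_36 (nat_lit 3) (nat_lit 0xb000d000680004001400080000000000000000000000000000000) (nat_lit 0x0) (nat_lit 0x2000a00120000000000000000000000000000000) := T_36 (nat_lit 141) (nat_lit 125) (nat_lit 6) (nat_lit 5) (nat_lit 11) L76921 (by decide +kernel)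
theorem L76923 : W_36 (nat_lit 4) (nat_lit 0xb000d000680004001000080000000000000000000000000000000) (nat_lit 0x0) (nat_lit 0xa000e00120000000000000000000000000000000) := T_36 (nat_lit 142) (nat_lit 159) (nat_lit 6) (nat_lit 5) (nat_lit 12) L76922 (by decide +kernel)
theorem L76924 : W_36 (nat_lit 5) (nat_lit 0xb0005000680004001000080000000000000000000000000000000) (nat_lit 0x0) (nat_lit 0xa00000000a000e00120000000000000000000000000000000) := T_36 (nat_lit 195) (nat_lit 193) (nat_lit 1) (nat_lit 8) (nat_lit 11) L76923 (by decide +kernel)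
theorem L76925 : W_36 (nat_lit 6) (nat_lit 0xa0005000680004001000080000000000000000000000000000000) (nat_lit 0x0) (nat_lit 0x20001000a00000000a000e00120000000000000000000000000000000) := T_36 (nat_lit 208) (nat_lit 225) (nat_lit 5) (nat_lit 5) (nat_lit 9) L76924 (by decide +kernel)
theorem L76926 : W_36 (nat_lit 8) (nat_lit 0xa0005000680000001000080000000000000000000000000000000) (nat_lit 0x0) (nat_lit 0x28001c000e0001000a00004000e000f00138000000000000000000000000000000) := Q_36 (nat_lit 158) (C_36 L76901 (C_36 L76898 (C_36 L76914 (C_36 L76920 (C_36 L76925 N_36))))) (by decide +kernel)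
theorem L76927 : W_36 (nat_lit 2) (nat_lit 0x140004000a00070006d0000001000080000000000000000000000000000000) (nat_lit 0x0) (nat_lit 0x280008000000000000000000000000000000000000000000000000000000000000) := D_36 (nat_lit 243) (nat_lit 259) (nat_lit 261) (nat_lit 5) (nat_lit 5) (nat_lit 11) (nat_lit 7) (nat_lit 5) (nat_lit 11) (by decide +kernel)
theorem L76928 : W_36 (nat_lit 3) (nat_lit 0x40004000a00070006d0000001000080000000000000000000000000000000) (nat_lit 0x0) (nat_lit 0x280018000800000000000000000000000000000000000000000000000000000000) := T_36 (nat_lit 244) (nat_lit 227) (nat_lit 7) (nat_lit 5) (nat_lit 10) L76927 (by decide +kernel)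
theorem L76929 : W_36 (nat_lit 4) (nat_lit 0x4000a00070006d0000001000080000000000000000000000000000000) (nat_lit 0x0) (nat_lit 0x28001c000a00000000000000000000000000000000000000000000000000000000) := T_36 (nat_lit 242) (nat_lit 225) (nat_lit 5) (nat_lit 5) (nat_lit 10) L76928 (by decide +kernel)
theorem L76930 : W_36 (nat_lit 5) (nat_lit 0xa00070006d0000001000080000000000000000000000000000000) (nat_lit 0x0) (nat_lit 0x28001c000e00000000000000002000000000000000000000000000000000000000) := T_36 (nat_lit 226) (nat_lit 157) (nat_lit 4) (nat_lit 5) (nat_lit 13) L76929 (by decide +kernel)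
theorem L76931 : W_36 (nat_lit 6) (nat_lit 0xa00070006c0000001000080000000000000000000000000000000) (nat_lit 0x0) (nat_lit 0x28001c000e00000000000030002000000000000000000000000000000000000000) := T_36 (nat_lit 172) (nat_lit 173) (nat_lit 3) (nat_lit 2) (nat_lit 10) L76930 (by decide +kernel)
theorem L76932 : W_36 (nat_lit 7) (nat_lit 0xa0007000680000001000080000000000000000000000000000000) (nat_lit 0x0) (nat_lit 0x28001c000e00000008000070002000000000000000000000000000000000000000) := T_36 (nat_lit 174) (nat_lit 195) (nat_lit 0) (nat_lit 8) (nat_lit 11) L76931 (by decide +kernel)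
theorem L76933 : W_36 (nat_lit 8) (nat_lit 0xa0005000680000001000080000000000000000000000000000000) (nat_lit 0x0) (nat_lit 0x28001c000e0000000a800070002000000000000000000000000000000000000000) := T_36 (nat_lit 193) (nat_lit 191) (nat_lit 2) (nat_lit 4) (nat_lit 11) L76932 (by decide +kernel)
theorem L76934 : W_36 (nat_lit 9) (nat_lit 0xa0005000600000001000080000000000000000000000000000000) (nat_lit 0x0) (nat_lit 0x28001c000e0001c00a8000f000e000f00138000000000000000000000000000000) := Q_36 (nat_lit 175) (C_36 L76902 (C_36 L76904 (C_36 L76911 (C_36 L76926 (C_36 L76933 N_36))))) (by decide +kernel)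
theorem L76935 : W_36 (nat_lit 2) (nat_lit 0x800f8005200600000001000080000000000000000000000000000000) (nat_lit 0x0) (nat_lit 0x40004000100000000000000000000000000000000000000000000000) := D_36 (nat_lit 206) (nat_lit 222) (nat_lit 188) (nat_lit 1) (nat_lit 5) (nat_lit 12) (nat_lit 0) (nat_lit 5) (nat_lit 12) (by decide +kernel)
theorem L76936 : W_36 (nat_lit 3) (nat_lit 0x800f8005000600000001000080000000000000000000000000000000) (nat_lit 0x0) (nat_lit 0x40004000700000000000000000000000000000000000000000000000) := T_36 (nat_lit 189) (nat_lit 190) (nat_lit 0) (nat_lit 6) (nat_lit 12) L76935 (by decide +kernel)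
theorem L76937 : W_36 (nat_lit 4) (nat_lit 0xf8005000600000001000080000000000000000000000000000000) (nat_lit 0x0) (nat_lit 0x1c0004000700000000000000000000000000000000000000000000000) := T_36 (nat_lit 223) (nat_lit 224) (nat_lit 1) (nat_lit 6) (nat_lit 12) L76936 (by decide +kernel)
theorem L76938 : W_36 (nat_lit 5) (nat_lit 0xf0005000600000001000080000000000000000000000000000000) (nat_lit 0x0) (nat_lit 0x1c000c002700000000000000000000000000000000000000000000000) := T_36 (nat_lit 207) (nat_lit 193) (nat_lit 2) (nat_lit 3) (nat_lit 12) L76937 (by decide +kernel)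
theorem L76939 : W_36 (nat_lit 2) (nat_lit 0x4800fc005200600000001000080000000000000000000000000000000) (nat_lit 0x0) (nat_lit 0x200102000000000000000000000000000000000000000000000000000) := D_36 (nat_lit 225) (nat_lit 205) (nat_lit 212) (nat_lit 3) (nat_lit 1) (nat_lit 12) (nat_lit 1) (nat_lit 8) (nat_lit 12) (by decide +kernel)
theorem L76940 : W_36 (nat_lit 3) (nat_lit 0x800fc005200600000001000080000000000000000000000000000000) (nat_lit 0x0) (nat_lit 0xe00102000000000000000000000000000000000000000000000000000) := T_36 (nat_lit 226) (nat_lit 227) (nat_lit 3) (nat_lit 2) (nat_lit 12) L76939 (by decide +kernel)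
theorem L76941 : W_36 (nat_lit 4) (nat_lit 0xfc005200600000001000080000000000000000000000000000000) (nat_lit 0x0) (nat_lit 0xec0102000000000000000000000000000000000000000000000000000) := T_36 (nat_lit 223) (nat_lit 222) (nat_lit 1) (nat_lit 5) (nat_lit 12) L76940 (by decide +kernel)
theorem L76942 : W_36 (nat_lit 5) (nat_lit 0xf8005200600000001000080000000000000000000000000000000) (nat_lit 0x0) (nat_lit 0xec0106000100000000000000000000000000000000000000000000000) := T_36 (nat_lit 206) (nat_lit 188) (nat_lit 0) (nat_lit 5) (nat_lit 12) L76941 (by decide +kernel)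
theorem L76943 : W_36 (nat_lit 6) (nat_lit 0xf8005000600000001000080000000000000000000000000000000) (nat_lit 0x0) (nat_lit 0xec0106000700000000000000000000000000000000000000000000000) := T_36 (nat_lit 189) (nat_lit 190) (nat_lit 0) (nat_lit 6) (nat_lit 12) L76942 (by decide +kernel)
theorem L76944 : W_36 (nat_lit 7) (nat_lit 0xf0005000600000001000080000000000000000000000000000000) (nat_lit 0x0) (nat_lit 0xec010e002700000000000000000000000000000000000000000000000) := T_36 (nat_lit 207) (nat_lit 193) (nat_lit 2) (nat_lit 3) (nat_lit 12) L76943 (by decide +kernel)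
theorem L76945 : W_36 (nat_lit 8) (nat_lit 0xe0005000600000001000080000000000000000000000000000000) (nat_lit 0x0) (nat_lit 0x80004000fc011e002700080000000000000000000000000000000000000000000) := Q_36 (nat_lit 208) (C_36 L76872 (C_36 L76869 (C_36 L76938 (C_36 L76944 N_36)))) (by decide +kernel)
theorem L76946 : W_36 (nat_lit 2) (nat_lit 0x3e0005000600000001000080000000000000000000000000000000) (nat_lit 0x0) (nat_lit 0xe000000000000000000000000000000000000000000000000000000000) := D_36 (nat_lit 230) (nat_lit 229) (nat_lit 231) (nat_lit 3) (nat_lit 5) (nat_lit 12) (nat_lit 3) (nat_lit 6) (nat_lit 12) (by decide +kernel)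
theorem L76947 : W_36 (nat_lit 3) (nat_lit 0x1e0005000600000001000080000000000000000000000000000000) (nat_lit 0x0) (nat_lit 0xe000200002000000000000000000000000000000000000000000000000) := T_36 (nat_lit 213) (nat_lit 193) (nat_lit 0) (nat_lit 9) (nat_lit 12) L76946 (by decide +kernel)
theorem L76948 : W_36 (nat_lit 2) (nat_lit 0x20001e0005000600000001000080000000000000000000000000000000) (nat_lit 0x0) (nat_lit 0x40000000000018000000000000000000000000000000000000000000000000) := D_36 (nat_lit 195) (nat_lit 196) (nat_lit 246) (nat_lit 2) (nat_lit 5) (nat_lit 12) (nat_lit 4) (nat_lit 8) (nat_lit 14) (by decide +kernel)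
theorem L76949 : W_36 (nat_lit 3) (nat_lit 0x1e0005000600000001000080000000000000000000000000000000) (nat_lit 0x0) (nat_lit 0x40006000000018000000000000000000000000000000000000000000000000) := T_36 (nat_lit 229) (nat_lit 230) (nat_lit 3) (nat_lit 5) (nat_lit 12) L76948 (by decide +kernel)
theorem L76950 : W_36 (nat_lit 2) (nat_lit 0x100004001e000f000680000001000080000000000000000000000000000000) (nat_lit 0x0) (nat_lit 0x300008000000000000000000000000000000000000000000000000000000000000) := D_36 (nat_lit 243) (nat_lit 261) (nat_lit 260) (nat_lit 7) (nat_lit 5) (nat_lit 11) (nat_lit 6) (nat_lit 5) (nat_lit 15) (by decide +kernel)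
theorem L76951 : W_36 (nat_lit 3) (nat_lit 0x100000001e000f000680000001000080000000000000000000000000000000) (nat_lit 0x0) (nat_lit 0x300008000600000000000000000000000000000000000000000000000000000000) := T_36 (nat_lit 226) (nat_lit 225) (nat_lit 1) (nat_lit 8) (nat_lit 12) L76950 (by decide +kernel)
theorem L76952 : W_36 (nat_lit 4) (nat_lit 0x100000001e000f000600000001000080000000000000000000000000000000) (nat_lit 0x0) (nat_lit 0x3000080006000000000000c0000000000000000000000000000000000000000000) := T_36 (nat_lit 175) (nat_lit 174) (nat_lit 0) (nat_lit 8) (nat_lit 11) L76951 (by decide +kernel)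
theorem L76953 : W_36 (nat_lit 5) (nat_lit 0x1e000f000600000001000080000000000000000000000000000000) (nat_lit 0x0) (nat_lit 0x300018000e000000000000c0000000000000000000000000000000000000000000) := T_36 (nat_lit 244) (nat_lit 227) (nat_lit 6) (nat_lit 6) (nat_lit 14) L76952 (by decide +kernel)
theorem L76954 : W_36 (nat_lit 6) (nat_lit 0x1e000d000600000001000080000000000000000000000000000000) (nat_lit 0x0) (nat_lit 0x300018000e002000020000c0000000000000000000000000000000000000000000) := T_36 (nat_lit 193) (nat_lit 213) (nat_lit 3) (nat_lit 5) (nat_lit 11) L76953 (by decide +kernel)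
theorem L76955 : W_36 (nat_lit 7) (nat_lit 0x1e0005000600000001000080000000000000000000000000000000) (nat_lit 0x0) (nat_lit 0x300018000e0020001a0000c0000000000000000000000000000000000000000000) := T_36 (nat_lit 195) (nat_lit 196) (nat_lit 2) (nat_lit 5) (nat_lit 12) L76954 (by decide +kernel)
theorem L76956 : W_36 (nat_lit 8) (nat_lit 0xe0005000600000001000080000000000000000000000000000000) (nat_lit 0x0) (nat_lit 0x30005800ee0030001a0000c0000000000000000000000000000000000000000000) := Q_36 (nat_lit 212) (C_36 L76861 (C_36 L76947 (C_36 L76949 (C_36 L76955 N_36)))) (by decide +kernel)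
theorem L76957 : W_36 (nat_lit 6) (nat_lit 0xe0005000600000001000080000000000000000000000000000000) (nat_lit 0x0) (nat_lit 0x1c001c00a700000000000000000000000000000000000000000000000) := T_36 (nat_lit 208) (nat_lit 195) (nat_lit 2) (nat_lit 4) (nat_lit 12) L76938 (by decide +kernel)
theorem L76958 : W_36 (nat_lit 9) (nat_lit 0xa0005000600000001000080000000000000000000000000000000) (nat_lit 0x0) (nat_lit 0x38005c00efc035e01a7000c0000000000000000000000000000000000000000000) := Q_36 (nat_lit 210) (C_36 L76870 (C_36 L76873 (C_36 L76945 (C_36 L76956 (C_36 L76957 N_36))))) (by decide +kernel)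
theorem L76959 : W_36 (nat_lit 4) (nat_lit 0x1a0005000600000001000080000000000000000000000000000000) (nat_lit 0x0) (nat_lit 0x40006000040018800000000000000000000000000000000000000000000000) := T_36 (nat_lit 210) (nat_lit 191) (nat_lit 0) (nat_lit 8) (nat_lit 12) L76949 (by decide +kernel)
theorem L76960 : W_36 (nat_lit 2) (nat_lit 0x1a0005000600000001000080000000000000000000000000000000) (nat_lit 0x0) (nat_lit 0x40002800000000000000000000000000000000000000000000000) := D_36 (nat_lit 191) (nat_lit 210) (nat_lit 193) (nat_lit 0) (nat_lit 8) (nat_lit 12) (nat_lit 3) (nat_lit 4) (nat_lit 11) (by decide +kernel)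
theorem L76961 : W_36 (nat_lit 2) (nat_lit 0x1a0007000600000001000080000000000000000000000000000000) (nat_lit 0x0) (nat_lit 0x600008000000000000000000000000000000000000000000000000) := D_36 (nat_lit 213) (nat_lit 214) (nat_lit 195) (nat_lit 0) (nat_lit 10) (nat_lit 12) (nat_lit 3) (nat_lit 5) (nat_lit 11) (by decide +kernel)
theorem L76962 : W_36 (nat_lit 3) (nat_lit 0x1a0005000600000001000080000000000000000000000000000000) (nat_lit 0x0) (nat_lit 0x60000a800000000000000000000000000000000000000000000000) := T_36 (nat_lit 193) (nat_lit 191) (nat_lit 3) (nat_lit 4) (nat_lit 11) L76961 (by decide +kernel)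
theorem L76963 : W_36 (nat_lit 8) (nat_lit 0x1a0005000600000001000080000000000000000000000000000000) (nat_lit 0x0) (nat_lit 0x30005800ee0024001a0000c0000000000000000000000000000000000000000000) := Q_36 (nat_lit 210) (C_36 L76955 (C_36 L76949 (C_36 L76947 N_36))) (by decide +kernel)
theorem L76964 : W_36 (nat_lit 9) (nat_lit 0xa0005000600000001000080000000000000000000000000000000) (nat_lit 0x0) (nat_lit 0x30005800ee0074001a8000c0000000000000000000000000000000000000000000) := Q_36 (nat_lit 212) (C_36 L76959 (C_36 L76960 (C_36 L76962 (C_36 L76963 N_36)))) (by decide +kernel)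
theorem L76965 : W_36 (nat_lit 10) (nat_lit 0x80005000600000001000080000000000000000000000000000000) (nat_lit 0x0) (nat_lit 0x38005c00efc0f7e07af000f000e000f00138000000000000000000000000000000) := Q_36 (nat_lit 209) (C_36 L76874 (C_36 L76876 (C_36 L76882 (C_36 L76934 (C_36 L76958 (C_36 L76964 N_36)))))) (by decide +kernel)
theorem L76967 : W_36 (nat_lit 3) (nat_lit 0x18000a000f000600000001000080000000000000000000000000000000) (nat_lit 0x0) (nat_lit 0x400100000c0004000000000000000000000000000000000000000) := T_36 (nat_lit 175) (nat_lit 174) (nat_lit 0) (nat_lit 8) (nat_lit 11) L76966 (by decide +kernel)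
theorem L76968 : W_36 (nat_lit 4) (nat_lit 0x18000a0007000600000001000080000000000000000000000000000000) (nat_lit 0x0) (nat_lit 0x500180000c0004000000000000000000000000000000000000000) := T_36 (nat_lit 195) (nat_lit 208) (nat_lit 1) (nat_lit 8) (nat_lit 11) L76967 (by decide +kernel)
theorem L76969 : W_36 (nat_lit 5) (nat_lit 0x10000a0007000600000001000080000000000000000000000000000000) (nat_lit 0x0) (nat_lit 0x100008000500180000c0004000000000000000000000000000000000000000) := T_36 (nat_lit 227) (nat_lit 244) (nat_lit 5) (nat_lit 7) (nat_lit 10) L76968 (by decide +kernel)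
theorem L76970 : W_36 (nat_lit 6) (nat_lit 0x10000a0005000600000001000080000000000000000000000000000000) (nat_lit 0x0) (nat_lit 0x1000080005001a8000c0004000000000000000000000000000000000000000) := T_36 (nat_lit 193) (nat_lit 191) (nat_lit 2) (nat_lit 4) (nat_lit 11) L76969 (by decide +kernel)
theorem L76971 : W_36 (nat_lit 2) (nat_lit 0x1000078004a0005800600000001000080000000000000000000000000000000) (nat_lit 0x0) (nat_lit 0x200008000800000000000000000000000000000000000000000000000000000) := D_36 (nat_lit 231) (nat_lit 215) (nat_lit 249) (nat_lit 2) (nat_lit 7) (nat_lit 13) (nat_lit 3) (nat_lit 7) (nat_lit 13) (by decide +kernel)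
theorem L76972 : W_36 (nat_lit 3) (nat_lit 0x78004a0005800600000001000080000000000000000000000000000000) (nat_lit 0x0) (nat_lit 0x380008000800000000000000000000000000000000000000000000000000000) := T_36 (nat_lit 248) (nat_lit 247) (nat_lit 3) (nat_lit 6) (nat_lit 13) L76971 (by decide +kernel)
theorem L76973 : W_36 (nat_lit 4) (nat_lit 0x78000a0005800600000001000080000000000000000000000000000000) (nat_lit 0x0) (nat_lit 0x380008000e00000000000000000000000000000000000000000000000000000) := T_36 (nat_lit 214) (nat_lit 213) (nat_lit 2) (nat_lit 6) (nat_lit 13) L76972 (by decide +kernel)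
theorem L76974 : W_36 (nat_lit 5) (nat_lit 0x78000a0005000600000001000080000000000000000000000000000000) (nat_lit 0x0) (nat_lit 0x380008000e00002800000000000000000000000000000000000000000000000) := T_36 (nat_lit 191) (nat_lit 193) (nat_lit 2) (nat_lit 4) (nat_lit 11) L76973 (by decide +kernel)
theorem L76975 : W_36 (nat_lit 6) (nat_lit 0x38000a0005000600000001000080000000000000000000000000000000) (nat_lit 0x0) (nat_lit 0x38000c000e40002800000000000000000000000000000000000000000000000) := T_36 (nat_lit 230) (nat_lit 210) (nat_lit 0) (nat_lit 9) (nat_lit 13) L76974 (by decide +kernel)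
theorem L76976 : W_36 (nat_lit 7) (nat_lit 0x18000a0005000600000001000080000000000000000000000000000000) (nat_lit 0x0) (nat_lit 0x3c000e000e40002800000000000000000000000000000000000000000000000) := T_36 (nat_lit 229) (nat_lit 246) (nat_lit 7) (nat_lit 7) (nat_lit 10) L76975 (by decide +kernel)
theorem L76977 : W_36 (nat_lit 8) (nat_lit 0x10000a0005000600000001000080000000000000000000000000000000) (nat_lit 0x0) (nat_lit 0x3d000e800e40002800000000000000000000000000000000000000000000000) := T_36 (nat_lit 227) (nat_lit 244) (nat_lit 5) (nat_lit 7) (nat_lit 10) L76976 (by decide +kernel)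
theorem L76978 : W_36 (nat_lit 9) (nat_lit 0x1000080005000600000001000080000000000000000000000000000000) (nat_lit 0x0) (nat_lit 0x3dc00ec00e7001a8000c0004000000000000000000000000000000000000000) := Q_36 (nat_lit 209) (C_36 L76833 (C_36 L76852 (C_36 L76970 (C_36 L76845 (C_36 L76977 N_36))))) (by decide +kernel)
theorem L76979 : W_36 (nat_lit 10) (nat_lit 0x80005000600000001000080000000000000000000000000000000) (nat_lit 0x0) (nat_lit 0x14000e003fc00fc00e7001a8000c0004000000000000000000000000000000000000000) := Q_36 (nat_lit 228) (C_36 L76732 (C_36 L76829 (C_36 L76780 (C_36 L76978 (C_36 L76695 N_36))))) (by decide +kernel)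
theorem L76980 : W_36 (nat_lit 2) (nat_lit 0x1c00180005800600000001000080000000000000000000000000000000) (nat_lit 0x0) (nat_lit 0x640000000000000000000000000000000000000000000000000000) := D_36 (nat_lit 213) (nat_lit 214) (nat_lit 210) (nat_lit 1) (nat_lit 10) (nat_lit 12) (nat_lit 1) (nat_lit 9) (nat_lit 12) (by decide +kernel)
theorem L76981 : W_36 (nat_lit 3) (nat_lit 0x1800180005800600000001000080000000000000000000000000000000) (nat_lit 0x0) (nat_lit 0x600640000000000000000000000000000000000000000000000000000) := T_36 (nat_lit 226) (nat_lit 225) (nat_lit 2) (nat_lit 4) (nat_lit 13) L76980 (by decide +kernel)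
theorem L76982 : W_36 (nat_lit 4) (nat_lit 0x1000180005800600000001000080000000000000000000000000000000) (nat_lit 0x0) (nat_lit 0x10000e00640000000000000000000000000000000000000000000000000000) := T_36 (nat_lit 227) (nat_lit 244) (nat_lit 5) (nat_lit 7) (nat_lit 10) L76981 (by decide +kernel)
theorem L76983 : W_36 (nat_lit 5) (nat_lit 0x1000180005000600000001000080000000000000000000000000000000) (nat_lit 0x0) (nat_lit 0x10000e00640002800000000000000000000000000000000000000000000000) := T_36 (nat_lit 191) (nat_lit 193) (nat_lit 3) (nat_lit 4) (nat_lit 11) L76982 (by decide +kernel)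
theorem L76984 : W_36 (nat_lit 2) (nat_lit 0x1c00180005000600000001000080000000000000000000000000000000) (nat_lit 0x0) (nat_lit 0x640000000000000000000000000000000000000000000000000000) := D_36 (nat_lit 213) (nat_lit 214) (nat_lit 210) (nat_lit 1) (nat_lit 10) (nat_lit 12) (nat_lit 1) (nat_lit 9) (nat_lit 12) (by decide +kernel)
theorem L76985 : W_36 (nat_lit 3) (nat_lit 0x1800180005000600000001000080000000000000000000000000000000) (nat_lit 0x0) (nat_lit 0x600640000000000000000000000000000000000000000000000000000) := T_36 (nat_lit 226) (nat_lit 225) (nat_lit 2) (nat_lit 4) (nat_lit 13) L76984 (by decide +kernel)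
theorem L76986 : W_36 (nat_lit 4) (nat_lit 0x1000180005000600000001000080000000000000000000000000000000) (nat_lit 0x0) (nat_lit 0x10000e00640000000000000000000000000000000000000000000000000000) := T_36 (nat_lit 227) (nat_lit 244) (nat_lit 5) (nat_lit 7) (nat_lit 10) L76985 (by decide +kernel)
theorem L76987 : W_36 (nat_lit 5) (nat_lit 0x1c00180005800600000001000080000000000000000000000000000000) (nat_lit 0x0) (nat_lit 0x100018000c000000070000000040000000000000000000000000000000000000000000) := T_36 (nat_lit 209) (nat_lit 210) (nat_lit 0) (nat_lit 8) (nat_lit 12) L76836 (by decide +kernel)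
theorem L76988 : W_36 (nat_lit 6) (nat_lit 0x1c00180005000600000001000080000000000000000000000000000000) (nat_lit 0x0) (nat_lit 0x100018000c000000070002800040000000000000000000000000000000000000000000) := T_36 (nat_lit 191) (nat_lit 193) (nat_lit 3) (nat_lit 4) (nat_lit 11) L76987 (by decide +kernel)
theorem L76989 : W_36 (nat_lit 7) (nat_lit 0x1800180005000600000001000080000000000000000000000000000000) (nat_lit 0x0) (nat_lit 0x100018000c000600070002800040000000000000000000000000000000000000000000) := T_36 (nat_lit 226) (nat_lit 225) (nat_lit 2) (nat_lit 4) (nat_lit 13) L76988 (by decide +kernel)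
theorem L76990 : W_36 (nat_lit 8) (nat_lit 0x1000180005000600000001000080000000000000000000000000000000) (nat_lit 0x0) (nat_lit 0x100018001c000e00070002800040000000000000000000000000000000000000000000) := T_36 (nat_lit 227) (nat_lit 244) (nat_lit 5) (nat_lit 7) (nat_lit 10) L76989 (by decide +kernel)
theorem L76991 : W_36 (nat_lit 2) (nat_lit 0x1000180007000600000001000080000000000000000000000000000000) (nat_lit 0x0) (nat_lit 0x600008000000000000000000000000000000000000000000000000) := D_36 (nat_lit 213) (nat_lit 214) (nat_lit 195) (nat_lit 0) (nat_lit 10) (nat_lit 12) (nat_lit 3) (nat_lit 5) (nat_lit 11) (by decide +kernel)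
theorem L76992 : W_36 (nat_lit 3) (nat_lit 0x1000180005000600000001000080000000000000000000000000000000) (nat_lit 0x0) (nat_lit 0x60000a800000000000000000000000000000000000000000000000) := T_36 (nat_lit 193) (nat_lit 191) (nat_lit 3) (nat_lit 4) (nat_lit 11) L76991 (by decide +kernel)
theorem L76993 : W_36 (nat_lit 9) (nat_lit 0x1000080005000600000001000080000000000000000000000000000000) (nat_lit 0x0) (nat_lit 0x100018001c000e0077000a800040000000000000000000000000000000000000000000) := Q_36 (nat_lit 212) (C_36 L76983 (C_36 L76986 (C_36 L76990 (C_36 L76992 N_36)))) (by decide +kernel)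
theorem L76994 : W_36 (nat_lit 2) (nat_lit 0x800020001000080007000600000001000080000000000000000000000000000000) (nat_lit 0x0) (nat_lit 0x10000400000000000040000000000000000000000000000000000000000000000000000) := D_36 (nat_lit 262) (nat_lit 210) (nat_lit 280) (nat_lit 4) (nat_lit 7) (nat_lit 15) (nat_lit 7) (nat_lit 7) (nat_lit 12) (by decide +kernel)
theorem L76995 : W_36 (nat_lit 3) (nat_lit 0x20001000080007000600000001000080000000000000000000000000000000) (nat_lit 0x0) (nat_lit 0x10000c00040000000040000000000000000000000000000000000000000000000000000) := T_36 (nat_lit 263) (nat_lit 246) (nat_lit 7) (nat_lit 7) (nat_lit 11) L76994 (by decide +kernel)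
theorem L76996 : W_36 (nat_lit 4) (nat_lit 0x20001000080005000600000001000080000000000000000000000000000000) (nat_lit 0x0) (nat_lit 0x10000c00040000000040002800000000000000000000000000000000000000000000000) := T_36 (nat_lit 193) (nat_lit 191) (nat_lit 2) (nat_lit 4) (nat_lit 11) L76995 (by decide +kernel)
theorem L76997 : W_36 (nat_lit 5) (nat_lit 0x1000080005000600000001000080000000000000000000000000000000) (nat_lit 0x0) (nat_lit 0x10000c0006000000004000a800000000000000000000000000000000000000000000000) := T_36 (nat_lit 245) (nat_lit 195) (nat_lit 6) (nat_lit 7) (nat_lit 14) L76996 (by decide +kernel)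
theorem L76998 : W_36 (nat_lit 10) (nat_lit 0x80005000600000001000080000000000000000000000000000000) (nat_lit 0x0) (nat_lit 0x11000f8007c001e0077000a800040000000000000000000000000000000000000000000) := Q_36 (nat_lit 228) (C_36 L76695 (C_36 L76780 (C_36 L76993 (C_36 L76997 N_36)))) (by decide +kernel)
theorem L76999 : W_36 (nat_lit 2) (nat_lit 0x8003c00180005800600000001000080000000000000000000000000000000) (nat_lit 0x0) (nat_lit 0x30000000040000000000000000000000000000000000000000000) := D_36 (nat_lit 209) (nat_lit 208) (nat_lit 174) (nat_lit 0) (nat_lit 8) (nat_lit 13) (nat_lit 4) (nat_lit 5) (nat_lit 14) (by decide +kernel)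
theorem L77000 : W_36 (nat_lit 3) (nat_lit 0x3c00180005800600000001000080000000000000000000000000000000) (nat_lit 0x0) (nat_lit 0xc000000030000000040000000000000000000000000000000000000000000) := T_36 (nat_lit 243) (nat_lit 242) (nat_lit 1) (nat_lit 8) (nat_lit 13) L76999 (by decide +kernel)
theorem L77001 : W_36 (nat_lit 4) (nat_lit 0x3800180005800600000001000080000000000000000000000000000000) (nat_lit 0x0) (nat_lit 0xc000600030000000040000000000000000000000000000000000000000000) := T_36 (nat_lit 226) (nat_lit 225) (nat_lit 2) (nat_lit 4) (nat_lit 13) L77000 (by decide +kernel)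
theorem L77002 : W_36 (nat_lit 5) (nat_lit 0x3000180005800600000001000080000000000000000000000000000000) (nat_lit 0x0) (nat_lit 0x1c000e00030000000040000000000000000000000000000000000000000000) := T_36 (nat_lit 227) (nat_lit 244) (nat_lit 5) (nat_lit 7) (nat_lit 10) L77001 (by decide +kernel)
theorem L77003 : W_36 (nat_lit 6) (nat_lit 0x3000180005000600000001000080000000000000000000000000000000) (nat_lit 0x0) (nat_lit 0x1c000e00030002800040000000000000000000000000000000000000000000) := T_36 (nat_lit 191) (nat_lit 193) (nat_lit 3) (nat_lit 4) (nat_lit 11) L77002 (by decide +kernel)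
theorem L77004 : W_36 (nat_lit 7) (nat_lit 0x1000180005000600000001000080000000000000000000000000000000) (nat_lit 0x0) (nat_lit 0x5c002e00030002800040000000000000000000000000000000000000000000) := T_36 (nat_lit 229) (nat_lit 246) (nat_lit 7) (nat_lit 7) (nat_lit 10) L77003 (by decide +kernel)
theorem L77005 : W_36 (nat_lit 8) (nat_lit 0x1000080005000600000001000080000000000000000000000000000000) (nat_lit 0x0) (nat_lit 0x5c002e0073000a800040000000000000000000000000000000000000000000) := Q_36 (nat_lit 212) (C_36 L76992 (C_36 L76744 (C_36 L77004 N_36))) (by decide +kernel)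
theorem L77006 : W_36 (nat_lit 9) (nat_lit 0x80005000600000001000080000000000000000000000000000000) (nat_lit 0x0) (nat_lit 0xa0007c003e0073000a800040000000000000000000000000000000000000000000) := Q_36 (nat_lit 228) (C_36 L76732 (C_36 L76693 (C_36 L76695 (C_36 L77005 N_36)))) (by decide +kernel)
theorem L77007 : W_36 (nat_lit 2) (nat_lit 0x3800280005000600000001000080000000000000000000000000000000) (nat_lit 0x0) (nat_lit 0x4000500000000000000000000000000000000000000000000000000000) := D_36 (nat_lit 214) (nat_lit 230) (nat_lit 212) (nat_lit 2) (nat_lit 6) (nat_lit 13) (nat_lit 1) (nat_lit 10) (nat_lit 12) (by decide +kernel)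
theorem L77008 : W_36 (nat_lit 3) (nat_lit 0x3000280005000600000001000080000000000000000000000000000000) (nat_lit 0x0) (nat_lit 0x10004800500000000000000000000000000000000000000000000000000000) := T_36 (nat_lit 227) (nat_lit 244) (nat_lit 5) (nat_lit 7) (nat_lit 10) L77007 (by decide +kernel)
theorem L77009 : W_36 (nat_lit 4) (nat_lit 0x1000280005000600000001000080000000000000000000000000000000) (nat_lit 0x0) (nat_lit 0x50006800500000000000000000000000000000000000000000000000000000) := T_36 (nat_lit 229) (nat_lit 246) (nat_lit 7) (nat_lit 7) (nat_lit 10) L77008 (by decide +kernel)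
theorem L77010 : W_36 (nat_lit 2) (nat_lit 0xf800280005800600000001000080000000000000000000000000000000) (nat_lit 0x0) (nat_lit 0x380000000000000000000000000000000000000000000000000000000000000) := D_36 (nat_lit 248) (nat_lit 247) (nat_lit 249) (nat_lit 3) (nat_lit 6) (nat_lit 13) (nat_lit 3) (nat_lit 7) (nat_lit 13) (by decide +kernel)
theorem L77011 : W_36 (nat_lit 3) (nat_lit 0x7800280005800600000001000080000000000000000000000000000000) (nat_lit 0x0) (nat_lit 0x380008000040000000000000000000000000000000000000000000000000000) := T_36 (nat_lit 231) (nat_lit 210) (nat_lit 0) (nat_lit 10) (nat_lit 13) L77010 (by decide +kernel)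
theorem L77012 : W_36 (nat_lit 4) (nat_lit 0x3800280005800600000001000080000000000000000000000000000000) (nat_lit 0x0) (nat_lit 0x38000c000440000000000000000000000000000000000000000000000000000) := T_36 (nat_lit 230) (nat_lit 214) (nat_lit 2) (nat_lit 6) (nat_lit 13) L77011 (by decide +kernel)
theorem L77013 : W_36 (nat_lit 5) (nat_lit 0x1800280005800600000001000080000000000000000000000000000000) (nat_lit 0x0) (nat_lit 0x3c000e000440000000000000000000000000000000000000000000000000000) := T_36 (nat_lit 229) (nat_lit 246) (nat_lit 7) (nat_lit 7) (nat_lit 10) L77012 (by decide +kernel)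
theorem L77014 : W_36 (nat_lit 6) (nat_lit 0x1800280005000600000001000080000000000000000000000000000000) (nat_lit 0x0) (nat_lit 0x3c000e000440002800000000000000000000000000000000000000000000000) := T_36 (nat_lit 191) (nat_lit 193) (nat_lit 2) (nat_lit 4) (nat_lit 11) L77013 (by decide +kernel)
theorem L77015 : W_36 (nat_lit 7) (nat_lit 0x1000280005000600000001000080000000000000000000000000000000) (nat_lit 0x0) (nat_lit 0x3d000e800440002800000000000000000000000000000000000000000000000) := T_36 (nat_lit 227) (nat_lit 244) (nat_lit 5) (nat_lit 7) (nat_lit 10) L77014 (by decide +kernel)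
theorem L77016 : W_36 (nat_lit 2) (nat_lit 0x1800380005000600000001000080000000000000000000000000000000) (nat_lit 0x0) (nat_lit 0x40002800000000000000000000000000000000000000000000000) := D_36 (nat_lit 193) (nat_lit 191) (nat_lit 210) (nat_lit 3) (nat_lit 4) (nat_lit 11) (nat_lit 0) (nat_lit 9) (nat_lit 12) (by decide +kernel)
theorem L77017 : W_36 (nat_lit 3) (nat_lit 0x1800280005000600000001000080000000000000000000000000000000) (nat_lit 0x0) (nat_lit 0x540002800000000000000000000000000000000000000000000000) := T_36 (nat_lit 212) (nat_lit 214) (nat_lit 1) (nat_lit 10) (nat_lit 12) L77016 (by decide +kernel)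
theorem L77018 : W_36 (nat_lit 4) (nat_lit 0x1000280005000600000001000080000000000000000000000000000000) (nat_lit 0x0) (nat_lit 0x10000800540002800000000000000000000000000000000000000000000000) := T_36 (nat_lit 227) (nat_lit 244) (nat_lit 5) (nat_lit 7) (nat_lit 10) L77017 (by decide +kernel)
theorem L77019 : W_36 (nat_lit 2) (nat_lit 0x4003e00280005800600000001000080000000000000000000000000000000) (nat_lit 0x0) (nat_lit 0x18000000080000000000000000000000000000000000000000000) := D_36 (nat_lit 208) (nat_lit 207) (nat_lit 175) (nat_lit 0) (nat_lit 7) (nat_lit 13) (nat_lit 6) (nat_lit 4) (nat_lit 14) (by decide +kernel)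
theorem L77020 : W_36 (nat_lit 3) (nat_lit 0x4003c00280005800600000001000080000000000000000000000000000000) (nat_lit 0x0) (nat_lit 0x2000200018000000080000000000000000000000000000000000000000000) := T_36 (nat_lit 225) (nat_lit 241) (nat_lit 1) (nat_lit 7) (nat_lit 13) L77019 (by decide +kernel)
theorem L77021 : W_36 (nat_lit 4) (nat_lit 0x3c00280005800600000001000080000000000000000000000000000000) (nat_lit 0x0) (nat_lit 0xe000200018000000080000000000000000000000000000000000000000000) := T_36 (nat_lit 242) (nat_lit 243) (nat_lit 1) (nat_lit 8) (nat_lit 13) L77020 (by decide +kernel)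
theorem L77022 : W_36 (nat_lit 5) (nat_lit 0x3800280005800600000001000080000000000000000000000000000000) (nat_lit 0x0) (nat_lit 0xe000600118000000080000000000000000000000000000000000000000000) := T_36 (nat_lit 226) (nat_lit 212) (nat_lit 2) (nat_lit 5) (nat_lit 13) L77021 (by decide +kernel)
theorem L77023 : W_36 (nat_lit 6) (nat_lit 0x3000280005800600000001000080000000000000000000000000000000) (nat_lit 0x0) (nat_lit 0x1e000e00118000000080000000000000000000000000000000000000000000) := T_36 (nat_lit 227) (nat_lit 244) (nat_lit 5) (nat_lit 7) (nat_lit 10) L77022 (by decide +kernel)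
theorem L77024 : W_36 (nat_lit 7) (nat_lit 0x1000280005800600000001000080000000000000000000000000000000) (nat_lit 0x0) (nat_lit 0x5e002e00118000000080000000000000000000000000000000000000000000) := T_36 (nat_lit 229) (nat_lit 246) (nat_lit 7) (nat_lit 7) (nat_lit 10) L77023 (by decide +kernel)
theorem L77025 : W_36 (nat_lit 8) (nat_lit 0x1000280005000600000001000080000000000000000000000000000000) (nat_lit 0x0) (nat_lit 0x5e002e00118002800080000000000000000000000000000000000000000000) := T_36 (nat_lit 191) (nat_lit 193) (nat_lit 2) (nat_lit 4) (nat_lit 11) L77024 (by decide +kernel)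
theorem L77026 : W_36 (nat_lit 2) (nat_lit 0x1000280007000600000001000080000000000000000000000000000000) (nat_lit 0x0) (nat_lit 0x540000000000000000000000000000000000000000000000000000) := D_36 (nat_lit 212) (nat_lit 214) (nat_lit 210) (nat_lit 0) (nat_lit 10) (nat_lit 12) (nat_lit 0) (nat_lit 9) (nat_lit 12) (by decide +kernel)
theorem L77027 : W_36 (nat_lit 3) (nat_lit 0x1000280005000600000001000080000000000000000000000000000000) (nat_lit 0x0) (nat_lit 0x540002800000000000000000000000000000000000000000000000) := T_36 (nat_lit 193) (nat_lit 191) (nat_lit 2) (nat_lit 4) (nat_lit 11) L77026 (by decide +kernel)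
theorem L77028 : W_36 (nat_lit 9) (nat_lit 0x1000080005000600000001000080000000000000000000000000000000) (nat_lit 0x0) (nat_lit 0x3de00ee00758002800080000000000000000000000000000000000000000000) := Q_36 (nat_lit 213) (C_36 L77009 (C_36 L77015 (C_36 L77018 (C_36 L77025 (C_36 L77027 N_36))))) (by decide +kernel)
theorem L77029 : W_36 (nat_lit 10) (nat_lit 0x80005000600000001000080000000000000000000000000000000) (nat_lit 0x0) (nat_lit 0x14000e003fe00fe0075800a800080000000000000000000000000000000000000000000) := Q_36 (nat_lit 228) (C_36 L76732 (C_36 L76997 (C_36 L76829 (C_36 L77028 (C_36 L76695 N_36))))) (by decide +kernel)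
theorem L77030 : W_36 (nat_lit 2) (nat_lit 0x8007c001a0005000600000001000080000000000000000000000000000000) (nat_lit 0x0) (nat_lit 0x180000000000008000000000000000000000000000000000000000000000000) := D_36 (nat_lit 247) (nat_lit 195) (nat_lit 248) (nat_lit 7) (nat_lit 8) (nat_lit 10) (nat_lit 3) (nat_lit 6) (nat_lit 13) (by decide +kernel)
theorem L77031 : W_36 (nat_lit 3) (nat_lit 0x8003c001a0005000600000001000080000000000000000000000000000000) (nat_lit 0x0) (nat_lit 0x180004000040008000000000000000000000000000000000000000000000000) := T_36 (nat_lit 230) (nat_lit 210) (nat_lit 3) (nat_lit 5) (nat_lit 12) L77030 (by decide +kernel)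
theorem L77032 : W_36 (nat_lit 4) (nat_lit 0x8003c00180005000600000001000080000000000000000000000000000000) (nat_lit 0x0) (nat_lit 0x180004000070008000000000000000000000000000000000000000000000000) := T_36 (nat_lit 209) (nat_lit 208) (nat_lit 0) (nat_lit 8) (nat_lit 13) L77031 (by decide +kernel)
theorem L77033 : W_36 (nat_lit 5) (nat_lit 0x3c00180005000600000001000080000000000000000000000000000000) (nat_lit 0x0) (nat_lit 0x18c004000070008000000000000000000000000000000000000000000000000) := T_36 (nat_lit 243) (nat_lit 242) (nat_lit 1) (nat_lit 8) (nat_lit 13) L77032 (by decide +kernel)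
theorem L77034 : W_36 (nat_lit 6) (nat_lit 0x1c00180005000600000001000080000000000000000000000000000000) (nat_lit 0x0) (nat_lit 0x1cc006000070008000000000000000000000000000000000000000000000000) := T_36 (nat_lit 229) (nat_lit 246) (nat_lit 7) (nat_lit 7) (nat_lit 10) L77033 (by decide +kernel)
theorem L77035 : W_36 (nat_lit 7) (nat_lit 0x1800180005000600000001000080000000000000000000000000000000) (nat_lit 0x0) (nat_lit 0x1cc006600070008000000000000000000000000000000000000000000000000) := T_36 (nat_lit 226) (nat_lit 225) (nat_lit 2) (nat_lit 4) (nat_lit 13) L77034 (by decide +kernel)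
theorem L77036 : W_36 (nat_lit 8) (nat_lit 0x1000180005000600000001000080000000000000000000000000000000) (nat_lit 0x0) (nat_lit 0x1dc006e00070008000000000000000000000000000000000000000000000000) := T_36 (nat_lit 227) (nat_lit 244) (nat_lit 5) (nat_lit 7) (nat_lit 10) L77035 (by decide +kernel)
theorem L77037 : W_36 (nat_lit 2) (nat_lit 0x3800380005000600000001000080000000000000000000000000000000) (nat_lit 0x0) (nat_lit 0x4000a000000000000000000000000000000000000000000000000) := D_36 (nat_lit 193) (nat_lit 195) (nat_lit 210) (nat_lit 3) (nat_lit 5) (nat_lit 11) (nat_lit 0) (nat_lit 9) (nat_lit 12) (by decide +kernel)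
theorem L77038 : W_36 (nat_lit 3) (nat_lit 0x3800180005000600000001000080000000000000000000000000000000) (nat_lit 0x0) (nat_lit 0x64000a000000000000000000000000000000000000000000000000) := T_36 (nat_lit 213) (nat_lit 214) (nat_lit 1) (nat_lit 10) (nat_lit 12) L77037 (by decide +kernel)
theorem L77039 : W_36 (nat_lit 4) (nat_lit 0x3000180005000600000001000080000000000000000000000000000000) (nat_lit 0x0) (nat_lit 0x1000080064000a000000000000000000000000000000000000000000000000) := T_36 (nat_lit 227) (nat_lit 244) (nat_lit 5) (nat_lit 7) (nat_lit 10) L77038 (by decide +kernel)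
theorem L77040 : W_36 (nat_lit 5) (nat_lit 0x1000180005000600000001000080000000000000000000000000000000) (nat_lit 0x0) (nat_lit 0x5000280064000a000000000000000000000000000000000000000000000000) := T_36 (nat_lit 229) (nat_lit 246) (nat_lit 7) (nat_lit 7) (nat_lit 10) L77039 (by decide +kernel)
theorem L77041 : W_36 (nat_lit 2) (nat_lit 0x1000380005000600000001000080000000000000000000000000000000) (nat_lit 0x0) (nat_lit 0x4000a000000000000000000000000000000000000000000000000) := D_36 (nat_lit 193) (nat_lit 195) (nat_lit 210) (nat_lit 3) (nat_lit 5) (nat_lit 11) (nat_lit 0) (nat_lit 9) (nat_lit 12) (by decide +kernel)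
theorem L77042 : W_36 (nat_lit 2) (nat_lit 0x1000380005000600000001000080000000000000000000000000000000) (nat_lit 0x0) (nat_lit 0x440002000000000000000000000000000000000000000000000000) := D_36 (nat_lit 193) (nat_lit 210) (nat_lit 214) (nat_lit 0) (nat_lit 9) (nat_lit 12) (nat_lit 0) (nat_lit 10) (nat_lit 12) (by decide +kernel)
theorem L77043 : W_36 (nat_lit 2) (nat_lit 0x3000380005000600000001000080000000000000000000000000000000) (nat_lit 0x0) (nat_lit 0xc00400000000000000000000000000000000000000000000000000000) := D_36 (nat_lit 227) (nat_lit 226) (nat_lit 214) (nat_lit 2) (nat_lit 5) (nat_lit 13) (nat_lit 1) (nat_lit 10) (nat_lit 12) (by decide +kernel)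
theorem L77044 : W_36 (nat_lit 3) (nat_lit 0x1000380005000600000001000080000000000000000000000000000000) (nat_lit 0x0) (nat_lit 0x40002c00400000000000000000000000000000000000000000000000000000) := T_36 (nat_lit 229) (nat_lit 246) (nat_lit 7) (nat_lit 7) (nat_lit 10) L77043 (by decide +kernel)
theorem L77045 : W_36 (nat_lit 4) (nat_lit 0x1000180005000600000001000080000000000000000000000000000000) (nat_lit 0x0) (nat_lit 0x40002c0064000a000000000000000000000000000000000000000000000000) := Q_36 (nat_lit 213) (C_36 L77041 (C_36 L77042 (C_36 L77044 N_36))) (by decide +kernel)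
theorem L77046 : W_36 (nat_lit 2) (nat_lit 0xb0007c0005000600000001000080000000000000000000000000000000) (nat_lit 0x0) (nat_lit 0x70000000000000000000000000000000000000000000000000) := D_36 (nat_lit 197) (nat_lit 198) (nat_lit 196) (nat_lit 2) (nat_lit 7) (nat_lit 12) (nat_lit 2) (nat_lit 6) (nat_lit 12) (by decide +kernel)
theorem L77047 : W_36 (nat_lit 3) (nat_lit 0xb000780005000600000001000080000000000000000000000000000000) (nat_lit 0x0) (nat_lit 0x4000040070000000000000000000000000000000000000000000000000) := T_36 (nat_lit 210) (nat_lit 230) (nat_lit 3) (nat_lit 6) (nat_lit 12) L77046 (by decide +kernel)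
theorem L77048 : W_36 (nat_lit 4) (nat_lit 0x3000780005000600000001000080000000000000000000000000000000) (nat_lit 0x0) (nat_lit 0x1c000040070000000000000000000000000000000000000000000000000) := T_36 (nat_lit 231) (nat_lit 232) (nat_lit 3) (nat_lit 7) (nat_lit 12) L77047 (by decide +kernel)
theorem L77049 : W_36 (nat_lit 5) (nat_lit 0x3000380005000600000001000080000000000000000000000000000000) (nat_lit 0x0) (nat_lit 0x1c000c40070000000000000000000000000000000000000000000000000) := T_36 (nat_lit 214) (nat_lit 215) (nat_lit 1) (nat_lit 11) (nat_lit 12) L77048 (by decide +kernel)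
theorem L77050 : W_36 (nat_lit 6) (nat_lit 0x1000380005000600000001000080000000000000000000000000000000) (nat_lit 0x0) (nat_lit 0x4001e000c40070000000000000000000000000000000000000000000000000) := T_36 (nat_lit 229) (nat_lit 246) (nat_lit 7) (nat_lit 7) (nat_lit 10) L77049 (by decide +kernel)
theorem L77051 : W_36 (nat_lit 2) (nat_lit 0x1000380005000600000001000080000000000000000000000000000000) (nat_lit 0x0) (nat_lit 0x40000a000000000000000000000000000000000000000000000000) := D_36 (nat_lit 193) (nat_lit 195) (nat_lit 214) (nat_lit 3) (nat_lit 5) (nat_lit 11) (nat_lit 0) (nat_lit 10) (nat_lit 12) (by decide +kernel)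
theorem L77052 : W_36 (nat_lit 7) (nat_lit 0x1000180005000600000001000080000000000000000000000000000000) (nat_lit 0x0) (nat_lit 0x4001e000e4007a000000000000000000000000000000000000000000000000) := Q_36 (nat_lit 213) (C_36 L77042 (C_36 L77050 (C_36 L77051 (C_36 L77041 N_36)))) (by decide +kernel)
theorem L77053 : W_36 (nat_lit 9) (nat_lit 0x1000080005000600000001000080000000000000000000000000000000) (nat_lit 0x0) (nat_lit 0x1dc01ee00f7007a000000000000000000000000000000000000000000000000) := Q_36 (nat_lit 212) (C_36 L76986 (C_36 L77036 (C_36 L76744 (C_36 L77040 (C_36 L77045 (C_36 L77052 N_36)))))) (by decide +kernel)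
theorem L77054 : W_36 (nat_lit 10) (nat_lit 0x80005000600000001000080000000000000000000000000000000) (nat_lit 0x0) (nat_lit 0xa001fc01fe00f7007a000000000000000000000000000000000000000000000000) := Q_36 (nat_lit 228) (C_36 L76732 (C_36 L76693 (C_36 L76695 (C_36 L77053 N_36)))) (by decide +kernel)
theorem L77055 : W_36 (nat_lit 2) (nat_lit 0x78001c0005800600000001000080000000000000000000000000000000) (nat_lit 0x0) (nat_lit 0x180000000000008000000000000000000000000000000000000000000000000) := D_36 (nat_lit 247) (nat_lit 195) (nat_lit 248) (nat_lit 7) (nat_lit 8) (nat_lit 10) (nat_lit 3) (nat_lit 6) (nat_lit 13) (by decide +kernel)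
theorem L77056 : W_36 (nat_lit 3) (nat_lit 0x38001c0005800600000001000080000000000000000000000000000000) (nat_lit 0x0) (nat_lit 0x18000c000000008000000000000000000000000000000000000000000000000) := T_36 (nat_lit 230) (nat_lit 231) (nat_lit 0) (nat_lit 10) (nat_lit 13) L77055 (by decide +kernel)
theorem L77057 : W_36 (nat_lit 4) (nat_lit 0x30001c0005800600000001000080000000000000000000000000000000) (nat_lit 0x0) (nat_lit 0x19000c800000008000000000000000000000000000000000000000000000000) := T_36 (nat_lit 227) (nat_lit 244) (nat_lit 5) (nat_lit 7) (nat_lit 10) L77056 (by decide +kernel)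
theorem L77058 : W_36 (nat_lit 5) (nat_lit 0x3000180005800600000001000080000000000000000000000000000000) (nat_lit 0x0) (nat_lit 0x19000c800060008000000000000000000000000000000000000000000000000) := T_36 (nat_lit 210) (nat_lit 209) (nat_lit 0) (nat_lit 8) (nat_lit 12) L77057 (by decide +kernel)
theorem L77059 : W_36 (nat_lit 6) (nat_lit 0x1000180005800600000001000080000000000000000000000000000000) (nat_lit 0x0) (nat_lit 0x1d000e800060008000000000000000000000000000000000000000000000000) := T_36 (nat_lit 229) (nat_lit 246) (nat_lit 7) (nat_lit 7) (nat_lit 10) L77058 (by decide +kernel)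
theorem L77060 : W_36 (nat_lit 7) (nat_lit 0x1000180005000600000001000080000000000000000000000000000000) (nat_lit 0x0) (nat_lit 0x1d000e80006000a800000000000000000000000000000000000000000000000) := T_36 (nat_lit 191) (nat_lit 193) (nat_lit 3) (nat_lit 4) (nat_lit 11) L77059 (by decide +kernel)
theorem L77061 : W_36 (nat_lit 3) (nat_lit 0x10001c0005000600000001000080000000000000000000000000000000) (nat_lit 0x0) (nat_lit 0x30018800000000000000000000000000000000000000000000000) := T_36 (nat_lit 209) (nat_lit 191) (nat_lit 0) (nat_lit 8) (nat_lit 12) L76713 (by decide +kernel)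
theorem L77062 : W_36 (nat_lit 2) (nat_lit 0x38005c0005000600000001000080000000000000000000000000000000) (nat_lit 0x0) (nat_lit 0x4000020000800000000000000000000000000000000000000000000000) := D_36 (nat_lit 209) (nat_lit 230) (nat_lit 191) (nat_lit 3) (nat_lit 5) (nat_lit 12) (nat_lit 0) (nat_lit 8) (nat_lit 12) (by decide +kernel)
theorem L77063 : W_36 (nat_lit 3) (nat_lit 0x18005c0005000600000001000080000000000000000000000000000000) (nat_lit 0x0) (nat_lit 0x40006000020000800000000000000000000000000000000000000000000000) := T_36 (nat_lit 229) (nat_lit 246) (nat_lit 7) (nat_lit 7) (nat_lit 10) L77062 (by decide +kernel)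
theorem L77064 : W_36 (nat_lit 4) (nat_lit 0x18001c0005000600000001000080000000000000000000000000000000) (nat_lit 0x0) (nat_lit 0x40006000620000800000000000000000000000000000000000000000000000) := T_36 (nat_lit 214) (nat_lit 213) (nat_lit 1) (nat_lit 10) (nat_lit 12) L77063 (by decide +kernel)
theorem L77065 : W_36 (nat_lit 5) (nat_lit 0x10001c0005000600000001000080000000000000000000000000000000) (nat_lit 0x0) (nat_lit 0x50006800620000800000000000000000000000000000000000000000000000) := T_36 (nat_lit 227) (nat_lit 244) (nat_lit 5) (nat_lit 7) (nat_lit 10) L77064 (by decide +kernel)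
theorem L77066 : W_36 (nat_lit 2) (nat_lit 0x78005c0005000600000001000080000000000000000000000000000000) (nat_lit 0x0) (nat_lit 0x180000000000008000000000000000000000000000000000000000000000000) := D_36 (nat_lit 247) (nat_lit 195) (nat_lit 248) (nat_lit 7) (nat_lit 8) (nat_lit 10) (nat_lit 3) (nat_lit 6) (nat_lit 13) (by decide +kernel)
theorem L77067 : W_36 (nat_lit 3) (nat_lit 0x38005c0005000600000001000080000000000000000000000000000000) (nat_lit 0x0) (nat_lit 0x18000c000000008000000000000000000000000000000000000000000000000) := T_36 (nat_lit 230) (nat_lit 231) (nat_lit 0) (nat_lit 10) (nat_lit 13) L77066 (by decide +kernel)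
theorem L77068 : W_36 (nat_lit 4) (nat_lit 0x18005c0005000600000001000080000000000000000000000000000000) (nat_lit 0x0) (nat_lit 0x1c000e000000008000000000000000000000000000000000000000000000000) := T_36 (nat_lit 229) (nat_lit 246) (nat_lit 7) (nat_lit 7) (nat_lit 10) L77067 (by decide +kernel)
theorem L77069 : W_36 (nat_lit 5) (nat_lit 0x18001c0005000600000001000080000000000000000000000000000000) (nat_lit 0x0) (nat_lit 0x1c000e000600008000000000000000000000000000000000000000000000000) := T_36 (nat_lit 214) (nat_lit 213) (nat_lit 1) (nat_lit 10) (nat_lit 12) L77068 (by decide +kernel)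
theorem L77070 : W_36 (nat_lit 6) (nat_lit 0x10001c0005000600000001000080000000000000000000000000000000) (nat_lit 0x0) (nat_lit 0x1d000e800600008000000000000000000000000000000000000000000000000) := T_36 (nat_lit 227) (nat_lit 244) (nat_lit 5) (nat_lit 7) (nat_lit 10) L77069 (by decide +kernel)
theorem L77071 : W_36 (nat_lit 7) (nat_lit 0x1000180005000600000001000080000000000000000000000000000000) (nat_lit 0x0) (nat_lit 0x1d000e800670018800000000000000000000000000000000000000000000000) := Q_36 (nat_lit 210) (C_36 L77061 (C_36 L77065 (C_36 L77070 N_36))) (by decide +kernel)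
theorem L77072 : W_36 (nat_lit 8) (nat_lit 0x1000080005000600000001000080000000000000000000000000000000) (nat_lit 0x0) (nat_lit 0x1d001e800f7007a800000000000000000000000000000000000000000000000) := Q_36 (nat_lit 212) (C_36 L76992 (C_36 L77052 (C_36 L76773 (C_36 L77060 (C_36 L77071 N_36))))) (by decide +kernel)
theorem L77073 : W_36 (nat_lit 9) (nat_lit 0x80005000600000001000080000000000000000000000000000000) (nat_lit 0x0) (nat_lit 0x14000e001f001f800f7007a800000000000000000000000000000000000000000000000) := Q_36 (nat_lit 228) (C_36 L76732 (C_36 L76997 (C_36 L76829 (C_36 L77072 (C_36 L76695 N_36))))) (by decide +kernel)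
theorem L77074 : W_36 (nat_lit 2) (nat_lit 0x200000000e000f000680000001000080000000000000000000000000000000) (nat_lit 0x0) (nat_lit 0x800000000000000004000200000000000000000000000000000000000) := D_36 (nat_lit 158) (nat_lit 227) (nat_lit 141) (nat_lit 7) (nat_lit 5) (nat_lit 9) (nat_lit 7) (nat_lit 5) (nat_lit 8) (by decide +kernel)
theorem L77075 : W_36 (nat_lit 3) (nat_lit 0x200000000a000f000680000001000080000000000000000000000000000000) (nat_lit 0x0) (nat_lit 0x800040010000000004000200000000000000000000000000000000000) := T_36 (nat_lit 210) (nat_lit 196) (nat_lit 1) (nat_lit 9) (nat_lit 11) L77074 (by decide +kernel)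
theorem L77076 : W_36 (nat_lit 4) (nat_lit 0x2000000008000f000680000001000080000000000000000000000000000000) (nat_lit 0x0) (nat_lit 0x800070010000000004000200000000000000000000000000000000000) := T_36 (nat_lit 209) (nat_lit 208) (nat_lit 1) (nat_lit 8) (nat_lit 11) L77075 (by decide +kernel)
theorem L77077 : W_36 (nat_lit 5) (nat_lit 0x2000000008000f000600000001000080000000000000000000000000000000) (nat_lit 0x0) (nat_lit 0x8000700100000c0004000200000000000000000000000000000000000) := T_36 (nat_lit 175) (nat_lit 174) (nat_lit 0) (nat_lit 8) (nat_lit 11) L77076 (by decide +kernel)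
theorem L77078 : W_36 (nat_lit 6) (nat_lit 0x8000f000600000001000080000000000000000000000000000000) (nat_lit 0x0) (nat_lit 0x200018000700100000c0004000200000000000000000000000000000000000) := T_36 (nat_lit 245) (nat_lit 228) (nat_lit 6) (nat_lit 7) (nat_lit 14) L77077 (by decide +kernel)
theorem L77079 : W_36 (nat_lit 7) (nat_lit 0x8000d000600000001000080000000000000000000000000000000) (nat_lit 0x0) (nat_lit 0x200018000700128000c0004000200000000000000000000000000000000000) := T_36 (nat_lit 193) (nat_lit 191) (nat_lit 2) (nat_lit 4) (nat_lit 11) L77078 (by decide +kernel)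
theorem L77080 : W_36 (nat_lit 2) (nat_lit 0x200008000d000600000001000080000000000000000000000000000000) (nat_lit 0x0) (nat_lit 0x60001000000000000000000000000000000000000000000000000000000000) := D_36 (nat_lit 228) (nat_lit 245) (nat_lit 246) (nat_lit 6) (nat_lit 7) (nat_lit 14) (nat_lit 7) (nat_lit 7) (nat_lit 10) (by decide +kernel)
theorem L77081 : W_36 (nat_lit 2) (nat_lit 0x60001c000d000600000001000080000000000000000000000000000000) (nat_lit 0x0) (nat_lit 0x18000200000000000000000000000000000000000000000000000000000) := D_36 (nat_lit 231) (nat_lit 232) (nat_lit 213) (nat_lit 0) (nat_lit 11) (nat_lit 13) (nat_lit 3) (nat_lit 6) (nat_lit 12) (by decide +kernel)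
theorem L77082 : W_36 (nat_lit 3) (nat_lit 0x600018000d000600000001000080000000000000000000000000000000) (nat_lit 0x0) (nat_lit 0x18000260000000000000000000000000000000000000000000000000000) := T_36 (nat_lit 210) (nat_lit 209) (nat_lit 3) (nat_lit 5) (nat_lit 12) L77081 (by decide +kernel)
theorem L77083 : W_36 (nat_lit 4) (nat_lit 0x200018000d000600000001000080000000000000000000000000000000) (nat_lit 0x0) (nat_lit 0x8001c000260000000000000000000000000000000000000000000000000000) := T_36 (nat_lit 230) (nat_lit 247) (nat_lit 7) (nat_lit 8) (nat_lit 10) L77082 (by decide +kernel)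
theorem L77084 : W_36 (nat_lit 5) (nat_lit 0x200008000d000600000001000080000000000000000000000000000000) (nat_lit 0x0) (nat_lit 0xc001c000360000000000000000000000000000000000000000000000000000) := T_36 (nat_lit 212) (nat_lit 246) (nat_lit 4) (nat_lit 8) (nat_lit 14) L77083 (by decide +kernel)
theorem L77085 : W_36 (nat_lit 2) (nat_lit 0x200060001c000d000600000001000080000000000000000000000000000000) (nat_lit 0x0) (nat_lit 0x18000200000000000000000000000000000000000000000000000000000) := D_36 (nat_lit 231) (nat_lit 232) (nat_lit 213) (nat_lit 0) (nat_lit 11) (nat_lit 13) (nat_lit 3) (nat_lit 6) (nat_lit 12) (by decide +kernel)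
theorem L77086 : W_36 (nat_lit 3) (nat_lit 0x2000600018000d000600000001000080000000000000000000000000000000) (nat_lit 0x0) (nat_lit 0x18000260000000000000000000000000000000000000000000000000000) := T_36 (nat_lit 210) (nat_lit 209) (nat_lit 3) (nat_lit 5) (nat_lit 12) L77085 (by decide +kernel)
theorem L77087 : W_36 (nat_lit 4) (nat_lit 0x2000600008000d000600000001000080000000000000000000000000000000) (nat_lit 0x0) (nat_lit 0x80018000360000000000000000000000000000000000000000000000000000) := T_36 (nat_lit 212) (nat_lit 247) (nat_lit 7) (nat_lit 8) (nat_lit 10) L77086 (by decide +kernel)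
theorem L77088 : W_36 (nat_lit 5) (nat_lit 0x600008000d000600000001000080000000000000000000000000000000) (nat_lit 0x0) (nat_lit 0xa0019000360000000000000000000000000000000000000000000000000000) := T_36 (nat_lit 245) (nat_lit 228) (nat_lit 6) (nat_lit 7) (nat_lit 14) L77087 (by decide +kernel)
theorem L77089 : W_36 (nat_lit 2) (nat_lit 0x700018000d000600000001000080000000000000000000000000000000) (nat_lit 0x0) (nat_lit 0x18000040000000000000000000000000000000000000000000000000000) := D_36 (nat_lit 231) (nat_lit 210) (nat_lit 232) (nat_lit 0) (nat_lit 10) (nat_lit 13) (nat_lit 0) (nat_lit 11) (nat_lit 13) (by decide +kernel)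
theorem L77090 : W_36 (nat_lit 3) (nat_lit 0x600018000d000600000001000080000000000000000000000000000000) (nat_lit 0x0) (nat_lit 0x20019000040000000000000000000000000000000000000000000000000000) := T_36 (nat_lit 228) (nat_lit 245) (nat_lit 6) (nat_lit 7) (nat_lit 14) L77089 (by decide +kernel)
theorem L77091 : W_36 (nat_lit 4) (nat_lit 0x600008000d000600000001000080000000000000000000000000000000) (nat_lit 0x0) (nat_lit 0xa0019000140000000000000000000000000000000000000000000000000000) := T_36 (nat_lit 212) (nat_lit 247) (nat_lit 7) (nat_lit 8) (nat_lit 10) L77090 (by decide +kernel)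
theorem L77092 : W_36 (nat_lit 4) (nat_lit 0x600008000d000600000001000080000000000000000000000000000000) (nat_lit 0x0) (nat_lit 0x80018000360000000000000000000000000000000000000000000000000000) := T_36 (nat_lit 212) (nat_lit 247) (nat_lit 7) (nat_lit 8) (nat_lit 10) L77082 (by decide +kernel)
theorem L77093 : W_36 (nat_lit 2) (nat_lit 0xf80048000d000600000001000080000000000000000000000000000000) (nat_lit 0x0) (nat_lit 0x380000000000000000000000000000000000000000000000000000000000000) := D_36 (nat_lit 248) (nat_lit 249) (nat_lit 247) (nat_lit 3) (nat_lit 7) (nat_lit 13) (nat_lit 3) (nat_lit 6) (nat_lit 13) (by decide +kernel)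
theorem L77094 : W_36 (nat_lit 3) (nat_lit 0xf00048000d000600000001000080000000000000000000000000000000) (nat_lit 0x0) (nat_lit 0x380000800200000000000000000000000000000000000000000000000000000) := T_36 (nat_lit 227) (nat_lit 213) (nat_lit 2) (nat_lit 6) (nat_lit 13) L77093 (by decide +kernel)
theorem L77095 : W_36 (nat_lit 4) (nat_lit 0xf00008000d000600000001000080000000000000000000000000000000) (nat_lit 0x0) (nat_lit 0x380000800e00000000000000000000000000000000000000000000000000000) := T_36 (nat_lit 214) (nat_lit 215) (nat_lit 2) (nat_lit 7) (nat_lit 13) L77094 (by decide +kernel)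
theorem L77096 : W_36 (nat_lit 5) (nat_lit 0x700008000d000600000001000080000000000000000000000000000000) (nat_lit 0x0) (nat_lit 0x380008800e40000000000000000000000000000000000000000000000000000) := T_36 (nat_lit 231) (nat_lit 210) (nat_lit 0) (nat_lit 10) (nat_lit 13) L77095 (by decide +kernel)
theorem L77097 : W_36 (nat_lit 6) (nat_lit 0x600008000d000600000001000080000000000000000000000000000000) (nat_lit 0x0) (nat_lit 0x3a0009800e40000000000000000000000000000000000000000000000000000) := T_36 (nat_lit 228) (nat_lit 245) (nat_lit 6) (nat_lit 7) (nat_lit 14) L77096 (by decide +kernel)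
theorem L77098 : W_36 (nat_lit 2) (nat_lit 0xa000600008003d001600000001000080000000000000000000000000000000) (nat_lit 0x0) (nat_lit 0x8000c00000000000000000000000000000000000000000000000000000) := D_36 (nat_lit 214) (nat_lit 215) (nat_lit 231) (nat_lit 3) (nat_lit 7) (nat_lit 11) (nat_lit 5) (nat_lit 10) (nat_lit 10) (by decide +kernel)
theorem L77099 : W_36 (nat_lit 3) (nat_lit 0xa000600008003d000600000001000080000000000000000000000000000000) (nat_lit 0x0) (nat_lit 0x8000c00000003000000000000000000000000000000000000000000000) := T_36 (nat_lit 180) (nat_lit 181) (nat_lit 2) (nat_lit 7) (nat_lit 11) L77098 (by decide +kernel)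
theorem L77100 : W_36 (nat_lit 4) (nat_lit 0xa000600008001d000600000001000080000000000000000000000000000000) (nat_lit 0x0) (nat_lit 0x8000c00060003000000000000000000000000000000000000000000000) := T_36 (nat_lit 197) (nat_lit 198) (nat_lit 0) (nat_lit 11) (nat_lit 11) L77099 (by decide +kernel)
theorem L77101 : W_36 (nat_lit 5) (nat_lit 0xa000600008000d000600000001000080000000000000000000000000000000) (nat_lit 0x0) (nat_lit 0x8000e00070003000000000000000000000000000000000000000000000) := T_36 (nat_lit 196) (nat_lit 213) (nat_lit 4) (nat_lit 9) (nat_lit 14) L77100 (by decide +kernel)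
theorem L77102 : W_36 (nat_lit 6) (nat_lit 0x2000600008000d000600000001000080000000000000000000000000000000) (nat_lit 0x0) (nat_lit 0x80008000f00070003000000000000000000000000000000000000000000000) := T_36 (nat_lit 247) (nat_lit 212) (nat_lit 7) (nat_lit 8) (nat_lit 10) L77101 (by decide +kernel)
theorem L77103 : W_36 (nat_lit 7) (nat_lit 0x600008000d000600000001000080000000000000000000000000000000) (nat_lit 0x0) (nat_lit 0xa0009000f00070003000000000000000000000000000000000000000000000) := T_36 (nat_lit 245) (nat_lit 228) (nat_lit 6) (nat_lit 7) (nat_lit 14) L77102 (by decide +kernel)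
theorem L77104 : W_36 (nat_lit 2) (nat_lit 0x1f00008000d000600000001000080000000000000000000000000000000) (nat_lit 0x0) (nat_lit 0x700000000000000000000000000000000000000000000000000000000000000) := D_36 (nat_lit 249) (nat_lit 248) (nat_lit 250) (nat_lit 3) (nat_lit 7) (nat_lit 13) (nat_lit 3) (nat_lit 8) (nat_lit 13) (by decide +kernel)
theorem L77105 : W_36 (nat_lit 3) (nat_lit 0xf00008000d000600000001000080000000000000000000000000000000) (nat_lit 0x0) (nat_lit 0x700010000100000000000000000000000000000000000000000000000000000) := T_36 (nat_lit 232) (nat_lit 212) (nat_lit 0) (nat_lit 11) (nat_lit 13) L77104 (by decide +kernel)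
theorem L77106 : W_36 (nat_lit 4) (nat_lit 0x700008000d000600000001000080000000000000000000000000000000) (nat_lit 0x0) (nat_lit 0x700018000140000000000000000000000000000000000000000000000000000) := T_36 (nat_lit 231) (nat_lit 210) (nat_lit 0) (nat_lit 10) (nat_lit 13) L77105 (by decide +kernel)
theorem L77107 : W_36 (nat_lit 5) (nat_lit 0x600008000d000600000001000080000000000000000000000000000000) (nat_lit 0x0) (nat_lit 0x720019000140000000000000000000000000000000000000000000000000000) := T_36 (nat_lit 228) (nat_lit 245) (nat_lit 6) (nat_lit 7) (nat_lit 14) L77106 (by decide +kernel)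
theorem L77108 : W_36 (nat_lit 2) (nat_lit 0xa000600008001d000600000001000080000000000000000000000000000000) (nat_lit 0x0) (nat_lit 0x40060000000000000000000000000000000000000000000000000) := D_36 (nat_lit 197) (nat_lit 210) (nat_lit 198) (nat_lit 1) (nat_lit 10) (nat_lit 11) (nat_lit 0) (nat_lit 11) (nat_lit 11) (by decide +kernel)
theorem L77109 : W_36 (nat_lit 3) (nat_lit 0xa000600008000d000600000001000080000000000000000000000000000000) (nat_lit 0x0) (nat_lit 0x240070000000000000000000000000000000000000000000000000) := T_36 (nat_lit 196) (nat_lit 213) (nat_lit 4) (nat_lit 9) (nat_lit 14) L77108 (by decide +kernel)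
theorem L77110 : W_36 (nat_lit 4) (nat_lit 0x2000600008000d000600000001000080000000000000000000000000000000) (nat_lit 0x0) (nat_lit 0x80000000340070000000000000000000000000000000000000000000000000) := T_36 (nat_lit 247) (nat_lit 212) (nat_lit 7) (nat_lit 8) (nat_lit 10) L77109 (by decide +kernel)
theorem L77111 : W_36 (nat_lit 5) (nat_lit 0x600008000d000600000001000080000000000000000000000000000000) (nat_lit 0x0) (nat_lit 0xa0001000340070000000000000000000000000000000000000000000000000) := T_36 (nat_lit 245) (nat_lit 228) (nat_lit 6) (nat_lit 7) (nat_lit 14) L77110 (by decide +kernel)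
theorem L77112 : W_36 (nat_lit 8) (nat_lit 0x200008000d000600000001000080000000000000000000000000000000) (nat_lit 0x0) (nat_lit 0x7a001d800f60070003000000000000000000000000000000000000000000000) := Q_36 (nat_lit 230) (C_36 L77088 (C_36 L77091 (C_36 L77092 (C_36 L77097 (C_36 L77103 (C_36 L77107 (C_36 L77111 N_36))))))) (by decide +kernel)
theorem L77113 : W_36 (nat_lit 9) (nat_lit 0x8000d000600000001000080000000000000000000000000000000) (nat_lit 0x0) (nat_lit 0x7e001f800f60070003000000000000000000000000000000000000000000000) := Q_36 (nat_lit 229) (C_36 L77080 (C_36 L77084 (C_36 L77112 N_36))) (by decide +kernel)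
theorem L77114 : W_36 (nat_lit 2) (nat_lit 0x200020001a000f000600000001000080000000000000000000000000000000) (nat_lit 0x0) (nat_lit 0x80004000040000000000000000000000000000000000000000000000000000) := D_36 (nat_lit 230) (nat_lit 210) (nat_lit 247) (nat_lit 3) (nat_lit 5) (nat_lit 12) (nat_lit 7) (nat_lit 8) (nat_lit 10) (by decide +kernel)
theorem L77115 : W_36 (nat_lit 3) (nat_lit 0x200000001a000f000600000001000080000000000000000000000000000000) (nat_lit 0x0) (nat_lit 0xc0006000040000000000000000000000000000000000000000000000000000) := T_36 (nat_lit 229) (nat_lit 246) (nat_lit 4) (nat_lit 8) (nat_lit 14) L77114 (by decide +kernel)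
theorem L77116 : W_36 (nat_lit 4) (nat_lit 0x200000000a000f000600000001000080000000000000000000000000000000) (nat_lit 0x0) (nat_lit 0xc0006000340000000000000000000000000000000000000000000000000000) := T_36 (nat_lit 212) (nat_lit 213) (nat_lit 3) (nat_lit 5) (nat_lit 11) L77115 (by decide +kernel)
theorem L77117 : W_36 (nat_lit 5) (nat_lit 0x2000000008000f000600000001000080000000000000000000000000000000) (nat_lit 0x0) (nat_lit 0xc0006000370000000000000000000000000000000000000000000000000000) := T_36 (nat_lit 209) (nat_lit 208) (nat_lit 1) (nat_lit 8) (nat_lit 11) L77116 (by decide +kernel)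
theorem L77118 : W_36 (nat_lit 6) (nat_lit 0x2000000008000d000600000001000080000000000000000000000000000000) (nat_lit 0x0) (nat_lit 0xc0006000370002800000000000000000000000000000000000000000000000) := T_36 (nat_lit 193) (nat_lit 191) (nat_lit 2) (nat_lit 4) (nat_lit 11) L77117 (by decide +kernel)
theorem L77119 : W_36 (nat_lit 7) (nat_lit 0x8000d000600000001000080000000000000000000000000000000) (nat_lit 0x0) (nat_lit 0xe0007000370002800000000000000000000000000000000000000000000000) := T_36 (nat_lit 245) (nat_lit 228) (nat_lit 6) (nat_lit 7) (nat_lit 14) L77118 (by decide +kernel)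
theorem L77120 : W_36 (nat_lit 6) (nat_lit 0x8000f000600000001000080000000000000000000000000000000) (nat_lit 0x0) (nat_lit 0xe700700000c0000000000000000000000000000000000000000000) := T_36 (nat_lit 209) (nat_lit 208) (nat_lit 1) (nat_lit 8) (nat_lit 11) L76880 (by decide +kernel)
theorem L77121 : W_36 (nat_lit 7) (nat_lit 0x8000d000600000001000080000000000000000000000000000000) (nat_lit 0x0) (nat_lit 0xe700728000c0000000000000000000000000000000000000000000) := T_36 (nat_lit 193) (nat_lit 191) (nat_lit 2) (nat_lit 4) (nat_lit 11) L77120 (by decide +kernel)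
theorem L77122 : W_36 (nat_lit 2) (nat_lit 0x70006a000f000680000001000080000000000000000000000000000000) (nat_lit 0x0) (nat_lit 0x8001800000000000000000000000000000000000000000000000000000) := D_36 (nat_lit 215) (nat_lit 216) (nat_lit 231) (nat_lit 1) (nat_lit 12) (nat_lit 12) (nat_lit 2) (nat_lit 7) (nat_lit 13) (by decide +kernel)
theorem L77123 : W_36 (nat_lit 3) (nat_lit 0x30006a000f000680000001000080000000000000000000000000000000) (nat_lit 0x0) (nat_lit 0xc801800000000000000000000000000000000000000000000000000000) := T_36 (nat_lit 230) (nat_lit 227) (nat_lit 2) (nat_lit 6) (nat_lit 13) L77122 (by decide +kernel)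
theorem L77124 : W_36 (nat_lit 4) (nat_lit 0x30002a000f000680000001000080000000000000000000000000000000) (nat_lit 0x0) (nat_lit 0xc801c00010000000000000000000000000000000000000000000000000) := T_36 (nat_lit 214) (nat_lit 196) (nat_lit 3) (nat_lit 6) (nat_lit 11) L77123 (by decide +kernel)
theorem L77125 : W_36 (nat_lit 5) (nat_lit 0x10002a000f000680000001000080000000000000000000000000000000) (nat_lit 0x0) (nat_lit 0x4000e801c00010000000000000000000000000000000000000000000000000) := T_36 (nat_lit 229) (nat_lit 246) (nat_lit 7) (nat_lit 7) (nat_lit 10) L77124 (by decide +kernel)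
theorem L77126 : W_36 (nat_lit 6) (nat_lit 0x10002a000f000600000001000080000000000000000000000000000000) (nat_lit 0x0) (nat_lit 0x4000e801c000100000c0000000000000000000000000000000000000000000) := T_36 (nat_lit 175) (nat_lit 174) (nat_lit 0) (nat_lit 8) (nat_lit 11) L77125 (by decide +kernel)
theorem L77127 : W_36 (nat_lit 7) (nat_lit 0x100028000f000600000001000080000000000000000000000000000000) (nat_lit 0x0) (nat_lit 0x4000e801c300100000c0000000000000000000000000000000000000000000) := T_36 (nat_lit 209) (nat_lit 208) (nat_lit 1) (nat_lit 8) (nat_lit 11) L77126 (by decide +kernel)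
theorem L77128 : W_36 (nat_lit 8) (nat_lit 0x100008000f000600000001000080000000000000000000000000000000) (nat_lit 0x0) (nat_lit 0x4000e801f300100000c0000000000000000000000000000000000000000000) := T_36 (nat_lit 213) (nat_lit 212) (nat_lit 3) (nat_lit 5) (nat_lit 11) L77127 (by decide +kernel)
theorem L77129 : W_36 (nat_lit 9) (nat_lit 0x8000f000600000001000080000000000000000000000000000000) (nat_lit 0x0) (nat_lit 0x6000f801f300100000c0000000000000000000000000000000000000000000) := T_36 (nat_lit 228) (nat_lit 245) (nat_lit 6) (nat_lit 7) (nat_lit 14) L77128 (by decide +kernel)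
theorem L77130 : W_36 (nat_lit 10) (nat_lit 0x8000d000600000001000080000000000000000000000000000000) (nat_lit 0x0) (nat_lit 0x6000f801f300128000c0000000000000000000000000000000000000000000) := T_36 (nat_lit 193) (nat_lit 191) (nat_lit 2) (nat_lit 4) (nat_lit 11) L77129 (by decide +kernel)
theorem L77131 : W_36 (nat_lit 2) (nat_lit 0x2000000028001f000600000001000080000000000000000000000000000000) (nat_lit 0x0) (nat_lit 0x40060000000000000000000000000000000000000000000000000) := D_36 (nat_lit 197) (nat_lit 210) (nat_lit 198) (nat_lit 1) (nat_lit 10) (nat_lit 11) (nat_lit 0) (nat_lit 11) (nat_lit 11) (by decide +kernel)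
theorem L77132 : W_36 (nat_lit 3) (nat_lit 0x2000000028000f000600000001000080000000000000000000000000000000) (nat_lit 0x0) (nat_lit 0x440070000000000000000000000000000000000000000000000000) := T_36 (nat_lit 196) (nat_lit 214) (nat_lit 3) (nat_lit 6) (nat_lit 11) L77131 (by decide +kernel)
theorem L77133 : W_36 (nat_lit 4) (nat_lit 0x2000000008000f000600000001000080000000000000000000000000000000) (nat_lit 0x0) (nat_lit 0x740070000000000000000000000000000000000000000000000000) := T_36 (nat_lit 213) (nat_lit 212) (nat_lit 3) (nat_lit 5) (nat_lit 11) L77132 (by decide +kernel)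
theorem L77134 : W_36 (nat_lit 5) (nat_lit 0x8000f000600000001000080000000000000000000000000000000) (nat_lit 0x0) (nat_lit 0x20001000740070000000000000000000000000000000000000000000000000) := T_36 (nat_lit 245) (nat_lit 228) (nat_lit 6) (nat_lit 7) (nat_lit 14) L77133 (by decide +kernel)
theorem L77135 : W_36 (nat_lit 6) (nat_lit 0x8000d000600000001000080000000000000000000000000000000) (nat_lit 0x0) (nat_lit 0x20001000740072800000000000000000000000000000000000000000000000) := T_36 (nat_lit 193) (nat_lit 191) (nat_lit 2) (nat_lit 4) (nat_lit 11) L77134 (by decide +kernel)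
theorem L77136 : W_36 (nat_lit 11) (nat_lit 0x80005000600000001000080000000000000000000000000000000) (nat_lit 0x0) (nat_lit 0x7e001f801f7007a8030c0004000200000000000000000000000000000000000) := Q_36 (nat_lit 195) (C_36 L77079 (C_36 L77113 (C_36 L77119 (C_36 L77121 (C_36 L77130 (C_36 L77135 N_36)))))) (by decide +kernel)
theorem L77137 : W_36 (nat_lit 2) (nat_lit 0x10001e000f000680000001000080000000000000000000000000000000) (nat_lit 0x0) (nat_lit 0x800000000000000004000200000000000000000000000000000000000) := D_36 (nat_lit 158) (nat_lit 227) (nat_lit 141) (nat_lit 7) (nat_lit 5) (nat_lit 9) (nat_lit 7) (nat_lit 5) (nat_lit 8) (by decide +kernel)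
theorem L77138 : W_36 (nat_lit 3) (nat_lit 0x10001a000f000680000001000080000000000000000000000000000000) (nat_lit 0x0) (nat_lit 0x800040010000000004000200000000000000000000000000000000000) := T_36 (nat_lit 210) (nat_lit 196) (nat_lit 2) (nat_lit 5) (nat_lit 12) L77137 (by decide +kernel)
theorem L77139 : W_36 (nat_lit 4) (nat_lit 0x10001a000f000600000001000080000000000000000000000000000000) (nat_lit 0x0) (nat_lit 0x8000400100000c0004000200000000000000000000000000000000000) := T_36 (nat_lit 175) (nat_lit 174) (nat_lit 0) (nat_lit 8) (nat_lit 11) L77138 (by decide +kernel)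
theorem L77140 : W_36 (nat_lit 5) (nat_lit 0x100018000f000600000001000080000000000000000000000000000000) (nat_lit 0x0) (nat_lit 0x8000700100000c0004000200000000000000000000000000000000000) := T_36 (nat_lit 209) (nat_lit 208) (nat_lit 1) (nat_lit 8) (nat_lit 11) L77139 (by decide +kernel)
theorem L77141 : W_36 (nat_lit 6) (nat_lit 0x100008000f000600000001000080000000000000000000000000000000) (nat_lit 0x0) (nat_lit 0x8003700100000c0004000200000000000000000000000000000000000) := T_36 (nat_lit 212) (nat_lit 213) (nat_lit 3) (nat_lit 5) (nat_lit 11) L77140 (by decide +kernel)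
theorem L77142 : W_36 (nat_lit 7) (nat_lit 0x1000080007000600000001000080000000000000000000000000000000) (nat_lit 0x0) (nat_lit 0x200008003700180000c0004000200000000000000000000000000000000000) := T_36 (nat_lit 195) (nat_lit 245) (nat_lit 6) (nat_lit 7) (nat_lit 14) L77141 (by decide +kernel)
theorem L77143 : W_36 (nat_lit 8) (nat_lit 0x1000080005000600000001000080000000000000000000000000000000) (nat_lit 0x0) (nat_lit 0x2000080037001a8000c0004000200000000000000000000000000000000000) := T_36 (nat_lit 193) (nat_lit 191) (nat_lit 2) (nat_lit 4) (nat_lit 11) L77142 (by decide +kernel)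
theorem L77144 : W_36 (nat_lit 2) (nat_lit 0x200020001000080007000600000001000080000000000000000000000000000000) (nat_lit 0x0) (nat_lit 0x4000400000000000040000000000000000000000000000000000000000000000000000) := D_36 (nat_lit 262) (nat_lit 278) (nat_lit 210) (nat_lit 5) (nat_lit 7) (nat_lit 12) (nat_lit 4) (nat_lit 7) (nat_lit 15) (by decide +kernel)
theorem L77145 : W_36 (nat_lit 3) (nat_lit 0x200020001000080005000600000001000080000000000000000000000000000000) (nat_lit 0x0) (nat_lit 0x4000400000000000040002800000000000000000000000000000000000000000000000) := T_36 (nat_lit 193) (nat_lit 191) (nat_lit 2) (nat_lit 4) (nat_lit 11) L77144 (by decide +kernel)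
theorem L77146 : W_36 (nat_lit 4) (nat_lit 0x20001000080005000600000001000080000000000000000000000000000000) (nat_lit 0x0) (nat_lit 0x4000600010000000040002800000000000000000000000000000000000000000000000) := T_36 (nat_lit 261) (nat_lit 244) (nat_lit 5) (nat_lit 7) (nat_lit 11) L77145 (by decide +kernel)
theorem L77147 : W_36 (nat_lit 5) (nat_lit 0x1000080005000600000001000080000000000000000000000000000000) (nat_lit 0x0) (nat_lit 0x400060003000000004000a800000000000000000000000000000000000000000000000) := T_36 (nat_lit 245) (nat_lit 195) (nat_lit 6) (nat_lit 7) (nat_lit 14) L77146 (by decide +kernel)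
theorem L77148 : W_36 (nat_lit 11) (nat_lit 0x80005000600000001000080000000000000000000000000000000) (nat_lit 0x0) (nat_lit 0x500078003c007f8077801ae000c0004000200000000000000000000000000000000000) := Q_36 (nat_lit 228) (C_36 L76695 (C_36 L76993 (C_36 L76824 (C_36 L77143 (C_36 L77147 N_36))))) (by decide +kernel)
theorem L77149 : W_36 (nat_lit 2) (nat_lit 0x24001e0005000600000001000080000000000000000000000000000000) (nat_lit 0x0) (nat_lit 0x40001000010000000000000000000000000000000000000000000000000000) := D_36 (nat_lit 228) (nat_lit 208) (nat_lit 246) (nat_lit 3) (nat_lit 4) (nat_lit 12) (nat_lit 7) (nat_lit 7) (nat_lit 10) (by decide +kernel)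
theorem L77150 : W_36 (nat_lit 3) (nat_lit 0x4001e0005000600000001000080000000000000000000000000000000) (nat_lit 0x0) (nat_lit 0x40007000010000000000000000000000000000000000000000000000000000) := T_36 (nat_lit 229) (nat_lit 230) (nat_lit 3) (nat_lit 5) (nat_lit 12) L77149 (by decide +kernel)
theorem L77151 : W_36 (nat_lit 4) (nat_lit 0x1e0005000600000001000080000000000000000000000000000000) (nat_lit 0x0) (nat_lit 0x40007600010000000000000000000000000000000000000000000000000000) := T_36 (nat_lit 226) (nat_lit 225) (nat_lit 1) (nat_lit 8) (nat_lit 12) L77150 (by decide +kernel)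
theorem L77152 : W_36 (nat_lit 5) (nat_lit 0xe0005000600000001000080000000000000000000000000000000) (nat_lit 0x0) (nat_lit 0x40007600110000800000000000000000000000000000000000000000000000) := T_36 (nat_lit 212) (nat_lit 191) (nat_lit 0) (nat_lit 8) (nat_lit 12) L77151 (by decide +kernel)
theorem L77153 : W_36 (nat_lit 4) (nat_lit 0xe0005000600000001000080000000000000000000000000000000) (nat_lit 0x0) (nat_lit 0x40006000100018800000000000000000000000000000000000000000000000) := T_36 (nat_lit 212) (nat_lit 191) (nat_lit 0) (nat_lit 8) (nat_lit 12) L76949 (by decide +kernel)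
theorem L77154 : W_36 (nat_lit 6) (nat_lit 0xa0005000600000001000080000000000000000000000000000000) (nat_lit 0x0) (nat_lit 0x80044007700150018c00080000000000000000000000000000000000000000000) := Q_36 (nat_lit 210) (C_36 L76870 (C_36 L76857 (C_36 L77152 (C_36 L76866 (C_36 L77153 N_36))))) (by decide +kernel)
theorem L77155 : W_36 (nat_lit 5) (nat_lit 0xa0005000680000001000080000000000000000000000000000000) (nat_lit 0x0) (nat_lit 0x400060001000080004000e000f00020000000000000000000000000000000) := Q_36 (nat_lit 158) (C_36 L76914 (C_36 L76901 (C_36 L76892 N_36))) (by decide +kernel)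
theorem L77156 : W_36 (nat_lit 8) (nat_lit 0xa0005000680000001000080000000000000000000000000000000) (nat_lit 0x0) (nat_lit 0x400060001000a00004000e000f00138000000000000000000000000000000) := Q_36 (nat_lit 158) (C_36 L76925 (C_36 L76914 (C_36 L76920 (C_36 L76901 N_36)))) (by decide +kernel)
theorem L77157 : W_36 (nat_lit 2) (nat_lit 0xa00070006d0002001000080000000000000000000000000000000) (nat_lit 0x0) (nat_lit 0x4000100008000000000000000000000000000000) := D_36 (nat_lit 140) (nat_lit 158) (nat_lit 123) (nat_lit 4) (nat_lit 5) (nat_lit 12) (nat_lit 7) (nat_lit 4) (nat_lit 7) (by decide +kernel)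
theorem L77158 : W_36 (nat_lit 3) (nat_lit 0xa00070006d0000001000080000000000000000000000000000000) (nat_lit 0x0) (nat_lit 0x400000000000000006000100008000000000000000000000000000000) := T_36 (nat_lit 157) (nat_lit 226) (nat_lit 4) (nat_lit 5) (nat_lit 13) L77157 (by decide +kernel)
theorem L77159 : W_36 (nat_lit 4) (nat_lit 0xa00070006c0000001000080000000000000000000000000000000) (nat_lit 0x0) (nat_lit 0x400000000000030006000100008000000000000000000000000000000) := T_36 (nat_lit 172) (nat_lit 173) (nat_lit 3) (nat_lit 2) (nat_lit 10) L77158 (by decide +kernel)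
theorem L77160 : W_36 (nat_lit 5) (nat_lit 0xa0007000680000001000080000000000000000000000000000000) (nat_lit 0x0) (nat_lit 0x400000008000070006000100008000000000000000000000000000000) := T_36 (nat_lit 174) (nat_lit 195) (nat_lit 0) (nat_lit 8) (nat_lit 11) L77159 (by decide +kernel)
theorem L77161 : W_36 (nat_lit 6) (nat_lit 0xa0005000680000001000080000000000000000000000000000000) (nat_lit 0x0) (nat_lit 0x40000000a800070006000100008000000000000000000000000000000) := T_36 (nat_lit 193) (nat_lit 191) (nat_lit 2) (nat_lit 4) (nat_lit 11) L77160 (by decide +kernel)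
theorem L77162 : W_36 (nat_lit 9) (nat_lit 0xa0005000600000001000080000000000000000000000000000000) (nat_lit 0x0) (nat_lit 0x400060001c00a8000f000e000f00138000000000000000000000000000000) := Q_36 (nat_lit 175) (C_36 L76911 (C_36 L76904 (C_36 L77155 (C_36 L77156 (C_36 L77161 N_36))))) (by decide +kernel)
theorem L77163 : W_36 (nat_lit 2) (nat_lit 0x20000f0007000600000001000080000000000000000000000000000000) (nat_lit 0x0) (nat_lit 0x4000300000000000000000000000000000000000000000000000000000) := D_36 (nat_lit 212) (nat_lit 213) (nat_lit 230) (nat_lit 0) (nat_lit 9) (nat_lit 12) (nat_lit 3) (nat_lit 5) (nat_lit 12) (by decide +kernel)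
theorem L77164 : W_36 (nat_lit 3) (nat_lit 0xf0007000600000001000080000000000000000000000000000000) (nat_lit 0x0) (nat_lit 0x7000300000000000000000000000000000000000000000000000000000) := T_36 (nat_lit 229) (nat_lit 228) (nat_lit 3) (nat_lit 4) (nat_lit 12) L77163 (by decide +kernel)
theorem L77165 : W_36 (nat_lit 4) (nat_lit 0xf0005000600000001000080000000000000000000000000000000) (nat_lit 0x0) (nat_lit 0x7000308002000000000000000000000000000000000000000000000000) := T_36 (nat_lit 193) (nat_lit 207) (nat_lit 2) (nat_lit 3) (nat_lit 12) L77164 (by decide +kernel)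
theorem L77166 : W_36 (nat_lit 6) (nat_lit 0xe0005000600000001000080000000000000000000000000000000) (nat_lit 0x0) (nat_lit 0x800040077c031c002700080000000000000000000000000000000000000000000) := Q_36 (nat_lit 208) (C_36 L76938 (C_36 L76869 (C_36 L77165 N_36))) (by decide +kernel)
theorem L77167 : W_36 (nat_lit 2) (nat_lit 0x3e0005000600000001000080000000000000000000000000000000) (nat_lit 0x0) (nat_lit 0x38000000000000000000000000000000000000000000000000) := D_36 (nat_lit 196) (nat_lit 195) (nat_lit 197) (nat_lit 2) (nat_lit 5) (nat_lit 12) (nat_lit 2) (nat_lit 6) (nat_lit 12) (by decide +kernel)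
theorem L77168 : W_36 (nat_lit 3) (nat_lit 0x1e0005000600000001000080000000000000000000000000000000) (nat_lit 0x0) (nat_lit 0x20003a000000000000000000000000000000000000000000000000) := T_36 (nat_lit 213) (nat_lit 193) (nat_lit 0) (nat_lit 9) (nat_lit 12) L77167 (by decide +kernel)
theorem L77169 : W_36 (nat_lit 4) (nat_lit 0xe0005000600000001000080000000000000000000000000000000) (nat_lit 0x0) (nat_lit 0x4000e00030003a000000000000000000000000000000000000000000000000) := Q_36 (nat_lit 212) (C_36 L77168 (C_36 L76947 (C_36 L76949 N_36))) (by decide +kernel)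
theorem L77170 : W_36 (nat_lit 7) (nat_lit 0xa0005000600000001000080000000000000000000000000000000) (nat_lit 0x0) (nat_lit 0x8004400f7c035c03a700080000000000000000000000000000000000000000000) := Q_36 (nat_lit 210) (C_36 L76957 (C_36 L77166 (C_36 L76870 (C_36 L77169 N_36)))) (by decide +kernel)
theorem L77171 : W_36 (nat_lit 2) (nat_lit 0x200084003e000d000600000001000080000000000000000000000000000000) (nat_lit 0x0) (nat_lit 0x10000c00000000000000000000000000000000000000000000000000000) := D_36 (nat_lit 214) (nat_lit 215) (nat_lit 232) (nat_lit 0) (nat_lit 11) (nat_lit 12) (nat_lit 3) (nat_lit 7) (nat_lit 12) (by decide +kernel)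
theorem L77172 : W_36 (nat_lit 3) (nat_lit 0x200004003e000d000600000001000080000000000000000000000000000000) (nat_lit 0x0) (nat_lit 0x1c000c00000000000000000000000000000000000000000000000000000) := T_36 (nat_lit 231) (nat_lit 230) (nat_lit 3) (nat_lit 6) (nat_lit 12) L77171 (by decide +kernel)
theorem L77173 : W_36 (nat_lit 4) (nat_lit 0x4003e000d000600000001000080000000000000000000000000000000) (nat_lit 0x0) (nat_lit 0x2001d000c00000000000000000000000000000000000000000000000000000) := T_36 (nat_lit 245) (nat_lit 228) (nat_lit 6) (nat_lit 7) (nat_lit 14) L77172 (by decide +kernel)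
theorem L77174 : W_36 (nat_lit 5) (nat_lit 0x4001e000d000600000001000080000000000000000000000000000000) (nat_lit 0x0) (nat_lit 0x2001d000e00002000000000000000000000000000000000000000000000000) := T_36 (nat_lit 213) (nat_lit 193) (nat_lit 3) (nat_lit 5) (nat_lit 11) L77173 (by decide +kernel)
theorem L77175 : W_36 (nat_lit 6) (nat_lit 0x1e000d000600000001000080000000000000000000000000000000) (nat_lit 0x0) (nat_lit 0x2001d600e00002000000000000000000000000000000000000000000000000) := T_36 (nat_lit 226) (nat_lit 225) (nat_lit 1) (nat_lit 8) (nat_lit 12) L77174 (by decide +kernel)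
theorem L77176 : W_36 (nat_lit 7) (nat_lit 0x1a000d000600000001000080000000000000000000000000000000) (nat_lit 0x0) (nat_lit 0x2001d600e40012000000000000000000000000000000000000000000000000) := T_36 (nat_lit 210) (nat_lit 196) (nat_lit 2) (nat_lit 5) (nat_lit 12) L77175 (by decide +kernel)
theorem L77177 : W_36 (nat_lit 2) (nat_lit 0x6000c0007a002d000600000001000080000000000000000000000000000000) (nat_lit 0x0) (nat_lit 0x1000090000000000000000000000000000000000000000000000000000000000000) := D_36 (nat_lit 247) (nat_lit 244) (nat_lit 264) (nat_lit 2) (nat_lit 6) (nat_lit 14) (nat_lit 6) (nat_lit 9) (nat_lit 15) (by decide +kernel)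
theorem L77178 : W_36 (nat_lit 3) (nat_lit 0x600080007a002d000600000001000080000000000000000000000000000000) (nat_lit 0x0) (nat_lit 0x1000090004000040000000000000000000000000000000000000000000000000000) := T_36 (nat_lit 230) (nat_lit 210) (nat_lit 3) (nat_lit 6) (nat_lit 12) L77177 (by decide +kernel)
theorem L77179 : W_36 (nat_lit 4) (nat_lit 0x600000007a002d000600000001000080000000000000000000000000000000) (nat_lit 0x0) (nat_lit 0x100009001c000040000000000000000000000000000000000000000000000000000) := T_36 (nat_lit 231) (nat_lit 232) (nat_lit 3) (nat_lit 7) (nat_lit 12) L77178 (by decide +kernel)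
theorem L77180 : W_36 (nat_lit 5) (nat_lit 0x600000007a000d000600000001000080000000000000000000000000000000) (nat_lit 0x0) (nat_lit 0x100009001c000040060000000000000000000000000000000000000000000000000) := T_36 (nat_lit 197) (nat_lit 198) (nat_lit 2) (nat_lit 7) (nat_lit 12) L77179 (by decide +kernel)
theorem L77181 : W_36 (nat_lit 6) (nat_lit 0x600000003a000d000600000001000080000000000000000000000000000000) (nat_lit 0x0) (nat_lit 0x100009001c000c40060000000000000000000000000000000000000000000000000) := T_36 (nat_lit 214) (nat_lit 215) (nat_lit 0) (nat_lit 11) (nat_lit 12) L77180 (by decide +kernel)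
theorem L77182 : W_36 (nat_lit 7) (nat_lit 0x600000001a000d000600000001000080000000000000000000000000000000) (nat_lit 0x0) (nat_lit 0x100009001c000e40062000000000000000000000000000000000000000000000000) := T_36 (nat_lit 213) (nat_lit 193) (nat_lit 3) (nat_lit 5) (nat_lit 11) L77181 (by decide +kernel)
theorem L77183 : W_36 (nat_lit 8) (nat_lit 0x200000001a000d000600000001000080000000000000000000000000000000) (nat_lit 0x0) (nat_lit 0x10000d001e000e40062000000000000000000000000000000000000000000000000) := T_36 (nat_lit 246) (nat_lit 229) (nat_lit 4) (nat_lit 8) (nat_lit 14) L77182 (by decide +kernel)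
theorem L77184 : W_36 (nat_lit 9) (nat_lit 0x1a000d000600000001000080000000000000000000000000000000) (nat_lit 0x0) (nat_lit 0x10000f001f000e40062000000000000000000000000000000000000000000000000) := T_36 (nat_lit 245) (nat_lit 228) (nat_lit 6) (nat_lit 7) (nat_lit 14) L77183 (by decide +kernel)
theorem L77185 : W_36 (nat_lit 2) (nat_lit 0x1e000d000600000001000080000000000000000000000000000000) (nat_lit 0x0) (nat_lit 0x40006000000000000000000000000000000000000000000000000000000000) := D_36 (nat_lit 229) (nat_lit 246) (nat_lit 230) (nat_lit 4) (nat_lit 8) (nat_lit 14) (nat_lit 3) (nat_lit 5) (nat_lit 12) (by decide +kernel)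
theorem L77186 : W_36 (nat_lit 3) (nat_lit 0x1a000d000600000001000080000000000000000000000000000000) (nat_lit 0x0) (nat_lit 0x40006000040010000000000000000000000000000000000000000000000000) := T_36 (nat_lit 210) (nat_lit 196) (nat_lit 2) (nat_lit 5) (nat_lit 12) L77185 (by decide +kernel)
theorem L77187 : W_36 (nat_lit 2) (nat_lit 0x2000e0007a002d001600000001000080000000000000000000000000000000) (nat_lit 0x0) (nat_lit 0x10002000100000000000000000000000000000000000000000) := D_36 (nat_lit 181) (nat_lit 196) (nat_lit 164) (nat_lit 2) (nat_lit 7) (nat_lit 11) (nat_lit 6) (nat_lit 10) (nat_lit 13) (by decide +kernel)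
theorem L77188 : W_36 (nat_lit 3) (nat_lit 0x2000e0007a002d000600000001000080000000000000000000000000000000) (nat_lit 0x0) (nat_lit 0x10003000180000000000000000000000000000000000000000) := T_36 (nat_lit 180) (nat_lit 163) (nat_lit 5) (nat_lit 10) (nat_lit 9) L77187 (by decide +kernel)
theorem L77189 : W_36 (nat_lit 4) (nat_lit 0x2000e0007a000d000600000001000080000000000000000000000000000000) (nat_lit 0x0) (nat_lit 0x70003000180000000000000000000000000000000000000000) := T_36 (nat_lit 197) (nat_lit 198) (nat_lit 2) (nat_lit 7) (nat_lit 12) L77188 (by decide +kernel)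
theorem L77190 : W_36 (nat_lit 5) (nat_lit 0x2000a0007a000d000600000001000080000000000000000000000000000000) (nat_lit 0x0) (nat_lit 0x80004000000070003000180000000000000000000000000000000000000000) := T_36 (nat_lit 230) (nat_lit 247) (nat_lit 7) (nat_lit 8) (nat_lit 10) L77189 (by decide +kernel)
theorem L77191 : W_36 (nat_lit 6) (nat_lit 0x200020007a000d000600000001000080000000000000000000000000000000) (nat_lit 0x0) (nat_lit 0x8001c000000070003000180000000000000000000000000000000000000000) := T_36 (nat_lit 231) (nat_lit 232) (nat_lit 3) (nat_lit 7) (nat_lit 12) L77190 (by decide +kernel)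
theorem L77192 : W_36 (nat_lit 7) (nat_lit 0x200000007a000d000600000001000080000000000000000000000000000000) (nat_lit 0x0) (nat_lit 0xc001e000000070003000180000000000000000000000000000000000000000) := T_36 (nat_lit 229) (nat_lit 246) (nat_lit 4) (nat_lit 8) (nat_lit 14) L77191 (by decide +kernel)
theorem L77193 : W_36 (nat_lit 8) (nat_lit 0x200000003a000d000600000001000080000000000000000000000000000000) (nat_lit 0x0) (nat_lit 0xc001e000c00070003000180000000000000000000000000000000000000000) := T_36 (nat_lit 214) (nat_lit 215) (nat_lit 0) (nat_lit 11) (nat_lit 12) L77192 (by decide +kernel)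
theorem L77194 : W_36 (nat_lit 9) (nat_lit 0x3a000d000600000001000080000000000000000000000000000000) (nat_lit 0x0) (nat_lit 0xe001f000c00070003000180000000000000000000000000000000000000000) := T_36 (nat_lit 245) (nat_lit 228) (nat_lit 6) (nat_lit 7) (nat_lit 14) L77193 (by decide +kernel)
theorem L77195 : W_36 (nat_lit 10) (nat_lit 0x1a000d000600000001000080000000000000000000000000000000) (nat_lit 0x0) (nat_lit 0xe001f000e00072003000180000000000000000000000000000000000000000) := T_36 (nat_lit 213) (nat_lit 193) (nat_lit 3) (nat_lit 5) (nat_lit 11) L77194 (by decide +kernel)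
theorem L77196 : W_36 (nat_lit 2) (nat_lit 0x8000780004001e000f000680000001000080000000000000000000000000000000) (nat_lit 0x0) (nat_lit 0x480004000000000000000000000000000000000000000000000000000000000000) := D_36 (nat_lit 242) (nat_lit 262) (nat_lit 259) (nat_lit 3) (nat_lit 4) (nat_lit 14) (nat_lit 5) (nat_lit 5) (nat_lit 11) (by decide +kernel)
theorem L77197 : W_36 (nat_lit 3) (nat_lit 0x780004001e000f000680000001000080000000000000000000000000000000) (nat_lit 0x0) (nat_lit 0x1c80004000000000000000000000000000000000000000000000000000000000000) := T_36 (nat_lit 263) (nat_lit 264) (nat_lit 3) (nat_lit 5) (nat_lit 14) L77196 (by decide +kernel)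
theorem L77198 : W_36 (nat_lit 4) (nat_lit 0x680004001e000f000680000001000080000000000000000000000000000000) (nat_lit 0x0) (nat_lit 0x1e80014000000000000000000000000000000000000000000000000000000000000) := T_36 (nat_lit 244) (nat_lit 261) (nat_lit 7) (nat_lit 5) (nat_lit 11) L77197 (by decide +kernel)
theorem L77199 : W_36 (nat_lit 5) (nat_lit 0x280004001e000f000680000001000080000000000000000000000000000000) (nat_lit 0x0) (nat_lit 0x1e80054002000000000000000000000000000000000000000000000000000000000) := T_36 (nat_lit 246) (nat_lit 229) (nat_lit 4) (nat_lit 8) (nat_lit 14) L77198 (by decide +kernel)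
theorem L77200 : W_36 (nat_lit 6) (nat_lit 0x200004001e000f000680000001000080000000000000000000000000000000) (nat_lit 0x0) (nat_lit 0x1f8005c002000000000000000000000000000000000000000000000000000000000) := T_36 (nat_lit 243) (nat_lit 260) (nat_lit 6) (nat_lit 5) (nat_lit 15) L77199 (by decide +kernel)
theorem L77201 : W_36 (nat_lit 7) (nat_lit 0x200004001e000f000600000001000080000000000000000000000000000000) (nat_lit 0x0) (nat_lit 0x1f8005c0020000000000000c0000000000000000000000000000000000000000000) := T_36 (nat_lit 175) (nat_lit 174) (nat_lit 0) (nat_lit 8) (nat_lit 11) L77200 (by decide +kernel)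
theorem L77202 : W_36 (nat_lit 8) (nat_lit 0x200004001e000d000600000001000080000000000000000000000000000000) (nat_lit 0x0) (nat_lit 0x1f8005c0020002000020000c0000000000000000000000000000000000000000000) := T_36 (nat_lit 193) (nat_lit 213) (nat_lit 3) (nat_lit 5) (nat_lit 11) L77201 (by decide +kernel)
theorem L77203 : W_36 (nat_lit 9) (nat_lit 0x200000001e000d000600000001000080000000000000000000000000000000) (nat_lit 0x0) (nat_lit 0x1f8005c0026002000020000c0000000000000000000000000000000000000000000) := T_36 (nat_lit 226) (nat_lit 225) (nat_lit 1) (nat_lit 8) (nat_lit 12) L77202 (by decide +kernel)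
theorem L77204 : W_36 (nat_lit 10) (nat_lit 0x200000001a000d000600000001000080000000000000000000000000000000) (nat_lit 0x0) (nat_lit 0x1f8005c0026002400120000c0000000000000000000000000000000000000000000) := T_36 (nat_lit 210) (nat_lit 196) (nat_lit 2) (nat_lit 5) (nat_lit 12) L77203 (by decide +kernel)
theorem L77205 : W_36 (nat_lit 11) (nat_lit 0x1a000d000600000001000080000000000000000000000000000000) (nat_lit 0x0) (nat_lit 0x1f8007c0036002400120000c0000000000000000000000000000000000000000000) := T_36 (nat_lit 245) (nat_lit 228) (nat_lit 6) (nat_lit 7) (nat_lit 14) L77204 (by decide +kernel)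
theorem L77206 : W_36 (nat_lit 12) (nat_lit 0x1a0005000600000001000080000000000000000000000000000000) (nat_lit 0x0) (nat_lit 0x1f800fc01f600e4007a0030c0180000000000000000000000000000000000000000) := Q_36 (nat_lit 195) (C_36 L77176 (C_36 L77184 (C_36 L77186 (C_36 L77195 (C_36 L77205 N_36))))) (by decide +kernel)
theorem L77207 : W_36 (nat_lit 13) (nat_lit 0xa0005000600000001000080000000000000000000000000000000) (nat_lit 0x0) (nat_lit 0x1f800fc01f600f4007a8030c0180000000000000000000000000000000000000000) := Q_36 (nat_lit 212) (C_36 L76962 (C_36 L76960 (C_36 L76959 (C_36 L77206 N_36)))) (by decide +kernel)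
theorem L77208 : W_36 (nat_lit 14) (nat_lit 0x80005000600000001000080000000000000000000000000000000) (nat_lit 0x0) (nat_lit 0x1f800fc01f7c0f7c07af030f018e000f00138000000000000000000000000000000) := Q_36 (nat_lit 209) (C_36 L76882 (C_36 L76876 (C_36 L77154 (C_36 L77162 (C_36 L77170 (C_36 L77207 N_36)))))) (by decide +kernel)
theorem L77209 : W_36 (nat_lit 15) (nat_lit 0x5000600000001000080000000000000000000000000000000) (nat_lit 0x0) (nat_lit 0x35001f807fe01ffc1ffe07af030f018e000f00138000000000000000000000000000000) := Q_36 (nat_lit 211) (C_36 L76733 (C_36 L76775 (C_36 L76830 (C_36 L76854 (C_36 L76965 (C_36 L76979 (C_36 L76998 (C_36 L77006 (C_36 L77029 (C_36 L77054 (C_36 L77073 (C_36 L77136 (C_36 L77148 (C_36 L77208 N_36)))))))))))))) (by decide +kernel)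
theorem L77211 : W_36 (nat_lit 3) (nat_lit 0x5000700000001000080000000000000000000000000000000) (nat_lit 0x0) (nat_lit 0x188000c0000000000000000000000000000000000000000000) := T_36 (nat_lit 175) (nat_lit 191) (nat_lit 1) (nat_lit 8) (nat_lit 10) L77210 (by decide +kernel)
theorem L77212 : W_36 (nat_lit 2) (nat_lit 0xe000200018001c0005800700000001000080000000000000000000000000000000) (nat_lit 0x0) (nat_lit 0x400600000000000000000000000000000000000000000000000000000) := D_36 (nat_lit 213) (nat_lit 226) (nat_lit 214) (nat_lit 1) (nat_lit 9) (nat_lit 12) (nat_lit 1) (nat_lit 10) (nat_lit 12) (by decide +kernel)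
theorem L77213 : W_36 (nat_lit 3) (nat_lit 0xe000200018000c0005800700000001000080000000000000000000000000000000) (nat_lit 0x0) (nat_lit 0x400720000000000000000000000000000000000000000000000000000) := T_36 (nat_lit 212) (nat_lit 209) (nat_lit 0) (nat_lit 8) (nat_lit 12) L77212 (by decide +kernel)
theorem L77214 : W_36 (nat_lit 4) (nat_lit 0xe00020001800080005800700000001000080000000000000000000000000000000) (nat_lit 0x0) (nat_lit 0x8000000000000400760000000000000000000000000000000000000000000000000000) := T_36 (nat_lit 210) (nat_lit 279) (nat_lit 4) (nat_lit 7) (nat_lit 16) L77213 (by decide +kernel)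
theorem L77215 : W_36 (nat_lit 5) (nat_lit 0xc00020001800080005800700000001000080000000000000000000000000000000) (nat_lit 0x0) (nat_lit 0xc000200000000400760000000000000000000000000000000000000000000000000000) := T_36 (nat_lit 261) (nat_lit 278) (nat_lit 5) (nat_lit 7) (nat_lit 12) L77214 (by decide +kernel)
theorem L77216 : W_36 (nat_lit 6) (nat_lit 0x800020001800080005800700000001000080000000000000000000000000000000) (nat_lit 0x0) (nat_lit 0x1c000600000000400760000000000000000000000000000000000000000000000000000) := T_36 (nat_lit 262) (nat_lit 280) (nat_lit 7) (nat_lit 7) (nat_lit 12) L77215 (by decide +kernel)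
theorem L77217 : W_36 (nat_lit 7) (nat_lit 0x20001800080005800700000001000080000000000000000000000000000000) (nat_lit 0x0) (nat_lit 0x1c000e00040000400760000000000000000000000000000000000000000000000000000) := T_36 (nat_lit 263) (nat_lit 246) (nat_lit 7) (nat_lit 7) (nat_lit 11) L77216 (by decide +kernel)
theorem L77218 : W_36 (nat_lit 8) (nat_lit 0x1800080005800700000001000080000000000000000000000000000000) (nat_lit 0x0) (nat_lit 0x1c000e00060000400760008000000000000000000000000000000000000000000000000) := T_36 (nat_lit 245) (nat_lit 195) (nat_lit 6) (nat_lit 7) (nat_lit 14) L77217 (by decide +kernel)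
theorem L77219 : W_36 (nat_lit 9) (nat_lit 0x1000080005800700000001000080000000000000000000000000000000) (nat_lit 0x0) (nat_lit 0x1c000e00070000c00760008000000000000000000000000000000000000000000000000) := T_36 (nat_lit 227) (nat_lit 244) (nat_lit 5) (nat_lit 7) (nat_lit 10) L77218 (by decide +kernel)
theorem L77220 : W_36 (nat_lit 10) (nat_lit 0x1000000005800700000001000080000000000000000000000000000000) (nat_lit 0x0) (nat_lit 0x1c000e00070000c007e0008000000008000000000000000000000000000000000000000) := T_36 (nat_lit 211) (nat_lit 159) (nat_lit 4) (nat_lit 7) (nat_lit 13) L77219 (by decide +kernel)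
theorem L77221 : W_36 (nat_lit 11) (nat_lit 0x1000000005000700000001000080000000000000000000000000000000) (nat_lit 0x0) (nat_lit 0x1c000e00070000c007e000a800000008000000000000000000000000000000000000000) := T_36 (nat_lit 191) (nat_lit 193) (nat_lit 2) (nat_lit 4) (nat_lit 11) L77220 (by decide +kernel)
theorem L77222 : W_36 (nat_lit 2) (nat_lit 0x1000080005000700000001000080000000000000000000000000000000) (nat_lit 0x0) (nat_lit 0x20000000000002800000000000000000000000000000000000000000000000) := D_36 (nat_lit 193) (nat_lit 191) (nat_lit 245) (nat_lit 2) (nat_lit 4) (nat_lit 11) (nat_lit 4) (nat_lit 7) (nat_lit 14) (by decide +kernel)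
theorem L77223 : W_36 (nat_lit 3) (nat_lit 0x1000000005000700000001000080000000000000000000000000000000) (nat_lit 0x0) (nat_lit 0x20000000080002800000008000000000000000000000000000000000000000) := T_36 (nat_lit 211) (nat_lit 159) (nat_lit 4) (nat_lit 7) (nat_lit 13) L77222 (by decide +kernel)
theorem L77224 : W_36 (nat_lit 9) (nat_lit 0x1800000005800700000001000080000000000000000000000000000000) (nat_lit 0x0) (nat_lit 0x1c000e000700004007e0008000000000000000000000000000000000000000000000000) := T_36 (nat_lit 211) (nat_lit 244) (nat_lit 5) (nat_lit 7) (nat_lit 10) L77218 (by decide +kernel)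
theorem L77225 : W_36 (nat_lit 10) (nat_lit 0x1800000005000700000001000080000000000000000000000000000000) (nat_lit 0x0) (nat_lit 0x1c000e000700004007e000a800000000000000000000000000000000000000000000000) := T_36 (nat_lit 191) (nat_lit 193) (nat_lit 2) (nat_lit 4) (nat_lit 11) L77224 (by decide +kernel)
theorem L77226 : W_36 (nat_lit 2) (nat_lit 0x1800080005000700000001000080000000000000000000000000000000) (nat_lit 0x0) (nat_lit 0x2000000000000a000000000000000000000000000000000000000000000000) := D_36 (nat_lit 245) (nat_lit 193) (nat_lit 195) (nat_lit 4) (nat_lit 7) (nat_lit 14) (nat_lit 6) (nat_lit 7) (nat_lit 14) (by decide +kernel)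
theorem L77227 : W_36 (nat_lit 3) (nat_lit 0x1800000005000700000001000080000000000000000000000000000000) (nat_lit 0x0) (nat_lit 0x3000000008000a000000000000000000000000000000000000000000000000) := T_36 (nat_lit 211) (nat_lit 244) (nat_lit 5) (nat_lit 7) (nat_lit 10) L77226 (by decide +kernel)
theorem L77228 : W_36 (nat_lit 2) (nat_lit 0x1800080005000700000001000080000000000000000000000000000000) (nat_lit 0x0) (nat_lit 0x20000000000002800000000000000000000000000000000000000000000000) := D_36 (nat_lit 193) (nat_lit 245) (nat_lit 191) (nat_lit 4) (nat_lit 7) (nat_lit 14) (nat_lit 2) (nat_lit 4) (nat_lit 11) (by decide +kernel)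
theorem L77229 : W_36 (nat_lit 3) (nat_lit 0x1800000005000700000001000080000000000000000000000000000000) (nat_lit 0x0) (nat_lit 0x30000000080002800000000000000000000000000000000000000000000000) := T_36 (nat_lit 211) (nat_lit 244) (nat_lit 5) (nat_lit 7) (nat_lit 10) L77228 (by decide +kernel)
theorem L77230 : W_36 (nat_lit 2) (nat_lit 0x20001800080005000700000001000080000000000000000000000000000000) (nat_lit 0x0) (nat_lit 0x800040002000000000000000000000000000000000000000000000000000000000) := D_36 (nat_lit 246) (nat_lit 229) (nat_lit 263) (nat_lit 7) (nat_lit 7) (nat_lit 10) (nat_lit 7) (nat_lit 7) (nat_lit 11) (by decide +kernel)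
theorem L77231 : W_36 (nat_lit 3) (nat_lit 0x1800080005000700000001000080000000000000000000000000000000) (nat_lit 0x0) (nat_lit 0x800060002000000008000000000000000000000000000000000000000000000000) := T_36 (nat_lit 245) (nat_lit 195) (nat_lit 6) (nat_lit 7) (nat_lit 14) L77230 (by decide +kernel)
theorem L77232 : W_36 (nat_lit 4) (nat_lit 0x1800000005000700000001000080000000000000000000000000000000) (nat_lit 0x0) (nat_lit 0x800070002000080008000000000000000000000000000000000000000000000000) := T_36 (nat_lit 211) (nat_lit 244) (nat_lit 5) (nat_lit 7) (nat_lit 10) L77231 (by decide +kernel)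
theorem L77233 : W_36 (nat_lit 2) (nat_lit 0x1800000007000700000001000080000000000000000000000000000000) (nat_lit 0x0) (nat_lit 0x30000000040000000000000000000000000000000000000000000000000000) := D_36 (nat_lit 210) (nat_lit 245) (nat_lit 244) (nat_lit 7) (nat_lit 6) (nat_lit 10) (nat_lit 6) (nat_lit 6) (nat_lit 14) (by decide +kernel)
theorem L77234 : W_36 (nat_lit 3) (nat_lit 0x1800000005000700000001000080000000000000000000000000000000) (nat_lit 0x0) (nat_lit 0x30000000040002800000000000000000000000000000000000000000000000) := T_36 (nat_lit 193) (nat_lit 191) (nat_lit 2) (nat_lit 4) (nat_lit 11) L77233 (by decide +kernel)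
theorem L77235 : W_36 (nat_lit 2) (nat_lit 0x1800000007000700000001000080000000000000000000000000000000) (nat_lit 0x0) (nat_lit 0x100000000c0000000000000000000000000000000000000000000000000000) := D_36 (nat_lit 244) (nat_lit 211) (nat_lit 210) (nat_lit 5) (nat_lit 7) (nat_lit 10) (nat_lit 6) (nat_lit 6) (nat_lit 14) (by decide +kernel)
theorem L77236 : W_36 (nat_lit 3) (nat_lit 0x1800000005000700000001000080000000000000000000000000000000) (nat_lit 0x0) (nat_lit 0x100000000c0002800000000000000000000000000000000000000000000000) := T_36 (nat_lit 193) (nat_lit 191) (nat_lit 2) (nat_lit 4) (nat_lit 11) L77235 (by decide +kernel)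
theorem L77237 : W_36 (nat_lit 2) (nat_lit 0x1800000007000700000001000080000000000000000000000000000000) (nat_lit 0x0) (nat_lit 0x200000000c0000000000000000000000000000000000000000000000000000) := D_36 (nat_lit 245) (nat_lit 210) (nat_lit 211) (nat_lit 7) (nat_lit 6) (nat_lit 10) (nat_lit 4) (nat_lit 7) (nat_lit 14) (by decide +kernel)
theorem L77238 : W_36 (nat_lit 3) (nat_lit 0x1800000005000700000001000080000000000000000000000000000000) (nat_lit 0x0) (nat_lit 0x200000000c0002800000000000000000000000000000000000000000000000) := T_36 (nat_lit 193) (nat_lit 191) (nat_lit 2) (nat_lit 4) (nat_lit 11) L77237 (by decide +kernel)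
theorem L77239 : W_36 (nat_lit 11) (nat_lit 0x1000000005000700000001000080000000000000000000000000000000) (nat_lit 0x0) (nat_lit 0x1c000e00070002c007e000a800000000000000000000000000000000000000000000000) := Q_36 (nat_lit 227) (C_36 L77225 (C_36 L77227 (C_36 L77229 (C_36 L77232 (C_36 L77234 (C_36 L77236 (C_36 L77238 N_36))))))) (by decide +kernel)
theorem L77240 : W_36 (nat_lit 4) (nat_lit 0x1000080005000700000001000080000000000000000000000000000000) (nat_lit 0x0) (nat_lit 0x800070002800000008000000000000000000000000000000000000000000000000) := T_36 (nat_lit 227) (nat_lit 244) (nat_lit 5) (nat_lit 7) (nat_lit 10) L77231 (by decide +kernel)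
theorem L77241 : W_36 (nat_lit 5) (nat_lit 0x1000000005000700000001000080000000000000000000000000000000) (nat_lit 0x0) (nat_lit 0x800070002800080008000000008000000000000000000000000000000000000000) := T_36 (nat_lit 211) (nat_lit 159) (nat_lit 4) (nat_lit 7) (nat_lit 13) L77240 (by decide +kernel)
theorem L77242 : W_36 (nat_lit 2) (nat_lit 0x100012002f000700008001000080000000000000000000000000000000) (nat_lit 0x0) (nat_lit 0x8000400040000000000000000000000000000000000000000000000000000) := D_36 (nat_lit 226) (nat_lit 243) (nat_lit 210) (nat_lit 6) (nat_lit 5) (nat_lit 14) (nat_lit 5) (nat_lit 6) (nat_lit 9) (by decide +kernel)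
theorem L77243 : W_36 (nat_lit 3) (nat_lit 0x100012002f000700000001000080000000000000000000000000000000) (nat_lit 0x0) (nat_lit 0x8000400040000000000008000400000000000000000000000000000000000) := T_36 (nat_lit 159) (nat_lit 142) (nat_lit 5) (nat_lit 6) (nat_lit 8) L77242 (by decide +kernel)
theorem L77244 : W_36 (nat_lit 4) (nat_lit 0x100010002f000700000001000080000000000000000000000000000000) (nat_lit 0x0) (nat_lit 0x8000400070000000000008000400000000000000000000000000000000000) := T_36 (nat_lit 209) (nat_lit 208) (nat_lit 1) (nat_lit 8) (nat_lit 11) L77243 (by decide +kernel)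
theorem L77245 : W_36 (nat_lit 5) (nat_lit 0x100000002f000700000001000080000000000000000000000000000000) (nat_lit 0x0) (nat_lit 0x8000400370000000000008000400000000000000000000000000000000000) := T_36 (nat_lit 212) (nat_lit 213) (nat_lit 3) (nat_lit 5) (nat_lit 11) L77244 (by decide +kernel)
theorem L77246 : W_36 (nat_lit 6) (nat_lit 0x100000000f000700000001000080000000000000000000000000000000) (nat_lit 0x0) (nat_lit 0x8000400370030000000008000400000000000000000000000000000000000) := T_36 (nat_lit 197) (nat_lit 196) (nat_lit 0) (nat_lit 10) (nat_lit 11) L77245 (by decide +kernel)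
theorem L77247 : W_36 (nat_lit 2) (nat_lit 0x100002000f000700000001000080000000000000000000000000000000) (nat_lit 0x0) (nat_lit 0x40030000000000000000000000000000000000000000000000000) := D_36 (nat_lit 196) (nat_lit 197) (nat_lit 210) (nat_lit 0) (nat_lit 10) (nat_lit 11) (nat_lit 1) (nat_lit 9) (nat_lit 11) (by decide +kernel)
theorem L77248 : W_36 (nat_lit 3) (nat_lit 0x100000000f000700000001000080000000000000000000000000000000) (nat_lit 0x0) (nat_lit 0x70030000000000000000000000000000000000000000000000000) := T_36 (nat_lit 209) (nat_lit 208) (nat_lit 1) (nat_lit 8) (nat_lit 11) L77247 (by decide +kernel)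
theorem L77249 : W_36 (nat_lit 2) (nat_lit 0x100012000f000700000001000080000000000000000000000000000000) (nat_lit 0x0) (nat_lit 0x60002000000000000000000000000000000000000000000000000000000000) := D_36 (nat_lit 229) (nat_lit 246) (nat_lit 245) (nat_lit 4) (nat_lit 8) (nat_lit 14) (nat_lit 5) (nat_lit 8) (nat_lit 10) (by decide +kernel)
theorem L77250 : W_36 (nat_lit 3) (nat_lit 0x100002000f000700000001000080000000000000000000000000000000) (nat_lit 0x0) (nat_lit 0x60002000300000000000000000000000000000000000000000000000000000) := T_36 (nat_lit 212) (nat_lit 213) (nat_lit 3) (nat_lit 5) (nat_lit 11) L77249 (by decide +kernel)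
theorem L77251 : W_36 (nat_lit 4) (nat_lit 0x100000000f000700000001000080000000000000000000000000000000) (nat_lit 0x0) (nat_lit 0x60002000330000000000000000000000000000000000000000000000000000) := T_36 (nat_lit 209) (nat_lit 208) (nat_lit 1) (nat_lit 8) (nat_lit 11) L77250 (by decide +kernel)
theorem L77254 : W_36 (nat_lit 7) (nat_lit 0x1000000007000700000001000080000000000000000000000000000000) (nat_lit 0x0) (nat_lit 0x68002400370038000000008000400000000000000000000000000000000000) := Q_36 (nat_lit 195) (C_36 L77246 (C_36 L77248 (C_36 L77251 (C_36 L77253 N_36)))) (by decide +kernel)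
theorem L77255 : W_36 (nat_lit 8) (nat_lit 0x1000000005000700000001000080000000000000000000000000000000) (nat_lit 0x0) (nat_lit 0x6800240037003a800000008000400000000000000000000000000000000000) := T_36 (nat_lit 193) (nat_lit 191) (nat_lit 2) (nat_lit 4) (nat_lit 11) L77254 (by decide +kernel)
theorem L77256 : W_36 (nat_lit 2) (nat_lit 0x1000000007000700008001000080000000000000000000000000000000) (nat_lit 0x0) (nat_lit 0x20000000000000000400020000000000000000000000000000000) := D_36 (nat_lit 142) (nat_lit 209) (nat_lit 125) (nat_lit 5) (nat_lit 6) (nat_lit 8) (nat_lit 7) (nat_lit 6) (nat_lit 7) (by decide +kernel)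
theorem L77257 : W_36 (nat_lit 3) (nat_lit 0x1000000007000700000001000080000000000000000000000000000000) (nat_lit 0x0) (nat_lit 0xa0000000000008000400020000000000000000000000000000000) := T_36 (nat_lit 159) (nat_lit 211) (nat_lit 4) (nat_lit 7) (nat_lit 13) L77256 (by decide +kernel)
theorem L77258 : W_36 (nat_lit 4) (nat_lit 0x1000000005000700000001000080000000000000000000000000000000) (nat_lit 0x0) (nat_lit 0xa0002800000008000400020000000000000000000000000000000) := T_36 (nat_lit 193) (nat_lit 191) (nat_lit 2) (nat_lit 4) (nat_lit 11) L77257 (by decide +kernel)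
theorem L77259 : W_36 (nat_lit 12) (nat_lit 0x5000700000001000080000000000000000000000000000000) (nat_lit 0x0) (nat_lit 0x1c000e00078003c007f003a800000008000400020000000000000000000000000000000) := Q_36 (nat_lit 228) (C_36 L77221 (C_36 L77223 (C_36 L77239 (C_36 L77241 (C_36 L77255 (C_36 L77258 N_36)))))) (by decide +kernel)
theorem L77260 : W_36 (nat_lit 2) (nat_lit 0x5000700000001000080000000000000000000000000000000) (nat_lit 0x0) (nat_lit 0x2800080000000000000000000000000000000000000000000) := D_36 (nat_lit 191) (nat_lit 193) (nat_lit 175) (nat_lit 2) (nat_lit 4) (nat_lit 11) (nat_lit 1) (nat_lit 8) (nat_lit 10) (by decide +kernel)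
theorem L77261 : W_36 (nat_lit 2) (nat_lit 0x500078000c001000080000000000000000000000000000000) (nat_lit 0x0) (nat_lit 0x20000000000000000400020000000000000000000000000000000) := D_36 (nat_lit 142) (nat_lit 125) (nat_lit 209) (nat_lit 7) (nat_lit 6) (nat_lit 7) (nat_lit 6) (nat_lit 5) (nat_lit 12) (by decide +kernel)
theorem L77262 : W_36 (nat_lit 3) (nat_lit 0x5000780008001000080000000000000000000000000000000) (nat_lit 0x0) (nat_lit 0x20000000000006000400020000000000000000000000000000000) := T_36 (nat_lit 158) (nat_lit 157) (nat_lit 0) (nat_lit 8) (nat_lit 10) L77261 (by decide +kernel)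
theorem L77263 : W_36 (nat_lit 2) (nat_lit 0x5000780008001400080000000000000000000000000000000) (nat_lit 0x0) (nat_lit 0x1000080002000000000000000000000000000000000000000000000000) := D_36 (nat_lit 211) (nat_lit 228) (nat_lit 193) (nat_lit 4) (nat_lit 7) (nat_lit 13) (nat_lit 7) (nat_lit 6) (nat_lit 8) (by decide +kernel)
theorem L77264 : W_36 (nat_lit 3) (nat_lit 0x5000780008001000080000000000000000000000000000000) (nat_lit 0x0) (nat_lit 0x1000080002000000000000400020000000000000000000000000000000) := T_36 (nat_lit 142) (nat_lit 125) (nat_lit 7) (nat_lit 6) (nat_lit 7) L77263 (by decide +kernel)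
theorem L77265 : W_36 (nat_lit 2) (nat_lit 0x100006000500078000c001200090000000000000000000000000000000) (nat_lit 0x0) (nat_lit 0x100008000400000000000000000000000000) := D_36 (nat_lit 123) (nat_lit 140) (nat_lit 106) (nat_lit 4) (nat_lit 5) (nat_lit 11) (nat_lit 4) (nat_lit 5) (nat_lit 10) (by decide +kernel)
theorem L77266 : W_36 (nat_lit 3) (nat_lit 0x100006000500078000c001200080000000000000000000000000000000) (nat_lit 0x0) (nat_lit 0x100018000c00000000000000000000000000) := T_36 (nat_lit 124) (nat_lit 107) (nat_lit 7) (nat_lit 5) (nat_lit 6) L77265 (by decide +kernel)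
theorem L77267 : W_36 (nat_lit 4) (nat_lit 0x100006000500078000c001000080000000000000000000000000000000) (nat_lit 0x0) (nat_lit 0x2000000000000300018000c00000000000000000000000000) := T_36 (nat_lit 141) (nat_lit 193) (nat_lit 7) (nat_lit 5) (nat_lit 8) L77266 (by decide +kernel)
theorem L77268 : W_36 (nat_lit 5) (nat_lit 0x100002000500078000c001000080000000000000000000000000000000) (nat_lit 0x0) (nat_lit 0x800040002000000000000300018000c00000000000000000000000000) := T_36 (nat_lit 210) (nat_lit 227) (nat_lit 7) (nat_lit 5) (nat_lit 9) L77267 (by decide +kernel)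
theorem L77269 : W_36 (nat_lit 6) (nat_lit 0x2000500078000c001000080000000000000000000000000000000) (nat_lit 0x0) (nat_lit 0x18000c0002000000000000300018000c00000000000000000000000000) := T_36 (nat_lit 228) (nat_lit 211) (nat_lit 4) (nat_lit 7) (nat_lit 13) L77268 (by decide +kernel)
theorem L77270 : W_36 (nat_lit 7) (nat_lit 0x500078000c001000080000000000000000000000000000000) (nat_lit 0x0) (nat_lit 0x1c000e0002000000000000300018000c00000000000000000000000000) := T_36 (nat_lit 209) (nat_lit 226) (nat_lit 6) (nat_lit 5) (nat_lit 13) L77269 (by decide +kernel)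
theorem L77271 : W_36 (nat_lit 8) (nat_lit 0x5000780008001000080000000000000000000000000000000) (nat_lit 0x0) (nat_lit 0x1c000e0002000000006000300018000c00000000000000000000000000) := T_36 (nat_lit 158) (nat_lit 157) (nat_lit 0) (nat_lit 8) (nat_lit 10) L77270 (by decide +kernel)
theorem L77272 : W_36 (nat_lit 9) (nat_lit 0x5000780000001000080000000000000000000000000000000) (nat_lit 0x0) (nat_lit 0x1c000e000200000000e000700038000c00000000000000000000000000) := Q_36 (nat_lit 159) (C_36 L77262 (C_36 L77264 (C_36 L77271 N_36))) (by decide +kernel)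
theorem L77273 : W_36 (nat_lit 10) (nat_lit 0x5000700000001000080000000000000000000000000000000) (nat_lit 0x0) (nat_lit 0x1c000e001a0000c000e000700038000c00000000000000000000000000) := Q_36 (nat_lit 175) (C_36 L77210 (C_36 L77272 N_36)) (by decide +kernel)
theorem L77274 : W_36 (nat_lit 13) (nat_lit 0x5000600000001000080000000000000000000000000000000) (nat_lit 0x0) (nat_lit 0x1c000e00078003c007f003a8001c000e000700038000c00000000000000000000000000) := Q_36 (nat_lit 176) (C_36 L77211 (C_36 L77259 (C_36 L77260 (C_36 L77273 N_36)))) (by decide +kernel)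
theorem L77275 : W_36 (nat_lit 2) (nat_lit 0x18001e8005000600000001000080000000000000000000000000000000) (nat_lit 0x0) (nat_lit 0x600200000000000000000000000000000000000000000000000000000) := D_36 (nat_lit 226) (nat_lit 225) (nat_lit 213) (nat_lit 2) (nat_lit 4) (nat_lit 13) (nat_lit 1) (nat_lit 9) (nat_lit 12) (by decide +kernel)
theorem L77276 : W_36 (nat_lit 3) (nat_lit 0x18000e8005000600000001000080000000000000000000000000000000) (nat_lit 0x0) (nat_lit 0x600300000800000000000000000000000000000000000000000000000) := T_36 (nat_lit 212) (nat_lit 191) (nat_lit 0) (nat_lit 8) (nat_lit 12) L77275 (by decide +kernel)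
theorem L77277 : W_36 (nat_lit 4) (nat_lit 0x18000e0005000600000001000080000000000000000000000000000000) (nat_lit 0x0) (nat_lit 0x600318000800000000000000000000000000000000000000000000000) := T_36 (nat_lit 207) (nat_lit 208) (nat_lit 3) (nat_lit 3) (nat_lit 12) L77276 (by decide +kernel)
theorem L77278 : W_36 (nat_lit 5) (nat_lit 0x10000e0005000600000001000080000000000000000000000000000000) (nat_lit 0x0) (nat_lit 0x10000e00318000800000000000000000000000000000000000000000000000) := T_36 (nat_lit 227) (nat_lit 244) (nat_lit 5) (nat_lit 7) (nat_lit 10) L77277 (by decide +kernel)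
theorem L77279 : W_36 (nat_lit 2) (nat_lit 0x18001e0005000700000001000080000000000000000000000000000000) (nat_lit 0x0) (nat_lit 0x600200000000000000000000000000000000000000000000000000000) := D_36 (nat_lit 226) (nat_lit 225) (nat_lit 213) (nat_lit 2) (nat_lit 4) (nat_lit 13) (nat_lit 1) (nat_lit 9) (nat_lit 12) (by decide +kernel)
theorem L77280 : W_36 (nat_lit 3) (nat_lit 0x18000e0005000700000001000080000000000000000000000000000000) (nat_lit 0x0) (nat_lit 0x600300000800000000000000000000000000000000000000000000000) := T_36 (nat_lit 212) (nat_lit 191) (nat_lit 0) (nat_lit 8) (nat_lit 12) L77279 (by decide +kernel)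
theorem L77281 : W_36 (nat_lit 4) (nat_lit 0x10000e0005000700000001000080000000000000000000000000000000) (nat_lit 0x0) (nat_lit 0x10000e00300000800000000000000000000000000000000000000000000000) := T_36 (nat_lit 227) (nat_lit 244) (nat_lit 5) (nat_lit 7) (nat_lit 10) L77280 (by decide +kernel)
theorem L77282 : W_36 (nat_lit 5) (nat_lit 0x10000e0005000600000001000080000000000000000000000000000000) (nat_lit 0x0) (nat_lit 0x10000e00300000800100008000000000000000000000000000000000000000) := T_36 (nat_lit 176) (nat_lit 159) (nat_lit 4) (nat_lit 7) (nat_lit 13) L77281 (by decide +kernel)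
theorem L77283 : W_36 (nat_lit 6) (nat_lit 0x10000c0005000600000001000080000000000000000000000000000000) (nat_lit 0x0) (nat_lit 0x10000e00338018800100008000000000000000000000000000000000000000) := Q_36 (nat_lit 209) (C_36 L76714 (C_36 L77278 (C_36 L76707 (C_36 L77282 N_36)))) (by decide +kernel)
theorem L77284 : W_36 (nat_lit 9) (nat_lit 0x1000080005000600000001000080000000000000000000000000000000) (nat_lit 0x0) (nat_lit 0x5e00ef00778018800100008000000000000000000000000000000000000000) := Q_36 (nat_lit 210) (C_36 L77283 (C_36 L76726 (C_36 L76789 (C_36 L76729 N_36)))) (by decide +kernel)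
theorem L77285 : W_36 (nat_lit 10) (nat_lit 0x80005000600000001000080000000000000000000000000000000) (nat_lit 0x0) (nat_lit 0xa0007e00ff00778018800100008000000000000000000000000000000000000000) := Q_36 (nat_lit 228) (C_36 L76695 (C_36 L76732 (C_36 L76693 (C_36 L77284 N_36)))) (by decide +kernel)
theorem L77286 : W_36 (nat_lit 2) (nat_lit 0x1000080007000600000001000080000000000000000000000000000000) (nat_lit 0x0) (nat_lit 0x20000000000000000100008000000000000000000000000000000000000000) := D_36 (nat_lit 176) (nat_lit 159) (nat_lit 245) (nat_lit 4) (nat_lit 7) (nat_lit 13) (nat_lit 4) (nat_lit 7) (nat_lit 14) (by decide +kernel)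
theorem L77287 : W_36 (nat_lit 3) (nat_lit 0x1000080005000600000001000080000000000000000000000000000000) (nat_lit 0x0) (nat_lit 0x20000000000002800100008000000000000000000000000000000000000000) := T_36 (nat_lit 193) (nat_lit 191) (nat_lit 2) (nat_lit 4) (nat_lit 11) L77286 (by decide +kernel)
theorem L77288 : W_36 (nat_lit 8) (nat_lit 0x80005000600000001000080000000000000000000000000000000) (nat_lit 0x0) (nat_lit 0x10000e00070003e00770002800100008000000000000000000000000000000000000000) := Q_36 (nat_lit 228) (C_36 L76780 (C_36 L77287 (C_36 L76693 (C_36 L76786 N_36)))) (by decide +kernel)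
theorem L77289 : W_36 (nat_lit 2) (nat_lit 0x44001e0005000600000001000080000000000000000000000000000000) (nat_lit 0x0) (nat_lit 0x8800200000000000000000000000000000000000000000000000000000) := D_36 (nat_lit 213) (nat_lit 227) (nat_lit 231) (nat_lit 1) (nat_lit 9) (nat_lit 12) (nat_lit 3) (nat_lit 6) (nat_lit 12) (by decide +kernel)
theorem L77290 : W_36 (nat_lit 3) (nat_lit 0x4001e0005000600000001000080000000000000000000000000000000) (nat_lit 0x0) (nat_lit 0xe800200000000000000000000000000000000000000000000000000000) := T_36 (nat_lit 230) (nat_lit 229) (nat_lit 3) (nat_lit 5) (nat_lit 12) L77289 (by decide +kernel)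
theorem L77291 : W_36 (nat_lit 4) (nat_lit 0x1e0005000600000001000080000000000000000000000000000000) (nat_lit 0x0) (nat_lit 0xee00200000000000000000000000000000000000000000000000000000) := T_36 (nat_lit 226) (nat_lit 225) (nat_lit 1) (nat_lit 8) (nat_lit 12) L77290 (by decide +kernel)
theorem L77292 : W_36 (nat_lit 5) (nat_lit 0xe0005000600000001000080000000000000000000000000000000) (nat_lit 0x0) (nat_lit 0xee00300000800000000000000000000000000000000000000000000000) := T_36 (nat_lit 212) (nat_lit 191) (nat_lit 0) (nat_lit 8) (nat_lit 12) L77291 (by decide +kernel)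
theorem L77293 : W_36 (nat_lit 2) (nat_lit 0xe0002000f0005800640002001000080000000000000000000000000000000) (nat_lit 0x0) (nat_lit 0x20001000080000000000000000000000000000000000) := D_36 (nat_lit 156) (nat_lit 173) (nat_lit 139) (nat_lit 4) (nat_lit 4) (nat_lit 13) (nat_lit 4) (nat_lit 4) (nat_lit 12) (by decide +kernel)
theorem L77294 : W_36 (nat_lit 3) (nat_lit 0xe0002000f0005800640000001000080000000000000000000000000000000) (nat_lit 0x0) (nat_lit 0x20003000180000000000000000000000000000000000) := T_36 (nat_lit 157) (nat_lit 140) (nat_lit 7) (nat_lit 4) (nat_lit 8) L77293 (by decide +kernel)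
theorem L77295 : W_36 (nat_lit 4) (nat_lit 0xe0002000f0005800600000001000080000000000000000000000000000000) (nat_lit 0x0) (nat_lit 0x400000000000060003000180000000000000000000000000000000000) := T_36 (nat_lit 174) (nat_lit 226) (nat_lit 7) (nat_lit 4) (nat_lit 10) L77294 (by decide +kernel)
theorem L77296 : W_36 (nat_lit 5) (nat_lit 0x60002000f0005800600000001000080000000000000000000000000000000) (nat_lit 0x0) (nat_lit 0x100008000400000000000060003000180000000000000000000000000000000000) := T_36 (nat_lit 243) (nat_lit 260) (nat_lit 7) (nat_lit 4) (nat_lit 11) L77295 (by decide +kernel)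
theorem L77297 : W_36 (nat_lit 6) (nat_lit 0x40002000f0005800600000001000080000000000000000000000000000000) (nat_lit 0x0) (nat_lit 0x14000a000400000000000060003000180000000000000000000000000000000000) := T_36 (nat_lit 241) (nat_lit 258) (nat_lit 5) (nat_lit 4) (nat_lit 11) L77296 (by decide +kernel)
theorem L77298 : W_36 (nat_lit 7) (nat_lit 0x2000f0005800600000001000080000000000000000000000000000000) (nat_lit 0x0) (nat_lit 0x1c000e000400000000000060003000180000000000000000000000000000000000) := T_36 (nat_lit 242) (nat_lit 259) (nat_lit 6) (nat_lit 4) (nat_lit 15) L77297 (by decide +kernel)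
theorem L77299 : W_36 (nat_lit 8) (nat_lit 0x2000f0005000600000001000080000000000000000000000000000000) (nat_lit 0x0) (nat_lit 0x1c000e000400000000c00060003000180000000000000000000000000000000000) := T_36 (nat_lit 191) (nat_lit 190) (nat_lit 0) (nat_lit 7) (nat_lit 12) L77298 (by decide +kernel)
theorem L77300 : W_36 (nat_lit 9) (nat_lit 0xf0005000600000001000080000000000000000000000000000000) (nat_lit 0x0) (nat_lit 0x1c000e000700000000c00060003000180000000000000000000000000000000000) := T_36 (nat_lit 225) (nat_lit 224) (nat_lit 1) (nat_lit 7) (nat_lit 12) L77299 (by decide +kernel)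
theorem L77301 : W_36 (nat_lit 10) (nat_lit 0xe0005000600000001000080000000000000000000000000000000) (nat_lit 0x0) (nat_lit 0x1c000e000700010008c00060003000180000000000000000000000000000000000) := T_36 (nat_lit 208) (nat_lit 195) (nat_lit 2) (nat_lit 4) (nat_lit 12) L77300 (by decide +kernel)
theorem L77302 : W_36 (nat_lit 2) (nat_lit 0xe000d000600000001000080000000000000000000000000000000) (nat_lit 0x0) (nat_lit 0x100030000000000000000000000000000000000000000000000000) := D_36 (nat_lit 196) (nat_lit 197) (nat_lit 212) (nat_lit 1) (nat_lit 10) (nat_lit 11) (nat_lit 2) (nat_lit 5) (nat_lit 12) (by decide +kernel)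
theorem L77303 : W_36 (nat_lit 3) (nat_lit 0xe0005000600000001000080000000000000000000000000000000) (nat_lit 0x0) (nat_lit 0x110038000000000000000000000000000000000000000000000000) := T_36 (nat_lit 195) (nat_lit 208) (nat_lit 2) (nat_lit 4) (nat_lit 12) L77302 (by decide +kernel)
theorem L77304 : W_36 (nat_lit 2) (nat_lit 0xa001f000600000001000080000000000000000000000000000000) (nat_lit 0x0) (nat_lit 0x60000100000000000000000000000000000000000000000000) := D_36 (nat_lit 197) (nat_lit 198) (nat_lit 176) (nat_lit 0) (nat_lit 11) (nat_lit 11) (nat_lit 0) (nat_lit 10) (nat_lit 11) (by decide +kernel)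
theorem L77305 : W_36 (nat_lit 3) (nat_lit 0xa000f000600000001000080000000000000000000000000000000) (nat_lit 0x0) (nat_lit 0x40070000100000000000000000000000000000000000000000000) := T_36 (nat_lit 196) (nat_lit 210) (nat_lit 1) (nat_lit 9) (nat_lit 11) L77304 (by decide +kernel)
theorem L77306 : W_36 (nat_lit 2) (nat_lit 0xa001d000600000001000080000000000000000000000000000000) (nat_lit 0x0) (nat_lit 0x60000100000000000000000000000000000000000000000000) := D_36 (nat_lit 197) (nat_lit 198) (nat_lit 176) (nat_lit 0) (nat_lit 11) (nat_lit 11) (nat_lit 0) (nat_lit 10) (nat_lit 11) (by decide +kernel)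
theorem L77307 : W_36 (nat_lit 11) (nat_lit 0xa0005000600000001000080000000000000000000000000000000) (nat_lit 0x0) (nat_lit 0x1c000e00ef00350038c00060003000180000000000000000000000000000000000) := Q_36 (nat_lit 210) (C_36 L77303 (C_36 L77301 (C_36 L77292 N_36))) (by decide +kernel)
theorem L77308 : W_36 (nat_lit 4) (nat_lit 0xa0007000600000001000080000000000000000000000000000000) (nat_lit 0x0) (nat_lit 0x50078000100000000000000000000000000000000000000000000) := T_36 (nat_lit 195) (nat_lit 208) (nat_lit 1) (nat_lit 8) (nat_lit 11) L77305 (by decide +kernel)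
theorem L77309 : W_36 (nat_lit 5) (nat_lit 0xa0005000600000001000080000000000000000000000000000000) (nat_lit 0x0) (nat_lit 0x5007a800100000000000000000000000000000000000000000000) := T_36 (nat_lit 193) (nat_lit 191) (nat_lit 2) (nat_lit 4) (nat_lit 11) L77308 (by decide +kernel)
theorem L77310 : W_36 (nat_lit 2) (nat_lit 0x2a001f000600000001000080000000000000000000000000000000) (nat_lit 0x0) (nat_lit 0x60000100000000000000000000000000000000000000000000) := D_36 (nat_lit 197) (nat_lit 198) (nat_lit 176) (nat_lit 0) (nat_lit 11) (nat_lit 11) (nat_lit 0) (nat_lit 10) (nat_lit 11) (by decide +kernel)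
theorem L77311 : W_36 (nat_lit 3) (nat_lit 0x2a000f000600000001000080000000000000000000000000000000) (nat_lit 0x0) (nat_lit 0x400070000100000000000000000000000000000000000000000000) := T_36 (nat_lit 196) (nat_lit 214) (nat_lit 3) (nat_lit 6) (nat_lit 11) L77310 (by decide +kernel)
theorem L77312 : W_36 (nat_lit 4) (nat_lit 0xa000f000600000001000080000000000000000000000000000000) (nat_lit 0x0) (nat_lit 0x700070000100000000000000000000000000000000000000000000) := T_36 (nat_lit 213) (nat_lit 212) (nat_lit 3) (nat_lit 5) (nat_lit 11) L77311 (by decide +kernel)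
theorem L77313 : W_36 (nat_lit 5) (nat_lit 0xa0007000600000001000080000000000000000000000000000000) (nat_lit 0x0) (nat_lit 0x710078000100000000000000000000000000000000000000000000) := T_36 (nat_lit 195) (nat_lit 208) (nat_lit 1) (nat_lit 8) (nat_lit 11) L77312 (by decide +kernel)
theorem L77314 : W_36 (nat_lit 6) (nat_lit 0xa0005000600000001000080000000000000000000000000000000) (nat_lit 0x0) (nat_lit 0x71007a800100000000000000000000000000000000000000000000) := T_36 (nat_lit 193) (nat_lit 191) (nat_lit 2) (nat_lit 4) (nat_lit 11) L77313 (by decide +kernel)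
theorem L77315 : W_36 (nat_lit 2) (nat_lit 0xa000d000600000001000080000000000000000000000000000000) (nat_lit 0x0) (nat_lit 0x50002000000000000000000000000000000000000000000000000) := D_36 (nat_lit 208) (nat_lit 193) (nat_lit 210) (nat_lit 1) (nat_lit 8) (nat_lit 11) (nat_lit 2) (nat_lit 4) (nat_lit 12) (by decide +kernel)
theorem L77316 : W_36 (nat_lit 3) (nat_lit 0xa000d000600000001000080000000000000000000000000000000) (nat_lit 0x0) (nat_lit 0x150030000000000000000000000000000000000000000000000000) := T_36 (nat_lit 210) (nat_lit 208) (nat_lit 2) (nat_lit 4) (nat_lit 12) L77302 (by decide +kernel)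
theorem L77317 : W_36 (nat_lit 5) (nat_lit 0xa000d000600000001000080000000000000000000000000000000) (nat_lit 0x0) (nat_lit 0x710072000100000000000000000000000000000000000000000000) := T_36 (nat_lit 193) (nat_lit 208) (nat_lit 1) (nat_lit 8) (nat_lit 11) L77312 (by decide +kernel)
theorem L77318 : W_36 (nat_lit 2) (nat_lit 0xa001d000600000001000080000000000000000000000000000000) (nat_lit 0x0) (nat_lit 0x140002000000000000000000000000000000000000000000000000) := D_36 (nat_lit 210) (nat_lit 193) (nat_lit 212) (nat_lit 1) (nat_lit 9) (nat_lit 11) (nat_lit 2) (nat_lit 5) (nat_lit 12) (by decide +kernel)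
theorem L77319 : W_36 (nat_lit 3) (nat_lit 0xa000d000600000001000080000000000000000000000000000000) (nat_lit 0x0) (nat_lit 0x140072000100000000000000000000000000000000000000000000) := Q_36 (nat_lit 196) (C_36 L77306 (C_36 L77318 N_36)) (by decide +kernel)
theorem L77320 : W_36 (nat_lit 6) (nat_lit 0xa0005000600000001000080000000000000000000000000000000) (nat_lit 0x0) (nat_lit 0x75007a000100000000000000000000000000000000000000000000) := Q_36 (nat_lit 195) (C_36 L77315 (C_36 L77316 (C_36 L77317 (C_36 L77319 N_36)))) (by decide +kernel)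
theorem L77321 : W_36 (nat_lit 5) (nat_lit 0x1a0005000600000001000080000000000000000000000000000000) (nat_lit 0x0) (nat_lit 0x4000ee0024003a000000000000000000000000000000000000000000000000) := Q_36 (nat_lit 210) (C_36 L77291 (C_36 L77168 (C_36 L76949 N_36))) (by decide +kernel)
theorem L77322 : W_36 (nat_lit 6) (nat_lit 0xa0005000600000001000080000000000000000000000000000000) (nat_lit 0x0) (nat_lit 0x4000ee0074003a800000000000000000000000000000000000000000000000) := Q_36 (nat_lit 212) (C_36 L76960 (C_36 L76962 (C_36 L76959 (C_36 L77321 N_36)))) (by decide +kernel)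
theorem L77323 : W_36 (nat_lit 12) (nat_lit 0x80005000600000001000080000000000000000000000000000000) (nat_lit 0x0) (nat_lit 0x1c004e00ef0077007ae00160003000180000000000000000000000000000000000) := Q_36 (nat_lit 209) (C_36 L77307 (C_36 L77309 (C_36 L76876 (C_36 L77314 (C_36 L77320 (C_36 L77322 N_36)))))) (by decide +kernel)
theorem L77324 : W_36 (nat_lit 2) (nat_lit 0x18000a000f000700000001000080000000000000000000000000000000) (nat_lit 0x0) (nat_lit 0x40030000000000000000000000000000000000000000000000000) := D_36 (nat_lit 196) (nat_lit 197) (nat_lit 210) (nat_lit 0) (nat_lit 10) (nat_lit 11) (nat_lit 1) (nat_lit 9) (nat_lit 11) (by decide +kernel)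
theorem L77325 : W_36 (nat_lit 3) (nat_lit 0x18000a0007000700000001000080000000000000000000000000000000) (nat_lit 0x0) (nat_lit 0x50038000000000000000000000000000000000000000000000000) := T_36 (nat_lit 195) (nat_lit 208) (nat_lit 1) (nat_lit 8) (nat_lit 11) L77324 (by decide +kernel)
theorem L77326 : W_36 (nat_lit 4) (nat_lit 0x10000a0007000700000001000080000000000000000000000000000000) (nat_lit 0x0) (nat_lit 0x10000800050038000000000000000000000000000000000000000000000000) := T_36 (nat_lit 227) (nat_lit 244) (nat_lit 5) (nat_lit 7) (nat_lit 10) L77325 (by decide +kernel)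
theorem L77327 : W_36 (nat_lit 5) (nat_lit 0x10000a0005000700000001000080000000000000000000000000000000) (nat_lit 0x0) (nat_lit 0x1000080005003a800000000000000000000000000000000000000000000000) := T_36 (nat_lit 193) (nat_lit 191) (nat_lit 2) (nat_lit 4) (nat_lit 11) L77326 (by decide +kernel)
theorem L77328 : W_36 (nat_lit 6) (nat_lit 0x10000a0005000600000001000080000000000000000000000000000000) (nat_lit 0x0) (nat_lit 0x1000080005003a800100008000000000000000000000000000000000000000) := T_36 (nat_lit 176) (nat_lit 159) (nat_lit 4) (nat_lit 7) (nat_lit 13) L77327 (by decide +kernel)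
theorem L77329 : W_36 (nat_lit 9) (nat_lit 0x1000080005000600000001000080000000000000000000000000000000) (nat_lit 0x0) (nat_lit 0x3dc00ec00e7003a800140008000000000000000000000000000000000000000) := Q_36 (nat_lit 209) (C_36 L76977 (C_36 L76852 (C_36 L76833 (C_36 L77328 (C_36 L76845 N_36))))) (by decide +kernel)
theorem L77330 : W_36 (nat_lit 10) (nat_lit 0x80005000600000001000080000000000000000000000000000000) (nat_lit 0x0) (nat_lit 0x8003fc00fc00e7003a800140008000000000000000000000000000000000000000) := Q_36 (nat_lit 228) (C_36 L76732 (C_36 L77287 (C_36 L77329 N_36))) (by decide +kernel)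
theorem L77331 : W_36 (nat_lit 2) (nat_lit 0x8003c00180005000700000001000080000000000000000000000000000000) (nat_lit 0x0) (nat_lit 0x40002800000000000000000000000000000000000000000000000) := D_36 (nat_lit 193) (nat_lit 191) (nat_lit 210) (nat_lit 3) (nat_lit 4) (nat_lit 11) (nat_lit 5) (nat_lit 6) (nat_lit 10) (by decide +kernel)
theorem L77332 : W_36 (nat_lit 3) (nat_lit 0x8003c00180005000600000001000080000000000000000000000000000000) (nat_lit 0x0) (nat_lit 0x40002800100008000000000000000000000000000000000000000) := T_36 (nat_lit 176) (nat_lit 159) (nat_lit 4) (nat_lit 7) (nat_lit 13) L77331 (by decide +kernel)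
theorem L77333 : W_36 (nat_lit 4) (nat_lit 0x3c00180005000600000001000080000000000000000000000000000000) (nat_lit 0x0) (nat_lit 0xc000000040002800100008000000000000000000000000000000000000000) := T_36 (nat_lit 243) (nat_lit 242) (nat_lit 1) (nat_lit 8) (nat_lit 13) L77332 (by decide +kernel)
theorem L77334 : W_36 (nat_lit 5) (nat_lit 0x1c00180005000600000001000080000000000000000000000000000000) (nat_lit 0x0) (nat_lit 0x4c002000040002800100008000000000000000000000000000000000000000) := T_36 (nat_lit 229) (nat_lit 246) (nat_lit 7) (nat_lit 7) (nat_lit 10) L77333 (by decide +kernel)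
theorem L77335 : W_36 (nat_lit 6) (nat_lit 0x1800180005000600000001000080000000000000000000000000000000) (nat_lit 0x0) (nat_lit 0x4c002600040002800100008000000000000000000000000000000000000000) := T_36 (nat_lit 226) (nat_lit 225) (nat_lit 2) (nat_lit 4) (nat_lit 13) L77334 (by decide +kernel)
theorem L77336 : W_36 (nat_lit 7) (nat_lit 0x1000180005000600000001000080000000000000000000000000000000) (nat_lit 0x0) (nat_lit 0x5c002e00040002800100008000000000000000000000000000000000000000) := T_36 (nat_lit 227) (nat_lit 244) (nat_lit 5) (nat_lit 7) (nat_lit 10) L77335 (by decide +kernel)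
theorem L77337 : W_36 (nat_lit 8) (nat_lit 0x1000080005000600000001000080000000000000000000000000000000) (nat_lit 0x0) (nat_lit 0x5c01ee00f4007a800100008000000000000000000000000000000000000000) := Q_36 (nat_lit 212) (C_36 L76986 (C_36 L77052 (C_36 L77336 (C_36 L76992 N_36)))) (by decide +kernel)
theorem L77338 : W_36 (nat_lit 9) (nat_lit 0x80005000600000001000080000000000000000000000000000000) (nat_lit 0x0) (nat_lit 0x80007c01fe00f4007a800100008000000000000000000000000000000000000000) := Q_36 (nat_lit 228) (C_36 L76732 (C_36 L77287 (C_36 L77337 N_36))) (by decide +kernel)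
theorem L77339 : W_36 (nat_lit 10) (nat_lit 0x80005000600000001000080000000000000000000000000000000) (nat_lit 0x0) (nat_lit 0x100038003c001e0077000a800140008000000000000000000000000000000000000000) := Q_36 (nat_lit 228) (C_36 L76695 (C_36 L77287 (C_36 L76993 N_36))) (by decide +kernel)
theorem L77340 : W_36 (nat_lit 2) (nat_lit 0x10001a0005000600000001000080000000000000000000000000000000) (nat_lit 0x0) (nat_lit 0x40002800000000000000000000000000000000000000000000000) := D_36 (nat_lit 191) (nat_lit 210) (nat_lit 193) (nat_lit 0) (nat_lit 8) (nat_lit 12) (nat_lit 3) (nat_lit 4) (nat_lit 11) (by decide +kernel)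
theorem L77341 : W_36 (nat_lit 3) (nat_lit 0x300018000d000600000001000080000000000000000000000000000000) (nat_lit 0x0) (nat_lit 0x8001c000040000000000000000000000000000000000000000000000000000) := T_36 (nat_lit 230) (nat_lit 247) (nat_lit 7) (nat_lit 8) (nat_lit 10) L77089 (by decide +kernel)
theorem L77342 : W_36 (nat_lit 4) (nat_lit 0x100018000d000600000001000080000000000000000000000000000000) (nat_lit 0x0) (nat_lit 0xc001e000040000000000000000000000000000000000000000000000000000) := T_36 (nat_lit 229) (nat_lit 246) (nat_lit 7) (nat_lit 7) (nat_lit 10) L77341 (by decide +kernel)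
theorem L77343 : W_36 (nat_lit 3) (nat_lit 0x30000a0005000600000001000080000000000000000000000000000000) (nat_lit 0x0) (nat_lit 0xc000150000000000000000000000000000000000000000000000000000) := T_36 (nat_lit 210) (nat_lit 208) (nat_lit 3) (nat_lit 4) (nat_lit 12) L76727 (by decide +kernel)
theorem L77344 : W_36 (nat_lit 4) (nat_lit 0x10000a0005000600000001000080000000000000000000000000000000) (nat_lit 0x0) (nat_lit 0x4000e000150000000000000000000000000000000000000000000000000000) := T_36 (nat_lit 229) (nat_lit 246) (nat_lit 7) (nat_lit 7) (nat_lit 10) L77343 (by decide +kernel)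
theorem L77345 : W_36 (nat_lit 2) (nat_lit 0x10000e0005800700000001000080000000000000000000000000000000) (nat_lit 0x0) (nat_lit 0x10008400000000000000000000000000000000000000000000000) := D_36 (nat_lit 208) (nat_lit 190) (nat_lit 195) (nat_lit 0) (nat_lit 7) (nat_lit 12) (nat_lit 2) (nat_lit 4) (nat_lit 12) (by decide +kernel)
theorem L77346 : W_36 (nat_lit 3) (nat_lit 0x10000a0005800700000001000080000000000000000000000000000000) (nat_lit 0x0) (nat_lit 0x150008400000000000000000000000000000000000000000000000) := T_36 (nat_lit 210) (nat_lit 212) (nat_lit 0) (nat_lit 8) (nat_lit 12) L77345 (by decide +kernel)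
theorem L77347 : W_36 (nat_lit 4) (nat_lit 0x10000a0005000700000001000080000000000000000000000000000000) (nat_lit 0x0) (nat_lit 0x15000ac00000000000000000000000000000000000000000000000) := T_36 (nat_lit 191) (nat_lit 193) (nat_lit 2) (nat_lit 4) (nat_lit 11) L77346 (by decide +kernel)
theorem L77348 : W_36 (nat_lit 5) (nat_lit 0x10000a0005000600000001000080000000000000000000000000000000) (nat_lit 0x0) (nat_lit 0x15000ac00100008000000000000000000000000000000000000000) := T_36 (nat_lit 176) (nat_lit 159) (nat_lit 4) (nat_lit 7) (nat_lit 13) L77347 (by decide +kernel)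
theorem L77349 : W_36 (nat_lit 2) (nat_lit 0x30000a001f000700000001000080000000000000000000000000000000) (nat_lit 0x0) (nat_lit 0x700000000000000000000000000000000000000000000000000000) := D_36 (nat_lit 213) (nat_lit 212) (nat_lit 214) (nat_lit 3) (nat_lit 5) (nat_lit 11) (nat_lit 3) (nat_lit 6) (nat_lit 11) (by decide +kernel)
theorem L77350 : W_36 (nat_lit 3) (nat_lit 0x30000a000f000700000001000080000000000000000000000000000000) (nat_lit 0x0) (nat_lit 0x700030000000000000000000000000000000000000000000000000) := T_36 (nat_lit 196) (nat_lit 197) (nat_lit 0) (nat_lit 10) (nat_lit 11) L77349 (by decide +kernel)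
theorem L77351 : W_36 (nat_lit 4) (nat_lit 0x30000a000f000600000001000080000000000000000000000000000000) (nat_lit 0x0) (nat_lit 0x700030000100008000000000000000000000000000000000000000) := T_36 (nat_lit 176) (nat_lit 159) (nat_lit 4) (nat_lit 7) (nat_lit 13) L77350 (by decide +kernel)
theorem L77352 : W_36 (nat_lit 5) (nat_lit 0x30000a0007000600000001000080000000000000000000000000000000) (nat_lit 0x0) (nat_lit 0x710038000100008000000000000000000000000000000000000000) := T_36 (nat_lit 195) (nat_lit 208) (nat_lit 1) (nat_lit 8) (nat_lit 11) L77351 (by decide +kernel)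
theorem L77353 : W_36 (nat_lit 6) (nat_lit 0x10000a0007000600000001000080000000000000000000000000000000) (nat_lit 0x0) (nat_lit 0x40002000710038000100008000000000000000000000000000000000000000) := T_36 (nat_lit 229) (nat_lit 246) (nat_lit 7) (nat_lit 7) (nat_lit 10) L77352 (by decide +kernel)
theorem L77354 : W_36 (nat_lit 7) (nat_lit 0x10000a0005000600000001000080000000000000000000000000000000) (nat_lit 0x0) (nat_lit 0x4000200071003a800100008000000000000000000000000000000000000000) := T_36 (nat_lit 193) (nat_lit 191) (nat_lit 2) (nat_lit 4) (nat_lit 11) L77353 (by decide +kernel)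
theorem L77355 : W_36 (nat_lit 2) (nat_lit 0x30001a0005000600000001000080000000000000000000000000000000) (nat_lit 0x0) (nat_lit 0x4000040000800000000000000000000000000000000000000000000000) := D_36 (nat_lit 210) (nat_lit 230) (nat_lit 191) (nat_lit 3) (nat_lit 5) (nat_lit 12) (nat_lit 0) (nat_lit 8) (nat_lit 12) (by decide +kernel)
theorem L77356 : W_36 (nat_lit 3) (nat_lit 0x10001a0005000600000001000080000000000000000000000000000000) (nat_lit 0x0) (nat_lit 0x40006000040000800000000000000000000000000000000000000000000000) := T_36 (nat_lit 229) (nat_lit 246) (nat_lit 7) (nat_lit 7) (nat_lit 10) L77355 (by decide +kernel)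
theorem L77357 : W_36 (nat_lit 2) (nat_lit 0x10001a0007000600000001000080000000000000000000000000000000) (nat_lit 0x0) (nat_lit 0x600008000000000000000000000000000000000000000000000000) := D_36 (nat_lit 213) (nat_lit 214) (nat_lit 195) (nat_lit 0) (nat_lit 10) (nat_lit 12) (nat_lit 3) (nat_lit 5) (nat_lit 11) (by decide +kernel)
theorem L77358 : W_36 (nat_lit 3) (nat_lit 0x10001a0005000600000001000080000000000000000000000000000000) (nat_lit 0x0) (nat_lit 0x60000a800000000000000000000000000000000000000000000000) := T_36 (nat_lit 193) (nat_lit 191) (nat_lit 3) (nat_lit 4) (nat_lit 11) L77357 (by decide +kernel)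
theorem L77359 : W_36 (nat_lit 2) (nat_lit 0x30001e000f000700000001000080000000000000000000000000000000) (nat_lit 0x0) (nat_lit 0x8000600000000000000000000000000000000000000000000000000000000) := D_36 (nat_lit 226) (nat_lit 225) (nat_lit 243) (nat_lit 1) (nat_lit 8) (nat_lit 12) (nat_lit 6) (nat_lit 5) (nat_lit 14) (by decide +kernel)
theorem L77360 : W_36 (nat_lit 3) (nat_lit 0x30001e000f000600000001000080000000000000000000000000000000) (nat_lit 0x0) (nat_lit 0x8000600000000000100008000000000000000000000000000000000000000) := T_36 (nat_lit 176) (nat_lit 159) (nat_lit 7) (nat_lit 6) (nat_lit 9) L77359 (by decide +kernel)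
theorem L77361 : W_36 (nat_lit 4) (nat_lit 0x30001e000d000600000001000080000000000000000000000000000000) (nat_lit 0x0) (nat_lit 0x8000600200002000100008000000000000000000000000000000000000000) := T_36 (nat_lit 193) (nat_lit 213) (nat_lit 3) (nat_lit 5) (nat_lit 11) L77360 (by decide +kernel)
theorem L77362 : W_36 (nat_lit 5) (nat_lit 0x30001e0005000600000001000080000000000000000000000000000000) (nat_lit 0x0) (nat_lit 0x800060020001a000100008000000000000000000000000000000000000000) := T_36 (nat_lit 195) (nat_lit 196) (nat_lit 2) (nat_lit 5) (nat_lit 12) L77361 (by decide +kernel)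
theorem L77363 : W_36 (nat_lit 6) (nat_lit 0x30001a0005000600000001000080000000000000000000000000000000) (nat_lit 0x0) (nat_lit 0x800460024001a000100008000000000000000000000000000000000000000) := T_36 (nat_lit 210) (nat_lit 230) (nat_lit 3) (nat_lit 5) (nat_lit 12) L77362 (by decide +kernel)
theorem L77364 : W_36 (nat_lit 7) (nat_lit 0x10001a0005000600000001000080000000000000000000000000000000) (nat_lit 0x0) (nat_lit 0x4800660024001a000100008000000000000000000000000000000000000000) := T_36 (nat_lit 229) (nat_lit 246) (nat_lit 7) (nat_lit 7) (nat_lit 10) L77363 (by decide +kernel)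
theorem L77365 : W_36 (nat_lit 8) (nat_lit 0x10000a0005000600000001000080000000000000000000000000000000) (nat_lit 0x0) (nat_lit 0x4800660074001a800100008000000000000000000000000000000000000000) := Q_36 (nat_lit 212) (C_36 L77340 (C_36 L77356 (C_36 L77358 (C_36 L77364 N_36)))) (by decide +kernel)
theorem L77366 : W_36 (nat_lit 9) (nat_lit 0x1000080005000600000001000080000000000000000000000000000000) (nat_lit 0x0) (nat_lit 0x4800e60077003ac00100008000000000000000000000000000000000000000) := Q_36 (nat_lit 209) (C_36 L77344 (C_36 L76852 (C_36 L77348 (C_36 L77354 (C_36 L77365 N_36))))) (by decide +kernel)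
theorem L77367 : W_36 (nat_lit 10) (nat_lit 0x80005000600000001000080000000000000000000000000000000) (nat_lit 0x0) (nat_lit 0x80006800f60077003ac00100008000000000000000000000000000000000000000) := Q_36 (nat_lit 228) (C_36 L76732 (C_36 L77287 (C_36 L77366 N_36))) (by decide +kernel)
theorem L77368 : W_36 (nat_lit 13) (nat_lit 0x5000600000001000080000000000000000000000000000000) (nat_lit 0x0) (nat_lit 0x15000fc03fe01ff00ff807ae0016000b000180000000000000000000000000000000000) := Q_36 (nat_lit 211) (C_36 L77285 (C_36 L77073 (C_36 L77288 (C_36 L76854 (C_36 L77323 (C_36 L77330 (C_36 L76998 (C_36 L77006 (C_36 L77338 (C_36 L77054 (C_36 L77339 (C_36 L77367 N_36)))))))))))) (by decide +kernel)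
theorem L77369 : W_36 (nat_lit 2) (nat_lit 0x5000680004001000080000000000000000000000000000000) (nat_lit 0x0) (nat_lit 0x800100002000000000000000000000000000000000000000) := D_36 (nat_lit 176) (nat_lit 191) (nat_lit 157) (nat_lit 1) (nat_lit 8) (nat_lit 10) (nat_lit 0) (nat_lit 8) (nat_lit 10) (by decide +kernel)
theorem L77370 : W_36 (nat_lit 2) (nat_lit 0x5000680004001700080000000000000000000000000000000) (nat_lit 0x0) (nat_lit 0x2000800100000000000000000000000000000000) := D_36 (nat_lit 143) (nat_lit 128) (nat_lit 157) (nat_lit 2) (nat_lit 5) (nat_lit 8) (nat_lit 1) (nat_lit 8) (nat_lit 8) (by decide +kernel)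
theorem L77371 : W_36 (nat_lit 3) (nat_lit 0x5000680004001300080000000000000000000000000000000) (nat_lit 0x0) (nat_lit 0x2000c00120000000000000000000000000000000) := T_36 (nat_lit 142) (nat_lit 125) (nat_lit 6) (nat_lit 5) (nat_lit 11) L77370 (by decide +kernel)
theorem L77372 : W_36 (nat_lit 4) (nat_lit 0x5000680004001200080000000000000000000000000000000) (nat_lit 0x0) (nat_lit 0x2000d00128000000000000000000000000000000) := T_36 (nat_lit 140) (nat_lit 123) (nat_lit 4) (nat_lit 5) (nat_lit 11) L77371 (by decide +kernel)
theorem L77373 : W_36 (nat_lit 4) (nat_lit 0x5000680004001200080000000000000000000000000000000) (nat_lit 0x0) (nat_lit 0x10000800040000000100018000400000000000000000000000000) := T_36 (nat_lit 191) (nat_lit 208) (nat_lit 5) (nat_lit 5) (nat_lit 8) L7426 (by decide +kernel)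
theorem L77374 : W_36 (nat_lit 4) (nat_lit 0x5000680004001200080000000000000000000000000000000) (nat_lit 0x0) (nat_lit 0x10000800040000000400030001000000000000000000000000000) := T_36 (nat_lit 191) (nat_lit 208) (nat_lit 5) (nat_lit 5) (nat_lit 8) L7446 (by decide +kernel)
theorem L77375 : W_36 (nat_lit 5) (nat_lit 0x5000680004001000080000000000000000000000000000000) (nat_lit 0x0) (nat_lit 0x10000800040002000f00138001400000000000000000000000000) := Q_36 (nat_lit 141) (C_36 L77372 (C_36 L77373 (C_36 L77374 N_36))) (by decide +kernel)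
theorem L77376 : W_36 (nat_lit 2) (nat_lit 0x400020005000680006001000080000000000000000000000000000000) (nat_lit 0x0) (nat_lit 0x10000800040000000000000000000000000000000000000000000000000000) := D_36 (nat_lit 227) (nat_lit 210) (nat_lit 244) (nat_lit 7) (nat_lit 5) (nat_lit 9) (nat_lit 7) (nat_lit 5) (nat_lit 10) (by decide +kernel)
theorem L77377 : W_36 (nat_lit 3) (nat_lit 0x20005000680006001000080000000000000000000000000000000) (nat_lit 0x0) (nat_lit 0x10000c00040000000040000000000000000000000000000000000000000000) := T_36 (nat_lit 226) (nat_lit 174) (nat_lit 4) (nat_lit 5) (nat_lit 13) L77376 (by decide +kernel)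
theorem L77378 : W_36 (nat_lit 4) (nat_lit 0x5000680006001000080000000000000000000000000000000) (nat_lit 0x0) (nat_lit 0x10000c00060000000040000000100000000000000000000000000000000000) := T_36 (nat_lit 209) (nat_lit 140) (nat_lit 4) (nat_lit 5) (nat_lit 12) L77377 (by decide +kernel)
theorem L77379 : W_36 (nat_lit 5) (nat_lit 0x5000680004001000080000000000000000000000000000000) (nat_lit 0x0) (nat_lit 0x10000c00060000000140002000100000000000000000000000000000000000) := T_36 (nat_lit 157) (nat_lit 176) (nat_lit 0) (nat_lit 8) (nat_lit 10) L77378 (by decide +kernel)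
theorem L77380 : W_36 (nat_lit 5) (nat_lit 0x5000680004001000080000000000000000000000000000000) (nat_lit 0x0) (nat_lit 0x10000800140000000600030001000000000000000000000000000) := T_36 (nat_lit 191) (nat_lit 176) (nat_lit 1) (nat_lit 8) (nat_lit 10) L7447 (by decide +kernel)
theorem L77381 : W_36 (nat_lit 6) (nat_lit 0x5000680000001000080000000000000000000000000000000) (nat_lit 0x0) (nat_lit 0x10000c00070000800140006000f00138001400000000000000000000000000) := Q_36 (nat_lit 158) (C_36 L77369 (C_36 L77375 (C_36 L77379 (C_36 L77380 N_36)))) (by decide +kernel)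
theorem L77382 : W_36 (nat_lit 2) (nat_lit 0x5000680000001000080000000000000000000000000000000) (nat_lit 0x0) (nat_lit 0x2800100000000000000000000000000000000000000000000) := D_36 (nat_lit 191) (nat_lit 176) (nat_lit 193) (nat_lit 1) (nat_lit 8) (nat_lit 10) (nat_lit 2) (nat_lit 4) (nat_lit 11) (by decide +kernel)
theorem L77383 : W_36 (nat_lit 2) (nat_lit 0x5800680004001700080000000000000000000000000000000) (nat_lit 0x0) (nat_lit 0x2000800100000000000000000000000000000000) := D_36 (nat_lit 143) (nat_lit 128) (nat_lit 157) (nat_lit 2) (nat_lit 5) (nat_lit 8) (nat_lit 1) (nat_lit 8) (nat_lit 8) (by decide +kernel)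
theorem L77384 : W_36 (nat_lit 3) (nat_lit 0x5800680004001300080000000000000000000000000000000) (nat_lit 0x0) (nat_lit 0x2000c00120000000000000000000000000000000) := T_36 (nat_lit 142) (nat_lit 125) (nat_lit 6) (nat_lit 5) (nat_lit 11) L77383 (by decide +kernel)
theorem L77385 : W_36 (nat_lit 4) (nat_lit 0x5800680004001200080000000000000000000000000000000) (nat_lit 0x0) (nat_lit 0x2000d00128000000000000000000000000000000) := T_36 (nat_lit 140) (nat_lit 123) (nat_lit 4) (nat_lit 5) (nat_lit 11) L77384 (by decide +kernel)
theorem L77386 : W_36 (nat_lit 5) (nat_lit 0x5800680004001000080000000000000000000000000000000) (nat_lit 0x0) (nat_lit 0x10000000000002000f00128000000000000000000000000000000) := T_36 (nat_lit 141) (nat_lit 208) (nat_lit 5) (nat_lit 5) (nat_lit 8) L77385 (by decide +kernel)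
theorem L77387 : W_36 (nat_lit 6) (nat_lit 0x5000680004001000080000000000000000000000000000000) (nat_lit 0x0) (nat_lit 0x10002800000002000f00128000000000000000000000000000000) := T_36 (nat_lit 191) (nat_lit 193) (nat_lit 2) (nat_lit 4) (nat_lit 11) L77386 (by decide +kernel)
theorem L77388 : W_36 (nat_lit 2) (nat_lit 0x20006000500068000e001000080000000000000000000000000000000) (nat_lit 0x0) (nat_lit 0x4000400000000000040000000000000000000000000000000000000000000) := D_36 (nat_lit 226) (nat_lit 242) (nat_lit 174) (nat_lit 5) (nat_lit 5) (nat_lit 10) (nat_lit 4) (nat_lit 5) (nat_lit 13) (by decide +kernel)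
theorem L77389 : W_36 (nat_lit 3) (nat_lit 0x20006000500068000c001000080000000000000000000000000000000) (nat_lit 0x0) (nat_lit 0x4000400000000000040002000100000000000000000000000000000000000) := T_36 (nat_lit 157) (nat_lit 140) (nat_lit 4) (nat_lit 5) (nat_lit 12) L77388 (by decide +kernel)
theorem L77390 : W_36 (nat_lit 4) (nat_lit 0x6000500068000c001000080000000000000000000000000000000) (nat_lit 0x0) (nat_lit 0x4000600010000000040002000100000000000000000000000000000000000) := T_36 (nat_lit 225) (nat_lit 208) (nat_lit 5) (nat_lit 5) (nat_lit 9) L77389 (by decide +kernel)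
theorem L77391 : W_36 (nat_lit 5) (nat_lit 0x60005000680004001000080000000000000000000000000000000) (nat_lit 0x0) (nat_lit 0x400060001000000004000a000500000000000000000000000000000000000) := T_36 (nat_lit 159) (nat_lit 142) (nat_lit 6) (nat_lit 5) (nat_lit 12) L77390 (by decide +kernel)
theorem L77392 : W_36 (nat_lit 6) (nat_lit 0x20005000680004001000080000000000000000000000000000000) (nat_lit 0x0) (nat_lit 0x4000e0005000000004000a000500000000000000000000000000000000000) := T_36 (nat_lit 210) (nat_lit 227) (nat_lit 7) (nat_lit 5) (nat_lit 9) L77391 (by decide +kernel)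
theorem L77393 : W_36 (nat_lit 2) (nat_lit 0x70005000680004001000080000000000000000000000000000000) (nat_lit 0x0) (nat_lit 0x8002800000000000000000000000000000000000000000000000) := D_36 (nat_lit 193) (nat_lit 207) (nat_lit 191) (nat_lit 2) (nat_lit 3) (nat_lit 12) (nat_lit 2) (nat_lit 4) (nat_lit 11) (by decide +kernel)
theorem L77394 : W_36 (nat_lit 3) (nat_lit 0x30005000680004001000080000000000000000000000000000000) (nat_lit 0x0) (nat_lit 0x800048002800000000000000000000000000000000000000000000000) := T_36 (nat_lit 210) (nat_lit 227) (nat_lit 7) (nat_lit 5) (nat_lit 9) L77393 (by decide +kernel)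
theorem L77395 : W_36 (nat_lit 4) (nat_lit 0x20005000680004001000080000000000000000000000000000000) (nat_lit 0x0) (nat_lit 0xa00058002800000000000000000000000000000000000000000000000) := T_36 (nat_lit 208) (nat_lit 225) (nat_lit 5) (nat_lit 5) (nat_lit 9) L77394 (by decide +kernel)
theorem L77396 : W_36 (nat_lit 2) (nat_lit 0x800040003000580068000e001000080000000000000000000000000000000) (nat_lit 0x0) (nat_lit 0x200010000800000000000000000000000000000000000000000000000000000000) := D_36 (nat_lit 244) (nat_lit 227) (nat_lit 261) (nat_lit 7) (nat_lit 5) (nat_lit 10) (nat_lit 7) (nat_lit 5) (nat_lit 11) (by decide +kernel)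
theorem L77397 : W_36 (nat_lit 3) (nat_lit 0x40003000580068000e001000080000000000000000000000000000000) (nat_lit 0x0) (nat_lit 0x300018000800000000000000000000000000000000000000000000000000000000) := T_36 (nat_lit 243) (nat_lit 260) (nat_lit 4) (nat_lit 5) (nat_lit 15) L77396 (by decide +kernel)
theorem L77398 : W_36 (nat_lit 4) (nat_lit 0x3000580068000e001000080000000000000000000000000000000) (nat_lit 0x0) (nat_lit 0x300018000c00000000000040000000000000000000000000000000000000000000) := T_36 (nat_lit 226) (nat_lit 174) (nat_lit 7) (nat_lit 4) (nat_lit 9) L77397 (by decide +kernel)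
theorem L77399 : W_36 (nat_lit 5) (nat_lit 0x3000580068000c001000080000000000000000000000000000000) (nat_lit 0x0) (nat_lit 0x300018000c00000000000040002000100000000000000000000000000000000000) := T_36 (nat_lit 157) (nat_lit 140) (nat_lit 4) (nat_lit 5) (nat_lit 12) L77398 (by decide +kernel)
theorem L77400 : W_36 (nat_lit 6) (nat_lit 0x30005800680004001000080000000000000000000000000000000) (nat_lit 0x0) (nat_lit 0x300018000c0000000000004000a000500000000000000000000000000000000000) := T_36 (nat_lit 159) (nat_lit 142) (nat_lit 6) (nat_lit 5) (nat_lit 12) L77399 (by decide +kernel)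
theorem L77401 : W_36 (nat_lit 7) (nat_lit 0x20005800680004001000080000000000000000000000000000000) (nat_lit 0x0) (nat_lit 0x300018000e0001000000004000a000500000000000000000000000000000000000) := T_36 (nat_lit 208) (nat_lit 225) (nat_lit 5) (nat_lit 5) (nat_lit 9) L77400 (by decide +kernel)
theorem L77402 : W_36 (nat_lit 8) (nat_lit 0x20005000680004001000080000000000000000000000000000000) (nat_lit 0x0) (nat_lit 0x300018000e0001000280004000a000500000000000000000000000000000000000) := T_36 (nat_lit 191) (nat_lit 193) (nat_lit 2) (nat_lit 4) (nat_lit 11) L77401 (by decide +kernel)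
theorem L77403 : W_36 (nat_lit 4) (nat_lit 0x20005000680004001000080000000000000000000000000000000) (nat_lit 0x0) (nat_lit 0x10000c00040000000040002000100000000000000000000000000000000000) := T_36 (nat_lit 157) (nat_lit 140) (nat_lit 4) (nat_lit 5) (nat_lit 12) L77377 (by decide +kernel)
theorem L77404 : W_36 (nat_lit 2) (nat_lit 0x3c0058006e000f401000080000000000000000000000000000000) (nat_lit 0x0) (nat_lit 0xc0000000400000000000000000000000000000000000000000000000) := D_36 (nat_lit 223) (nat_lit 222) (nat_lit 190) (nat_lit 1) (nat_lit 5) (nat_lit 12) (nat_lit 5) (nat_lit 3) (nat_lit 9) (by decide +kernel)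
theorem L77405 : W_36 (nat_lit 3) (nat_lit 0x3c0058006c000f401000080000000000000000000000000000000) (nat_lit 0x0) (nat_lit 0xc0000000400030000000000000000000000000000000000000000000) := T_36 (nat_lit 173) (nat_lit 172) (nat_lit 2) (nat_lit 2) (nat_lit 10) L77404 (by decide +kernel)
theorem L77406 : W_36 (nat_lit 4) (nat_lit 0x3c0058006c0007401000080000000000000000000000000000000) (nat_lit 0x0) (nat_lit 0xc0000000400030008000400000000000000000000000000000000000) := T_36 (nat_lit 159) (nat_lit 142) (nat_lit 6) (nat_lit 5) (nat_lit 12) L77405 (by decide +kernel)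
theorem L77407 : W_36 (nat_lit 5) (nat_lit 0x380058006c0007401000080000000000000000000000000000000) (nat_lit 0x0) (nat_lit 0xc0006000400030008000400000000000000000000000000000000000) := T_36 (nat_lit 206) (nat_lit 205) (nat_lit 2) (nat_lit 1) (nat_lit 12) L77406 (by decide +kernel)
theorem L77408 : W_36 (nat_lit 6) (nat_lit 0x300058006c0007401000080000000000000000000000000000000) (nat_lit 0x0) (nat_lit 0x1c000e000400030008000400000000000000000000000000000000000) := T_36 (nat_lit 207) (nat_lit 224) (nat_lit 5) (nat_lit 4) (nat_lit 9) L77407 (by decide +kernel)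
theorem L77409 : W_36 (nat_lit 7) (nat_lit 0x300058006c0007001000080000000000000000000000000000000) (nat_lit 0x0) (nat_lit 0x1c000e000400030008c00400000000000000000000000000000000000) := T_36 (nat_lit 154) (nat_lit 155) (nat_lit 3) (nat_lit 1) (nat_lit 9) L77408 (by decide +kernel)
theorem L77410 : W_36 (nat_lit 8) (nat_lit 0x300058006c0006001000080000000000000000000000000000000) (nat_lit 0x0) (nat_lit 0x1c000e000400030009c00480000000000000000000000000000000000) := T_36 (nat_lit 156) (nat_lit 139) (nat_lit 4) (nat_lit 4) (nat_lit 12) L77409 (by decide +kernel)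
theorem L77411 : W_36 (nat_lit 9) (nat_lit 0x30005800680006001000080000000000000000000000000000000) (nat_lit 0x0) (nat_lit 0x5c000e000400070009c00480000000000000000000000000000000000) := T_36 (nat_lit 174) (nat_lit 226) (nat_lit 7) (nat_lit 4) (nat_lit 9) L77410 (by decide +kernel)
theorem L77412 : W_36 (nat_lit 10) (nat_lit 0x20005800680006001000080000000000000000000000000000000) (nat_lit 0x0) (nat_lit 0x7c001e000400070009c00480000000000000000000000000000000000) := T_36 (nat_lit 208) (nat_lit 225) (nat_lit 5) (nat_lit 5) (nat_lit 9) L77411 (by decide +kernel)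
theorem L77413 : W_36 (nat_lit 11) (nat_lit 0x20005800680004001000080000000000000000000000000000000) (nat_lit 0x0) (nat_lit 0x7c001e00040007000bc00580000000000000000000000000000000000) := T_36 (nat_lit 157) (nat_lit 140) (nat_lit 4) (nat_lit 5) (nat_lit 12) L77412 (by decide +kernel)
theorem L77414 : W_36 (nat_lit 12) (nat_lit 0x20005000680004001000080000000000000000000000000000000) (nat_lit 0x0) (nat_lit 0x7c001e002c0007000bc00580000000000000000000000000000000000) := T_36 (nat_lit 191) (nat_lit 193) (nat_lit 2) (nat_lit 4) (nat_lit 11) L77413 (by decide +kernel)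
theorem L77415 : W_36 (nat_lit 13) (nat_lit 0x5000680004001000080000000000000000000000000000000) (nat_lit 0x0) (nat_lit 0x30001c000fc007e002c0007000bc00580000000000000000000000000000000000) := Q_36 (nat_lit 209) (C_36 L77392 (C_36 L77395 (C_36 L77402 (C_36 L77403 (C_36 L77414 N_36))))) (by decide +kernel)
theorem L77416 : W_36 (nat_lit 2) (nat_lit 0x60005000680006001200080000000000000000000000000000000) (nat_lit 0x0) (nat_lit 0x8000400020000000000000000000000000000000) := D_36 (nat_lit 142) (nat_lit 125) (nat_lit 159) (nat_lit 6) (nat_lit 5) (nat_lit 11) (nat_lit 6) (nat_lit 5) (nat_lit 12) (by decide +kernel)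
theorem L77417 : W_36 (nat_lit 3) (nat_lit 0x60005000680006001000080000000000000000000000000000000) (nat_lit 0x0) (nat_lit 0x2000000008000600020000000000000000000000000000000) := T_36 (nat_lit 141) (nat_lit 193) (nat_lit 7) (nat_lit 5) (nat_lit 8) L77416 (by decide +kernel)
theorem L77418 : W_36 (nat_lit 4) (nat_lit 0x20005000680006001000080000000000000000000000000000000) (nat_lit 0x0) (nat_lit 0x800040002000000008000600020000000000000000000000000000000) := T_36 (nat_lit 210) (nat_lit 227) (nat_lit 7) (nat_lit 5) (nat_lit 9) L77417 (by decide +kernel)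
theorem L77419 : W_36 (nat_lit 5) (nat_lit 0x20005000680004001000080000000000000000000000000000000) (nat_lit 0x0) (nat_lit 0x80004000200000000a000700020000000000000000000000000000000) := T_36 (nat_lit 157) (nat_lit 140) (nat_lit 4) (nat_lit 5) (nat_lit 12) L77418 (by decide +kernel)
theorem L77420 : W_36 (nat_lit 2) (nat_lit 0x20002000500068000e001000080000000000000000000000000000000) (nat_lit 0x0) (nat_lit 0x4000400000000000040000000000000000000000000000000000000000000) := D_36 (nat_lit 226) (nat_lit 174) (nat_lit 242) (nat_lit 4) (nat_lit 5) (nat_lit 13) (nat_lit 5) (nat_lit 5) (nat_lit 10) (by decide +kernel)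
theorem L77421 : W_36 (nat_lit 3) (nat_lit 0x2000500068000e001000080000000000000000000000000000000) (nat_lit 0x0) (nat_lit 0x4000600010000000040000000000000000000000000000000000000000000) := T_36 (nat_lit 225) (nat_lit 208) (nat_lit 5) (nat_lit 5) (nat_lit 9) L77420 (by decide +kernel)
theorem L77422 : W_36 (nat_lit 4) (nat_lit 0x2000500068000c001000080000000000000000000000000000000) (nat_lit 0x0) (nat_lit 0x4000600010000000040002000100000000000000000000000000000000000) := T_36 (nat_lit 157) (nat_lit 140) (nat_lit 4) (nat_lit 5) (nat_lit 12) L77421 (by decide +kernel)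
theorem L77423 : W_36 (nat_lit 5) (nat_lit 0x20005000680004001000080000000000000000000000000000000) (nat_lit 0x0) (nat_lit 0x400060001000000004000a000500000000000000000000000000000000000) := T_36 (nat_lit 159) (nat_lit 142) (nat_lit 6) (nat_lit 5) (nat_lit 12) L77422 (by decide +kernel)
theorem L77424 : W_36 (nat_lit 2) (nat_lit 0x60005000680004001200080000000000000000000000000000000) (nat_lit 0x0) (nat_lit 0x8000400020000000000000000000000000000000) := D_36 (nat_lit 142) (nat_lit 125) (nat_lit 159) (nat_lit 6) (nat_lit 5) (nat_lit 11) (nat_lit 6) (nat_lit 5) (nat_lit 12) (by decide +kernel)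
theorem L77425 : W_36 (nat_lit 3) (nat_lit 0x60005000680004001000080000000000000000000000000000000) (nat_lit 0x0) (nat_lit 0x2000000008000600020000000000000000000000000000000) := T_36 (nat_lit 141) (nat_lit 193) (nat_lit 7) (nat_lit 5) (nat_lit 8) L77424 (by decide +kernel)
theorem L77426 : W_36 (nat_lit 4) (nat_lit 0x20005000680004001000080000000000000000000000000000000) (nat_lit 0x0) (nat_lit 0x800040002000000008000600020000000000000000000000000000000) := T_36 (nat_lit 210) (nat_lit 227) (nat_lit 7) (nat_lit 5) (nat_lit 9) L77425 (by decide +kernel)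
theorem L77427 : W_36 (nat_lit 6) (nat_lit 0x5000680004001000080000000000000000000000000000000) (nat_lit 0x0) (nat_lit 0x14000e0007000200004000a000700020000000000000000000000000000000) := Q_36 (nat_lit 209) (C_36 L77403 (C_36 L77419 (C_36 L77423 (C_36 L77426 N_36)))) (by decide +kernel)
theorem L77428 : W_36 (nat_lit 2) (nat_lit 0x7000680004001600080000000000000000000000000000000) (nat_lit 0x0) (nat_lit 0x2000800100000000000000000000000000000000) := D_36 (nat_lit 143) (nat_lit 128) (nat_lit 157) (nat_lit 2) (nat_lit 5) (nat_lit 8) (nat_lit 1) (nat_lit 8) (nat_lit 8) (by decide +kernel)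
theorem L77429 : W_36 (nat_lit 3) (nat_lit 0x7000680004001200080000000000000000000000000000000) (nat_lit 0x0) (nat_lit 0x2000c00120000000000000000000000000000000) := T_36 (nat_lit 142) (nat_lit 125) (nat_lit 6) (nat_lit 5) (nat_lit 11) L77428 (by decide +kernel)
theorem L77430 : W_36 (nat_lit 4) (nat_lit 0x7000680004001000080000000000000000000000000000000) (nat_lit 0x0) (nat_lit 0x40000000000002000e00120000000000000000000000000000000) := T_36 (nat_lit 141) (nat_lit 210) (nat_lit 7) (nat_lit 5) (nat_lit 8) L77429 (by decide +kernel)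
theorem L77431 : W_36 (nat_lit 5) (nat_lit 0x5000680004001000080000000000000000000000000000000) (nat_lit 0x0) (nat_lit 0x40002800000002000e00120000000000000000000000000000000) := T_36 (nat_lit 193) (nat_lit 191) (nat_lit 2) (nat_lit 4) (nat_lit 11) L77430 (by decide +kernel)
theorem L77432 : W_36 (nat_lit 14) (nat_lit 0x5000680000001000080000000000000000000000000000000) (nat_lit 0x0) (nat_lit 0x30001c000fc007e002c0007000fc00f80138001400000000000000000000000000) := Q_36 (nat_lit 158) (C_36 L77375 (C_36 L7448 (C_36 L7428 (C_36 L77387 (C_36 L77415 (C_36 L77427 (C_36 L77431 N_36))))))) (by decide +kernel)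
theorem L77433 : W_36 (nat_lit 5) (nat_lit 0x5000680006001000080000000000000000000000000000000) (nat_lit 0x0) (nat_lit 0x800060002000000008000700020000000000000000000000000000000) := T_36 (nat_lit 209) (nat_lit 140) (nat_lit 4) (nat_lit 5) (nat_lit 12) L77418 (by decide +kernel)
theorem L77434 : W_36 (nat_lit 6) (nat_lit 0x5000680004001000080000000000000000000000000000000) (nat_lit 0x0) (nat_lit 0x80006000200010000a000700020000000000000000000000000000000) := T_36 (nat_lit 157) (nat_lit 176) (nat_lit 0) (nat_lit 8) (nat_lit 10) L77433 (by decide +kernel)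
theorem L77435 : W_36 (nat_lit 2) (nat_lit 0x400020005000680006001000080000000000000000000000000000000) (nat_lit 0x0) (nat_lit 0x4000200010000000000000000000000000000000000000000000000000000) := D_36 (nat_lit 225) (nat_lit 208) (nat_lit 242) (nat_lit 5) (nat_lit 5) (nat_lit 9) (nat_lit 5) (nat_lit 5) (nat_lit 10) (by decide +kernel)
theorem L77436 : W_36 (nat_lit 3) (nat_lit 0x20005000680006001000080000000000000000000000000000000) (nat_lit 0x0) (nat_lit 0x4000600010000000040000000000000000000000000000000000000000000) := T_36 (nat_lit 226) (nat_lit 174) (nat_lit 4) (nat_lit 5) (nat_lit 13) L77435 (by decide +kernel)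
theorem L77437 : W_36 (nat_lit 4) (nat_lit 0x5000680006001000080000000000000000000000000000000) (nat_lit 0x0) (nat_lit 0x4000600030000000040000000100000000000000000000000000000000000) := T_36 (nat_lit 209) (nat_lit 140) (nat_lit 4) (nat_lit 5) (nat_lit 12) L77436 (by decide +kernel)
theorem L77438 : W_36 (nat_lit 5) (nat_lit 0x5000680004001000080000000000000000000000000000000) (nat_lit 0x0) (nat_lit 0x4000600030000000140002000100000000000000000000000000000000000) := T_36 (nat_lit 157) (nat_lit 176) (nat_lit 0) (nat_lit 8) (nat_lit 10) L77437 (by decide +kernel)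
theorem L77439 : W_36 (nat_lit 2) (nat_lit 0x5000780004001200080000000000000000000000000000000) (nat_lit 0x0) (nat_lit 0x40002000000000000000010000000000000000000000000000000) := D_36 (nat_lit 193) (nat_lit 210) (nat_lit 124) (nat_lit 7) (nat_lit 5) (nat_lit 8) (nat_lit 7) (nat_lit 5) (nat_lit 7) (by decide +kernel)
theorem L77440 : W_36 (nat_lit 3) (nat_lit 0x5000680004001200080000000000000000000000000000000) (nat_lit 0x0) (nat_lit 0x40002000100002000000010000000000000000000000000000000) := T_36 (nat_lit 176) (nat_lit 157) (nat_lit 0) (nat_lit 8) (nat_lit 10) L77439 (by decide +kernel)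
theorem L77441 : W_36 (nat_lit 2) (nat_lit 0x7000680004001200090000000000000000000000000000000) (nat_lit 0x0) (nat_lit 0x400020001000000000000000000000000000) := D_36 (nat_lit 125) (nat_lit 108) (nat_lit 142) (nat_lit 6) (nat_lit 5) (nat_lit 10) (nat_lit 6) (nat_lit 5) (nat_lit 11) (by decide +kernel)
theorem L77442 : W_36 (nat_lit 3) (nat_lit 0x7000680004001200080000000000000000000000000000000) (nat_lit 0x0) (nat_lit 0x100000000400030001000000000000000000000000000) := T_36 (nat_lit 124) (nat_lit 176) (nat_lit 7) (nat_lit 5) (nat_lit 7) L77441 (by decide +kernel)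
theorem L77443 : W_36 (nat_lit 4) (nat_lit 0x5000680004001200080000000000000000000000000000000) (nat_lit 0x0) (nat_lit 0x40002000100000000400030001000000000000000000000000000) := T_36 (nat_lit 193) (nat_lit 210) (nat_lit 7) (nat_lit 5) (nat_lit 8) L77442 (by decide +kernel)
theorem L77444 : W_36 (nat_lit 5) (nat_lit 0x5000680004001000080000000000000000000000000000000) (nat_lit 0x0) (nat_lit 0x40002000100002000f00138001000000000000000000000000000) := Q_36 (nat_lit 141) (C_36 L77372 (C_36 L77440 (C_36 L77443 N_36))) (by decide +kernel)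
theorem L77445 : W_36 (nat_lit 2) (nat_lit 0xa00020005000680004001f00080000000000000000000000000000000) (nat_lit 0x0) (nat_lit 0x14000400000000000000000000000000000000000000000000000000000000) := D_36 (nat_lit 226) (nat_lit 242) (nat_lit 244) (nat_lit 5) (nat_lit 5) (nat_lit 10) (nat_lit 7) (nat_lit 5) (nat_lit 10) (by decide +kernel)
theorem L77446 : W_36 (nat_lit 3) (nat_lit 0x200020005000680004001f00080000000000000000000000000000000) (nat_lit 0x0) (nat_lit 0x14000c00040000000000000000000000000000000000000000000000000000) := T_36 (nat_lit 227) (nat_lit 210) (nat_lit 7) (nat_lit 5) (nat_lit 9) L77445 (by decide +kernel)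
theorem L77447 : W_36 (nat_lit 4) (nat_lit 0x20005000680004001f00080000000000000000000000000000000) (nat_lit 0x0) (nat_lit 0x14000e00050000000000000000000000000000000000000000000000000000) := T_36 (nat_lit 225) (nat_lit 208) (nat_lit 5) (nat_lit 5) (nat_lit 9) L77446 (by decide +kernel)
theorem L77448 : W_36 (nat_lit 5) (nat_lit 0x5000680004001f00080000000000000000000000000000000) (nat_lit 0x0) (nat_lit 0x14000e00070000000000008000000000000000000000000000000000000000) := T_36 (nat_lit 209) (nat_lit 159) (nat_lit 6) (nat_lit 5) (nat_lit 12) L77447 (by decide +kernel)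
theorem L77449 : W_36 (nat_lit 6) (nat_lit 0x5000680004001700080000000000000000000000000000000) (nat_lit 0x0) (nat_lit 0x14000e00070000000000008000800100000000000000000000000000000000) := T_36 (nat_lit 143) (nat_lit 128) (nat_lit 2) (nat_lit 5) (nat_lit 8) L77448 (by decide +kernel)
theorem L77450 : W_36 (nat_lit 7) (nat_lit 0x5000680004001300080000000000000000000000000000000) (nat_lit 0x0) (nat_lit 0x14000e00070000000000008000c00120000000000000000000000000000000) := T_36 (nat_lit 142) (nat_lit 125) (nat_lit 6) (nat_lit 5) (nat_lit 11) L77449 (by decide +kernel)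
theorem L77451 : W_36 (nat_lit 8) (nat_lit 0x5000680004001200080000000000000000000000000000000) (nat_lit 0x0) (nat_lit 0x14000e00070000000000008000d00128000000000000000000000000000000) := T_36 (nat_lit 140) (nat_lit 123) (nat_lit 4) (nat_lit 5) (nat_lit 11) L77450 (by decide +kernel)
theorem L77452 : W_36 (nat_lit 2) (nat_lit 0x7000680004001200090000000000000000000000000000000) (nat_lit 0x0) (nat_lit 0x100008000400000000000000000000000000) := D_36 (nat_lit 123) (nat_lit 140) (nat_lit 106) (nat_lit 4) (nat_lit 5) (nat_lit 11) (nat_lit 4) (nat_lit 5) (nat_lit 10) (by decide +kernel)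
theorem L77453 : W_36 (nat_lit 3) (nat_lit 0x7000680004001200080000000000000000000000000000000) (nat_lit 0x0) (nat_lit 0x100000000100018000400000000000000000000000000) := T_36 (nat_lit 124) (nat_lit 176) (nat_lit 7) (nat_lit 5) (nat_lit 7) L77452 (by decide +kernel)
theorem L77454 : W_36 (nat_lit 4) (nat_lit 0x5000680004001200080000000000000000000000000000000) (nat_lit 0x0) (nat_lit 0x40002000100000000100018000400000000000000000000000000) := T_36 (nat_lit 193) (nat_lit 210) (nat_lit 7) (nat_lit 5) (nat_lit 8) L77453 (by decide +kernel)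
theorem L77455 : W_36 (nat_lit 2) (nat_lit 0x5000680004001600088000000000000000000000000000000) (nat_lit 0x0) (nat_lit 0x800110000000000000000000000000000000) := D_36 (nat_lit 143) (nat_lit 128) (nat_lit 124) (nat_lit 2) (nat_lit 5) (nat_lit 8) (nat_lit 0) (nat_lit 8) (nat_lit 8) (by decide +kernel)
theorem L77456 : W_36 (nat_lit 3) (nat_lit 0x5000680004001200088000000000000000000000000000000) (nat_lit 0x0) (nat_lit 0xc00130000000000000000000000000000000) := T_36 (nat_lit 142) (nat_lit 125) (nat_lit 6) (nat_lit 5) (nat_lit 11) L77455 (by decide +kernel)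
theorem L77457 : W_36 (nat_lit 4) (nat_lit 0x5000680004001200080000000000000000000000000000000) (nat_lit 0x0) (nat_lit 0xd00138000000000000000000000000000000) := T_36 (nat_lit 123) (nat_lit 140) (nat_lit 4) (nat_lit 5) (nat_lit 11) L77456 (by decide +kernel)
theorem L77458 : W_36 (nat_lit 9) (nat_lit 0x5000680004001000080000000000000000000000000000000) (nat_lit 0x0) (nat_lit 0x14000e00070002000100008000f00138001400000000000000000000000000) := Q_36 (nat_lit 141) (C_36 L77451 (C_36 L77443 (C_36 L77454 (C_36 L77457 N_36)))) (by decide +kernel)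
theorem L77459 : W_36 (nat_lit 2) (nat_lit 0x20005000780004001000080000000000000000000000000000000) (nat_lit 0x0) (nat_lit 0x400000000000000008000400000000000000000000000000000000000) := D_36 (nat_lit 159) (nat_lit 142) (nat_lit 226) (nat_lit 6) (nat_lit 5) (nat_lit 12) (nat_lit 6) (nat_lit 5) (nat_lit 13) (by decide +kernel)
theorem L77460 : W_36 (nat_lit 3) (nat_lit 0x20005000680004001000080000000000000000000000000000000) (nat_lit 0x0) (nat_lit 0x40000000000010000a000400000000000000000000000000000000000) := T_36 (nat_lit 176) (nat_lit 157) (nat_lit 0) (nat_lit 8) (nat_lit 10) L77459 (by decide +kernel)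
theorem L77461 : W_36 (nat_lit 2) (nat_lit 0x60005000680004001600080000000000000000000000000000000) (nat_lit 0x0) (nat_lit 0x2000800100000000000000000000000000000000) := D_36 (nat_lit 143) (nat_lit 128) (nat_lit 157) (nat_lit 2) (nat_lit 5) (nat_lit 8) (nat_lit 1) (nat_lit 8) (nat_lit 8) (by decide +kernel)
theorem L77462 : W_36 (nat_lit 3) (nat_lit 0x60005000680004001200080000000000000000000000000000000) (nat_lit 0x0) (nat_lit 0x2000c00120000000000000000000000000000000) := T_36 (nat_lit 142) (nat_lit 125) (nat_lit 6) (nat_lit 5) (nat_lit 11) L77461 (by decide +kernel)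
theorem L77463 : W_36 (nat_lit 4) (nat_lit 0x60005000680004001000080000000000000000000000000000000) (nat_lit 0x0) (nat_lit 0x2000000002000e00120000000000000000000000000000000) := T_36 (nat_lit 141) (nat_lit 193) (nat_lit 7) (nat_lit 5) (nat_lit 8) L77462 (by decide +kernel)
theorem L77464 : W_36 (nat_lit 5) (nat_lit 0x20005000680004001000080000000000000000000000000000000) (nat_lit 0x0) (nat_lit 0x800040002000000002000e00120000000000000000000000000000000) := T_36 (nat_lit 210) (nat_lit 227) (nat_lit 7) (nat_lit 5) (nat_lit 9) L77463 (by decide +kernel)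
theorem L77465 : W_36 (nat_lit 2) (nat_lit 0x400060005000780004001200080000000000000000000000000000000) (nat_lit 0x0) (nat_lit 0x4000200010000000000000000000000000000000000000000000000000000) := D_36 (nat_lit 225) (nat_lit 242) (nat_lit 208) (nat_lit 5) (nat_lit 5) (nat_lit 10) (nat_lit 5) (nat_lit 5) (nat_lit 9) (by decide +kernel)
theorem L77466 : W_36 (nat_lit 3) (nat_lit 0x60005000780004001200080000000000000000000000000000000) (nat_lit 0x0) (nat_lit 0x4000600010000000000008000000000000000000000000000000000000000) := T_36 (nat_lit 226) (nat_lit 159) (nat_lit 6) (nat_lit 5) (nat_lit 13) L77465 (by decide +kernel)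
theorem L77467 : W_36 (nat_lit 4) (nat_lit 0x60005000780004001000080000000000000000000000000000000) (nat_lit 0x0) (nat_lit 0x4000600010002000000008000200000000000000000000000000000000000) := T_36 (nat_lit 141) (nat_lit 193) (nat_lit 7) (nat_lit 5) (nat_lit 8) L77466 (by decide +kernel)
theorem L77468 : W_36 (nat_lit 5) (nat_lit 0x20005000780004001000080000000000000000000000000000000) (nat_lit 0x0) (nat_lit 0x4000e00050002000000008000200000000000000000000000000000000000) := T_36 (nat_lit 210) (nat_lit 227) (nat_lit 7) (nat_lit 5) (nat_lit 9) L77467 (by decide +kernel)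
theorem L77469 : W_36 (nat_lit 6) (nat_lit 0x20005000680004001000080000000000000000000000000000000) (nat_lit 0x0) (nat_lit 0x4000e0005000200010000a000200000000000000000000000000000000000) := T_36 (nat_lit 176) (nat_lit 157) (nat_lit 0) (nat_lit 8) (nat_lit 10) L77468 (by decide +kernel)
theorem L77470 : W_36 (nat_lit 7) (nat_lit 0x5000680004001000080000000000000000000000000000000) (nat_lit 0x0) (nat_lit 0x4000e0007000200010000a000e00120000000000000000000000000000000) := Q_36 (nat_lit 209) (C_36 L77460 (C_36 L77426 (C_36 L77464 (C_36 L77469 N_36)))) (by decide +kernel)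
theorem L77471 : W_36 (nat_lit 10) (nat_lit 0x5000680000001000080000000000000000000000000000000) (nat_lit 0x0) (nat_lit 0x14000e0007000200014000e000f00138001400000000000000000000000000) := Q_36 (nat_lit 158) (C_36 L77379 (C_36 L77427 (C_36 L77434 (C_36 L77438 (C_36 L77444 (C_36 L77458 (C_36 L77470 N_36))))))) (by decide +kernel)
theorem L77472 : W_36 (nat_lit 15) (nat_lit 0x5000600000001000080000000000000000000000000000000) (nat_lit 0x0) (nat_lit 0x30001c000fc007e002c001f000fc00f80138001400000000000000000000000000) := Q_36 (nat_lit 175) (C_36 L77381 (C_36 L77382 (C_36 L77432 (C_36 L77471 N_36)))) (by decide +kernel)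
theorem L77473 : W_36 (nat_lit 2) (nat_lit 0x16000f000680000001000080000000000000000000000000000000) (nat_lit 0x0) (nat_lit 0x800000000000000004000200000000000000000000000000000000000) := D_36 (nat_lit 158) (nat_lit 227) (nat_lit 141) (nat_lit 7) (nat_lit 5) (nat_lit 9) (nat_lit 7) (nat_lit 5) (nat_lit 8) (by decide +kernel)
theorem L77474 : W_36 (nat_lit 3) (nat_lit 0x12000f000680000001000080000000000000000000000000000000) (nat_lit 0x0) (nat_lit 0x800040010000000004000200000000000000000000000000000000000) := T_36 (nat_lit 210) (nat_lit 196) (nat_lit 1) (nat_lit 9) (nat_lit 11) L77473 (by decide +kernel)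
theorem L77475 : W_36 (nat_lit 4) (nat_lit 0x2000f000680000001000080000000000000000000000000000000) (nat_lit 0x0) (nat_lit 0x800340010000000004000200000000000000000000000000000000000) := T_36 (nat_lit 212) (nat_lit 213) (nat_lit 3) (nat_lit 5) (nat_lit 11) L77474 (by decide +kernel)
theorem L77476 : W_36 (nat_lit 5) (nat_lit 0xf000680000001000080000000000000000000000000000000) (nat_lit 0x0) (nat_lit 0x800370010000000004000200000000000000000000000000000000000) := T_36 (nat_lit 209) (nat_lit 208) (nat_lit 1) (nat_lit 8) (nat_lit 11) L77475 (by decide +kernel)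
theorem L77477 : W_36 (nat_lit 6) (nat_lit 0x7000680000001000080000000000000000000000000000000) (nat_lit 0x0) (nat_lit 0x800370018000040004000200000000000000000000000000000000000) := T_36 (nat_lit 195) (nat_lit 174) (nat_lit 0) (nat_lit 8) (nat_lit 11) L77476 (by decide +kernel)
theorem L77478 : W_36 (nat_lit 7) (nat_lit 0x5000680000001000080000000000000000000000000000000) (nat_lit 0x0) (nat_lit 0x80037001a800040004000200000000000000000000000000000000000) := T_36 (nat_lit 193) (nat_lit 191) (nat_lit 2) (nat_lit 4) (nat_lit 11) L77477 (by decide +kernel)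
theorem L77479 : W_36 (nat_lit 2) (nat_lit 0xd000680000001000080000000000000000000000000000000) (nat_lit 0x0) (nat_lit 0x10000140000000000000000000000000000000000000000000) := D_36 (nat_lit 176) (nat_lit 196) (nat_lit 174) (nat_lit 3) (nat_lit 5) (nat_lit 10) (nat_lit 3) (nat_lit 4) (nat_lit 10) (by decide +kernel)
theorem L77480 : W_36 (nat_lit 6) (nat_lit 0xd000680000001000080000000000000000000000000000000) (nat_lit 0x0) (nat_lit 0x800370012000040004000200000000000000000000000000000000000) := T_36 (nat_lit 193) (nat_lit 174) (nat_lit 0) (nat_lit 8) (nat_lit 11) L77476 (by decide +kernel)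
theorem L77481 : W_36 (nat_lit 2) (nat_lit 0xd000680000001000080000000000000000000000000000000) (nat_lit 0x0) (nat_lit 0x2000140000000000000000000000000000000000000000000) := D_36 (nat_lit 174) (nat_lit 193) (nat_lit 176) (nat_lit 0) (nat_lit 8) (nat_lit 11) (nat_lit 3) (nat_lit 4) (nat_lit 10) (by decide +kernel)
theorem L77482 : W_36 (nat_lit 2) (nat_lit 0x2000400068003d000680000001000080000000000000000000000000000000) (nat_lit 0x0) (nat_lit 0x3000080000000000000000000000000000000000000000) := D_36 (nat_lit 180) (nat_lit 181) (nat_lit 163) (nat_lit 2) (nat_lit 7) (nat_lit 11) (nat_lit 5) (nat_lit 10) (nat_lit 9) (by decide +kernel)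
theorem L77483 : W_36 (nat_lit 3) (nat_lit 0x2000000068003d000680000001000080000000000000000000000000000000) (nat_lit 0x0) (nat_lit 0x80004000000000003000080000000000000000000000000000000000000000) := T_36 (nat_lit 230) (nat_lit 247) (nat_lit 4) (nat_lit 9) (nat_lit 14) L77482 (by decide +kernel)
theorem L77484 : W_36 (nat_lit 4) (nat_lit 0x68003d000680000001000080000000000000000000000000000000) (nat_lit 0x0) (nat_lit 0xa0005000000000003000080000000000000000000000000000000000000000) := T_36 (nat_lit 245) (nat_lit 228) (nat_lit 6) (nat_lit 7) (nat_lit 14) L77483 (by decide +kernel)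
theorem L77485 : W_36 (nat_lit 5) (nat_lit 0x48003d000680000001000080000000000000000000000000000000) (nat_lit 0x0) (nat_lit 0xa0005000200002003000080000000000000000000000000000000000000000) := T_36 (nat_lit 213) (nat_lit 193) (nat_lit 3) (nat_lit 6) (nat_lit 11) L77484 (by decide +kernel)
theorem L77486 : W_36 (nat_lit 6) (nat_lit 0x8003d000680000001000080000000000000000000000000000000) (nat_lit 0x0) (nat_lit 0xa0005000e00002003000080000000000000000000000000000000000000000) := T_36 (nat_lit 214) (nat_lit 215) (nat_lit 3) (nat_lit 7) (nat_lit 11) L77485 (by decide +kernel)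
theorem L77487 : W_36 (nat_lit 7) (nat_lit 0x3d000680000001000080000000000000000000000000000000) (nat_lit 0x0) (nat_lit 0xa0005000ec0002003000080000000000000000000000000000000000000000) := T_36 (nat_lit 211) (nat_lit 210) (nat_lit 1) (nat_lit 10) (nat_lit 11) L77486 (by decide +kernel)
theorem L77488 : W_36 (nat_lit 8) (nat_lit 0x1d000680000001000080000000000000000000000000000000) (nat_lit 0x0) (nat_lit 0xa0005000ec0062003000080000000000000000000000000000000000000000) := T_36 (nat_lit 197) (nat_lit 198) (nat_lit 0) (nat_lit 11) (nat_lit 11) L77487 (by decide +kernel)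
theorem L77489 : W_36 (nat_lit 9) (nat_lit 0xd000680000001000080000000000000000000000000000000) (nat_lit 0x0) (nat_lit 0xa0005000ec0072003100080000000000000000000000000000000000000000) := T_36 (nat_lit 196) (nat_lit 176) (nat_lit 3) (nat_lit 5) (nat_lit 10) L77488 (by decide +kernel)
theorem L77490 : W_36 (nat_lit 10) (nat_lit 0x5000680000001000080000000000000000000000000000000) (nat_lit 0x0) (nat_lit 0xa0005800ff007a003140084000200000000000000000000000000000000000) := Q_36 (nat_lit 195) (C_36 L77479 (C_36 L77480 (C_36 L77481 (C_36 L77489 N_36)))) (by decide +kernel)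
theorem L77491 : W_36 (nat_lit 11) (nat_lit 0x5000600000001000080000000000000000000000000000000) (nat_lit 0x0) (nat_lit 0xb0005c00ff007a8031c0086000f00138001400000000000000000000000000) := Q_36 (nat_lit 175) (C_36 L77381 (C_36 L77382 (C_36 L77478 (C_36 L77490 N_36)))) (by decide +kernel)
theorem L77492 : W_36 (nat_lit 3) (nat_lit 0x5000680000001000080000000000000000000000000000000) (nat_lit 0x0) (nat_lit 0x18800140000000000000000000000000000000000000000000) := T_36 (nat_lit 176) (nat_lit 191) (nat_lit 1) (nat_lit 8) (nat_lit 10) L77210 (by decide +kernel)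
theorem L77493 : W_36 (nat_lit 2) (nat_lit 0xc000200050006c0004001000080000000000000000000000000000000) (nat_lit 0x0) (nat_lit 0x4000200010000000000000000000000000000000000000000000000000000) := D_36 (nat_lit 225) (nat_lit 242) (nat_lit 208) (nat_lit 5) (nat_lit 5) (nat_lit 10) (nat_lit 5) (nat_lit 5) (nat_lit 9) (by decide +kernel)
theorem L77494 : W_36 (nat_lit 3) (nat_lit 0xc000200050006c0000001000080000000000000000000000000000000) (nat_lit 0x0) (nat_lit 0x4000200050000000000004000000000000000000000000000000000000000) := T_36 (nat_lit 158) (nat_lit 210) (nat_lit 7) (nat_lit 5) (nat_lit 9) L77493 (by decide +kernel)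
theorem L77495 : W_36 (nat_lit 4) (nat_lit 0x4000200050006c0000001000080000000000000000000000000000000) (nat_lit 0x0) (nat_lit 0x14000a00050000000000004000000000000000000000000000000000000000) := T_36 (nat_lit 227) (nat_lit 244) (nat_lit 7) (nat_lit 5) (nat_lit 10) L77494 (by decide +kernel)
theorem L77496 : W_36 (nat_lit 5) (nat_lit 0x400020005000680000001000080000000000000000000000000000000) (nat_lit 0x0) (nat_lit 0x14000a00050000000040006000000000000000000000000000000000000000) := T_36 (nat_lit 174) (nat_lit 157) (nat_lit 4) (nat_lit 5) (nat_lit 13) L77495 (by decide +kernel)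
theorem L77497 : W_36 (nat_lit 2) (nat_lit 0x8000c000200050006c0000001000080000000000000000000000000000000) (nat_lit 0x0) (nat_lit 0x80004000200000000000000000000000000000000000000000000000000000000) := D_36 (nat_lit 242) (nat_lit 225) (nat_lit 259) (nat_lit 5) (nat_lit 5) (nat_lit 10) (nat_lit 5) (nat_lit 5) (nat_lit 11) (by decide +kernel)
theorem L77498 : W_36 (nat_lit 3) (nat_lit 0xc000200050006c0000001000080000000000000000000000000000000) (nat_lit 0x0) (nat_lit 0x8000c000200000000800000000000000000000000000000000000000000000000) := T_36 (nat_lit 243) (nat_lit 191) (nat_lit 4) (nat_lit 5) (nat_lit 14) L77497 (by decide +kernel)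
theorem L77499 : W_36 (nat_lit 4) (nat_lit 0x4000200050006c0000001000080000000000000000000000000000000) (nat_lit 0x0) (nat_lit 0x8001c000a00000000800000000000000000000000000000000000000000000000) := T_36 (nat_lit 227) (nat_lit 244) (nat_lit 7) (nat_lit 5) (nat_lit 10) L77498 (by decide +kernel)
theorem L77500 : W_36 (nat_lit 5) (nat_lit 0x400020005000680000001000080000000000000000000000000000000) (nat_lit 0x0) (nat_lit 0x8001c000a00000000800040002000000000000000000000000000000000000000) := T_36 (nat_lit 174) (nat_lit 157) (nat_lit 4) (nat_lit 5) (nat_lit 13) L77499 (by decide +kernel)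
theorem L77501 : W_36 (nat_lit 2) (nat_lit 0x600020005000680004001000080000000000000000000000000000000) (nat_lit 0x0) (nat_lit 0x10000800040000000000000000000000000000000000000000000000000000) := D_36 (nat_lit 227) (nat_lit 244) (nat_lit 210) (nat_lit 7) (nat_lit 5) (nat_lit 10) (nat_lit 7) (nat_lit 5) (nat_lit 9) (by decide +kernel)
theorem L77502 : W_36 (nat_lit 3) (nat_lit 0x600020005000680000001000080000000000000000000000000000000) (nat_lit 0x0) (nat_lit 0x10000800050000000000004000000000000000000000000000000000000000) := T_36 (nat_lit 158) (nat_lit 208) (nat_lit 5) (nat_lit 5) (nat_lit 9) L77501 (by decide +kernel)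
theorem L77503 : W_36 (nat_lit 4) (nat_lit 0x400020005000680000001000080000000000000000000000000000000) (nat_lit 0x0) (nat_lit 0x14000a00050000000000004000000000000000000000000000000000000000) := T_36 (nat_lit 225) (nat_lit 242) (nat_lit 5) (nat_lit 5) (nat_lit 10) L77502 (by decide +kernel)
theorem L77504 : W_36 (nat_lit 2) (nat_lit 0x80006800600050006c0004001600088000000000000000000000000000000) (nat_lit 0x0) (nat_lit 0x800110000000000000000000000000000000) := D_36 (nat_lit 143) (nat_lit 128) (nat_lit 124) (nat_lit 2) (nat_lit 5) (nat_lit 8) (nat_lit 0) (nat_lit 8) (nat_lit 8) (by decide +kernel)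
theorem L77505 : W_36 (nat_lit 3) (nat_lit 0x80006800600050006c0004001600080000000000000000000000000000000) (nat_lit 0x0) (nat_lit 0x900118000000000000000000000000000000) := T_36 (nat_lit 123) (nat_lit 140) (nat_lit 4) (nat_lit 5) (nat_lit 11) L77504 (by decide +kernel)
theorem L77506 : W_36 (nat_lit 4) (nat_lit 0x80006800600050006c0004001400080000000000000000000000000000000) (nat_lit 0x0) (nat_lit 0xb00138000000000000000000000000000000) := T_36 (nat_lit 141) (nat_lit 125) (nat_lit 6) (nat_lit 5) (nat_lit 11) L77505 (by decide +kernel)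
theorem L77507 : W_36 (nat_lit 5) (nat_lit 0x80006800600050006c0004001000080000000000000000000000000000000) (nat_lit 0x0) (nat_lit 0x8000f00138000000000000000000000000000000) := T_36 (nat_lit 142) (nat_lit 159) (nat_lit 6) (nat_lit 5) (nat_lit 12) L77506 (by decide +kernel)
theorem L77508 : W_36 (nat_lit 6) (nat_lit 0x80006000600050006c0004001000080000000000000000000000000000000) (nat_lit 0x0) (nat_lit 0x180000000000000008000f00138000000000000000000000000000000) := T_36 (nat_lit 223) (nat_lit 224) (nat_lit 2) (nat_lit 2) (nat_lit 13) L77507 (by decide +kernel)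
theorem L77509 : W_36 (nat_lit 7) (nat_lit 0x80006000200050006c0004001000080000000000000000000000000000000) (nat_lit 0x0) (nat_lit 0x980040000000000008000f00138000000000000000000000000000000) := T_36 (nat_lit 210) (nat_lit 227) (nat_lit 7) (nat_lit 5) (nat_lit 9) L77508 (by decide +kernel)
theorem L77510 : W_36 (nat_lit 8) (nat_lit 0x6000200050006c0004001000080000000000000000000000000000000) (nat_lit 0x0) (nat_lit 0x8000980040000800000008000f00138000000000000000000000000000000) := T_36 (nat_lit 243) (nat_lit 191) (nat_lit 4) (nat_lit 5) (nat_lit 14) L77509 (by decide +kernel)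
theorem L77511 : W_36 (nat_lit 9) (nat_lit 0x6000200050006c0000001000080000000000000000000000000000000) (nat_lit 0x0) (nat_lit 0x800098005000080000000c000f00138000000000000000000000000000000) := T_36 (nat_lit 158) (nat_lit 208) (nat_lit 5) (nat_lit 5) (nat_lit 9) L77510 (by decide +kernel)
theorem L77512 : W_36 (nat_lit 10) (nat_lit 0x4000200050006c0000001000080000000000000000000000000000000) (nat_lit 0x0) (nat_lit 0xc000b8005000080000000c000f00138000000000000000000000000000000) := T_36 (nat_lit 225) (nat_lit 242) (nat_lit 5) (nat_lit 5) (nat_lit 10) L77511 (by decide +kernel)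
theorem L77513 : W_36 (nat_lit 11) (nat_lit 0x400020005000680000001000080000000000000000000000000000000) (nat_lit 0x0) (nat_lit 0xc000b8005000080004000e000f00138000000000000000000000000000000) := T_36 (nat_lit 174) (nat_lit 157) (nat_lit 4) (nat_lit 5) (nat_lit 13) L77512 (by decide +kernel)
theorem L77514 : W_36 (nat_lit 2) (nat_lit 0x580006800200050006c0004001600088000000000000000000000000000000) (nat_lit 0x0) (nat_lit 0x800110000000000000000000000000000000) := D_36 (nat_lit 143) (nat_lit 128) (nat_lit 124) (nat_lit 2) (nat_lit 5) (nat_lit 8) (nat_lit 0) (nat_lit 8) (nat_lit 8) (by decide +kernel)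
theorem L77515 : W_36 (nat_lit 3) (nat_lit 0x580006800200050006c0004001600080000000000000000000000000000000) (nat_lit 0x0) (nat_lit 0x900118000000000000000000000000000000) := T_36 (nat_lit 123) (nat_lit 140) (nat_lit 4) (nat_lit 5) (nat_lit 11) L77514 (by decide +kernel)
theorem L77516 : W_36 (nat_lit 4) (nat_lit 0x580006800200050006c0004001400080000000000000000000000000000000) (nat_lit 0x0) (nat_lit 0xb00138000000000000000000000000000000) := T_36 (nat_lit 141) (nat_lit 125) (nat_lit 6) (nat_lit 5) (nat_lit 11) L77515 (by decide +kernel)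
theorem L77517 : W_36 (nat_lit 5) (nat_lit 0x180006800200050006c0004001400080000000000000000000000000000000) (nat_lit 0x0) (nat_lit 0x60000000000000000000000000b00138000000000000000000000000000000) := T_36 (nat_lit 246) (nat_lit 245) (nat_lit 0) (nat_lit 8) (nat_lit 14) L77516 (by decide +kernel)
theorem L77518 : W_36 (nat_lit 6) (nat_lit 0x180006000200050006c0004001400080000000000000000000000000000000) (nat_lit 0x0) (nat_lit 0x60000180000000000000000000b00138000000000000000000000000000000) := T_36 (nat_lit 223) (nat_lit 224) (nat_lit 3) (nat_lit 2) (nat_lit 13) L77517 (by decide +kernel)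
theorem L77519 : W_36 (nat_lit 7) (nat_lit 0x80006000200050006c0004001400080000000000000000000000000000000) (nat_lit 0x0) (nat_lit 0x200070000180000000000000000000b00138000000000000000000000000000000) := T_36 (nat_lit 244) (nat_lit 261) (nat_lit 7) (nat_lit 5) (nat_lit 11) L77518 (by decide +kernel)
theorem L77520 : W_36 (nat_lit 8) (nat_lit 0x80006000200050006c0004001000080000000000000000000000000000000) (nat_lit 0x0) (nat_lit 0x200070000180000000000000008000f00138000000000000000000000000000000) := T_36 (nat_lit 142) (nat_lit 159) (nat_lit 6) (nat_lit 5) (nat_lit 12) L77519 (by decide +kernel)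
theorem L77521 : W_36 (nat_lit 9) (nat_lit 0x6000200050006c0004001000080000000000000000000000000000000) (nat_lit 0x0) (nat_lit 0x200078000180000000800000008000f00138000000000000000000000000000000) := T_36 (nat_lit 243) (nat_lit 191) (nat_lit 4) (nat_lit 5) (nat_lit 14) L77520 (by decide +kernel)
theorem L77522 : W_36 (nat_lit 10) (nat_lit 0x6000200050006c0000001000080000000000000000000000000000000) (nat_lit 0x0) (nat_lit 0x20007800018001000080000000c000f00138000000000000000000000000000000) := T_36 (nat_lit 158) (nat_lit 208) (nat_lit 5) (nat_lit 5) (nat_lit 9) L77521 (by decide +kernel)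
theorem L77523 : W_36 (nat_lit 11) (nat_lit 0x4000200050006c0000001000080000000000000000000000000000000) (nat_lit 0x0) (nat_lit 0x20007c00038001000080000000c000f00138000000000000000000000000000000) := T_36 (nat_lit 225) (nat_lit 242) (nat_lit 5) (nat_lit 5) (nat_lit 10) L77522 (by decide +kernel)
theorem L77524 : W_36 (nat_lit 12) (nat_lit 0x400020005000680000001000080000000000000000000000000000000) (nat_lit 0x0) (nat_lit 0x20007c00038001000080004000e000f00138000000000000000000000000000000) := T_36 (nat_lit 174) (nat_lit 157) (nat_lit 4) (nat_lit 5) (nat_lit 13) L77523 (by decide +kernel)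
theorem L77525 : W_36 (nat_lit 2) (nat_lit 0xc000200058006d000c001000080000000000000000000000000000000) (nat_lit 0x0) (nat_lit 0x10000000000000000200010000000000000000000000000000000) := D_36 (nat_lit 141) (nat_lit 124) (nat_lit 208) (nat_lit 5) (nat_lit 5) (nat_lit 7) (nat_lit 5) (nat_lit 5) (nat_lit 8) (by decide +kernel)
theorem L77526 : W_36 (nat_lit 3) (nat_lit 0xc000200050006d000c001000080000000000000000000000000000000) (nat_lit 0x0) (nat_lit 0x8000000010000800000000000200010000000000000000000000000000000) := T_36 (nat_lit 191) (nat_lit 243) (nat_lit 4) (nat_lit 5) (nat_lit 14) L77525 (by decide +kernel)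
theorem L77527 : W_36 (nat_lit 4) (nat_lit 0xc000200050006c000c001000080000000000000000000000000000000) (nat_lit 0x0) (nat_lit 0x8000000010000800030000000200010000000000000000000000000000000) := T_36 (nat_lit 172) (nat_lit 173) (nat_lit 2) (nat_lit 2) (nat_lit 10) L77526 (by decide +kernel)
theorem L77528 : W_36 (nat_lit 5) (nat_lit 0xc000200050006c0004001000080000000000000000000000000000000) (nat_lit 0x0) (nat_lit 0x8000000010000800030008000600010000000000000000000000000000000) := T_36 (nat_lit 159) (nat_lit 142) (nat_lit 6) (nat_lit 5) (nat_lit 12) L77527 (by decide +kernel)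
theorem L77529 : W_36 (nat_lit 6) (nat_lit 0xc000200050006c0000001000080000000000000000000000000000000) (nat_lit 0x0) (nat_lit 0x800000005000080003000c000600010000000000000000000000000000000) := T_36 (nat_lit 158) (nat_lit 210) (nat_lit 7) (nat_lit 5) (nat_lit 9) L77528 (by decide +kernel)
theorem L77530 : W_36 (nat_lit 7) (nat_lit 0x4000200050006c0000001000080000000000000000000000000000000) (nat_lit 0x0) (nat_lit 0x1800080005000080003000c000600010000000000000000000000000000000) := T_36 (nat_lit 227) (nat_lit 244) (nat_lit 7) (nat_lit 5) (nat_lit 10) L77529 (by decide +kernel)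
theorem L77531 : W_36 (nat_lit 8) (nat_lit 0x400020005000680000001000080000000000000000000000000000000) (nat_lit 0x0) (nat_lit 0x1800080005000080007000e000600010000000000000000000000000000000) := T_36 (nat_lit 174) (nat_lit 157) (nat_lit 4) (nat_lit 5) (nat_lit 13) L77530 (by decide +kernel)
theorem L77532 : W_36 (nat_lit 13) (nat_lit 0x20005000680000001000080000000000000000000000000000000) (nat_lit 0x0) (nat_lit 0x28007c000f8005000080007000e000f00138000000000000000000000000000000) := Q_36 (nat_lit 226) (C_36 L77496 (C_36 L77500 (C_36 L77503 (C_36 L77513 (C_36 L77524 (C_36 L77531 N_36)))))) (by decide +kernel)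
theorem L77533 : W_36 (nat_lit 2) (nat_lit 0x7000580068000e001000080000000000000000000000000000000) (nat_lit 0x0) (nat_lit 0x80008400000000000000000000000000000000000000000000000) := D_36 (nat_lit 211) (nat_lit 195) (nat_lit 190) (nat_lit 2) (nat_lit 4) (nat_lit 12) (nat_lit 0) (nat_lit 7) (nat_lit 12) (by decide +kernel)
theorem L77534 : W_36 (nat_lit 3) (nat_lit 0x7000500068000e001000080000000000000000000000000000000) (nat_lit 0x0) (nat_lit 0x80008c00000000000200000000000000000000000000000000000) := T_36 (nat_lit 191) (nat_lit 141) (nat_lit 5) (nat_lit 5) (nat_lit 8) L77533 (by decide +kernel)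
theorem L77535 : W_36 (nat_lit 4) (nat_lit 0x6000500068000e001000080000000000000000000000000000000) (nat_lit 0x0) (nat_lit 0x200090008c00000000000200000000000000000000000000000000000) := T_36 (nat_lit 208) (nat_lit 225) (nat_lit 5) (nat_lit 5) (nat_lit 9) L77534 (by decide +kernel)
theorem L77536 : W_36 (nat_lit 5) (nat_lit 0x2000500068000e001000080000000000000000000000000000000) (nat_lit 0x0) (nat_lit 0xa000d0008c00000000000200000000000000000000000000000000000) := T_36 (nat_lit 210) (nat_lit 227) (nat_lit 7) (nat_lit 5) (nat_lit 9) L77535 (by decide +kernel)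
theorem L77537 : W_36 (nat_lit 6) (nat_lit 0x20005000680006001000080000000000000000000000000000000) (nat_lit 0x0) (nat_lit 0xa000d0008c00000008000600000000000000000000000000000000000) := T_36 (nat_lit 159) (nat_lit 142) (nat_lit 6) (nat_lit 5) (nat_lit 12) L77536 (by decide +kernel)
theorem L77538 : W_36 (nat_lit 7) (nat_lit 0x20005000680004001000080000000000000000000000000000000) (nat_lit 0x0) (nat_lit 0xa000d0008c0000000a000700000000000000000000000000000000000) := T_36 (nat_lit 157) (nat_lit 140) (nat_lit 4) (nat_lit 5) (nat_lit 12) L77537 (by decide +kernel)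
theorem L77539 : W_36 (nat_lit 2) (nat_lit 0x30005000680004001200080000000000000000000000000000000) (nat_lit 0x0) (nat_lit 0x8000400020000000000000000000000000000000) := D_36 (nat_lit 142) (nat_lit 159) (nat_lit 125) (nat_lit 6) (nat_lit 5) (nat_lit 12) (nat_lit 6) (nat_lit 5) (nat_lit 11) (by decide +kernel)
theorem L77540 : W_36 (nat_lit 3) (nat_lit 0x30005000680004001000080000000000000000000000000000000) (nat_lit 0x0) (nat_lit 0x800000008000600020000000000000000000000000000000) := T_36 (nat_lit 141) (nat_lit 191) (nat_lit 5) (nat_lit 5) (nat_lit 8) L77539 (by decide +kernel)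
theorem L77541 : W_36 (nat_lit 4) (nat_lit 0x20005000680004001000080000000000000000000000000000000) (nat_lit 0x0) (nat_lit 0x200010000800000008000600020000000000000000000000000000000) := T_36 (nat_lit 208) (nat_lit 225) (nat_lit 5) (nat_lit 5) (nat_lit 9) L77540 (by decide +kernel)
theorem L77542 : W_36 (nat_lit 8) (nat_lit 0x20005000680000001000080000000000000000000000000000000) (nat_lit 0x0) (nat_lit 0x14000e000d0008c0004000e000700020000000000000000000000000000000) := Q_36 (nat_lit 158) (C_36 L77423 (C_36 L77403 (C_36 L77538 (C_36 L77541 N_36)))) (by decide +kernel)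
theorem L77543 : W_36 (nat_lit 2) (nat_lit 0x7000300058006e8000001000080000000000000000000000000000000) (nat_lit 0x0) (nat_lit 0xc0040000000000000000000000000000000000000000000000000000) := D_36 (nat_lit 223) (nat_lit 210) (nat_lit 222) (nat_lit 2) (nat_lit 2) (nat_lit 13) (nat_lit 2) (nat_lit 1) (nat_lit 13) (by decide +kernel)
theorem L77544 : W_36 (nat_lit 3) (nat_lit 0x6000300058006e8000001000080000000000000000000000000000000) (nat_lit 0x0) (nat_lit 0x20001c0040000000000000000000000000000000000000000000000000000) := T_36 (nat_lit 224) (nat_lit 241) (nat_lit 5) (nat_lit 4) (nat_lit 10) L77543 (by decide +kernel)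
theorem L77545 : W_36 (nat_lit 4) (nat_lit 0x6000300058006e0000001000080000000000000000000000000000000) (nat_lit 0x0) (nat_lit 0x20001c0040000000018000000000000000000000000000000000000000000) := T_36 (nat_lit 171) (nat_lit 172) (nat_lit 3) (nat_lit 1) (nat_lit 10) L77544 (by decide +kernel)
theorem L77546 : W_36 (nat_lit 5) (nat_lit 0x6000300058006c0000001000080000000000000000000000000000000) (nat_lit 0x0) (nat_lit 0x20001c0040000000038001000000000000000000000000000000000000000) := T_36 (nat_lit 173) (nat_lit 156) (nat_lit 4) (nat_lit 4) (nat_lit 13) L77545 (by decide +kernel)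
theorem L77547 : W_36 (nat_lit 6) (nat_lit 0x6000300050006c0000001000080000000000000000000000000000000) (nat_lit 0x0) (nat_lit 0xa0001c0040000800038001000000000000000000000000000000000000000) := T_36 (nat_lit 191) (nat_lit 243) (nat_lit 7) (nat_lit 4) (nat_lit 10) L77546 (by decide +kernel)
theorem L77548 : W_36 (nat_lit 7) (nat_lit 0x6000200050006c0000001000080000000000000000000000000000000) (nat_lit 0x0) (nat_lit 0xa0001c0050000800038005000000000000000000000000000000000000000) := T_36 (nat_lit 208) (nat_lit 158) (nat_lit 5) (nat_lit 5) (nat_lit 9) L77547 (by decide +kernel)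
theorem L77549 : W_36 (nat_lit 8) (nat_lit 0x4000200050006c0000001000080000000000000000000000000000000) (nat_lit 0x0) (nat_lit 0xe0003c0050000800038005000000000000000000000000000000000000000) := T_36 (nat_lit 225) (nat_lit 242) (nat_lit 5) (nat_lit 5) (nat_lit 10) L77548 (by decide +kernel)
theorem L77550 : W_36 (nat_lit 9) (nat_lit 0x400020005000680000001000080000000000000000000000000000000) (nat_lit 0x0) (nat_lit 0xe0003c0050000800078007000000000000000000000000000000000000000) := T_36 (nat_lit 174) (nat_lit 157) (nat_lit 4) (nat_lit 5) (nat_lit 13) L77549 (by decide +kernel)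
theorem L77551 : W_36 (nat_lit 2) (nat_lit 0xc000200058006c0004001000080000000000000000000000000000000) (nat_lit 0x0) (nat_lit 0x10000000000000000200010000000000000000000000000000000) := D_36 (nat_lit 141) (nat_lit 124) (nat_lit 208) (nat_lit 5) (nat_lit 5) (nat_lit 7) (nat_lit 5) (nat_lit 5) (nat_lit 8) (by decide +kernel)
theorem L77552 : W_36 (nat_lit 3) (nat_lit 0xc000200050006c0004001000080000000000000000000000000000000) (nat_lit 0x0) (nat_lit 0x8000000010000800000000000200010000000000000000000000000000000) := T_36 (nat_lit 191) (nat_lit 243) (nat_lit 4) (nat_lit 5) (nat_lit 14) L77551 (by decide +kernel)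
theorem L77553 : W_36 (nat_lit 4) (nat_lit 0xc000200050006c0000001000080000000000000000000000000000000) (nat_lit 0x0) (nat_lit 0x8000000050000800000004000200010000000000000000000000000000000) := T_36 (nat_lit 158) (nat_lit 210) (nat_lit 7) (nat_lit 5) (nat_lit 9) L77552 (by decide +kernel)
theorem L77554 : W_36 (nat_lit 5) (nat_lit 0x4000200050006c0000001000080000000000000000000000000000000) (nat_lit 0x0) (nat_lit 0x18000800050000800000004000200010000000000000000000000000000000) := T_36 (nat_lit 227) (nat_lit 244) (nat_lit 7) (nat_lit 5) (nat_lit 10) L77553 (by decide +kernel)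
theorem L77555 : W_36 (nat_lit 6) (nat_lit 0x400020005000680000001000080000000000000000000000000000000) (nat_lit 0x0) (nat_lit 0x18000800050000800040006000200010000000000000000000000000000000) := T_36 (nat_lit 174) (nat_lit 157) (nat_lit 4) (nat_lit 5) (nat_lit 13) L77554 (by decide +kernel)
theorem L77556 : W_36 (nat_lit 10) (nat_lit 0x20005000680000001000080000000000000000000000000000000) (nat_lit 0x0) (nat_lit 0x8001e000fc0050000800078007000200010000000000000000000000000000000) := Q_36 (nat_lit 226) (C_36 L77503 (C_36 L77500 (C_36 L77550 (C_36 L77555 N_36)))) (by decide +kernel)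
theorem L77557 : W_36 (nat_lit 2) (nat_lit 0x14000400020005000680000001000080000000000000000000000000000000) (nat_lit 0x0) (nat_lit 0x280008000000000000000000000000000000000000000000000000000000000000) := D_36 (nat_lit 243) (nat_lit 261) (nat_lit 259) (nat_lit 7) (nat_lit 5) (nat_lit 11) (nat_lit 5) (nat_lit 5) (nat_lit 11) (by decide +kernel)
theorem L77558 : W_36 (nat_lit 3) (nat_lit 0x10000400020005000680000001000080000000000000000000000000000000) (nat_lit 0x0) (nat_lit 0x28000c000200000000000000000000000000000000000000000000000000000000) := T_36 (nat_lit 242) (nat_lit 225) (nat_lit 5) (nat_lit 5) (nat_lit 10) L77557 (by decide +kernel)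
theorem L77559 : W_36 (nat_lit 4) (nat_lit 0x400020005000680000001000080000000000000000000000000000000) (nat_lit 0x0) (nat_lit 0x28001c000a00000000000000000000000000000000000000000000000000000000) := T_36 (nat_lit 244) (nat_lit 227) (nat_lit 7) (nat_lit 5) (nat_lit 10) L77558 (by decide +kernel)
theorem L77560 : W_36 (nat_lit 2) (nat_lit 0x40004000200050006c0000001000080000000000000000000000000000000) (nat_lit 0x0) (nat_lit 0x80008000000000000800000000000000000000000000000000000000000000000) := D_36 (nat_lit 243) (nat_lit 191) (nat_lit 259) (nat_lit 4) (nat_lit 5) (nat_lit 14) (nat_lit 5) (nat_lit 5) (nat_lit 11) (by decide +kernel)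
theorem L77561 : W_36 (nat_lit 3) (nat_lit 0x4000200050006c0000001000080000000000000000000000000000000) (nat_lit 0x0) (nat_lit 0x8000c000200000000800000000000000000000000000000000000000000000000) := T_36 (nat_lit 242) (nat_lit 225) (nat_lit 5) (nat_lit 5) (nat_lit 10) L77560 (by decide +kernel)
theorem L77562 : W_36 (nat_lit 4) (nat_lit 0x400020005000680000001000080000000000000000000000000000000) (nat_lit 0x0) (nat_lit 0x8000c000200000000800040002000000000000000000000000000000000000000) := T_36 (nat_lit 174) (nat_lit 157) (nat_lit 4) (nat_lit 5) (nat_lit 13) L77561 (by decide +kernel)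
theorem L77563 : W_36 (nat_lit 2) (nat_lit 0x100004000200050006c0000001000080000000000000000000000000000000) (nat_lit 0x0) (nat_lit 0x200008000000000000800000000000000000000000000000000000000000000000) := D_36 (nat_lit 243) (nat_lit 191) (nat_lit 261) (nat_lit 4) (nat_lit 5) (nat_lit 14) (nat_lit 7) (nat_lit 5) (nat_lit 11) (by decide +kernel)
theorem L77564 : W_36 (nat_lit 3) (nat_lit 0x4000200050006c0000001000080000000000000000000000000000000) (nat_lit 0x0) (nat_lit 0x200018000800000000800000000000000000000000000000000000000000000000) := T_36 (nat_lit 244) (nat_lit 227) (nat_lit 7) (nat_lit 5) (nat_lit 10) L77563 (by decide +kernel)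
theorem L77565 : W_36 (nat_lit 4) (nat_lit 0x400020005000680000001000080000000000000000000000000000000) (nat_lit 0x0) (nat_lit 0x200018000800000000800040002000000000000000000000000000000000000000) := T_36 (nat_lit 174) (nat_lit 157) (nat_lit 4) (nat_lit 5) (nat_lit 13) L77564 (by decide +kernel)
theorem L77566 : W_36 (nat_lit 2) (nat_lit 0x6000e0005000680000001000080000000000000000000000000000000) (nat_lit 0x0) (nat_lit 0x10000900000000000000000000000000000000000000000000000000000000) := D_36 (nat_lit 227) (nat_lit 244) (nat_lit 224) (nat_lit 7) (nat_lit 5) (nat_lit 10) (nat_lit 2) (nat_lit 3) (nat_lit 13) (by decide +kernel)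
theorem L77567 : W_36 (nat_lit 3) (nat_lit 0x6000a0005000680000001000080000000000000000000000000000000) (nat_lit 0x0) (nat_lit 0x10000900140000000000000000000000000000000000000000000000000000) := T_36 (nat_lit 210) (nat_lit 212) (nat_lit 1) (nat_lit 8) (nat_lit 12) L77566 (by decide +kernel)
theorem L77568 : W_36 (nat_lit 4) (nat_lit 0x4000a0005000680000001000080000000000000000000000000000000) (nat_lit 0x0) (nat_lit 0x14000b00140000000000000000000000000000000000000000000000000000) := T_36 (nat_lit 225) (nat_lit 242) (nat_lit 5) (nat_lit 5) (nat_lit 10) L77567 (by decide +kernel)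
theorem L77569 : W_36 (nat_lit 2) (nat_lit 0x2000f000a80050006c0000001000080000000000000000000000000000000) (nat_lit 0x0) (nat_lit 0x1000010000800000000000000000000000000000000000000000000000) := D_36 (nat_lit 208) (nat_lit 228) (nat_lit 191) (nat_lit 0) (nat_lit 7) (nat_lit 13) (nat_lit 5) (nat_lit 4) (nat_lit 10) (by decide +kernel)
theorem L77570 : W_36 (nat_lit 3) (nat_lit 0x2000f000a8005000680000001000080000000000000000000000000000000) (nat_lit 0x0) (nat_lit 0x1000010000800040002000000000000000000000000000000000000000) := T_36 (nat_lit 174) (nat_lit 157) (nat_lit 4) (nat_lit 5) (nat_lit 13) L77569 (by decide +kernel)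
theorem L77571 : W_36 (nat_lit 4) (nat_lit 0x2000f000a0005000680000001000080000000000000000000000000000000) (nat_lit 0x0) (nat_lit 0x100001c000800040002000000000000000000000000000000000000000) := T_36 (nat_lit 207) (nat_lit 206) (nat_lit 0) (nat_lit 6) (nat_lit 13) L77570 (by decide +kernel)
theorem L77572 : W_36 (nat_lit 5) (nat_lit 0xf000a0005000680000001000080000000000000000000000000000000) (nat_lit 0x0) (nat_lit 0x300100001c000800040002000000000000000000000000000000000000000) := T_36 (nat_lit 241) (nat_lit 240) (nat_lit 1) (nat_lit 6) (nat_lit 13) L77571 (by decide +kernel)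
theorem L77573 : W_36 (nat_lit 6) (nat_lit 0xe000a0005000680000001000080000000000000000000000000000000) (nat_lit 0x0) (nat_lit 0x300110005c000800040002000000000000000000000000000000000000000) := T_36 (nat_lit 224) (nat_lit 210) (nat_lit 2) (nat_lit 3) (nat_lit 13) L77572 (by decide +kernel)
theorem L77574 : W_36 (nat_lit 7) (nat_lit 0xc000a0005000680000001000080000000000000000000000000000000) (nat_lit 0x0) (nat_lit 0x700130005c000800040002000000000000000000000000000000000000000) := T_36 (nat_lit 225) (nat_lit 242) (nat_lit 5) (nat_lit 5) (nat_lit 10) L77573 (by decide +kernel)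
theorem L77575 : W_36 (nat_lit 8) (nat_lit 0x4000a0005000680000001000080000000000000000000000000000000) (nat_lit 0x0) (nat_lit 0x17001b0005c000800040002000000000000000000000000000000000000000) := T_36 (nat_lit 227) (nat_lit 244) (nat_lit 7) (nat_lit 5) (nat_lit 10) L77574 (by decide +kernel)
theorem L77576 : W_36 (nat_lit 2) (nat_lit 0x1e000a00050006c0000001000080000000000000000000000000000000) (nat_lit 0x0) (nat_lit 0x40002000010000000000000000000000000000000000000000000000000000) := D_36 (nat_lit 229) (nat_lit 208) (nat_lit 246) (nat_lit 0) (nat_lit 8) (nat_lit 13) (nat_lit 7) (nat_lit 7) (nat_lit 10) (by decide +kernel)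
theorem L77577 : W_36 (nat_lit 3) (nat_lit 0xe000a00050006c0000001000080000000000000000000000000000000) (nat_lit 0x0) (nat_lit 0x40003000110000000000000000000000000000000000000000000000000000) := T_36 (nat_lit 228) (nat_lit 212) (nat_lit 2) (nat_lit 4) (nat_lit 13) L77576 (by decide +kernel)
theorem L77578 : W_36 (nat_lit 4) (nat_lit 0xc000a00050006c0000001000080000000000000000000000000000000) (nat_lit 0x0) (nat_lit 0x44003200110000000000000000000000000000000000000000000000000000) := T_36 (nat_lit 225) (nat_lit 242) (nat_lit 5) (nat_lit 5) (nat_lit 10) L77577 (by decide +kernel)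
theorem L77579 : W_36 (nat_lit 5) (nat_lit 0x4000a00050006c0000001000080000000000000000000000000000000) (nat_lit 0x0) (nat_lit 0x54003a00110000000000000000000000000000000000000000000000000000) := T_36 (nat_lit 227) (nat_lit 244) (nat_lit 7) (nat_lit 5) (nat_lit 10) L77578 (by decide +kernel)
theorem L77580 : W_36 (nat_lit 6) (nat_lit 0x4000a0005000680000001000080000000000000000000000000000000) (nat_lit 0x0) (nat_lit 0x54003a00110000000040002000000000000000000000000000000000000000) := T_36 (nat_lit 174) (nat_lit 157) (nat_lit 4) (nat_lit 5) (nat_lit 13) L77579 (by decide +kernel)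
theorem L77581 : W_36 (nat_lit 2) (nat_lit 0x6000e00050006c0000001000080000000000000000000000000000000) (nat_lit 0x0) (nat_lit 0x100010008000000000000000000000000000000000000000000000000) := D_36 (nat_lit 208) (nat_lit 224) (nat_lit 195) (nat_lit 1) (nat_lit 7) (nat_lit 12) (nat_lit 2) (nat_lit 4) (nat_lit 12) (by decide +kernel)
theorem L77582 : W_36 (nat_lit 3) (nat_lit 0x6000a00050006c0000001000080000000000000000000000000000000) (nat_lit 0x0) (nat_lit 0x100150008000000000000000000000000000000000000000000000000) := T_36 (nat_lit 210) (nat_lit 212) (nat_lit 1) (nat_lit 8) (nat_lit 12) L77581 (by decide +kernel)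
theorem L77583 : W_36 (nat_lit 4) (nat_lit 0x4000a00050006c0000001000080000000000000000000000000000000) (nat_lit 0x0) (nat_lit 0x4000300150008000000000000000000000000000000000000000000000000) := T_36 (nat_lit 225) (nat_lit 242) (nat_lit 5) (nat_lit 5) (nat_lit 10) L77582 (by decide +kernel)
theorem L77584 : W_36 (nat_lit 5) (nat_lit 0x4000a0005000680000001000080000000000000000000000000000000) (nat_lit 0x0) (nat_lit 0x4000300150008000040002000000000000000000000000000000000000000) := T_36 (nat_lit 174) (nat_lit 157) (nat_lit 4) (nat_lit 5) (nat_lit 13) L77583 (by decide +kernel)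
theorem L77585 : W_36 (nat_lit 2) (nat_lit 0x38000a0005000680000001000080000000000000000000000000000000) (nat_lit 0x0) (nat_lit 0x4000050000000000000000000000000000000000000000000000000000) := D_36 (nat_lit 210) (nat_lit 208) (nat_lit 230) (nat_lit 3) (nat_lit 4) (nat_lit 12) (nat_lit 0) (nat_lit 9) (nat_lit 13) (by decide +kernel)
theorem L77586 : W_36 (nat_lit 3) (nat_lit 0x18000a0005000680000001000080000000000000000000000000000000) (nat_lit 0x0) (nat_lit 0x40006000050000000000000000000000000000000000000000000000000000) := T_36 (nat_lit 229) (nat_lit 246) (nat_lit 7) (nat_lit 7) (nat_lit 10) L77585 (by decide +kernel)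
theorem L77587 : W_36 (nat_lit 2) (nat_lit 0x1e0005000680000001000080000000000000000000000000000000) (nat_lit 0x0) (nat_lit 0x10018000000000000000000000000000000000000000000000000) := D_36 (nat_lit 195) (nat_lit 208) (nat_lit 196) (nat_lit 2) (nat_lit 4) (nat_lit 12) (nat_lit 2) (nat_lit 5) (nat_lit 12) (by decide +kernel)
theorem L77588 : W_36 (nat_lit 3) (nat_lit 0xe0005000680000001000080000000000000000000000000000000) (nat_lit 0x0) (nat_lit 0x110018800000000000000000000000000000000000000000000000) := T_36 (nat_lit 212) (nat_lit 191) (nat_lit 0) (nat_lit 8) (nat_lit 12) L77587 (by decide +kernel)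
theorem L77589 : W_36 (nat_lit 2) (nat_lit 0x20001e0005000680000001000080000000000000000000000000000000) (nat_lit 0x0) (nat_lit 0x40001000010000000000000000000000000000000000000000000000000000) := D_36 (nat_lit 228) (nat_lit 208) (nat_lit 246) (nat_lit 3) (nat_lit 4) (nat_lit 12) (nat_lit 7) (nat_lit 7) (nat_lit 10) (by decide +kernel)
theorem L77590 : W_36 (nat_lit 3) (nat_lit 0x1e0005000680000001000080000000000000000000000000000000) (nat_lit 0x0) (nat_lit 0x40007000010000000000000000000000000000000000000000000000000000) := T_36 (nat_lit 229) (nat_lit 230) (nat_lit 3) (nat_lit 5) (nat_lit 12) L77589 (by decide +kernel)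
theorem L77591 : W_36 (nat_lit 4) (nat_lit 0xe0005000680000001000080000000000000000000000000000000) (nat_lit 0x0) (nat_lit 0x40007000110000800000000000000000000000000000000000000000000000) := T_36 (nat_lit 212) (nat_lit 191) (nat_lit 0) (nat_lit 8) (nat_lit 12) L77590 (by decide +kernel)
theorem L77592 : W_36 (nat_lit 2) (nat_lit 0x2000f0005000680000001000080000000000000000000000000000000) (nat_lit 0x0) (nat_lit 0x4000000000000c00000000000000000000000000000000000000000000000) := D_36 (nat_lit 191) (nat_lit 190) (nat_lit 242) (nat_lit 0) (nat_lit 7) (nat_lit 12) (nat_lit 6) (nat_lit 4) (nat_lit 14) (by decide +kernel)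
theorem L77593 : W_36 (nat_lit 3) (nat_lit 0xf0005000680000001000080000000000000000000000000000000) (nat_lit 0x0) (nat_lit 0x4000300000000c00000000000000000000000000000000000000000000000) := T_36 (nat_lit 225) (nat_lit 224) (nat_lit 1) (nat_lit 7) (nat_lit 12) L77592 (by decide +kernel)
theorem L77594 : W_36 (nat_lit 4) (nat_lit 0xe0005000680000001000080000000000000000000000000000000) (nat_lit 0x0) (nat_lit 0x4000300010008c00000000000000000000000000000000000000000000000) := T_36 (nat_lit 208) (nat_lit 195) (nat_lit 2) (nat_lit 4) (nat_lit 12) L77593 (by decide +kernel)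
theorem L77595 : W_36 (nat_lit 2) (nat_lit 0x12000f0005000680000001000080000000000000000000000000000000) (nat_lit 0x0) (nat_lit 0x10000800008000000000000000000000000000000000000000000000000000) := D_36 (nat_lit 227) (nat_lit 207) (nat_lit 244) (nat_lit 3) (nat_lit 3) (nat_lit 12) (nat_lit 5) (nat_lit 7) (nat_lit 10) (by decide +kernel)
theorem L77596 : W_36 (nat_lit 3) (nat_lit 0x2000f0005000680000001000080000000000000000000000000000000) (nat_lit 0x0) (nat_lit 0x10003800008000000000000000000000000000000000000000000000000000) := T_36 (nat_lit 228) (nat_lit 229) (nat_lit 3) (nat_lit 4) (nat_lit 12) L77595 (by decide +kernel)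
theorem L77597 : W_36 (nat_lit 4) (nat_lit 0xf0005000680000001000080000000000000000000000000000000) (nat_lit 0x0) (nat_lit 0x10003b00008000000000000000000000000000000000000000000000000000) := T_36 (nat_lit 225) (nat_lit 224) (nat_lit 1) (nat_lit 7) (nat_lit 12) L77596 (by decide +kernel)
theorem L77598 : W_36 (nat_lit 5) (nat_lit 0xe0005000680000001000080000000000000000000000000000000) (nat_lit 0x0) (nat_lit 0x10003b00018008000000000000000000000000000000000000000000000000) := T_36 (nat_lit 208) (nat_lit 195) (nat_lit 2) (nat_lit 4) (nat_lit 12) L77597 (by decide +kernel)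
theorem L77599 : W_36 (nat_lit 2) (nat_lit 0x1e000d000680000001000080000000000000000000000000000000) (nat_lit 0x0) (nat_lit 0x40006000000000000000000000000000000000000000000000000000000000) := D_36 (nat_lit 229) (nat_lit 230) (nat_lit 246) (nat_lit 3) (nat_lit 5) (nat_lit 12) (nat_lit 4) (nat_lit 8) (nat_lit 14) (by decide +kernel)
theorem L77600 : W_36 (nat_lit 3) (nat_lit 0x1e0005000680000001000080000000000000000000000000000000) (nat_lit 0x0) (nat_lit 0x40006000000018000000000000000000000000000000000000000000000000) := T_36 (nat_lit 195) (nat_lit 196) (nat_lit 2) (nat_lit 5) (nat_lit 12) L77599 (by decide +kernel)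
theorem L77601 : W_36 (nat_lit 4) (nat_lit 0xe0005000680000001000080000000000000000000000000000000) (nat_lit 0x0) (nat_lit 0x40006000100018800000000000000000000000000000000000000000000000) := T_36 (nat_lit 212) (nat_lit 191) (nat_lit 0) (nat_lit 8) (nat_lit 12) L77600 (by decide +kernel)
theorem L77602 : W_36 (nat_lit 6) (nat_lit 0xa0005000680000001000080000000000000000000000000000000) (nat_lit 0x0) (nat_lit 0x54007b00158018c00000000000000000000000000000000000000000000000) := Q_36 (nat_lit 210) (C_36 L77588 (C_36 L77591 (C_36 L77594 (C_36 L77598 (C_36 L77601 N_36))))) (by decide +kernel)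
theorem L77603 : W_36 (nat_lit 2) (nat_lit 0x6000e00050006c0000001000080000000000000000000000000000000) (nat_lit 0x0) (nat_lit 0x900010000000000000000000000000000000000000000000000000000) := D_36 (nat_lit 224) (nat_lit 208) (nat_lit 227) (nat_lit 1) (nat_lit 7) (nat_lit 12) (nat_lit 2) (nat_lit 3) (nat_lit 13) (by decide +kernel)
theorem L77604 : W_36 (nat_lit 3) (nat_lit 0x6000a00050006c0000001000080000000000000000000000000000000) (nat_lit 0x0) (nat_lit 0x900150000000000000000000000000000000000000000000000000000) := T_36 (nat_lit 210) (nat_lit 212) (nat_lit 1) (nat_lit 8) (nat_lit 12) L77603 (by decide +kernel)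
theorem L77605 : W_36 (nat_lit 4) (nat_lit 0x4000a00050006c0000001000080000000000000000000000000000000) (nat_lit 0x0) (nat_lit 0x4000b00150000000000000000000000000000000000000000000000000000) := T_36 (nat_lit 225) (nat_lit 242) (nat_lit 5) (nat_lit 5) (nat_lit 10) L77604 (by decide +kernel)
theorem L77606 : W_36 (nat_lit 5) (nat_lit 0x4000a0005000680000001000080000000000000000000000000000000) (nat_lit 0x0) (nat_lit 0x4000b00150000000040002000000000000000000000000000000000000000) := T_36 (nat_lit 174) (nat_lit 157) (nat_lit 4) (nat_lit 5) (nat_lit 13) L77605 (by decide +kernel)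
theorem L77607 : W_36 (nat_lit 2) (nat_lit 0x580006801a00050006c0000001000080000000000000000000000000000000) (nat_lit 0x0) (nat_lit 0x800000003000000000000000000000000000000000000000000000000000000000) := D_36 (nat_lit 229) (nat_lit 263) (nat_lit 228) (nat_lit 4) (nat_lit 8) (nat_lit 15) (nat_lit 7) (nat_lit 7) (nat_lit 10) (by decide +kernel)
theorem L77608 : W_36 (nat_lit 3) (nat_lit 0x180006801a00050006c0000001000080000000000000000000000000000000) (nat_lit 0x0) (nat_lit 0x800060003000000000000000000000000000000000000000000000000000000000) := T_36 (nat_lit 246) (nat_lit 245) (nat_lit 0) (nat_lit 8) (nat_lit 14) L77607 (by decide +kernel)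
theorem L77609 : W_36 (nat_lit 4) (nat_lit 0x180006001a00050006c0000001000080000000000000000000000000000000) (nat_lit 0x0) (nat_lit 0x800060003180000000000000000000000000000000000000000000000000000000) := T_36 (nat_lit 223) (nat_lit 224) (nat_lit 3) (nat_lit 2) (nat_lit 13) L77608 (by decide +kernel)
theorem L77610 : W_36 (nat_lit 5) (nat_lit 0x80006001a00050006c0000001000080000000000000000000000000000000) (nat_lit 0x0) (nat_lit 0xa00070003180000000000000000000000000000000000000000000000000000000) := T_36 (nat_lit 244) (nat_lit 261) (nat_lit 7) (nat_lit 5) (nat_lit 11) L77609 (by decide +kernel)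
theorem L77611 : W_36 (nat_lit 6) (nat_lit 0x6001a00050006c0000001000080000000000000000000000000000000) (nat_lit 0x0) (nat_lit 0xa00078003180000000800000000000000000000000000000000000000000000000) := T_36 (nat_lit 243) (nat_lit 191) (nat_lit 4) (nat_lit 5) (nat_lit 14) L77610 (by decide +kernel)
theorem L77612 : W_36 (nat_lit 7) (nat_lit 0x6000a00050006c0000001000080000000000000000000000000000000) (nat_lit 0x0) (nat_lit 0xa00078003180140000800000000000000000000000000000000000000000000000) := T_36 (nat_lit 212) (nat_lit 210) (nat_lit 1) (nat_lit 8) (nat_lit 12) L77611 (by decide +kernel)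
theorem L77613 : W_36 (nat_lit 8) (nat_lit 0x4000a00050006c0000001000080000000000000000000000000000000) (nat_lit 0x0) (nat_lit 0xa0007c003380140000800000000000000000000000000000000000000000000000) := T_36 (nat_lit 225) (nat_lit 242) (nat_lit 5) (nat_lit 5) (nat_lit 10) L77612 (by decide +kernel)
theorem L77614 : W_36 (nat_lit 9) (nat_lit 0x4000a0005000680000001000080000000000000000000000000000000) (nat_lit 0x0) (nat_lit 0xa0007c003380140000800040002000000000000000000000000000000000000000) := T_36 (nat_lit 174) (nat_lit 157) (nat_lit 4) (nat_lit 5) (nat_lit 13) L77613 (by decide +kernel)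
theorem L77615 : W_36 (nat_lit 2) (nat_lit 0x380008002c001e00050006c0000001000080000000000000000000000000000000) (nat_lit 0x0) (nat_lit 0x40001000010000000000000000000000000000000000000000000000000000) := D_36 (nat_lit 228) (nat_lit 208) (nat_lit 246) (nat_lit 3) (nat_lit 4) (nat_lit 12) (nat_lit 7) (nat_lit 7) (nat_lit 10) (by decide +kernel)
theorem L77616 : W_36 (nat_lit 3) (nat_lit 0x380008000c001e00050006c0000001000080000000000000000000000000000000) (nat_lit 0x0) (nat_lit 0x40007000010000000000000000000000000000000000000000000000000000) := T_36 (nat_lit 229) (nat_lit 230) (nat_lit 3) (nat_lit 5) (nat_lit 12) L77615 (by decide +kernel)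
theorem L77617 : W_36 (nat_lit 4) (nat_lit 0x380008000c000e00050006c0000001000080000000000000000000000000000000) (nat_lit 0x0) (nat_lit 0x40007000310000000000000000000000000000000000000000000000000000) := T_36 (nat_lit 212) (nat_lit 213) (nat_lit 1) (nat_lit 9) (nat_lit 12) L77616 (by decide +kernel)
theorem L77618 : W_36 (nat_lit 5) (nat_lit 0x180008000c000e00050006c0000001000080000000000000000000000000000000) (nat_lit 0x0) (nat_lit 0x4000200040007000310000000000000000000000000000000000000000000000000000) := T_36 (nat_lit 261) (nat_lit 278) (nat_lit 7) (nat_lit 5) (nat_lit 12) L77617 (by decide +kernel)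
theorem L77619 : W_36 (nat_lit 6) (nat_lit 0x180008000c000a00050006c0000001000080000000000000000000000000000000) (nat_lit 0x0) (nat_lit 0x6000200040007000350000000000000000000000000000000000000000000000000000) := T_36 (nat_lit 210) (nat_lit 277) (nat_lit 6) (nat_lit 5) (nat_lit 16) L77618 (by decide +kernel)
theorem L77620 : W_36 (nat_lit 7) (nat_lit 0x80008000c000a00050006c0000001000080000000000000000000000000000000) (nat_lit 0x0) (nat_lit 0x7000300040007000350000000000000000000000000000000000000000000000000000) := T_36 (nat_lit 260) (nat_lit 276) (nat_lit 5) (nat_lit 5) (nat_lit 12) L77619 (by decide +kernel)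
theorem L77621 : W_36 (nat_lit 8) (nat_lit 0x8000c000a00050006c0000001000080000000000000000000000000000000) (nat_lit 0x0) (nat_lit 0x7000380044007000350000000000000000000000000000000000000000000000000000) := T_36 (nat_lit 259) (nat_lit 242) (nat_lit 5) (nat_lit 5) (nat_lit 11) L77620 (by decide +kernel)
theorem L77622 : W_36 (nat_lit 9) (nat_lit 0xc000a00050006c0000001000080000000000000000000000000000000) (nat_lit 0x0) (nat_lit 0x700038004c007000350000800000000000000000000000000000000000000000000000) := T_36 (nat_lit 243) (nat_lit 191) (nat_lit 4) (nat_lit 5) (nat_lit 14) L77621 (by decide +kernel)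
theorem L77623 : W_36 (nat_lit 10) (nat_lit 0x4000a00050006c0000001000080000000000000000000000000000000) (nat_lit 0x0) (nat_lit 0x700038005c007800350000800000000000000000000000000000000000000000000000) := T_36 (nat_lit 227) (nat_lit 244) (nat_lit 7) (nat_lit 5) (nat_lit 10) L77622 (by decide +kernel)
theorem L77624 : W_36 (nat_lit 11) (nat_lit 0x4000a0005000680000001000080000000000000000000000000000000) (nat_lit 0x0) (nat_lit 0x700038005c007800350000800040002000000000000000000000000000000000000000) := T_36 (nat_lit 174) (nat_lit 157) (nat_lit 4) (nat_lit 5) (nat_lit 13) L77623 (by decide +kernel)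
theorem L77625 : W_36 (nat_lit 2) (nat_lit 0x1c001a00058006c0000001000080000000000000000000000000000000) (nat_lit 0x0) (nat_lit 0x2000600000000000000000000000000000000000000000000000000000) := D_36 (nat_lit 213) (nat_lit 214) (nat_lit 229) (nat_lit 1) (nat_lit 10) (nat_lit 12) (nat_lit 2) (nat_lit 5) (nat_lit 13) (by decide +kernel)
theorem L77626 : W_36 (nat_lit 3) (nat_lit 0xc001a00058006c0000001000080000000000000000000000000000000) (nat_lit 0x0) (nat_lit 0x3200600000000000000000000000000000000000000000000000000000) := T_36 (nat_lit 228) (nat_lit 225) (nat_lit 2) (nat_lit 4) (nat_lit 13) L77625 (by decide +kernel)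
theorem L77627 : W_36 (nat_lit 4) (nat_lit 0xc000a00058006c0000001000080000000000000000000000000000000) (nat_lit 0x0) (nat_lit 0x3200740000000000000000000000000000000000000000000000000000) := T_36 (nat_lit 212) (nat_lit 210) (nat_lit 0) (nat_lit 8) (nat_lit 12) L77626 (by decide +kernel)
theorem L77628 : W_36 (nat_lit 5) (nat_lit 0xc000a00050006c0000001000080000000000000000000000000000000) (nat_lit 0x0) (nat_lit 0x8003200740000800000000000000000000000000000000000000000000000) := T_36 (nat_lit 191) (nat_lit 243) (nat_lit 4) (nat_lit 5) (nat_lit 14) L77627 (by decide +kernel)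
theorem L77629 : W_36 (nat_lit 6) (nat_lit 0x4000a00050006c0000001000080000000000000000000000000000000) (nat_lit 0x0) (nat_lit 0x18003a00740000800000000000000000000000000000000000000000000000) := T_36 (nat_lit 227) (nat_lit 244) (nat_lit 7) (nat_lit 5) (nat_lit 10) L77628 (by decide +kernel)
theorem L77630 : W_36 (nat_lit 7) (nat_lit 0x4000a0005000680000001000080000000000000000000000000000000) (nat_lit 0x0) (nat_lit 0x18003a00740000800040002000000000000000000000000000000000000000) := T_36 (nat_lit 174) (nat_lit 157) (nat_lit 4) (nat_lit 5) (nat_lit 13) L77629 (by decide +kernel)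
theorem L77631 : W_36 (nat_lit 12) (nat_lit 0xa0005000680000001000080000000000000000000000000000000) (nat_lit 0x0) (nat_lit 0x7000b8007f007f8075c000800040002000000000000000000000000000000000000000) := Q_36 (nat_lit 226) (C_36 L77568 (C_36 L77580 (C_36 L77575 (C_36 L77606 (C_36 L77614 (C_36 L77624 (C_36 L77630 N_36))))))) (by decide +kernel)
theorem L77632 : W_36 (nat_lit 2) (nat_lit 0x8000c000a00050006c0000001000080000000000000000000000000000000) (nat_lit 0x0) (nat_lit 0x80004000200000000000000000000000000000000000000000000000000000000) := D_36 (nat_lit 242) (nat_lit 225) (nat_lit 259) (nat_lit 5) (nat_lit 5) (nat_lit 10) (nat_lit 5) (nat_lit 5) (nat_lit 11) (by decide +kernel)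
theorem L77633 : W_36 (nat_lit 3) (nat_lit 0xc000a00050006c0000001000080000000000000000000000000000000) (nat_lit 0x0) (nat_lit 0x8000c000200000000800000000000000000000000000000000000000000000000) := T_36 (nat_lit 243) (nat_lit 191) (nat_lit 4) (nat_lit 5) (nat_lit 14) L77632 (by decide +kernel)
theorem L77634 : W_36 (nat_lit 4) (nat_lit 0x4000a00050006c0000001000080000000000000000000000000000000) (nat_lit 0x0) (nat_lit 0x8001c000a00000000800000000000000000000000000000000000000000000000) := T_36 (nat_lit 227) (nat_lit 244) (nat_lit 7) (nat_lit 5) (nat_lit 10) L77633 (by decide +kernel)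
theorem L77635 : W_36 (nat_lit 5) (nat_lit 0x4000a0005000680000001000080000000000000000000000000000000) (nat_lit 0x0) (nat_lit 0x8001c000a00000000800040002000000000000000000000000000000000000000) := T_36 (nat_lit 174) (nat_lit 157) (nat_lit 4) (nat_lit 5) (nat_lit 13) L77634 (by decide +kernel)
theorem L77636 : W_36 (nat_lit 2) (nat_lit 0x380008000c001e00050006c0000001000080000000000000000000000000000000) (nat_lit 0x0) (nat_lit 0x10018000000000000000000000000000000000000000000000000) := D_36 (nat_lit 195) (nat_lit 208) (nat_lit 196) (nat_lit 2) (nat_lit 4) (nat_lit 12) (nat_lit 2) (nat_lit 5) (nat_lit 12) (by decide +kernel)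
theorem L77637 : W_36 (nat_lit 3) (nat_lit 0x380008000c000e00050006c0000001000080000000000000000000000000000000) (nat_lit 0x0) (nat_lit 0x310018000000000000000000000000000000000000000000000000) := T_36 (nat_lit 212) (nat_lit 213) (nat_lit 1) (nat_lit 9) (nat_lit 12) L77636 (by decide +kernel)
theorem L77638 : W_36 (nat_lit 4) (nat_lit 0x180008000c000e00050006c0000001000080000000000000000000000000000000) (nat_lit 0x0) (nat_lit 0x4000200000000000310018000000000000000000000000000000000000000000000000) := T_36 (nat_lit 261) (nat_lit 278) (nat_lit 7) (nat_lit 5) (nat_lit 12) L77637 (by decide +kernel)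
theorem L77639 : W_36 (nat_lit 5) (nat_lit 0x180008000c000a00050006c0000001000080000000000000000000000000000000) (nat_lit 0x0) (nat_lit 0x6000200000000000350018000000000000000000000000000000000000000000000000) := T_36 (nat_lit 210) (nat_lit 277) (nat_lit 6) (nat_lit 5) (nat_lit 16) L77638 (by decide +kernel)
theorem L77640 : W_36 (nat_lit 6) (nat_lit 0x80008000c000a00050006c0000001000080000000000000000000000000000000) (nat_lit 0x0) (nat_lit 0x7000300000000000350018000000000000000000000000000000000000000000000000) := T_36 (nat_lit 260) (nat_lit 276) (nat_lit 5) (nat_lit 5) (nat_lit 12) L77639 (by decide +kernel)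
theorem L77641 : W_36 (nat_lit 7) (nat_lit 0x8000c000a00050006c0000001000080000000000000000000000000000000) (nat_lit 0x0) (nat_lit 0x7000380004000000350018000000000000000000000000000000000000000000000000) := T_36 (nat_lit 259) (nat_lit 242) (nat_lit 5) (nat_lit 5) (nat_lit 11) L77640 (by decide +kernel)
theorem L77642 : W_36 (nat_lit 8) (nat_lit 0xc000a00050006c0000001000080000000000000000000000000000000) (nat_lit 0x0) (nat_lit 0x700038000c000000350018800000000000000000000000000000000000000000000000) := T_36 (nat_lit 243) (nat_lit 191) (nat_lit 4) (nat_lit 5) (nat_lit 14) L77641 (by decide +kernel)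
theorem L77643 : W_36 (nat_lit 9) (nat_lit 0xc000a0005000680000001000080000000000000000000000000000000) (nat_lit 0x0) (nat_lit 0x700038000c000000350018800040002000000000000000000000000000000000000000) := T_36 (nat_lit 174) (nat_lit 157) (nat_lit 4) (nat_lit 5) (nat_lit 13) L77642 (by decide +kernel)
theorem L77644 : W_36 (nat_lit 10) (nat_lit 0x4000a0005000680000001000080000000000000000000000000000000) (nat_lit 0x0) (nat_lit 0x700038001c000800350018800040002000000000000000000000000000000000000000) := T_36 (nat_lit 227) (nat_lit 244) (nat_lit 7) (nat_lit 5) (nat_lit 10) L77643 (by decide +kernel)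
theorem L77645 : W_36 (nat_lit 2) (nat_lit 0xc000e00058006c0000001000080000000000000000000000000000000) (nat_lit 0x0) (nat_lit 0x10008400000000000000000000000000000000000000000000000) := D_36 (nat_lit 208) (nat_lit 190) (nat_lit 195) (nat_lit 0) (nat_lit 7) (nat_lit 12) (nat_lit 2) (nat_lit 4) (nat_lit 12) (by decide +kernel)
theorem L77646 : W_36 (nat_lit 3) (nat_lit 0xc000a00058006c0000001000080000000000000000000000000000000) (nat_lit 0x0) (nat_lit 0x150008400000000000000000000000000000000000000000000000) := T_36 (nat_lit 210) (nat_lit 212) (nat_lit 0) (nat_lit 8) (nat_lit 12) L77645 (by decide +kernel)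
theorem L77647 : W_36 (nat_lit 4) (nat_lit 0xc000a00050006c0000001000080000000000000000000000000000000) (nat_lit 0x0) (nat_lit 0x8000000150008c00000000000000000000000000000000000000000000000) := T_36 (nat_lit 191) (nat_lit 243) (nat_lit 4) (nat_lit 5) (nat_lit 14) L77646 (by decide +kernel)
theorem L77648 : W_36 (nat_lit 5) (nat_lit 0x4000a00050006c0000001000080000000000000000000000000000000) (nat_lit 0x0) (nat_lit 0x18000800150008c00000000000000000000000000000000000000000000000) := T_36 (nat_lit 227) (nat_lit 244) (nat_lit 7) (nat_lit 5) (nat_lit 10) L77647 (by decide +kernel)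
theorem L77649 : W_36 (nat_lit 6) (nat_lit 0x4000a0005000680000001000080000000000000000000000000000000) (nat_lit 0x0) (nat_lit 0x18000800150008c00040002000000000000000000000000000000000000000) := T_36 (nat_lit 174) (nat_lit 157) (nat_lit 4) (nat_lit 5) (nat_lit 13) L77648 (by decide +kernel)
theorem L77650 : W_36 (nat_lit 11) (nat_lit 0xa0005000680000001000080000000000000000000000000000000) (nat_lit 0x0) (nat_lit 0x700038001c000f00350018c00040002000000000000000000000000000000000000000) := Q_36 (nat_lit 226) (C_36 L77606 (C_36 L77635 (C_36 L77568 (C_36 L77584 (C_36 L77644 (C_36 L77649 N_36)))))) (by decide +kernel)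
theorem L77651 : W_36 (nat_lit 2) (nat_lit 0x2001f000a8005000680000001000080000000000000000000000000000000) (nat_lit 0x0) (nat_lit 0x60002000000000000000000000000000000000000000000000000000000000) := D_36 (nat_lit 246) (nat_lit 229) (nat_lit 245) (nat_lit 7) (nat_lit 7) (nat_lit 10) (nat_lit 3) (nat_lit 4) (nat_lit 13) (by decide +kernel)
theorem L77652 : W_36 (nat_lit 3) (nat_lit 0x2000f000a8005000680000001000080000000000000000000000000000000) (nat_lit 0x0) (nat_lit 0x60003000010000000000000000000000000000000000000000000000000000) := T_36 (nat_lit 228) (nat_lit 208) (nat_lit 0) (nat_lit 7) (nat_lit 13) L77651 (by decide +kernel)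
theorem L77653 : W_36 (nat_lit 4) (nat_lit 0x2000f000a0005000680000001000080000000000000000000000000000000) (nat_lit 0x0) (nat_lit 0x6000300001c000000000000000000000000000000000000000000000000000) := T_36 (nat_lit 207) (nat_lit 206) (nat_lit 0) (nat_lit 6) (nat_lit 13) L77652 (by decide +kernel)
theorem L77654 : W_36 (nat_lit 5) (nat_lit 0xf000a0005000680000001000080000000000000000000000000000000) (nat_lit 0x0) (nat_lit 0x6300300001c000000000000000000000000000000000000000000000000000) := T_36 (nat_lit 241) (nat_lit 240) (nat_lit 1) (nat_lit 6) (nat_lit 13) L77653 (by decide +kernel)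
theorem L77655 : W_36 (nat_lit 6) (nat_lit 0xe000a0005000680000001000080000000000000000000000000000000) (nat_lit 0x0) (nat_lit 0x6300310005c000000000000000000000000000000000000000000000000000) := T_36 (nat_lit 224) (nat_lit 210) (nat_lit 2) (nat_lit 3) (nat_lit 13) L77654 (by decide +kernel)
theorem L77656 : W_36 (nat_lit 7) (nat_lit 0xc000a0005000680000001000080000000000000000000000000000000) (nat_lit 0x0) (nat_lit 0x6700330005c000000000000000000000000000000000000000000000000000) := T_36 (nat_lit 225) (nat_lit 242) (nat_lit 5) (nat_lit 5) (nat_lit 10) L77655 (by decide +kernel)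
theorem L77657 : W_36 (nat_lit 8) (nat_lit 0x4000a0005000680000001000080000000000000000000000000000000) (nat_lit 0x0) (nat_lit 0x77003b0005c000000000000000000000000000000000000000000000000000) := T_36 (nat_lit 227) (nat_lit 244) (nat_lit 7) (nat_lit 5) (nat_lit 10) L77656 (by decide +kernel)
theorem L77658 : W_36 (nat_lit 2) (nat_lit 0x40004000a00050006c0000001000080000000000000000000000000000000) (nat_lit 0x0) (nat_lit 0x80008000000000000800000000000000000000000000000000000000000000000) := D_36 (nat_lit 243) (nat_lit 259) (nat_lit 191) (nat_lit 5) (nat_lit 5) (nat_lit 11) (nat_lit 4) (nat_lit 5) (nat_lit 14) (by decide +kernel)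
theorem L77659 : W_36 (nat_lit 3) (nat_lit 0x40004000a0005000680000001000080000000000000000000000000000000) (nat_lit 0x0) (nat_lit 0x80008000000000000800040002000000000000000000000000000000000000000) := T_36 (nat_lit 174) (nat_lit 157) (nat_lit 4) (nat_lit 5) (nat_lit 13) L77658 (by decide +kernel)
theorem L77660 : W_36 (nat_lit 4) (nat_lit 0x4000a0005000680000001000080000000000000000000000000000000) (nat_lit 0x0) (nat_lit 0x8000c000200000000800040002000000000000000000000000000000000000000) := T_36 (nat_lit 242) (nat_lit 225) (nat_lit 5) (nat_lit 5) (nat_lit 10) L77659 (by decide +kernel)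
theorem L77661 : W_36 (nat_lit 2) (nat_lit 0xc0002d001c000a00050006c0000001000080000000000000000000000000000000) (nat_lit 0x0) (nat_lit 0x4000300000000000000000000000000000000000000000000000000000000000000000) := D_36 (nat_lit 261) (nat_lit 278) (nat_lit 260) (nat_lit 5) (nat_lit 7) (nat_lit 12) (nat_lit 0) (nat_lit 8) (nat_lit 15) (by decide +kernel)
theorem L77662 : W_36 (nat_lit 3) (nat_lit 0x80002d001c000a00050006c0000001000080000000000000000000000000000000) (nat_lit 0x0) (nat_lit 0x14000700000000000000000000000000000000000000000000000000000000000000000) := T_36 (nat_lit 262) (nat_lit 280) (nat_lit 7) (nat_lit 7) (nat_lit 12) L77661 (by decide +kernel)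
theorem L77663 : W_36 (nat_lit 4) (nat_lit 0x2d001c000a00050006c0000001000080000000000000000000000000000000) (nat_lit 0x0) (nat_lit 0x14000f00040000000000000000000000000000000000000000000000000000000000000) := T_36 (nat_lit 263) (nat_lit 246) (nat_lit 7) (nat_lit 7) (nat_lit 11) L77662 (by decide +kernel)
theorem L77664 : W_36 (nat_lit 5) (nat_lit 0xd001c000a00050006c0000001000080000000000000000000000000000000) (nat_lit 0x0) (nat_lit 0x14000f00060000000000008000000000000000000000000000000000000000000000000) := T_36 (nat_lit 245) (nat_lit 195) (nat_lit 6) (nat_lit 7) (nat_lit 14) L77663 (by decide +kernel)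
theorem L77665 : W_36 (nat_lit 6) (nat_lit 0xd000c000a00050006c0000001000080000000000000000000000000000000) (nat_lit 0x0) (nat_lit 0x14000f00060003000000008000000000000000000000000000000000000000000000000) := T_36 (nat_lit 228) (nat_lit 229) (nat_lit 1) (nat_lit 8) (nat_lit 13) L77664 (by decide +kernel)
theorem L77666 : W_36 (nat_lit 7) (nat_lit 0xc000c000a00050006c0000001000080000000000000000000000000000000) (nat_lit 0x0) (nat_lit 0x14000f00063003000000008000000000000000000000000000000000000000000000000) := T_36 (nat_lit 240) (nat_lit 241) (nat_lit 2) (nat_lit 2) (nat_lit 14) L77665 (by decide +kernel)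
theorem L77667 : W_36 (nat_lit 8) (nat_lit 0x8000c000a00050006c0000001000080000000000000000000000000000000) (nat_lit 0x0) (nat_lit 0x14000f80067003000000008000000000000000000000000000000000000000000000000) := T_36 (nat_lit 242) (nat_lit 259) (nat_lit 5) (nat_lit 5) (nat_lit 11) L77666 (by decide +kernel)
theorem L77668 : W_36 (nat_lit 9) (nat_lit 0xc000a00050006c0000001000080000000000000000000000000000000) (nat_lit 0x0) (nat_lit 0x14000f8006f003000000008800000000000000000000000000000000000000000000000) := T_36 (nat_lit 243) (nat_lit 191) (nat_lit 4) (nat_lit 5) (nat_lit 14) L77667 (by decide +kernel)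
theorem L77669 : W_36 (nat_lit 10) (nat_lit 0xc000a0005000680000001000080000000000000000000000000000000) (nat_lit 0x0) (nat_lit 0x14000f8006f003000000008800040002000000000000000000000000000000000000000) := T_36 (nat_lit 174) (nat_lit 157) (nat_lit 4) (nat_lit 5) (nat_lit 13) L77668 (by decide +kernel)
theorem L77670 : W_36 (nat_lit 11) (nat_lit 0x4000a0005000680000001000080000000000000000000000000000000) (nat_lit 0x0) (nat_lit 0x14000f8007f003800000008800040002000000000000000000000000000000000000000) := T_36 (nat_lit 227) (nat_lit 244) (nat_lit 7) (nat_lit 5) (nat_lit 10) L77669 (by decide +kernel)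
theorem L77671 : W_36 (nat_lit 2) (nat_lit 0x100004000a00050006c0000001000080000000000000000000000000000000) (nat_lit 0x0) (nat_lit 0x200008000000000000800000000000000000000000000000000000000000000000) := D_36 (nat_lit 243) (nat_lit 191) (nat_lit 261) (nat_lit 4) (nat_lit 5) (nat_lit 14) (nat_lit 7) (nat_lit 5) (nat_lit 11) (by decide +kernel)
theorem L77672 : W_36 (nat_lit 3) (nat_lit 0x4000a00050006c0000001000080000000000000000000000000000000) (nat_lit 0x0) (nat_lit 0x200018000800000000800000000000000000000000000000000000000000000000) := T_36 (nat_lit 244) (nat_lit 227) (nat_lit 7) (nat_lit 5) (nat_lit 10) L77671 (by decide +kernel)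
theorem L77673 : W_36 (nat_lit 4) (nat_lit 0x4000a0005000680000001000080000000000000000000000000000000) (nat_lit 0x0) (nat_lit 0x200018000800000000800040002000000000000000000000000000000000000000) := T_36 (nat_lit 174) (nat_lit 157) (nat_lit 4) (nat_lit 5) (nat_lit 13) L77672 (by decide +kernel)
theorem L77674 : W_36 (nat_lit 12) (nat_lit 0xa0005000680000001000080000000000000000000000000000000) (nat_lit 0x0) (nat_lit 0x14000f8007f003f0005c008800040002000000000000000000000000000000000000000) := Q_36 (nat_lit 226) (C_36 L77635 (C_36 L77657 (C_36 L77660 (C_36 L77670 (C_36 L77673 N_36))))) (by decide +kernel)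
theorem L77675 : W_36 (nat_lit 2) (nat_lit 0x1e000a0005000680000001000080000000000000000000000000000000) (nat_lit 0x0) (nat_lit 0x40002000010000000000000000000000000000000000000000000000000000) := D_36 (nat_lit 229) (nat_lit 208) (nat_lit 246) (nat_lit 0) (nat_lit 8) (nat_lit 13) (nat_lit 7) (nat_lit 7) (nat_lit 10) (by decide +kernel)
theorem L77676 : W_36 (nat_lit 3) (nat_lit 0xe000a0005000680000001000080000000000000000000000000000000) (nat_lit 0x0) (nat_lit 0x40003000110000000000000000000000000000000000000000000000000000) := T_36 (nat_lit 228) (nat_lit 212) (nat_lit 2) (nat_lit 4) (nat_lit 13) L77675 (by decide +kernel)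
theorem L77677 : W_36 (nat_lit 4) (nat_lit 0xc000a0005000680000001000080000000000000000000000000000000) (nat_lit 0x0) (nat_lit 0x44003200110000000000000000000000000000000000000000000000000000) := T_36 (nat_lit 225) (nat_lit 242) (nat_lit 5) (nat_lit 5) (nat_lit 10) L77676 (by decide +kernel)
theorem L77678 : W_36 (nat_lit 5) (nat_lit 0x4000a0005000680000001000080000000000000000000000000000000) (nat_lit 0x0) (nat_lit 0x54003a00110000000000000000000000000000000000000000000000000000) := T_36 (nat_lit 227) (nat_lit 244) (nat_lit 7) (nat_lit 5) (nat_lit 10) L77677 (by decide +kernel)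
theorem L77679 : W_36 (nat_lit 6) (nat_lit 0xa0005000680000001000080000000000000000000000000000000) (nat_lit 0x0) (nat_lit 0x28005c003e00110000800040002000000000000000000000000000000000000000) := Q_36 (nat_lit 226) (C_36 L77673 (C_36 L77678 (C_36 L77660 N_36))) (by decide +kernel)
theorem L77680 : W_36 (nat_lit 4) (nat_lit 0x10000a0005000680000001000080000000000000000000000000000000) (nat_lit 0x0) (nat_lit 0x50006800050000000000000000000000000000000000000000000000000000) := T_36 (nat_lit 227) (nat_lit 244) (nat_lit 5) (nat_lit 7) (nat_lit 10) L77586 (by decide +kernel)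
theorem L77681 : W_36 (nat_lit 2) (nat_lit 0xe00020001a000f0005000680000001000080000000000000000000000000000000) (nat_lit 0x0) (nat_lit 0x4000400100000000000000000000000000000000000000000000000000000) := D_36 (nat_lit 226) (nat_lit 212) (nat_lit 242) (nat_lit 2) (nat_lit 4) (nat_lit 13) (nat_lit 5) (nat_lit 5) (nat_lit 10) (by decide +kernel)
theorem L77682 : W_36 (nat_lit 3) (nat_lit 0xe000200018000f0005000680000001000080000000000000000000000000000000) (nat_lit 0x0) (nat_lit 0x4000700100000000000000000000000000000000000000000000000000000) := T_36 (nat_lit 225) (nat_lit 224) (nat_lit 1) (nat_lit 7) (nat_lit 12) L77681 (by decide +kernel)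
theorem L77683 : W_36 (nat_lit 4) (nat_lit 0xe000200018000e0005000680000001000080000000000000000000000000000000) (nat_lit 0x0) (nat_lit 0x4000700118000000000000000000000000000000000000000000000000000) := T_36 (nat_lit 208) (nat_lit 207) (nat_lit 3) (nat_lit 3) (nat_lit 12) L77682 (by decide +kernel)
theorem L77684 : W_36 (nat_lit 5) (nat_lit 0xe000200018000a0005000680000001000080000000000000000000000000000000) (nat_lit 0x0) (nat_lit 0x8000000004000700158000000000000000000000000000000000000000000000000000) := T_36 (nat_lit 210) (nat_lit 279) (nat_lit 4) (nat_lit 7) (nat_lit 16) L77683 (by decide +kernel)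
theorem L77685 : W_36 (nat_lit 6) (nat_lit 0xc000200018000a0005000680000001000080000000000000000000000000000000) (nat_lit 0x0) (nat_lit 0xc000200004000700158000000000000000000000000000000000000000000000000000) := T_36 (nat_lit 261) (nat_lit 278) (nat_lit 5) (nat_lit 7) (nat_lit 12) L77684 (by decide +kernel)
theorem L77686 : W_36 (nat_lit 7) (nat_lit 0x8000200018000a0005000680000001000080000000000000000000000000000000) (nat_lit 0x0) (nat_lit 0x1c000600004000700158000000000000000000000000000000000000000000000000000) := T_36 (nat_lit 262) (nat_lit 280) (nat_lit 7) (nat_lit 7) (nat_lit 12) L77685 (by decide +kernel)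
theorem L77687 : W_36 (nat_lit 8) (nat_lit 0x200018000a0005000680000001000080000000000000000000000000000000) (nat_lit 0x0) (nat_lit 0x1c000e00044000700158000000000000000000000000000000000000000000000000000) := T_36 (nat_lit 263) (nat_lit 246) (nat_lit 7) (nat_lit 7) (nat_lit 11) L77686 (by decide +kernel)
theorem L77688 : W_36 (nat_lit 9) (nat_lit 0x18000a0005000680000001000080000000000000000000000000000000) (nat_lit 0x0) (nat_lit 0x1c000e00064000700158008000000000000000000000000000000000000000000000000) := T_36 (nat_lit 245) (nat_lit 195) (nat_lit 6) (nat_lit 7) (nat_lit 14) L77687 (by decide +kernel)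
theorem L77689 : W_36 (nat_lit 10) (nat_lit 0x10000a0005000680000001000080000000000000000000000000000000) (nat_lit 0x0) (nat_lit 0x1c000e00074000f00158008000000000000000000000000000000000000000000000000) := T_36 (nat_lit 227) (nat_lit 244) (nat_lit 5) (nat_lit 7) (nat_lit 10) L77688 (by decide +kernel)
theorem L77690 : W_36 (nat_lit 2) (nat_lit 0x200010000a0005000680000001000080000000000000000000000000000000) (nat_lit 0x0) (nat_lit 0x200010000800000000000000000000000000000000000000000000000000000000) := D_36 (nat_lit 244) (nat_lit 261) (nat_lit 227) (nat_lit 5) (nat_lit 7) (nat_lit 11) (nat_lit 5) (nat_lit 7) (nat_lit 10) (by decide +kernel)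
theorem L77691 : W_36 (nat_lit 3) (nat_lit 0x10000a0005000680000001000080000000000000000000000000000000) (nat_lit 0x0) (nat_lit 0x200030000800000008000000000000000000000000000000000000000000000000) := T_36 (nat_lit 245) (nat_lit 195) (nat_lit 6) (nat_lit 7) (nat_lit 14) L77690 (by decide +kernel)
theorem L77692 : W_36 (nat_lit 2) (nat_lit 0x200010000a0005000680000001000080000000000000000000000000000000) (nat_lit 0x0) (nat_lit 0x800040002000000000000000000000000000000000000000000000000000000000) := D_36 (nat_lit 246) (nat_lit 229) (nat_lit 263) (nat_lit 7) (nat_lit 7) (nat_lit 10) (nat_lit 7) (nat_lit 7) (nat_lit 11) (by decide +kernel)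
theorem L77693 : W_36 (nat_lit 3) (nat_lit 0x10000a0005000680000001000080000000000000000000000000000000) (nat_lit 0x0) (nat_lit 0x800060002000000008000000000000000000000000000000000000000000000000) := T_36 (nat_lit 245) (nat_lit 195) (nat_lit 6) (nat_lit 7) (nat_lit 14) L77692 (by decide +kernel)
theorem L77694 : W_36 (nat_lit 11) (nat_lit 0xa0005000680000001000080000000000000000000000000000000) (nat_lit 0x0) (nat_lit 0x1c000e00074007f00158008000000000000000000000000000000000000000000000000) := Q_36 (nat_lit 228) (C_36 L77680 (C_36 L77689 (C_36 L77691 (C_36 L77693 N_36)))) (by decide +kernel)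
theorem L77695 : W_36 (nat_lit 2) (nat_lit 0x2000f0005000680000001000080000000000000000000000000000000) (nat_lit 0x0) (nat_lit 0x4000400100000000000000000000000000000000000000000000000000000) := D_36 (nat_lit 226) (nat_lit 212) (nat_lit 242) (nat_lit 1) (nat_lit 8) (nat_lit 12) (nat_lit 5) (nat_lit 5) (nat_lit 10) (by decide +kernel)
theorem L77696 : W_36 (nat_lit 3) (nat_lit 0xf0005000680000001000080000000000000000000000000000000) (nat_lit 0x0) (nat_lit 0x4000700100000000000000000000000000000000000000000000000000000) := T_36 (nat_lit 225) (nat_lit 224) (nat_lit 1) (nat_lit 7) (nat_lit 12) L77695 (by decide +kernel)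
theorem L77697 : W_36 (nat_lit 4) (nat_lit 0xe0005000680000001000080000000000000000000000000000000) (nat_lit 0x0) (nat_lit 0x4000700110008000000000000000000000000000000000000000000000000) := T_36 (nat_lit 208) (nat_lit 195) (nat_lit 2) (nat_lit 4) (nat_lit 12) L77696 (by decide +kernel)
theorem L77698 : W_36 (nat_lit 5) (nat_lit 0xa0005000680000001000080000000000000000000000000000000) (nat_lit 0x0) (nat_lit 0x44007700150018c00000000000000000000000000000000000000000000000) := Q_36 (nat_lit 210) (C_36 L77601 (C_36 L77591 (C_36 L77594 (C_36 L77697 N_36)))) (by decide +kernel)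
theorem L77699 : W_36 (nat_lit 5) (nat_lit 0xa0005000680000001000080000000000000000000000000000000) (nat_lit 0x0) (nat_lit 0x28001c000f00140000800040002000000000000000000000000000000000000000) := Q_36 (nat_lit 226) (C_36 L77673 (C_36 L77568 (C_36 L77660 N_36))) (by decide +kernel)
theorem L77700 : W_36 (nat_lit 5) (nat_lit 0xa0005000680000001000080000000000000000000000000000000) (nat_lit 0x0) (nat_lit 0xa00070007800050008000000000000000000000000000000000000000000000000) := Q_36 (nat_lit 228) (C_36 L77693 (C_36 L77680 (C_36 L77691 N_36))) (by decide +kernel)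
theorem L77701 : W_36 (nat_lit 13) (nat_lit 0x20005000680000001000080000000000000000000000000000000) (nat_lit 0x0) (nat_lit 0x1f000f8007f007f807dc018c00040002000000000000000000000000000000000000000) := Q_36 (nat_lit 211) (C_36 L77602 (C_36 L77631 (C_36 L77650 (C_36 L77674 (C_36 L77679 (C_36 L77694 (C_36 L77698 (C_36 L77699 (C_36 L77700 N_36))))))))) (by decide +kernel)
theorem L77702 : W_36 (nat_lit 2) (nat_lit 0x70005000680006001200080000000000000000000000000000000) (nat_lit 0x0) (nat_lit 0xc00020000000000000000000000000000000) := D_36 (nat_lit 142) (nat_lit 143) (nat_lit 125) (nat_lit 1) (nat_lit 8) (nat_lit 8) (nat_lit 6) (nat_lit 5) (nat_lit 11) (by decide +kernel)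
theorem L77703 : W_36 (nat_lit 3) (nat_lit 0x70005000680006001000080000000000000000000000000000000) (nat_lit 0x0) (nat_lit 0x800000000000e00020000000000000000000000000000000) := T_36 (nat_lit 141) (nat_lit 191) (nat_lit 5) (nat_lit 5) (nat_lit 8) L77702 (by decide +kernel)
theorem L77704 : W_36 (nat_lit 4) (nat_lit 0x60005000680006001000080000000000000000000000000000000) (nat_lit 0x0) (nat_lit 0x200010000800000000000e00020000000000000000000000000000000) := T_36 (nat_lit 208) (nat_lit 225) (nat_lit 5) (nat_lit 5) (nat_lit 9) L77703 (by decide +kernel)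
theorem L77705 : W_36 (nat_lit 5) (nat_lit 0x20005000680006001000080000000000000000000000000000000) (nat_lit 0x0) (nat_lit 0xa00050000800000000000e00020000000000000000000000000000000) := T_36 (nat_lit 210) (nat_lit 227) (nat_lit 7) (nat_lit 5) (nat_lit 9) L77704 (by decide +kernel)
theorem L77706 : W_36 (nat_lit 6) (nat_lit 0x20005000680004001000080000000000000000000000000000000) (nat_lit 0x0) (nat_lit 0xa00050000800000002000f00020000000000000000000000000000000) := T_36 (nat_lit 157) (nat_lit 140) (nat_lit 4) (nat_lit 5) (nat_lit 12) L77705 (by decide +kernel)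
theorem L77707 : W_36 (nat_lit 2) (nat_lit 0x30005000680004001200080000000000000000000000000000000) (nat_lit 0x0) (nat_lit 0x2000100008000000000000000000000000000000) := D_36 (nat_lit 140) (nat_lit 123) (nat_lit 157) (nat_lit 4) (nat_lit 5) (nat_lit 11) (nat_lit 4) (nat_lit 5) (nat_lit 12) (by decide +kernel)
theorem L77708 : W_36 (nat_lit 3) (nat_lit 0x30005000680004001000080000000000000000000000000000000) (nat_lit 0x0) (nat_lit 0x800000002000300008000000000000000000000000000000) := T_36 (nat_lit 141) (nat_lit 191) (nat_lit 5) (nat_lit 5) (nat_lit 8) L77707 (by decide +kernel)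
theorem L77709 : W_36 (nat_lit 4) (nat_lit 0x20005000680004001000080000000000000000000000000000000) (nat_lit 0x0) (nat_lit 0x200010000800000002000300008000000000000000000000000000000) := T_36 (nat_lit 208) (nat_lit 225) (nat_lit 5) (nat_lit 5) (nat_lit 9) L77708 (by decide +kernel)
theorem L77710 : W_36 (nat_lit 2) (nat_lit 0xf000500068000e001000080000000000000000000000000000000) (nat_lit 0x0) (nat_lit 0x100000c00000000000000000000000000000000000000000000000) := D_36 (nat_lit 191) (nat_lit 212) (nat_lit 190) (nat_lit 0) (nat_lit 8) (nat_lit 12) (nat_lit 0) (nat_lit 7) (nat_lit 12) (by decide +kernel)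
theorem L77711 : W_36 (nat_lit 3) (nat_lit 0x7000500068000e001000080000000000000000000000000000000) (nat_lit 0x0) (nat_lit 0x180008c00000000000000000000000000000000000000000000000) := T_36 (nat_lit 211) (nat_lit 195) (nat_lit 2) (nat_lit 4) (nat_lit 12) L77710 (by decide +kernel)
theorem L77712 : W_36 (nat_lit 4) (nat_lit 0x3000500068000e001000080000000000000000000000000000000) (nat_lit 0x0) (nat_lit 0x8001c0008c00000000000000000000000000000000000000000000000) := T_36 (nat_lit 210) (nat_lit 227) (nat_lit 7) (nat_lit 5) (nat_lit 9) L77711 (by decide +kernel)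
theorem L77713 : W_36 (nat_lit 5) (nat_lit 0x2000500068000e001000080000000000000000000000000000000) (nat_lit 0x0) (nat_lit 0xa001d0008c00000000000000000000000000000000000000000000000) := T_36 (nat_lit 208) (nat_lit 225) (nat_lit 5) (nat_lit 5) (nat_lit 9) L77712 (by decide +kernel)
theorem L77714 : W_36 (nat_lit 6) (nat_lit 0x20005000680006001000080000000000000000000000000000000) (nat_lit 0x0) (nat_lit 0xa001d0008c00000008000400000000000000000000000000000000000) := T_36 (nat_lit 159) (nat_lit 142) (nat_lit 6) (nat_lit 5) (nat_lit 12) L77713 (by decide +kernel)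
theorem L77715 : W_36 (nat_lit 7) (nat_lit 0x20005000680004001000080000000000000000000000000000000) (nat_lit 0x0) (nat_lit 0xa001d0008c0000000a000500000000000000000000000000000000000) := T_36 (nat_lit 157) (nat_lit 140) (nat_lit 4) (nat_lit 5) (nat_lit 12) L77714 (by decide +kernel)
theorem L77716 : W_36 (nat_lit 2) (nat_lit 0x60005000680006001400080000000000000000000000000000000) (nat_lit 0x0) (nat_lit 0xa00020000000000000000000000000000000) := D_36 (nat_lit 141) (nat_lit 125) (nat_lit 143) (nat_lit 6) (nat_lit 5) (nat_lit 11) (nat_lit 1) (nat_lit 8) (nat_lit 8) (by decide +kernel)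
theorem L77717 : W_36 (nat_lit 3) (nat_lit 0x60005000680006001000080000000000000000000000000000000) (nat_lit 0x0) (nat_lit 0x8000e00020000000000000000000000000000000) := T_36 (nat_lit 142) (nat_lit 159) (nat_lit 6) (nat_lit 5) (nat_lit 12) L77716 (by decide +kernel)
theorem L77718 : W_36 (nat_lit 4) (nat_lit 0x60005000680004001000080000000000000000000000000000000) (nat_lit 0x0) (nat_lit 0xa000f00020000000000000000000000000000000) := T_36 (nat_lit 157) (nat_lit 140) (nat_lit 4) (nat_lit 5) (nat_lit 12) L77717 (by decide +kernel)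
theorem L77719 : W_36 (nat_lit 5) (nat_lit 0x20005000680004001000080000000000000000000000000000000) (nat_lit 0x0) (nat_lit 0x80004000000000000a000f00020000000000000000000000000000000) := T_36 (nat_lit 210) (nat_lit 227) (nat_lit 7) (nat_lit 5) (nat_lit 9) L77718 (by decide +kernel)
theorem L77720 : W_36 (nat_lit 8) (nat_lit 0x20005000680000001000080000000000000000000000000000000) (nat_lit 0x0) (nat_lit 0xa001d0008c0000000e000f00028000000000000000000000000000000) := Q_36 (nat_lit 158) (C_36 L77541 (C_36 L77706 (C_36 L77709 (C_36 L77715 (C_36 L77719 N_36))))) (by decide +kernel)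
theorem L77721 : W_36 (nat_lit 2) (nat_lit 0xe000200050006c0004001600090000000000000000000000000000000) (nat_lit 0x0) (nat_lit 0x100008000400000000000000000000000000) := D_36 (nat_lit 123) (nat_lit 106) (nat_lit 140) (nat_lit 4) (nat_lit 5) (nat_lit 10) (nat_lit 4) (nat_lit 5) (nat_lit 11) (by decide +kernel)
theorem L77722 : W_36 (nat_lit 3) (nat_lit 0xe000200050006c0004001600080000000000000000000000000000000) (nat_lit 0x0) (nat_lit 0x800000000000100018000400000000000000000000000000) := T_36 (nat_lit 124) (nat_lit 191) (nat_lit 5) (nat_lit 5) (nat_lit 7) L77721 (by decide +kernel)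
theorem L77723 : W_36 (nat_lit 4) (nat_lit 0xe000200050006c0004001400080000000000000000000000000000000) (nat_lit 0x0) (nat_lit 0x800000000000300038000400000000000000000000000000) := T_36 (nat_lit 141) (nat_lit 125) (nat_lit 6) (nat_lit 5) (nat_lit 11) L77722 (by decide +kernel)
theorem L77724 : W_36 (nat_lit 5) (nat_lit 0xe000200050006c0004001000080000000000000000000000000000000) (nat_lit 0x0) (nat_lit 0x800000008000700038000400000000000000000000000000) := T_36 (nat_lit 142) (nat_lit 159) (nat_lit 6) (nat_lit 5) (nat_lit 12) L77723 (by decide +kernel)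
theorem L77725 : W_36 (nat_lit 6) (nat_lit 0xe000200050006c0000001000080000000000000000000000000000000) (nat_lit 0x0) (nat_lit 0x1000080000000c000700038000400000000000000000000000000) := T_36 (nat_lit 158) (nat_lit 208) (nat_lit 5) (nat_lit 5) (nat_lit 9) L77724 (by decide +kernel)
theorem L77726 : W_36 (nat_lit 7) (nat_lit 0xc000200050006c0000001000080000000000000000000000000000000) (nat_lit 0x0) (nat_lit 0x400020001000080000000c000700038000400000000000000000000000000) := T_36 (nat_lit 225) (nat_lit 242) (nat_lit 5) (nat_lit 5) (nat_lit 10) L77725 (by decide +kernel)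
theorem L77727 : W_36 (nat_lit 8) (nat_lit 0x4000200050006c0000001000080000000000000000000000000000000) (nat_lit 0x0) (nat_lit 0x14000a0001000080000000c000700038000400000000000000000000000000) := T_36 (nat_lit 227) (nat_lit 244) (nat_lit 7) (nat_lit 5) (nat_lit 10) L77726 (by decide +kernel)
theorem L77728 : W_36 (nat_lit 9) (nat_lit 0x400020005000680000001000080000000000000000000000000000000) (nat_lit 0x0) (nat_lit 0x14000a0001000080004000e000700038000400000000000000000000000000) := T_36 (nat_lit 174) (nat_lit 157) (nat_lit 4) (nat_lit 5) (nat_lit 13) L77727 (by decide +kernel)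
theorem L77729 : W_36 (nat_lit 10) (nat_lit 0x20005000680000001000080000000000000000000000000000000) (nat_lit 0x0) (nat_lit 0x28001c000e0001000080004000e000700038000400000000000000000000000000) := Q_36 (nat_lit 226) (C_36 L77559 (C_36 L77565 (C_36 L77562 (C_36 L77728 N_36)))) (by decide +kernel)
theorem L77730 : W_36 (nat_lit 2) (nat_lit 0xf0005000680004001600088000000000000000000000000000000) (nat_lit 0x0) (nat_lit 0x800110000000000000000000000000000000) := D_36 (nat_lit 143) (nat_lit 128) (nat_lit 124) (nat_lit 2) (nat_lit 5) (nat_lit 8) (nat_lit 0) (nat_lit 8) (nat_lit 8) (by decide +kernel)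
theorem L77731 : W_36 (nat_lit 3) (nat_lit 0xf0005000680004001600080000000000000000000000000000000) (nat_lit 0x0) (nat_lit 0x900118000000000000000000000000000000) := T_36 (nat_lit 123) (nat_lit 140) (nat_lit 4) (nat_lit 5) (nat_lit 11) L77730 (by decide +kernel)
theorem L77732 : W_36 (nat_lit 4) (nat_lit 0xf0005000680004001400080000000000000000000000000000000) (nat_lit 0x0) (nat_lit 0xb00138000000000000000000000000000000) := T_36 (nat_lit 141) (nat_lit 125) (nat_lit 6) (nat_lit 5) (nat_lit 11) L77731 (by decide +kernel)
theorem L77733 : W_36 (nat_lit 5) (nat_lit 0x70005000680004001400080000000000000000000000000000000) (nat_lit 0x0) (nat_lit 0x80008000000000000b00138000000000000000000000000000000) := T_36 (nat_lit 211) (nat_lit 195) (nat_lit 2) (nat_lit 4) (nat_lit 12) L77732 (by decide +kernel)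
theorem L77734 : W_36 (nat_lit 6) (nat_lit 0x60005000680004001400080000000000000000000000000000000) (nat_lit 0x0) (nat_lit 0x200090008000000000000b00138000000000000000000000000000000) := T_36 (nat_lit 208) (nat_lit 225) (nat_lit 5) (nat_lit 5) (nat_lit 9) L77733 (by decide +kernel)
theorem L77735 : W_36 (nat_lit 7) (nat_lit 0x60005000680004001000080000000000000000000000000000000) (nat_lit 0x0) (nat_lit 0x200090008000000008000f00138000000000000000000000000000000) := T_36 (nat_lit 142) (nat_lit 159) (nat_lit 6) (nat_lit 5) (nat_lit 12) L77734 (by decide +kernel)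
theorem L77736 : W_36 (nat_lit 8) (nat_lit 0x20005000680004001000080000000000000000000000000000000) (nat_lit 0x0) (nat_lit 0xa000d0008000000008000f00138000000000000000000000000000000) := T_36 (nat_lit 210) (nat_lit 227) (nat_lit 7) (nat_lit 5) (nat_lit 9) L77735 (by decide +kernel)
theorem L77737 : W_36 (nat_lit 2) (nat_lit 0x10000f0005000680004001600080000000000000000000000000000000) (nat_lit 0x0) (nat_lit 0x2000800100000000000000000000000000000000) := D_36 (nat_lit 143) (nat_lit 128) (nat_lit 157) (nat_lit 2) (nat_lit 5) (nat_lit 8) (nat_lit 1) (nat_lit 8) (nat_lit 8) (by decide +kernel)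
theorem L77738 : W_36 (nat_lit 3) (nat_lit 0x10000f0005000680004001400080000000000000000000000000000000) (nat_lit 0x0) (nat_lit 0x2000a00120000000000000000000000000000000) := T_36 (nat_lit 141) (nat_lit 125) (nat_lit 6) (nat_lit 5) (nat_lit 11) L77737 (by decide +kernel)
theorem L77739 : W_36 (nat_lit 4) (nat_lit 0xf0005000680004001400080000000000000000000000000000000) (nat_lit 0x0) (nat_lit 0x3000000000000000002000a00120000000000000000000000000000000) := T_36 (nat_lit 228) (nat_lit 229) (nat_lit 3) (nat_lit 4) (nat_lit 12) L77738 (by decide +kernel)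
theorem L77740 : W_36 (nat_lit 5) (nat_lit 0xf0005000680004001000080000000000000000000000000000000) (nat_lit 0x0) (nat_lit 0x300000000000000000a000e00120000000000000000000000000000000) := T_36 (nat_lit 142) (nat_lit 159) (nat_lit 6) (nat_lit 5) (nat_lit 12) L77739 (by decide +kernel)
theorem L77741 : W_36 (nat_lit 6) (nat_lit 0x70005000680004001000080000000000000000000000000000000) (nat_lit 0x0) (nat_lit 0x300008000800000000a000e00120000000000000000000000000000000) := T_36 (nat_lit 211) (nat_lit 195) (nat_lit 2) (nat_lit 4) (nat_lit 12) L77740 (by decide +kernel)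
theorem L77742 : W_36 (nat_lit 7) (nat_lit 0x30005000680004001000080000000000000000000000000000000) (nat_lit 0x0) (nat_lit 0x38000c000800000000a000e00120000000000000000000000000000000) := T_36 (nat_lit 210) (nat_lit 227) (nat_lit 7) (nat_lit 5) (nat_lit 9) L77741 (by decide +kernel)
theorem L77743 : W_36 (nat_lit 8) (nat_lit 0x20005000680004001000080000000000000000000000000000000) (nat_lit 0x0) (nat_lit 0x3a000d000800000000a000e00120000000000000000000000000000000) := T_36 (nat_lit 208) (nat_lit 225) (nat_lit 5) (nat_lit 5) (nat_lit 9) L77742 (by decide +kernel)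
theorem L77744 : W_36 (nat_lit 9) (nat_lit 0x20005000680000001000080000000000000000000000000000000) (nat_lit 0x0) (nat_lit 0x14003e000d000800004000e000f00138000000000000000000000000000000) := Q_36 (nat_lit 158) (C_36 L77719 (C_36 L77736 (C_36 L77423 (C_36 L77403 (C_36 L77743 N_36))))) (by decide +kernel)
theorem L77745 : W_36 (nat_lit 2) (nat_lit 0x30005000680004001600088000000000000000000000000000000) (nat_lit 0x0) (nat_lit 0x800110000000000000000000000000000000) := D_36 (nat_lit 143) (nat_lit 128) (nat_lit 124) (nat_lit 2) (nat_lit 5) (nat_lit 8) (nat_lit 0) (nat_lit 8) (nat_lit 8) (by decide +kernel)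
theorem L77746 : W_36 (nat_lit 3) (nat_lit 0x30005000680004001200088000000000000000000000000000000) (nat_lit 0x0) (nat_lit 0xc00130000000000000000000000000000000) := T_36 (nat_lit 142) (nat_lit 125) (nat_lit 6) (nat_lit 5) (nat_lit 11) L77745 (by decide +kernel)
theorem L77747 : W_36 (nat_lit 4) (nat_lit 0x30005000680004001200080000000000000000000000000000000) (nat_lit 0x0) (nat_lit 0xd00138000000000000000000000000000000) := T_36 (nat_lit 123) (nat_lit 140) (nat_lit 4) (nat_lit 5) (nat_lit 11) L77746 (by decide +kernel)
theorem L77748 : W_36 (nat_lit 5) (nat_lit 0x30005000680004001000080000000000000000000000000000000) (nat_lit 0x0) (nat_lit 0x800000000000f00138000000000000000000000000000000) := T_36 (nat_lit 141) (nat_lit 191) (nat_lit 5) (nat_lit 5) (nat_lit 8) L77747 (by decide +kernel)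
theorem L77749 : W_36 (nat_lit 6) (nat_lit 0x20005000680004001000080000000000000000000000000000000) (nat_lit 0x0) (nat_lit 0x200010000800000000000f00138000000000000000000000000000000) := T_36 (nat_lit 208) (nat_lit 225) (nat_lit 5) (nat_lit 5) (nat_lit 9) L77748 (by decide +kernel)
theorem L77750 : W_36 (nat_lit 2) (nat_lit 0x70005800680004001000080000000000000000000000000000000) (nat_lit 0x0) (nat_lit 0x80008400000000000000000000000000000000000000000000000) := D_36 (nat_lit 211) (nat_lit 195) (nat_lit 190) (nat_lit 2) (nat_lit 4) (nat_lit 12) (nat_lit 0) (nat_lit 7) (nat_lit 12) (by decide +kernel)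
theorem L77751 : W_36 (nat_lit 3) (nat_lit 0x70005000680004001000080000000000000000000000000000000) (nat_lit 0x0) (nat_lit 0x80008c00000000000200000000000000000000000000000000000) := T_36 (nat_lit 191) (nat_lit 141) (nat_lit 5) (nat_lit 5) (nat_lit 8) L77750 (by decide +kernel)
theorem L77752 : W_36 (nat_lit 4) (nat_lit 0x60005000680004001000080000000000000000000000000000000) (nat_lit 0x0) (nat_lit 0x200090008c00000000000200000000000000000000000000000000000) := T_36 (nat_lit 208) (nat_lit 225) (nat_lit 5) (nat_lit 5) (nat_lit 9) L77751 (by decide +kernel)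
theorem L77753 : W_36 (nat_lit 5) (nat_lit 0x20005000680004001000080000000000000000000000000000000) (nat_lit 0x0) (nat_lit 0xa000d0008c00000000000200000000000000000000000000000000000) := T_36 (nat_lit 210) (nat_lit 227) (nat_lit 7) (nat_lit 5) (nat_lit 9) L77752 (by decide +kernel)
theorem L77754 : W_36 (nat_lit 2) (nat_lit 0xf000500068000c001000080000000000000000000000000000000) (nat_lit 0x0) (nat_lit 0x100000c00000000000000000000000000000000000000000000000) := D_36 (nat_lit 191) (nat_lit 212) (nat_lit 190) (nat_lit 0) (nat_lit 8) (nat_lit 12) (nat_lit 0) (nat_lit 7) (nat_lit 12) (by decide +kernel)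
theorem L77755 : W_36 (nat_lit 3) (nat_lit 0x7000500068000c001000080000000000000000000000000000000) (nat_lit 0x0) (nat_lit 0x180008c00000000000000000000000000000000000000000000000) := T_36 (nat_lit 211) (nat_lit 195) (nat_lit 2) (nat_lit 4) (nat_lit 12) L77754 (by decide +kernel)
theorem L77756 : W_36 (nat_lit 4) (nat_lit 0x3000500068000c001000080000000000000000000000000000000) (nat_lit 0x0) (nat_lit 0x8001c0008c00000000000000000000000000000000000000000000000) := T_36 (nat_lit 210) (nat_lit 227) (nat_lit 7) (nat_lit 5) (nat_lit 9) L77755 (by decide +kernel)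
theorem L77757 : W_36 (nat_lit 5) (nat_lit 0x30005000680004001000080000000000000000000000000000000) (nat_lit 0x0) (nat_lit 0x8001c0008c00000008000400000000000000000000000000000000000) := T_36 (nat_lit 159) (nat_lit 142) (nat_lit 6) (nat_lit 5) (nat_lit 12) L77756 (by decide +kernel)
theorem L77758 : W_36 (nat_lit 6) (nat_lit 0x20005000680004001000080000000000000000000000000000000) (nat_lit 0x0) (nat_lit 0xa001d0008c00000008000400000000000000000000000000000000000) := T_36 (nat_lit 208) (nat_lit 225) (nat_lit 5) (nat_lit 5) (nat_lit 9) L77757 (by decide +kernel)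
theorem L77759 : W_36 (nat_lit 2) (nat_lit 0x60005000680004001600088000000000000000000000000000000) (nat_lit 0x0) (nat_lit 0x800110000000000000000000000000000000) := D_36 (nat_lit 143) (nat_lit 128) (nat_lit 124) (nat_lit 2) (nat_lit 5) (nat_lit 8) (nat_lit 0) (nat_lit 8) (nat_lit 8) (by decide +kernel)
theorem L77760 : W_36 (nat_lit 3) (nat_lit 0x60005000680004001600080000000000000000000000000000000) (nat_lit 0x0) (nat_lit 0x900118000000000000000000000000000000) := T_36 (nat_lit 123) (nat_lit 140) (nat_lit 4) (nat_lit 5) (nat_lit 11) L77759 (by decide +kernel)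
theorem L77761 : W_36 (nat_lit 4) (nat_lit 0x60005000680004001400080000000000000000000000000000000) (nat_lit 0x0) (nat_lit 0xb00138000000000000000000000000000000) := T_36 (nat_lit 141) (nat_lit 125) (nat_lit 6) (nat_lit 5) (nat_lit 11) L77760 (by decide +kernel)
theorem L77762 : W_36 (nat_lit 5) (nat_lit 0x60005000680004001000080000000000000000000000000000000) (nat_lit 0x0) (nat_lit 0x8000f00138000000000000000000000000000000) := T_36 (nat_lit 142) (nat_lit 159) (nat_lit 6) (nat_lit 5) (nat_lit 12) L77761 (by decide +kernel)
theorem L77763 : W_36 (nat_lit 6) (nat_lit 0x20005000680004001000080000000000000000000000000000000) (nat_lit 0x0) (nat_lit 0x800040000000000008000f00138000000000000000000000000000000) := T_36 (nat_lit 210) (nat_lit 227) (nat_lit 7) (nat_lit 5) (nat_lit 9) L77762 (by decide +kernel)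
theorem L77764 : W_36 (nat_lit 9) (nat_lit 0x20005000680000001000080000000000000000000000000000000) (nat_lit 0x0) (nat_lit 0xa001d0008c0000000c000f00138000000000000000000000000000000) := Q_36 (nat_lit 158) (C_36 L77736 (C_36 L77541 (C_36 L77749 (C_36 L77753 (C_36 L77758 (C_36 L77763 N_36)))))) (by decide +kernel)
theorem L77765 : W_36 (nat_lit 5) (nat_lit 0xc000200050006c0004001400080000000000000000000000000000000) (nat_lit 0x0) (nat_lit 0x4000200000000800000000000300038000400000000000000000000000000) := T_36 (nat_lit 225) (nat_lit 242) (nat_lit 5) (nat_lit 5) (nat_lit 10) L77723 (by decide +kernel)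
theorem L77766 : W_36 (nat_lit 6) (nat_lit 0xc000200050006c0004001000080000000000000000000000000000000) (nat_lit 0x0) (nat_lit 0x4000200000000800000008000700038000400000000000000000000000000) := T_36 (nat_lit 142) (nat_lit 159) (nat_lit 6) (nat_lit 5) (nat_lit 12) L77765 (by decide +kernel)
theorem L77767 : W_36 (nat_lit 7) (nat_lit 0xc000200050006c0000001000080000000000000000000000000000000) (nat_lit 0x0) (nat_lit 0x400020004000080000000c000700038000400000000000000000000000000) := T_36 (nat_lit 158) (nat_lit 210) (nat_lit 7) (nat_lit 5) (nat_lit 9) L77766 (by decide +kernel)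
theorem L77768 : W_36 (nat_lit 8) (nat_lit 0x4000200050006c0000001000080000000000000000000000000000000) (nat_lit 0x0) (nat_lit 0x14000a0004000080000000c000700038000400000000000000000000000000) := T_36 (nat_lit 227) (nat_lit 244) (nat_lit 7) (nat_lit 5) (nat_lit 10) L77767 (by decide +kernel)
theorem L77769 : W_36 (nat_lit 9) (nat_lit 0x400020005000680000001000080000000000000000000000000000000) (nat_lit 0x0) (nat_lit 0x14000a0004000080004000e000700038000400000000000000000000000000) := T_36 (nat_lit 174) (nat_lit 157) (nat_lit 4) (nat_lit 5) (nat_lit 13) L77768 (by decide +kernel)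
theorem L77770 : W_36 (nat_lit 10) (nat_lit 0x20005000680000001000080000000000000000000000000000000) (nat_lit 0x0) (nat_lit 0x28001c000e0004000080004000e000700038000400000000000000000000000000) := Q_36 (nat_lit 226) (C_36 L77559 (C_36 L77565 (C_36 L77562 (C_36 L77769 N_36)))) (by decide +kernel)
theorem L77771 : W_36 (nat_lit 2) (nat_lit 0x20005000680006001400080000000000000000000000000000000) (nat_lit 0x0) (nat_lit 0xa00020000000000000000000000000000000) := D_36 (nat_lit 141) (nat_lit 143) (nat_lit 125) (nat_lit 1) (nat_lit 8) (nat_lit 8) (nat_lit 6) (nat_lit 5) (nat_lit 11) (by decide +kernel)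
theorem L77772 : W_36 (nat_lit 3) (nat_lit 0x20005000680004001400080000000000000000000000000000000) (nat_lit 0x0) (nat_lit 0x2000b00020000000000000000000000000000000) := T_36 (nat_lit 157) (nat_lit 140) (nat_lit 4) (nat_lit 5) (nat_lit 12) L77771 (by decide +kernel)
theorem L77773 : W_36 (nat_lit 4) (nat_lit 0x20005000680004001000080000000000000000000000000000000) (nat_lit 0x0) (nat_lit 0xa000f00020000000000000000000000000000000) := T_36 (nat_lit 142) (nat_lit 159) (nat_lit 6) (nat_lit 5) (nat_lit 12) L77772 (by decide +kernel)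
theorem L77774 : W_36 (nat_lit 7) (nat_lit 0x20005000680000001000080000000000000000000000000000000) (nat_lit 0x0) (nat_lit 0x400060001000080004000e000f00138000000000000000000000000000000) := Q_36 (nat_lit 158) (C_36 L77749 (C_36 L77709 (C_36 L77423 (C_36 L77541 (C_36 L77773 N_36))))) (by decide +kernel)
theorem L77775 : W_36 (nat_lit 3) (nat_lit 0x60005000680004001400080000000000000000000000000000000) (nat_lit 0x0) (nat_lit 0x2000a00120000000000000000000000000000000) := T_36 (nat_lit 141) (nat_lit 125) (nat_lit 6) (nat_lit 5) (nat_lit 11) L77461 (by decide +kernel)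
theorem L77776 : W_36 (nat_lit 4) (nat_lit 0x60005000680004001000080000000000000000000000000000000) (nat_lit 0x0) (nat_lit 0xa000e00120000000000000000000000000000000) := T_36 (nat_lit 142) (nat_lit 159) (nat_lit 6) (nat_lit 5) (nat_lit 12) L77775 (by decide +kernel)
theorem L77777 : W_36 (nat_lit 5) (nat_lit 0x20005000680004001000080000000000000000000000000000000) (nat_lit 0x0) (nat_lit 0x80004000000000000a000e00120000000000000000000000000000000) := T_36 (nat_lit 210) (nat_lit 227) (nat_lit 7) (nat_lit 5) (nat_lit 9) L77776 (by decide +kernel)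
theorem L77778 : W_36 (nat_lit 7) (nat_lit 0x20005000680000001000080000000000000000000000000000000) (nat_lit 0x0) (nat_lit 0x10000c0004000000004000e000f00138000000000000000000000000000000) := Q_36 (nat_lit 158) (C_36 L77773 (C_36 L77763 (C_36 L77403 (C_36 L77777 N_36)))) (by decide +kernel)
theorem L77779 : W_36 (nat_lit 14) (nat_lit 0x5000680000001000080000000000000000000000000000000) (nat_lit 0x0) (nat_lit 0x1f000f8007f007fc07fc018c0007800f000f00138000400000000000000000000000000) := Q_36 (nat_lit 209) (C_36 L77532 (C_36 L77542 (C_36 L77556 (C_36 L77701 (C_36 L77720 (C_36 L77729 (C_36 L77744 (C_36 L77764 (C_36 L77770 (C_36 L77774 (C_36 L77778 N_36))))))))))) (by decide +kernel)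
theorem L77780 : W_36 (nat_lit 7) (nat_lit 0x5000680004001000080000000000000000000000000000000) (nat_lit 0x0) (nat_lit 0xa001f0008c0000000a000f00138000000000000000000000000000000) := Q_36 (nat_lit 209) (C_36 L77777 (C_36 L77763 (C_36 L77758 (C_36 L77753 (C_36 L77773 N_36))))) (by decide +kernel)
theorem L77781 : W_36 (nat_lit 2) (nat_lit 0xf0005000680006001400080000000000000000000000000000000) (nat_lit 0x0) (nat_lit 0xa00020000000000000000000000000000000) := D_36 (nat_lit 141) (nat_lit 125) (nat_lit 143) (nat_lit 6) (nat_lit 5) (nat_lit 11) (nat_lit 1) (nat_lit 8) (nat_lit 8) (by decide +kernel)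
theorem L77782 : W_36 (nat_lit 3) (nat_lit 0xf0005000680006001000080000000000000000000000000000000) (nat_lit 0x0) (nat_lit 0x8000e00020000000000000000000000000000000) := T_36 (nat_lit 142) (nat_lit 159) (nat_lit 6) (nat_lit 5) (nat_lit 12) L77781 (by decide +kernel)
theorem L77783 : W_36 (nat_lit 4) (nat_lit 0x70005000680006001000080000000000000000000000000000000) (nat_lit 0x0) (nat_lit 0x80008000000008000e00020000000000000000000000000000000) := T_36 (nat_lit 211) (nat_lit 195) (nat_lit 2) (nat_lit 4) (nat_lit 12) L77782 (by decide +kernel)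
theorem L77784 : W_36 (nat_lit 5) (nat_lit 0x30005000680006001000080000000000000000000000000000000) (nat_lit 0x0) (nat_lit 0x8000c0008000000008000e00020000000000000000000000000000000) := T_36 (nat_lit 210) (nat_lit 227) (nat_lit 7) (nat_lit 5) (nat_lit 9) L77783 (by decide +kernel)
theorem L77785 : W_36 (nat_lit 6) (nat_lit 0x20005000680006001000080000000000000000000000000000000) (nat_lit 0x0) (nat_lit 0xa000d0008000000008000e00020000000000000000000000000000000) := T_36 (nat_lit 208) (nat_lit 225) (nat_lit 5) (nat_lit 5) (nat_lit 9) L77784 (by decide +kernel)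
theorem L77786 : W_36 (nat_lit 7) (nat_lit 0x5000680006001000080000000000000000000000000000000) (nat_lit 0x0) (nat_lit 0xa000f0008000000008000f00020000000000000000000000000000000) := T_36 (nat_lit 209) (nat_lit 140) (nat_lit 4) (nat_lit 5) (nat_lit 12) L77785 (by decide +kernel)
theorem L77787 : W_36 (nat_lit 8) (nat_lit 0x5000680004001000080000000000000000000000000000000) (nat_lit 0x0) (nat_lit 0xa000f000800010000a000f00020000000000000000000000000000000) := T_36 (nat_lit 157) (nat_lit 176) (nat_lit 0) (nat_lit 8) (nat_lit 10) L77786 (by decide +kernel)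
theorem L77788 : W_36 (nat_lit 2) (nat_lit 0x5800680004001600088000000000000000000000000000000) (nat_lit 0x0) (nat_lit 0x800110000000000000000000000000000000) := D_36 (nat_lit 143) (nat_lit 128) (nat_lit 124) (nat_lit 2) (nat_lit 5) (nat_lit 8) (nat_lit 0) (nat_lit 8) (nat_lit 8) (by decide +kernel)
theorem L77789 : W_36 (nat_lit 3) (nat_lit 0x5800680004001200088000000000000000000000000000000) (nat_lit 0x0) (nat_lit 0xc00130000000000000000000000000000000) := T_36 (nat_lit 142) (nat_lit 125) (nat_lit 6) (nat_lit 5) (nat_lit 11) L77788 (by decide +kernel)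
theorem L77790 : W_36 (nat_lit 4) (nat_lit 0x5800680004001200080000000000000000000000000000000) (nat_lit 0x0) (nat_lit 0xd00138000000000000000000000000000000) := T_36 (nat_lit 123) (nat_lit 140) (nat_lit 4) (nat_lit 5) (nat_lit 11) L77789 (by decide +kernel)
theorem L77791 : W_36 (nat_lit 5) (nat_lit 0x5800680004001000080000000000000000000000000000000) (nat_lit 0x0) (nat_lit 0x10000000000000000f00138000000000000000000000000000000) := T_36 (nat_lit 141) (nat_lit 208) (nat_lit 5) (nat_lit 5) (nat_lit 8) L77790 (by decide +kernel)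
theorem L77792 : W_36 (nat_lit 6) (nat_lit 0x5000680004001000080000000000000000000000000000000) (nat_lit 0x0) (nat_lit 0x10000800100000000f00138000000000000000000000000000000) := T_36 (nat_lit 191) (nat_lit 176) (nat_lit 1) (nat_lit 8) (nat_lit 10) L77791 (by decide +kernel)
theorem L77793 : W_36 (nat_lit 9) (nat_lit 0x5000680000001000080000000000000000000000000000000) (nat_lit 0x0) (nat_lit 0xa001f0008c0010000e000f00138000000000000000000000000000000) := Q_36 (nat_lit 158) (C_36 L77369 (C_36 L77780 (C_36 L77787 (C_36 L77792 N_36)))) (by decide +kernel)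
theorem L77794 : W_36 (nat_lit 2) (nat_lit 0x20005000780008001000080000000000000000000000000000000) (nat_lit 0x0) (nat_lit 0x4000400020000000000000000000000000000000) := D_36 (nat_lit 142) (nat_lit 125) (nat_lit 158) (nat_lit 7) (nat_lit 6) (nat_lit 7) (nat_lit 6) (nat_lit 5) (nat_lit 12) (by decide +kernel)
theorem L77795 : W_36 (nat_lit 3) (nat_lit 0x5000780008001000080000000000000000000000000000000) (nat_lit 0x0) (nat_lit 0x400020000000000004000400020000000000000000000000000000000) := T_36 (nat_lit 209) (nat_lit 226) (nat_lit 6) (nat_lit 5) (nat_lit 13) L77794 (by decide +kernel)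
theorem L77796 : W_36 (nat_lit 2) (nat_lit 0x14000400020005000780000001000080000000000000000000000000000000) (nat_lit 0x0) (nat_lit 0x280008000000000000000000000000000000000000000000000000000000000000) := D_36 (nat_lit 243) (nat_lit 259) (nat_lit 261) (nat_lit 5) (nat_lit 5) (nat_lit 11) (nat_lit 7) (nat_lit 5) (nat_lit 11) (by decide +kernel)
theorem L77797 : W_36 (nat_lit 3) (nat_lit 0x4000400020005000780000001000080000000000000000000000000000000) (nat_lit 0x0) (nat_lit 0x280018000800000000000000000000000000000000000000000000000000000000) := T_36 (nat_lit 244) (nat_lit 227) (nat_lit 7) (nat_lit 5) (nat_lit 10) L77796 (by decide +kernel)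
theorem L77798 : W_36 (nat_lit 4) (nat_lit 0x400020005000780000001000080000000000000000000000000000000) (nat_lit 0x0) (nat_lit 0x28001c000a00000000000000000000000000000000000000000000000000000000) := T_36 (nat_lit 242) (nat_lit 225) (nat_lit 5) (nat_lit 5) (nat_lit 10) L77797 (by decide +kernel)
theorem L77799 : W_36 (nat_lit 5) (nat_lit 0x20005000780000001000080000000000000000000000000000000) (nat_lit 0x0) (nat_lit 0x28001c000e00000000000000008000000000000000000000000000000000000000) := T_36 (nat_lit 226) (nat_lit 159) (nat_lit 6) (nat_lit 5) (nat_lit 13) L77798 (by decide +kernel)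
theorem L77800 : W_36 (nat_lit 2) (nat_lit 0x60005000780004001600088000000000000000000000000000000) (nat_lit 0x0) (nat_lit 0x800110000000000000000000000000000000) := D_36 (nat_lit 143) (nat_lit 128) (nat_lit 124) (nat_lit 2) (nat_lit 5) (nat_lit 8) (nat_lit 0) (nat_lit 8) (nat_lit 8) (by decide +kernel)
theorem L77801 : W_36 (nat_lit 3) (nat_lit 0x60005000780004001600080000000000000000000000000000000) (nat_lit 0x0) (nat_lit 0x900118000000000000000000000000000000) := T_36 (nat_lit 123) (nat_lit 140) (nat_lit 4) (nat_lit 5) (nat_lit 11) L77800 (by decide +kernel)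
theorem L77802 : W_36 (nat_lit 4) (nat_lit 0x60005000780004001400080000000000000000000000000000000) (nat_lit 0x0) (nat_lit 0xb00138000000000000000000000000000000) := T_36 (nat_lit 141) (nat_lit 125) (nat_lit 6) (nat_lit 5) (nat_lit 11) L77801 (by decide +kernel)
theorem L77803 : W_36 (nat_lit 5) (nat_lit 0x60005000780004001000080000000000000000000000000000000) (nat_lit 0x0) (nat_lit 0x8000f00138000000000000000000000000000000) := T_36 (nat_lit 142) (nat_lit 159) (nat_lit 6) (nat_lit 5) (nat_lit 12) L77802 (by decide +kernel)
theorem L77804 : W_36 (nat_lit 6) (nat_lit 0x20005000780004001000080000000000000000000000000000000) (nat_lit 0x0) (nat_lit 0x800040000000000008000f00138000000000000000000000000000000) := T_36 (nat_lit 210) (nat_lit 227) (nat_lit 7) (nat_lit 5) (nat_lit 9) L77803 (by decide +kernel)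
theorem L77805 : W_36 (nat_lit 7) (nat_lit 0x20005000780000001000080000000000000000000000000000000) (nat_lit 0x0) (nat_lit 0x80004000000000000e000f00138000000000000000000000000000000) := T_36 (nat_lit 158) (nat_lit 157) (nat_lit 0) (nat_lit 8) (nat_lit 10) L77804 (by decide +kernel)
theorem L77806 : W_36 (nat_lit 2) (nat_lit 0xa00020005000780004001000080000000000000000000000000000000) (nat_lit 0x0) (nat_lit 0x14000400000000000000000000000000000000000000000000000000000000) := D_36 (nat_lit 226) (nat_lit 244) (nat_lit 242) (nat_lit 7) (nat_lit 5) (nat_lit 10) (nat_lit 5) (nat_lit 5) (nat_lit 10) (by decide +kernel)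
theorem L77807 : W_36 (nat_lit 3) (nat_lit 0x800020005000780004001000080000000000000000000000000000000) (nat_lit 0x0) (nat_lit 0x14000600010000000000000000000000000000000000000000000000000000) := T_36 (nat_lit 225) (nat_lit 208) (nat_lit 5) (nat_lit 5) (nat_lit 9) L77806 (by decide +kernel)
theorem L77808 : W_36 (nat_lit 4) (nat_lit 0x20005000780004001000080000000000000000000000000000000) (nat_lit 0x0) (nat_lit 0x14000e00050000000000000000000000000000000000000000000000000000) := T_36 (nat_lit 227) (nat_lit 210) (nat_lit 7) (nat_lit 5) (nat_lit 9) L77807 (by decide +kernel)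
theorem L77809 : W_36 (nat_lit 5) (nat_lit 0x20005000780000001000080000000000000000000000000000000) (nat_lit 0x0) (nat_lit 0x14000e00050000000000006000000000000000000000000000000000000000) := T_36 (nat_lit 158) (nat_lit 157) (nat_lit 0) (nat_lit 8) (nat_lit 10) L77808 (by decide +kernel)
theorem L77810 : W_36 (nat_lit 3) (nat_lit 0x20005000780000001000080000000000000000000000000000000) (nat_lit 0x0) (nat_lit 0x40000000000000000e000400000000000000000000000000000000000) := T_36 (nat_lit 158) (nat_lit 157) (nat_lit 0) (nat_lit 8) (nat_lit 10) L77459 (by decide +kernel)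
theorem L77811 : W_36 (nat_lit 8) (nat_lit 0x5000780000001000080000000000000000000000000000000) (nat_lit 0x0) (nat_lit 0x28001c000e0007000000000000e000f00138000000000000000000000000000000) := Q_36 (nat_lit 209) (C_36 L77799 (C_36 L77805 (C_36 L77809 (C_36 L77810 N_36)))) (by decide +kernel)
theorem L77812 : W_36 (nat_lit 9) (nat_lit 0x5000680000001000080000000000000000000000000000000) (nat_lit 0x0) (nat_lit 0x28001c000e0007001800014000e000f00138000000000000000000000000000000) := Q_36 (nat_lit 176) (C_36 L77210 (C_36 L77811 N_36)) (by decide +kernel)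
theorem L77813 : W_36 (nat_lit 15) (nat_lit 0x5000600000001000080000000000000000000000000000000) (nat_lit 0x0) (nat_lit 0x1f000f8007f007fc07fc018c001f800f000f00138001400000000000000000000000000) := Q_36 (nat_lit 175) (C_36 L77381 (C_36 L77492 (C_36 L77779 (C_36 L77793 (C_36 L77812 N_36))))) (by decide +kernel)
theorem L77814 : W_36 (nat_lit 9) (nat_lit 0x5000700000001000080000000000000000000000000000000) (nat_lit 0x0) (nat_lit 0x28001c000e0007000080008000e000f00138000000000000000000000000000000) := T_36 (nat_lit 175) (nat_lit 191) (nat_lit 1) (nat_lit 8) (nat_lit 10) L77811 (by decide +kernel)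
theorem L77815 : W_36 (nat_lit 2) (nat_lit 0xd000700000001000080000000000000000000000000000000) (nat_lit 0x0) (nat_lit 0x30000080000000000000000000000000000000000000000000) := D_36 (nat_lit 196) (nat_lit 197) (nat_lit 175) (nat_lit 0) (nat_lit 10) (nat_lit 11) (nat_lit 3) (nat_lit 5) (nat_lit 10) (by decide +kernel)
theorem L77816 : W_36 (nat_lit 2) (nat_lit 0x4000000012002f000700008001000080000000000000000000000000000000) (nat_lit 0x0) (nat_lit 0x8000400040000000000000000000000000000000000000000000000000000) := D_36 (nat_lit 226) (nat_lit 243) (nat_lit 210) (nat_lit 6) (nat_lit 5) (nat_lit 14) (nat_lit 5) (nat_lit 6) (nat_lit 9) (by decide +kernel)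
theorem L77817 : W_36 (nat_lit 3) (nat_lit 0x4000000012002f000700000001000080000000000000000000000000000000) (nat_lit 0x0) (nat_lit 0x8000400040000000000008000400000000000000000000000000000000000) := T_36 (nat_lit 159) (nat_lit 142) (nat_lit 5) (nat_lit 6) (nat_lit 8) L77816 (by decide +kernel)
theorem L77818 : W_36 (nat_lit 4) (nat_lit 0x4000000010002f000700000001000080000000000000000000000000000000) (nat_lit 0x0) (nat_lit 0x8000400070000000000008000400000000000000000000000000000000000) := T_36 (nat_lit 209) (nat_lit 208) (nat_lit 1) (nat_lit 8) (nat_lit 11) L77817 (by decide +kernel)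
theorem L77819 : W_36 (nat_lit 5) (nat_lit 0x4000000010002d000700000001000080000000000000000000000000000000) (nat_lit 0x0) (nat_lit 0x8000400270002000000008000400000000000000000000000000000000000) := T_36 (nat_lit 193) (nat_lit 213) (nat_lit 3) (nat_lit 5) (nat_lit 11) L77818 (by decide +kernel)
theorem L77820 : W_36 (nat_lit 6) (nat_lit 0x10002d000700000001000080000000000000000000000000000000) (nat_lit 0x0) (nat_lit 0x48002400270002000000008000400000000000000000000000000000000000) := T_36 (nat_lit 246) (nat_lit 229) (nat_lit 4) (nat_lit 8) (nat_lit 14) L77819 (by decide +kernel)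
theorem L77821 : W_36 (nat_lit 7) (nat_lit 0x10000d000700000001000080000000000000000000000000000000) (nat_lit 0x0) (nat_lit 0x48002400270032000000008000400000000000000000000000000000000000) := T_36 (nat_lit 197) (nat_lit 196) (nat_lit 0) (nat_lit 10) (nat_lit 11) L77820 (by decide +kernel)
theorem L77822 : W_36 (nat_lit 2) (nat_lit 0x12000f000700000001000080000000000000000000000000000000) (nat_lit 0x0) (nat_lit 0x40030000000000000000000000000000000000000000000000000) := D_36 (nat_lit 196) (nat_lit 197) (nat_lit 210) (nat_lit 0) (nat_lit 10) (nat_lit 11) (nat_lit 1) (nat_lit 9) (nat_lit 11) (by decide +kernel)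
theorem L77823 : W_36 (nat_lit 3) (nat_lit 0x10000f000700000001000080000000000000000000000000000000) (nat_lit 0x0) (nat_lit 0x70030000000000000000000000000000000000000000000000000) := T_36 (nat_lit 209) (nat_lit 208) (nat_lit 1) (nat_lit 8) (nat_lit 11) L77822 (by decide +kernel)
theorem L77824 : W_36 (nat_lit 4) (nat_lit 0x10000d000700000001000080000000000000000000000000000000) (nat_lit 0x0) (nat_lit 0x270032000000000000000000000000000000000000000000000000) := T_36 (nat_lit 193) (nat_lit 213) (nat_lit 3) (nat_lit 5) (nat_lit 11) L77823 (by decide +kernel)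
theorem L77825 : W_36 (nat_lit 2) (nat_lit 0x4000040012000f000700000001000080000000000000000000000000000000) (nat_lit 0x0) (nat_lit 0x40000000000008000400000000000000000000000000000000000) := D_36 (nat_lit 159) (nat_lit 142) (nat_lit 210) (nat_lit 5) (nat_lit 6) (nat_lit 8) (nat_lit 5) (nat_lit 6) (nat_lit 9) (by decide +kernel)
theorem L77826 : W_36 (nat_lit 3) (nat_lit 0x4000000012000f000700000001000080000000000000000000000000000000) (nat_lit 0x0) (nat_lit 0x8000400040000000000008000400000000000000000000000000000000000) := T_36 (nat_lit 226) (nat_lit 243) (nat_lit 6) (nat_lit 5) (nat_lit 14) L77825 (by decide +kernel)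
theorem L77827 : W_36 (nat_lit 4) (nat_lit 0x12000f000700000001000080000000000000000000000000000000) (nat_lit 0x0) (nat_lit 0x48002400040000000000008000400000000000000000000000000000000000) := T_36 (nat_lit 246) (nat_lit 229) (nat_lit 4) (nat_lit 8) (nat_lit 14) L77826 (by decide +kernel)
theorem L77828 : W_36 (nat_lit 5) (nat_lit 0x10000f000700000001000080000000000000000000000000000000) (nat_lit 0x0) (nat_lit 0x48002400070000000000008000400000000000000000000000000000000000) := T_36 (nat_lit 209) (nat_lit 208) (nat_lit 1) (nat_lit 8) (nat_lit 11) L77827 (by decide +kernel)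
theorem L77829 : W_36 (nat_lit 6) (nat_lit 0x10000d000700000001000080000000000000000000000000000000) (nat_lit 0x0) (nat_lit 0x48002400270002000000008000400000000000000000000000000000000000) := T_36 (nat_lit 193) (nat_lit 213) (nat_lit 3) (nat_lit 5) (nat_lit 11) L77828 (by decide +kernel)
theorem L77830 : W_36 (nat_lit 2) (nat_lit 0x700018002d000700000001000080000000000000000000000000000000) (nat_lit 0x0) (nat_lit 0x8000060000000000000000000000000000000000000000000000000000) := D_36 (nat_lit 210) (nat_lit 209) (nat_lit 231) (nat_lit 3) (nat_lit 5) (nat_lit 12) (nat_lit 0) (nat_lit 10) (nat_lit 13) (by decide +kernel)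
theorem L77831 : W_36 (nat_lit 3) (nat_lit 0x700010002d000700000001000080000000000000000000000000000000) (nat_lit 0x0) (nat_lit 0x80000e0000000000008000000000000000000000000000000000000000) := T_36 (nat_lit 211) (nat_lit 159) (nat_lit 4) (nat_lit 7) (nat_lit 13) L77830 (by decide +kernel)
theorem L77832 : W_36 (nat_lit 4) (nat_lit 0x600010002d000700000001000080000000000000000000000000000000) (nat_lit 0x0) (nat_lit 0x200090000e0000000000008000000000000000000000000000000000000000) := T_36 (nat_lit 228) (nat_lit 245) (nat_lit 5) (nat_lit 8) (nat_lit 10) L77831 (by decide +kernel)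
theorem L77833 : W_36 (nat_lit 5) (nat_lit 0x200010002d000700000001000080000000000000000000000000000000) (nat_lit 0x0) (nat_lit 0xa000d0000e0000000000008000000000000000000000000000000000000000) := T_36 (nat_lit 230) (nat_lit 247) (nat_lit 7) (nat_lit 8) (nat_lit 10) L77832 (by decide +kernel)
theorem L77834 : W_36 (nat_lit 6) (nat_lit 0x200010000d000700000001000080000000000000000000000000000000) (nat_lit 0x0) (nat_lit 0xa000d0000e0030000000008000000000000000000000000000000000000000) := T_36 (nat_lit 197) (nat_lit 196) (nat_lit 0) (nat_lit 10) (nat_lit 11) L77833 (by decide +kernel)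
theorem L77835 : W_36 (nat_lit 7) (nat_lit 0x10000d000700000001000080000000000000000000000000000000) (nat_lit 0x0) (nat_lit 0xe000f0000e0030000000008000000000000000000000000000000000000000) := T_36 (nat_lit 229) (nat_lit 246) (nat_lit 4) (nat_lit 8) (nat_lit 14) L77834 (by decide +kernel)
theorem L77836 : W_36 (nat_lit 2) (nat_lit 0x4000000078002d000700000001000080000000000000000000000000000000) (nat_lit 0x0) (nat_lit 0x1800000000000000008000000000000000000000000000000000000000) := D_36 (nat_lit 228) (nat_lit 227) (nat_lit 159) (nat_lit 1) (nat_lit 10) (nat_lit 12) (nat_lit 4) (nat_lit 7) (nat_lit 13) (by decide +kernel)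
theorem L77837 : W_36 (nat_lit 3) (nat_lit 0x4000000070002d000700000001000080000000000000000000000000000000) (nat_lit 0x0) (nat_lit 0x1800080040000000008000000000000000000000000000000000000000) := T_36 (nat_lit 211) (nat_lit 198) (nat_lit 2) (nat_lit 7) (nat_lit 12) L77836 (by decide +kernel)
theorem L77838 : W_36 (nat_lit 4) (nat_lit 0x4000000030002d000700000001000080000000000000000000000000000000) (nat_lit 0x0) (nat_lit 0x1800c80040000000008000000000000000000000000000000000000000) := T_36 (nat_lit 214) (nat_lit 215) (nat_lit 0) (nat_lit 11) (nat_lit 12) L77837 (by decide +kernel)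
theorem L77839 : W_36 (nat_lit 5) (nat_lit 0x4000000030000d000700000001000080000000000000000000000000000000) (nat_lit 0x0) (nat_lit 0x1800c80070000000008000000000000000000000000000000000000000) := T_36 (nat_lit 197) (nat_lit 196) (nat_lit 0) (nat_lit 10) (nat_lit 11) L77838 (by decide +kernel)
theorem L77840 : W_36 (nat_lit 6) (nat_lit 0x4000000010000d000700000001000080000000000000000000000000000000) (nat_lit 0x0) (nat_lit 0x1800e80072000000008000000000000000000000000000000000000000) := T_36 (nat_lit 213) (nat_lit 193) (nat_lit 3) (nat_lit 5) (nat_lit 11) L77839 (by decide +kernel)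
theorem L77841 : W_36 (nat_lit 7) (nat_lit 0x10000d000700000001000080000000000000000000000000000000) (nat_lit 0x0) (nat_lit 0x40003800e80072000000008000000000000000000000000000000000000000) := T_36 (nat_lit 246) (nat_lit 229) (nat_lit 4) (nat_lit 8) (nat_lit 14) L77840 (by decide +kernel)
theorem L77842 : W_36 (nat_lit 8) (nat_lit 0xd000700000001000080000000000000000000000000000000) (nat_lit 0x0) (nat_lit 0xe800fc00ff0072000000008000400000000000000000000000000000000000) := Q_36 (nat_lit 212) (C_36 L77821 (C_36 L77824 (C_36 L77829 (C_36 L77835 (C_36 L77841 N_36))))) (by decide +kernel)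
theorem L77843 : W_36 (nat_lit 5) (nat_lit 0x2000f000700000001000080000000000000000000000000000000) (nat_lit 0x0) (nat_lit 0x48002400340000000000008000400000000000000000000000000000000000) := T_36 (nat_lit 212) (nat_lit 213) (nat_lit 3) (nat_lit 5) (nat_lit 11) L77827 (by decide +kernel)
theorem L77844 : W_36 (nat_lit 6) (nat_lit 0xf000700000001000080000000000000000000000000000000) (nat_lit 0x0) (nat_lit 0x48002400370000000000008000400000000000000000000000000000000000) := T_36 (nat_lit 209) (nat_lit 208) (nat_lit 1) (nat_lit 8) (nat_lit 11) L77843 (by decide +kernel)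
theorem L77845 : W_36 (nat_lit 2) (nat_lit 0x600016000f000700000001400080000000000000000000000000000000) (nat_lit 0x0) (nat_lit 0x20001800000000000000000000000000000000000000000000000000000000) := D_36 (nat_lit 228) (nat_lit 227) (nat_lit 245) (nat_lit 0) (nat_lit 9) (nat_lit 13) (nat_lit 5) (nat_lit 8) (nat_lit 10) (by decide +kernel)
theorem L77846 : W_36 (nat_lit 3) (nat_lit 0x600012000f000700000001400080000000000000000000000000000000) (nat_lit 0x0) (nat_lit 0x200018000c0000000000000000000000000000000000000000000000000000) := T_36 (nat_lit 210) (nat_lit 211) (nat_lit 3) (nat_lit 5) (nat_lit 12) L77845 (by decide +kernel)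
theorem L77847 : W_36 (nat_lit 4) (nat_lit 0x200012000f000700000001400080000000000000000000000000000000) (nat_lit 0x0) (nat_lit 0xa00058000c0000000000000000000000000000000000000000000000000000) := T_36 (nat_lit 230) (nat_lit 247) (nat_lit 7) (nat_lit 8) (nat_lit 10) L77846 (by decide +kernel)
theorem L77848 : W_36 (nat_lit 5) (nat_lit 0x200012000f000700000001000080000000000000000000000000000000) (nat_lit 0x0) (nat_lit 0xa00058000c0000000000008000400000000000000000000000000000000000) := T_36 (nat_lit 142) (nat_lit 159) (nat_lit 5) (nat_lit 6) (nat_lit 8) L77847 (by decide +kernel)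
theorem L77849 : W_36 (nat_lit 6) (nat_lit 0x12000f000700000001000080000000000000000000000000000000) (nat_lit 0x0) (nat_lit 0xe00078000c0000000000008000400000000000000000000000000000000000) := T_36 (nat_lit 229) (nat_lit 246) (nat_lit 4) (nat_lit 8) (nat_lit 14) L77848 (by decide +kernel)
theorem L77850 : W_36 (nat_lit 7) (nat_lit 0x10000f000700000001000080000000000000000000000000000000) (nat_lit 0x0) (nat_lit 0xe00078000f0000000000008000400000000000000000000000000000000000) := T_36 (nat_lit 209) (nat_lit 208) (nat_lit 1) (nat_lit 8) (nat_lit 11) L77849 (by decide +kernel)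
theorem L77851 : W_36 (nat_lit 8) (nat_lit 0xf000700000001000080000000000000000000000000000000) (nat_lit 0x0) (nat_lit 0xe00078003f0000000000008000400000000000000000000000000000000000) := T_36 (nat_lit 212) (nat_lit 213) (nat_lit 3) (nat_lit 5) (nat_lit 11) L77850 (by decide +kernel)
theorem L77859 : W_36 (nat_lit 2) (nat_lit 0x2000f000700008001000080000000000000000000000000000000) (nat_lit 0x0) (nat_lit 0x8000400040000000000000000000000000000000000000000000000000000) := D_36 (nat_lit 226) (nat_lit 243) (nat_lit 210) (nat_lit 6) (nat_lit 5) (nat_lit 14) (nat_lit 5) (nat_lit 6) (nat_lit 9) (by decide +kernel)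
theorem L77860 : W_36 (nat_lit 3) (nat_lit 0x2000f000700000001000080000000000000000000000000000000) (nat_lit 0x0) (nat_lit 0x8000400040000000000008000400000000000000000000000000000000000) := T_36 (nat_lit 159) (nat_lit 142) (nat_lit 5) (nat_lit 6) (nat_lit 8) L77859 (by decide +kernel)
theorem L77861 : W_36 (nat_lit 4) (nat_lit 0xf000700000001000080000000000000000000000000000000) (nat_lit 0x0) (nat_lit 0x8000400070000000000008000400000000000000000000000000000000000) := T_36 (nat_lit 209) (nat_lit 208) (nat_lit 1) (nat_lit 8) (nat_lit 11) L77860 (by decide +kernel)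
theorem L77862 : W_36 (nat_lit 2) (nat_lit 0x800200012000f000700008001000080000000000000000000000000000000) (nat_lit 0x0) (nat_lit 0x20001000080000000000000000000000000000000000000000000000000000) := D_36 (nat_lit 228) (nat_lit 245) (nat_lit 211) (nat_lit 5) (nat_lit 8) (nat_lit 10) (nat_lit 4) (nat_lit 7) (nat_lit 13) (by decide +kernel)
theorem L77863 : W_36 (nat_lit 3) (nat_lit 0x800200012000f000700000001000080000000000000000000000000000000) (nat_lit 0x0) (nat_lit 0x20001000080000000000008000400000000000000000000000000000000000) := T_36 (nat_lit 159) (nat_lit 142) (nat_lit 5) (nat_lit 6) (nat_lit 8) L77862 (by decide +kernel)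
theorem L77864 : W_36 (nat_lit 4) (nat_lit 0x800000012000f000700000001000080000000000000000000000000000000) (nat_lit 0x0) (nat_lit 0x60003000080000000000008000400000000000000000000000000000000000) := T_36 (nat_lit 229) (nat_lit 246) (nat_lit 4) (nat_lit 8) (nat_lit 14) L77863 (by decide +kernel)
theorem L77865 : W_36 (nat_lit 5) (nat_lit 0x12000f000700000001000080000000000000000000000000000000) (nat_lit 0x0) (nat_lit 0x68003400080000000000008000400000000000000000000000000000000000) := T_36 (nat_lit 243) (nat_lit 226) (nat_lit 6) (nat_lit 5) (nat_lit 14) L77864 (by decide +kernel)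
theorem L77866 : W_36 (nat_lit 6) (nat_lit 0x2000f000700000001000080000000000000000000000000000000) (nat_lit 0x0) (nat_lit 0x68003400380000000000008000400000000000000000000000000000000000) := T_36 (nat_lit 212) (nat_lit 213) (nat_lit 3) (nat_lit 5) (nat_lit 11) L77865 (by decide +kernel)
theorem L77867 : W_36 (nat_lit 7) (nat_lit 0xf000700000001000080000000000000000000000000000000) (nat_lit 0x0) (nat_lit 0x680034003b0000000000008000400000000000000000000000000000000000) := T_36 (nat_lit 209) (nat_lit 208) (nat_lit 1) (nat_lit 8) (nat_lit 11) L77866 (by decide +kernel)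
theorem L77868 : W_36 (nat_lit 9) (nat_lit 0xd000700000001000080000000000000000000000000000000) (nat_lit 0x0) (nat_lit 0xe801fc003f0002000000008000400000000000000000000000000000000000) := Q_36 (nat_lit 193) (C_36 L77844 (C_36 L77851 (C_36 L77858 (C_36 L77861 (C_36 L77867 (C_36 L16327 N_36)))))) (by decide +kernel)
theorem L77869 : W_36 (nat_lit 10) (nat_lit 0x5000700000001000080000000000000000000000000000000) (nat_lit 0x0) (nat_lit 0xe801fc00ff007a000080008000400000000000000000000000000000000000) := Q_36 (nat_lit 195) (C_36 L77815 (C_36 L77842 (C_36 L77868 N_36))) (by decide +kernel)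
theorem L77870 : W_36 (nat_lit 13) (nat_lit 0x5000600000001000080000000000000000000000000000000) (nat_lit 0x0) (nat_lit 0x1c000e800fc01fe00ff007a80018000e000f00138000000000000000000000000000000) := Q_36 (nat_lit 176) (C_36 L77259 (C_36 L77814 (C_36 L77260 (C_36 L77869 N_36)))) (by decide +kernel)
theorem L77871 : W_36 (nat_lit 2) (nat_lit 0x20007000680000001000080000000000000000000000000000000) (nat_lit 0x0) (nat_lit 0x10008000040000000000000000000000000000000000000000000) := D_36 (nat_lit 195) (nat_lit 208) (nat_lit 174) (nat_lit 1) (nat_lit 8) (nat_lit 11) (nat_lit 0) (nat_lit 8) (nat_lit 11) (by decide +kernel)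
theorem L77872 : W_36 (nat_lit 3) (nat_lit 0x20005000680000001000080000000000000000000000000000000) (nat_lit 0x0) (nat_lit 0x1000a800040000000000000000000000000000000000000000000) := T_36 (nat_lit 193) (nat_lit 191) (nat_lit 2) (nat_lit 4) (nat_lit 11) L77871 (by decide +kernel)
theorem L77873 : W_36 (nat_lit 2) (nat_lit 0x34007000680006001400080000000000000000000000000000000) (nat_lit 0x0) (nat_lit 0xa00020000000000000000000000000000000) := D_36 (nat_lit 141) (nat_lit 125) (nat_lit 143) (nat_lit 6) (nat_lit 5) (nat_lit 11) (nat_lit 1) (nat_lit 8) (nat_lit 8) (by decide +kernel)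
theorem L77874 : W_36 (nat_lit 3) (nat_lit 0x34007000680006001000080000000000000000000000000000000) (nat_lit 0x0) (nat_lit 0x8000e00020000000000000000000000000000000) := T_36 (nat_lit 142) (nat_lit 159) (nat_lit 6) (nat_lit 5) (nat_lit 12) L77873 (by decide +kernel)
theorem L77875 : W_36 (nat_lit 4) (nat_lit 0x34007000680004001000080000000000000000000000000000000) (nat_lit 0x0) (nat_lit 0xa000f00020000000000000000000000000000000) := T_36 (nat_lit 157) (nat_lit 140) (nat_lit 4) (nat_lit 5) (nat_lit 12) L77874 (by decide +kernel)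
theorem L77876 : W_36 (nat_lit 5) (nat_lit 0x34007000680000001000080000000000000000000000000000000) (nat_lit 0x0) (nat_lit 0x20000000000000000e000f00020000000000000000000000000000000) := T_36 (nat_lit 158) (nat_lit 225) (nat_lit 5) (nat_lit 5) (nat_lit 9) L77875 (by decide +kernel)
theorem L77877 : W_36 (nat_lit 6) (nat_lit 0x30007000680000001000080000000000000000000000000000000) (nat_lit 0x0) (nat_lit 0x20000c00000000000e000f00020000000000000000000000000000000) := T_36 (nat_lit 206) (nat_lit 207) (nat_lit 2) (nat_lit 2) (nat_lit 12) L77876 (by decide +kernel)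
theorem L77878 : W_36 (nat_lit 7) (nat_lit 0x20007000680000001000080000000000000000000000000000000) (nat_lit 0x0) (nat_lit 0x20001c00800000000e000f00020000000000000000000000000000000) := T_36 (nat_lit 208) (nat_lit 195) (nat_lit 1) (nat_lit 8) (nat_lit 11) L77877 (by decide +kernel)
theorem L77879 : W_36 (nat_lit 8) (nat_lit 0x20005000680000001000080000000000000000000000000000000) (nat_lit 0x0) (nat_lit 0x20001c00a80000000e000f00020000000000000000000000000000000) := T_36 (nat_lit 193) (nat_lit 191) (nat_lit 2) (nat_lit 4) (nat_lit 11) L77878 (by decide +kernel)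
theorem L77880 : W_36 (nat_lit 2) (nat_lit 0x60002000d0006c0004001600088000000000000000000000000000000) (nat_lit 0x0) (nat_lit 0x800110000000000000000000000000000000) := D_36 (nat_lit 143) (nat_lit 128) (nat_lit 124) (nat_lit 2) (nat_lit 5) (nat_lit 8) (nat_lit 0) (nat_lit 8) (nat_lit 8) (by decide +kernel)
theorem L77881 : W_36 (nat_lit 3) (nat_lit 0x60002000d0006c0004001600080000000000000000000000000000000) (nat_lit 0x0) (nat_lit 0x900118000000000000000000000000000000) := T_36 (nat_lit 123) (nat_lit 140) (nat_lit 4) (nat_lit 5) (nat_lit 11) L77880 (by decide +kernel)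
theorem L77882 : W_36 (nat_lit 4) (nat_lit 0x60002000d0006c0004001400080000000000000000000000000000000) (nat_lit 0x0) (nat_lit 0xb00138000000000000000000000000000000) := T_36 (nat_lit 141) (nat_lit 125) (nat_lit 6) (nat_lit 5) (nat_lit 11) L77881 (by decide +kernel)
theorem L77883 : W_36 (nat_lit 5) (nat_lit 0x60002000d0006c0004001000080000000000000000000000000000000) (nat_lit 0x0) (nat_lit 0x8000f00138000000000000000000000000000000) := T_36 (nat_lit 142) (nat_lit 159) (nat_lit 6) (nat_lit 5) (nat_lit 12) L77882 (by decide +kernel)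
theorem L77884 : W_36 (nat_lit 6) (nat_lit 0x60002000d0006c0000001000080000000000000000000000000000000) (nat_lit 0x0) (nat_lit 0x1000000000000c000f00138000000000000000000000000000000) := T_36 (nat_lit 158) (nat_lit 208) (nat_lit 5) (nat_lit 5) (nat_lit 9) L77883 (by decide +kernel)
theorem L77885 : W_36 (nat_lit 7) (nat_lit 0x40002000d0006c0000001000080000000000000000000000000000000) (nat_lit 0x0) (nat_lit 0x400020001000000000000c000f00138000000000000000000000000000000) := T_36 (nat_lit 225) (nat_lit 242) (nat_lit 5) (nat_lit 5) (nat_lit 10) L77884 (by decide +kernel)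
theorem L77886 : W_36 (nat_lit 8) (nat_lit 0x4000200050006c0000001000080000000000000000000000000000000) (nat_lit 0x0) (nat_lit 0x400020001000a00000000c000f00138000000000000000000000000000000) := T_36 (nat_lit 195) (nat_lit 193) (nat_lit 0) (nat_lit 8) (nat_lit 11) L77885 (by decide +kernel)
theorem L77887 : W_36 (nat_lit 9) (nat_lit 0x400020005000680000001000080000000000000000000000000000000) (nat_lit 0x0) (nat_lit 0x400020001000a00004000e000f00138000000000000000000000000000000) := T_36 (nat_lit 174) (nat_lit 157) (nat_lit 4) (nat_lit 5) (nat_lit 13) L77886 (by decide +kernel)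
theorem L77888 : W_36 (nat_lit 2) (nat_lit 0xc00020005000680006001400080000000000000000000000000000000) (nat_lit 0x0) (nat_lit 0xa00020000000000000000000000000000000) := D_36 (nat_lit 141) (nat_lit 125) (nat_lit 143) (nat_lit 6) (nat_lit 5) (nat_lit 11) (nat_lit 1) (nat_lit 8) (nat_lit 8) (by decide +kernel)
theorem L77889 : W_36 (nat_lit 3) (nat_lit 0xc00020005000680006001000080000000000000000000000000000000) (nat_lit 0x0) (nat_lit 0x8000e00020000000000000000000000000000000) := T_36 (nat_lit 142) (nat_lit 159) (nat_lit 6) (nat_lit 5) (nat_lit 12) L77888 (by decide +kernel)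
theorem L77890 : W_36 (nat_lit 4) (nat_lit 0xc00020005000680002001000080000000000000000000000000000000) (nat_lit 0x0) (nat_lit 0xc000f00020000000000000000000000000000000) := T_36 (nat_lit 158) (nat_lit 140) (nat_lit 4) (nat_lit 5) (nat_lit 12) L77889 (by decide +kernel)
theorem L77891 : W_36 (nat_lit 5) (nat_lit 0xc00020005000680000001000080000000000000000000000000000000) (nat_lit 0x0) (nat_lit 0x4000e000f00020000000000000000000000000000000) := T_36 (nat_lit 157) (nat_lit 174) (nat_lit 4) (nat_lit 5) (nat_lit 13) L77890 (by decide +kernel)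
theorem L77892 : W_36 (nat_lit 6) (nat_lit 0x400020005000680000001000080000000000000000000000000000000) (nat_lit 0x0) (nat_lit 0x1000080000000000004000e000f00020000000000000000000000000000000) := T_36 (nat_lit 227) (nat_lit 244) (nat_lit 7) (nat_lit 5) (nat_lit 10) L77891 (by decide +kernel)
theorem L77893 : W_36 (nat_lit 10) (nat_lit 0x20005000680000001000080000000000000000000000000000000) (nat_lit 0x0) (nat_lit 0x28001c000e0001000a00004000e000f00138000000000000000000000000000000) := Q_36 (nat_lit 226) (C_36 L77559 (C_36 L77887 (C_36 L77892 N_36))) (by decide +kernel)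
theorem L77894 : W_36 (nat_lit 2) (nat_lit 0x140004000200070006d0000001000080000000000000000000000000000000) (nat_lit 0x0) (nat_lit 0x280008000000000000000000000000000000000000000000000000000000000000) := D_36 (nat_lit 243) (nat_lit 259) (nat_lit 261) (nat_lit 5) (nat_lit 5) (nat_lit 11) (nat_lit 7) (nat_lit 5) (nat_lit 11) (by decide +kernel)
theorem L77895 : W_36 (nat_lit 3) (nat_lit 0x40004000200070006d0000001000080000000000000000000000000000000) (nat_lit 0x0) (nat_lit 0x280018000800000000000000000000000000000000000000000000000000000000) := T_36 (nat_lit 244) (nat_lit 227) (nat_lit 7) (nat_lit 5) (nat_lit 10) L77894 (by decide +kernel)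
theorem L77896 : W_36 (nat_lit 4) (nat_lit 0x4000200070006d0000001000080000000000000000000000000000000) (nat_lit 0x0) (nat_lit 0x28001c000a00000000000000000000000000000000000000000000000000000000) := T_36 (nat_lit 242) (nat_lit 225) (nat_lit 5) (nat_lit 5) (nat_lit 10) L77895 (by decide +kernel)
theorem L77897 : W_36 (nat_lit 5) (nat_lit 0x200070006d0000001000080000000000000000000000000000000) (nat_lit 0x0) (nat_lit 0x28001c000e00000000000000002000000000000000000000000000000000000000) := T_36 (nat_lit 226) (nat_lit 157) (nat_lit 4) (nat_lit 5) (nat_lit 13) L77896 (by decide +kernel)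
theorem L77898 : W_36 (nat_lit 6) (nat_lit 0x200070006c0000001000080000000000000000000000000000000) (nat_lit 0x0) (nat_lit 0x28001c000e00000000000030002000000000000000000000000000000000000000) := T_36 (nat_lit 172) (nat_lit 173) (nat_lit 3) (nat_lit 2) (nat_lit 10) L77897 (by decide +kernel)
theorem L77899 : W_36 (nat_lit 7) (nat_lit 0x20007000680000001000080000000000000000000000000000000) (nat_lit 0x0) (nat_lit 0x28001c000e00000008000070002000000000000000000000000000000000000000) := T_36 (nat_lit 174) (nat_lit 195) (nat_lit 0) (nat_lit 8) (nat_lit 11) L77898 (by decide +kernel)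
theorem L77900 : W_36 (nat_lit 8) (nat_lit 0x20005000680000001000080000000000000000000000000000000) (nat_lit 0x0) (nat_lit 0x28001c000e0000000a800070002000000000000000000000000000000000000000) := T_36 (nat_lit 193) (nat_lit 191) (nat_lit 2) (nat_lit 4) (nat_lit 11) L77899 (by decide +kernel)
theorem L77901 : W_36 (nat_lit 11) (nat_lit 0x5000680000001000080000000000000000000000000000000) (nat_lit 0x0) (nat_lit 0x28001c000e0003c00a80007000e000f00138000400000000000000000000000000) := Q_36 (nat_lit 209) (C_36 L77774 (C_36 L77729 (C_36 L77872 (C_36 L77879 (C_36 L77893 (C_36 L77900 N_36)))))) (by decide +kernel)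
theorem L77902 : W_36 (nat_lit 2) (nat_lit 0x50007c0008001000080000000000000000000000000000000) (nat_lit 0x0) (nat_lit 0x7000000000000000000000000000000000000000) := D_36 (nat_lit 157) (nat_lit 158) (nat_lit 156) (nat_lit 0) (nat_lit 8) (nat_lit 10) (nat_lit 0) (nat_lit 7) (nat_lit 10) (by decide +kernel)
theorem L77903 : W_36 (nat_lit 2) (nat_lit 0x4000000050007c0009001000080000000000000000000000000000000) (nat_lit 0x0) (nat_lit 0x2000020000800000000000000000000000000000000000000) := D_36 (nat_lit 173) (nat_lit 193) (nat_lit 155) (nat_lit 3) (nat_lit 3) (nat_lit 10) (nat_lit 0) (nat_lit 6) (nat_lit 10) (by decide +kernel)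
theorem L77904 : W_36 (nat_lit 3) (nat_lit 0x4000000050007c0008001000080000000000000000000000000000000) (nat_lit 0x0) (nat_lit 0x2000020003800000000000000000000000000000000000000) := T_36 (nat_lit 156) (nat_lit 157) (nat_lit 0) (nat_lit 7) (nat_lit 10) L77903 (by decide +kernel)
theorem L77905 : W_36 (nat_lit 4) (nat_lit 0x50007c0008001000080000000000000000000000000000000) (nat_lit 0x0) (nat_lit 0x400020002000020003800000000000000000000000000000000000000) := T_36 (nat_lit 226) (nat_lit 209) (nat_lit 6) (nat_lit 5) (nat_lit 13) L77904 (by decide +kernel)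
theorem L77906 : W_36 (nat_lit 2) (nat_lit 0x14000000050007f0008001000080000000000000000000000000000000) (nat_lit 0x0) (nat_lit 0x700000000000000000000000000000000000000000000000) := D_36 (nat_lit 189) (nat_lit 188) (nat_lit 190) (nat_lit 1) (nat_lit 5) (nat_lit 10) (nat_lit 1) (nat_lit 6) (nat_lit 10) (by decide +kernel)
theorem L77907 : W_36 (nat_lit 3) (nat_lit 0x14000000050007e0008001000080000000000000000000000000000000) (nat_lit 0x0) (nat_lit 0x700010004000000000000000000000000000000000000000) := T_36 (nat_lit 172) (nat_lit 158) (nat_lit 2) (nat_lit 2) (nat_lit 10) L77906 (by decide +kernel)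
theorem L77908 : W_36 (nat_lit 4) (nat_lit 0x14000000050007c0008001000080000000000000000000000000000000) (nat_lit 0x0) (nat_lit 0x2700030004000000000000000000000000000000000000000) := T_36 (nat_lit 173) (nat_lit 193) (nat_lit 3) (nat_lit 3) (nat_lit 10) L77907 (by decide +kernel)
theorem L77909 : W_36 (nat_lit 5) (nat_lit 0x10000000050007c0008001000080000000000000000000000000000000) (nat_lit 0x0) (nat_lit 0x400020002700030004000000000000000000000000000000000000000) := T_36 (nat_lit 226) (nat_lit 209) (nat_lit 6) (nat_lit 5) (nat_lit 13) L77908 (by decide +kernel)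
theorem L77910 : W_36 (nat_lit 6) (nat_lit 0x50007c0008001000080000000000000000000000000000000) (nat_lit 0x0) (nat_lit 0x14000a0002700030004000000000000000000000000000000000000000) := T_36 (nat_lit 228) (nat_lit 211) (nat_lit 4) (nat_lit 7) (nat_lit 13) L77909 (by decide +kernel)
theorem L77911 : W_36 (nat_lit 7) (nat_lit 0x5000780008001000080000000000000000000000000000000) (nat_lit 0x0) (nat_lit 0x14000a0002700070007800000000000000000000000000000000000000) := Q_36 (nat_lit 174) (C_36 L77902 (C_36 L77905 (C_36 L77910 N_36))) (by decide +kernel)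
theorem L77912 : W_36 (nat_lit 8) (nat_lit 0x5000780000001000080000000000000000000000000000000) (nat_lit 0x0) (nat_lit 0x14000a000270007000f800400020000000000000000000000000000000) := Q_36 (nat_lit 159) (C_36 L77264 (C_36 L77795 (C_36 L77911 N_36))) (by decide +kernel)
theorem L77913 : W_36 (nat_lit 6) (nat_lit 0x20005000780008001000080000000000000000000000000000000) (nat_lit 0x0) (nat_lit 0x6000300039001a000000000000000000000000000000000000000000000000) := T_36 (nat_lit 195) (nat_lit 196) (nat_lit 3) (nat_lit 5) (nat_lit 10) L14578 (by decide +kernel)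
theorem L77914 : W_36 (nat_lit 7) (nat_lit 0x5000780008001000080000000000000000000000000000000) (nat_lit 0x0) (nat_lit 0x600034003b001a000000000000000000000000000000000000000000000000) := T_36 (nat_lit 209) (nat_lit 226) (nat_lit 6) (nat_lit 5) (nat_lit 13) L77913 (by decide +kernel)
theorem L77915 : W_36 (nat_lit 8) (nat_lit 0x5000780000001000080000000000000000000000000000000) (nat_lit 0x0) (nat_lit 0x600034003b001a00000000c000400020000000000000000000000000000000) := Q_36 (nat_lit 159) (C_36 L77264 (C_36 L77795 (C_36 L77914 N_36))) (by decide +kernel)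
theorem L77916 : W_36 (nat_lit 9) (nat_lit 0x5000680000001000080000000000000000000000000000000) (nat_lit 0x0) (nat_lit 0x600034003b001a70017000f800400020000000000000000000000000000000) := Q_36 (nat_lit 176) (C_36 L77210 (C_36 L77912 (C_36 L77915 N_36))) (by decide +kernel)
theorem L77917 : W_36 (nat_lit 12) (nat_lit 0x5000600000001000080000000000000000000000000000000) (nat_lit 0x0) (nat_lit 0x28007c003e003bc01af001f000f800f00138000400000000000000000000000000) := Q_36 (nat_lit 175) (C_36 L77492 (C_36 L77901 (C_36 L77382 (C_36 L77916 N_36)))) (by decide +kernel)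
theorem L77918 : W_36 (nat_lit 2) (nat_lit 0x1000080005000780000001000080000000000000000000000000000000) (nat_lit 0x0) (nat_lit 0x18000040000000000000000000000000000000000000000000) := D_36 (nat_lit 195) (nat_lit 174) (nat_lit 196) (nat_lit 3) (nat_lit 4) (nat_lit 10) (nat_lit 3) (nat_lit 5) (nat_lit 10) (by decide +kernel)
theorem L77919 : W_36 (nat_lit 3) (nat_lit 0x1000080005000700000001000080000000000000000000000000000000) (nat_lit 0x0) (nat_lit 0x188000c0000000000000000000000000000000000000000000) := T_36 (nat_lit 175) (nat_lit 191) (nat_lit 1) (nat_lit 8) (nat_lit 10) L77918 (by decide +kernel)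
theorem L77920 : W_36 (nat_lit 4) (nat_lit 0x1000080005000600000001000080000000000000000000000000000000) (nat_lit 0x0) (nat_lit 0x188001c0008000000000000000000000000000000000000000) := T_36 (nat_lit 176) (nat_lit 159) (nat_lit 4) (nat_lit 7) (nat_lit 13) L77919 (by decide +kernel)
theorem L77921 : W_36 (nat_lit 5) (nat_lit 0x80005000600000001000080000000000000000000000000000000) (nat_lit 0x0) (nat_lit 0xa000700038000000188001c0008000000000000000000000000000000000000000) := Q_36 (nat_lit 228) (C_36 L76732 (C_36 L76693 (C_36 L76695 (C_36 L77920 N_36)))) (by decide +kernel)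
theorem L77922 : W_36 (nat_lit 2) (nat_lit 0x50001000080005800700000001000080000000000000000000000000000000) (nat_lit 0x0) (nat_lit 0xa00020000000000000000000000000000000000000000000000000000000000000) := D_36 (nat_lit 245) (nat_lit 261) (nat_lit 263) (nat_lit 5) (nat_lit 7) (nat_lit 11) (nat_lit 7) (nat_lit 7) (nat_lit 11) (by decide +kernel)
theorem L77923 : W_36 (nat_lit 3) (nat_lit 0x10001000080005800700000001000080000000000000000000000000000000) (nat_lit 0x0) (nat_lit 0xa00060002000000000000000000000000000000000000000000000000000000000) := T_36 (nat_lit 246) (nat_lit 229) (nat_lit 7) (nat_lit 7) (nat_lit 10) L77922 (by decide +kernel)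
theorem L77924 : W_36 (nat_lit 4) (nat_lit 0x1000080005800700000001000080000000000000000000000000000000) (nat_lit 0x0) (nat_lit 0xa00070002800000000000000000000000000000000000000000000000000000000) := T_36 (nat_lit 244) (nat_lit 227) (nat_lit 5) (nat_lit 7) (nat_lit 10) L77923 (by decide +kernel)
theorem L77925 : W_36 (nat_lit 5) (nat_lit 0x80005800700000001000080000000000000000000000000000000) (nat_lit 0x0) (nat_lit 0xa00070003800000000000000008000000000000000000000000000000000000000) := T_36 (nat_lit 228) (nat_lit 159) (nat_lit 4) (nat_lit 7) (nat_lit 13) L77924 (by decide +kernel)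
theorem L77926 : W_36 (nat_lit 6) (nat_lit 0x80005800600000001000080000000000000000000000000000000) (nat_lit 0x0) (nat_lit 0xa00070003800000000000180008000000000000000000000000000000000000000) := T_36 (nat_lit 176) (nat_lit 175) (nat_lit 1) (nat_lit 8) (nat_lit 10) L77925 (by decide +kernel)
theorem L77927 : W_36 (nat_lit 7) (nat_lit 0x80005000600000001000080000000000000000000000000000000) (nat_lit 0x0) (nat_lit 0xa00070003800000002800180008000000000000000000000000000000000000000) := T_36 (nat_lit 191) (nat_lit 193) (nat_lit 2) (nat_lit 4) (nat_lit 11) L77926 (by decide +kernel)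
theorem L77928 : W_36 (nat_lit 2) (nat_lit 0x80005000780000001000080000000000000000000000000000000) (nat_lit 0x0) (nat_lit 0x18000040000000000000000000000000000000000000000000) := D_36 (nat_lit 195) (nat_lit 174) (nat_lit 196) (nat_lit 3) (nat_lit 4) (nat_lit 10) (nat_lit 3) (nat_lit 5) (nat_lit 10) (by decide +kernel)
theorem L77929 : W_36 (nat_lit 3) (nat_lit 0x80005000680000001000080000000000000000000000000000000) (nat_lit 0x0) (nat_lit 0x18800140000000000000000000000000000000000000000000) := T_36 (nat_lit 176) (nat_lit 191) (nat_lit 1) (nat_lit 8) (nat_lit 10) L77928 (by decide +kernel)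
theorem L77930 : W_36 (nat_lit 2) (nat_lit 0x28001f000680000001000080000000000000000000000000000000) (nat_lit 0x0) (nat_lit 0x40060000000000000000000000000000000000000000000000000) := D_36 (nat_lit 197) (nat_lit 210) (nat_lit 198) (nat_lit 1) (nat_lit 10) (nat_lit 11) (nat_lit 0) (nat_lit 11) (nat_lit 11) (by decide +kernel)
theorem L77931 : W_36 (nat_lit 3) (nat_lit 0x28000f000680000001000080000000000000000000000000000000) (nat_lit 0x0) (nat_lit 0x440070000000000000000000000000000000000000000000000000) := T_36 (nat_lit 196) (nat_lit 214) (nat_lit 3) (nat_lit 6) (nat_lit 11) L77930 (by decide +kernel)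
theorem L77932 : W_36 (nat_lit 4) (nat_lit 0x8000f000680000001000080000000000000000000000000000000) (nat_lit 0x0) (nat_lit 0x740070000000000000000000000000000000000000000000000000) := T_36 (nat_lit 213) (nat_lit 212) (nat_lit 3) (nat_lit 5) (nat_lit 11) L77931 (by decide +kernel)
theorem L77933 : W_36 (nat_lit 5) (nat_lit 0x80007000680000001000080000000000000000000000000000000) (nat_lit 0x0) (nat_lit 0x740078000040000000000000000000000000000000000000000000) := T_36 (nat_lit 195) (nat_lit 174) (nat_lit 0) (nat_lit 8) (nat_lit 11) L77932 (by decide +kernel)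
theorem L77934 : W_36 (nat_lit 6) (nat_lit 0x80005000680000001000080000000000000000000000000000000) (nat_lit 0x0) (nat_lit 0x74007a800040000000000000000000000000000000000000000000) := T_36 (nat_lit 193) (nat_lit 191) (nat_lit 2) (nat_lit 4) (nat_lit 11) L77933 (by decide +kernel)
theorem L77935 : W_36 (nat_lit 2) (nat_lit 0x80005000680000001000080000000000000000000000000000000) (nat_lit 0x0) (nat_lit 0x2800100000000000000000000000000000000000000000000) := D_36 (nat_lit 191) (nat_lit 193) (nat_lit 176) (nat_lit 2) (nat_lit 4) (nat_lit 11) (nat_lit 1) (nat_lit 8) (nat_lit 10) (by decide +kernel)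
theorem L77936 : W_36 (nat_lit 2) (nat_lit 0x80005000780000001400080000000000000000000000000000000) (nat_lit 0x0) (nat_lit 0x2000000008000000020000000000000000000000000000000) := D_36 (nat_lit 159) (nat_lit 125) (nat_lit 193) (nat_lit 7) (nat_lit 6) (nat_lit 7) (nat_lit 7) (nat_lit 6) (nat_lit 8) (by decide +kernel)
theorem L77937 : W_36 (nat_lit 2) (nat_lit 0x80005000780004001600080000000000000000000000000000000) (nat_lit 0x0) (nat_lit 0x40002000000000000000010000000000000000000000000000000) := D_36 (nat_lit 193) (nat_lit 124) (nat_lit 210) (nat_lit 7) (nat_lit 5) (nat_lit 7) (nat_lit 7) (nat_lit 5) (nat_lit 8) (by decide +kernel)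
theorem L77938 : W_36 (nat_lit 3) (nat_lit 0x80005000780004001400080000000000000000000000000000000) (nat_lit 0x0) (nat_lit 0x40002000000000000200030000000000000000000000000000000) := T_36 (nat_lit 141) (nat_lit 125) (nat_lit 6) (nat_lit 5) (nat_lit 11) L77937 (by decide +kernel)
theorem L77939 : W_36 (nat_lit 4) (nat_lit 0x80005000780000001400080000000000000000000000000000000) (nat_lit 0x0) (nat_lit 0x40002000000006000200030000000000000000000000000000000) := T_36 (nat_lit 158) (nat_lit 157) (nat_lit 0) (nat_lit 8) (nat_lit 10) L77938 (by decide +kernel)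
theorem L77940 : W_36 (nat_lit 2) (nat_lit 0x80005000780004001400080000000000000000000000000000000) (nat_lit 0x0) (nat_lit 0x8000200020000000000000000000000000000000) := D_36 (nat_lit 125) (nat_lit 159) (nat_lit 141) (nat_lit 7) (nat_lit 6) (nat_lit 7) (nat_lit 6) (nat_lit 5) (nat_lit 11) (by decide +kernel)
theorem L77941 : W_36 (nat_lit 3) (nat_lit 0x80005000780000001400080000000000000000000000000000000) (nat_lit 0x0) (nat_lit 0xe000200020000000000000000000000000000000) := T_36 (nat_lit 158) (nat_lit 157) (nat_lit 0) (nat_lit 8) (nat_lit 10) L77940 (by decide +kernel)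
theorem L77942 : W_36 (nat_lit 2) (nat_lit 0x80007000780004001400080000000000000000000000000000000) (nat_lit 0x0) (nat_lit 0x40000000000000000200010000000000000000000000000000000) := D_36 (nat_lit 141) (nat_lit 210) (nat_lit 124) (nat_lit 7) (nat_lit 5) (nat_lit 8) (nat_lit 7) (nat_lit 5) (nat_lit 7) (by decide +kernel)
theorem L77943 : W_36 (nat_lit 3) (nat_lit 0x80005000780004001400080000000000000000000000000000000) (nat_lit 0x0) (nat_lit 0x40002000000008000200010000000000000000000000000000000) := T_36 (nat_lit 193) (nat_lit 159) (nat_lit 7) (nat_lit 6) (nat_lit 8) L77942 (by decide +kernel)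
theorem L77944 : W_36 (nat_lit 4) (nat_lit 0x80005000780000001400080000000000000000000000000000000) (nat_lit 0x0) (nat_lit 0x4000200000000e000200010000000000000000000000000000000) := T_36 (nat_lit 158) (nat_lit 157) (nat_lit 0) (nat_lit 8) (nat_lit 10) L77943 (by decide +kernel)
theorem L77945 : W_36 (nat_lit 5) (nat_lit 0x80005000780000001000080000000000000000000000000000000) (nat_lit 0x0) (nat_lit 0x4000200000000e000600030000000000000000000000000000000) := Q_36 (nat_lit 142) (C_36 L77936 (C_36 L77939 (C_36 L77941 (C_36 L77944 N_36)))) (by decide +kernel)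
theorem L77946 : W_36 (nat_lit 6) (nat_lit 0x80005000680000001000080000000000000000000000000000000) (nat_lit 0x0) (nat_lit 0x4001a00014000e000600030000000000000000000000000000000) := Q_36 (nat_lit 176) (C_36 L77928 (C_36 L77945 N_36)) (by decide +kernel)
theorem L77947 : W_36 (nat_lit 7) (nat_lit 0x80005000600000001000080000000000000000000000000000000) (nat_lit 0x0) (nat_lit 0x74007a8001c000e000600030000000000000000000000000000000) := Q_36 (nat_lit 175) (C_36 L77929 (C_36 L77934 (C_36 L77935 (C_36 L77946 N_36)))) (by decide +kernel)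
theorem L77948 : W_36 (nat_lit 2) (nat_lit 0x8007c001c0005000700000001000080000000000000000000000000000000) (nat_lit 0x0) (nat_lit 0x180000000000008000000000000000000000000000000000000000000000000) := D_36 (nat_lit 247) (nat_lit 195) (nat_lit 248) (nat_lit 7) (nat_lit 8) (nat_lit 10) (nat_lit 3) (nat_lit 6) (nat_lit 13) (by decide +kernel)
theorem L77949 : W_36 (nat_lit 3) (nat_lit 0x8003c001c0005000700000001000080000000000000000000000000000000) (nat_lit 0x0) (nat_lit 0x18000c000000008000000000000000000000000000000000000000000000000) := T_36 (nat_lit 230) (nat_lit 231) (nat_lit 0) (nat_lit 10) (nat_lit 13) L77948 (by decide +kernel)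
theorem L77950 : W_36 (nat_lit 4) (nat_lit 0x8003c00180005000700000001000080000000000000000000000000000000) (nat_lit 0x0) (nat_lit 0x18000c00004000a000000000000000000000000000000000000000000000000) := T_36 (nat_lit 210) (nat_lit 193) (nat_lit 5) (nat_lit 6) (nat_lit 10) L77949 (by decide +kernel)
theorem L77951 : W_36 (nat_lit 5) (nat_lit 0x3c00180005000700000001000080000000000000000000000000000000) (nat_lit 0x0) (nat_lit 0x18c00c00004000a000000000000000000000000000000000000000000000000) := T_36 (nat_lit 243) (nat_lit 242) (nat_lit 1) (nat_lit 8) (nat_lit 13) L77950 (by decide +kernel)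
theorem L77952 : W_36 (nat_lit 6) (nat_lit 0x3800180005000700000001000080000000000000000000000000000000) (nat_lit 0x0) (nat_lit 0x18c00c60004000a000000000000000000000000000000000000000000000000) := T_36 (nat_lit 226) (nat_lit 225) (nat_lit 2) (nat_lit 4) (nat_lit 13) L77951 (by decide +kernel)
theorem L77953 : W_36 (nat_lit 7) (nat_lit 0x3000180005000700000001000080000000000000000000000000000000) (nat_lit 0x0) (nat_lit 0x19c00ce0004000a000000000000000000000000000000000000000000000000) := T_36 (nat_lit 227) (nat_lit 244) (nat_lit 5) (nat_lit 7) (nat_lit 10) L77952 (by decide +kernel)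
theorem L77954 : W_36 (nat_lit 8) (nat_lit 0x1000180005000700000001000080000000000000000000000000000000) (nat_lit 0x0) (nat_lit 0x1dc00ee0004000a000000000000000000000000000000000000000000000000) := T_36 (nat_lit 229) (nat_lit 246) (nat_lit 7) (nat_lit 7) (nat_lit 10) L77953 (by decide +kernel)
theorem L77955 : W_36 (nat_lit 9) (nat_lit 0x1000180005000600000001000080000000000000000000000000000000) (nat_lit 0x0) (nat_lit 0x1dc00ee0004000a000100008000000000000000000000000000000000000000) := T_36 (nat_lit 176) (nat_lit 159) (nat_lit 4) (nat_lit 7) (nat_lit 13) L77954 (by decide +kernel)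
theorem L77956 : W_36 (nat_lit 10) (nat_lit 0x1000080005000600000001000080000000000000000000000000000000) (nat_lit 0x0) (nat_lit 0x1dc01ee00f4007a000100008000000000000000000000000000000000000000) := Q_36 (nat_lit 212) (C_36 L77052 (C_36 L76986 (C_36 L77955 (C_36 L76744 N_36)))) (by decide +kernel)
theorem L77957 : W_36 (nat_lit 11) (nat_lit 0x80005000600000001000080000000000000000000000000000000) (nat_lit 0x0) (nat_lit 0xa001fc01fe00f4007a000100008000000000000000000000000000000000000000) := Q_36 (nat_lit 228) (C_36 L76732 (C_36 L76693 (C_36 L76695 (C_36 L77956 N_36)))) (by decide +kernel)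
theorem L77958 : W_36 (nat_lit 12) (nat_lit 0x5000600000001000080000000000000000000000000000000) (nat_lit 0x0) (nat_lit 0x14000e003fe01fe00fd807a8001c000e000600030000000000000000000000000000000) := Q_36 (nat_lit 211) (C_36 L77338 (C_36 L77921 (C_36 L77029 (C_36 L77927 (C_36 L77947 (C_36 L77957 N_36)))))) (by decide +kernel)
theorem L77959 : W_36 (nat_lit 2) (nat_lit 0x1d000600000001000080000000000000000000000000000000) (nat_lit 0x0) (nat_lit 0x60000100000000000000000000000000000000000000000000) := D_36 (nat_lit 197) (nat_lit 176) (nat_lit 198) (nat_lit 0) (nat_lit 10) (nat_lit 11) (nat_lit 0) (nat_lit 11) (nat_lit 11) (by decide +kernel)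
theorem L77960 : W_36 (nat_lit 2) (nat_lit 0x2000400068003d000600000001000080000000000000000000000000000000) (nat_lit 0x0) (nat_lit 0x3000080000000000000000000000000000000000000000) := D_36 (nat_lit 180) (nat_lit 181) (nat_lit 163) (nat_lit 2) (nat_lit 7) (nat_lit 11) (nat_lit 5) (nat_lit 10) (nat_lit 9) (by decide +kernel)
theorem L77961 : W_36 (nat_lit 3) (nat_lit 0x2000000068003d000600000001000080000000000000000000000000000000) (nat_lit 0x0) (nat_lit 0x80004000000000003000080000000000000000000000000000000000000000) := T_36 (nat_lit 230) (nat_lit 247) (nat_lit 4) (nat_lit 9) (nat_lit 14) L77960 (by decide +kernel)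
theorem L77962 : W_36 (nat_lit 4) (nat_lit 0x68003d000600000001000080000000000000000000000000000000) (nat_lit 0x0) (nat_lit 0xa0005000000000003000080000000000000000000000000000000000000000) := T_36 (nat_lit 245) (nat_lit 228) (nat_lit 6) (nat_lit 7) (nat_lit 14) L77961 (by decide +kernel)
theorem L77963 : W_36 (nat_lit 5) (nat_lit 0x48003d000600000001000080000000000000000000000000000000) (nat_lit 0x0) (nat_lit 0xa0005000200002003000080000000000000000000000000000000000000000) := T_36 (nat_lit 213) (nat_lit 193) (nat_lit 3) (nat_lit 6) (nat_lit 11) L77962 (by decide +kernel)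
theorem L77964 : W_36 (nat_lit 6) (nat_lit 0x8003d000600000001000080000000000000000000000000000000) (nat_lit 0x0) (nat_lit 0xa0005000e00002003000080000000000000000000000000000000000000000) := T_36 (nat_lit 214) (nat_lit 215) (nat_lit 3) (nat_lit 7) (nat_lit 11) L77963 (by decide +kernel)
theorem L77965 : W_36 (nat_lit 7) (nat_lit 0x3d000600000001000080000000000000000000000000000000) (nat_lit 0x0) (nat_lit 0xa0005000ec0002003000080000000000000000000000000000000000000000) := T_36 (nat_lit 211) (nat_lit 210) (nat_lit 1) (nat_lit 10) (nat_lit 11) L77964 (by decide +kernel)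
theorem L77966 : W_36 (nat_lit 8) (nat_lit 0x1d000600000001000080000000000000000000000000000000) (nat_lit 0x0) (nat_lit 0xa0005000ec0062003000080000000000000000000000000000000000000000) := T_36 (nat_lit 197) (nat_lit 198) (nat_lit 0) (nat_lit 11) (nat_lit 11) L77965 (by decide +kernel)
theorem L77967 : W_36 (nat_lit 2) (nat_lit 0x1f000600000001000080000000000000000000000000000000) (nat_lit 0x0) (nat_lit 0x70000000000000000000000000000000000000000000000000000) := D_36 (nat_lit 209) (nat_lit 208) (nat_lit 210) (nat_lit 1) (nat_lit 8) (nat_lit 11) (nat_lit 1) (nat_lit 9) (nat_lit 11) (by decide +kernel)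
theorem L77968 : W_36 (nat_lit 2) (nat_lit 0x1f000600000001000080000000000000000000000000000000) (nat_lit 0x0) (nat_lit 0x700000000000000000000000000000000000000000000000000000) := D_36 (nat_lit 213) (nat_lit 214) (nat_lit 212) (nat_lit 3) (nat_lit 6) (nat_lit 11) (nat_lit 3) (nat_lit 5) (nat_lit 11) (by decide +kernel)
theorem L77969 : W_36 (nat_lit 3) (nat_lit 0x1d000600000001000080000000000000000000000000000000) (nat_lit 0x0) (nat_lit 0x770002000000000000000000000000000000000000000000000000) := Q_36 (nat_lit 193) (C_36 L77967 (C_36 L77968 N_36)) (by decide +kernel)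
theorem L77970 : W_36 (nat_lit 9) (nat_lit 0xd000600000001000080000000000000000000000000000000) (nat_lit 0x0) (nat_lit 0xa0005000ff0072003100080000000000000000000000000000000000000000) := Q_36 (nat_lit 196) (C_36 L77959 (C_36 L77966 (C_36 L77969 N_36))) (by decide +kernel)
theorem L77971 : W_36 (nat_lit 2) (nat_lit 0xd000680004001000080000000000000000000000000000000) (nat_lit 0x0) (nat_lit 0x140002000000000000000000000000000000000000000) := D_36 (nat_lit 176) (nat_lit 174) (nat_lit 157) (nat_lit 3) (nat_lit 4) (nat_lit 10) (nat_lit 0) (nat_lit 8) (nat_lit 10) (by decide +kernel)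
theorem L77972 : W_36 (nat_lit 2) (nat_lit 0x6000d000680006001000080000000000000000000000000000000) (nat_lit 0x0) (nat_lit 0x200090000000000000000000000000000000000000000000000000000) := D_36 (nat_lit 208) (nat_lit 211) (nat_lit 225) (nat_lit 2) (nat_lit 4) (nat_lit 12) (nat_lit 5) (nat_lit 5) (nat_lit 9) (by decide +kernel)
theorem L77973 : W_36 (nat_lit 3) (nat_lit 0x2000d000680006001000080000000000000000000000000000000) (nat_lit 0x0) (nat_lit 0xa000d0000000000000000000000000000000000000000000000000000) := T_36 (nat_lit 210) (nat_lit 227) (nat_lit 7) (nat_lit 5) (nat_lit 9) L77972 (by decide +kernel)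
theorem L77974 : W_36 (nat_lit 4) (nat_lit 0x2000d000680004001000080000000000000000000000000000000) (nat_lit 0x0) (nat_lit 0xa000d0000000000002000100000000000000000000000000000000000) := T_36 (nat_lit 157) (nat_lit 140) (nat_lit 4) (nat_lit 5) (nat_lit 12) L77973 (by decide +kernel)
theorem L77975 : W_36 (nat_lit 2) (nat_lit 0x40006000d000680006001000080000000000000000000000000000000) (nat_lit 0x0) (nat_lit 0x4000200010000000000000000000000000000000000000000000000000000) := D_36 (nat_lit 225) (nat_lit 208) (nat_lit 242) (nat_lit 5) (nat_lit 5) (nat_lit 9) (nat_lit 5) (nat_lit 5) (nat_lit 10) (by decide +kernel)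
theorem L77976 : W_36 (nat_lit 3) (nat_lit 0x6000d000680006001000080000000000000000000000000000000) (nat_lit 0x0) (nat_lit 0x4000600010000000040000000000000000000000000000000000000000000) := T_36 (nat_lit 226) (nat_lit 174) (nat_lit 4) (nat_lit 5) (nat_lit 13) L77975 (by decide +kernel)
theorem L77977 : W_36 (nat_lit 4) (nat_lit 0x2000d000680006001000080000000000000000000000000000000) (nat_lit 0x0) (nat_lit 0x4000e00050000000040000000000000000000000000000000000000000000) := T_36 (nat_lit 210) (nat_lit 227) (nat_lit 7) (nat_lit 5) (nat_lit 9) L77976 (by decide +kernel)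
theorem L77978 : W_36 (nat_lit 5) (nat_lit 0x2000d000680004001000080000000000000000000000000000000) (nat_lit 0x0) (nat_lit 0x4000e00050000000040002000100000000000000000000000000000000000) := T_36 (nat_lit 157) (nat_lit 140) (nat_lit 4) (nat_lit 5) (nat_lit 12) L77977 (by decide +kernel)
theorem L77979 : W_36 (nat_lit 2) (nat_lit 0x20002000d00068000e001000080000000000000000000000000000000) (nat_lit 0x0) (nat_lit 0x4000400000000000040000000000000000000000000000000000000000000) := D_36 (nat_lit 226) (nat_lit 174) (nat_lit 242) (nat_lit 4) (nat_lit 5) (nat_lit 13) (nat_lit 5) (nat_lit 5) (nat_lit 10) (by decide +kernel)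
theorem L77980 : W_36 (nat_lit 3) (nat_lit 0x2000d00068000e001000080000000000000000000000000000000) (nat_lit 0x0) (nat_lit 0x4000600010000000040000000000000000000000000000000000000000000) := T_36 (nat_lit 225) (nat_lit 208) (nat_lit 5) (nat_lit 5) (nat_lit 9) L77979 (by decide +kernel)
theorem L77981 : W_36 (nat_lit 4) (nat_lit 0x2000d00068000c001000080000000000000000000000000000000) (nat_lit 0x0) (nat_lit 0x4000600010000000040002000100000000000000000000000000000000000) := T_36 (nat_lit 157) (nat_lit 140) (nat_lit 4) (nat_lit 5) (nat_lit 12) L77980 (by decide +kernel)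
theorem L77982 : W_36 (nat_lit 5) (nat_lit 0x2000d000680004001000080000000000000000000000000000000) (nat_lit 0x0) (nat_lit 0x400060001000000004000a000500000000000000000000000000000000000) := T_36 (nat_lit 159) (nat_lit 142) (nat_lit 6) (nat_lit 5) (nat_lit 12) L77981 (by decide +kernel)
theorem L77983 : W_36 (nat_lit 2) (nat_lit 0x6000d000680004001000080000000000000000000000000000000) (nat_lit 0x0) (nat_lit 0x200090000000000000000000000000000000000000000000000000000) := D_36 (nat_lit 208) (nat_lit 211) (nat_lit 225) (nat_lit 2) (nat_lit 4) (nat_lit 12) (nat_lit 5) (nat_lit 5) (nat_lit 9) (by decide +kernel)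
theorem L77984 : W_36 (nat_lit 3) (nat_lit 0x2000d000680004001000080000000000000000000000000000000) (nat_lit 0x0) (nat_lit 0xa000d0000000000000000000000000000000000000000000000000000) := T_36 (nat_lit 210) (nat_lit 227) (nat_lit 7) (nat_lit 5) (nat_lit 9) L77983 (by decide +kernel)
theorem L77985 : W_36 (nat_lit 2) (nat_lit 0x80002000d00068000e001000080000000000000000000000000000000) (nat_lit 0x0) (nat_lit 0x10000400000000000040000000000000000000000000000000000000000000) := D_36 (nat_lit 226) (nat_lit 244) (nat_lit 174) (nat_lit 7) (nat_lit 5) (nat_lit 10) (nat_lit 4) (nat_lit 5) (nat_lit 13) (by decide +kernel)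
theorem L77986 : W_36 (nat_lit 3) (nat_lit 0x80002000d00068000c001000080000000000000000000000000000000) (nat_lit 0x0) (nat_lit 0x10000400000000000040002000100000000000000000000000000000000000) := T_36 (nat_lit 157) (nat_lit 140) (nat_lit 4) (nat_lit 5) (nat_lit 12) L77985 (by decide +kernel)
theorem L77987 : W_36 (nat_lit 4) (nat_lit 0x2000d00068000c001000080000000000000000000000000000000) (nat_lit 0x0) (nat_lit 0x10000c00040000000040002000100000000000000000000000000000000000) := T_36 (nat_lit 227) (nat_lit 210) (nat_lit 7) (nat_lit 5) (nat_lit 9) L77986 (by decide +kernel)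
theorem L77988 : W_36 (nat_lit 5) (nat_lit 0x2000d000680004001000080000000000000000000000000000000) (nat_lit 0x0) (nat_lit 0x10000c0004000000004000a000500000000000000000000000000000000000) := T_36 (nat_lit 159) (nat_lit 142) (nat_lit 6) (nat_lit 5) (nat_lit 12) L77987 (by decide +kernel)
theorem L77989 : W_36 (nat_lit 6) (nat_lit 0xd000680004001000080000000000000000000000000000000) (nat_lit 0x0) (nat_lit 0x14000e000f000000004000a000500000000000000000000000000000000000) := Q_36 (nat_lit 209) (C_36 L77974 (C_36 L77978 (C_36 L77982 (C_36 L77984 (C_36 L77988 N_36))))) (by decide +kernel)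
theorem L77990 : W_36 (nat_lit 4) (nat_lit 0xd000680006001000080000000000000000000000000000000) (nat_lit 0x0) (nat_lit 0xa000f0000000000000000100000000000000000000000000000000000) := T_36 (nat_lit 209) (nat_lit 140) (nat_lit 4) (nat_lit 5) (nat_lit 12) L77973 (by decide +kernel)
theorem L77991 : W_36 (nat_lit 5) (nat_lit 0xd000680004001000080000000000000000000000000000000) (nat_lit 0x0) (nat_lit 0xa000f0000000100002000100000000000000000000000000000000000) := T_36 (nat_lit 157) (nat_lit 176) (nat_lit 0) (nat_lit 8) (nat_lit 10) L77990 (by decide +kernel)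
theorem L77992 : W_36 (nat_lit 2) (nat_lit 0x7000d0006c0004001600088000000000000000000000000000000) (nat_lit 0x0) (nat_lit 0x800110000000000000000000000000000000) := D_36 (nat_lit 143) (nat_lit 128) (nat_lit 124) (nat_lit 2) (nat_lit 5) (nat_lit 8) (nat_lit 0) (nat_lit 8) (nat_lit 8) (by decide +kernel)
theorem L77993 : W_36 (nat_lit 3) (nat_lit 0x7000d0006c0004001600080000000000000000000000000000000) (nat_lit 0x0) (nat_lit 0x900118000000000000000000000000000000) := T_36 (nat_lit 123) (nat_lit 140) (nat_lit 4) (nat_lit 5) (nat_lit 11) L77992 (by decide +kernel)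
theorem L77994 : W_36 (nat_lit 4) (nat_lit 0x7000d0006c0004001400080000000000000000000000000000000) (nat_lit 0x0) (nat_lit 0xb00138000000000000000000000000000000) := T_36 (nat_lit 141) (nat_lit 125) (nat_lit 6) (nat_lit 5) (nat_lit 11) L77993 (by decide +kernel)
theorem L77995 : W_36 (nat_lit 5) (nat_lit 0x6000d0006c0004001400080000000000000000000000000000000) (nat_lit 0x0) (nat_lit 0x200010000000000000000b00138000000000000000000000000000000) := T_36 (nat_lit 208) (nat_lit 225) (nat_lit 5) (nat_lit 5) (nat_lit 9) L77994 (by decide +kernel)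
theorem L77996 : W_36 (nat_lit 6) (nat_lit 0x6000d0006c0004001000080000000000000000000000000000000) (nat_lit 0x0) (nat_lit 0x200010000000000008000f00138000000000000000000000000000000) := T_36 (nat_lit 142) (nat_lit 159) (nat_lit 6) (nat_lit 5) (nat_lit 12) L77995 (by decide +kernel)
theorem L77997 : W_36 (nat_lit 7) (nat_lit 0x2000d0006c0004001000080000000000000000000000000000000) (nat_lit 0x0) (nat_lit 0xa00050000000000008000f00138000000000000000000000000000000) := T_36 (nat_lit 210) (nat_lit 227) (nat_lit 7) (nat_lit 5) (nat_lit 9) L77996 (by decide +kernel)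
theorem L77998 : W_36 (nat_lit 8) (nat_lit 0x2000d000680004001000080000000000000000000000000000000) (nat_lit 0x0) (nat_lit 0xa00050000000140008000f00138000000000000000000000000000000) := T_36 (nat_lit 174) (nat_lit 176) (nat_lit 3) (nat_lit 4) (nat_lit 10) L77997 (by decide +kernel)
theorem L77999 : W_36 (nat_lit 2) (nat_lit 0x3000d0006c0004001600088000000000000000000000000000000) (nat_lit 0x0) (nat_lit 0x800110000000000000000000000000000000) := D_36 (nat_lit 143) (nat_lit 128) (nat_lit 124) (nat_lit 2) (nat_lit 5) (nat_lit 8) (nat_lit 0) (nat_lit 8) (nat_lit 8) (by decide +kernel)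
theorem L78000 : W_36 (nat_lit 3) (nat_lit 0x3000d0006c0004001600080000000000000000000000000000000) (nat_lit 0x0) (nat_lit 0x900118000000000000000000000000000000) := T_36 (nat_lit 123) (nat_lit 140) (nat_lit 4) (nat_lit 5) (nat_lit 11) L77999 (by decide +kernel)
theorem L78001 : W_36 (nat_lit 4) (nat_lit 0x3000d0006c0004001400080000000000000000000000000000000) (nat_lit 0x0) (nat_lit 0xb00138000000000000000000000000000000) := T_36 (nat_lit 141) (nat_lit 125) (nat_lit 6) (nat_lit 5) (nat_lit 11) L78000 (by decide +kernel)
theorem L78002 : W_36 (nat_lit 5) (nat_lit 0x3000d0006c0004001000080000000000000000000000000000000) (nat_lit 0x0) (nat_lit 0x8000f00138000000000000000000000000000000) := T_36 (nat_lit 142) (nat_lit 159) (nat_lit 6) (nat_lit 5) (nat_lit 12) L78001 (by decide +kernel)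
theorem L78003 : W_36 (nat_lit 6) (nat_lit 0x3000d000680004001000080000000000000000000000000000000) (nat_lit 0x0) (nat_lit 0x140008000f00138000000000000000000000000000000) := T_36 (nat_lit 174) (nat_lit 176) (nat_lit 3) (nat_lit 4) (nat_lit 10) L78002 (by decide +kernel)
theorem L78004 : W_36 (nat_lit 7) (nat_lit 0x2000d000680004001000080000000000000000000000000000000) (nat_lit 0x0) (nat_lit 0x200010000000140008000f00138000000000000000000000000000000) := T_36 (nat_lit 208) (nat_lit 225) (nat_lit 5) (nat_lit 5) (nat_lit 9) L78003 (by decide +kernel)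
theorem L78005 : W_36 (nat_lit 2) (nat_lit 0x2000d00068000c001000080000000000000000000000000000000) (nat_lit 0x0) (nat_lit 0x400000000000140000000000000000000000000000000000000000000) := D_36 (nat_lit 176) (nat_lit 174) (nat_lit 226) (nat_lit 3) (nat_lit 4) (nat_lit 10) (nat_lit 6) (nat_lit 5) (nat_lit 13) (by decide +kernel)
theorem L78006 : W_36 (nat_lit 3) (nat_lit 0x2000d000680004001000080000000000000000000000000000000) (nat_lit 0x0) (nat_lit 0x400000000000140008000400000000000000000000000000000000000) := T_36 (nat_lit 159) (nat_lit 142) (nat_lit 6) (nat_lit 5) (nat_lit 12) L78005 (by decide +kernel)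
theorem L78007 : W_36 (nat_lit 9) (nat_lit 0xd000680004001000080000000000000000000000000000000) (nat_lit 0x0) (nat_lit 0xe000f0000000140008000f00138000000000000000000000000000000) := Q_36 (nat_lit 209) (C_36 L77984 (C_36 L77998 (C_36 L78004 (C_36 L78006 N_36)))) (by decide +kernel)
theorem L78008 : W_36 (nat_lit 10) (nat_lit 0xd000680000001000080000000000000000000000000000000) (nat_lit 0x0) (nat_lit 0x14000e000f000000014000e000f00138000000000000000000000000000000) := Q_36 (nat_lit 158) (C_36 L77971 (C_36 L77989 (C_36 L77991 (C_36 L78007 N_36)))) (by decide +kernel)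
theorem L78009 : W_36 (nat_lit 2) (nat_lit 0xe000d000680000001000080000000000000000000000000000000) (nat_lit 0x0) (nat_lit 0x100030000000000000000000000000000000000000000000000000) := D_36 (nat_lit 196) (nat_lit 197) (nat_lit 212) (nat_lit 1) (nat_lit 10) (nat_lit 11) (nat_lit 2) (nat_lit 5) (nat_lit 12) (by decide +kernel)
theorem L78010 : W_36 (nat_lit 3) (nat_lit 0xa000d000680000001000080000000000000000000000000000000) (nat_lit 0x0) (nat_lit 0x150030000000000000000000000000000000000000000000000000) := T_36 (nat_lit 210) (nat_lit 208) (nat_lit 2) (nat_lit 4) (nat_lit 12) L78009 (by decide +kernel)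
theorem L78011 : W_36 (nat_lit 2) (nat_lit 0x30000b000d000680000001000080000000000000000000000000000000) (nat_lit 0x0) (nat_lit 0x10000c00000000000000000000000000000000000000000000000000000000) := D_36 (nat_lit 227) (nat_lit 226) (nat_lit 244) (nat_lit 0) (nat_lit 8) (nat_lit 13) (nat_lit 5) (nat_lit 7) (nat_lit 10) (by decide +kernel)
theorem L78012 : W_36 (nat_lit 3) (nat_lit 0x10000b000d000680000001000080000000000000000000000000000000) (nat_lit 0x0) (nat_lit 0x50002c00000000000000000000000000000000000000000000000000000000) := T_36 (nat_lit 229) (nat_lit 246) (nat_lit 7) (nat_lit 7) (nat_lit 10) L78011 (by decide +kernel)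
theorem L78013 : W_36 (nat_lit 4) (nat_lit 0x10000a000d000680000001000080000000000000000000000000000000) (nat_lit 0x0) (nat_lit 0x50002c00050000000000000000000000000000000000000000000000000000) := T_36 (nat_lit 208) (nat_lit 210) (nat_lit 2) (nat_lit 4) (nat_lit 12) L78012 (by decide +kernel)
theorem L78014 : W_36 (nat_lit 5) (nat_lit 0xa000d000680000001000080000000000000000000000000000000) (nat_lit 0x0) (nat_lit 0x70003c00050000000000000000000000000000000000000000000000000000) := T_36 (nat_lit 228) (nat_lit 245) (nat_lit 6) (nat_lit 7) (nat_lit 14) L78013 (by decide +kernel)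
theorem L78015 : W_36 (nat_lit 7) (nat_lit 0x2000d000680000001000080000000000000000000000000000000) (nat_lit 0x0) (nat_lit 0x1fc007e001d0030000000000000000000000000000000000000000000000000) := Q_36 (nat_lit 211) (C_36 L78010 (C_36 L78014 (C_36 L8862 (C_36 L8876 N_36)))) (by decide +kernel)
theorem L78016 : W_36 (nat_lit 2) (nat_lit 0x6000d000680006001400080000000000000000000000000000000) (nat_lit 0x0) (nat_lit 0xa00020000000000000000000000000000000) := D_36 (nat_lit 141) (nat_lit 125) (nat_lit 143) (nat_lit 6) (nat_lit 5) (nat_lit 11) (nat_lit 1) (nat_lit 8) (nat_lit 8) (by decide +kernel)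
theorem L78017 : W_36 (nat_lit 3) (nat_lit 0x6000d000680006001000080000000000000000000000000000000) (nat_lit 0x0) (nat_lit 0x8000e00020000000000000000000000000000000) := T_36 (nat_lit 142) (nat_lit 159) (nat_lit 6) (nat_lit 5) (nat_lit 12) L78016 (by decide +kernel)
theorem L78018 : W_36 (nat_lit 4) (nat_lit 0x2000d000680006001000080000000000000000000000000000000) (nat_lit 0x0) (nat_lit 0x800040000000000008000e00020000000000000000000000000000000) := T_36 (nat_lit 210) (nat_lit 227) (nat_lit 7) (nat_lit 5) (nat_lit 9) L78017 (by decide +kernel)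
theorem L78019 : W_36 (nat_lit 5) (nat_lit 0x2000d000680004001000080000000000000000000000000000000) (nat_lit 0x0) (nat_lit 0x80004000000000000a000f00020000000000000000000000000000000) := T_36 (nat_lit 157) (nat_lit 140) (nat_lit 4) (nat_lit 5) (nat_lit 12) L78018 (by decide +kernel)
theorem L78020 : W_36 (nat_lit 2) (nat_lit 0x3000d000680006001400080000000000000000000000000000000) (nat_lit 0x0) (nat_lit 0xa00020000000000000000000000000000000) := D_36 (nat_lit 141) (nat_lit 125) (nat_lit 143) (nat_lit 6) (nat_lit 5) (nat_lit 11) (nat_lit 1) (nat_lit 8) (nat_lit 8) (by decide +kernel)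
theorem L78021 : W_36 (nat_lit 3) (nat_lit 0x3000d000680006001000080000000000000000000000000000000) (nat_lit 0x0) (nat_lit 0x8000e00020000000000000000000000000000000) := T_36 (nat_lit 142) (nat_lit 159) (nat_lit 6) (nat_lit 5) (nat_lit 12) L78020 (by decide +kernel)
theorem L78022 : W_36 (nat_lit 4) (nat_lit 0x3000d000680004001000080000000000000000000000000000000) (nat_lit 0x0) (nat_lit 0xa000f00020000000000000000000000000000000) := T_36 (nat_lit 157) (nat_lit 140) (nat_lit 4) (nat_lit 5) (nat_lit 12) L78021 (by decide +kernel)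
theorem L78023 : W_36 (nat_lit 5) (nat_lit 0x2000d000680004001000080000000000000000000000000000000) (nat_lit 0x0) (nat_lit 0x20001000000000000a000f00020000000000000000000000000000000) := T_36 (nat_lit 208) (nat_lit 225) (nat_lit 5) (nat_lit 5) (nat_lit 9) L78022 (by decide +kernel)
theorem L78024 : W_36 (nat_lit 6) (nat_lit 0x2000d000680000001000080000000000000000000000000000000) (nat_lit 0x0) (nat_lit 0xa000d000000000000e000f00020000000000000000000000000000000) := Q_36 (nat_lit 158) (C_36 L77984 (C_36 L78019 (C_36 L78023 N_36))) (by decide +kernel)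
theorem L78025 : W_36 (nat_lit 8) (nat_lit 0x40002000d000680000001000080000000000000000000000000000000) (nat_lit 0x0) (nat_lit 0x400020001000000004000e000f00138000000000000000000000000000000) := T_36 (nat_lit 174) (nat_lit 157) (nat_lit 4) (nat_lit 5) (nat_lit 13) L77885 (by decide +kernel)
theorem L78026 : W_36 (nat_lit 2) (nat_lit 0x60002000d000680004001000080000000000000000000000000000000) (nat_lit 0x0) (nat_lit 0x40002000100000000000000000000000000000000000) := D_36 (nat_lit 157) (nat_lit 140) (nat_lit 174) (nat_lit 4) (nat_lit 5) (nat_lit 12) (nat_lit 4) (nat_lit 5) (nat_lit 13) (by decide +kernel)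
theorem L78027 : W_36 (nat_lit 3) (nat_lit 0x60002000d000680000001000080000000000000000000000000000000) (nat_lit 0x0) (nat_lit 0x10000000040006000100000000000000000000000000000000000) := T_36 (nat_lit 158) (nat_lit 208) (nat_lit 5) (nat_lit 5) (nat_lit 9) L78026 (by decide +kernel)
theorem L78028 : W_36 (nat_lit 4) (nat_lit 0x40002000d000680000001000080000000000000000000000000000000) (nat_lit 0x0) (nat_lit 0x4000200010000000040006000100000000000000000000000000000000000) := T_36 (nat_lit 225) (nat_lit 242) (nat_lit 5) (nat_lit 5) (nat_lit 10) L78027 (by decide +kernel)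
theorem L78029 : W_36 (nat_lit 2) (nat_lit 0x1400040002000d000680000001000080000000000000000000000000000000) (nat_lit 0x0) (nat_lit 0x280008000000000000000000000000000000000000000000000000000000000000) := D_36 (nat_lit 243) (nat_lit 261) (nat_lit 259) (nat_lit 7) (nat_lit 5) (nat_lit 11) (nat_lit 5) (nat_lit 5) (nat_lit 11) (by decide +kernel)
theorem L78030 : W_36 (nat_lit 3) (nat_lit 0x1000040002000d000680000001000080000000000000000000000000000000) (nat_lit 0x0) (nat_lit 0x28000c000200000000000000000000000000000000000000000000000000000000) := T_36 (nat_lit 242) (nat_lit 225) (nat_lit 5) (nat_lit 5) (nat_lit 10) L78029 (by decide +kernel)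
theorem L78031 : W_36 (nat_lit 4) (nat_lit 0x40002000d000680000001000080000000000000000000000000000000) (nat_lit 0x0) (nat_lit 0x28001c000a00000000000000000000000000000000000000000000000000000000) := T_36 (nat_lit 244) (nat_lit 227) (nat_lit 7) (nat_lit 5) (nat_lit 10) L78030 (by decide +kernel)
theorem L78032 : W_36 (nat_lit 2) (nat_lit 0xc0002000d000680004001000080000000000000000000000000000000) (nat_lit 0x0) (nat_lit 0x40002000100000000000000000000000000000000000) := D_36 (nat_lit 157) (nat_lit 174) (nat_lit 140) (nat_lit 4) (nat_lit 5) (nat_lit 13) (nat_lit 4) (nat_lit 5) (nat_lit 12) (by decide +kernel)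
theorem L78033 : W_36 (nat_lit 3) (nat_lit 0xc0002000d000680000001000080000000000000000000000000000000) (nat_lit 0x0) (nat_lit 0x40000000040006000100000000000000000000000000000000000) := T_36 (nat_lit 158) (nat_lit 210) (nat_lit 7) (nat_lit 5) (nat_lit 9) L78032 (by decide +kernel)
theorem L78034 : W_36 (nat_lit 4) (nat_lit 0x40002000d000680000001000080000000000000000000000000000000) (nat_lit 0x0) (nat_lit 0x10000800040000000040006000100000000000000000000000000000000000) := T_36 (nat_lit 227) (nat_lit 244) (nat_lit 7) (nat_lit 5) (nat_lit 10) L78033 (by decide +kernel)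
theorem L78035 : W_36 (nat_lit 9) (nat_lit 0x2000d000680000001000080000000000000000000000000000000) (nat_lit 0x0) (nat_lit 0x28001c000e0005000000004000e000f00138000000000000000000000000000000) := Q_36 (nat_lit 226) (C_36 L78025 (C_36 L78028 (C_36 L78031 (C_36 L78034 N_36)))) (by decide +kernel)
theorem L78036 : W_36 (nat_lit 2) (nat_lit 0xc0002000d000680006001400080000000000000000000000000000000) (nat_lit 0x0) (nat_lit 0xa00020000000000000000000000000000000) := D_36 (nat_lit 141) (nat_lit 125) (nat_lit 143) (nat_lit 6) (nat_lit 5) (nat_lit 11) (nat_lit 1) (nat_lit 8) (nat_lit 8) (by decide +kernel)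
theorem L78037 : W_36 (nat_lit 3) (nat_lit 0xc0002000d000680006001000080000000000000000000000000000000) (nat_lit 0x0) (nat_lit 0x8000e00020000000000000000000000000000000) := T_36 (nat_lit 142) (nat_lit 159) (nat_lit 6) (nat_lit 5) (nat_lit 12) L78036 (by decide +kernel)
theorem L78038 : W_36 (nat_lit 4) (nat_lit 0xc0002000d000680002001000080000000000000000000000000000000) (nat_lit 0x0) (nat_lit 0xc000f00020000000000000000000000000000000) := T_36 (nat_lit 158) (nat_lit 140) (nat_lit 4) (nat_lit 5) (nat_lit 12) L78037 (by decide +kernel)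
theorem L78039 : W_36 (nat_lit 5) (nat_lit 0x40002000d000680002001000080000000000000000000000000000000) (nat_lit 0x0) (nat_lit 0x1000080000000000000000c000f00020000000000000000000000000000000) := T_36 (nat_lit 227) (nat_lit 244) (nat_lit 7) (nat_lit 5) (nat_lit 10) L78038 (by decide +kernel)
theorem L78040 : W_36 (nat_lit 6) (nat_lit 0x40002000d000680000001000080000000000000000000000000000000) (nat_lit 0x0) (nat_lit 0x1000080000000000004000e000f00020000000000000000000000000000000) := T_36 (nat_lit 157) (nat_lit 174) (nat_lit 4) (nat_lit 5) (nat_lit 13) L78039 (by decide +kernel)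
theorem L78041 : W_36 (nat_lit 7) (nat_lit 0x2000d000680000001000080000000000000000000000000000000) (nat_lit 0x0) (nat_lit 0x28001c000e0001000000004000e000f00020000000000000000000000000000000) := Q_36 (nat_lit 226) (C_36 L78028 (C_36 L78031 (C_36 L78040 N_36))) (by decide +kernel)
theorem L78042 : W_36 (nat_lit 2) (nat_lit 0x60002000d000680006001400080000000000000000000000000000000) (nat_lit 0x0) (nat_lit 0xa00020000000000000000000000000000000) := D_36 (nat_lit 141) (nat_lit 125) (nat_lit 143) (nat_lit 6) (nat_lit 5) (nat_lit 11) (nat_lit 1) (nat_lit 8) (nat_lit 8) (by decide +kernel)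
theorem L78043 : W_36 (nat_lit 3) (nat_lit 0x60002000d000680006001000080000000000000000000000000000000) (nat_lit 0x0) (nat_lit 0x8000e00020000000000000000000000000000000) := T_36 (nat_lit 142) (nat_lit 159) (nat_lit 6) (nat_lit 5) (nat_lit 12) L78042 (by decide +kernel)
theorem L78044 : W_36 (nat_lit 4) (nat_lit 0x60002000d000680002001000080000000000000000000000000000000) (nat_lit 0x0) (nat_lit 0xc000f00020000000000000000000000000000000) := T_36 (nat_lit 158) (nat_lit 140) (nat_lit 4) (nat_lit 5) (nat_lit 12) L78043 (by decide +kernel)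
theorem L78045 : W_36 (nat_lit 5) (nat_lit 0x40002000d000680002001000080000000000000000000000000000000) (nat_lit 0x0) (nat_lit 0x400020000000000000000c000f00020000000000000000000000000000000) := T_36 (nat_lit 225) (nat_lit 242) (nat_lit 5) (nat_lit 5) (nat_lit 10) L78044 (by decide +kernel)
theorem L78046 : W_36 (nat_lit 6) (nat_lit 0x40002000d000680000001000080000000000000000000000000000000) (nat_lit 0x0) (nat_lit 0x400020000000000004000e000f00020000000000000000000000000000000) := T_36 (nat_lit 157) (nat_lit 174) (nat_lit 4) (nat_lit 5) (nat_lit 13) L78045 (by decide +kernel)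
theorem L78047 : W_36 (nat_lit 7) (nat_lit 0x2000d000680000001000080000000000000000000000000000000) (nat_lit 0x0) (nat_lit 0x28001c000e0004000000004000e000f00020000000000000000000000000000000) := Q_36 (nat_lit 226) (C_36 L78046 (C_36 L78034 (C_36 L78031 N_36))) (by decide +kernel)
theorem L78048 : W_36 (nat_lit 2) (nat_lit 0x20002000d000680006001000080000000000000000000000000000000) (nat_lit 0x0) (nat_lit 0x4000400000000000040000000000000000000000000000000000000000000) := D_36 (nat_lit 226) (nat_lit 174) (nat_lit 242) (nat_lit 4) (nat_lit 5) (nat_lit 13) (nat_lit 5) (nat_lit 5) (nat_lit 10) (by decide +kernel)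
theorem L78049 : W_36 (nat_lit 3) (nat_lit 0x2000d000680006001000080000000000000000000000000000000) (nat_lit 0x0) (nat_lit 0x4000600010000000040000000000000000000000000000000000000000000) := T_36 (nat_lit 225) (nat_lit 208) (nat_lit 5) (nat_lit 5) (nat_lit 9) L78048 (by decide +kernel)
theorem L78050 : W_36 (nat_lit 4) (nat_lit 0x2000d000680004001000080000000000000000000000000000000) (nat_lit 0x0) (nat_lit 0x4000600010000000040002000100000000000000000000000000000000000) := T_36 (nat_lit 157) (nat_lit 140) (nat_lit 4) (nat_lit 5) (nat_lit 12) L78049 (by decide +kernel)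
theorem L78051 : W_36 (nat_lit 2) (nat_lit 0x7000d000680004001600088000000000000000000000000000000) (nat_lit 0x0) (nat_lit 0x800110000000000000000000000000000000) := D_36 (nat_lit 143) (nat_lit 128) (nat_lit 124) (nat_lit 2) (nat_lit 5) (nat_lit 8) (nat_lit 0) (nat_lit 8) (nat_lit 8) (by decide +kernel)
theorem L78052 : W_36 (nat_lit 3) (nat_lit 0x7000d000680004001600080000000000000000000000000000000) (nat_lit 0x0) (nat_lit 0x900118000000000000000000000000000000) := T_36 (nat_lit 123) (nat_lit 140) (nat_lit 4) (nat_lit 5) (nat_lit 11) L78051 (by decide +kernel)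
theorem L78053 : W_36 (nat_lit 4) (nat_lit 0x7000d000680004001400080000000000000000000000000000000) (nat_lit 0x0) (nat_lit 0xb00138000000000000000000000000000000) := T_36 (nat_lit 141) (nat_lit 125) (nat_lit 6) (nat_lit 5) (nat_lit 11) L78052 (by decide +kernel)
theorem L78054 : W_36 (nat_lit 5) (nat_lit 0x3000d000680004001400080000000000000000000000000000000) (nat_lit 0x0) (nat_lit 0xc0000000000000000b00138000000000000000000000000000000) := T_36 (nat_lit 210) (nat_lit 211) (nat_lit 2) (nat_lit 4) (nat_lit 12) L78053 (by decide +kernel)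
theorem L78055 : W_36 (nat_lit 6) (nat_lit 0x2000d000680004001400080000000000000000000000000000000) (nat_lit 0x0) (nat_lit 0x2000d0000000000000000b00138000000000000000000000000000000) := T_36 (nat_lit 208) (nat_lit 225) (nat_lit 5) (nat_lit 5) (nat_lit 9) L78054 (by decide +kernel)
theorem L78056 : W_36 (nat_lit 7) (nat_lit 0x2000d000680004001000080000000000000000000000000000000) (nat_lit 0x0) (nat_lit 0x2000d0000000000008000f00138000000000000000000000000000000) := T_36 (nat_lit 142) (nat_lit 159) (nat_lit 6) (nat_lit 5) (nat_lit 12) L78055 (by decide +kernel)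
theorem L78057 : W_36 (nat_lit 2) (nat_lit 0x7000d000680004001600080000000000000000000000000000000) (nat_lit 0x0) (nat_lit 0x2000800100000000000000000000000000000000) := D_36 (nat_lit 143) (nat_lit 128) (nat_lit 157) (nat_lit 2) (nat_lit 5) (nat_lit 8) (nat_lit 1) (nat_lit 8) (nat_lit 8) (by decide +kernel)
theorem L78058 : W_36 (nat_lit 3) (nat_lit 0x7000d000680004001400080000000000000000000000000000000) (nat_lit 0x0) (nat_lit 0x2000a00120000000000000000000000000000000) := T_36 (nat_lit 141) (nat_lit 125) (nat_lit 6) (nat_lit 5) (nat_lit 11) L78057 (by decide +kernel)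
theorem L78059 : W_36 (nat_lit 4) (nat_lit 0x7000d000680004001000080000000000000000000000000000000) (nat_lit 0x0) (nat_lit 0xa000e00120000000000000000000000000000000) := T_36 (nat_lit 142) (nat_lit 159) (nat_lit 6) (nat_lit 5) (nat_lit 12) L78058 (by decide +kernel)
theorem L78060 : W_36 (nat_lit 5) (nat_lit 0x3000d000680004001000080000000000000000000000000000000) (nat_lit 0x0) (nat_lit 0xc000000000000a000e00120000000000000000000000000000000) := T_36 (nat_lit 210) (nat_lit 211) (nat_lit 2) (nat_lit 4) (nat_lit 12) L78059 (by decide +kernel)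
theorem L78061 : W_36 (nat_lit 6) (nat_lit 0x2000d000680004001000080000000000000000000000000000000) (nat_lit 0x0) (nat_lit 0x2000d000000000000a000e00120000000000000000000000000000000) := T_36 (nat_lit 208) (nat_lit 225) (nat_lit 5) (nat_lit 5) (nat_lit 9) L78060 (by decide +kernel)
theorem L78062 : W_36 (nat_lit 2) (nat_lit 0x2000d000680006001400080000000000000000000000000000000) (nat_lit 0x0) (nat_lit 0xa00020000000000000000000000000000000) := D_36 (nat_lit 141) (nat_lit 143) (nat_lit 125) (nat_lit 1) (nat_lit 8) (nat_lit 8) (nat_lit 6) (nat_lit 5) (nat_lit 11) (by decide +kernel)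
theorem L78063 : W_36 (nat_lit 3) (nat_lit 0x2000d000680004001400080000000000000000000000000000000) (nat_lit 0x0) (nat_lit 0x2000b00020000000000000000000000000000000) := T_36 (nat_lit 157) (nat_lit 140) (nat_lit 4) (nat_lit 5) (nat_lit 12) L78062 (by decide +kernel)
theorem L78064 : W_36 (nat_lit 4) (nat_lit 0x2000d000680004001000080000000000000000000000000000000) (nat_lit 0x0) (nat_lit 0xa000f00020000000000000000000000000000000) := T_36 (nat_lit 142) (nat_lit 159) (nat_lit 6) (nat_lit 5) (nat_lit 12) L78063 (by decide +kernel)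
theorem L78065 : W_36 (nat_lit 8) (nat_lit 0x2000d000680000001000080000000000000000000000000000000) (nat_lit 0x0) (nat_lit 0x40006000d000000004000e000f00138000000000000000000000000000000) := Q_36 (nat_lit 158) (C_36 L78023 (C_36 L77982 (C_36 L78050 (C_36 L78056 (C_36 L78061 (C_36 L78064 N_36)))))) (by decide +kernel)
theorem L78066 : W_36 (nat_lit 2) (nat_lit 0xe000d000680006001000080000000000000000000000000000000) (nat_lit 0x0) (nat_lit 0x100030000000000000000000000000000000000000000000000000) := D_36 (nat_lit 196) (nat_lit 197) (nat_lit 212) (nat_lit 1) (nat_lit 10) (nat_lit 11) (nat_lit 2) (nat_lit 5) (nat_lit 12) (by decide +kernel)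
theorem L78067 : W_36 (nat_lit 3) (nat_lit 0x6000d000680006001000080000000000000000000000000000000) (nat_lit 0x0) (nat_lit 0x190030000000000000000000000000000000000000000000000000) := T_36 (nat_lit 211) (nat_lit 208) (nat_lit 2) (nat_lit 4) (nat_lit 12) L78066 (by decide +kernel)
theorem L78068 : W_36 (nat_lit 4) (nat_lit 0x2000d000680006001000080000000000000000000000000000000) (nat_lit 0x0) (nat_lit 0x8001d0030000000000000000000000000000000000000000000000000) := T_36 (nat_lit 210) (nat_lit 227) (nat_lit 7) (nat_lit 5) (nat_lit 9) L78067 (by decide +kernel)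
theorem L78069 : W_36 (nat_lit 5) (nat_lit 0x2000d000680004001000080000000000000000000000000000000) (nat_lit 0x0) (nat_lit 0x8001d0030000000002000100000000000000000000000000000000000) := T_36 (nat_lit 157) (nat_lit 140) (nat_lit 4) (nat_lit 5) (nat_lit 12) L78068 (by decide +kernel)
theorem L78070 : W_36 (nat_lit 2) (nat_lit 0xe000d00068000c001000080000000000000000000000000000000) (nat_lit 0x0) (nat_lit 0x100030000000000000000000000000000000000000000000000000) := D_36 (nat_lit 196) (nat_lit 197) (nat_lit 212) (nat_lit 1) (nat_lit 10) (nat_lit 11) (nat_lit 2) (nat_lit 5) (nat_lit 12) (by decide +kernel)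
theorem L78071 : W_36 (nat_lit 3) (nat_lit 0x6000d00068000c001000080000000000000000000000000000000) (nat_lit 0x0) (nat_lit 0x190030000000000000000000000000000000000000000000000000) := T_36 (nat_lit 211) (nat_lit 208) (nat_lit 2) (nat_lit 4) (nat_lit 12) L78070 (by decide +kernel)
theorem L78072 : W_36 (nat_lit 4) (nat_lit 0x2000d00068000c001000080000000000000000000000000000000) (nat_lit 0x0) (nat_lit 0x8001d0030000000000000000000000000000000000000000000000000) := T_36 (nat_lit 210) (nat_lit 227) (nat_lit 7) (nat_lit 5) (nat_lit 9) L78071 (by decide +kernel)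
theorem L78073 : W_36 (nat_lit 5) (nat_lit 0x2000d000680004001000080000000000000000000000000000000) (nat_lit 0x0) (nat_lit 0x8001d0030000000008000400000000000000000000000000000000000) := T_36 (nat_lit 159) (nat_lit 142) (nat_lit 6) (nat_lit 5) (nat_lit 12) L78072 (by decide +kernel)
theorem L78074 : W_36 (nat_lit 6) (nat_lit 0x2000d000680000001000080000000000000000000000000000000) (nat_lit 0x0) (nat_lit 0x10000c001d003000004000e000f00020000000000000000000000000000000) := Q_36 (nat_lit 158) (C_36 L78064 (C_36 L77988 (C_36 L78069 (C_36 L78073 N_36)))) (by decide +kernel)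
theorem L78075 : W_36 (nat_lit 10) (nat_lit 0xd000680000001000080000000000000000000000000000000) (nat_lit 0x0) (nat_lit 0x2801fc007e001f003000004000e000f00138000000000000000000000000000000) := Q_36 (nat_lit 209) (C_36 L78015 (C_36 L78024 (C_36 L78035 (C_36 L78041 (C_36 L78047 (C_36 L78065 (C_36 L78074 N_36))))))) (by decide +kernel)
theorem L78076 : W_36 (nat_lit 2) (nat_lit 0x380048003d001680000001000080000000000000000000000000000000) (nat_lit 0x0) (nat_lit 0x4000300000000000000000000000000000000000000000000000000000) := D_36 (nat_lit 213) (nat_lit 230) (nat_lit 212) (nat_lit 2) (nat_lit 6) (nat_lit 13) (nat_lit 1) (nat_lit 10) (nat_lit 12) (by decide +kernel)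
theorem L78077 : W_36 (nat_lit 3) (nat_lit 0x300048003d001680000001000080000000000000000000000000000000) (nat_lit 0x0) (nat_lit 0x10004800300000000000000000000000000000000000000000000000000000) := T_36 (nat_lit 227) (nat_lit 244) (nat_lit 5) (nat_lit 7) (nat_lit 10) L78076 (by decide +kernel)
theorem L78078 : W_36 (nat_lit 4) (nat_lit 0x100048003d001680000001000080000000000000000000000000000000) (nat_lit 0x0) (nat_lit 0x50006800300000000000000000000000000000000000000000000000000000) := T_36 (nat_lit 229) (nat_lit 246) (nat_lit 7) (nat_lit 7) (nat_lit 10) L78077 (by decide +kernel)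
theorem L78079 : W_36 (nat_lit 5) (nat_lit 0x100048003d000680000001000080000000000000000000000000000000) (nat_lit 0x0) (nat_lit 0x50006800300000003000000000000000000000000000000000000000000000) := T_36 (nat_lit 180) (nat_lit 181) (nat_lit 2) (nat_lit 7) (nat_lit 11) L78078 (by decide +kernel)
theorem L78080 : W_36 (nat_lit 6) (nat_lit 0x48003d000680000001000080000000000000000000000000000000) (nat_lit 0x0) (nat_lit 0x70007800300000003000000000000000000000000000000000000000000000) := T_36 (nat_lit 228) (nat_lit 245) (nat_lit 6) (nat_lit 7) (nat_lit 14) L78079 (by decide +kernel)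
theorem L78081 : W_36 (nat_lit 7) (nat_lit 0x8003d000680000001000080000000000000000000000000000000) (nat_lit 0x0) (nat_lit 0x70007800f00000003000000000000000000000000000000000000000000000) := T_36 (nat_lit 214) (nat_lit 215) (nat_lit 3) (nat_lit 7) (nat_lit 11) L78080 (by decide +kernel)
theorem L78082 : W_36 (nat_lit 8) (nat_lit 0x3d000680000001000080000000000000000000000000000000) (nat_lit 0x0) (nat_lit 0x70007800fc0000003000000000000000000000000000000000000000000000) := T_36 (nat_lit 211) (nat_lit 210) (nat_lit 1) (nat_lit 10) (nat_lit 11) L78081 (by decide +kernel)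
theorem L78083 : W_36 (nat_lit 9) (nat_lit 0x1d000680000001000080000000000000000000000000000000) (nat_lit 0x0) (nat_lit 0x70007800fc0060003000000000000000000000000000000000000000000000) := T_36 (nat_lit 197) (nat_lit 198) (nat_lit 0) (nat_lit 11) (nat_lit 11) L78082 (by decide +kernel)
theorem L78084 : W_36 (nat_lit 10) (nat_lit 0xd000680000001000080000000000000000000000000000000) (nat_lit 0x0) (nat_lit 0x70007800fc0070003100000000000000000000000000000000000000000000) := T_36 (nat_lit 196) (nat_lit 176) (nat_lit 3) (nat_lit 5) (nat_lit 10) L78083 (by decide +kernel)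
theorem L78085 : W_36 (nat_lit 11) (nat_lit 0xd000600000001000080000000000000000000000000000000) (nat_lit 0x0) (nat_lit 0x2801fc007e00ff00700031c000e000f00138000000000000000000000000000000) := Q_36 (nat_lit 175) (C_36 L78008 (C_36 L77479 (C_36 L78075 (C_36 L78084 N_36)))) (by decide +kernel)
theorem L78086 : W_36 (nat_lit 2) (nat_lit 0x7800b0000d000600000001000080000000000000000000000000000000) (nat_lit 0x0) (nat_lit 0x18000000080000000000000000000000000000000000000000000000000000) := D_36 (nat_lit 244) (nat_lit 243) (nat_lit 211) (nat_lit 1) (nat_lit 9) (nat_lit 13) (nat_lit 5) (nat_lit 7) (nat_lit 10) (by decide +kernel)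
theorem L78087 : W_36 (nat_lit 3) (nat_lit 0x7000b0000d000600000001000080000000000000000000000000000000) (nat_lit 0x0) (nat_lit 0x18000c00080000000000000000000000000000000000000000000000000000) := T_36 (nat_lit 227) (nat_lit 226) (nat_lit 2) (nat_lit 5) (nat_lit 13) L78086 (by decide +kernel)
theorem L78088 : W_36 (nat_lit 4) (nat_lit 0x6000b0000d000600000001000080000000000000000000000000000000) (nat_lit 0x0) (nat_lit 0x38001c00080000000000000000000000000000000000000000000000000000) := T_36 (nat_lit 228) (nat_lit 245) (nat_lit 5) (nat_lit 8) (nat_lit 10) L78087 (by decide +kernel)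
theorem L78089 : W_36 (nat_lit 5) (nat_lit 0x2000b0000d000600000001000080000000000000000000000000000000) (nat_lit 0x0) (nat_lit 0xb8005c00080000000000000000000000000000000000000000000000000000) := T_36 (nat_lit 230) (nat_lit 247) (nat_lit 7) (nat_lit 8) (nat_lit 10) L78088 (by decide +kernel)
theorem L78090 : W_36 (nat_lit 6) (nat_lit 0x200030000d000600000001000080000000000000000000000000000000) (nat_lit 0x0) (nat_lit 0xb8005c00c80000000000000000000000000000000000000000000000000000) := T_36 (nat_lit 215) (nat_lit 214) (nat_lit 0) (nat_lit 11) (nat_lit 12) L78089 (by decide +kernel)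
theorem L78091 : W_36 (nat_lit 7) (nat_lit 0x30000d000600000001000080000000000000000000000000000000) (nat_lit 0x0) (nat_lit 0xf8007c00c80000000000000000000000000000000000000000000000000000) := T_36 (nat_lit 229) (nat_lit 246) (nat_lit 4) (nat_lit 8) (nat_lit 14) L78090 (by decide +kernel)
theorem L78092 : W_36 (nat_lit 8) (nat_lit 0x10000d000600000001000080000000000000000000000000000000) (nat_lit 0x0) (nat_lit 0xf8007c00e80002000000000000000000000000000000000000000000000000) := T_36 (nat_lit 213) (nat_lit 193) (nat_lit 3) (nat_lit 5) (nat_lit 11) L78091 (by decide +kernel)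
theorem L78093 : W_36 (nat_lit 2) (nat_lit 0x200016000f000680000001000080000000000000000000000000000000) (nat_lit 0x0) (nat_lit 0x80004000080000000000000000000000000000000000000000000000000000) := D_36 (nat_lit 230) (nat_lit 247) (nat_lit 211) (nat_lit 7) (nat_lit 8) (nat_lit 10) (nat_lit 3) (nat_lit 5) (nat_lit 12) (by decide +kernel)
theorem L78094 : W_36 (nat_lit 3) (nat_lit 0x200012000f000680000001000080000000000000000000000000000000) (nat_lit 0x0) (nat_lit 0x800040000c0010000000000000000000000000000000000000000000000000) := T_36 (nat_lit 210) (nat_lit 196) (nat_lit 1) (nat_lit 9) (nat_lit 11) L78093 (by decide +kernel)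
theorem L78095 : W_36 (nat_lit 4) (nat_lit 0x200012000f000600000001000080000000000000000000000000000000) (nat_lit 0x0) (nat_lit 0x800040000c00100000c0000000000000000000000000000000000000000000) := T_36 (nat_lit 175) (nat_lit 174) (nat_lit 0) (nat_lit 8) (nat_lit 11) L78094 (by decide +kernel)
theorem L78096 : W_36 (nat_lit 5) (nat_lit 0x200012000d000600000001000080000000000000000000000000000000) (nat_lit 0x0) (nat_lit 0x800040000d00120000c0000000000000000000000000000000000000000000) := T_36 (nat_lit 193) (nat_lit 208) (nat_lit 1) (nat_lit 8) (nat_lit 11) L78095 (by decide +kernel)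
theorem L78097 : W_36 (nat_lit 6) (nat_lit 0x12000d000600000001000080000000000000000000000000000000) (nat_lit 0x0) (nat_lit 0xc00060000d00120000c0000000000000000000000000000000000000000000) := T_36 (nat_lit 229) (nat_lit 246) (nat_lit 4) (nat_lit 8) (nat_lit 14) L78096 (by decide +kernel)
theorem L78101 : W_36 (nat_lit 5) (nat_lit 0x12000d000600000001000080000000000000000000000000000000) (nat_lit 0x0) (nat_lit 0xc00060000d0012000000000000000000000000000000000000000000000000) := T_36 (nat_lit 193) (nat_lit 208) (nat_lit 1) (nat_lit 8) (nat_lit 11) L78100 (by decide +kernel)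
theorem L78102 : W_36 (nat_lit 7) (nat_lit 0x12000d000600000001000080000000000000000000000000000000) (nat_lit 0x0) (nat_lit 0xe00078000d00020000c0000000000000000000000000000000000000000000) := T_36 (nat_lit 193) (nat_lit 208) (nat_lit 1) (nat_lit 8) (nat_lit 11) L9016 (by decide +kernel)
theorem L78103 : W_36 (nat_lit 2) (nat_lit 0x700012000d000600000001000080000000000000000000000000000000) (nat_lit 0x0) (nat_lit 0x8000c0000000000000000000000000000000000000000000000000000) := D_36 (nat_lit 210) (nat_lit 211) (nat_lit 227) (nat_lit 3) (nat_lit 5) (nat_lit 12) (nat_lit 0) (nat_lit 9) (nat_lit 13) (by decide +kernel)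
theorem L78104 : W_36 (nat_lit 3) (nat_lit 0x300012000d000600000001000080000000000000000000000000000000) (nat_lit 0x0) (nat_lit 0x800048000c0000000000000000000000000000000000000000000000000000) := T_36 (nat_lit 230) (nat_lit 247) (nat_lit 7) (nat_lit 8) (nat_lit 10) L78103 (by decide +kernel)
theorem L78105 : W_36 (nat_lit 4) (nat_lit 0x200012000d000600000001000080000000000000000000000000000000) (nat_lit 0x0) (nat_lit 0xa00058000c0000000000000000000000000000000000000000000000000000) := T_36 (nat_lit 228) (nat_lit 245) (nat_lit 5) (nat_lit 8) (nat_lit 10) L78104 (by decide +kernel)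
theorem L78106 : W_36 (nat_lit 5) (nat_lit 0x12000d000600000001000080000000000000000000000000000000) (nat_lit 0x0) (nat_lit 0xe00078000c0000000000000000000000000000000000000000000000000000) := T_36 (nat_lit 229) (nat_lit 246) (nat_lit 4) (nat_lit 8) (nat_lit 14) L78105 (by decide +kernel)
theorem L78107 : W_36 (nat_lit 5) (nat_lit 0x4000000012000d000600000001000080000000000000000000000000000000) (nat_lit 0x0) (nat_lit 0x100008000500120000c0004000000000000000000000000000000000000000) := T_36 (nat_lit 193) (nat_lit 208) (nat_lit 1) (nat_lit 8) (nat_lit 11) L66516 (by decide +kernel)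
theorem L78108 : W_36 (nat_lit 6) (nat_lit 0x12000d000600000001000080000000000000000000000000000000) (nat_lit 0x0) (nat_lit 0x500028000500120000c0004000000000000000000000000000000000000000) := T_36 (nat_lit 246) (nat_lit 229) (nat_lit 4) (nat_lit 8) (nat_lit 14) L78107 (by decide +kernel)
theorem L78109 : W_36 (nat_lit 4) (nat_lit 0x12000f000600000001000080000000000000000000000000000000) (nat_lit 0x0) (nat_lit 0x8000400100000c0004000200000000000000000000000000000000000) := T_36 (nat_lit 175) (nat_lit 174) (nat_lit 0) (nat_lit 8) (nat_lit 11) L77474 (by decide +kernel)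
theorem L78110 : W_36 (nat_lit 5) (nat_lit 0x12000d000600000001000080000000000000000000000000000000) (nat_lit 0x0) (nat_lit 0x8000500120000c0004000200000000000000000000000000000000000) := T_36 (nat_lit 193) (nat_lit 208) (nat_lit 1) (nat_lit 8) (nat_lit 11) L78109 (by decide +kernel)
theorem L78111 : W_36 (nat_lit 2) (nat_lit 0x780013000d000600000001000080000000000000000000000000000000) (nat_lit 0x0) (nat_lit 0x18000000080000000000000000000000000000000000000000000000000000) := D_36 (nat_lit 244) (nat_lit 243) (nat_lit 211) (nat_lit 1) (nat_lit 9) (nat_lit 13) (nat_lit 5) (nat_lit 7) (nat_lit 10) (by decide +kernel)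
theorem L78112 : W_36 (nat_lit 3) (nat_lit 0x380013000d000600000001000080000000000000000000000000000000) (nat_lit 0x0) (nat_lit 0x98004000080000000000000000000000000000000000000000000000000000) := T_36 (nat_lit 230) (nat_lit 247) (nat_lit 7) (nat_lit 8) (nat_lit 10) L78111 (by decide +kernel)
theorem L78113 : W_36 (nat_lit 4) (nat_lit 0x300013000d000600000001000080000000000000000000000000000000) (nat_lit 0x0) (nat_lit 0x98004c00080000000000000000000000000000000000000000000000000000) := T_36 (nat_lit 227) (nat_lit 226) (nat_lit 0) (nat_lit 8) (nat_lit 13) L78112 (by decide +kernel)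
theorem L78114 : W_36 (nat_lit 5) (nat_lit 0x200013000d000600000001000080000000000000000000000000000000) (nat_lit 0x0) (nat_lit 0xb8005c00080000000000000000000000000000000000000000000000000000) := T_36 (nat_lit 228) (nat_lit 245) (nat_lit 5) (nat_lit 8) (nat_lit 10) L78113 (by decide +kernel)
theorem L78115 : W_36 (nat_lit 6) (nat_lit 0x13000d000600000001000080000000000000000000000000000000) (nat_lit 0x0) (nat_lit 0xf8007c00080000000000000000000000000000000000000000000000000000) := T_36 (nat_lit 229) (nat_lit 246) (nat_lit 4) (nat_lit 8) (nat_lit 14) L78114 (by decide +kernel)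
theorem L78116 : W_36 (nat_lit 7) (nat_lit 0x12000d000600000001000080000000000000000000000000000000) (nat_lit 0x0) (nat_lit 0xf8007c00090002000000000000000000000000000000000000000000000000) := T_36 (nat_lit 208) (nat_lit 193) (nat_lit 1) (nat_lit 8) (nat_lit 11) L78115 (by decide +kernel)
theorem L78117 : W_36 (nat_lit 8) (nat_lit 0x10000d000600000001000080000000000000000000000000000000) (nat_lit 0x0) (nat_lit 0xf8007c000f00120000c0004000200000000000000000000000000000000000) := Q_36 (nat_lit 209) (C_36 L78097 (C_36 L78101 (C_36 L78102 (C_36 L78106 (C_36 L78108 (C_36 L78110 (C_36 L78116 N_36))))))) (by decide +kernel)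
theorem L78118 : W_36 (nat_lit 6) (nat_lit 0x4000000010000d000600000001000080000000000000000000000000000000) (nat_lit 0x0) (nat_lit 0x100008002700120000c0004000000000000000000000000000000000000000) := T_36 (nat_lit 193) (nat_lit 213) (nat_lit 3) (nat_lit 5) (nat_lit 11) L66517 (by decide +kernel)
theorem L78119 : W_36 (nat_lit 7) (nat_lit 0x10000d000600000001000080000000000000000000000000000000) (nat_lit 0x0) (nat_lit 0x500028002700120000c0004000000000000000000000000000000000000000) := T_36 (nat_lit 246) (nat_lit 229) (nat_lit 4) (nat_lit 8) (nat_lit 14) L78118 (by decide +kernel)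
theorem L78120 : W_36 (nat_lit 2) (nat_lit 0x100010000d000600000001000080000000000000000000000000000000) (nat_lit 0x0) (nat_lit 0x60002000000000000000000000000000000000000000000000000000000000) := D_36 (nat_lit 229) (nat_lit 246) (nat_lit 245) (nat_lit 4) (nat_lit 8) (nat_lit 14) (nat_lit 5) (nat_lit 8) (nat_lit 10) (by decide +kernel)
theorem L78121 : W_36 (nat_lit 2) (nat_lit 0x1c0018000d000600000001000080000000000000000000000000000000) (nat_lit 0x0) (nat_lit 0x640000000000000000000000000000000000000000000000000000) := D_36 (nat_lit 213) (nat_lit 214) (nat_lit 210) (nat_lit 1) (nat_lit 10) (nat_lit 12) (nat_lit 1) (nat_lit 9) (nat_lit 12) (by decide +kernel)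
theorem L78122 : W_36 (nat_lit 3) (nat_lit 0x180018000d000600000001000080000000000000000000000000000000) (nat_lit 0x0) (nat_lit 0x600640000000000000000000000000000000000000000000000000000) := T_36 (nat_lit 226) (nat_lit 225) (nat_lit 2) (nat_lit 4) (nat_lit 13) L78121 (by decide +kernel)
theorem L78123 : W_36 (nat_lit 4) (nat_lit 0x100018000d000600000001000080000000000000000000000000000000) (nat_lit 0x0) (nat_lit 0x10000e00640000000000000000000000000000000000000000000000000000) := T_36 (nat_lit 227) (nat_lit 244) (nat_lit 5) (nat_lit 7) (nat_lit 10) L78122 (by decide +kernel)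
theorem L78124 : W_36 (nat_lit 5) (nat_lit 0x100010000d000600000001000080000000000000000000000000000000) (nat_lit 0x0) (nat_lit 0x30000e006c0000000000000000000000000000000000000000000000000000) := T_36 (nat_lit 211) (nat_lit 245) (nat_lit 6) (nat_lit 7) (nat_lit 14) L78123 (by decide +kernel)
theorem L78125 : W_36 (nat_lit 2) (nat_lit 0x380018000d000600000001000080000000000000000000000000000000) (nat_lit 0x0) (nat_lit 0x600200000000000000000000000000000000000000000000000000000) := D_36 (nat_lit 226) (nat_lit 213) (nat_lit 225) (nat_lit 2) (nat_lit 5) (nat_lit 13) (nat_lit 2) (nat_lit 4) (nat_lit 13) (by decide +kernel)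
theorem L78126 : W_36 (nat_lit 3) (nat_lit 0x300018000d000600000001000080000000000000000000000000000000) (nat_lit 0x0) (nat_lit 0x10000e00200000000000000000000000000000000000000000000000000000) := T_36 (nat_lit 227) (nat_lit 244) (nat_lit 5) (nat_lit 7) (nat_lit 10) L78125 (by decide +kernel)
theorem L78127 : W_36 (nat_lit 4) (nat_lit 0x100018000d000600000001000080000000000000000000000000000000) (nat_lit 0x0) (nat_lit 0x50002e00200000000000000000000000000000000000000000000000000000) := T_36 (nat_lit 229) (nat_lit 246) (nat_lit 7) (nat_lit 7) (nat_lit 10) L78126 (by decide +kernel)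
theorem L78128 : W_36 (nat_lit 5) (nat_lit 0x100010000d000600000001000080000000000000000000000000000000) (nat_lit 0x0) (nat_lit 0xd001ee006c0000000000000000000000000000000000000000000000000000) := Q_36 (nat_lit 211) (C_36 L77342 (C_36 L78123 (C_36 L78127 N_36))) (by decide +kernel)
theorem L78129 : W_36 (nat_lit 6) (nat_lit 0x10000d000600000001000080000000000000000000000000000000) (nat_lit 0x0) (nat_lit 0xf001fe006c0000000000000000000000000000000000000000000000000000) := Q_36 (nat_lit 228) (C_36 L78120 (C_36 L78124 (C_36 L78128 N_36))) (by decide +kernel)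
theorem L78130 : W_36 (nat_lit 5) (nat_lit 0x10000f000600000001000080000000000000000000000000000000) (nat_lit 0x0) (nat_lit 0x8000700100000c0004000200000000000000000000000000000000000) := T_36 (nat_lit 209) (nat_lit 208) (nat_lit 1) (nat_lit 8) (nat_lit 11) L78109 (by decide +kernel)
theorem L78131 : W_36 (nat_lit 6) (nat_lit 0x10000d000600000001000080000000000000000000000000000000) (nat_lit 0x0) (nat_lit 0x8002700120000c0004000200000000000000000000000000000000000) := T_36 (nat_lit 193) (nat_lit 213) (nat_lit 3) (nat_lit 5) (nat_lit 11) L78130 (by decide +kernel)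
theorem L78133 : W_36 (nat_lit 6) (nat_lit 0x10000d000600000001000080000000000000000000000000000000) (nat_lit 0x0) (nat_lit 0xc00060002f0012000000000000000000000000000000000000000000000000) := T_36 (nat_lit 193) (nat_lit 213) (nat_lit 3) (nat_lit 5) (nat_lit 11) L78132 (by decide +kernel)
theorem L78134 : W_36 (nat_lit 9) (nat_lit 0xd000600000001000080000000000000000000000000000000) (nat_lit 0x0) (nat_lit 0xf801fe00ff00120000c0004000200000000000000000000000000000000000) := Q_36 (nat_lit 212) (C_36 L78092 (C_36 L78117 (C_36 L78119 (C_36 L78129 (C_36 L78131 (C_36 L78133 N_36)))))) (by decide +kernel)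
theorem L78135 : W_36 (nat_lit 2) (nat_lit 0x2000f000780000001000080000000000000000000000000000000) (nat_lit 0x0) (nat_lit 0x8000400000000000000008000000000000000000000000000000000000000) := D_36 (nat_lit 226) (nat_lit 159) (nat_lit 243) (nat_lit 6) (nat_lit 5) (nat_lit 13) (nat_lit 6) (nat_lit 5) (nat_lit 14) (by decide +kernel)
theorem L78136 : W_36 (nat_lit 3) (nat_lit 0x2000f000700000001000080000000000000000000000000000000) (nat_lit 0x0) (nat_lit 0x80004000000000000c0008000000000000000000000000000000000000000) := T_36 (nat_lit 175) (nat_lit 174) (nat_lit 3) (nat_lit 4) (nat_lit 10) L78135 (by decide +kernel)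
theorem L78137 : W_36 (nat_lit 2) (nat_lit 0x1e0012000f000780004001000090000000000000000000000000000000) (nat_lit 0x0) (nat_lit 0x60002000000000000000000000000000000000000000000000000000000000) := D_36 (nat_lit 246) (nat_lit 229) (nat_lit 245) (nat_lit 4) (nat_lit 8) (nat_lit 14) (nat_lit 3) (nat_lit 4) (nat_lit 13) (by decide +kernel)
theorem L78138 : W_36 (nat_lit 3) (nat_lit 0xe0012000f000780004001000090000000000000000000000000000000) (nat_lit 0x0) (nat_lit 0x60003000080000000000000000000000000000000000000000000000000000) := T_36 (nat_lit 228) (nat_lit 211) (nat_lit 2) (nat_lit 4) (nat_lit 13) L78137 (by decide +kernel)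
theorem L78139 : W_36 (nat_lit 4) (nat_lit 0xe0002000f000780004001000090000000000000000000000000000000) (nat_lit 0x0) (nat_lit 0x60003000380000000000000000000000000000000000000000000000000000) := T_36 (nat_lit 212) (nat_lit 213) (nat_lit 3) (nat_lit 5) (nat_lit 11) L78138 (by decide +kernel)
theorem L78140 : W_36 (nat_lit 5) (nat_lit 0xc0002000f000780004001000090000000000000000000000000000000) (nat_lit 0x0) (nat_lit 0x64003200380000000000000000000000000000000000000000000000000000) := T_36 (nat_lit 225) (nat_lit 242) (nat_lit 5) (nat_lit 5) (nat_lit 10) L78139 (by decide +kernel)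
theorem L78141 : W_36 (nat_lit 6) (nat_lit 0x40002000f000780004001000090000000000000000000000000000000) (nat_lit 0x0) (nat_lit 0x74003a00380000000000000000000000000000000000000000000000000000) := T_36 (nat_lit 227) (nat_lit 244) (nat_lit 7) (nat_lit 5) (nat_lit 10) L78140 (by decide +kernel)
theorem L78142 : W_36 (nat_lit 7) (nat_lit 0x40002000f000780004001000080000000000000000000000000000000) (nat_lit 0x0) (nat_lit 0x74003a00380000000000000000200010000000000000000000000000000000) := T_36 (nat_lit 124) (nat_lit 141) (nat_lit 7) (nat_lit 5) (nat_lit 7) L78141 (by decide +kernel)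
theorem L78143 : W_36 (nat_lit 8) (nat_lit 0x2000f000780004001000080000000000000000000000000000000) (nat_lit 0x0) (nat_lit 0x7c003e00380000000000000000200010000000000000000000000000000000) := T_36 (nat_lit 226) (nat_lit 243) (nat_lit 6) (nat_lit 5) (nat_lit 14) L78142 (by decide +kernel)
theorem L78144 : W_36 (nat_lit 9) (nat_lit 0x2000f000780000001000080000000000000000000000000000000) (nat_lit 0x0) (nat_lit 0x7c003e00380000000000006000200010000000000000000000000000000000) := T_36 (nat_lit 158) (nat_lit 157) (nat_lit 0) (nat_lit 8) (nat_lit 10) L78143 (by decide +kernel)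
theorem L78145 : W_36 (nat_lit 10) (nat_lit 0x2000f000700000001000080000000000000000000000000000000) (nat_lit 0x0) (nat_lit 0x7c003e003800000000c0006000200010000000000000000000000000000000) := T_36 (nat_lit 175) (nat_lit 174) (nat_lit 3) (nat_lit 4) (nat_lit 10) L78144 (by decide +kernel)
theorem L78146 : W_36 (nat_lit 2) (nat_lit 0x200012000f000740008001000080000000000000000000000000000000) (nat_lit 0x0) (nat_lit 0x20001000080000000000000000000000000000000000000000000000000000) := D_36 (nat_lit 228) (nat_lit 211) (nat_lit 245) (nat_lit 4) (nat_lit 7) (nat_lit 13) (nat_lit 5) (nat_lit 8) (nat_lit 10) (by decide +kernel)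
theorem L78147 : W_36 (nat_lit 3) (nat_lit 0x12000f000740008001000080000000000000000000000000000000) (nat_lit 0x0) (nat_lit 0x60003000080000000000000000000000000000000000000000000000000000) := T_36 (nat_lit 229) (nat_lit 246) (nat_lit 4) (nat_lit 8) (nat_lit 14) L78146 (by decide +kernel)
theorem L78148 : W_36 (nat_lit 4) (nat_lit 0x12000f000740000001000080000000000000000000000000000000) (nat_lit 0x0) (nat_lit 0x60003000080000000000008000400000000000000000000000000000000000) := T_36 (nat_lit 159) (nat_lit 142) (nat_lit 5) (nat_lit 6) (nat_lit 8) L78147 (by decide +kernel)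
theorem L78149 : W_36 (nat_lit 5) (nat_lit 0x12000f000700000001000080000000000000000000000000000000) (nat_lit 0x0) (nat_lit 0x600030000800000000c0008000400000000000000000000000000000000000) := T_36 (nat_lit 174) (nat_lit 175) (nat_lit 3) (nat_lit 4) (nat_lit 10) L78148 (by decide +kernel)
theorem L78150 : W_36 (nat_lit 6) (nat_lit 0x2000f000700000001000080000000000000000000000000000000) (nat_lit 0x0) (nat_lit 0x600030003800000000c0008000400000000000000000000000000000000000) := T_36 (nat_lit 212) (nat_lit 213) (nat_lit 3) (nat_lit 5) (nat_lit 11) L78149 (by decide +kernel)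
theorem L78151 : W_36 (nat_lit 11) (nat_lit 0x2000f000600000001000080000000000000000000000000000000) (nat_lit 0x0) (nat_lit 0x7c003e003800000001c000e000600010000000000000000000000000000000) := Q_36 (nat_lit 176) (C_36 L77866 (C_36 L78136 (C_36 L78145 (C_36 L78150 N_36)))) (by decide +kernel)
theorem L78152 : W_36 (nat_lit 12) (nat_lit 0xf000600000001000080000000000000000000000000000000) (nat_lit 0x0) (nat_lit 0x7c003e003b00000001c000e000600010000000000000000000000000000000) := T_36 (nat_lit 209) (nat_lit 208) (nat_lit 1) (nat_lit 8) (nat_lit 11) L78151 (by decide +kernel)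
theorem L78154 : W_36 (nat_lit 7) (nat_lit 0xf000680000001000080000000000000000000000000000000) (nat_lit 0x0) (nat_lit 0xe00078003f0000000000000000000000000000000000000000000000000000) := T_36 (nat_lit 209) (nat_lit 208) (nat_lit 1) (nat_lit 8) (nat_lit 11) L78153 (by decide +kernel)
theorem L78155 : W_36 (nat_lit 8) (nat_lit 0xf000600000001000080000000000000000000000000000000) (nat_lit 0x0) (nat_lit 0xe00078003f00000000c0000000000000000000000000000000000000000000) := T_36 (nat_lit 175) (nat_lit 174) (nat_lit 0) (nat_lit 8) (nat_lit 11) L78154 (by decide +kernel)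
theorem L78156 : W_36 (nat_lit 2) (nat_lit 0x700012000f000600000001000080000000000000000000000000000000) (nat_lit 0x0) (nat_lit 0x8000c0000000000000000000000000000000000000000000000000000) := D_36 (nat_lit 210) (nat_lit 211) (nat_lit 227) (nat_lit 3) (nat_lit 5) (nat_lit 12) (nat_lit 0) (nat_lit 9) (nat_lit 13) (by decide +kernel)
theorem L78157 : W_36 (nat_lit 3) (nat_lit 0x300012000f000600000001000080000000000000000000000000000000) (nat_lit 0x0) (nat_lit 0x800048000c0000000000000000000000000000000000000000000000000000) := T_36 (nat_lit 230) (nat_lit 247) (nat_lit 7) (nat_lit 8) (nat_lit 10) L78156 (by decide +kernel)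
theorem L78158 : W_36 (nat_lit 4) (nat_lit 0x200012000f000600000001000080000000000000000000000000000000) (nat_lit 0x0) (nat_lit 0xa00058000c0000000000000000000000000000000000000000000000000000) := T_36 (nat_lit 228) (nat_lit 245) (nat_lit 5) (nat_lit 8) (nat_lit 10) L78157 (by decide +kernel)
theorem L78159 : W_36 (nat_lit 5) (nat_lit 0x12000f000600000001000080000000000000000000000000000000) (nat_lit 0x0) (nat_lit 0xe00078000c0000000000000000000000000000000000000000000000000000) := T_36 (nat_lit 229) (nat_lit 246) (nat_lit 4) (nat_lit 8) (nat_lit 14) L78158 (by decide +kernel)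
theorem L78160 : W_36 (nat_lit 6) (nat_lit 0x10000f000600000001000080000000000000000000000000000000) (nat_lit 0x0) (nat_lit 0xe00078000f0000000000000000000000000000000000000000000000000000) := T_36 (nat_lit 209) (nat_lit 208) (nat_lit 1) (nat_lit 8) (nat_lit 11) L78159 (by decide +kernel)
theorem L78161 : W_36 (nat_lit 7) (nat_lit 0xf000600000001000080000000000000000000000000000000) (nat_lit 0x0) (nat_lit 0xe00078003f0000000000000000000000000000000000000000000000000000) := T_36 (nat_lit 212) (nat_lit 213) (nat_lit 3) (nat_lit 5) (nat_lit 11) L78160 (by decide +kernel)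
theorem L78164 : W_36 (nat_lit 4) (nat_lit 0xf000700000001000080000000000000000000000000000000) (nat_lit 0x0) (nat_lit 0x8000400000000c0006000200000000000000000000000000000000000) := T_36 (nat_lit 175) (nat_lit 174) (nat_lit 3) (nat_lit 4) (nat_lit 10) L78163 (by decide +kernel)
theorem L78165 : W_36 (nat_lit 4) (nat_lit 0xf000700000001000080000000000000000000000000000000) (nat_lit 0x0) (nat_lit 0x80004000300000000c0008000000000000000000000000000000000000000) := T_36 (nat_lit 209) (nat_lit 208) (nat_lit 1) (nat_lit 8) (nat_lit 11) L78136 (by decide +kernel)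
theorem L78166 : W_36 (nat_lit 5) (nat_lit 0xf000600000001000080000000000000000000000000000000) (nat_lit 0x0) (nat_lit 0x8000c000700000001c000e000600000000000000000000000000000000000) := Q_36 (nat_lit 176) (C_36 L77861 (C_36 L78164 (C_36 L78165 N_36))) (by decide +kernel)
theorem L78167 : W_36 (nat_lit 2) (nat_lit 0x100010000f000600000001000080000000000000000000000000000000) (nat_lit 0x0) (nat_lit 0x20002000080000000000000000000000000000000000000000000000000000) := D_36 (nat_lit 245) (nat_lit 211) (nat_lit 229) (nat_lit 6) (nat_lit 7) (nat_lit 14) (nat_lit 5) (nat_lit 8) (nat_lit 10) (by decide +kernel)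
theorem L78168 : W_36 (nat_lit 3) (nat_lit 0x100000000f000600000001000080000000000000000000000000000000) (nat_lit 0x0) (nat_lit 0x20002000380000000000000000000000000000000000000000000000000000) := T_36 (nat_lit 212) (nat_lit 213) (nat_lit 3) (nat_lit 5) (nat_lit 11) L78167 (by decide +kernel)
theorem L78169 : W_36 (nat_lit 2) (nat_lit 0x300008000f000780004001000080000000000000000000000000000000) (nat_lit 0x0) (nat_lit 0x10000800040000000000000000000000000000000000000000000000000000) := D_36 (nat_lit 227) (nat_lit 244) (nat_lit 210) (nat_lit 5) (nat_lit 7) (nat_lit 10) (nat_lit 4) (nat_lit 6) (nat_lit 13) (by decide +kernel)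
theorem L78170 : W_36 (nat_lit 3) (nat_lit 0x300008000f000780000001000080000000000000000000000000000000) (nat_lit 0x0) (nat_lit 0x10000800040000000000006000000000000000000000000000000000000000) := T_36 (nat_lit 158) (nat_lit 157) (nat_lit 0) (nat_lit 8) (nat_lit 10) L78169 (by decide +kernel)
theorem L78171 : W_36 (nat_lit 4) (nat_lit 0x300008000f000680000001000080000000000000000000000000000000) (nat_lit 0x0) (nat_lit 0x1000080004000000010000e000000000000000000000000000000000000000) := T_36 (nat_lit 176) (nat_lit 159) (nat_lit 4) (nat_lit 7) (nat_lit 13) L78170 (by decide +kernel)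
theorem L78172 : W_36 (nat_lit 5) (nat_lit 0x100008000f000680000001000080000000000000000000000000000000) (nat_lit 0x0) (nat_lit 0x5000280004000000010000e000000000000000000000000000000000000000) := T_36 (nat_lit 229) (nat_lit 246) (nat_lit 7) (nat_lit 7) (nat_lit 10) L78171 (by decide +kernel)
theorem L78173 : W_36 (nat_lit 6) (nat_lit 0x100008000f000600000001000080000000000000000000000000000000) (nat_lit 0x0) (nat_lit 0x500028000400000001c000e000000000000000000000000000000000000000) := T_36 (nat_lit 175) (nat_lit 174) (nat_lit 0) (nat_lit 8) (nat_lit 11) L78172 (by decide +kernel)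
theorem L78174 : W_36 (nat_lit 7) (nat_lit 0x100000000f000600000001000080000000000000000000000000000000) (nat_lit 0x0) (nat_lit 0x700028000c00000001c000e000000000000000000000000000000000000000) := T_36 (nat_lit 211) (nat_lit 245) (nat_lit 6) (nat_lit 7) (nat_lit 14) L78173 (by decide +kernel)
theorem L78175 : W_36 (nat_lit 2) (nat_lit 0x100010000f000600000001000080000000000000000000000000000000) (nat_lit 0x0) (nat_lit 0x60002000000000000000000000000000000000000000000000000000000000) := D_36 (nat_lit 229) (nat_lit 246) (nat_lit 245) (nat_lit 4) (nat_lit 8) (nat_lit 14) (nat_lit 5) (nat_lit 8) (nat_lit 10) (by decide +kernel)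
theorem L78176 : W_36 (nat_lit 3) (nat_lit 0x100000000f000600000001000080000000000000000000000000000000) (nat_lit 0x0) (nat_lit 0x60002000300000000000000000000000000000000000000000000000000000) := T_36 (nat_lit 212) (nat_lit 213) (nat_lit 3) (nat_lit 5) (nat_lit 11) L78175 (by decide +kernel)
theorem L78177 : W_36 (nat_lit 2) (nat_lit 0x100018000f000780004001000080000000000000000000000000000000) (nat_lit 0x0) (nat_lit 0x10000800040000000000000000000000000000000000000000000000000000) := D_36 (nat_lit 227) (nat_lit 244) (nat_lit 210) (nat_lit 5) (nat_lit 7) (nat_lit 10) (nat_lit 4) (nat_lit 6) (nat_lit 13) (by decide +kernel)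
theorem L78178 : W_36 (nat_lit 3) (nat_lit 0x100018000f000780000001000080000000000000000000000000000000) (nat_lit 0x0) (nat_lit 0x10000800040000000000006000000000000000000000000000000000000000) := T_36 (nat_lit 158) (nat_lit 157) (nat_lit 0) (nat_lit 8) (nat_lit 10) L78177 (by decide +kernel)
theorem L78179 : W_36 (nat_lit 4) (nat_lit 0x100018000f000680000001000080000000000000000000000000000000) (nat_lit 0x0) (nat_lit 0x1000080004000000010000e000000000000000000000000000000000000000) := T_36 (nat_lit 176) (nat_lit 159) (nat_lit 4) (nat_lit 7) (nat_lit 13) L78178 (by decide +kernel)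
theorem L78180 : W_36 (nat_lit 5) (nat_lit 0x100008000f000680000001000080000000000000000000000000000000) (nat_lit 0x0) (nat_lit 0x1000080034000000010000e000000000000000000000000000000000000000) := T_36 (nat_lit 212) (nat_lit 213) (nat_lit 3) (nat_lit 5) (nat_lit 11) L78179 (by decide +kernel)
theorem L78181 : W_36 (nat_lit 6) (nat_lit 0x100000000f000680000001000080000000000000000000000000000000) (nat_lit 0x0) (nat_lit 0x300008003c000000010000e000000000000000000000000000000000000000) := T_36 (nat_lit 211) (nat_lit 245) (nat_lit 6) (nat_lit 7) (nat_lit 14) L78180 (by decide +kernel)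
theorem L78182 : W_36 (nat_lit 7) (nat_lit 0x100000000f000600000001000080000000000000000000000000000000) (nat_lit 0x0) (nat_lit 0x300008003c00000001c000e000000000000000000000000000000000000000) := T_36 (nat_lit 175) (nat_lit 174) (nat_lit 0) (nat_lit 8) (nat_lit 11) L78181 (by decide +kernel)
theorem L78183 : W_36 (nat_lit 2) (nat_lit 0x4000100014000f000680004001000080000000000000000000000000000000) (nat_lit 0x0) (nat_lit 0x800000000000100002000000000000000000000000000000000000000) := D_36 (nat_lit 176) (nat_lit 227) (nat_lit 157) (nat_lit 4) (nat_lit 6) (nat_lit 13) (nat_lit 0) (nat_lit 8) (nat_lit 10) (by decide +kernel)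
theorem L78184 : W_36 (nat_lit 3) (nat_lit 0x4000100014000f000680000001000080000000000000000000000000000000) (nat_lit 0x0) (nat_lit 0x800000000000100006000200000000000000000000000000000000000) := T_36 (nat_lit 158) (nat_lit 141) (nat_lit 7) (nat_lit 5) (nat_lit 8) L78183 (by decide +kernel)
theorem L78185 : W_36 (nat_lit 4) (nat_lit 0x4000100014000f000600000001000080000000000000000000000000000000) (nat_lit 0x0) (nat_lit 0x8000000000001c0006000200000000000000000000000000000000000) := T_36 (nat_lit 175) (nat_lit 174) (nat_lit 0) (nat_lit 8) (nat_lit 11) L78184 (by decide +kernel)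
theorem L78186 : W_36 (nat_lit 5) (nat_lit 0x100014000f000600000001000080000000000000000000000000000000) (nat_lit 0x0) (nat_lit 0x400028000000000001c0006000200000000000000000000000000000000000) := T_36 (nat_lit 246) (nat_lit 229) (nat_lit 4) (nat_lit 8) (nat_lit 14) L78185 (by decide +kernel)
theorem L78187 : W_36 (nat_lit 6) (nat_lit 0x100004000f000600000001000080000000000000000000000000000000) (nat_lit 0x0) (nat_lit 0x400028003000000001c0006000200000000000000000000000000000000000) := T_36 (nat_lit 212) (nat_lit 213) (nat_lit 3) (nat_lit 5) (nat_lit 11) L78186 (by decide +kernel)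
theorem L78192 : W_36 (nat_lit 6) (nat_lit 0x1000300014000f000680000001200080000000000000000000000000000000) (nat_lit 0x0) (nat_lit 0x78001c001c80000000000000000000000000000000000000000000000000000) := T_36 (nat_lit 230) (nat_lit 247) (nat_lit 7) (nat_lit 8) (nat_lit 10) L78191 (by decide +kernel)
theorem L78193 : W_36 (nat_lit 7) (nat_lit 0x1000100014000f000680000001200080000000000000000000000000000000) (nat_lit 0x0) (nat_lit 0x7c001e001c80000000000000000000000000000000000000000000000000000) := T_36 (nat_lit 229) (nat_lit 246) (nat_lit 4) (nat_lit 8) (nat_lit 14) L78192 (by decide +kernel)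
theorem L78194 : W_36 (nat_lit 8) (nat_lit 0x1000100004000f000680000001200080000000000000000000000000000000) (nat_lit 0x0) (nat_lit 0x7c001e001f80000000000000000000000000000000000000000000000000000) := T_36 (nat_lit 212) (nat_lit 213) (nat_lit 3) (nat_lit 5) (nat_lit 11) L78193 (by decide +kernel)
theorem L78195 : W_36 (nat_lit 9) (nat_lit 0x1000100004000f000680000001000080000000000000000000000000000000) (nat_lit 0x0) (nat_lit 0x7c001e001f80000000000004000200000000000000000000000000000000000) := T_36 (nat_lit 141) (nat_lit 158) (nat_lit 7) (nat_lit 5) (nat_lit 8) L78194 (by decide +kernel)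
theorem L78196 : W_36 (nat_lit 10) (nat_lit 0x100004000f000680000001000080000000000000000000000000000000) (nat_lit 0x0) (nat_lit 0x7d001e801f80000000000004000200000000000000000000000000000000000) := T_36 (nat_lit 244) (nat_lit 227) (nat_lit 6) (nat_lit 6) (nat_lit 14) L78195 (by decide +kernel)
theorem L78197 : W_36 (nat_lit 11) (nat_lit 0x100004000f000600000001000080000000000000000000000000000000) (nat_lit 0x0) (nat_lit 0x7d001e801f800000000c0004000200000000000000000000000000000000000) := T_36 (nat_lit 175) (nat_lit 174) (nat_lit 0) (nat_lit 8) (nat_lit 11) L78196 (by decide +kernel)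
theorem L78203 : W_36 (nat_lit 7) (nat_lit 0x300014000f000600000001000080000000000000000000000000000000) (nat_lit 0x0) (nat_lit 0x79001c801c80000000000000000000000000000000000000000000000000000) := T_36 (nat_lit 244) (nat_lit 227) (nat_lit 6) (nat_lit 6) (nat_lit 14) L78202 (by decide +kernel)
theorem L78204 : W_36 (nat_lit 8) (nat_lit 0x100014000f000600000001000080000000000000000000000000000000) (nat_lit 0x0) (nat_lit 0x7d001e801c80000000000000000000000000000000000000000000000000000) := T_36 (nat_lit 229) (nat_lit 246) (nat_lit 4) (nat_lit 8) (nat_lit 14) L78203 (by decide +kernel)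
theorem L78205 : W_36 (nat_lit 9) (nat_lit 0x100004000f000600000001000080000000000000000000000000000000) (nat_lit 0x0) (nat_lit 0x7d001e801f80000000000000000000000000000000000000000000000000000) := T_36 (nat_lit 212) (nat_lit 213) (nat_lit 3) (nat_lit 5) (nat_lit 11) L78204 (by decide +kernel)
theorem L78206 : W_36 (nat_lit 2) (nat_lit 0x180004000f000680000001000080000000000000000000000000000000) (nat_lit 0x0) (nat_lit 0x100004000200000000000000000000000000000000000) := D_36 (nat_lit 158) (nat_lit 141) (nat_lit 176) (nat_lit 7) (nat_lit 5) (nat_lit 8) (nat_lit 4) (nat_lit 6) (nat_lit 13) (by decide +kernel)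
theorem L78207 : W_36 (nat_lit 3) (nat_lit 0x100004000f000680000001000080000000000000000000000000000000) (nat_lit 0x0) (nat_lit 0x10000800000000000100004000200000000000000000000000000000000000) := T_36 (nat_lit 227) (nat_lit 244) (nat_lit 6) (nat_lit 6) (nat_lit 14) L78206 (by decide +kernel)
theorem L78208 : W_36 (nat_lit 4) (nat_lit 0x100004000f000600000001000080000000000000000000000000000000) (nat_lit 0x0) (nat_lit 0x100008000000000001c0004000200000000000000000000000000000000000) := T_36 (nat_lit 175) (nat_lit 174) (nat_lit 0) (nat_lit 8) (nat_lit 11) L78207 (by decide +kernel)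
theorem L78209 : W_36 (nat_lit 2) (nat_lit 0x20000f00094000f000680000001200080000000000000000000000000000000) (nat_lit 0x0) (nat_lit 0x400010001000000000000000000000000000000000000000000000000000000) := D_36 (nat_lit 232) (nat_lit 216) (nat_lit 250) (nat_lit 2) (nat_lit 8) (nat_lit 13) (nat_lit 3) (nat_lit 8) (nat_lit 13) (by decide +kernel)
theorem L78210 : W_36 (nat_lit 3) (nat_lit 0xf00094000f000680000001200080000000000000000000000000000000) (nat_lit 0x0) (nat_lit 0x700010001000000000000000000000000000000000000000000000000000000) := T_36 (nat_lit 249) (nat_lit 248) (nat_lit 3) (nat_lit 7) (nat_lit 13) L78209 (by decide +kernel)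
theorem L78211 : W_36 (nat_lit 4) (nat_lit 0xf00014000f000680000001200080000000000000000000000000000000) (nat_lit 0x0) (nat_lit 0x700010001c00000000000000000000000000000000000000000000000000000) := T_36 (nat_lit 215) (nat_lit 214) (nat_lit 2) (nat_lit 7) (nat_lit 13) L78210 (by decide +kernel)
theorem L78212 : W_36 (nat_lit 5) (nat_lit 0xf00014000f000680000001000080000000000000000000000000000000) (nat_lit 0x0) (nat_lit 0x700010001c00000000000004000200000000000000000000000000000000000) := T_36 (nat_lit 141) (nat_lit 158) (nat_lit 7) (nat_lit 5) (nat_lit 8) L78211 (by decide +kernel)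
theorem L78213 : W_36 (nat_lit 6) (nat_lit 0x700014000f000680000001000080000000000000000000000000000000) (nat_lit 0x0) (nat_lit 0x700018001c80000000000004000200000000000000000000000000000000000) := T_36 (nat_lit 231) (nat_lit 211) (nat_lit 0) (nat_lit 10) (nat_lit 13) L78212 (by decide +kernel)
theorem L78214 : W_36 (nat_lit 7) (nat_lit 0x300014000f000680000001000080000000000000000000000000000000) (nat_lit 0x0) (nat_lit 0x78001c001c80000000000004000200000000000000000000000000000000000) := T_36 (nat_lit 230) (nat_lit 247) (nat_lit 7) (nat_lit 8) (nat_lit 10) L78213 (by decide +kernel)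
theorem L78215 : W_36 (nat_lit 8) (nat_lit 0x300014000f000600000001000080000000000000000000000000000000) (nat_lit 0x0) (nat_lit 0x78001c001c800000000c0004000200000000000000000000000000000000000) := T_36 (nat_lit 175) (nat_lit 174) (nat_lit 0) (nat_lit 8) (nat_lit 11) L78214 (by decide +kernel)
theorem L78216 : W_36 (nat_lit 9) (nat_lit 0x100014000f000600000001000080000000000000000000000000000000) (nat_lit 0x0) (nat_lit 0x7c001e001c800000000c0004000200000000000000000000000000000000000) := T_36 (nat_lit 229) (nat_lit 246) (nat_lit 4) (nat_lit 8) (nat_lit 14) L78215 (by decide +kernel)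
theorem L78217 : W_36 (nat_lit 10) (nat_lit 0x100004000f000600000001000080000000000000000000000000000000) (nat_lit 0x0) (nat_lit 0x7c001e001f800000000c0004000200000000000000000000000000000000000) := T_36 (nat_lit 212) (nat_lit 213) (nat_lit 3) (nat_lit 5) (nat_lit 11) L78216 (by decide +kernel)
theorem L78218 : W_36 (nat_lit 12) (nat_lit 0x100000000f000600000001000080000000000000000000000000000000) (nat_lit 0x0) (nat_lit 0x7d001e801fc00000001c0006000200000000000000000000000000000000000) := Q_36 (nat_lit 210) (C_36 L78187 (C_36 L78197 (C_36 L78205 (C_36 L78208 (C_36 L78217 N_36))))) (by decide +kernel)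
theorem L78219 : W_36 (nat_lit 13) (nat_lit 0xf000600000001000080000000000000000000000000000000) (nat_lit 0x0) (nat_lit 0x7f001f801fc00000001c000e000200000000000000000000000000000000000) := Q_36 (nat_lit 228) (C_36 L78168 (C_36 L78174 (C_36 L78176 (C_36 L78182 (C_36 L78218 N_36))))) (by decide +kernel)
theorem L78223 : W_36 (nat_lit 5) (nat_lit 0x300012000f000680000001000080000000000000000000000000000000) (nat_lit 0x0) (nat_lit 0x800040000c0000000100006000300000000000000000000000000000000000) := T_36 (nat_lit 230) (nat_lit 247) (nat_lit 7) (nat_lit 8) (nat_lit 10) L78222 (by decide +kernel)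
theorem L78224 : W_36 (nat_lit 6) (nat_lit 0x200012000f000680000001000080000000000000000000000000000000) (nat_lit 0x0) (nat_lit 0xa00050000c0000000100006000300000000000000000000000000000000000) := T_36 (nat_lit 228) (nat_lit 245) (nat_lit 5) (nat_lit 8) (nat_lit 10) L78223 (by decide +kernel)
theorem L78225 : W_36 (nat_lit 7) (nat_lit 0x12000f000680000001000080000000000000000000000000000000) (nat_lit 0x0) (nat_lit 0xe00070000c0000000100006000300000000000000000000000000000000000) := T_36 (nat_lit 229) (nat_lit 246) (nat_lit 4) (nat_lit 8) (nat_lit 14) L78224 (by decide +kernel)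
theorem L78226 : W_36 (nat_lit 8) (nat_lit 0x2000f000680000001000080000000000000000000000000000000) (nat_lit 0x0) (nat_lit 0xe00070003c0000000100006000300000000000000000000000000000000000) := T_36 (nat_lit 212) (nat_lit 213) (nat_lit 3) (nat_lit 5) (nat_lit 11) L78225 (by decide +kernel)
theorem L78227 : W_36 (nat_lit 9) (nat_lit 0xf000680000001000080000000000000000000000000000000) (nat_lit 0x0) (nat_lit 0xe00070003f0000000100006000300000000000000000000000000000000000) := T_36 (nat_lit 209) (nat_lit 208) (nat_lit 1) (nat_lit 8) (nat_lit 11) L78226 (by decide +kernel)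
theorem L78228 : W_36 (nat_lit 10) (nat_lit 0xf000600000001000080000000000000000000000000000000) (nat_lit 0x0) (nat_lit 0xe00070003f00000001c0006000300000000000000000000000000000000000) := T_36 (nat_lit 175) (nat_lit 174) (nat_lit 0) (nat_lit 8) (nat_lit 11) L78227 (by decide +kernel)
theorem L78229 : W_36 (nat_lit 14) (nat_lit 0xd000600000001000080000000000000000000000000000000) (nat_lit 0x0) (nat_lit 0x7fc01fe01ff00020001c000e000700010000000000000000000000000000000) := Q_36 (nat_lit 193) (C_36 L78152 (C_36 L78155 (C_36 L78161 (C_36 L78166 (C_36 L78219 (C_36 L78228 N_36)))))) (by decide +kernel)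
theorem L78230 : W_36 (nat_lit 2) (nat_lit 0x47003d000680004001600080000000000000000000000000000000) (nat_lit 0x0) (nat_lit 0x2000100008000000000000000000000000000000) := D_36 (nat_lit 140) (nat_lit 123) (nat_lit 157) (nat_lit 4) (nat_lit 5) (nat_lit 11) (nat_lit 4) (nat_lit 5) (nat_lit 12) (by decide +kernel)
theorem L78231 : W_36 (nat_lit 3) (nat_lit 0x47003d000680004001400080000000000000000000000000000000) (nat_lit 0x0) (nat_lit 0x2000300028000000000000000000000000000000) := T_36 (nat_lit 141) (nat_lit 125) (nat_lit 6) (nat_lit 5) (nat_lit 11) L78230 (by decide +kernel)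
theorem L78232 : W_36 (nat_lit 4) (nat_lit 0x46003d000680004001400080000000000000000000000000000000) (nat_lit 0x0) (nat_lit 0x200010000000000002000300028000000000000000000000000000000) := T_36 (nat_lit 208) (nat_lit 225) (nat_lit 5) (nat_lit 5) (nat_lit 9) L78231 (by decide +kernel)
theorem L78233 : W_36 (nat_lit 5) (nat_lit 0x46003d000680004001000080000000000000000000000000000000) (nat_lit 0x0) (nat_lit 0x20001000000000000a000700028000000000000000000000000000000) := T_36 (nat_lit 142) (nat_lit 159) (nat_lit 6) (nat_lit 5) (nat_lit 12) L78232 (by decide +kernel)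
theorem L78234 : W_36 (nat_lit 6) (nat_lit 0x46003d000680000001000080000000000000000000000000000000) (nat_lit 0x0) (nat_lit 0xa0001000000000000e000700028000000000000000000000000000000) := T_36 (nat_lit 158) (nat_lit 227) (nat_lit 7) (nat_lit 5) (nat_lit 9) L78233 (by decide +kernel)
theorem L78235 : W_36 (nat_lit 7) (nat_lit 0x44003d000680000001000080000000000000000000000000000000) (nat_lit 0x0) (nat_lit 0xa0003000200000000e000700028000000000000000000000000000000) := T_36 (nat_lit 209) (nat_lit 193) (nat_lit 1) (nat_lit 9) (nat_lit 11) L78234 (by decide +kernel)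
theorem L78236 : W_36 (nat_lit 8) (nat_lit 0x4003d000680000001000080000000000000000000000000000000) (nat_lit 0x0) (nat_lit 0xa00c3000200000000e000700028000000000000000000000000000000) := T_36 (nat_lit 214) (nat_lit 215) (nat_lit 3) (nat_lit 7) (nat_lit 11) L78235 (by decide +kernel)
theorem L78237 : W_36 (nat_lit 9) (nat_lit 0x3d000680000001000080000000000000000000000000000000) (nat_lit 0x0) (nat_lit 0xa00cf000200000000e000700028000000000000000000000000000000) := T_36 (nat_lit 210) (nat_lit 211) (nat_lit 1) (nat_lit 10) (nat_lit 11) L78236 (by decide +kernel)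
theorem L78238 : W_36 (nat_lit 10) (nat_lit 0x1d000680000001000080000000000000000000000000000000) (nat_lit 0x0) (nat_lit 0xa00cf006200000000e000700028000000000000000000000000000000) := T_36 (nat_lit 197) (nat_lit 198) (nat_lit 0) (nat_lit 11) (nat_lit 11) L78237 (by decide +kernel)
theorem L78239 : W_36 (nat_lit 11) (nat_lit 0xd000680000001000080000000000000000000000000000000) (nat_lit 0x0) (nat_lit 0xa00cf007200010000e000700028000000000000000000000000000000) := T_36 (nat_lit 196) (nat_lit 176) (nat_lit 3) (nat_lit 5) (nat_lit 10) L78238 (by decide +kernel)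
theorem L78240 : W_36 (nat_lit 12) (nat_lit 0xd000600000001000080000000000000000000000000000000) (nat_lit 0x0) (nat_lit 0x2801fc007e00df00720001c000e000f00138000000000000000000000000000000) := Q_36 (nat_lit 175) (C_36 L77481 (C_36 L78075 (C_36 L78239 N_36))) (by decide +kernel)
theorem L78241 : W_36 (nat_lit 4) (nat_lit 0xd000600000001000080000000000000000000000000000000) (nat_lit 0x0) (nat_lit 0x770072000100000000000000000000000000000000000000000000) := Q_36 (nat_lit 196) (C_36 L77959 (C_36 L77969 N_36)) (by decide +kernel)
theorem L78242 : W_36 (nat_lit 2) (nat_lit 0x1f000680000001000080000000000000000000000000000000) (nat_lit 0x0) (nat_lit 0x70000000000000000000000000000000000000000000000000000) := D_36 (nat_lit 209) (nat_lit 208) (nat_lit 210) (nat_lit 1) (nat_lit 8) (nat_lit 11) (nat_lit 1) (nat_lit 9) (nat_lit 11) (by decide +kernel)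
theorem L78243 : W_36 (nat_lit 3) (nat_lit 0x1d000680000001000080000000000000000000000000000000) (nat_lit 0x0) (nat_lit 0x70002000040000000000000000000000000000000000000000000) := T_36 (nat_lit 193) (nat_lit 174) (nat_lit 0) (nat_lit 8) (nat_lit 11) L78242 (by decide +kernel)
theorem L78244 : W_36 (nat_lit 4) (nat_lit 0x1d000600000001000080000000000000000000000000000000) (nat_lit 0x0) (nat_lit 0x700020001c0000000000000000000000000000000000000000000) := T_36 (nat_lit 175) (nat_lit 176) (nat_lit 3) (nat_lit 5) (nat_lit 10) L78243 (by decide +kernel)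
theorem L78245 : W_36 (nat_lit 9) (nat_lit 0xd000600000001000080000000000000000000000000000000) (nat_lit 0x0) (nat_lit 0xa0005000ef00720031c0080000000000000000000000000000000000000000) := Q_36 (nat_lit 196) (C_36 L77959 (C_36 L77966 (C_36 L78244 N_36))) (by decide +kernel)
theorem L78246 : W_36 (nat_lit 2) (nat_lit 0xd000740008001400080000000000000000000000000000000) (nat_lit 0x0) (nat_lit 0x1000080002000000000000000000000000000000000000000000000000) := D_36 (nat_lit 211) (nat_lit 228) (nat_lit 193) (nat_lit 4) (nat_lit 7) (nat_lit 13) (nat_lit 7) (nat_lit 6) (nat_lit 8) (by decide +kernel)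
theorem L78247 : W_36 (nat_lit 3) (nat_lit 0xd000740008001000080000000000000000000000000000000) (nat_lit 0x0) (nat_lit 0x1000080002000000000000400020000000000000000000000000000000) := T_36 (nat_lit 142) (nat_lit 125) (nat_lit 7) (nat_lit 6) (nat_lit 7) L78246 (by decide +kernel)
theorem L78248 : W_36 (nat_lit 4) (nat_lit 0xd000700008001000080000000000000000000000000000000) (nat_lit 0x0) (nat_lit 0x10000800020000c0000000400020000000000000000000000000000000) := T_36 (nat_lit 174) (nat_lit 175) (nat_lit 3) (nat_lit 4) (nat_lit 10) L78247 (by decide +kernel)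
theorem L78249 : W_36 (nat_lit 2) (nat_lit 0x100010000f00070000c001e00080000000000000000000000000000000) (nat_lit 0x0) (nat_lit 0x60002000000000000000000000000000000000000000000000000000000000) := D_36 (nat_lit 229) (nat_lit 246) (nat_lit 245) (nat_lit 4) (nat_lit 8) (nat_lit 14) (nat_lit 5) (nat_lit 8) (nat_lit 10) (by decide +kernel)
theorem L78250 : W_36 (nat_lit 3) (nat_lit 0x100000000f00070000c001e00080000000000000000000000000000000) (nat_lit 0x0) (nat_lit 0x60002000300000000000000000000000000000000000000000000000000000) := T_36 (nat_lit 212) (nat_lit 213) (nat_lit 3) (nat_lit 5) (nat_lit 11) L78249 (by decide +kernel)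
theorem L78251 : W_36 (nat_lit 4) (nat_lit 0x100000000f000700008001e00080000000000000000000000000000000) (nat_lit 0x0) (nat_lit 0x60002000300000000000006000000000000000000000000000000000000000) := T_36 (nat_lit 158) (nat_lit 157) (nat_lit 1) (nat_lit 8) (nat_lit 8) L78250 (by decide +kernel)
theorem L78252 : W_36 (nat_lit 5) (nat_lit 0x100000000f000700008001600080000000000000000000000000000000) (nat_lit 0x0) (nat_lit 0x60002000300000000000006000800100000000000000000000000000000000) := T_36 (nat_lit 143) (nat_lit 128) (nat_lit 2) (nat_lit 5) (nat_lit 8) L78251 (by decide +kernel)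
theorem L78253 : W_36 (nat_lit 6) (nat_lit 0x100000000f000700008001400080000000000000000000000000000000) (nat_lit 0x0) (nat_lit 0x60002000300000000000006000a00110000000000000000000000000000000) := T_36 (nat_lit 141) (nat_lit 124) (nat_lit 4) (nat_lit 6) (nat_lit 11) L78252 (by decide +kernel)
theorem L78254 : W_36 (nat_lit 7) (nat_lit 0x100000000d000700008001400080000000000000000000000000000000) (nat_lit 0x0) (nat_lit 0x60002000320002000000006000a00110000000000000000000000000000000) := T_36 (nat_lit 193) (nat_lit 209) (nat_lit 5) (nat_lit 6) (nat_lit 8) L78253 (by decide +kernel)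
theorem L78255 : W_36 (nat_lit 8) (nat_lit 0x100000000d000700008001000080000000000000000000000000000000) (nat_lit 0x0) (nat_lit 0x60002000320002000000006000e00130000000000000000000000000000000) := T_36 (nat_lit 142) (nat_lit 125) (nat_lit 7) (nat_lit 6) (nat_lit 7) L78254 (by decide +kernel)
theorem L78256 : W_36 (nat_lit 9) (nat_lit 0xd000700008001000080000000000000000000000000000000) (nat_lit 0x0) (nat_lit 0x600030003a0002000000006000e00130000000000000000000000000000000) := T_36 (nat_lit 228) (nat_lit 211) (nat_lit 4) (nat_lit 7) (nat_lit 13) L78255 (by decide +kernel)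
theorem L78257 : W_36 (nat_lit 5) (nat_lit 0xd0007000080010000a0000000000000000000000000000000) (nat_lit 0x0) (nat_lit 0x6000300020000c0006000000000000000000000000000000000000000) := T_36 (nat_lit 175) (nat_lit 174) (nat_lit 3) (nat_lit 4) (nat_lit 10) L15940 (by decide +kernel)
theorem L78258 : W_36 (nat_lit 6) (nat_lit 0xd000700008001000080000000000000000000000000000000) (nat_lit 0x0) (nat_lit 0x6000300020000c0006000400020000000000000000000000000000000) := T_36 (nat_lit 125) (nat_lit 142) (nat_lit 7) (nat_lit 6) (nat_lit 7) L78257 (by decide +kernel)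
theorem L78259 : W_36 (nat_lit 2) (nat_lit 0x100002000d000780008001000080000000000000000000000000000000) (nat_lit 0x0) (nat_lit 0x4000400020000000000000000000000000000000) := D_36 (nat_lit 142) (nat_lit 125) (nat_lit 158) (nat_lit 7) (nat_lit 6) (nat_lit 7) (nat_lit 6) (nat_lit 5) (nat_lit 12) (by decide +kernel)
theorem L78260 : W_36 (nat_lit 3) (nat_lit 0x100000000d000780008001000080000000000000000000000000000000) (nat_lit 0x0) (nat_lit 0x400020000000000004000400020000000000000000000000000000000) := T_36 (nat_lit 209) (nat_lit 226) (nat_lit 6) (nat_lit 5) (nat_lit 13) L78259 (by decide +kernel)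
theorem L78261 : W_36 (nat_lit 4) (nat_lit 0xd000780008001000080000000000000000000000000000000) (nat_lit 0x0) (nat_lit 0x14000a0000000000004000400020000000000000000000000000000000) := T_36 (nat_lit 228) (nat_lit 211) (nat_lit 4) (nat_lit 7) (nat_lit 13) L78260 (by decide +kernel)
theorem L78262 : W_36 (nat_lit 5) (nat_lit 0xd000700008001000080000000000000000000000000000000) (nat_lit 0x0) (nat_lit 0x14000a00000000c0004000400020000000000000000000000000000000) := T_36 (nat_lit 175) (nat_lit 174) (nat_lit 3) (nat_lit 4) (nat_lit 10) L78261 (by decide +kernel)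
theorem L78265 : W_36 (nat_lit 4) (nat_lit 0x100000000d000780008001000080000000000000000000000000000000) (nat_lit 0x0) (nat_lit 0x600030002000000006000000000000000000000000000000000000000) := T_36 (nat_lit 158) (nat_lit 157) (nat_lit 0) (nat_lit 8) (nat_lit 10) L78264 (by decide +kernel)
theorem L78266 : W_36 (nat_lit 5) (nat_lit 0xd000780008001000080000000000000000000000000000000) (nat_lit 0x0) (nat_lit 0x16000b0002000000006000000000000000000000000000000000000000) := T_36 (nat_lit 228) (nat_lit 211) (nat_lit 4) (nat_lit 7) (nat_lit 13) L78265 (by decide +kernel)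
theorem L78267 : W_36 (nat_lit 6) (nat_lit 0xd000700008001000080000000000000000000000000000000) (nat_lit 0x0) (nat_lit 0x16000b00020000c0006000000000000000000000000000000000000000) := T_36 (nat_lit 175) (nat_lit 174) (nat_lit 3) (nat_lit 4) (nat_lit 10) L78266 (by decide +kernel)
theorem L78268 : W_36 (nat_lit 10) (nat_lit 0xd000700000001000080000000000000000000000000000000) (nat_lit 0x0) (nat_lit 0x600036003b00020000c000e000e00130000000000000000000000000000000) := Q_36 (nat_lit 159) (C_36 L78248 (C_36 L78256 (C_36 L78258 (C_36 L78262 (C_36 L78267 N_36))))) (by decide +kernel)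
theorem L78269 : W_36 (nat_lit 2) (nat_lit 0x4000000078002d000700000001000080000000000000000000000000000000) (nat_lit 0x0) (nat_lit 0x20001800000000000000000000000000000000000000000000000000000000) := D_36 (nat_lit 228) (nat_lit 227) (nat_lit 245) (nat_lit 1) (nat_lit 10) (nat_lit 12) (nat_lit 6) (nat_lit 7) (nat_lit 14) (by decide +kernel)
theorem L78270 : W_36 (nat_lit 3) (nat_lit 0x4000000070002d000700000001000080000000000000000000000000000000) (nat_lit 0x0) (nat_lit 0x20001800080040000000000000000000000000000000000000000000000000) := T_36 (nat_lit 211) (nat_lit 198) (nat_lit 2) (nat_lit 7) (nat_lit 12) L78269 (by decide +kernel)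
theorem L78271 : W_36 (nat_lit 4) (nat_lit 0x4000000030002d000700000001000080000000000000000000000000000000) (nat_lit 0x0) (nat_lit 0x20001800c80040000000000000000000000000000000000000000000000000) := T_36 (nat_lit 214) (nat_lit 215) (nat_lit 0) (nat_lit 11) (nat_lit 12) L78270 (by decide +kernel)
theorem L78272 : W_36 (nat_lit 5) (nat_lit 0x4000000010002d000700000001000080000000000000000000000000000000) (nat_lit 0x0) (nat_lit 0x20001800e80042000000000000000000000000000000000000000000000000) := T_36 (nat_lit 213) (nat_lit 193) (nat_lit 3) (nat_lit 5) (nat_lit 11) L78271 (by decide +kernel)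
theorem L78273 : W_36 (nat_lit 6) (nat_lit 0x10002d000700000001000080000000000000000000000000000000) (nat_lit 0x0) (nat_lit 0x60003800e80042000000000000000000000000000000000000000000000000) := T_36 (nat_lit 246) (nat_lit 229) (nat_lit 4) (nat_lit 8) (nat_lit 14) L78272 (by decide +kernel)
theorem L78274 : W_36 (nat_lit 7) (nat_lit 0x10000d000700000001000080000000000000000000000000000000) (nat_lit 0x0) (nat_lit 0x60003800e80072000000000000000000000000000000000000000000000000) := T_36 (nat_lit 197) (nat_lit 196) (nat_lit 0) (nat_lit 10) (nat_lit 11) L78273 (by decide +kernel)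
theorem L78275 : W_36 (nat_lit 6) (nat_lit 0x10000f000700000001000080000000000000000000000000000000) (nat_lit 0x0) (nat_lit 0x680034000b0000000000008000400000000000000000000000000000000000) := T_36 (nat_lit 209) (nat_lit 208) (nat_lit 1) (nat_lit 8) (nat_lit 11) L77865 (by decide +kernel)
theorem L78276 : W_36 (nat_lit 7) (nat_lit 0x10000d000700000001000080000000000000000000000000000000) (nat_lit 0x0) (nat_lit 0x680034002b0002000000008000400000000000000000000000000000000000) := T_36 (nat_lit 193) (nat_lit 213) (nat_lit 3) (nat_lit 5) (nat_lit 11) L78275 (by decide +kernel)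
theorem L78277 : W_36 (nat_lit 2) (nat_lit 0x8017c0018002d000700000001000080000000000000000000000000000000) (nat_lit 0x0) (nat_lit 0x30002000000000000000000000000000000000000000000000000) := D_36 (nat_lit 209) (nat_lit 208) (nat_lit 193) (nat_lit 0) (nat_lit 8) (nat_lit 13) (nat_lit 6) (nat_lit 5) (nat_lit 14) (by decide +kernel)
theorem L78278 : W_36 (nat_lit 3) (nat_lit 0x17c0018002d000700000001000080000000000000000000000000000000) (nat_lit 0x0) (nat_lit 0xc000000030002000000000000000000000000000000000000000000000000) := T_36 (nat_lit 243) (nat_lit 242) (nat_lit 1) (nat_lit 8) (nat_lit 13) L78277 (by decide +kernel)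
theorem L78279 : W_36 (nat_lit 4) (nat_lit 0x1780018002d000700000001000080000000000000000000000000000000) (nat_lit 0x0) (nat_lit 0xc000600030002000000000000000000000000000000000000000000000000) := T_36 (nat_lit 226) (nat_lit 225) (nat_lit 2) (nat_lit 4) (nat_lit 13) L78278 (by decide +kernel)
theorem L78280 : W_36 (nat_lit 5) (nat_lit 0x1700018002d000700000001000080000000000000000000000000000000) (nat_lit 0x0) (nat_lit 0x1c000e00030002000000000000000000000000000000000000000000000000) := T_36 (nat_lit 227) (nat_lit 244) (nat_lit 5) (nat_lit 7) (nat_lit 10) L78279 (by decide +kernel)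
theorem L78281 : W_36 (nat_lit 6) (nat_lit 0x700018002d000700000001000080000000000000000000000000000000) (nat_lit 0x0) (nat_lit 0x1c018e00030002000000000000000000000000000000000000000000000000) := T_36 (nat_lit 232) (nat_lit 231) (nat_lit 0) (nat_lit 11) (nat_lit 13) L78280 (by decide +kernel)
theorem L78282 : W_36 (nat_lit 7) (nat_lit 0x700010002d000700000001000080000000000000000000000000000000) (nat_lit 0x0) (nat_lit 0x1c018e000b0002000000008000000000000000000000000000000000000000) := T_36 (nat_lit 211) (nat_lit 159) (nat_lit 4) (nat_lit 7) (nat_lit 13) L78281 (by decide +kernel)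
theorem L78283 : W_36 (nat_lit 8) (nat_lit 0x600010002d000700000001000080000000000000000000000000000000) (nat_lit 0x0) (nat_lit 0x3c019e000b0002000000008000000000000000000000000000000000000000) := T_36 (nat_lit 228) (nat_lit 245) (nat_lit 5) (nat_lit 8) (nat_lit 10) L78282 (by decide +kernel)
theorem L78284 : W_36 (nat_lit 9) (nat_lit 0x200010002d000700000001000080000000000000000000000000000000) (nat_lit 0x0) (nat_lit 0xbc01de000b0002000000008000000000000000000000000000000000000000) := T_36 (nat_lit 230) (nat_lit 247) (nat_lit 7) (nat_lit 8) (nat_lit 10) L78283 (by decide +kernel)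
theorem L78285 : W_36 (nat_lit 10) (nat_lit 0x200010000d000700000001000080000000000000000000000000000000) (nat_lit 0x0) (nat_lit 0xbc01de000b0032000000008000000000000000000000000000000000000000) := T_36 (nat_lit 197) (nat_lit 196) (nat_lit 0) (nat_lit 10) (nat_lit 11) L78284 (by decide +kernel)
theorem L78286 : W_36 (nat_lit 11) (nat_lit 0x10000d000700000001000080000000000000000000000000000000) (nat_lit 0x0) (nat_lit 0xfc01fe000b0032000000008000000000000000000000000000000000000000) := T_36 (nat_lit 229) (nat_lit 246) (nat_lit 4) (nat_lit 8) (nat_lit 14) L78285 (by decide +kernel)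
theorem L78287 : W_36 (nat_lit 2) (nat_lit 0x8000000010000d000700000001000080000000000000000000000000000000) (nat_lit 0x0) (nat_lit 0x40006000000000000000000000000000000000000000000000000000000000) := D_36 (nat_lit 229) (nat_lit 246) (nat_lit 230) (nat_lit 4) (nat_lit 8) (nat_lit 14) (nat_lit 7) (nat_lit 8) (nat_lit 10) (by decide +kernel)
theorem L78288 : W_36 (nat_lit 2) (nat_lit 0x8000000030000d000700000001000080000000000000000000000000000000) (nat_lit 0x0) (nat_lit 0x4000000030000000000000000000000000000000000000000000000000) := D_36 (nat_lit 196) (nat_lit 197) (nat_lit 230) (nat_lit 0) (nat_lit 10) (nat_lit 11) (nat_lit 4) (nat_lit 9) (nat_lit 14) (by decide +kernel)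
theorem L78289 : W_36 (nat_lit 3) (nat_lit 0x8000000010000d000700000001000080000000000000000000000000000000) (nat_lit 0x0) (nat_lit 0x4000200032000000000000000000000000000000000000000000000000) := T_36 (nat_lit 213) (nat_lit 193) (nat_lit 3) (nat_lit 5) (nat_lit 11) L78288 (by decide +kernel)
theorem L78290 : W_36 (nat_lit 2) (nat_lit 0x40001c000800078002d000700000001000080000000000000000000000000000000) (nat_lit 0x0) (nat_lit 0x80002000020000000000000000000000000000000000000000000000000000000000000) := D_36 (nat_lit 265) (nat_lit 283) (nat_lit 245) (nat_lit 7) (nat_lit 10) (nat_lit 12) (nat_lit 3) (nat_lit 7) (nat_lit 14) (by decide +kernel)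
theorem L78291 : W_36 (nat_lit 3) (nat_lit 0x1c000800078002d000700000001000080000000000000000000000000000000) (nat_lit 0x0) (nat_lit 0x80006000220000000000000000000000000000000000000000000000000000000000000) := T_36 (nat_lit 266) (nat_lit 249) (nat_lit 7) (nat_lit 10) (nat_lit 11) L78290 (by decide +kernel)
theorem L78292 : W_36 (nat_lit 4) (nat_lit 0xc000800078002d000700000001000080000000000000000000000000000000) (nat_lit 0x0) (nat_lit 0x80007000320000000000000000000000000000000000000000000000000000000000000) := T_36 (nat_lit 248) (nat_lit 264) (nat_lit 5) (nat_lit 10) (nat_lit 11) L78291 (by decide +kernel)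
theorem L78293 : W_36 (nat_lit 5) (nat_lit 0xc000000078002d000700000001000080000000000000000000000000000000) (nat_lit 0x0) (nat_lit 0x80007000320018000000000000000000000000000000000000000000000000000000000) := T_36 (nat_lit 231) (nat_lit 232) (nat_lit 3) (nat_lit 7) (nat_lit 12) L78292 (by decide +kernel)
theorem L78294 : W_36 (nat_lit 6) (nat_lit 0xc000000070002d000700000001000080000000000000000000000000000000) (nat_lit 0x0) (nat_lit 0x80007000320018000080040000000000000000000000000000000000000000000000000) := T_36 (nat_lit 211) (nat_lit 198) (nat_lit 2) (nat_lit 7) (nat_lit 12) L78293 (by decide +kernel)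
theorem L78295 : W_36 (nat_lit 7) (nat_lit 0xc000000030002d000700000001000080000000000000000000000000000000) (nat_lit 0x0) (nat_lit 0x80007000320018000c80040000000000000000000000000000000000000000000000000) := T_36 (nat_lit 214) (nat_lit 215) (nat_lit 0) (nat_lit 11) (nat_lit 12) L78294 (by decide +kernel)
theorem L78296 : W_36 (nat_lit 8) (nat_lit 0xc000000010002d000700000001000080000000000000000000000000000000) (nat_lit 0x0) (nat_lit 0x80007000320018000e80042000000000000000000000000000000000000000000000000) := T_36 (nat_lit 213) (nat_lit 193) (nat_lit 3) (nat_lit 5) (nat_lit 11) L78295 (by decide +kernel)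
theorem L78297 : W_36 (nat_lit 9) (nat_lit 0x8000000010002d000700000001000080000000000000000000000000000000) (nat_lit 0x0) (nat_lit 0x8000700036001a000e80042000000000000000000000000000000000000000000000000) := T_36 (nat_lit 246) (nat_lit 229) (nat_lit 4) (nat_lit 8) (nat_lit 14) L78296 (by decide +kernel)
theorem L78298 : W_36 (nat_lit 10) (nat_lit 0x8000000010000d000700000001000080000000000000000000000000000000) (nat_lit 0x0) (nat_lit 0x8000700036001a000e80072000000000000000000000000000000000000000000000000) := T_36 (nat_lit 197) (nat_lit 196) (nat_lit 0) (nat_lit 10) (nat_lit 11) L78297 (by decide +kernel)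
theorem L78299 : W_36 (nat_lit 11) (nat_lit 0x10000d000700000001000080000000000000000000000000000000) (nat_lit 0x0) (nat_lit 0x800070003e001e000e80072000000000000000000000000000000000000000000000000) := Q_36 (nat_lit 247) (C_36 L78287 (C_36 L78289 (C_36 L78298 N_36))) (by decide +kernel)
theorem L78300 : W_36 (nat_lit 2) (nat_lit 0x1780018002d000700000001000080000000000000000000000000000000) (nat_lit 0x0) (nat_lit 0x400600000000000000000000000000000000000000000000000000000) := D_36 (nat_lit 213) (nat_lit 214) (nat_lit 226) (nat_lit 2) (nat_lit 6) (nat_lit 13) (nat_lit 2) (nat_lit 5) (nat_lit 13) (by decide +kernel)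
theorem L78301 : W_36 (nat_lit 3) (nat_lit 0x1700018002d000700000001000080000000000000000000000000000000) (nat_lit 0x0) (nat_lit 0x10000c00600000000000000000000000000000000000000000000000000000) := T_36 (nat_lit 227) (nat_lit 244) (nat_lit 5) (nat_lit 7) (nat_lit 10) L78300 (by decide +kernel)
theorem L78302 : W_36 (nat_lit 4) (nat_lit 0x700018002d000700000001000080000000000000000000000000000000) (nat_lit 0x0) (nat_lit 0x10018c00600000000000000000000000000000000000000000000000000000) := T_36 (nat_lit 232) (nat_lit 231) (nat_lit 0) (nat_lit 11) (nat_lit 13) L78301 (by decide +kernel)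
theorem L78303 : W_36 (nat_lit 5) (nat_lit 0x300018002d000700000001000080000000000000000000000000000000) (nat_lit 0x0) (nat_lit 0x9001cc00600000000000000000000000000000000000000000000000000000) := T_36 (nat_lit 230) (nat_lit 247) (nat_lit 7) (nat_lit 8) (nat_lit 10) L78302 (by decide +kernel)
theorem L78304 : W_36 (nat_lit 6) (nat_lit 0x300010002d000700000001000080000000000000000000000000000000) (nat_lit 0x0) (nat_lit 0x9001cc00680000000000008000000000000000000000000000000000000000) := T_36 (nat_lit 211) (nat_lit 159) (nat_lit 4) (nat_lit 7) (nat_lit 13) L78303 (by decide +kernel)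
theorem L78305 : W_36 (nat_lit 7) (nat_lit 0x200010002d000700000001000080000000000000000000000000000000) (nat_lit 0x0) (nat_lit 0xb001dc00680000000000008000000000000000000000000000000000000000) := T_36 (nat_lit 228) (nat_lit 245) (nat_lit 5) (nat_lit 8) (nat_lit 10) L78304 (by decide +kernel)
theorem L78306 : W_36 (nat_lit 8) (nat_lit 0x10002d000700000001000080000000000000000000000000000000) (nat_lit 0x0) (nat_lit 0xf001fc00680000000000008000000000000000000000000000000000000000) := T_36 (nat_lit 229) (nat_lit 246) (nat_lit 4) (nat_lit 8) (nat_lit 14) L78305 (by decide +kernel)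
theorem L78307 : W_36 (nat_lit 9) (nat_lit 0x10000d000700000001000080000000000000000000000000000000) (nat_lit 0x0) (nat_lit 0xf001fc00680030000000008000000000000000000000000000000000000000) := T_36 (nat_lit 197) (nat_lit 196) (nat_lit 0) (nat_lit 10) (nat_lit 11) L78306 (by decide +kernel)
theorem L78308 : W_36 (nat_lit 2) (nat_lit 0x600070000d000700000001000080000000000000000000000000000000) (nat_lit 0x0) (nat_lit 0x20001800000000000000000000000000000000000000000000000000000000) := D_36 (nat_lit 228) (nat_lit 245) (nat_lit 227) (nat_lit 5) (nat_lit 8) (nat_lit 10) (nat_lit 2) (nat_lit 6) (nat_lit 13) (by decide +kernel)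
theorem L78309 : W_36 (nat_lit 3) (nat_lit 0x600030000d000700000001000080000000000000000000000000000000) (nat_lit 0x0) (nat_lit 0x20001800c00000000000000000000000000000000000000000000000000000) := T_36 (nat_lit 214) (nat_lit 215) (nat_lit 0) (nat_lit 11) (nat_lit 12) L78308 (by decide +kernel)
theorem L78310 : W_36 (nat_lit 4) (nat_lit 0x200030000d000700000001000080000000000000000000000000000000) (nat_lit 0x0) (nat_lit 0xa0005800c00000000000000000000000000000000000000000000000000000) := T_36 (nat_lit 230) (nat_lit 247) (nat_lit 7) (nat_lit 8) (nat_lit 10) L78309 (by decide +kernel)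
theorem L78311 : W_36 (nat_lit 5) (nat_lit 0x200010000d000700000001000080000000000000000000000000000000) (nat_lit 0x0) (nat_lit 0xa0005800e00002000000000000000000000000000000000000000000000000) := T_36 (nat_lit 213) (nat_lit 193) (nat_lit 3) (nat_lit 5) (nat_lit 11) L78310 (by decide +kernel)
theorem L78312 : W_36 (nat_lit 6) (nat_lit 0x10000d000700000001000080000000000000000000000000000000) (nat_lit 0x0) (nat_lit 0xe0007800e00002000000000000000000000000000000000000000000000000) := T_36 (nat_lit 229) (nat_lit 246) (nat_lit 4) (nat_lit 8) (nat_lit 14) L78311 (by decide +kernel)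
theorem L78313 : W_36 (nat_lit 2) (nat_lit 0x78002d000700000001000080000000000000000000000000000000) (nat_lit 0x0) (nat_lit 0x1800000000000000008000000000000000000000000000000000000000) := D_36 (nat_lit 228) (nat_lit 227) (nat_lit 159) (nat_lit 1) (nat_lit 10) (nat_lit 12) (nat_lit 4) (nat_lit 7) (nat_lit 13) (by decide +kernel)
theorem L78314 : W_36 (nat_lit 3) (nat_lit 0x70002d000700000001000080000000000000000000000000000000) (nat_lit 0x0) (nat_lit 0x1800080040000000008000000000000000000000000000000000000000) := T_36 (nat_lit 211) (nat_lit 198) (nat_lit 2) (nat_lit 7) (nat_lit 12) L78313 (by decide +kernel)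
theorem L78315 : W_36 (nat_lit 4) (nat_lit 0x30002d000700000001000080000000000000000000000000000000) (nat_lit 0x0) (nat_lit 0x1800c80040000000008000000000000000000000000000000000000000) := T_36 (nat_lit 214) (nat_lit 215) (nat_lit 0) (nat_lit 11) (nat_lit 12) L78314 (by decide +kernel)
theorem L78316 : W_36 (nat_lit 5) (nat_lit 0x30000d000700000001000080000000000000000000000000000000) (nat_lit 0x0) (nat_lit 0x1800c80070000000008000000000000000000000000000000000000000) := T_36 (nat_lit 197) (nat_lit 196) (nat_lit 0) (nat_lit 10) (nat_lit 11) L78315 (by decide +kernel)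
theorem L78317 : W_36 (nat_lit 6) (nat_lit 0x10000d000700000001000080000000000000000000000000000000) (nat_lit 0x0) (nat_lit 0x1800e80072000000008000000000000000000000000000000000000000) := T_36 (nat_lit 213) (nat_lit 193) (nat_lit 3) (nat_lit 5) (nat_lit 11) L78316 (by decide +kernel)
theorem L78318 : W_36 (nat_lit 12) (nat_lit 0xd000700000001000080000000000000000000000000000000) (nat_lit 0x0) (nat_lit 0x800070003fc01fe00fb0072000000008000400000000000000000000000000000000000) := Q_36 (nat_lit 212) (C_36 L77841 (C_36 L78274 (C_36 L78276 (C_36 L78286 (C_36 L78299 (C_36 L78307 (C_36 L78312 (C_36 L78317 N_36)))))))) (by decide +kernel)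
theorem L78319 : W_36 (nat_lit 13) (nat_lit 0xd000600000001000080000000000000000000000000000000) (nat_lit 0x0) (nat_lit 0x800070003fc01fe00fb00720001c000e000e00130000000000000000000000000000000) := Q_36 (nat_lit 176) (C_36 L78268 (C_36 L77815 (C_36 L78318 N_36))) (by decide +kernel)
theorem L78320 : W_36 (nat_lit 2) (nat_lit 0x1f000680000001000080000000000000000000000000000000) (nat_lit 0x0) (nat_lit 0x700000000000000000000000000000000000000000000000000000) := D_36 (nat_lit 213) (nat_lit 212) (nat_lit 214) (nat_lit 3) (nat_lit 5) (nat_lit 11) (nat_lit 3) (nat_lit 6) (nat_lit 11) (by decide +kernel)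
theorem L78321 : W_36 (nat_lit 3) (nat_lit 0x1d000680000001000080000000000000000000000000000000) (nat_lit 0x0) (nat_lit 0x700002000040000000000000000000000000000000000000000000) := T_36 (nat_lit 193) (nat_lit 174) (nat_lit 0) (nat_lit 8) (nat_lit 11) L78320 (by decide +kernel)
theorem L78322 : W_36 (nat_lit 4) (nat_lit 0x1d000600000001000080000000000000000000000000000000) (nat_lit 0x0) (nat_lit 0x7000020001c0000000000000000000000000000000000000000000) := T_36 (nat_lit 175) (nat_lit 176) (nat_lit 3) (nat_lit 5) (nat_lit 10) L78321 (by decide +kernel)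
theorem L78323 : W_36 (nat_lit 9) (nat_lit 0xd000600000001000080000000000000000000000000000000) (nat_lit 0x0) (nat_lit 0xa0005000fc00720031c0080000000000000000000000000000000000000000) := Q_36 (nat_lit 196) (C_36 L77959 (C_36 L77966 (C_36 L78322 N_36))) (by decide +kernel)
theorem L78324 : W_36 (nat_lit 2) (nat_lit 0x7003d001680004001600080000000000000000000000000000000) (nat_lit 0x0) (nat_lit 0x2000100008000000000000000000000000000000) := D_36 (nat_lit 140) (nat_lit 123) (nat_lit 157) (nat_lit 4) (nat_lit 5) (nat_lit 11) (nat_lit 4) (nat_lit 5) (nat_lit 12) (by decide +kernel)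
theorem L78325 : W_36 (nat_lit 3) (nat_lit 0x7003d001680004001400080000000000000000000000000000000) (nat_lit 0x0) (nat_lit 0x2000300028000000000000000000000000000000) := T_36 (nat_lit 141) (nat_lit 125) (nat_lit 6) (nat_lit 5) (nat_lit 11) L78324 (by decide +kernel)
theorem L78326 : W_36 (nat_lit 4) (nat_lit 0x6003d001680004001400080000000000000000000000000000000) (nat_lit 0x0) (nat_lit 0x200010000000000002000300028000000000000000000000000000000) := T_36 (nat_lit 208) (nat_lit 225) (nat_lit 5) (nat_lit 5) (nat_lit 9) L78325 (by decide +kernel)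
theorem L78327 : W_36 (nat_lit 5) (nat_lit 0x6003d001680004001000080000000000000000000000000000000) (nat_lit 0x0) (nat_lit 0x20001000000000000a000700028000000000000000000000000000000) := T_36 (nat_lit 142) (nat_lit 159) (nat_lit 6) (nat_lit 5) (nat_lit 12) L78326 (by decide +kernel)
theorem L78328 : W_36 (nat_lit 6) (nat_lit 0x6003d001680000001000080000000000000000000000000000000) (nat_lit 0x0) (nat_lit 0xa0001000000000000e000700028000000000000000000000000000000) := T_36 (nat_lit 158) (nat_lit 227) (nat_lit 7) (nat_lit 5) (nat_lit 9) L78327 (by decide +kernel)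
theorem L78329 : W_36 (nat_lit 7) (nat_lit 0x4003d001680000001000080000000000000000000000000000000) (nat_lit 0x0) (nat_lit 0xa0003000200000000e000700028000000000000000000000000000000) := T_36 (nat_lit 209) (nat_lit 193) (nat_lit 1) (nat_lit 9) (nat_lit 11) L78328 (by decide +kernel)
theorem L78330 : W_36 (nat_lit 8) (nat_lit 0x4003d000680000001000080000000000000000000000000000000) (nat_lit 0x0) (nat_lit 0xa0003000200300000e000700028000000000000000000000000000000) := T_36 (nat_lit 180) (nat_lit 181) (nat_lit 2) (nat_lit 7) (nat_lit 11) L78329 (by decide +kernel)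
theorem L78331 : W_36 (nat_lit 9) (nat_lit 0x3d000680000001000080000000000000000000000000000000) (nat_lit 0x0) (nat_lit 0xa000f000200300000e000700028000000000000000000000000000000) := T_36 (nat_lit 210) (nat_lit 211) (nat_lit 1) (nat_lit 10) (nat_lit 11) L78330 (by decide +kernel)
theorem L78332 : W_36 (nat_lit 10) (nat_lit 0x1d000680000001000080000000000000000000000000000000) (nat_lit 0x0) (nat_lit 0xa000f006200300000e000700028000000000000000000000000000000) := T_36 (nat_lit 197) (nat_lit 198) (nat_lit 0) (nat_lit 11) (nat_lit 11) L78331 (by decide +kernel)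
theorem L78333 : W_36 (nat_lit 11) (nat_lit 0xd000680000001000080000000000000000000000000000000) (nat_lit 0x0) (nat_lit 0xa000f007200310000e000700028000000000000000000000000000000) := T_36 (nat_lit 196) (nat_lit 176) (nat_lit 3) (nat_lit 5) (nat_lit 10) L78332 (by decide +kernel)
theorem L78334 : W_36 (nat_lit 12) (nat_lit 0xd000600000001000080000000000000000000000000000000) (nat_lit 0x0) (nat_lit 0x2801fc007e001f00720031c000e000f00138000000000000000000000000000000) := Q_36 (nat_lit 175) (C_36 L77481 (C_36 L78075 (C_36 L78333 N_36))) (by decide +kernel)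
theorem L78335 : W_36 (nat_lit 15) (nat_lit 0x5000600000001000080000000000000000000000000000000) (nat_lit 0x0) (nat_lit 0x800072807fc01fe01ff007a0031c008e000f00138000000000000000000000000000000) := Q_36 (nat_lit 195) (C_36 L77970 (C_36 L78085 (C_36 L78134 (C_36 L78229 (C_36 L78240 (C_36 L78241 (C_36 L78245 (C_36 L78319 (C_36 L78323 (C_36 L78334 N_36)))))))))) (by decide +kernel)
theorem L78336 : W_36 (nat_lit 13) (nat_lit 0x5000600000001000080000000000000000000000000000000) (nat_lit 0x0) (nat_lit 0x1c000e000f801fc00ff007a8001c0008000400020000000000000000000000000000000) := Q_36 (nat_lit 176) (C_36 L77259 (C_36 L77211 (C_36 L77869 (C_36 L77260 N_36)))) (by decide +kernel)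
theorem L78337 : W_36 (nat_lit 5) (nat_lit 0x1000000005000700000001000080000000000000000000000000000000) (nat_lit 0x0) (nat_lit 0x8000700028000c000a800000000000000000000000000000000000000000000000) := Q_36 (nat_lit 227) (C_36 L77238 (C_36 L77232 (C_36 L77234 (C_36 L77236 N_36)))) (by decide +kernel)
theorem L78338 : W_36 (nat_lit 4) (nat_lit 0x1000000007000700000001000080000000000000000000000000000000) (nat_lit 0x0) (nat_lit 0x60002000370038000000000000000000000000000000000000000000000000) := Q_36 (nat_lit 195) (C_36 L77253 (C_36 L77248 N_36)) (by decide +kernel)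
theorem L78339 : W_36 (nat_lit 5) (nat_lit 0x1000000005000700000001000080000000000000000000000000000000) (nat_lit 0x0) (nat_lit 0x6000200037003a800000000000000000000000000000000000000000000000) := T_36 (nat_lit 193) (nat_lit 191) (nat_lit 2) (nat_lit 4) (nat_lit 11) L78338 (by decide +kernel)
theorem L78340 : W_36 (nat_lit 6) (nat_lit 0x5000700000001000080000000000000000000000000000000) (nat_lit 0x0) (nat_lit 0x8000700038003f003a800000008000400020000000000000000000000000000000) := Q_36 (nat_lit 228) (C_36 L77258 (C_36 L78337 (C_36 L77241 (C_36 L78339 N_36)))) (by decide +kernel)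
theorem L78341 : W_36 (nat_lit 5) (nat_lit 0x2000f000740000001000080000000000000000000000000000000) (nat_lit 0x0) (nat_lit 0x60003000380000000000008000400000000000000000000000000000000000) := T_36 (nat_lit 212) (nat_lit 213) (nat_lit 3) (nat_lit 5) (nat_lit 11) L78148 (by decide +kernel)
theorem L78342 : W_36 (nat_lit 6) (nat_lit 0xf000740000001000080000000000000000000000000000000) (nat_lit 0x0) (nat_lit 0x600030003b0000000000008000400000000000000000000000000000000000) := T_36 (nat_lit 209) (nat_lit 208) (nat_lit 1) (nat_lit 8) (nat_lit 11) L78341 (by decide +kernel)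
theorem L78343 : W_36 (nat_lit 7) (nat_lit 0xf000700000001000080000000000000000000000000000000) (nat_lit 0x0) (nat_lit 0x600030003b00000000c0008000400000000000000000000000000000000000) := T_36 (nat_lit 174) (nat_lit 175) (nat_lit 3) (nat_lit 4) (nat_lit 10) L78342 (by decide +kernel)
theorem L78344 : W_36 (nat_lit 8) (nat_lit 0xd000700000001000080000000000000000000000000000000) (nat_lit 0x0) (nat_lit 0xe001f8003f00020000c000e000600000000000000000000000000000000000) := Q_36 (nat_lit 193) (C_36 L16327 (C_36 L78164 (C_36 L78343 N_36))) (by decide +kernel)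
theorem L78345 : W_36 (nat_lit 2) (nat_lit 0x8000d000700000001000080000000000000000000000000000000) (nat_lit 0x0) (nat_lit 0x20001000000000000000008000000000000000000000000000000000000000) := D_36 (nat_lit 228) (nat_lit 159) (nat_lit 245) (nat_lit 4) (nat_lit 7) (nat_lit 13) (nat_lit 6) (nat_lit 7) (nat_lit 14) (by decide +kernel)
theorem L78346 : W_36 (nat_lit 2) (nat_lit 0x600000001a000f000700000001000080000000000000000000000000000000) (nat_lit 0x0) (nat_lit 0x40030000000000000000000000000000000000000000000000000) := D_36 (nat_lit 196) (nat_lit 197) (nat_lit 210) (nat_lit 0) (nat_lit 10) (nat_lit 11) (nat_lit 2) (nat_lit 5) (nat_lit 12) (by decide +kernel)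
theorem L78347 : W_36 (nat_lit 3) (nat_lit 0x6000000018000f000700000001000080000000000000000000000000000000) (nat_lit 0x0) (nat_lit 0x70030000000000000000000000000000000000000000000000000) := T_36 (nat_lit 209) (nat_lit 208) (nat_lit 1) (nat_lit 8) (nat_lit 11) L78346 (by decide +kernel)
theorem L78348 : W_36 (nat_lit 4) (nat_lit 0x6000000018000d000700000001000080000000000000000000000000000000) (nat_lit 0x0) (nat_lit 0x270032000000000000000000000000000000000000000000000000) := T_36 (nat_lit 193) (nat_lit 213) (nat_lit 3) (nat_lit 5) (nat_lit 11) L78347 (by decide +kernel)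
theorem L78349 : W_36 (nat_lit 5) (nat_lit 0x2000000018000d000700000001000080000000000000000000000000000000) (nat_lit 0x0) (nat_lit 0x40002000270032000000000000000000000000000000000000000000000000) := T_36 (nat_lit 246) (nat_lit 229) (nat_lit 4) (nat_lit 8) (nat_lit 14) L78348 (by decide +kernel)
theorem L78350 : W_36 (nat_lit 6) (nat_lit 0x18000d000700000001000080000000000000000000000000000000) (nat_lit 0x0) (nat_lit 0x60003000270032000000000000000000000000000000000000000000000000) := T_36 (nat_lit 245) (nat_lit 228) (nat_lit 6) (nat_lit 7) (nat_lit 14) L78349 (by decide +kernel)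
theorem L78351 : W_36 (nat_lit 2) (nat_lit 0x4000000038002d000700000001000080000000000000000000000000000000) (nat_lit 0x0) (nat_lit 0xc00040000000000000000000000000000000000000000000000000) := D_36 (nat_lit 214) (nat_lit 198) (nat_lit 215) (nat_lit 2) (nat_lit 7) (nat_lit 12) (nat_lit 0) (nat_lit 11) (nat_lit 12) (by decide +kernel)
theorem L78352 : W_36 (nat_lit 3) (nat_lit 0x4000000018002d000700000001000080000000000000000000000000000000) (nat_lit 0x0) (nat_lit 0xe00042000000000000000000000000000000000000000000000000) := T_36 (nat_lit 213) (nat_lit 193) (nat_lit 3) (nat_lit 5) (nat_lit 11) L78351 (by decide +kernel)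
theorem L78353 : W_36 (nat_lit 4) (nat_lit 0x18002d000700000001000080000000000000000000000000000000) (nat_lit 0x0) (nat_lit 0x40002000e00042000000000000000000000000000000000000000000000000) := T_36 (nat_lit 246) (nat_lit 229) (nat_lit 4) (nat_lit 8) (nat_lit 14) L78352 (by decide +kernel)
theorem L78354 : W_36 (nat_lit 5) (nat_lit 0x18000d000700000001000080000000000000000000000000000000) (nat_lit 0x0) (nat_lit 0x40002000e00072000000000000000000000000000000000000000000000000) := T_36 (nat_lit 197) (nat_lit 196) (nat_lit 0) (nat_lit 10) (nat_lit 11) L78353 (by decide +kernel)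
theorem L78355 : W_36 (nat_lit 2) (nat_lit 0x200020001a000f000700000001000080000000000000000000000000000000) (nat_lit 0x0) (nat_lit 0x80004000040000000000000000000000000000000000000000000000000000) := D_36 (nat_lit 230) (nat_lit 210) (nat_lit 247) (nat_lit 3) (nat_lit 5) (nat_lit 12) (nat_lit 7) (nat_lit 8) (nat_lit 10) (by decide +kernel)
theorem L78356 : W_36 (nat_lit 3) (nat_lit 0x200000001a000f000700000001000080000000000000000000000000000000) (nat_lit 0x0) (nat_lit 0xc0006000040000000000000000000000000000000000000000000000000000) := T_36 (nat_lit 229) (nat_lit 246) (nat_lit 4) (nat_lit 8) (nat_lit 14) L78355 (by decide +kernel)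
theorem L78357 : W_36 (nat_lit 4) (nat_lit 0x1a000f000700000001000080000000000000000000000000000000) (nat_lit 0x0) (nat_lit 0xe0007000040000000000000000000000000000000000000000000000000000) := T_36 (nat_lit 245) (nat_lit 228) (nat_lit 6) (nat_lit 7) (nat_lit 14) L78356 (by decide +kernel)
theorem L78358 : W_36 (nat_lit 5) (nat_lit 0x18000f000700000001000080000000000000000000000000000000) (nat_lit 0x0) (nat_lit 0xe0007000070000000000000000000000000000000000000000000000000000) := T_36 (nat_lit 209) (nat_lit 208) (nat_lit 1) (nat_lit 8) (nat_lit 11) L78357 (by decide +kernel)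
theorem L78359 : W_36 (nat_lit 6) (nat_lit 0x18000d000700000001000080000000000000000000000000000000) (nat_lit 0x0) (nat_lit 0xe0007000270002000000000000000000000000000000000000000000000000) := T_36 (nat_lit 193) (nat_lit 213) (nat_lit 3) (nat_lit 5) (nat_lit 11) L78358 (by decide +kernel)
theorem L78360 : W_36 (nat_lit 2) (nat_lit 0x700018000d000700000001000080000000000000000000000000000000) (nat_lit 0x0) (nat_lit 0x8000060000000000000000000000000000000000000000000000000000) := D_36 (nat_lit 210) (nat_lit 209) (nat_lit 231) (nat_lit 3) (nat_lit 5) (nat_lit 12) (nat_lit 0) (nat_lit 10) (nat_lit 13) (by decide +kernel)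
theorem L78361 : W_36 (nat_lit 3) (nat_lit 0x300018000d000700000001000080000000000000000000000000000000) (nat_lit 0x0) (nat_lit 0x8000c000060000000000000000000000000000000000000000000000000000) := T_36 (nat_lit 230) (nat_lit 247) (nat_lit 7) (nat_lit 8) (nat_lit 10) L78360 (by decide +kernel)
theorem L78362 : W_36 (nat_lit 4) (nat_lit 0x200018000d000700000001000080000000000000000000000000000000) (nat_lit 0x0) (nat_lit 0xa000d000060000000000000000000000000000000000000000000000000000) := T_36 (nat_lit 228) (nat_lit 245) (nat_lit 6) (nat_lit 7) (nat_lit 14) L78361 (by decide +kernel)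
theorem L78363 : W_36 (nat_lit 5) (nat_lit 0x18000d000700000001000080000000000000000000000000000000) (nat_lit 0x0) (nat_lit 0xe000f000060000000000000000000000000000000000000000000000000000) := T_36 (nat_lit 229) (nat_lit 246) (nat_lit 4) (nat_lit 8) (nat_lit 14) L78362 (by decide +kernel)
theorem L78364 : W_36 (nat_lit 2) (nat_lit 0x200000001a000f000700000001000080000000000000000000000000000000) (nat_lit 0x0) (nat_lit 0x40030000000000000000000000000000000000000000000000000) := D_36 (nat_lit 196) (nat_lit 197) (nat_lit 210) (nat_lit 0) (nat_lit 10) (nat_lit 11) (nat_lit 2) (nat_lit 5) (nat_lit 12) (by decide +kernel)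
theorem L78365 : W_36 (nat_lit 3) (nat_lit 0x2000000018000f000700000001000080000000000000000000000000000000) (nat_lit 0x0) (nat_lit 0x70030000000000000000000000000000000000000000000000000) := T_36 (nat_lit 209) (nat_lit 208) (nat_lit 1) (nat_lit 8) (nat_lit 11) L78364 (by decide +kernel)
theorem L78366 : W_36 (nat_lit 4) (nat_lit 0x2000000018000d000700000001000080000000000000000000000000000000) (nat_lit 0x0) (nat_lit 0x270032000000000000000000000000000000000000000000000000) := T_36 (nat_lit 193) (nat_lit 213) (nat_lit 3) (nat_lit 5) (nat_lit 11) L78365 (by decide +kernel)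
theorem L78367 : W_36 (nat_lit 5) (nat_lit 0x18000d000700000001000080000000000000000000000000000000) (nat_lit 0x0) (nat_lit 0x20001000270032000000000000000000000000000000000000000000000000) := T_36 (nat_lit 245) (nat_lit 228) (nat_lit 6) (nat_lit 7) (nat_lit 14) L78366 (by decide +kernel)
theorem L78368 : W_36 (nat_lit 7) (nat_lit 0x8000d000700000001000080000000000000000000000000000000) (nat_lit 0x0) (nat_lit 0xe000f000f70072000000000000000000000000000000000000000000000000) := Q_36 (nat_lit 212) (C_36 L78350 (C_36 L78354 (C_36 L78359 (C_36 L78363 (C_36 L78367 N_36))))) (by decide +kernel)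
theorem L78369 : W_36 (nat_lit 2) (nat_lit 0x20001a002f000700000001400080000000000000000000000000000000) (nat_lit 0x0) (nat_lit 0x80004000040000000000000000000000000000000000000000000000000000) := D_36 (nat_lit 230) (nat_lit 247) (nat_lit 210) (nat_lit 7) (nat_lit 8) (nat_lit 10) (nat_lit 3) (nat_lit 5) (nat_lit 12) (by decide +kernel)
theorem L78370 : W_36 (nat_lit 3) (nat_lit 0x200018002f000700000001400080000000000000000000000000000000) (nat_lit 0x0) (nat_lit 0x80004000070000000000000000000000000000000000000000000000000000) := T_36 (nat_lit 209) (nat_lit 208) (nat_lit 1) (nat_lit 8) (nat_lit 11) L78369 (by decide +kernel)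
theorem L78371 : W_36 (nat_lit 4) (nat_lit 0x18002f000700000001400080000000000000000000000000000000) (nat_lit 0x0) (nat_lit 0xc0006000070000000000000000000000000000000000000000000000000000) := T_36 (nat_lit 229) (nat_lit 246) (nat_lit 4) (nat_lit 8) (nat_lit 14) L78370 (by decide +kernel)
theorem L78372 : W_36 (nat_lit 5) (nat_lit 0x8002f000700000001400080000000000000000000000000000000) (nat_lit 0x0) (nat_lit 0xc0006000370000000000000000000000000000000000000000000000000000) := T_36 (nat_lit 212) (nat_lit 213) (nat_lit 3) (nat_lit 5) (nat_lit 11) L78371 (by decide +kernel)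
theorem L78373 : W_36 (nat_lit 6) (nat_lit 0x8002f000700000001000080000000000000000000000000000000) (nat_lit 0x0) (nat_lit 0xc0006000370000000000008000400000000000000000000000000000000000) := T_36 (nat_lit 142) (nat_lit 159) (nat_lit 7) (nat_lit 6) (nat_lit 8) L78372 (by decide +kernel)
theorem L78374 : W_36 (nat_lit 7) (nat_lit 0x8000f000700000001000080000000000000000000000000000000) (nat_lit 0x0) (nat_lit 0xc0006000370030000000008000400000000000000000000000000000000000) := T_36 (nat_lit 197) (nat_lit 196) (nat_lit 0) (nat_lit 10) (nat_lit 11) L78373 (by decide +kernel)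
theorem L78375 : W_36 (nat_lit 2) (nat_lit 0x4000000018001f000700000001000080000000000000000000000000000000) (nat_lit 0x0) (nat_lit 0x70000000000000000000000000000000000000000000000000000) := D_36 (nat_lit 209) (nat_lit 208) (nat_lit 210) (nat_lit 1) (nat_lit 8) (nat_lit 11) (nat_lit 2) (nat_lit 5) (nat_lit 12) (by decide +kernel)
theorem L78376 : W_36 (nat_lit 3) (nat_lit 0x4000000018000f000700000001000080000000000000000000000000000000) (nat_lit 0x0) (nat_lit 0x70030000000000000000000000000000000000000000000000000) := T_36 (nat_lit 196) (nat_lit 197) (nat_lit 0) (nat_lit 10) (nat_lit 11) L78375 (by decide +kernel)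
theorem L78377 : W_36 (nat_lit 4) (nat_lit 0x18000f000700000001000080000000000000000000000000000000) (nat_lit 0x0) (nat_lit 0x40002000070030000000000000000000000000000000000000000000000000) := T_36 (nat_lit 246) (nat_lit 229) (nat_lit 4) (nat_lit 8) (nat_lit 14) L78376 (by decide +kernel)
theorem L78378 : W_36 (nat_lit 5) (nat_lit 0x8000f000700000001000080000000000000000000000000000000) (nat_lit 0x0) (nat_lit 0x40002000370030000000000000000000000000000000000000000000000000) := T_36 (nat_lit 212) (nat_lit 213) (nat_lit 3) (nat_lit 5) (nat_lit 11) L78377 (by decide +kernel)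
theorem L78379 : W_36 (nat_lit 2) (nat_lit 0x20001a000f000700000001000080000000000000000000000000000000) (nat_lit 0x0) (nat_lit 0x80004000040000000000000000000000000000000000000000000000000000) := D_36 (nat_lit 230) (nat_lit 210) (nat_lit 247) (nat_lit 3) (nat_lit 5) (nat_lit 12) (nat_lit 7) (nat_lit 8) (nat_lit 10) (by decide +kernel)
theorem L78380 : W_36 (nat_lit 3) (nat_lit 0x1a000f000700000001000080000000000000000000000000000000) (nat_lit 0x0) (nat_lit 0xc0006000040000000000000000000000000000000000000000000000000000) := T_36 (nat_lit 229) (nat_lit 246) (nat_lit 4) (nat_lit 8) (nat_lit 14) L78379 (by decide +kernel)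
theorem L78381 : W_36 (nat_lit 4) (nat_lit 0xa000f000700000001000080000000000000000000000000000000) (nat_lit 0x0) (nat_lit 0xc0006000340000000000000000000000000000000000000000000000000000) := T_36 (nat_lit 212) (nat_lit 213) (nat_lit 3) (nat_lit 5) (nat_lit 11) L78380 (by decide +kernel)
theorem L78382 : W_36 (nat_lit 5) (nat_lit 0x8000f000700000001000080000000000000000000000000000000) (nat_lit 0x0) (nat_lit 0xc0006000370000000000000000000000000000000000000000000000000000) := T_36 (nat_lit 209) (nat_lit 208) (nat_lit 1) (nat_lit 8) (nat_lit 11) L78381 (by decide +kernel)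
theorem L78383 : W_36 (nat_lit 2) (nat_lit 0xa000f000700000001000080000000000000000000000000000000) (nat_lit 0x0) (nat_lit 0x40030000000000000000000000000000000000000000000000000) := D_36 (nat_lit 196) (nat_lit 197) (nat_lit 210) (nat_lit 0) (nat_lit 10) (nat_lit 11) (nat_lit 1) (nat_lit 9) (nat_lit 11) (by decide +kernel)
theorem L78384 : W_36 (nat_lit 3) (nat_lit 0x8000f000700000001000080000000000000000000000000000000) (nat_lit 0x0) (nat_lit 0x70030000000000000000000000000000000000000000000000000) := T_36 (nat_lit 209) (nat_lit 208) (nat_lit 1) (nat_lit 8) (nat_lit 11) L78383 (by decide +kernel)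
theorem L78385 : W_36 (nat_lit 2) (nat_lit 0x8001f000700000001000080000000000000000000000000000000) (nat_lit 0x0) (nat_lit 0x700000000000000000000000000000000000000000000000000000) := D_36 (nat_lit 213) (nat_lit 212) (nat_lit 214) (nat_lit 3) (nat_lit 5) (nat_lit 11) (nat_lit 3) (nat_lit 6) (nat_lit 11) (by decide +kernel)
theorem L78386 : W_36 (nat_lit 3) (nat_lit 0x8000f000700000001000080000000000000000000000000000000) (nat_lit 0x0) (nat_lit 0x700030000000000000000000000000000000000000000000000000) := T_36 (nat_lit 196) (nat_lit 197) (nat_lit 0) (nat_lit 10) (nat_lit 11) L78385 (by decide +kernel)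
theorem L78387 : W_36 (nat_lit 8) (nat_lit 0x8000d000700000001000080000000000000000000000000000000) (nat_lit 0x0) (nat_lit 0xc0006000770032000000008000400000000000000000000000000000000000) := Q_36 (nat_lit 193) (C_36 L78374 (C_36 L78378 (C_36 L78382 (C_36 L78384 (C_36 L78386 N_36))))) (by decide +kernel)
theorem L78388 : W_36 (nat_lit 9) (nat_lit 0xd000700000001000080000000000000000000000000000000) (nat_lit 0x0) (nat_lit 0xe000f000ff0072000000008000400000000000000000000000000000000000) := Q_36 (nat_lit 211) (C_36 L78345 (C_36 L78368 (C_36 L78387 N_36))) (by decide +kernel)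
theorem L78389 : W_36 (nat_lit 10) (nat_lit 0x5000700000001000080000000000000000000000000000000) (nat_lit 0x0) (nat_lit 0xe001f800ff007a0000c000e000600000000000000000000000000000000000) := Q_36 (nat_lit 195) (C_36 L77815 (C_36 L78344 (C_36 L78388 N_36))) (by decide +kernel)
theorem L78390 : W_36 (nat_lit 11) (nat_lit 0x5000600000001000080000000000000000000000000000000) (nat_lit 0x0) (nat_lit 0x8000f001f800ff007a8001c000e000600020000000000000000000000000000000) := Q_36 (nat_lit 176) (C_36 L78340 (C_36 L77211 (C_36 L77260 (C_36 L78389 N_36)))) (by decide +kernel)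
theorem L78391 : W_36 (nat_lit 2) (nat_lit 0x20001000080005000700000001000080000000000000000000000000000000) (nat_lit 0x0) (nat_lit 0x800040002000000000000000000000000000000000000000000000000000000000) := D_36 (nat_lit 246) (nat_lit 229) (nat_lit 263) (nat_lit 7) (nat_lit 7) (nat_lit 10) (nat_lit 7) (nat_lit 7) (nat_lit 11) (by decide +kernel)
theorem L78392 : W_36 (nat_lit 3) (nat_lit 0x1000080005000700000001000080000000000000000000000000000000) (nat_lit 0x0) (nat_lit 0x800060002000000008000000000000000000000000000000000000000000000000) := T_36 (nat_lit 245) (nat_lit 195) (nat_lit 6) (nat_lit 7) (nat_lit 14) L78391 (by decide +kernel)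
theorem L78393 : W_36 (nat_lit 4) (nat_lit 0x80005000700000001000080000000000000000000000000000000) (nat_lit 0x0) (nat_lit 0x800060003000000008000000008000000000000000000000000000000000000000) := T_36 (nat_lit 228) (nat_lit 159) (nat_lit 4) (nat_lit 7) (nat_lit 13) L78392 (by decide +kernel)
theorem L78394 : W_36 (nat_lit 3) (nat_lit 0x80005000700000001000080000000000000000000000000000000) (nat_lit 0x0) (nat_lit 0x20001000000002800000008000000000000000000000000000000000000000) := T_36 (nat_lit 228) (nat_lit 159) (nat_lit 4) (nat_lit 7) (nat_lit 13) L77222 (by decide +kernel)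
theorem L78395 : W_36 (nat_lit 6) (nat_lit 0x8000d000700000001000080000000000000000000000000000000) (nat_lit 0x0) (nat_lit 0xc0006000370002800000000000000000000000000000000000000000000000) := T_36 (nat_lit 193) (nat_lit 191) (nat_lit 2) (nat_lit 4) (nat_lit 11) L78382 (by decide +kernel)
theorem L78396 : W_36 (nat_lit 2) (nat_lit 0x2000000008001f000700000001000080000000000000000000000000000000) (nat_lit 0x0) (nat_lit 0x70000000000000000000000000000000000000000000000000000) := D_36 (nat_lit 209) (nat_lit 210) (nat_lit 208) (nat_lit 1) (nat_lit 9) (nat_lit 11) (nat_lit 1) (nat_lit 8) (nat_lit 11) (by decide +kernel)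
theorem L78397 : W_36 (nat_lit 3) (nat_lit 0x2000000008001d000700000001000080000000000000000000000000000000) (nat_lit 0x0) (nat_lit 0x70002800000000000000000000000000000000000000000000000) := T_36 (nat_lit 193) (nat_lit 191) (nat_lit 2) (nat_lit 4) (nat_lit 11) L78396 (by decide +kernel)
theorem L78398 : W_36 (nat_lit 4) (nat_lit 0x2000000008000d000700000001000080000000000000000000000000000000) (nat_lit 0x0) (nat_lit 0x70032800000000000000000000000000000000000000000000000) := T_36 (nat_lit 196) (nat_lit 197) (nat_lit 0) (nat_lit 10) (nat_lit 11) L78397 (by decide +kernel)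
theorem L78399 : W_36 (nat_lit 5) (nat_lit 0x8000d000700000001000080000000000000000000000000000000) (nat_lit 0x0) (nat_lit 0x20001000070032800000000000000000000000000000000000000000000000) := T_36 (nat_lit 245) (nat_lit 228) (nat_lit 6) (nat_lit 7) (nat_lit 14) L78398 (by decide +kernel)
theorem L78400 : W_36 (nat_lit 2) (nat_lit 0x200024003e002d000700000001000080000000000000000000000000000000) (nat_lit 0x0) (nat_lit 0xc00040000000000000000000000000000000000000000000000000) := D_36 (nat_lit 214) (nat_lit 215) (nat_lit 198) (nat_lit 0) (nat_lit 11) (nat_lit 12) (nat_lit 2) (nat_lit 7) (nat_lit 12) (by decide +kernel)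
theorem L78401 : W_36 (nat_lit 3) (nat_lit 0x200024001e002d000700000001000080000000000000000000000000000000) (nat_lit 0x0) (nat_lit 0x800e00040000000000000000000000000000000000000000000000000) := T_36 (nat_lit 213) (nat_lit 227) (nat_lit 1) (nat_lit 9) (nat_lit 12) L78400 (by decide +kernel)
theorem L78402 : W_36 (nat_lit 4) (nat_lit 0x200004001e002d000700000001000080000000000000000000000000000000) (nat_lit 0x0) (nat_lit 0x6800e00040000000000000000000000000000000000000000000000000) := T_36 (nat_lit 229) (nat_lit 230) (nat_lit 3) (nat_lit 5) (nat_lit 12) L78401 (by decide +kernel)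
theorem L78403 : W_36 (nat_lit 5) (nat_lit 0x200000001e002d000700000001000080000000000000000000000000000000) (nat_lit 0x0) (nat_lit 0x6e00e00040000000000000000000000000000000000000000000000000) := T_36 (nat_lit 226) (nat_lit 225) (nat_lit 1) (nat_lit 8) (nat_lit 12) L78402 (by decide +kernel)
theorem L78404 : W_36 (nat_lit 6) (nat_lit 0x200000000e002d000700000001000080000000000000000000000000000000) (nat_lit 0x0) (nat_lit 0x6e00f00040800000000000000000000000000000000000000000000000) := T_36 (nat_lit 212) (nat_lit 191) (nat_lit 0) (nat_lit 8) (nat_lit 12) L78403 (by decide +kernel)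
theorem L78405 : W_36 (nat_lit 7) (nat_lit 0xe002d000700000001000080000000000000000000000000000000) (nat_lit 0x0) (nat_lit 0x20007e00f00040800000000000000000000000000000000000000000000000) := T_36 (nat_lit 245) (nat_lit 228) (nat_lit 6) (nat_lit 7) (nat_lit 14) L78404 (by decide +kernel)
theorem L78406 : W_36 (nat_lit 8) (nat_lit 0xc002d000700000001000080000000000000000000000000000000) (nat_lit 0x0) (nat_lit 0x20007e00f30040800000000000000000000000000000000000000000000000) := T_36 (nat_lit 209) (nat_lit 208) (nat_lit 2) (nat_lit 4) (nat_lit 12) L78405 (by decide +kernel)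
theorem L78407 : W_36 (nat_lit 9) (nat_lit 0xc000d000700000001000080000000000000000000000000000000) (nat_lit 0x0) (nat_lit 0x20007e00f30070800000000000000000000000000000000000000000000000) := T_36 (nat_lit 197) (nat_lit 196) (nat_lit 1) (nat_lit 10) (nat_lit 11) L78406 (by decide +kernel)
theorem L78408 : W_36 (nat_lit 2) (nat_lit 0x200004003e002d000700000001000080000000000000000000000000000000) (nat_lit 0x0) (nat_lit 0xc00040000000000000000000000000000000000000000000000000) := D_36 (nat_lit 214) (nat_lit 215) (nat_lit 198) (nat_lit 0) (nat_lit 11) (nat_lit 12) (nat_lit 2) (nat_lit 7) (nat_lit 12) (by decide +kernel)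
theorem L78409 : W_36 (nat_lit 3) (nat_lit 0x200004001e002d000700000001000080000000000000000000000000000000) (nat_lit 0x0) (nat_lit 0x800e00040000000000000000000000000000000000000000000000000) := T_36 (nat_lit 213) (nat_lit 227) (nat_lit 1) (nat_lit 9) (nat_lit 12) L78408 (by decide +kernel)
theorem L78410 : W_36 (nat_lit 4) (nat_lit 0x200000001e002d000700000001000080000000000000000000000000000000) (nat_lit 0x0) (nat_lit 0xe00e00040000000000000000000000000000000000000000000000000) := T_36 (nat_lit 226) (nat_lit 225) (nat_lit 1) (nat_lit 8) (nat_lit 12) L78409 (by decide +kernel)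
theorem L78411 : W_36 (nat_lit 5) (nat_lit 0x200000000e002d000700000001000080000000000000000000000000000000) (nat_lit 0x0) (nat_lit 0xe00f00040800000000000000000000000000000000000000000000000) := T_36 (nat_lit 212) (nat_lit 191) (nat_lit 0) (nat_lit 8) (nat_lit 12) L78410 (by decide +kernel)
theorem L78412 : W_36 (nat_lit 6) (nat_lit 0x200000000c002d000700000001000080000000000000000000000000000000) (nat_lit 0x0) (nat_lit 0xe00f30040800000000000000000000000000000000000000000000000) := T_36 (nat_lit 209) (nat_lit 208) (nat_lit 2) (nat_lit 4) (nat_lit 12) L78411 (by decide +kernel)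
theorem L78413 : W_36 (nat_lit 7) (nat_lit 0x200000000c000d000700000001000080000000000000000000000000000000) (nat_lit 0x0) (nat_lit 0xe00f30070800000000000000000000000000000000000000000000000) := T_36 (nat_lit 197) (nat_lit 196) (nat_lit 1) (nat_lit 10) (nat_lit 11) L78412 (by decide +kernel)
theorem L78414 : W_36 (nat_lit 8) (nat_lit 0xc000d000700000001000080000000000000000000000000000000) (nat_lit 0x0) (nat_lit 0x20001e00f30070800000000000000000000000000000000000000000000000) := T_36 (nat_lit 245) (nat_lit 228) (nat_lit 6) (nat_lit 7) (nat_lit 14) L78413 (by decide +kernel)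
theorem L78415 : W_36 (nat_lit 2) (nat_lit 0x200000001e000d000700000001000080000000000000000000000000000000) (nat_lit 0x0) (nat_lit 0x40006000000000000000000000000000000000000000000000000000000000) := D_36 (nat_lit 229) (nat_lit 230) (nat_lit 246) (nat_lit 3) (nat_lit 5) (nat_lit 12) (nat_lit 4) (nat_lit 8) (nat_lit 14) (by decide +kernel)
theorem L78416 : W_36 (nat_lit 3) (nat_lit 0x200000000e000d000700000001000080000000000000000000000000000000) (nat_lit 0x0) (nat_lit 0x40006000100000800000000000000000000000000000000000000000000000) := T_36 (nat_lit 212) (nat_lit 191) (nat_lit 0) (nat_lit 8) (nat_lit 12) L78415 (by decide +kernel)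
theorem L78417 : W_36 (nat_lit 4) (nat_lit 0xe000d000700000001000080000000000000000000000000000000) (nat_lit 0x0) (nat_lit 0x60007000100000800000000000000000000000000000000000000000000000) := T_36 (nat_lit 245) (nat_lit 228) (nat_lit 6) (nat_lit 7) (nat_lit 14) L78416 (by decide +kernel)
theorem L78418 : W_36 (nat_lit 5) (nat_lit 0xc000d000700000001000080000000000000000000000000000000) (nat_lit 0x0) (nat_lit 0x60007000130000800000000000000000000000000000000000000000000000) := T_36 (nat_lit 209) (nat_lit 208) (nat_lit 2) (nat_lit 4) (nat_lit 12) L78417 (by decide +kernel)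
theorem L78419 : W_36 (nat_lit 2) (nat_lit 0x1e002d000700000001000080000000000000000000000000000000) (nat_lit 0x0) (nat_lit 0x40006000000000000000000000000000000000000000000000000000000000) := D_36 (nat_lit 229) (nat_lit 230) (nat_lit 246) (nat_lit 3) (nat_lit 5) (nat_lit 12) (nat_lit 4) (nat_lit 8) (nat_lit 14) (by decide +kernel)
theorem L78420 : W_36 (nat_lit 3) (nat_lit 0xe002d000700000001000080000000000000000000000000000000) (nat_lit 0x0) (nat_lit 0x40006000100000800000000000000000000000000000000000000000000000) := T_36 (nat_lit 212) (nat_lit 191) (nat_lit 0) (nat_lit 8) (nat_lit 12) L78419 (by decide +kernel)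
theorem L78421 : W_36 (nat_lit 4) (nat_lit 0xc002d000700000001000080000000000000000000000000000000) (nat_lit 0x0) (nat_lit 0x40006000130000800000000000000000000000000000000000000000000000) := T_36 (nat_lit 209) (nat_lit 208) (nat_lit 2) (nat_lit 4) (nat_lit 12) L78420 (by decide +kernel)
theorem L78422 : W_36 (nat_lit 5) (nat_lit 0xc000d000700000001000080000000000000000000000000000000) (nat_lit 0x0) (nat_lit 0x40006000130030800000000000000000000000000000000000000000000000) := T_36 (nat_lit 197) (nat_lit 196) (nat_lit 1) (nat_lit 10) (nat_lit 11) L78421 (by decide +kernel)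
theorem L78423 : W_36 (nat_lit 2) (nat_lit 0x30000e002d000700000001000080000000000000000000000000000000) (nat_lit 0x0) (nat_lit 0xc800000000000000000000000000000000000000000000000000000000) := D_36 (nat_lit 230) (nat_lit 231) (nat_lit 227) (nat_lit 0) (nat_lit 10) (nat_lit 13) (nat_lit 0) (nat_lit 9) (nat_lit 13) (by decide +kernel)
theorem L78424 : W_36 (nat_lit 3) (nat_lit 0x10000e002d000700000001000080000000000000000000000000000000) (nat_lit 0x0) (nat_lit 0x4000e800000000000000000000000000000000000000000000000000000000) := T_36 (nat_lit 229) (nat_lit 246) (nat_lit 7) (nat_lit 7) (nat_lit 10) L78423 (by decide +kernel)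
theorem L78425 : W_36 (nat_lit 4) (nat_lit 0x10000e000d000700000001000080000000000000000000000000000000) (nat_lit 0x0) (nat_lit 0x4000e800000030000000000000000000000000000000000000000000000000) := T_36 (nat_lit 197) (nat_lit 196) (nat_lit 1) (nat_lit 10) (nat_lit 11) L78424 (by decide +kernel)
theorem L78426 : W_36 (nat_lit 5) (nat_lit 0xe000d000700000001000080000000000000000000000000000000) (nat_lit 0x0) (nat_lit 0x6000f800000030000000000000000000000000000000000000000000000000) := T_36 (nat_lit 228) (nat_lit 245) (nat_lit 6) (nat_lit 7) (nat_lit 14) L78425 (by decide +kernel)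
theorem L78427 : W_36 (nat_lit 6) (nat_lit 0xc000d000700000001000080000000000000000000000000000000) (nat_lit 0x0) (nat_lit 0x6000f800030030000000000000000000000000000000000000000000000000) := T_36 (nat_lit 209) (nat_lit 208) (nat_lit 2) (nat_lit 4) (nat_lit 12) L78426 (by decide +kernel)
theorem L78428 : W_36 (nat_lit 2) (nat_lit 0x70000c001d000700000001000080000000000000000000000000000000) (nat_lit 0x0) (nat_lit 0x80000000300000000000000000000000000000000000000000000000000000) := D_36 (nat_lit 247) (nat_lit 213) (nat_lit 212) (nat_lit 4) (nat_lit 9) (nat_lit 14) (nat_lit 7) (nat_lit 8) (nat_lit 10) (by decide +kernel)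
theorem L78429 : W_36 (nat_lit 3) (nat_lit 0x30000c001d000700000001000080000000000000000000000000000000) (nat_lit 0x0) (nat_lit 0x8000c000300000000000000000000000000000000000000000000000000000) := T_36 (nat_lit 230) (nat_lit 231) (nat_lit 0) (nat_lit 10) (nat_lit 13) L78428 (by decide +kernel)
theorem L78430 : W_36 (nat_lit 4) (nat_lit 0x10000c001d000700000001000080000000000000000000000000000000) (nat_lit 0x0) (nat_lit 0xc000e000300000000000000000000000000000000000000000000000000000) := T_36 (nat_lit 229) (nat_lit 246) (nat_lit 7) (nat_lit 7) (nat_lit 10) L78429 (by decide +kernel)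
theorem L78431 : W_36 (nat_lit 5) (nat_lit 0x10000c000d000700000001000080000000000000000000000000000000) (nat_lit 0x0) (nat_lit 0xc000e000300030000000000000000000000000000000000000000000000000) := T_36 (nat_lit 196) (nat_lit 197) (nat_lit 1) (nat_lit 10) (nat_lit 11) L78430 (by decide +kernel)
theorem L78432 : W_36 (nat_lit 6) (nat_lit 0xc000d000700000001000080000000000000000000000000000000) (nat_lit 0x0) (nat_lit 0xe000f000300030000000000000000000000000000000000000000000000000) := T_36 (nat_lit 228) (nat_lit 245) (nat_lit 6) (nat_lit 7) (nat_lit 14) L78431 (by decide +kernel)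
theorem L78433 : W_36 (nat_lit 10) (nat_lit 0x8000d000700000001000080000000000000000000000000000000) (nat_lit 0x0) (nat_lit 0xe000fe00f70070800000000000000000000000000000000000000000000000) := Q_36 (nat_lit 210) (C_36 L78407 (C_36 L78414 (C_36 L78418 (C_36 L78422 (C_36 L78427 (C_36 L78432 N_36)))))) (by decide +kernel)
theorem L78434 : W_36 (nat_lit 2) (nat_lit 0x2000000008001f000700000001000080000000000000000000000000000000) (nat_lit 0x0) (nat_lit 0x700000000000000000000000000000000000000000000000000000) := D_36 (nat_lit 213) (nat_lit 212) (nat_lit 214) (nat_lit 3) (nat_lit 5) (nat_lit 11) (nat_lit 3) (nat_lit 6) (nat_lit 11) (by decide +kernel)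
theorem L78435 : W_36 (nat_lit 3) (nat_lit 0x2000000008000f000700000001000080000000000000000000000000000000) (nat_lit 0x0) (nat_lit 0x700030000000000000000000000000000000000000000000000000) := T_36 (nat_lit 196) (nat_lit 197) (nat_lit 0) (nat_lit 10) (nat_lit 11) L78434 (by decide +kernel)
theorem L78436 : W_36 (nat_lit 4) (nat_lit 0x2000000008000d000700000001000080000000000000000000000000000000) (nat_lit 0x0) (nat_lit 0x700032800000000000000000000000000000000000000000000000) := T_36 (nat_lit 193) (nat_lit 191) (nat_lit 2) (nat_lit 4) (nat_lit 11) L78435 (by decide +kernel)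
theorem L78437 : W_36 (nat_lit 5) (nat_lit 0x8000d000700000001000080000000000000000000000000000000) (nat_lit 0x0) (nat_lit 0x20001000700032800000000000000000000000000000000000000000000000) := T_36 (nat_lit 245) (nat_lit 228) (nat_lit 6) (nat_lit 7) (nat_lit 14) L78436 (by decide +kernel)
theorem L78438 : W_36 (nat_lit 11) (nat_lit 0x80005000700000001000080000000000000000000000000000000) (nat_lit 0x0) (nat_lit 0xe000fe00f7007a800000000000000000000000000000000000000000000000) := Q_36 (nat_lit 195) (C_36 L78368 (C_36 L78395 (C_36 L78399 (C_36 L78433 (C_36 L78437 N_36))))) (by decide +kernel)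
theorem L78439 : W_36 (nat_lit 2) (nat_lit 0x1e0005000700000001000080000000000000000000000000000000) (nat_lit 0x0) (nat_lit 0x10018000000000000000000000000000000000000000000000000) := D_36 (nat_lit 195) (nat_lit 208) (nat_lit 196) (nat_lit 2) (nat_lit 4) (nat_lit 12) (nat_lit 2) (nat_lit 5) (nat_lit 12) (by decide +kernel)
theorem L78440 : W_36 (nat_lit 3) (nat_lit 0xe0005000700000001000080000000000000000000000000000000) (nat_lit 0x0) (nat_lit 0x110018800000000000000000000000000000000000000000000000) := T_36 (nat_lit 212) (nat_lit 191) (nat_lit 0) (nat_lit 8) (nat_lit 12) L78439 (by decide +kernel)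
theorem L78441 : W_36 (nat_lit 2) (nat_lit 0x44001e0005000700000001000080000000000000000000000000000000) (nat_lit 0x0) (nat_lit 0x8800200000000000000000000000000000000000000000000000000000) := D_36 (nat_lit 213) (nat_lit 227) (nat_lit 231) (nat_lit 1) (nat_lit 9) (nat_lit 12) (nat_lit 3) (nat_lit 6) (nat_lit 12) (by decide +kernel)
theorem L78442 : W_36 (nat_lit 3) (nat_lit 0x4001e0005000700000001000080000000000000000000000000000000) (nat_lit 0x0) (nat_lit 0xe800200000000000000000000000000000000000000000000000000000) := T_36 (nat_lit 230) (nat_lit 229) (nat_lit 3) (nat_lit 5) (nat_lit 12) L78441 (by decide +kernel)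
theorem L78443 : W_36 (nat_lit 4) (nat_lit 0x1e0005000700000001000080000000000000000000000000000000) (nat_lit 0x0) (nat_lit 0xee00200000000000000000000000000000000000000000000000000000) := T_36 (nat_lit 226) (nat_lit 225) (nat_lit 1) (nat_lit 8) (nat_lit 12) L78442 (by decide +kernel)
theorem L78444 : W_36 (nat_lit 5) (nat_lit 0xe0005000700000001000080000000000000000000000000000000) (nat_lit 0x0) (nat_lit 0xee00300000800000000000000000000000000000000000000000000000) := T_36 (nat_lit 212) (nat_lit 191) (nat_lit 0) (nat_lit 8) (nat_lit 12) L78443 (by decide +kernel)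
theorem L78445 : W_36 (nat_lit 2) (nat_lit 0xe0002000f0005800740002001000080000000000000000000000000000000) (nat_lit 0x0) (nat_lit 0x20001000080000000000000000000000000000000000) := D_36 (nat_lit 156) (nat_lit 173) (nat_lit 139) (nat_lit 4) (nat_lit 4) (nat_lit 13) (nat_lit 4) (nat_lit 4) (nat_lit 12) (by decide +kernel)
theorem L78446 : W_36 (nat_lit 3) (nat_lit 0xe0002000f0005800740000001000080000000000000000000000000000000) (nat_lit 0x0) (nat_lit 0x20003000180000000000000000000000000000000000) := T_36 (nat_lit 157) (nat_lit 140) (nat_lit 7) (nat_lit 4) (nat_lit 8) L78445 (by decide +kernel)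
theorem L78447 : W_36 (nat_lit 4) (nat_lit 0xe0002000f0005800700000001000080000000000000000000000000000000) (nat_lit 0x0) (nat_lit 0x400000000000060003000180000000000000000000000000000000000) := T_36 (nat_lit 174) (nat_lit 226) (nat_lit 7) (nat_lit 4) (nat_lit 10) L78446 (by decide +kernel)
theorem L78448 : W_36 (nat_lit 5) (nat_lit 0x60002000f0005800700000001000080000000000000000000000000000000) (nat_lit 0x0) (nat_lit 0x100008000400000000000060003000180000000000000000000000000000000000) := T_36 (nat_lit 243) (nat_lit 260) (nat_lit 7) (nat_lit 4) (nat_lit 11) L78447 (by decide +kernel)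
theorem L78449 : W_36 (nat_lit 6) (nat_lit 0x40002000f0005800700000001000080000000000000000000000000000000) (nat_lit 0x0) (nat_lit 0x14000a000400000000000060003000180000000000000000000000000000000000) := T_36 (nat_lit 241) (nat_lit 258) (nat_lit 5) (nat_lit 4) (nat_lit 11) L78448 (by decide +kernel)
theorem L78450 : W_36 (nat_lit 7) (nat_lit 0x2000f0005800700000001000080000000000000000000000000000000) (nat_lit 0x0) (nat_lit 0x1c000e000400000000000060003000180000000000000000000000000000000000) := T_36 (nat_lit 242) (nat_lit 259) (nat_lit 6) (nat_lit 4) (nat_lit 15) L78449 (by decide +kernel)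
theorem L78451 : W_36 (nat_lit 8) (nat_lit 0x2000f0005000700000001000080000000000000000000000000000000) (nat_lit 0x0) (nat_lit 0x1c000e000400000000c00060003000180000000000000000000000000000000000) := T_36 (nat_lit 191) (nat_lit 190) (nat_lit 0) (nat_lit 7) (nat_lit 12) L78450 (by decide +kernel)
theorem L78452 : W_36 (nat_lit 9) (nat_lit 0xf0005000700000001000080000000000000000000000000000000) (nat_lit 0x0) (nat_lit 0x1c000e000700000000c00060003000180000000000000000000000000000000000) := T_36 (nat_lit 225) (nat_lit 224) (nat_lit 1) (nat_lit 7) (nat_lit 12) L78451 (by decide +kernel)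
theorem L78453 : W_36 (nat_lit 10) (nat_lit 0xe0005000700000001000080000000000000000000000000000000) (nat_lit 0x0) (nat_lit 0x1c000e000700010008c00060003000180000000000000000000000000000000000) := T_36 (nat_lit 208) (nat_lit 195) (nat_lit 2) (nat_lit 4) (nat_lit 12) L78452 (by decide +kernel)
theorem L78454 : W_36 (nat_lit 2) (nat_lit 0xe000d000700000001000080000000000000000000000000000000) (nat_lit 0x0) (nat_lit 0x100030000000000000000000000000000000000000000000000000) := D_36 (nat_lit 196) (nat_lit 197) (nat_lit 212) (nat_lit 1) (nat_lit 10) (nat_lit 11) (nat_lit 2) (nat_lit 5) (nat_lit 12) (by decide +kernel)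
theorem L78455 : W_36 (nat_lit 3) (nat_lit 0xe0005000700000001000080000000000000000000000000000000) (nat_lit 0x0) (nat_lit 0x110038000000000000000000000000000000000000000000000000) := T_36 (nat_lit 195) (nat_lit 208) (nat_lit 2) (nat_lit 4) (nat_lit 12) L78454 (by decide +kernel)
theorem L78456 : W_36 (nat_lit 11) (nat_lit 0xa0005000700000001000080000000000000000000000000000000) (nat_lit 0x0) (nat_lit 0x1c000e00ef00350038c00060003000180000000000000000000000000000000000) := Q_36 (nat_lit 210) (C_36 L78440 (C_36 L78444 (C_36 L78453 (C_36 L78455 N_36)))) (by decide +kernel)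
theorem L78457 : W_36 (nat_lit 2) (nat_lit 0xe0005800700000001000080000000000000000000000000000000) (nat_lit 0x0) (nat_lit 0x10008400000000000000000000000000000000000000000000000) := D_36 (nat_lit 208) (nat_lit 190) (nat_lit 195) (nat_lit 0) (nat_lit 7) (nat_lit 12) (nat_lit 2) (nat_lit 4) (nat_lit 12) (by decide +kernel)
theorem L78458 : W_36 (nat_lit 3) (nat_lit 0xa0005800700000001000080000000000000000000000000000000) (nat_lit 0x0) (nat_lit 0x150008400000000000000000000000000000000000000000000000) := T_36 (nat_lit 210) (nat_lit 212) (nat_lit 0) (nat_lit 8) (nat_lit 12) L78457 (by decide +kernel)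
theorem L78459 : W_36 (nat_lit 4) (nat_lit 0xa0005000700000001000080000000000000000000000000000000) (nat_lit 0x0) (nat_lit 0x15000ac00000000000000000000000000000000000000000000000) := T_36 (nat_lit 191) (nat_lit 193) (nat_lit 2) (nat_lit 4) (nat_lit 11) L78458 (by decide +kernel)
theorem L78460 : W_36 (nat_lit 2) (nat_lit 0xe0005800700000001000080000000000000000000000000000000) (nat_lit 0x0) (nat_lit 0x10000600000000000000000000000000000000000000000000000) := D_36 (nat_lit 190) (nat_lit 208) (nat_lit 189) (nat_lit 0) (nat_lit 7) (nat_lit 12) (nat_lit 3) (nat_lit 2) (nat_lit 11) (by decide +kernel)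
theorem L78461 : W_36 (nat_lit 3) (nat_lit 0xa0005800700000001000080000000000000000000000000000000) (nat_lit 0x0) (nat_lit 0x150000600000000000000000000000000000000000000000000000) := T_36 (nat_lit 210) (nat_lit 212) (nat_lit 0) (nat_lit 8) (nat_lit 12) L78460 (by decide +kernel)
theorem L78462 : W_36 (nat_lit 4) (nat_lit 0xa0005000700000001000080000000000000000000000000000000) (nat_lit 0x0) (nat_lit 0x150002e00000000000000000000000000000000000000000000000) := T_36 (nat_lit 191) (nat_lit 193) (nat_lit 2) (nat_lit 4) (nat_lit 11) L78461 (by decide +kernel)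
theorem L78463 : W_36 (nat_lit 2) (nat_lit 0x80000000a000f000700000001400080000000000000000000000000000000) (nat_lit 0x0) (nat_lit 0x40030000000000000000000000000000000000000000000000000) := D_36 (nat_lit 196) (nat_lit 197) (nat_lit 210) (nat_lit 0) (nat_lit 10) (nat_lit 11) (nat_lit 1) (nat_lit 9) (nat_lit 11) (by decide +kernel)
theorem L78464 : W_36 (nat_lit 3) (nat_lit 0x80000000a0007000700000001400080000000000000000000000000000000) (nat_lit 0x0) (nat_lit 0x50038000000000000000000000000000000000000000000000000) := T_36 (nat_lit 195) (nat_lit 208) (nat_lit 1) (nat_lit 8) (nat_lit 11) L78463 (by decide +kernel)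
theorem L78465 : W_36 (nat_lit 4) (nat_lit 0xa0007000700000001400080000000000000000000000000000000) (nat_lit 0x0) (nat_lit 0x8000400050038000000000000000000000000000000000000000000000000) := T_36 (nat_lit 243) (nat_lit 226) (nat_lit 6) (nat_lit 5) (nat_lit 14) L78464 (by decide +kernel)
theorem L78466 : W_36 (nat_lit 5) (nat_lit 0xa0007000700000001000080000000000000000000000000000000) (nat_lit 0x0) (nat_lit 0x8000400050038000000008000400000000000000000000000000000000000) := T_36 (nat_lit 142) (nat_lit 159) (nat_lit 7) (nat_lit 6) (nat_lit 8) L78465 (by decide +kernel)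
theorem L78467 : W_36 (nat_lit 6) (nat_lit 0xa0005000700000001000080000000000000000000000000000000) (nat_lit 0x0) (nat_lit 0x800040005003a800000008000400000000000000000000000000000000000) := T_36 (nat_lit 193) (nat_lit 191) (nat_lit 2) (nat_lit 4) (nat_lit 11) L78466 (by decide +kernel)
theorem L78468 : W_36 (nat_lit 2) (nat_lit 0x80000000a001f000700000001400080000000000000000000000000000000) (nat_lit 0x0) (nat_lit 0x700000000000000000000000000000000000000000000000000000) := D_36 (nat_lit 213) (nat_lit 212) (nat_lit 214) (nat_lit 3) (nat_lit 5) (nat_lit 11) (nat_lit 3) (nat_lit 6) (nat_lit 11) (by decide +kernel)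
theorem L78469 : W_36 (nat_lit 3) (nat_lit 0x80000000a000f000700000001400080000000000000000000000000000000) (nat_lit 0x0) (nat_lit 0x700030000000000000000000000000000000000000000000000000) := T_36 (nat_lit 196) (nat_lit 197) (nat_lit 0) (nat_lit 10) (nat_lit 11) L78468 (by decide +kernel)
theorem L78470 : W_36 (nat_lit 4) (nat_lit 0x80000000a0007000700000001400080000000000000000000000000000000) (nat_lit 0x0) (nat_lit 0x710038000000000000000000000000000000000000000000000000) := T_36 (nat_lit 195) (nat_lit 208) (nat_lit 1) (nat_lit 8) (nat_lit 11) L78469 (by decide +kernel)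
theorem L78471 : W_36 (nat_lit 5) (nat_lit 0xa0007000700000001400080000000000000000000000000000000) (nat_lit 0x0) (nat_lit 0x8000400710038000000000000000000000000000000000000000000000000) := T_36 (nat_lit 243) (nat_lit 226) (nat_lit 6) (nat_lit 5) (nat_lit 14) L78470 (by decide +kernel)
theorem L78472 : W_36 (nat_lit 6) (nat_lit 0xa0007000700000001000080000000000000000000000000000000) (nat_lit 0x0) (nat_lit 0x8000400710038000000008000400000000000000000000000000000000000) := T_36 (nat_lit 142) (nat_lit 159) (nat_lit 7) (nat_lit 6) (nat_lit 8) L78471 (by decide +kernel)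
theorem L78473 : W_36 (nat_lit 7) (nat_lit 0xa0005000700000001000080000000000000000000000000000000) (nat_lit 0x0) (nat_lit 0x800040071003a800000008000400000000000000000000000000000000000) := T_36 (nat_lit 193) (nat_lit 191) (nat_lit 2) (nat_lit 4) (nat_lit 11) L78472 (by decide +kernel)
theorem L78474 : W_36 (nat_lit 2) (nat_lit 0xa0007000700008001000080000000000000000000000000000000) (nat_lit 0x0) (nat_lit 0x8000400040000000000000000000000000000000000000000000000000000) := D_36 (nat_lit 226) (nat_lit 243) (nat_lit 210) (nat_lit 6) (nat_lit 5) (nat_lit 14) (nat_lit 5) (nat_lit 6) (nat_lit 9) (by decide +kernel)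
theorem L78475 : W_36 (nat_lit 3) (nat_lit 0xa0007000700000001000080000000000000000000000000000000) (nat_lit 0x0) (nat_lit 0x8000400040000000000008000400000000000000000000000000000000000) := T_36 (nat_lit 159) (nat_lit 142) (nat_lit 7) (nat_lit 6) (nat_lit 8) L78474 (by decide +kernel)
theorem L78476 : W_36 (nat_lit 2) (nat_lit 0x80000000a000f000700000001000080000000000000000000000000000000) (nat_lit 0x0) (nat_lit 0x40030000000000000000000000000000000000000000000000000) := D_36 (nat_lit 196) (nat_lit 197) (nat_lit 210) (nat_lit 0) (nat_lit 10) (nat_lit 11) (nat_lit 1) (nat_lit 9) (nat_lit 11) (by decide +kernel)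
theorem L78477 : W_36 (nat_lit 3) (nat_lit 0x80000000a0007000700000001000080000000000000000000000000000000) (nat_lit 0x0) (nat_lit 0x50038000000000000000000000000000000000000000000000000) := T_36 (nat_lit 195) (nat_lit 208) (nat_lit 1) (nat_lit 8) (nat_lit 11) L78476 (by decide +kernel)
theorem L78478 : W_36 (nat_lit 4) (nat_lit 0xa0007000700000001000080000000000000000000000000000000) (nat_lit 0x0) (nat_lit 0x8000400050038000000000000000000000000000000000000000000000000) := T_36 (nat_lit 243) (nat_lit 226) (nat_lit 6) (nat_lit 5) (nat_lit 14) L78477 (by decide +kernel)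
theorem L78479 : W_36 (nat_lit 3) (nat_lit 0xa0007000700000001000080000000000000000000000000000000) (nat_lit 0x0) (nat_lit 0x50038000000000000000000000000000000000000000000000000) := T_36 (nat_lit 195) (nat_lit 208) (nat_lit 1) (nat_lit 8) (nat_lit 11) L78383 (by decide +kernel)
theorem L78480 : W_36 (nat_lit 7) (nat_lit 0xa0005000700000001000080000000000000000000000000000000) (nat_lit 0x0) (nat_lit 0x800040075003a000000008000400000000000000000000000000000000000) := Q_36 (nat_lit 193) (C_36 L78472 (C_36 L78475 (C_36 L78478 (C_36 L78479 N_36)))) (by decide +kernel)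
theorem L78481 : W_36 (nat_lit 4) (nat_lit 0xa0005000700000001000080000000000000000000000000000000) (nat_lit 0x0) (nat_lit 0x8000400040002800000008000400000000000000000000000000000000000) := T_36 (nat_lit 193) (nat_lit 191) (nat_lit 2) (nat_lit 4) (nat_lit 11) L78475 (by decide +kernel)
theorem L78482 : W_36 (nat_lit 12) (nat_lit 0x80005000700000001000080000000000000000000000000000000) (nat_lit 0x0) (nat_lit 0x1c000e00ef0077003ae0006000b000580000000000000000000000000000000000) := Q_36 (nat_lit 209) (C_36 L78456 (C_36 L78459 (C_36 L78462 (C_36 L78467 (C_36 L78473 (C_36 L78480 (C_36 L78481 N_36))))))) (by decide +kernel)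
theorem L78483 : W_36 (nat_lit 13) (nat_lit 0x5000700000001000080000000000000000000000000000000) (nat_lit 0x0) (nat_lit 0x9c00ee00ff00ff007ae0006000b000580000000000000000000000000000000000) := Q_36 (nat_lit 211) (C_36 L78393 (C_36 L78394 (C_36 L78438 (C_36 L78482 N_36)))) (by decide +kernel)
theorem L78484 : W_36 (nat_lit 14) (nat_lit 0x5000600000001000080000000000000000000000000000000) (nat_lit 0x0) (nat_lit 0x9c00ee01ff00ff007ae001e000f000780000000000000000000000000000000000) := Q_36 (nat_lit 176) (C_36 L78483 (C_36 L77211 (C_36 L77260 (C_36 L78389 N_36)))) (by decide +kernel)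
theorem L78485 : W_36 (nat_lit 2) (nat_lit 0x100004001f000700000001000080000000000000000000000000000000) (nat_lit 0x0) (nat_lit 0x30000800000000000000000000000000000000000000000000000000000000) := D_36 (nat_lit 227) (nat_lit 244) (nat_lit 245) (nat_lit 6) (nat_lit 6) (nat_lit 14) (nat_lit 7) (nat_lit 6) (nat_lit 10) (by decide +kernel)
theorem L78486 : W_36 (nat_lit 3) (nat_lit 0x100000001f000700000001000080000000000000000000000000000000) (nat_lit 0x0) (nat_lit 0x30000800060000000000000000000000000000000000000000000000000000) := T_36 (nat_lit 210) (nat_lit 209) (nat_lit 1) (nat_lit 9) (nat_lit 11) L78485 (by decide +kernel)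
theorem L78487 : W_36 (nat_lit 4) (nat_lit 0x100000000f000700000001000080000000000000000000000000000000) (nat_lit 0x0) (nat_lit 0x30000800060030000000000000000000000000000000000000000000000000) := T_36 (nat_lit 196) (nat_lit 197) (nat_lit 0) (nat_lit 10) (nat_lit 11) L78486 (by decide +kernel)
theorem L78488 : W_36 (nat_lit 2) (nat_lit 0x100000001f000700000001000080000000000000000000000000000000) (nat_lit 0x0) (nat_lit 0x700000000000000000000000000000000000000000000000000000) := D_36 (nat_lit 213) (nat_lit 212) (nat_lit 214) (nat_lit 3) (nat_lit 5) (nat_lit 11) (nat_lit 3) (nat_lit 6) (nat_lit 11) (by decide +kernel)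
theorem L78489 : W_36 (nat_lit 3) (nat_lit 0x100000000f000700000001000080000000000000000000000000000000) (nat_lit 0x0) (nat_lit 0x700030000000000000000000000000000000000000000000000000) := T_36 (nat_lit 196) (nat_lit 197) (nat_lit 0) (nat_lit 10) (nat_lit 11) L78488 (by decide +kernel)
theorem L78490 : W_36 (nat_lit 5) (nat_lit 0x1000000007000700000001000080000000000000000000000000000000) (nat_lit 0x0) (nat_lit 0x70002800760038000000000000000000000000000000000000000000000000) := Q_36 (nat_lit 195) (C_36 L77253 (C_36 L78487 (C_36 L78489 N_36))) (by decide +kernel)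
theorem L78491 : W_36 (nat_lit 6) (nat_lit 0x1000000005000700000001000080000000000000000000000000000000) (nat_lit 0x0) (nat_lit 0x7000280076003a800000000000000000000000000000000000000000000000) := T_36 (nat_lit 193) (nat_lit 191) (nat_lit 2) (nat_lit 4) (nat_lit 11) L78490 (by decide +kernel)
theorem L78492 : W_36 (nat_lit 7) (nat_lit 0x5000700000001000080000000000000000000000000000000) (nat_lit 0x0) (nat_lit 0x8000700038007e003a800000008000400020000000000000000000000000000000) := Q_36 (nat_lit 228) (C_36 L77241 (C_36 L78337 (C_36 L77258 (C_36 L78491 N_36)))) (by decide +kernel)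
theorem L78493 : W_36 (nat_lit 11) (nat_lit 0x5000600000001000080000000000000000000000000000000) (nat_lit 0x0) (nat_lit 0x800070003c007e003a8001c000e000700038000c00000000000000000000000000) := Q_36 (nat_lit 176) (C_36 L78492 (C_36 L77211 (C_36 L77260 (C_36 L77273 N_36)))) (by decide +kernel)
theorem L78494 : W_36 (nat_lit 6) (nat_lit 0x80007000700000001000080000000000000000000000000000000) (nat_lit 0x0) (nat_lit 0xc0006000770038000000000000000000000000000000000000000000000000) := Q_36 (nat_lit 195) (C_36 L78384 (C_36 L78386 (C_36 L78382 N_36))) (by decide +kernel)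
theorem L78495 : W_36 (nat_lit 7) (nat_lit 0x80005000700000001000080000000000000000000000000000000) (nat_lit 0x0) (nat_lit 0xc000600077003a800000000000000000000000000000000000000000000000) := T_36 (nat_lit 193) (nat_lit 191) (nat_lit 2) (nat_lit 4) (nat_lit 11) L78494 (by decide +kernel)
theorem L78496 : W_36 (nat_lit 8) (nat_lit 0x5000700000001000080000000000000000000000000000000) (nat_lit 0x0) (nat_lit 0x8000e00070007f003a800000008000000000000000000000000000000000000000) := Q_36 (nat_lit 211) (C_36 L78393 (C_36 L78394 (C_36 L78495 N_36))) (by decide +kernel)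
theorem L78497 : W_36 (nat_lit 11) (nat_lit 0x5000700000001000080000000000000000000000000000000) (nat_lit 0x0) (nat_lit 0xe000f600ff007a0000c000e000e00130000000000000000000000000000000) := Q_36 (nat_lit 195) (C_36 L77815 (C_36 L78388 (C_36 L78268 N_36))) (by decide +kernel)
theorem L78498 : W_36 (nat_lit 12) (nat_lit 0x5000600000001000080000000000000000000000000000000) (nat_lit 0x0) (nat_lit 0x8000e000f600ff007a8001c000e000e00130000000000000000000000000000000) := Q_36 (nat_lit 176) (C_36 L78496 (C_36 L77211 (C_36 L77260 (C_36 L78497 N_36)))) (by decide +kernel)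
theorem L78499 : W_36 (nat_lit 16) (nat_lit 0x4000600000001000080000000000000000000000000000000) (nat_lit 0x0) (nat_lit 0xbf007fc07ff01ffc1ffe07bf031f818fc00f80138001c00000000000000000000000000) := Q_36 (nat_lit 192) (C_36 L77209 (C_36 L77274 (C_36 L77368 (C_36 L77472 (C_36 L77491 (C_36 L77813 (C_36 L77870 (C_36 L77917 (C_36 L77958 (C_36 L78335 (C_36 L78336 (C_36 L78390 (C_36 L78484 (C_36 L78493 (C_36 L78498 N_36))))))))))))))) (by decide +kernel)
theorem L78500 : W_36 (nat_lit 17) (nat_lit 0x600000001000080000000000000000000000000000000) (nat_lit 0x0) (nat_lit 0xbf007fc07ff01ffc1ffe07ff031f81afc00f80138001c00000000000000000000000000) := T_36 (nat_lit 194) (nat_lit 161) (nat_lit 5) (nat_lit 8) (nat_lit 7) L78499 (by decide +kernel)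
theorem L78501 : W_36 (nat_lit 18) (nat_lit 0x200000001000080000000000000000000000000000000) (nat_lit 0x0) (nat_lit 0xbf007fc07ff03ffc1ffe1fff0fdf87efc78f83f383ffc03fe0028000000000000000000) := Q_36 (nat_lit 178) (C_36 L76289 (C_36 L76290 (C_36 L76294 (C_36 L76447 (C_36 L76596 (C_36 L76687 (C_36 L78500 N_36))))))) (by decide +kernel)
theorem L97623 : W_36 (nat_lit 2) (nat_lit 0x20000000100008000c000200010000c00080000000000) (nat_lit 0x0) (nat_lit 0x400000000000040004000000) := D_36 (nat_lit 42) (nat_lit 94) (nat_lit 26) (nat_lit 7) (nat_lit 8) (nat_lit 2) (nat_lit 6) (nat_lit 8) (nat_lit 5) (by decide +kernel)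
theorem L97624 : W_36 (nat_lit 3) (nat_lit 0x200000001000080004000200010000c00080000000000) (nat_lit 0x0) (nat_lit 0x100008000400000000000040004000000) := T_36 (nat_lit 111) (nat_lit 128) (nat_lit 7) (nat_lit 8) (nat_lit 3) L97623 (by decide +kernel)
theorem L97625 : W_36 (nat_lit 4) (nat_lit 0x200000001000080004000200010000c00000000000000) (nat_lit 0x0) (nat_lit 0x1000080004000000010000c0004000000) := T_36 (nat_lit 43) (nat_lit 60) (nat_lit 6) (nat_lit 8) (nat_lit 6) L97624 (by decide +kernel)
theorem L97626 : W_36 (nat_lit 2) (nat_lit 0x20000000180008000c000200010000c00080000000000) (nat_lit 0x0) (nat_lit 0x400000000000040004000000) := D_36 (nat_lit 42) (nat_lit 94) (nat_lit 26) (nat_lit 7) (nat_lit 8) (nat_lit 2) (nat_lit 6) (nat_lit 8) (nat_lit 5) (by decide +kernel)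
theorem L97627 : W_36 (nat_lit 2) (nat_lit 0x20000000180008000d000200010000c00080000000000) (nat_lit 0x0) (nat_lit 0x400000000000040004000000) := D_36 (nat_lit 42) (nat_lit 94) (nat_lit 26) (nat_lit 7) (nat_lit 8) (nat_lit 2) (nat_lit 6) (nat_lit 8) (nat_lit 5) (by decide +kernel)
theorem L97628 : W_36 (nat_lit 3) (nat_lit 0x20000000180008000d000200010000c00000000000000) (nat_lit 0x0) (nat_lit 0x4000000010000c0004000000) := T_36 (nat_lit 43) (nat_lit 60) (nat_lit 6) (nat_lit 8) (nat_lit 6) L97627 (by decide +kernel)
theorem L97629 : W_36 (nat_lit 4) (nat_lit 0x20000000180008000d000200010000400000000000000) (nat_lit 0x0) (nat_lit 0x4000000018000e0004000000) := T_36 (nat_lit 59) (nat_lit 41) (nat_lit 4) (nat_lit 8) (nat_lit 6) L97628 (by decide +kernel)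
theorem L97630 : W_36 (nat_lit 5) (nat_lit 0x20000000100008000d000200010000400000000000000) (nat_lit 0x0) (nat_lit 0x100008000000000004000000018000e0004000000) := T_36 (nat_lit 143) (nat_lit 160) (nat_lit 5) (nat_lit 8) (nat_lit 5) L97629 (by decide +kernel)
theorem L97631 : W_36 (nat_lit 2) (nat_lit 0x200000001000080005800280004000600010000000000) (nat_lit 0x0) (nat_lit 0x100008000400000) := D_36 (nat_lit 39) (nat_lit 22) (nat_lit 56) (nat_lit 4) (nat_lit 6) (nat_lit 5) (nat_lit 4) (nat_lit 6) (nat_lit 6) (by decide +kernel)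
theorem L97632 : W_36 (nat_lit 3) (nat_lit 0x200000001000080005800280004000600000000000000) (nat_lit 0x0) (nat_lit 0x40000000100018000400000) := T_36 (nat_lit 40) (nat_lit 90) (nat_lit 5) (nat_lit 6) (nat_lit 2) L97631 (by decide +kernel)
theorem L97633 : W_36 (nat_lit 4) (nat_lit 0x200000001000080005000280004000600000000000000) (nat_lit 0x0) (nat_lit 0x10000800040000000100018000400000) := T_36 (nat_lit 107) (nat_lit 124) (nat_lit 5) (nat_lit 6) (nat_lit 3) L97632 (by decide +kernel)
theorem L97634 : W_36 (nat_lit 5) (nat_lit 0x200000001000080005000280004000400000000000000) (nat_lit 0x0) (nat_lit 0x10000800040000000300038000400000) := T_36 (nat_lit 57) (nat_lit 41) (nat_lit 6) (nat_lit 6) (nat_lit 6) L97633 (by decide +kernel)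
theorem L97635 : W_36 (nat_lit 2) (nat_lit 0x200000001800080005000280006000700000000000000) (nat_lit 0x0) (nat_lit 0x1800800000000000000) := D_36 (nat_lit 72) (nat_lit 71) (nat_lit 59) (nat_lit 2) (nat_lit 3) (nat_lit 4) (nat_lit 1) (nat_lit 8) (nat_lit 3) (by decide +kernel)
theorem L97636 : W_36 (nat_lit 3) (nat_lit 0x200000001800080005000280004000700000000000000) (nat_lit 0x0) (nat_lit 0x20000000000003800800000000000000) := T_36 (nat_lit 73) (nat_lit 125) (nat_lit 4) (nat_lit 6) (nat_lit 7) L97635 (by decide +kernel)
theorem L97637 : W_36 (nat_lit 4) (nat_lit 0x200000001800080005000280004000600000000000000) (nat_lit 0x0) (nat_lit 0x20000000000003800900008000000000) := T_36 (nat_lit 56) (nat_lit 39) (nat_lit 4) (nat_lit 6) (nat_lit 6) L97636 (by decide +kernel)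
theorem L97638 : W_36 (nat_lit 5) (nat_lit 0x200000001800080005000280004000400000000000000) (nat_lit 0x0) (nat_lit 0x20000000000003800b00028000000000) := T_36 (nat_lit 57) (nat_lit 41) (nat_lit 6) (nat_lit 6) (nat_lit 6) L97637 (by decide +kernel)
theorem L97639 : W_36 (nat_lit 6) (nat_lit 0x200000001000080005000280004000400000000000000) (nat_lit 0x0) (nat_lit 0x10000800020000000000003800b00028000000000) := T_36 (nat_lit 143) (nat_lit 160) (nat_lit 5) (nat_lit 8) (nat_lit 5) L97638 (by decide +kernel)
theorem L97640 : W_36 (nat_lit 2) (nat_lit 0x20000000100008000c000200010000800040000000000) (nat_lit 0x0) (nat_lit 0x400020001000000) := D_36 (nat_lit 41) (nat_lit 58) (nat_lit 24) (nat_lit 4) (nat_lit 8) (nat_lit 6) (nat_lit 4) (nat_lit 8) (nat_lit 5) (by decide +kernel)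
theorem L97641 : W_36 (nat_lit 3) (nat_lit 0x20000000100008000c000200010000800000000000000) (nat_lit 0x0) (nat_lit 0x400000000400060001000000) := T_36 (nat_lit 42) (nat_lit 94) (nat_lit 7) (nat_lit 8) (nat_lit 2) L97640 (by decide +kernel)
theorem L97642 : W_36 (nat_lit 4) (nat_lit 0x20000000100008000c000200010000000000000000000) (nat_lit 0x0) (nat_lit 0x100000000400000000c00060001000000) := T_36 (nat_lit 59) (nat_lit 128) (nat_lit 7) (nat_lit 8) (nat_lit 3) L97641 (by decide +kernel)
theorem L97643 : W_36 (nat_lit 2) (nat_lit 0x200000001a001a001f000a00000000000000000000000) (nat_lit 0x0) (nat_lit 0x60000100000000000000000000000) := D_36 (nat_lit 113) (nat_lit 114) (nat_lit 92) (nat_lit 1) (nat_lit 12) (nat_lit 6) (nat_lit 0) (nat_lit 11) (nat_lit 6) (by decide +kernel)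
theorem L97644 : W_36 (nat_lit 3) (nat_lit 0x200000001a001a000f000a00000000000000000000000) (nat_lit 0x0) (nat_lit 0x70001100000000000000000000000) := T_36 (nat_lit 112) (nat_lit 96) (nat_lit 2) (nat_lit 7) (nat_lit 6) L97643 (by decide +kernel)
theorem L97645 : W_36 (nat_lit 4) (nat_lit 0x200000001a0018000f000a00000000000000000000000) (nat_lit 0x0) (nat_lit 0x30070001100000000000000000000000) := T_36 (nat_lit 125) (nat_lit 124) (nat_lit 1) (nat_lit 9) (nat_lit 6) L97644 (by decide +kernel)
theorem L97646 : W_36 (nat_lit 5) (nat_lit 0x200000001a0018000f000200000000000000000000000) (nat_lit 0x0) (nat_lit 0x30070001d00000000000000000000000) := T_36 (nat_lit 95) (nat_lit 94) (nat_lit 2) (nat_lit 6) (nat_lit 6) L97645 (by decide +kernel)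
theorem L97647 : W_36 (nat_lit 6) (nat_lit 0x20000000180018000f000200000000000000000000000) (nat_lit 0x0) (nat_lit 0x600030070001d00000000000000000000000) := T_36 (nat_lit 141) (nat_lit 142) (nat_lit 2) (nat_lit 5) (nat_lit 8) L97646 (by decide +kernel)
theorem L97648 : W_36 (nat_lit 7) (nat_lit 0x20000000180008000f000200000000000000000000000) (nat_lit 0x0) (nat_lit 0x600330070001d00000000000000000000000) := T_36 (nat_lit 128) (nat_lit 129) (nat_lit 3) (nat_lit 6) (nat_lit 6) L97647 (by decide +kernel)
theorem L97649 : W_36 (nat_lit 8) (nat_lit 0x20000000100008000f000200000000000000000000000) (nat_lit 0x0) (nat_lit 0x10000e00330070001d00000000000000000000000) := T_36 (nat_lit 143) (nat_lit 160) (nat_lit 5) (nat_lit 8) (nat_lit 5) L97648 (by decide +kernel)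
theorem L97650 : W_36 (nat_lit 2) (nat_lit 0x20000000100028000f000680000000000000000000000) (nat_lit 0x0) (nat_lit 0x400010000100000000000000000000000) := D_36 (nat_lit 112) (nat_lit 130) (nat_lit 92) (nat_lit 3) (nat_lit 7) (nat_lit 6) (nat_lit 3) (nat_lit 6) (nat_lit 5) (by decide +kernel)
theorem L97651 : W_36 (nat_lit 3) (nat_lit 0x20000000100028000f000600000000000000000000000) (nat_lit 0x0) (nat_lit 0x4000100001c0000000000000000000000) := T_36 (nat_lit 91) (nat_lit 90) (nat_lit 0) (nat_lit 9) (nat_lit 6) L97650 (by decide +kernel)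
theorem L97652 : W_36 (nat_lit 4) (nat_lit 0x20000000100008000f000600000000000000000000000) (nat_lit 0x0) (nat_lit 0x7000100001c0000000000000000000000) := T_36 (nat_lit 129) (nat_lit 128) (nat_lit 3) (nat_lit 6) (nat_lit 6) L97651 (by decide +kernel)
theorem L97653 : W_36 (nat_lit 5) (nat_lit 0x20000000100008000f000200000000000000000000000) (nat_lit 0x0) (nat_lit 0x700010000dc0000000000000000000000) := T_36 (nat_lit 94) (nat_lit 95) (nat_lit 2) (nat_lit 6) (nat_lit 6) L97652 (by decide +kernel)
theorem L97654 : W_36 (nat_lit 2) (nat_lit 0x2000000018000a003f000680000000000000000000000) (nat_lit 0x0) (nat_lit 0xe00000000000000000000000000000000) := D_36 (nat_lit 130) (nat_lit 129) (nat_lit 131) (nat_lit 3) (nat_lit 7) (nat_lit 6) (nat_lit 3) (nat_lit 8) (nat_lit 6) (by decide +kernel)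
theorem L97655 : W_36 (nat_lit 3) (nat_lit 0x2000000018000a001f000680000000000000000000000) (nat_lit 0x0) (nat_lit 0xe00060000000000000000000000000000) := T_36 (nat_lit 113) (nat_lit 114) (nat_lit 0) (nat_lit 12) (nat_lit 6) L97654 (by decide +kernel)
theorem L97656 : W_36 (nat_lit 4) (nat_lit 0x2000000018000a000f000680000000000000000000000) (nat_lit 0x0) (nat_lit 0xe00070000100000000000000000000000) := T_36 (nat_lit 112) (nat_lit 92) (nat_lit 3) (nat_lit 6) (nat_lit 5) L97655 (by decide +kernel)
theorem L97657 : W_36 (nat_lit 5) (nat_lit 0x2000000010000a000f000680000000000000000000000) (nat_lit 0x0) (nat_lit 0x10000800e00070000100000000000000000000000) := T_36 (nat_lit 143) (nat_lit 160) (nat_lit 5) (nat_lit 8) (nat_lit 5) L97656 (by decide +kernel)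
theorem L97658 : W_36 (nat_lit 6) (nat_lit 0x2000000010000a000f000600000000000000000000000) (nat_lit 0x0) (nat_lit 0x10000800e000700001c0000000000000000000000) := T_36 (nat_lit 91) (nat_lit 90) (nat_lit 0) (nat_lit 9) (nat_lit 6) L97657 (by decide +kernel)
theorem L97659 : W_36 (nat_lit 7) (nat_lit 0x2000000010000a000f000200000000000000000000000) (nat_lit 0x0) (nat_lit 0x10000800e00070000dc0000000000000000000000) := T_36 (nat_lit 94) (nat_lit 95) (nat_lit 2) (nat_lit 6) (nat_lit 6) L97658 (by decide +kernel)
theorem L97660 : W_36 (nat_lit 8) (nat_lit 0x20000000100008000f000200000000000000000000000) (nat_lit 0x0) (nat_lit 0x10000800e30070000dc0000000000000000000000) := T_36 (nat_lit 125) (nat_lit 124) (nat_lit 1) (nat_lit 9) (nat_lit 6) L97659 (by decide +kernel)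
theorem L97661 : W_36 (nat_lit 2) (nat_lit 0x2000000014000a000f000200000000000000000000000) (nat_lit 0x0) (nat_lit 0x18000800000000000000000000000000000000000) := D_36 (nat_lit 160) (nat_lit 143) (nat_lit 159) (nat_lit 5) (nat_lit 8) (nat_lit 5) (nat_lit 7) (nat_lit 6) (nat_lit 6) (by decide +kernel)
theorem L97662 : W_36 (nat_lit 3) (nat_lit 0x20000000140008000f000200000000000000000000000) (nat_lit 0x0) (nat_lit 0x18000800030000000000000000000000000000000) := T_36 (nat_lit 125) (nat_lit 124) (nat_lit 1) (nat_lit 9) (nat_lit 6) L97661 (by decide +kernel)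
theorem L97663 : W_36 (nat_lit 2) (nat_lit 0x2000000014001a000f000200000000800000000000000) (nat_lit 0x0) (nat_lit 0x18000000000000000100000000000000000000000) := D_36 (nat_lit 159) (nat_lit 92) (nat_lit 160) (nat_lit 6) (nat_lit 6) (nat_lit 9) (nat_lit 7) (nat_lit 6) (nat_lit 6) (by decide +kernel)
theorem L97664 : W_36 (nat_lit 3) (nat_lit 0x20000000140018000f000200000000800000000000000) (nat_lit 0x0) (nat_lit 0x18000000030000000100000000000000000000000) := T_36 (nat_lit 125) (nat_lit 124) (nat_lit 1) (nat_lit 9) (nat_lit 6) L97663 (by decide +kernel)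
theorem L97665 : W_36 (nat_lit 4) (nat_lit 0x20000000140018000f000200000000000000000000000) (nat_lit 0x0) (nat_lit 0x18000000030000000100010000800000000000000) := T_36 (nat_lit 59) (nat_lit 76) (nat_lit 7) (nat_lit 8) (nat_lit 3) L97664 (by decide +kernel)
theorem L97666 : W_36 (nat_lit 5) (nat_lit 0x20000000140008000f000200000000000000000000000) (nat_lit 0x0) (nat_lit 0x18000000330000000100010000800000000000000) := T_36 (nat_lit 128) (nat_lit 129) (nat_lit 3) (nat_lit 6) (nat_lit 6) L97665 (by decide +kernel)
theorem L97667 : W_36 (nat_lit 2) (nat_lit 0x20000000160018000f000280000000000000000000000) (nat_lit 0x0) (nat_lit 0x4000000030000000000000000000000000000000) := D_36 (nat_lit 125) (nat_lit 124) (nat_lit 158) (nat_lit 1) (nat_lit 9) (nat_lit 6) (nat_lit 5) (nat_lit 6) (nat_lit 5) (by decide +kernel)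
theorem L97668 : W_36 (nat_lit 3) (nat_lit 0x20000000140018000f000280000000000000000000000) (nat_lit 0x0) (nat_lit 0x4000a00030000000000000000000000000000000) := T_36 (nat_lit 141) (nat_lit 143) (nat_lit 2) (nat_lit 5) (nat_lit 8) L97667 (by decide +kernel)
theorem L97669 : W_36 (nat_lit 4) (nat_lit 0x20000000140008000f000280000000000000000000000) (nat_lit 0x0) (nat_lit 0x4000a00330000000000000000000000000000000) := T_36 (nat_lit 128) (nat_lit 129) (nat_lit 3) (nat_lit 6) (nat_lit 6) L97668 (by decide +kernel)
theorem L97670 : W_36 (nat_lit 5) (nat_lit 0x20000000140008000f000200000000000000000000000) (nat_lit 0x0) (nat_lit 0x4000a003300000000c0000000000000000000000) := T_36 (nat_lit 91) (nat_lit 90) (nat_lit 0) (nat_lit 9) (nat_lit 6) L97669 (by decide +kernel)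
theorem L97671 : W_36 (nat_lit 2) (nat_lit 0x20000000140018000f000200000000000000000000000) (nat_lit 0x0) (nat_lit 0x10000a00000000000000000000000000000000000) := D_36 (nat_lit 143) (nat_lit 141) (nat_lit 160) (nat_lit 2) (nat_lit 5) (nat_lit 8) (nat_lit 5) (nat_lit 8) (nat_lit 5) (by decide +kernel)
theorem L97672 : W_36 (nat_lit 3) (nat_lit 0x20000000140008000f000200000000000000000000000) (nat_lit 0x0) (nat_lit 0x10000a00300000000000000000000000000000000) := T_36 (nat_lit 128) (nat_lit 129) (nat_lit 3) (nat_lit 6) (nat_lit 6) L97671 (by decide +kernel)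
theorem L97673 : W_36 (nat_lit 6) (nat_lit 0x20000000100008000f000200000000000000000000000) (nat_lit 0x0) (nat_lit 0x1c000e003300000001c0010000800000000000000) := Q_36 (nat_lit 142) (C_36 L97662 (C_36 L97666 (C_36 L97670 (C_36 L97672 N_36)))) (by decide +kernel)
theorem L97674 : W_36 (nat_lit 2) (nat_lit 0x2000000018000a001f000280000000000000000000000) (nat_lit 0x0) (nat_lit 0x1c00000000000000000000000) := D_36 (nat_lit 95) (nat_lit 94) (nat_lit 96) (nat_lit 2) (nat_lit 6) (nat_lit 6) (nat_lit 2) (nat_lit 7) (nat_lit 6) (by decide +kernel)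
theorem L97675 : W_36 (nat_lit 3) (nat_lit 0x2000000018000a000f000280000000000000000000000) (nat_lit 0x0) (nat_lit 0x10001d00000000000000000000000) := T_36 (nat_lit 112) (nat_lit 92) (nat_lit 0) (nat_lit 10) (nat_lit 6) L97674 (by decide +kernel)
theorem L97676 : W_36 (nat_lit 4) (nat_lit 0x2000000010000a000f000280000000000000000000000) (nat_lit 0x0) (nat_lit 0x10000800000010001d00000000000000000000000) := T_36 (nat_lit 143) (nat_lit 160) (nat_lit 5) (nat_lit 8) (nat_lit 5) L97675 (by decide +kernel)
theorem L97677 : W_36 (nat_lit 5) (nat_lit 0x2000000010000a000f000200000000000000000000000) (nat_lit 0x0) (nat_lit 0x10000800000010001dc0000000000000000000000) := T_36 (nat_lit 91) (nat_lit 90) (nat_lit 0) (nat_lit 9) (nat_lit 6) L97676 (by decide +kernel)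
theorem L97678 : W_36 (nat_lit 6) (nat_lit 0x20000000100008000f000200000000000000000000000) (nat_lit 0x0) (nat_lit 0x10000800030010001dc0000000000000000000000) := T_36 (nat_lit 125) (nat_lit 124) (nat_lit 1) (nat_lit 9) (nat_lit 6) L97677 (by decide +kernel)
theorem L97679 : W_36 (nat_lit 2) (nat_lit 0x20000000100028000f000a00000000000000000000000) (nat_lit 0x0) (nat_lit 0x400010001000000000000000000000000) := D_36 (nat_lit 112) (nat_lit 130) (nat_lit 96) (nat_lit 3) (nat_lit 7) (nat_lit 6) (nat_lit 2) (nat_lit 7) (nat_lit 6) (by decide +kernel)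
theorem L97680 : W_36 (nat_lit 3) (nat_lit 0x20000000100008000f000a00000000000000000000000) (nat_lit 0x0) (nat_lit 0x700010001000000000000000000000000) := T_36 (nat_lit 129) (nat_lit 128) (nat_lit 3) (nat_lit 6) (nat_lit 6) L97679 (by decide +kernel)
theorem L97681 : W_36 (nat_lit 4) (nat_lit 0x20000000100008000f000200000000000000000000000) (nat_lit 0x0) (nat_lit 0x700010001c00000000000000000000000) := T_36 (nat_lit 95) (nat_lit 94) (nat_lit 2) (nat_lit 6) (nat_lit 6) L97680 (by decide +kernel)
theorem L97682 : W_36 (nat_lit 9) (nat_lit 0x200000001000080007000200000000000000000000000) (nat_lit 0x0) (nat_lit 0x1c000e00f30078001dc0010000800000000000000) := Q_36 (nat_lit 111) (C_36 L97649 (C_36 L97653 (C_36 L97660 (C_36 L97673 (C_36 L97678 (C_36 L97681 N_36)))))) (by decide +kernel)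
theorem L97683 : W_36 (nat_lit 2) (nat_lit 0x200000001000080007000200000000000000000000000) (nat_lit 0x0) (nat_lit 0x100000800400000000000000000000000) := D_36 (nat_lit 107) (nat_lit 94) (nat_lit 128) (nat_lit 2) (nat_lit 5) (nat_lit 6) (nat_lit 3) (nat_lit 5) (nat_lit 6) (by decide +kernel)
theorem L97684 : W_36 (nat_lit 2) (nat_lit 0x200000001800080007c00200000000000000000000000) (nat_lit 0x0) (nat_lit 0x1c000000000000000000000000000000) := D_36 (nat_lit 123) (nat_lit 122) (nat_lit 124) (nat_lit 1) (nat_lit 7) (nat_lit 6) (nat_lit 1) (nat_lit 8) (nat_lit 6) (by decide +kernel)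
theorem L97685 : W_36 (nat_lit 3) (nat_lit 0x200000001800080007800200000000000000000000000) (nat_lit 0x0) (nat_lit 0x1c000400100000000000000000000000) := T_36 (nat_lit 106) (nat_lit 92) (nat_lit 2) (nat_lit 4) (nat_lit 6) L97684 (by decide +kernel)
theorem L97686 : W_36 (nat_lit 4) (nat_lit 0x200000001800080007000200000000000000000000000) (nat_lit 0x0) (nat_lit 0x1c000c00500000000000000000000000) := T_36 (nat_lit 107) (nat_lit 94) (nat_lit 2) (nat_lit 5) (nat_lit 6) L97685 (by decide +kernel)
theorem L97687 : W_36 (nat_lit 5) (nat_lit 0x200000001000080007000200000000000000000000000) (nat_lit 0x0) (nat_lit 0x1000080001c000c00500000000000000000000000) := T_36 (nat_lit 143) (nat_lit 160) (nat_lit 5) (nat_lit 8) (nat_lit 5) L97686 (by decide +kernel)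
theorem L97688 : W_36 (nat_lit 2) (nat_lit 0x200000001000080007c00200000000000000000000000) (nat_lit 0x0) (nat_lit 0x1c000000000000000000000000000000) := D_36 (nat_lit 123) (nat_lit 122) (nat_lit 124) (nat_lit 1) (nat_lit 7) (nat_lit 6) (nat_lit 1) (nat_lit 8) (nat_lit 6) (by decide +kernel)
theorem L97689 : W_36 (nat_lit 3) (nat_lit 0x200000001000080007800200000000000000000000000) (nat_lit 0x0) (nat_lit 0x1c000400100000000000000000000000) := T_36 (nat_lit 106) (nat_lit 92) (nat_lit 2) (nat_lit 4) (nat_lit 6) L97688 (by decide +kernel)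
theorem L97690 : W_36 (nat_lit 4) (nat_lit 0x200000001000080007000200000000000000000000000) (nat_lit 0x0) (nat_lit 0x11c000c00100000000000000000000000) := T_36 (nat_lit 107) (nat_lit 128) (nat_lit 3) (nat_lit 5) (nat_lit 6) L97689 (by decide +kernel)
theorem L97691 : W_36 (nat_lit 10) (nat_lit 0x200000001000080005000200000000000000000000000) (nat_lit 0x0) (nat_lit 0x1c000e00f3c07ac01dc0010000800000000000000) := Q_36 (nat_lit 109) (C_36 L97682 (C_36 L97683 (C_36 L97687 (C_36 L97690 N_36)))) (by decide +kernel)
theorem L97692 : W_36 (nat_lit 2) (nat_lit 0x200000001800090007800240000000000000000000000) (nat_lit 0x0) (nat_lit 0x20008000080000000000000000000000) := D_36 (nat_lit 111) (nat_lit 125) (nat_lit 91) (nat_lit 1) (nat_lit 9) (nat_lit 6) (nat_lit 0) (nat_lit 9) (nat_lit 6) (by decide +kernel)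
theorem L97693 : W_36 (nat_lit 3) (nat_lit 0x200000001800090007800200000000000000000000000) (nat_lit 0x0) (nat_lit 0x200080000e0000000000000000000000) := T_36 (nat_lit 90) (nat_lit 89) (nat_lit 0) (nat_lit 8) (nat_lit 6) L97692 (by decide +kernel)
theorem L97694 : W_36 (nat_lit 4) (nat_lit 0x200000001800080007800200000000000000000000000) (nat_lit 0x0) (nat_lit 0x380080000e0000000000000000000000) := T_36 (nat_lit 124) (nat_lit 123) (nat_lit 1) (nat_lit 8) (nat_lit 6) L97693 (by decide +kernel)
theorem L97695 : W_36 (nat_lit 5) (nat_lit 0x200000001800080007000200000000000000000000000) (nat_lit 0x0) (nat_lit 0x380088004e0000000000000000000000) := T_36 (nat_lit 107) (nat_lit 94) (nat_lit 2) (nat_lit 5) (nat_lit 6) L97694 (by decide +kernel)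
theorem L97696 : W_36 (nat_lit 6) (nat_lit 0x200000001000080007000200000000000000000000000) (nat_lit 0x0) (nat_lit 0x100008000380088004e0000000000000000000000) := T_36 (nat_lit 143) (nat_lit 160) (nat_lit 5) (nat_lit 8) (nat_lit 5) L97695 (by decide +kernel)
theorem L97697 : W_36 (nat_lit 2) (nat_lit 0x200000001000090007800240000000000000000000000) (nat_lit 0x0) (nat_lit 0x20008000080000000000000000000000) := D_36 (nat_lit 111) (nat_lit 125) (nat_lit 91) (nat_lit 1) (nat_lit 9) (nat_lit 6) (nat_lit 0) (nat_lit 9) (nat_lit 6) (by decide +kernel)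
theorem L97698 : W_36 (nat_lit 3) (nat_lit 0x200000001000090007800200000000000000000000000) (nat_lit 0x0) (nat_lit 0x200080000e0000000000000000000000) := T_36 (nat_lit 90) (nat_lit 89) (nat_lit 0) (nat_lit 8) (nat_lit 6) L97697 (by decide +kernel)
theorem L97699 : W_36 (nat_lit 4) (nat_lit 0x200000001000080007800200000000000000000000000) (nat_lit 0x0) (nat_lit 0x380080000e0000000000000000000000) := T_36 (nat_lit 124) (nat_lit 123) (nat_lit 1) (nat_lit 8) (nat_lit 6) L97698 (by decide +kernel)
theorem L97700 : W_36 (nat_lit 5) (nat_lit 0x200000001000080007000200000000000000000000000) (nat_lit 0x0) (nat_lit 0x1380088000e0000000000000000000000) := T_36 (nat_lit 107) (nat_lit 128) (nat_lit 3) (nat_lit 5) (nat_lit 6) L97699 (by decide +kernel)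
theorem L97701 : W_36 (nat_lit 2) (nat_lit 0x200004001e00080005800200000000000000000000000) (nat_lit 0x0) (nat_lit 0x18000000080000000000000000000000) := D_36 (nat_lit 124) (nat_lit 123) (nat_lit 91) (nat_lit 0) (nat_lit 8) (nat_lit 8) (nat_lit 6) (nat_lit 5) (nat_lit 9) (by decide +kernel)
theorem L97702 : W_36 (nat_lit 3) (nat_lit 0x200000001e00080005800200000000000000000000000) (nat_lit 0x0) (nat_lit 0x6000000018000000080000000000000000000000) := T_36 (nat_lit 158) (nat_lit 157) (nat_lit 1) (nat_lit 8) (nat_lit 8) L97701 (by decide +kernel)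
theorem L97703 : W_36 (nat_lit 4) (nat_lit 0x200000001a00080005800200000000000000000000000) (nat_lit 0x0) (nat_lit 0x6000400118000000080000000000000000000000) := T_36 (nat_lit 142) (nat_lit 128) (nat_lit 2) (nat_lit 5) (nat_lit 8) L97702 (by decide +kernel)
theorem L97704 : W_36 (nat_lit 5) (nat_lit 0x200000001200080005800200000000000000000000000) (nat_lit 0x0) (nat_lit 0x16000c00118000000080000000000000000000000) := T_36 (nat_lit 143) (nat_lit 160) (nat_lit 5) (nat_lit 8) (nat_lit 5) L97703 (by decide +kernel)
theorem L97705 : W_36 (nat_lit 2) (nat_lit 0x200006001200090005800240000000000000000000000) (nat_lit 0x0) (nat_lit 0x400020001000000000000000000) := D_36 (nat_lit 89) (nat_lit 72) (nat_lit 106) (nat_lit 4) (nat_lit 5) (nat_lit 8) (nat_lit 4) (nat_lit 5) (nat_lit 9) (by decide +kernel)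
theorem L97706 : W_36 (nat_lit 3) (nat_lit 0x200006001200090005800200000000000000000000000) (nat_lit 0x0) (nat_lit 0x100000000400060001000000000000000000) := T_36 (nat_lit 90) (nat_lit 140) (nat_lit 5) (nat_lit 5) (nat_lit 5) L97705 (by decide +kernel)
theorem L97707 : W_36 (nat_lit 4) (nat_lit 0x200004001200090005800200000000000000000000000) (nat_lit 0x0) (nat_lit 0x40002000100000000400060001000000000000000000) := T_36 (nat_lit 157) (nat_lit 174) (nat_lit 5) (nat_lit 5) (nat_lit 6) L97706 (by decide +kernel)
theorem L97708 : W_36 (nat_lit 5) (nat_lit 0x200000001200090005800200000000000000000000000) (nat_lit 0x0) (nat_lit 0x400060001000000004000e0001000000000000000000) := T_36 (nat_lit 158) (nat_lit 91) (nat_lit 6) (nat_lit 5) (nat_lit 9) L97707 (by decide +kernel)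
theorem L97709 : W_36 (nat_lit 2) (nat_lit 0x2000000013000900058002e8002000000000000000000) (nat_lit 0x0) (nat_lit 0x400020000000000000000100000000000000) := D_36 (nat_lit 125) (nat_lit 142) (nat_lit 56) (nat_lit 7) (nat_lit 5) (nat_lit 4) (nat_lit 7) (nat_lit 5) (nat_lit 3) (by decide +kernel)
theorem L97710 : W_36 (nat_lit 3) (nat_lit 0x2000000013000900058002e8000000000000000000000) (nat_lit 0x0) (nat_lit 0x400028000000000002000100000000000000) := T_36 (nat_lit 73) (nat_lit 123) (nat_lit 5) (nat_lit 5) (nat_lit 4) L97709 (by decide +kernel)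
theorem L97711 : W_36 (nat_lit 4) (nat_lit 0x2000000012000900058002e8000000000000000000000) (nat_lit 0x0) (nat_lit 0x2000500028000000000002000100000000000000) := T_36 (nat_lit 140) (nat_lit 157) (nat_lit 5) (nat_lit 5) (nat_lit 5) L97710 (by decide +kernel)
theorem L97712 : W_36 (nat_lit 5) (nat_lit 0x200000001200090005800268000000000000000000000) (nat_lit 0x0) (nat_lit 0x2000500028000000080006000100000000000000) := T_36 (nat_lit 91) (nat_lit 74) (nat_lit 6) (nat_lit 5) (nat_lit 8) L97711 (by decide +kernel)
theorem L97713 : W_36 (nat_lit 6) (nat_lit 0x200000001200090005800260000000000000000000000) (nat_lit 0x0) (nat_lit 0x2000500028000000098006000100000000000000) := T_36 (nat_lit 87) (nat_lit 88) (nat_lit 3) (nat_lit 2) (nat_lit 5) L97712 (by decide +kernel)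
theorem L97714 : W_36 (nat_lit 7) (nat_lit 0x200000001200090005800240000000000000000000000) (nat_lit 0x0) (nat_lit 0x20005000280000000b8007000100000000000000) := T_36 (nat_lit 89) (nat_lit 72) (nat_lit 4) (nat_lit 5) (nat_lit 8) L97713 (by decide +kernel)
theorem L97715 : W_36 (nat_lit 2) (nat_lit 0x200000001300090005800240002000000000000000000) (nat_lit 0x0) (nat_lit 0x20001000080000000000000) := D_36 (nat_lit 72) (nat_lit 55) (nat_lit 89) (nat_lit 4) (nat_lit 5) (nat_lit 7) (nat_lit 4) (nat_lit 5) (nat_lit 8) (by decide +kernel)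
theorem L97716 : W_36 (nat_lit 3) (nat_lit 0x200000001300090005800240000000000000000000000) (nat_lit 0x0) (nat_lit 0x8000000020003000080000000000000) := T_36 (nat_lit 73) (nat_lit 123) (nat_lit 5) (nat_lit 5) (nat_lit 4) L97715 (by decide +kernel)
theorem L97717 : W_36 (nat_lit 4) (nat_lit 0x200000001200090005800240000000000000000000000) (nat_lit 0x0) (nat_lit 0x2000100008000000020003000080000000000000) := T_36 (nat_lit 140) (nat_lit 157) (nat_lit 5) (nat_lit 5) (nat_lit 5) L97716 (by decide +kernel)
theorem L97718 : W_36 (nat_lit 2) (nat_lit 0x200000001600090005800268002000000000000000000) (nat_lit 0x0) (nat_lit 0x80004000200000000000000) := D_36 (nat_lit 74) (nat_lit 91) (nat_lit 57) (nat_lit 6) (nat_lit 5) (nat_lit 8) (nat_lit 6) (nat_lit 5) (nat_lit 7) (by decide +kernel)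
theorem L97719 : W_36 (nat_lit 3) (nat_lit 0x200000001600090005800268000000000000000000000) (nat_lit 0x0) (nat_lit 0x20000000080006000200000000000000) := T_36 (nat_lit 73) (nat_lit 125) (nat_lit 7) (nat_lit 5) (nat_lit 4) L97718 (by decide +kernel)
theorem L97720 : W_36 (nat_lit 4) (nat_lit 0x200000001200090005800268000000000000000000000) (nat_lit 0x0) (nat_lit 0x8000400020000000080006000200000000000000) := T_36 (nat_lit 142) (nat_lit 159) (nat_lit 7) (nat_lit 5) (nat_lit 5) L97719 (by decide +kernel)
theorem L97721 : W_36 (nat_lit 5) (nat_lit 0x200000001200090005800260000000000000000000000) (nat_lit 0x0) (nat_lit 0x8000400020000000098006000200000000000000) := T_36 (nat_lit 87) (nat_lit 88) (nat_lit 3) (nat_lit 2) (nat_lit 5) L97720 (by decide +kernel)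
theorem L97722 : W_36 (nat_lit 6) (nat_lit 0x200000001200090005800240000000000000000000000) (nat_lit 0x0) (nat_lit 0x80004000200000000b8007000200000000000000) := T_36 (nat_lit 89) (nat_lit 72) (nat_lit 4) (nat_lit 5) (nat_lit 8) L97721 (by decide +kernel)
theorem L97723 : W_36 (nat_lit 2) (nat_lit 0x200000001700090005a002f0000800000000000000000) (nat_lit 0x0) (nat_lit 0xc000400000000000000000000000000) := D_36 (nat_lit 123) (nat_lit 106) (nat_lit 122) (nat_lit 4) (nat_lit 4) (nat_lit 8) (nat_lit 7) (nat_lit 3) (nat_lit 4) (by decide +kernel)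
theorem L97724 : W_36 (nat_lit 3) (nat_lit 0x2000000017000900058002f0000800000000000000000) (nat_lit 0x0) (nat_lit 0xc000700000000000000000000000000) := T_36 (nat_lit 105) (nat_lit 104) (nat_lit 1) (nat_lit 6) (nat_lit 5) L97723 (by decide +kernel)
theorem L97725 : W_36 (nat_lit 4) (nat_lit 0x2000000017000900058002f0000000000000000000000) (nat_lit 0x0) (nat_lit 0xc000700000000c00000000000000000) := T_36 (nat_lit 71) (nat_lit 70) (nat_lit 0) (nat_lit 6) (nat_lit 5) L97724 (by decide +kernel)
theorem L97726 : W_36 (nat_lit 5) (nat_lit 0x2000000013000900058002f0000000000000000000000) (nat_lit 0x0) (nat_lit 0x800040000c000700000000c00000000000000000) := T_36 (nat_lit 142) (nat_lit 159) (nat_lit 7) (nat_lit 5) (nat_lit 5) L97725 (by decide +kernel)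
theorem L97727 : W_36 (nat_lit 6) (nat_lit 0x2000000013000900058002e0000000000000000000000) (nat_lit 0x0) (nat_lit 0x800040000c000700018000c00000000000000000) := T_36 (nat_lit 88) (nat_lit 87) (nat_lit 3) (nat_lit 2) (nat_lit 5) L97726 (by decide +kernel)
theorem L97728 : W_36 (nat_lit 7) (nat_lit 0x2000000013000900058002c0000000000000000000000) (nat_lit 0x0) (nat_lit 0x800040000c000700038001c00000000000000000) := T_36 (nat_lit 89) (nat_lit 72) (nat_lit 4) (nat_lit 5) (nat_lit 8) L97727 (by decide +kernel)
theorem L97729 : W_36 (nat_lit 8) (nat_lit 0x2000000012000900058002c0000000000000000000000) (nat_lit 0x0) (nat_lit 0xa00050000c000700038001c00000000000000000) := T_36 (nat_lit 140) (nat_lit 157) (nat_lit 5) (nat_lit 5) (nat_lit 5) L97728 (by decide +kernel)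
theorem L97730 : W_36 (nat_lit 9) (nat_lit 0x200000001200090005800240000000000000000000000) (nat_lit 0x0) (nat_lit 0xa00050000c0007000b8005c00000000000000000) := T_36 (nat_lit 91) (nat_lit 74) (nat_lit 6) (nat_lit 5) (nat_lit 8) L97729 (by decide +kernel)
theorem L97731 : W_36 (nat_lit 2) (nat_lit 0x200000001600090005800240002000000000000000000) (nat_lit 0x0) (nat_lit 0x2000100008000000000000000000000000000000) := D_36 (nat_lit 140) (nat_lit 123) (nat_lit 157) (nat_lit 5) (nat_lit 5) (nat_lit 4) (nat_lit 5) (nat_lit 5) (nat_lit 5) (by decide +kernel)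
theorem L97732 : W_36 (nat_lit 3) (nat_lit 0x200000001600090005800240000000000000000000000) (nat_lit 0x0) (nat_lit 0x2000100028000000000002000000000000000000) := T_36 (nat_lit 73) (nat_lit 125) (nat_lit 7) (nat_lit 5) (nat_lit 4) L97731 (by decide +kernel)
theorem L97733 : W_36 (nat_lit 4) (nat_lit 0x200000001200090005800240000000000000000000000) (nat_lit 0x0) (nat_lit 0xa000500028000000000002000000000000000000) := T_36 (nat_lit 142) (nat_lit 159) (nat_lit 7) (nat_lit 5) (nat_lit 5) L97732 (by decide +kernel)
theorem L97734 : W_36 (nat_lit 10) (nat_lit 0x200000001200090005800200000000000000000000000) (nat_lit 0x0) (nat_lit 0xa00050002c0007000f8007c00380000000000000) := Q_36 (nat_lit 90) (C_36 L97714 (C_36 L97717 (C_36 L97722 (C_36 L97730 (C_36 L97733 N_36))))) (by decide +kernel)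
theorem L97735 : W_36 (nat_lit 2) (nat_lit 0x200004001200090005c00200000000000000000000000) (nat_lit 0x0) (nat_lit 0x80000000000028000000000000000000000000000000) := D_36 (nat_lit 175) (nat_lit 125) (nat_lit 123) (nat_lit 6) (nat_lit 5) (nat_lit 10) (nat_lit 4) (nat_lit 5) (nat_lit 10) (by decide +kernel)
theorem L97736 : W_36 (nat_lit 3) (nat_lit 0x200004001200090005800200000000000000000000000) (nat_lit 0x0) (nat_lit 0x80000000000028000400020000000000000000000000) := T_36 (nat_lit 106) (nat_lit 89) (nat_lit 4) (nat_lit 5) (nat_lit 9) L97735 (by decide +kernel)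
theorem L97737 : W_36 (nat_lit 2) (nat_lit 0x280004001200090005800200000000000000000000000) (nat_lit 0x0) (nat_lit 0x800040002000000000000000000000000000000000000000) := D_36 (nat_lit 174) (nat_lit 191) (nat_lit 157) (nat_lit 5) (nat_lit 5) (nat_lit 7) (nat_lit 5) (nat_lit 5) (nat_lit 6) (by decide +kernel)
theorem L97738 : W_36 (nat_lit 3) (nat_lit 0x200004001200090005800200000000000000000000000) (nat_lit 0x0) (nat_lit 0x8000c0002000000020000000000000000000000000000000) := T_36 (nat_lit 175) (nat_lit 125) (nat_lit 6) (nat_lit 5) (nat_lit 10) L97737 (by decide +kernel)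
theorem L97739 : W_36 (nat_lit 5) (nat_lit 0x200000001200090005800200000000000000000000000) (nat_lit 0x0) (nat_lit 0x8000c0006000100028000400060001000000000000000000) := Q_36 (nat_lit 158) (C_36 L97707 (C_36 L97736 (C_36 L97738 N_36))) (by decide +kernel)
theorem L97740 : W_36 (nat_lit 4) (nat_lit 0x200000001200090005800200000000000000000000000) (nat_lit 0x0) (nat_lit 0x8000c0006000000020000000080000000000000000000000) := T_36 (nat_lit 158) (nat_lit 91) (nat_lit 6) (nat_lit 5) (nat_lit 9) L97738 (by decide +kernel)
theorem L97741 : W_36 (nat_lit 4) (nat_lit 0x200000001200090005800200000000000000000000000) (nat_lit 0x0) (nat_lit 0x800040000000280004000a0000000000000000000000) := T_36 (nat_lit 158) (nat_lit 91) (nat_lit 6) (nat_lit 5) (nat_lit 9) L97736 (by decide +kernel)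
theorem L97742 : W_36 (nat_lit 11) (nat_lit 0x200000001200080005800200000000000000000000000) (nat_lit 0x0) (nat_lit 0x8000c000e00050003c0007000f8007c00380000000000000) := Q_36 (nat_lit 124) (C_36 L97708 (C_36 L97734 (C_36 L97739 (C_36 L97740 (C_36 L97741 N_36))))) (by decide +kernel)
theorem L97743 : W_36 (nat_lit 2) (nat_lit 0x200000001e00090005800240002000000000000000000) (nat_lit 0x0) (nat_lit 0x80004000200000000000000) := D_36 (nat_lit 74) (nat_lit 57) (nat_lit 91) (nat_lit 6) (nat_lit 5) (nat_lit 7) (nat_lit 6) (nat_lit 5) (nat_lit 8) (by decide +kernel)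
theorem L97744 : W_36 (nat_lit 3) (nat_lit 0x200000001e00090005800240000000000000000000000) (nat_lit 0x0) (nat_lit 0x20000000080006000200000000000000) := T_36 (nat_lit 73) (nat_lit 125) (nat_lit 7) (nat_lit 5) (nat_lit 4) L97743 (by decide +kernel)
theorem L97745 : W_36 (nat_lit 4) (nat_lit 0x200000001e00090005800200000000000000000000000) (nat_lit 0x0) (nat_lit 0x80000000200000000c0006000200000000000000) := T_36 (nat_lit 90) (nat_lit 159) (nat_lit 7) (nat_lit 5) (nat_lit 5) L97744 (by decide +kernel)
theorem L97746 : W_36 (nat_lit 5) (nat_lit 0x200000001e00080005800200000000000000000000000) (nat_lit 0x0) (nat_lit 0x80000000380000000c0006000200000000000000) := T_36 (nat_lit 124) (nat_lit 123) (nat_lit 0) (nat_lit 8) (nat_lit 8) L97745 (by decide +kernel)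
theorem L97747 : W_36 (nat_lit 6) (nat_lit 0x200000001a00080005800200000000000000000000000) (nat_lit 0x0) (nat_lit 0x80004001380000000c0006000200000000000000) := T_36 (nat_lit 142) (nat_lit 128) (nat_lit 2) (nat_lit 5) (nat_lit 8) L97746 (by decide +kernel)
theorem L97748 : W_36 (nat_lit 7) (nat_lit 0x200000001200080005800200000000000000000000000) (nat_lit 0x0) (nat_lit 0x18000c001380000000c0006000200000000000000) := T_36 (nat_lit 143) (nat_lit 160) (nat_lit 5) (nat_lit 8) (nat_lit 5) L97747 (by decide +kernel)
theorem L97749 : W_36 (nat_lit 2) (nat_lit 0x200000001a000900058002c0003000000000000000000) (nat_lit 0x0) (nat_lit 0x20000000000000000100008000000000) := D_36 (nat_lit 56) (nat_lit 39) (nat_lit 125) (nat_lit 7) (nat_lit 5) (nat_lit 2) (nat_lit 7) (nat_lit 5) (nat_lit 3) (by decide +kernel)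
theorem L97750 : W_36 (nat_lit 3) (nat_lit 0x200000001a000900058002c0001000000000000000000) (nat_lit 0x0) (nat_lit 0x20000000000002000180008000000000) := T_36 (nat_lit 73) (nat_lit 55) (nat_lit 4) (nat_lit 5) (nat_lit 7) L97749 (by decide +kernel)
theorem L97751 : W_36 (nat_lit 4) (nat_lit 0x200000001a000900058002c0000000000000000000000) (nat_lit 0x0) (nat_lit 0x20000000020003000180008000000000) := T_36 (nat_lit 72) (nat_lit 89) (nat_lit 4) (nat_lit 5) (nat_lit 8) L97750 (by decide +kernel)
theorem L97752 : W_36 (nat_lit 5) (nat_lit 0x200000001a00090005800240000000000000000000000) (nat_lit 0x0) (nat_lit 0x200000000a0007000180008000000000) := T_36 (nat_lit 91) (nat_lit 74) (nat_lit 6) (nat_lit 5) (nat_lit 8) L97751 (by decide +kernel)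
theorem L97753 : W_36 (nat_lit 6) (nat_lit 0x200000001200090005800240000000000000000000000) (nat_lit 0x0) (nat_lit 0x100008000200000000a0007000180008000000000) := T_36 (nat_lit 143) (nat_lit 160) (nat_lit 5) (nat_lit 8) (nat_lit 5) L97752 (by decide +kernel)
theorem L97754 : W_36 (nat_lit 2) (nat_lit 0x200000001b00090005a002f0000800000000000000000) (nat_lit 0x0) (nat_lit 0xc000400000000000000000000000000) := D_36 (nat_lit 123) (nat_lit 106) (nat_lit 122) (nat_lit 4) (nat_lit 4) (nat_lit 8) (nat_lit 7) (nat_lit 3) (nat_lit 4) (by decide +kernel)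
theorem L97755 : W_36 (nat_lit 3) (nat_lit 0x200000001a00090005a002f0000800000000000000000) (nat_lit 0x0) (nat_lit 0x200010000c000400000000000000000000000000) := T_36 (nat_lit 140) (nat_lit 157) (nat_lit 5) (nat_lit 5) (nat_lit 5) L97754 (by decide +kernel)
theorem L97756 : W_36 (nat_lit 4) (nat_lit 0x200000001200090005a002f0000800000000000000000) (nat_lit 0x0) (nat_lit 0x1200090000c000400000000000000000000000000) := T_36 (nat_lit 143) (nat_lit 160) (nat_lit 5) (nat_lit 8) (nat_lit 5) L97755 (by decide +kernel)
theorem L97757 : W_36 (nat_lit 5) (nat_lit 0x200000001200090005a002f0000000000000000000000) (nat_lit 0x0) (nat_lit 0x1200090000c000400000000c00000000000000000) := T_36 (nat_lit 71) (nat_lit 70) (nat_lit 0) (nat_lit 6) (nat_lit 5) L97756 (by decide +kernel)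
theorem L97758 : W_36 (nat_lit 6) (nat_lit 0x2000000012000900058002f0000000000000000000000) (nat_lit 0x0) (nat_lit 0x1200090000c000700000000c00000000000000000) := T_36 (nat_lit 105) (nat_lit 104) (nat_lit 1) (nat_lit 6) (nat_lit 5) L97757 (by decide +kernel)
theorem L97759 : W_36 (nat_lit 7) (nat_lit 0x200000001200090005800270000000000000000000000) (nat_lit 0x0) (nat_lit 0x1200090000c000700080004c00000000000000000) := T_36 (nat_lit 91) (nat_lit 74) (nat_lit 6) (nat_lit 5) (nat_lit 8) L97758 (by decide +kernel)
theorem L97760 : W_36 (nat_lit 8) (nat_lit 0x200000001200090005800260000000000000000000000) (nat_lit 0x0) (nat_lit 0x1200090000c000700098004c00000000000000000) := T_36 (nat_lit 88) (nat_lit 87) (nat_lit 3) (nat_lit 2) (nat_lit 5) L97759 (by decide +kernel)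
theorem L97761 : W_36 (nat_lit 9) (nat_lit 0x200000001200090005800240000000000000000000000) (nat_lit 0x0) (nat_lit 0x1200090000c0007000b8005c00000000000000000) := T_36 (nat_lit 89) (nat_lit 72) (nat_lit 4) (nat_lit 5) (nat_lit 8) L97760 (by decide +kernel)
theorem L97762 : W_36 (nat_lit 2) (nat_lit 0x200000001300090005800240002000000000000000000) (nat_lit 0x0) (nat_lit 0x80004000200000000000000) := D_36 (nat_lit 74) (nat_lit 91) (nat_lit 57) (nat_lit 6) (nat_lit 5) (nat_lit 8) (nat_lit 6) (nat_lit 5) (nat_lit 7) (by decide +kernel)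
theorem L97763 : W_36 (nat_lit 3) (nat_lit 0x200000001300090005800240000000000000000000000) (nat_lit 0x0) (nat_lit 0x8000000080006000200000000000000) := T_36 (nat_lit 73) (nat_lit 123) (nat_lit 5) (nat_lit 5) (nat_lit 4) L97762 (by decide +kernel)
theorem L97764 : W_36 (nat_lit 4) (nat_lit 0x200000001200090005800240000000000000000000000) (nat_lit 0x0) (nat_lit 0x2000100008000000080006000200000000000000) := T_36 (nat_lit 140) (nat_lit 157) (nat_lit 5) (nat_lit 5) (nat_lit 5) L97763 (by decide +kernel)
theorem L97765 : W_36 (nat_lit 10) (nat_lit 0x200000001200090005800200000000000000000000000) (nat_lit 0x0) (nat_lit 0x1200090002c0007000f8007c00380008000000000) := Q_36 (nat_lit 90) (C_36 L97717 (C_36 L97753 (C_36 L97761 (C_36 L97764 N_36)))) (by decide +kernel)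
theorem L97766 : W_36 (nat_lit 11) (nat_lit 0x200000001200080005800200000000000000000000000) (nat_lit 0x0) (nat_lit 0x8000c001600090003c0007000f8007c00380008000000000) := Q_36 (nat_lit 124) (C_36 L97765 (C_36 L97741 (C_36 L97739 (C_36 L97740 (C_36 L97708 N_36))))) (by decide +kernel)
theorem L97767 : W_36 (nat_lit 2) (nat_lit 0x200004001e00090005800200000000000000000000000) (nat_lit 0x0) (nat_lit 0x100008000000000000000040000000000000000000000) := D_36 (nat_lit 159) (nat_lit 90) (nat_lit 176) (nat_lit 7) (nat_lit 5) (nat_lit 5) (nat_lit 7) (nat_lit 5) (nat_lit 6) (by decide +kernel)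
theorem L97768 : W_36 (nat_lit 3) (nat_lit 0x200004001e00080005800200000000000000000000000) (nat_lit 0x0) (nat_lit 0x100008000000018000000040000000000000000000000) := T_36 (nat_lit 124) (nat_lit 123) (nat_lit 0) (nat_lit 8) (nat_lit 8) L97767 (by decide +kernel)
theorem L97769 : W_36 (nat_lit 4) (nat_lit 0x200000001e00080005800200000000000000000000000) (nat_lit 0x0) (nat_lit 0x10000e000000018000000040000000000000000000000) := T_36 (nat_lit 158) (nat_lit 157) (nat_lit 1) (nat_lit 8) (nat_lit 8) L97768 (by decide +kernel)
theorem L97770 : W_36 (nat_lit 5) (nat_lit 0x200000001a00080005800200000000000000000000000) (nat_lit 0x0) (nat_lit 0x10000e000400118000000040000000000000000000000) := T_36 (nat_lit 142) (nat_lit 128) (nat_lit 2) (nat_lit 5) (nat_lit 8) L97769 (by decide +kernel)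
theorem L97771 : W_36 (nat_lit 6) (nat_lit 0x200000001200080005800200000000000000000000000) (nat_lit 0x0) (nat_lit 0x10001e000c00118000000040000000000000000000000) := T_36 (nat_lit 143) (nat_lit 160) (nat_lit 5) (nat_lit 8) (nat_lit 5) L97770 (by decide +kernel)
theorem L97772 : W_36 (nat_lit 2) (nat_lit 0x200004001e00080005800200000000000000000000000) (nat_lit 0x0) (nat_lit 0x30000000080000000000000000000000) := D_36 (nat_lit 91) (nat_lit 125) (nat_lit 124) (nat_lit 5) (nat_lit 6) (nat_lit 5) (nat_lit 6) (nat_lit 5) (nat_lit 9) (by decide +kernel)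
theorem L97773 : W_36 (nat_lit 3) (nat_lit 0x200000001e00080005800200000000000000000000000) (nat_lit 0x0) (nat_lit 0x6000000030000000080000000000000000000000) := T_36 (nat_lit 158) (nat_lit 157) (nat_lit 1) (nat_lit 8) (nat_lit 8) L97772 (by decide +kernel)
theorem L97774 : W_36 (nat_lit 4) (nat_lit 0x200000001a00080005800200000000000000000000000) (nat_lit 0x0) (nat_lit 0x6000400130000000080000000000000000000000) := T_36 (nat_lit 142) (nat_lit 128) (nat_lit 2) (nat_lit 5) (nat_lit 8) L97773 (by decide +kernel)
theorem L97775 : W_36 (nat_lit 5) (nat_lit 0x200000001200080005800200000000000000000000000) (nat_lit 0x0) (nat_lit 0x16000c00130000000080000000000000000000000) := T_36 (nat_lit 143) (nat_lit 160) (nat_lit 5) (nat_lit 8) (nat_lit 5) L97774 (by decide +kernel)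
theorem L97776 : W_36 (nat_lit 2) (nat_lit 0x200004001e000a0005800200000000000000000000000) (nat_lit 0x0) (nat_lit 0x80008000000000000000040000000000000000000000) := D_36 (nat_lit 159) (nat_lit 90) (nat_lit 175) (nat_lit 4) (nat_lit 6) (nat_lit 9) (nat_lit 5) (nat_lit 6) (nat_lit 6) (by decide +kernel)
theorem L97777 : W_36 (nat_lit 3) (nat_lit 0x200004001e00080005800200000000000000000000000) (nat_lit 0x0) (nat_lit 0x800080000000200000000c0000000000000000000000) := T_36 (nat_lit 125) (nat_lit 91) (nat_lit 5) (nat_lit 6) (nat_lit 5) L97776 (by decide +kernel)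
theorem L97778 : W_36 (nat_lit 4) (nat_lit 0x200000001e00080005800200000000000000000000000) (nat_lit 0x0) (nat_lit 0x8000e0000000200000000c0000000000000000000000) := T_36 (nat_lit 158) (nat_lit 157) (nat_lit 1) (nat_lit 8) (nat_lit 8) L97777 (by decide +kernel)
theorem L97779 : W_36 (nat_lit 5) (nat_lit 0x200000001a00080005800200000000000000000000000) (nat_lit 0x0) (nat_lit 0x8000e0004001200000000c0000000000000000000000) := T_36 (nat_lit 142) (nat_lit 128) (nat_lit 2) (nat_lit 5) (nat_lit 8) L97778 (by decide +kernel)
theorem L97780 : W_36 (nat_lit 6) (nat_lit 0x200000001200080005800200000000000000000000000) (nat_lit 0x0) (nat_lit 0x8001e000c001200000000c0000000000000000000000) := T_36 (nat_lit 143) (nat_lit 160) (nat_lit 5) (nat_lit 8) (nat_lit 5) L97779 (by decide +kernel)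
theorem L97781 : W_36 (nat_lit 12) (nat_lit 0x200000001000080005800200000000000000000000000) (nat_lit 0x0) (nat_lit 0x8001c001e000f0013c0007000f8007c00380008000000000) := Q_36 (nat_lit 141) (C_36 L97704 (C_36 L97742 (C_36 L97748 (C_36 L97766 (C_36 L97771 (C_36 L97775 (C_36 L97780 N_36))))))) (by decide +kernel)
theorem L97782 : W_36 (nat_lit 2) (nat_lit 0x200000001000080005800200000000000000000000000) (nat_lit 0x0) (nat_lit 0x100002000400000000000000000000000) := D_36 (nat_lit 109) (nat_lit 128) (nat_lit 94) (nat_lit 3) (nat_lit 5) (nat_lit 6) (nat_lit 2) (nat_lit 5) (nat_lit 6) (by decide +kernel)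
theorem L97783 : W_36 (nat_lit 5) (nat_lit 0x200000001800080005800200000000000000000000000) (nat_lit 0x0) (nat_lit 0x3800a0004e0000000000000000000000) := T_36 (nat_lit 109) (nat_lit 94) (nat_lit 2) (nat_lit 5) (nat_lit 6) L97694 (by decide +kernel)
theorem L97784 : W_36 (nat_lit 6) (nat_lit 0x200000001000080005800200000000000000000000000) (nat_lit 0x0) (nat_lit 0x1000080003800a0004e0000000000000000000000) := T_36 (nat_lit 143) (nat_lit 160) (nat_lit 5) (nat_lit 8) (nat_lit 5) L97783 (by decide +kernel)
theorem L97785 : W_36 (nat_lit 13) (nat_lit 0x200000001000080005000200000000000000000000000) (nat_lit 0x0) (nat_lit 0x8001c001e000f0013c00af004f8007c00380008000000000) := Q_36 (nat_lit 107) (C_36 L97781 (C_36 L97782 (C_36 L97784 N_36))) (by decide +kernel)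
theorem L97786 : W_36 (nat_lit 2) (nat_lit 0x20000000100008000f000300000000000000000000000) (nat_lit 0x0) (nat_lit 0x100000c0000000000000000000000) := D_36 (nat_lit 91) (nat_lit 90) (nat_lit 112) (nat_lit 3) (nat_lit 5) (nat_lit 5) (nat_lit 0) (nat_lit 10) (nat_lit 6) (by decide +kernel)
theorem L97787 : W_36 (nat_lit 3) (nat_lit 0x20000000100008000f000200000000000000000000000) (nat_lit 0x0) (nat_lit 0x100001c0008000000000000000000) := T_36 (nat_lit 92) (nat_lit 75) (nat_lit 4) (nat_lit 8) (nat_lit 8) L97786 (by decide +kernel)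
theorem L97788 : W_36 (nat_lit 2) (nat_lit 0x20000000100008000f000200018000000000000000000) (nat_lit 0x0) (nat_lit 0x300000000000000000800000000000000) := D_36 (nat_lit 128) (nat_lit 129) (nat_lit 59) (nat_lit 3) (nat_lit 6) (nat_lit 6) (nat_lit 7) (nat_lit 8) (nat_lit 3) (by decide +kernel)
theorem L97789 : W_36 (nat_lit 3) (nat_lit 0x20000000100008000f000200008000000000000000000) (nat_lit 0x0) (nat_lit 0x300000000000010000c00000000000000) := T_36 (nat_lit 76) (nat_lit 58) (nat_lit 4) (nat_lit 8) (nat_lit 7) L97788 (by decide +kernel)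
theorem L97790 : W_36 (nat_lit 4) (nat_lit 0x20000000100008000f000200000000000000000000000) (nat_lit 0x0) (nat_lit 0x300000000100018000c00000000000000) := T_36 (nat_lit 75) (nat_lit 92) (nat_lit 4) (nat_lit 8) (nat_lit 8) L97789 (by decide +kernel)
theorem L97791 : W_36 (nat_lit 5) (nat_lit 0x200000001000080007000200000000000000000000000) (nat_lit 0x0) (nat_lit 0x700018001dc0018000c00000000000000) := Q_36 (nat_lit 111) (C_36 L97681 (C_36 L97787 (C_36 L97790 N_36))) (by decide +kernel)
theorem L97792 : W_36 (nat_lit 2) (nat_lit 0x200000001000080007000300000000000000000000000) (nat_lit 0x0) (nat_lit 0xc00400000000000000000000000) := D_36 (nat_lit 107) (nat_lit 106) (nat_lit 94) (nat_lit 2) (nat_lit 4) (nat_lit 6) (nat_lit 2) (nat_lit 5) (nat_lit 6) (by decide +kernel)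
theorem L97793 : W_36 (nat_lit 3) (nat_lit 0x200000001000080007000200000000000000000000000) (nat_lit 0x0) (nat_lit 0xc00500008000000000000000000) := T_36 (nat_lit 92) (nat_lit 75) (nat_lit 4) (nat_lit 8) (nat_lit 8) L97792 (by decide +kernel)
theorem L97794 : W_36 (nat_lit 6) (nat_lit 0x200000001000080005000200000000000000000000000) (nat_lit 0x0) (nat_lit 0x73801ac01de0018000c00000000000000) := Q_36 (nat_lit 109) (C_36 L97791 (C_36 L97793 (C_36 L97700 N_36))) (by decide +kernel)
theorem L97795 : W_36 (nat_lit 2) (nat_lit 0x2000000010000a000f000600008000400000000000000) (nat_lit 0x0) (nat_lit 0xc0004000000000000000000) := D_36 (nat_lit 91) (nat_lit 90) (nat_lit 74) (nat_lit 0) (nat_lit 9) (nat_lit 6) (nat_lit 6) (nat_lit 6) (nat_lit 7) (by decide +kernel)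
theorem L97796 : W_36 (nat_lit 3) (nat_lit 0x20000000100008000f000600008000400000000000000) (nat_lit 0x0) (nat_lit 0x300000000c0004000000000000000000) := T_36 (nat_lit 125) (nat_lit 124) (nat_lit 1) (nat_lit 9) (nat_lit 6) L97795 (by decide +kernel)
theorem L97797 : W_36 (nat_lit 4) (nat_lit 0x20000000100008000f000600008000000000000000000) (nat_lit 0x0) (nat_lit 0x300000000c0014000400000000000000) := T_36 (nat_lit 58) (nat_lit 76) (nat_lit 4) (nat_lit 8) (nat_lit 7) L97796 (by decide +kernel)
theorem L97798 : W_36 (nat_lit 5) (nat_lit 0x20000000100008000f000200008000000000000000000) (nat_lit 0x0) (nat_lit 0x30000000cc0014000400000000000000) := T_36 (nat_lit 94) (nat_lit 95) (nat_lit 2) (nat_lit 6) (nat_lit 6) L97797 (by decide +kernel)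
theorem L97799 : W_36 (nat_lit 6) (nat_lit 0x20000000100008000f000200000000000000000000000) (nat_lit 0x0) (nat_lit 0x30000000dc001c000400000000000000) := T_36 (nat_lit 75) (nat_lit 92) (nat_lit 4) (nat_lit 8) (nat_lit 8) L97798 (by decide +kernel)
theorem L97800 : W_36 (nat_lit 2) (nat_lit 0x20000000100008001f000200000000000000000000000) (nat_lit 0x0) (nat_lit 0x1c00000000000000000000000) := D_36 (nat_lit 95) (nat_lit 94) (nat_lit 96) (nat_lit 2) (nat_lit 6) (nat_lit 6) (nat_lit 2) (nat_lit 7) (nat_lit 6) (by decide +kernel)
theorem L97801 : W_36 (nat_lit 2) (nat_lit 0x20000000180008003f001280000000000000000000000) (nat_lit 0x0) (nat_lit 0xe00000000000000000000000000000000) := D_36 (nat_lit 130) (nat_lit 129) (nat_lit 131) (nat_lit 3) (nat_lit 7) (nat_lit 6) (nat_lit 3) (nat_lit 8) (nat_lit 6) (by decide +kernel)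
theorem L97802 : W_36 (nat_lit 3) (nat_lit 0x20000000180008001f001280000000000000000000000) (nat_lit 0x0) (nat_lit 0xe00020002000000000000000000000000) := T_36 (nat_lit 113) (nat_lit 97) (nat_lit 2) (nat_lit 8) (nat_lit 6) L97801 (by decide +kernel)
theorem L97803 : W_36 (nat_lit 4) (nat_lit 0x20000000100008001f001280000000000000000000000) (nat_lit 0x0) (nat_lit 0x10000800e00020002000000000000000000000000) := T_36 (nat_lit 143) (nat_lit 160) (nat_lit 5) (nat_lit 8) (nat_lit 5) L97802 (by decide +kernel)
theorem L97804 : W_36 (nat_lit 5) (nat_lit 0x20000000100008001f000280000000000000000000000) (nat_lit 0x0) (nat_lit 0x10000800e00020003800000000000000000000000) := T_36 (nat_lit 96) (nat_lit 95) (nat_lit 2) (nat_lit 7) (nat_lit 6) L97803 (by decide +kernel)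
theorem L97805 : W_36 (nat_lit 6) (nat_lit 0x20000000100008001f000200000000000000000000000) (nat_lit 0x0) (nat_lit 0x10000800e000200038c0000000000000000000000) := T_36 (nat_lit 91) (nat_lit 90) (nat_lit 0) (nat_lit 9) (nat_lit 6) L97804 (by decide +kernel)
theorem L97806 : W_36 (nat_lit 2) (nat_lit 0x2000000018004a003f002280000000000000000000000) (nat_lit 0x0) (nat_lit 0x40004400000000000000000000000) := D_36 (nat_lit 114) (nat_lit 94) (nat_lit 98) (nat_lit 0) (nat_lit 12) (nat_lit 6) (nat_lit 2) (nat_lit 9) (nat_lit 6) (by decide +kernel)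
theorem L97807 : W_36 (nat_lit 3) (nat_lit 0x2000000018004a003f000280000000000000000000000) (nat_lit 0x0) (nat_lit 0x40007400000000000000000000000) := T_36 (nat_lit 97) (nat_lit 96) (nat_lit 2) (nat_lit 8) (nat_lit 6) L97806 (by decide +kernel)
theorem L97808 : W_36 (nat_lit 4) (nat_lit 0x2000000018004a001f000280000000000000000000000) (nat_lit 0x0) (nat_lit 0x800060007400000000000000000000000) := T_36 (nat_lit 113) (nat_lit 131) (nat_lit 3) (nat_lit 8) (nat_lit 6) L97807 (by decide +kernel)
theorem L97809 : W_36 (nat_lit 5) (nat_lit 0x2000000018000a001f000280000000000000000000000) (nat_lit 0x0) (nat_lit 0xe00060007400000000000000000000000) := T_36 (nat_lit 130) (nat_lit 129) (nat_lit 3) (nat_lit 7) (nat_lit 6) L97808 (by decide +kernel)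
theorem L97810 : W_36 (nat_lit 6) (nat_lit 0x2000000018000a001f000200000000000000000000000) (nat_lit 0x0) (nat_lit 0xe000600074c0000000000000000000000) := T_36 (nat_lit 91) (nat_lit 90) (nat_lit 0) (nat_lit 9) (nat_lit 6) L97809 (by decide +kernel)
theorem L97811 : W_36 (nat_lit 7) (nat_lit 0x2000000010000a001f000200000000000000000000000) (nat_lit 0x0) (nat_lit 0x10000800e000600074c0000000000000000000000) := T_36 (nat_lit 143) (nat_lit 160) (nat_lit 5) (nat_lit 8) (nat_lit 5) L97810 (by decide +kernel)
theorem L97812 : W_36 (nat_lit 8) (nat_lit 0x20000000100008001f000200000000000000000000000) (nat_lit 0x0) (nat_lit 0x10000800e300600074c0000000000000000000000) := T_36 (nat_lit 125) (nat_lit 124) (nat_lit 1) (nat_lit 9) (nat_lit 6) L97811 (by decide +kernel)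
theorem L97813 : W_36 (nat_lit 2) (nat_lit 0x20000000100048001f000600000000000000000000000) (nat_lit 0x0) (nat_lit 0x800060000000000000000000000000000) := D_36 (nat_lit 113) (nat_lit 114) (nat_lit 131) (nat_lit 0) (nat_lit 12) (nat_lit 6) (nat_lit 3) (nat_lit 8) (nat_lit 6) (by decide +kernel)
theorem L97814 : W_36 (nat_lit 3) (nat_lit 0x20000000100048001f000200000000000000000000000) (nat_lit 0x0) (nat_lit 0x800060000c00000000000000000000000) := T_36 (nat_lit 94) (nat_lit 95) (nat_lit 2) (nat_lit 6) (nat_lit 6) L97813 (by decide +kernel)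
theorem L97815 : W_36 (nat_lit 4) (nat_lit 0x20000000100008001f000200000000000000000000000) (nat_lit 0x0) (nat_lit 0xe00060000c00000000000000000000000) := T_36 (nat_lit 130) (nat_lit 129) (nat_lit 3) (nat_lit 7) (nat_lit 6) L97814 (by decide +kernel)
theorem L97816 : W_36 (nat_lit 9) (nat_lit 0x20000000100008000f000200000000000000000000000) (nat_lit 0x0) (nat_lit 0x10000800e30070007cc0000000000000000000000) := Q_36 (nat_lit 112) (C_36 L97800 (C_36 L97805 (C_36 L97812 (C_36 L97815 N_36)))) (by decide +kernel)
theorem L97817 : W_36 (nat_lit 2) (nat_lit 0x20000000100008000f000b00000000000000000000000) (nat_lit 0x0) (nat_lit 0x30001000000000000000000000000) := D_36 (nat_lit 112) (nat_lit 113) (nat_lit 96) (nat_lit 0) (nat_lit 11) (nat_lit 6) (nat_lit 2) (nat_lit 7) (nat_lit 6) (by decide +kernel)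
theorem L97818 : W_36 (nat_lit 3) (nat_lit 0x20000000100008000f000a00000000000000000000000) (nat_lit 0x0) (nat_lit 0x30001100008000000000000000000) := T_36 (nat_lit 92) (nat_lit 75) (nat_lit 4) (nat_lit 8) (nat_lit 8) L97817 (by decide +kernel)
theorem L97819 : W_36 (nat_lit 4) (nat_lit 0x20000000100008000f000200000000000000000000000) (nat_lit 0x0) (nat_lit 0x30001d00008000000000000000000) := T_36 (nat_lit 95) (nat_lit 94) (nat_lit 2) (nat_lit 6) (nat_lit 6) L97818 (by decide +kernel)
theorem L97820 : W_36 (nat_lit 10) (nat_lit 0x200000001000080007000200000000000000000000000) (nat_lit 0x0) (nat_lit 0x10000800e30078007dc001c000400000000000000) := Q_36 (nat_lit 111) (C_36 L97787 (C_36 L97799 (C_36 L97678 (C_36 L97816 (C_36 L97819 N_36))))) (by decide +kernel)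
theorem L97821 : W_36 (nat_lit 2) (nat_lit 0x200000001800090007800340000000000000000000000) (nat_lit 0x0) (nat_lit 0x20008000080000000000000000000000) := D_36 (nat_lit 111) (nat_lit 91) (nat_lit 125) (nat_lit 3) (nat_lit 5) (nat_lit 5) (nat_lit 1) (nat_lit 9) (nat_lit 6) (by decide +kernel)
theorem L97822 : W_36 (nat_lit 3) (nat_lit 0x200000001800080007800340000000000000000000000) (nat_lit 0x0) (nat_lit 0x38008000080000000000000000000000) := T_36 (nat_lit 124) (nat_lit 123) (nat_lit 1) (nat_lit 8) (nat_lit 6) L97821 (by decide +kernel)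
theorem L97823 : W_36 (nat_lit 4) (nat_lit 0x200000001800080007800300000000000000000000000) (nat_lit 0x0) (nat_lit 0x380080000e0000000000000000000000) := T_36 (nat_lit 90) (nat_lit 89) (nat_lit 0) (nat_lit 8) (nat_lit 6) L97822 (by decide +kernel)
theorem L97824 : W_36 (nat_lit 5) (nat_lit 0x200000001000080007800300000000000000000000000) (nat_lit 0x0) (nat_lit 0x100008000380080000e0000000000000000000000) := T_36 (nat_lit 143) (nat_lit 160) (nat_lit 5) (nat_lit 8) (nat_lit 5) L97823 (by decide +kernel)
theorem L97825 : W_36 (nat_lit 6) (nat_lit 0x200000001000080007000300000000000000000000000) (nat_lit 0x0) (nat_lit 0x10000800038008c000e0000000000000000000000) := T_36 (nat_lit 107) (nat_lit 106) (nat_lit 2) (nat_lit 4) (nat_lit 6) L97824 (by decide +kernel)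
theorem L97826 : W_36 (nat_lit 7) (nat_lit 0x200000001000080007000200000000000000000000000) (nat_lit 0x0) (nat_lit 0x10000800038008c001e0008000000000000000000) := T_36 (nat_lit 92) (nat_lit 75) (nat_lit 4) (nat_lit 8) (nat_lit 8) L97825 (by decide +kernel)
theorem L97827 : W_36 (nat_lit 11) (nat_lit 0x200000001000080005000200000000000000000000000) (nat_lit 0x0) (nat_lit 0x10000800e3807ac07de001c000400000000000000) := Q_36 (nat_lit 109) (C_36 L97820 (C_36 L97793 (C_36 L97826 (C_36 L97696 N_36)))) (by decide +kernel)
theorem L97828 : W_36 (nat_lit 2) (nat_lit 0x200000001000080005800300000000000000000000000) (nat_lit 0x0) (nat_lit 0x2400400000000000000000000000) := D_36 (nat_lit 109) (nat_lit 106) (nat_lit 94) (nat_lit 2) (nat_lit 4) (nat_lit 6) (nat_lit 2) (nat_lit 5) (nat_lit 6) (by decide +kernel)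
theorem L97829 : W_36 (nat_lit 3) (nat_lit 0x200000001000080005800200000000000000000000000) (nat_lit 0x0) (nat_lit 0x2400500008000000000000000000) := T_36 (nat_lit 92) (nat_lit 75) (nat_lit 4) (nat_lit 8) (nat_lit 8) L97828 (by decide +kernel)
theorem L97830 : W_36 (nat_lit 13) (nat_lit 0x200000001000080005000200000000000000000000000) (nat_lit 0x0) (nat_lit 0x8001c001e000f0013c002f005f800fc00380008000000000) := Q_36 (nat_lit 107) (C_36 L97781 (C_36 L97782 (C_36 L97829 N_36))) (by decide +kernel)
theorem L97831 : W_36 (nat_lit 2) (nat_lit 0x20000000100008001f000200000000000000000000000) (nat_lit 0x0) (nat_lit 0x700000000000000000000000000000000) := D_36 (nat_lit 129) (nat_lit 128) (nat_lit 130) (nat_lit 3) (nat_lit 6) (nat_lit 6) (nat_lit 3) (nat_lit 7) (nat_lit 6) (by decide +kernel)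
theorem L97832 : W_36 (nat_lit 2) (nat_lit 0x2000000018000a007f001280000000000000000000000) (nat_lit 0x0) (nat_lit 0x1c00000000000000000000000000000000) := D_36 (nat_lit 131) (nat_lit 130) (nat_lit 132) (nat_lit 3) (nat_lit 8) (nat_lit 6) (nat_lit 3) (nat_lit 9) (nat_lit 6) (by decide +kernel)
theorem L97833 : W_36 (nat_lit 3) (nat_lit 0x2000000018000a003f001280000000000000000000000) (nat_lit 0x0) (nat_lit 0x1d00040000000000000000000000000000) := T_36 (nat_lit 114) (nat_lit 128) (nat_lit 1) (nat_lit 12) (nat_lit 6) L97832 (by decide +kernel)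
theorem L97834 : W_36 (nat_lit 4) (nat_lit 0x2000000018000a001f001280000000000000000000000) (nat_lit 0x0) (nat_lit 0x1d00060002000000000000000000000000) := T_36 (nat_lit 113) (nat_lit 97) (nat_lit 2) (nat_lit 8) (nat_lit 6) L97833 (by decide +kernel)
theorem L97835 : W_36 (nat_lit 5) (nat_lit 0x2000000018000a001f001200000000000000000000000) (nat_lit 0x0) (nat_lit 0x1d000600020c0000000000000000000000) := T_36 (nat_lit 91) (nat_lit 90) (nat_lit 0) (nat_lit 9) (nat_lit 6) L97834 (by decide +kernel)
theorem L97836 : W_36 (nat_lit 6) (nat_lit 0x2000000018000a001f000200000000000000000000000) (nat_lit 0x0) (nat_lit 0x1d000600038c0000000000000000000000) := T_36 (nat_lit 96) (nat_lit 95) (nat_lit 2) (nat_lit 7) (nat_lit 6) L97835 (by decide +kernel)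
theorem L97837 : W_36 (nat_lit 7) (nat_lit 0x20000000180008001f000200000000000000000000000) (nat_lit 0x0) (nat_lit 0x1d300600038c0000000000000000000000) := T_36 (nat_lit 125) (nat_lit 124) (nat_lit 1) (nat_lit 9) (nat_lit 6) L97836 (by decide +kernel)
theorem L97838 : W_36 (nat_lit 8) (nat_lit 0x20000000100008001f000200000000000000000000000) (nat_lit 0x0) (nat_lit 0x10000801d300600038c0000000000000000000000) := T_36 (nat_lit 143) (nat_lit 160) (nat_lit 5) (nat_lit 8) (nat_lit 5) L97837 (by decide +kernel)
theorem L97839 : W_36 (nat_lit 2) (nat_lit 0x20000000100008003f001280000000000000000000000) (nat_lit 0x0) (nat_lit 0x300040000000000000000000000000000) := D_36 (nat_lit 128) (nat_lit 114) (nat_lit 129) (nat_lit 1) (nat_lit 12) (nat_lit 6) (nat_lit 3) (nat_lit 6) (nat_lit 6) (by decide +kernel)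
theorem L97840 : W_36 (nat_lit 3) (nat_lit 0x20000000100008001f001280000000000000000000000) (nat_lit 0x0) (nat_lit 0x300060002000000000000000000000000) := T_36 (nat_lit 113) (nat_lit 97) (nat_lit 2) (nat_lit 8) (nat_lit 6) L97839 (by decide +kernel)
theorem L97841 : W_36 (nat_lit 4) (nat_lit 0x20000000100008001f001200000000000000000000000) (nat_lit 0x0) (nat_lit 0x3000600020c0000000000000000000000) := T_36 (nat_lit 91) (nat_lit 90) (nat_lit 0) (nat_lit 9) (nat_lit 6) L97840 (by decide +kernel)
theorem L97842 : W_36 (nat_lit 5) (nat_lit 0x20000000100008001f000200000000000000000000000) (nat_lit 0x0) (nat_lit 0x3000600038c0000000000000000000000) := T_36 (nat_lit 96) (nat_lit 95) (nat_lit 2) (nat_lit 7) (nat_lit 6) L97841 (by decide +kernel)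
theorem L97843 : W_36 (nat_lit 9) (nat_lit 0x20000000100008000f000200000000000000000000000) (nat_lit 0x0) (nat_lit 0x10000801f300700038c0000000000000000000000) := Q_36 (nat_lit 112) (C_36 L97805 (C_36 L97831 (C_36 L97838 (C_36 L97842 N_36)))) (by decide +kernel)
theorem L97844 : W_36 (nat_lit 10) (nat_lit 0x200000001000080007000200000000000000000000000) (nat_lit 0x0) (nat_lit 0x10000801f300780039c0018000c00000000000000) := Q_36 (nat_lit 111) (C_36 L97843 (C_36 L97790 (C_36 L97787 N_36))) (by decide +kernel)
theorem L97845 : W_36 (nat_lit 2) (nat_lit 0x200000001000080007000300000000000000000000000) (nat_lit 0x0) (nat_lit 0x100000c00000000000000000000000000) := D_36 (nat_lit 107) (nat_lit 106) (nat_lit 128) (nat_lit 2) (nat_lit 4) (nat_lit 6) (nat_lit 3) (nat_lit 5) (nat_lit 6) (by decide +kernel)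
theorem L97846 : W_36 (nat_lit 3) (nat_lit 0x200000001000080007000200000000000000000000000) (nat_lit 0x0) (nat_lit 0x100000c00100008000000000000000000) := T_36 (nat_lit 92) (nat_lit 75) (nat_lit 4) (nat_lit 8) (nat_lit 8) L97845 (by decide +kernel)
theorem L97847 : W_36 (nat_lit 11) (nat_lit 0x200000001000080005000200000000000000000000000) (nat_lit 0x0) (nat_lit 0x10000801f3c07ac039e0018000c00000000000000) := Q_36 (nat_lit 109) (C_36 L97844 (C_36 L97700 (C_36 L97826 (C_36 L97690 (C_36 L97846 N_36))))) (by decide +kernel)
theorem L97848 : W_36 (nat_lit 2) (nat_lit 0x200002001e000880050003c0002000000008000000000) (nat_lit 0x0) (nat_lit 0x1000100004000000000000000000000000000000) := D_36 (nat_lit 140) (nat_lit 156) (nat_lit 122) (nat_lit 1) (nat_lit 7) (nat_lit 8) (nat_lit 0) (nat_lit 7) (nat_lit 8) (by decide +kernel)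
theorem L97849 : W_36 (nat_lit 3) (nat_lit 0x200002001e000800050003c0002000000008000000000) (nat_lit 0x0) (nat_lit 0x100010001c000000000000000000000000000000) := T_36 (nat_lit 123) (nat_lit 124) (nat_lit 0) (nat_lit 8) (nat_lit 8) L97848 (by decide +kernel)
theorem L97850 : W_36 (nat_lit 4) (nat_lit 0x200000001e000800050003c0002000000008000000000) (nat_lit 0x0) (nat_lit 0x700010001c000000000000000000000000000000) := T_36 (nat_lit 157) (nat_lit 158) (nat_lit 1) (nat_lit 8) (nat_lit 8) L97849 (by decide +kernel)
theorem L97851 : W_36 (nat_lit 5) (nat_lit 0x200000001c000800050003c0002000000008000000000) (nat_lit 0x0) (nat_lit 0x700030011c000000000000000000000000000000) := T_36 (nat_lit 141) (nat_lit 128) (nat_lit 2) (nat_lit 5) (nat_lit 8) L97850 (by decide +kernel)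
theorem L97852 : W_36 (nat_lit 6) (nat_lit 0x2000000018000800050003c0002000000008000000000) (nat_lit 0x0) (nat_lit 0x700070013c000000000000000000000000000000) := T_36 (nat_lit 142) (nat_lit 125) (nat_lit 4) (nat_lit 6) (nat_lit 8) L97851 (by decide +kernel)
theorem L97853 : W_36 (nat_lit 7) (nat_lit 0x2000000018000800050003c0002000000000000000000) (nat_lit 0x0) (nat_lit 0x700070013c000000000000000100008000000000) := T_36 (nat_lit 39) (nat_lit 56) (nat_lit 7) (nat_lit 5) (nat_lit 2) L97852 (by decide +kernel)
theorem L97854 : W_36 (nat_lit 8) (nat_lit 0x2000000010000800050003c0002000000000000000000) (nat_lit 0x0) (nat_lit 0x17000f0013c000000000000000100008000000000) := T_36 (nat_lit 143) (nat_lit 160) (nat_lit 5) (nat_lit 8) (nat_lit 5) L97853 (by decide +kernel)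
theorem L97855 : W_36 (nat_lit 9) (nat_lit 0x2000000010000800050003c0000000000000000000000) (nat_lit 0x0) (nat_lit 0x17000f0013c000000000003000100008000000000) := T_36 (nat_lit 73) (nat_lit 72) (nat_lit 0) (nat_lit 8) (nat_lit 5) L97854 (by decide +kernel)
theorem L97856 : W_36 (nat_lit 10) (nat_lit 0x200000001000080005000380000000000000000000000) (nat_lit 0x0) (nat_lit 0x17000f0013c008000040003000100008000000000) := T_36 (nat_lit 90) (nat_lit 111) (nat_lit 3) (nat_lit 5) (nat_lit 5) L97855 (by decide +kernel)
theorem L97857 : W_36 (nat_lit 11) (nat_lit 0x200000001000080005000280000000000000000000000) (nat_lit 0x0) (nat_lit 0x17000f0013c00800014000b000100008000000000) := T_36 (nat_lit 92) (nat_lit 75) (nat_lit 4) (nat_lit 8) (nat_lit 8) L97856 (by decide +kernel)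
theorem L97858 : W_36 (nat_lit 2) (nat_lit 0x2000000010000800050003c0000000000000000000000) (nat_lit 0x0) (nat_lit 0xc00400000000000000000000000) := D_36 (nat_lit 107) (nat_lit 106) (nat_lit 94) (nat_lit 1) (nat_lit 8) (nat_lit 5) (nat_lit 1) (nat_lit 9) (nat_lit 5) (by decide +kernel)
theorem L97859 : W_36 (nat_lit 3) (nat_lit 0x200000001000080005000380000000000000000000000) (nat_lit 0x0) (nat_lit 0x8c00440000000000000000000000) := T_36 (nat_lit 90) (nat_lit 111) (nat_lit 3) (nat_lit 5) (nat_lit 5) L97858 (by decide +kernel)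
theorem L97860 : W_36 (nat_lit 4) (nat_lit 0x200000001000080005000280000000000000000000000) (nat_lit 0x0) (nat_lit 0x8c00540008000000000000000000) := T_36 (nat_lit 92) (nat_lit 75) (nat_lit 4) (nat_lit 8) (nat_lit 8) L97859 (by decide +kernel)
theorem L97861 : W_36 (nat_lit 2) (nat_lit 0x200002001e000880050007c0002000000000000000000) (nat_lit 0x0) (nat_lit 0x1000100004000000000000000000000000000000) := D_36 (nat_lit 140) (nat_lit 156) (nat_lit 122) (nat_lit 1) (nat_lit 7) (nat_lit 8) (nat_lit 0) (nat_lit 7) (nat_lit 8) (by decide +kernel)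
theorem L97862 : W_36 (nat_lit 3) (nat_lit 0x200002001e000800050007c0002000000000000000000) (nat_lit 0x0) (nat_lit 0x100010001c000000000000000000000000000000) := T_36 (nat_lit 123) (nat_lit 124) (nat_lit 0) (nat_lit 8) (nat_lit 8) L97861 (by decide +kernel)
theorem L97863 : W_36 (nat_lit 4) (nat_lit 0x200000001e000800050007c0002000000000000000000) (nat_lit 0x0) (nat_lit 0x700010001c000000000000000000000000000000) := T_36 (nat_lit 157) (nat_lit 158) (nat_lit 1) (nat_lit 8) (nat_lit 8) L97862 (by decide +kernel)
theorem L97864 : W_36 (nat_lit 5) (nat_lit 0x200000001c000800050007c0002000000000000000000) (nat_lit 0x0) (nat_lit 0x700030011c000000000000000000000000000000) := T_36 (nat_lit 141) (nat_lit 128) (nat_lit 2) (nat_lit 5) (nat_lit 8) L97863 (by decide +kernel)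
theorem L97865 : W_36 (nat_lit 6) (nat_lit 0x2000000018000800050007c0002000000000000000000) (nat_lit 0x0) (nat_lit 0x700070013c000000000000000000000000000000) := T_36 (nat_lit 142) (nat_lit 125) (nat_lit 4) (nat_lit 6) (nat_lit 8) L97864 (by decide +kernel)
theorem L97866 : W_36 (nat_lit 7) (nat_lit 0x200000001800080005000780002000000000000000000) (nat_lit 0x0) (nat_lit 0x700070013c000000040001000000000000000000) := T_36 (nat_lit 90) (nat_lit 72) (nat_lit 0) (nat_lit 8) (nat_lit 5) L97865 (by decide +kernel)
theorem L97867 : W_36 (nat_lit 8) (nat_lit 0x200000001000080005000780002000000000000000000) (nat_lit 0x0) (nat_lit 0x17000f0013c000000040001000000000000000000) := T_36 (nat_lit 143) (nat_lit 160) (nat_lit 5) (nat_lit 8) (nat_lit 5) L97866 (by decide +kernel)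
theorem L97868 : W_36 (nat_lit 9) (nat_lit 0x200000001000080005000780000000000000000000000) (nat_lit 0x0) (nat_lit 0x17000f0013c000000040007000000000000000000) := T_36 (nat_lit 73) (nat_lit 74) (nat_lit 0) (nat_lit 9) (nat_lit 5) L97867 (by decide +kernel)
theorem L97869 : W_36 (nat_lit 10) (nat_lit 0x200000001000080005000380000000000000000000000) (nat_lit 0x0) (nat_lit 0x17000f0013c000800440007000000000000000000) := T_36 (nat_lit 94) (nat_lit 107) (nat_lit 1) (nat_lit 9) (nat_lit 5) L97868 (by decide +kernel)
theorem L97870 : W_36 (nat_lit 11) (nat_lit 0x200000001000080005000280000000000000000000000) (nat_lit 0x0) (nat_lit 0x17000f0013c00080054000f000000000000000000) := T_36 (nat_lit 92) (nat_lit 75) (nat_lit 4) (nat_lit 8) (nat_lit 8) L97869 (by decide +kernel)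
theorem L97871 : W_36 (nat_lit 2) (nat_lit 0x200000001a000a000d000780004000000000000000000) (nat_lit 0x0) (nat_lit 0x4000400100000000000000000000000000000000) := D_36 (nat_lit 142) (nat_lit 128) (nat_lit 158) (nat_lit 2) (nat_lit 5) (nat_lit 8) (nat_lit 5) (nat_lit 6) (nat_lit 5) (by decide +kernel)
theorem L97872 : W_36 (nat_lit 3) (nat_lit 0x2000000012000a000d000780004000000000000000000) (nat_lit 0x0) (nat_lit 0x14000c00100000000000000000000000000000000) := T_36 (nat_lit 143) (nat_lit 160) (nat_lit 5) (nat_lit 8) (nat_lit 5) L97871 (by decide +kernel)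
theorem L97873 : W_36 (nat_lit 4) (nat_lit 0x20000000120008000d000780004000000000000000000) (nat_lit 0x0) (nat_lit 0x14000c00130000000000000000000000000000000) := T_36 (nat_lit 125) (nat_lit 124) (nat_lit 5) (nat_lit 6) (nat_lit 4) L97872 (by decide +kernel)
theorem L97874 : W_36 (nat_lit 5) (nat_lit 0x200000001200080005000780004000000000000000000) (nat_lit 0x0) (nat_lit 0x14000c00130018000000000000000000000000000) := T_36 (nat_lit 111) (nat_lit 112) (nat_lit 3) (nat_lit 6) (nat_lit 5) L97873 (by decide +kernel)
theorem L97875 : W_36 (nat_lit 6) (nat_lit 0x200000001200080005000780000000000000000000000) (nat_lit 0x0) (nat_lit 0x14000c00130018000000006000000000000000000) := T_36 (nat_lit 74) (nat_lit 73) (nat_lit 0) (nat_lit 9) (nat_lit 5) L97874 (by decide +kernel)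
theorem L97876 : W_36 (nat_lit 7) (nat_lit 0x200000001200080005000380000000000000000000000) (nat_lit 0x0) (nat_lit 0x14000c00130018800400006000000000000000000) := T_36 (nat_lit 94) (nat_lit 107) (nat_lit 1) (nat_lit 9) (nat_lit 5) L97875 (by decide +kernel)
theorem L97877 : W_36 (nat_lit 2) (nat_lit 0x200000001200090005a00380000000000000000000000) (nat_lit 0x0) (nat_lit 0x20000000000004000200000000000000) := D_36 (nat_lit 74) (nat_lit 125) (nat_lit 57) (nat_lit 5) (nat_lit 6) (nat_lit 4) (nat_lit 5) (nat_lit 6) (nat_lit 3) (by decide +kernel)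
theorem L97878 : W_36 (nat_lit 3) (nat_lit 0x200000001200080005a00380000000000000000000000) (nat_lit 0x0) (nat_lit 0x4000000030000000000004000200000000000000) := T_36 (nat_lit 124) (nat_lit 158) (nat_lit 6) (nat_lit 5) (nat_lit 9) L97877 (by decide +kernel)
theorem L97879 : W_36 (nat_lit 4) (nat_lit 0x200000001200080005800380000000000000000000000) (nat_lit 0x0) (nat_lit 0x4000000030000600000004000200000000000000) := T_36 (nat_lit 105) (nat_lit 106) (nat_lit 2) (nat_lit 3) (nat_lit 6) L97878 (by decide +kernel)
theorem L97880 : W_36 (nat_lit 5) (nat_lit 0x200000001200080005000380000000000000000000000) (nat_lit 0x0) (nat_lit 0x4000000030000e00400004000200000000000000) := T_36 (nat_lit 107) (nat_lit 94) (nat_lit 1) (nat_lit 9) (nat_lit 5) L97879 (by decide +kernel)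
theorem L97881 : W_36 (nat_lit 2) (nat_lit 0x200000001e00080005000380000000000000000000000) (nat_lit 0x0) (nat_lit 0x6000000020000000000000000000000000000000) := D_36 (nat_lit 158) (nat_lit 157) (nat_lit 125) (nat_lit 1) (nat_lit 8) (nat_lit 8) (nat_lit 5) (nat_lit 6) (nat_lit 5) (by decide +kernel)
theorem L97882 : W_36 (nat_lit 3) (nat_lit 0x200000001a00080005000380000000000000000000000) (nat_lit 0x0) (nat_lit 0x6000400120000000000000000000000000000000) := T_36 (nat_lit 142) (nat_lit 128) (nat_lit 2) (nat_lit 5) (nat_lit 8) L97881 (by decide +kernel)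
theorem L97883 : W_36 (nat_lit 4) (nat_lit 0x200000001200080005000380000000000000000000000) (nat_lit 0x0) (nat_lit 0x16000c00120000000000000000000000000000000) := T_36 (nat_lit 143) (nat_lit 160) (nat_lit 5) (nat_lit 8) (nat_lit 5) L97882 (by decide +kernel)
theorem L97884 : W_36 (nat_lit 2) (nat_lit 0x200000001e00090005000780000000000000000000000) (nat_lit 0x0) (nat_lit 0x20000000000006000000000000000000) := D_36 (nat_lit 74) (nat_lit 73) (nat_lit 125) (nat_lit 0) (nat_lit 9) (nat_lit 5) (nat_lit 5) (nat_lit 6) (nat_lit 4) (by decide +kernel)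
theorem L97885 : W_36 (nat_lit 3) (nat_lit 0x200000001e00090005000380000000000000000000000) (nat_lit 0x0) (nat_lit 0x20000800400006000000000000000000) := T_36 (nat_lit 94) (nat_lit 107) (nat_lit 1) (nat_lit 9) (nat_lit 5) L97884 (by decide +kernel)
theorem L97886 : W_36 (nat_lit 4) (nat_lit 0x200000001e00080005000380000000000000000000000) (nat_lit 0x0) (nat_lit 0x38000800400006000000000000000000) := T_36 (nat_lit 124) (nat_lit 123) (nat_lit 0) (nat_lit 8) (nat_lit 8) L97885 (by decide +kernel)
theorem L97887 : W_36 (nat_lit 5) (nat_lit 0x200000001a00080005000380000000000000000000000) (nat_lit 0x0) (nat_lit 0x400138000800400006000000000000000000) := T_36 (nat_lit 142) (nat_lit 128) (nat_lit 2) (nat_lit 5) (nat_lit 8) L97886 (by decide +kernel)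
theorem L97888 : W_36 (nat_lit 6) (nat_lit 0x200000001200080005000380000000000000000000000) (nat_lit 0x0) (nat_lit 0x10000c00138000800400006000000000000000000) := T_36 (nat_lit 143) (nat_lit 160) (nat_lit 5) (nat_lit 8) (nat_lit 5) L97887 (by decide +kernel)
theorem L97889 : W_36 (nat_lit 2) (nat_lit 0x200002001e0008800d000780004000000000000000000) (nat_lit 0x0) (nat_lit 0x1000100004000000000000000000000000000000) := D_36 (nat_lit 140) (nat_lit 156) (nat_lit 122) (nat_lit 1) (nat_lit 7) (nat_lit 8) (nat_lit 0) (nat_lit 7) (nat_lit 8) (by decide +kernel)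
theorem L97890 : W_36 (nat_lit 3) (nat_lit 0x200002001e0008000d000780004000000000000000000) (nat_lit 0x0) (nat_lit 0x100010001c000000000000000000000000000000) := T_36 (nat_lit 123) (nat_lit 124) (nat_lit 0) (nat_lit 8) (nat_lit 8) L97889 (by decide +kernel)
theorem L97891 : W_36 (nat_lit 4) (nat_lit 0x200000001e0008000d000780004000000000000000000) (nat_lit 0x0) (nat_lit 0x700010001c000000000000000000000000000000) := T_36 (nat_lit 157) (nat_lit 158) (nat_lit 1) (nat_lit 8) (nat_lit 8) L97890 (by decide +kernel)
theorem L97892 : W_36 (nat_lit 5) (nat_lit 0x200000001a0008000d000780004000000000000000000) (nat_lit 0x0) (nat_lit 0x700050011c000000000000000000000000000000) := T_36 (nat_lit 142) (nat_lit 128) (nat_lit 2) (nat_lit 5) (nat_lit 8) L97891 (by decide +kernel)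
theorem L97893 : W_36 (nat_lit 6) (nat_lit 0x20000000120008000d000780004000000000000000000) (nat_lit 0x0) (nat_lit 0x17000d0011c000000000000000000000000000000) := T_36 (nat_lit 143) (nat_lit 160) (nat_lit 5) (nat_lit 8) (nat_lit 5) L97892 (by decide +kernel)
theorem L97894 : W_36 (nat_lit 7) (nat_lit 0x200000001200080005000780004000000000000000000) (nat_lit 0x0) (nat_lit 0x17000d0011c018000000000000000000000000000) := T_36 (nat_lit 111) (nat_lit 112) (nat_lit 3) (nat_lit 6) (nat_lit 5) L97893 (by decide +kernel)
theorem L97895 : W_36 (nat_lit 8) (nat_lit 0x200000001200080005000780000000000000000000000) (nat_lit 0x0) (nat_lit 0x17000d0011c018000000006000000000000000000) := T_36 (nat_lit 74) (nat_lit 73) (nat_lit 0) (nat_lit 9) (nat_lit 5) L97894 (by decide +kernel)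
theorem L97896 : W_36 (nat_lit 9) (nat_lit 0x200000001200080005000380000000000000000000000) (nat_lit 0x0) (nat_lit 0x17000d0011c018800400006000000000000000000) := T_36 (nat_lit 94) (nat_lit 107) (nat_lit 1) (nat_lit 9) (nat_lit 5) L97895 (by decide +kernel)
theorem L97897 : W_36 (nat_lit 10) (nat_lit 0x200000001000080005000380000000000000000000000) (nat_lit 0x0) (nat_lit 0x17000f0013c018e00400006000200000000000000) := Q_36 (nat_lit 141) (C_36 L97876 (C_36 L97880 (C_36 L97883 (C_36 L97888 (C_36 L97896 N_36))))) (by decide +kernel)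
theorem L97898 : W_36 (nat_lit 11) (nat_lit 0x200000001000080005000280000000000000000000000) (nat_lit 0x0) (nat_lit 0x17000f0013c018e00540007000300008000000000) := Q_36 (nat_lit 92) (C_36 L97859 (C_36 L97869 (C_36 L97856 (C_36 L97897 N_36)))) (by decide +kernel)
theorem L97899 : W_36 (nat_lit 2) (nat_lit 0x2000000010000a0005000280004000700000000000000) (nat_lit 0x0) (nat_lit 0x200010000800000000000000000000000000) := D_36 (nat_lit 124) (nat_lit 107) (nat_lit 141) (nat_lit 5) (nat_lit 6) (nat_lit 3) (nat_lit 5) (nat_lit 6) (nat_lit 4) (by decide +kernel)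
theorem L97900 : W_36 (nat_lit 3) (nat_lit 0x200000001000080005000280004000700000000000000) (nat_lit 0x0) (nat_lit 0x200030000800000002000000000000000000) := T_36 (nat_lit 125) (nat_lit 73) (nat_lit 4) (nat_lit 6) (nat_lit 7) L97899 (by decide +kernel)
theorem L97901 : W_36 (nat_lit 4) (nat_lit 0x200000001000080005000280004000300000000000000) (nat_lit 0x0) (nat_lit 0x200030000800000002000400020000000000) := T_36 (nat_lit 58) (nat_lit 41) (nat_lit 6) (nat_lit 6) (nat_lit 6) L97900 (by decide +kernel)
theorem L97902 : W_36 (nat_lit 5) (nat_lit 0x200000001000080005000280004000200000000000000) (nat_lit 0x0) (nat_lit 0x200030000800000002000500028000000000) := T_36 (nat_lit 56) (nat_lit 39) (nat_lit 4) (nat_lit 6) (nat_lit 6) L97901 (by decide +kernel)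
theorem L97903 : W_36 (nat_lit 2) (nat_lit 0x200000001000080005800280004000200010000000000) (nat_lit 0x0) (nat_lit 0x100008000400000) := D_36 (nat_lit 39) (nat_lit 22) (nat_lit 56) (nat_lit 4) (nat_lit 6) (nat_lit 5) (nat_lit 4) (nat_lit 6) (nat_lit 6) (by decide +kernel)
theorem L97904 : W_36 (nat_lit 3) (nat_lit 0x200000001000080005800280004000200000000000000) (nat_lit 0x0) (nat_lit 0x40000000100018000400000) := T_36 (nat_lit 40) (nat_lit 90) (nat_lit 5) (nat_lit 6) (nat_lit 2) L97903 (by decide +kernel)
theorem L97905 : W_36 (nat_lit 4) (nat_lit 0x200000001000080005000280004000200000000000000) (nat_lit 0x0) (nat_lit 0x10000800040000000100018000400000) := T_36 (nat_lit 107) (nat_lit 124) (nat_lit 5) (nat_lit 6) (nat_lit 3) L97904 (by decide +kernel)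
theorem L97906 : W_36 (nat_lit 2) (nat_lit 0x200000001000080005000280004000600000000000000) (nat_lit 0x0) (nat_lit 0x20000000000018000000000000000000) := D_36 (nat_lit 75) (nat_lit 76) (nat_lit 125) (nat_lit 4) (nat_lit 8) (nat_lit 7) (nat_lit 6) (nat_lit 6) (nat_lit 7) (by decide +kernel)
theorem L97907 : W_36 (nat_lit 3) (nat_lit 0x200000001000080005000280004000200000000000000) (nat_lit 0x0) (nat_lit 0x20000000000018000400020000000000) := T_36 (nat_lit 58) (nat_lit 41) (nat_lit 6) (nat_lit 6) (nat_lit 6) L97906 (by decide +kernel)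
theorem L97908 : W_36 (nat_lit 6) (nat_lit 0x200000001000080005000280004000000000000000000) (nat_lit 0x0) (nat_lit 0x20003000080004001a000700038000400000) := Q_36 (nat_lit 57) (C_36 L97902 (C_36 L97905 (C_36 L97907 N_36))) (by decide +kernel)
theorem L97909 : W_36 (nat_lit 2) (nat_lit 0x2000000018000b0005000280004000200000000000000) (nat_lit 0x0) (nat_lit 0x2000100008000000000) := D_36 (nat_lit 56) (nat_lit 39) (nat_lit 73) (nat_lit 4) (nat_lit 6) (nat_lit 6) (nat_lit 4) (nat_lit 6) (nat_lit 7) (by decide +kernel)
theorem L97910 : W_36 (nat_lit 3) (nat_lit 0x2000000018000b0005000280004000000000000000000) (nat_lit 0x0) (nat_lit 0x800000002000300008000000000) := T_36 (nat_lit 57) (nat_lit 107) (nat_lit 5) (nat_lit 6) (nat_lit 3) L97909 (by decide +kernel)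
theorem L97911 : W_36 (nat_lit 4) (nat_lit 0x2000000018000a0005000280004000000000000000000) (nat_lit 0x0) (nat_lit 0x200010000800000002000300008000000000) := T_36 (nat_lit 124) (nat_lit 141) (nat_lit 5) (nat_lit 6) (nat_lit 4) L97910 (by decide +kernel)
theorem L97912 : W_36 (nat_lit 5) (nat_lit 0x2000000010000a0005000280004000000000000000000) (nat_lit 0x0) (nat_lit 0x10000a00010000800000002000300008000000000) := T_36 (nat_lit 143) (nat_lit 160) (nat_lit 5) (nat_lit 8) (nat_lit 5) L97911 (by decide +kernel)
theorem L97913 : W_36 (nat_lit 2) (nat_lit 0x2000000014000a000500028000e000000000000000000) (nat_lit 0x0) (nat_lit 0x4000200010000000000000000000000000000000) := D_36 (nat_lit 141) (nat_lit 124) (nat_lit 158) (nat_lit 5) (nat_lit 6) (nat_lit 4) (nat_lit 5) (nat_lit 6) (nat_lit 5) (by decide +kernel)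
theorem L97914 : W_36 (nat_lit 3) (nat_lit 0x2000000010000a000500028000e000000000000000000) (nat_lit 0x0) (nat_lit 0x4000600010000000040000000000000000000000) := T_36 (nat_lit 142) (nat_lit 90) (nat_lit 4) (nat_lit 6) (nat_lit 8) L97913 (by decide +kernel)
theorem L97915 : W_36 (nat_lit 4) (nat_lit 0x2000000010000a0005000280006000000000000000000) (nat_lit 0x0) (nat_lit 0x4000600010000000040008000400000000000000) := T_36 (nat_lit 75) (nat_lit 58) (nat_lit 6) (nat_lit 6) (nat_lit 7) L97914 (by decide +kernel)
theorem L97916 : W_36 (nat_lit 5) (nat_lit 0x2000000010000a0005000280004000000000000000000) (nat_lit 0x0) (nat_lit 0x400060001000000004000a000500000000000000) := T_36 (nat_lit 73) (nat_lit 56) (nat_lit 4) (nat_lit 6) (nat_lit 7) L97915 (by decide +kernel)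
theorem L97917 : W_36 (nat_lit 2) (nat_lit 0x2000000018000a0005800280006000600000000000000) (nat_lit 0x0) (nat_lit 0x400000000000040000000000010000000000) := D_36 (nat_lit 90) (nat_lit 40) (nat_lit 142) (nat_lit 5) (nat_lit 6) (nat_lit 2) (nat_lit 4) (nat_lit 6) (nat_lit 8) (by decide +kernel)
theorem L97918 : W_36 (nat_lit 3) (nat_lit 0x2000000018000a0005000280006000600000000000000) (nat_lit 0x0) (nat_lit 0x400010000800040000000000010000000000) := T_36 (nat_lit 107) (nat_lit 124) (nat_lit 5) (nat_lit 6) (nat_lit 3) L97917 (by decide +kernel)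
theorem L97919 : W_36 (nat_lit 4) (nat_lit 0x2000000018000a0005000280006000400000000000000) (nat_lit 0x0) (nat_lit 0x400010000800040000000200030000000000) := T_36 (nat_lit 57) (nat_lit 41) (nat_lit 6) (nat_lit 6) (nat_lit 6) L97918 (by decide +kernel)
theorem L97920 : W_36 (nat_lit 5) (nat_lit 0x2000000018000a0005000280004000400000000000000) (nat_lit 0x0) (nat_lit 0x400010000800040002000300030000000000) := T_36 (nat_lit 73) (nat_lit 56) (nat_lit 4) (nat_lit 6) (nat_lit 7) L97919 (by decide +kernel)
theorem L97921 : W_36 (nat_lit 6) (nat_lit 0x2000000018000a0005000280004000000000000000000) (nat_lit 0x0) (nat_lit 0x40001000080004000a000700030000000000) := T_36 (nat_lit 58) (nat_lit 75) (nat_lit 6) (nat_lit 6) (nat_lit 7) L97920 (by decide +kernel)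
theorem L97922 : W_36 (nat_lit 7) (nat_lit 0x2000000010000a0005000280004000000000000000000) (nat_lit 0x0) (nat_lit 0x10000c0001000080004000a000700030000000000) := T_36 (nat_lit 143) (nat_lit 160) (nat_lit 5) (nat_lit 8) (nat_lit 5) L97921 (by decide +kernel)
theorem L97923 : W_36 (nat_lit 2) (nat_lit 0x2000000010000b0005000280004000200000000000000) (nat_lit 0x0) (nat_lit 0x8000400020000000000) := D_36 (nat_lit 58) (nat_lit 75) (nat_lit 41) (nat_lit 6) (nat_lit 6) (nat_lit 7) (nat_lit 6) (nat_lit 6) (nat_lit 6) (by decide +kernel)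
theorem L97924 : W_36 (nat_lit 3) (nat_lit 0x2000000010000b0005000280004000000000000000000) (nat_lit 0x0) (nat_lit 0x800000008000600020000000000) := T_36 (nat_lit 57) (nat_lit 107) (nat_lit 5) (nat_lit 6) (nat_lit 3) L97923 (by decide +kernel)
theorem L97925 : W_36 (nat_lit 4) (nat_lit 0x2000000010000a0005000280004000000000000000000) (nat_lit 0x0) (nat_lit 0x200010000800000008000600020000000000) := T_36 (nat_lit 124) (nat_lit 141) (nat_lit 5) (nat_lit 6) (nat_lit 4) L97924 (by decide +kernel)
theorem L97926 : W_36 (nat_lit 2) (nat_lit 0x200000001c000a000500028000e000000000000000000) (nat_lit 0x0) (nat_lit 0x4000200100000000000000000000000000000000) := D_36 (nat_lit 141) (nat_lit 128) (nat_lit 158) (nat_lit 2) (nat_lit 5) (nat_lit 8) (nat_lit 5) (nat_lit 6) (nat_lit 5) (by decide +kernel)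
theorem L97927 : W_36 (nat_lit 3) (nat_lit 0x2000000018000a000500028000e000000000000000000) (nat_lit 0x0) (nat_lit 0x4000600100000000040000000000000000000000) := T_36 (nat_lit 142) (nat_lit 90) (nat_lit 4) (nat_lit 6) (nat_lit 8) L97926 (by decide +kernel)
theorem L97928 : W_36 (nat_lit 4) (nat_lit 0x2000000018000a0005000280006000000000000000000) (nat_lit 0x0) (nat_lit 0x4000600100000000040008000400000000000000) := T_36 (nat_lit 75) (nat_lit 58) (nat_lit 6) (nat_lit 6) (nat_lit 7) L97927 (by decide +kernel)
theorem L97929 : W_36 (nat_lit 5) (nat_lit 0x2000000018000a0005000280004000000000000000000) (nat_lit 0x0) (nat_lit 0x400060010000000004000a000500000000000000) := T_36 (nat_lit 73) (nat_lit 56) (nat_lit 4) (nat_lit 6) (nat_lit 7) L97928 (by decide +kernel)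
theorem L97930 : W_36 (nat_lit 6) (nat_lit 0x2000000010000a0005000280004000000000000000000) (nat_lit 0x0) (nat_lit 0x14000e0010000000004000a000500000000000000) := T_36 (nat_lit 143) (nat_lit 160) (nat_lit 5) (nat_lit 8) (nat_lit 5) L97929 (by decide +kernel)
theorem L97931 : W_36 (nat_lit 8) (nat_lit 0x200000001000080005000280004000000000000000000) (nat_lit 0x0) (nat_lit 0x14000e0013000080004000a000700038000000000) := Q_36 (nat_lit 125) (C_36 L97912 (C_36 L97916 (C_36 L97922 (C_36 L97925 (C_36 L97930 N_36))))) (by decide +kernel)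
theorem L97932 : W_36 (nat_lit 2) (nat_lit 0x2000000010000b0005000280004000200000000000000) (nat_lit 0x0) (nat_lit 0x2000100008000000000) := D_36 (nat_lit 56) (nat_lit 39) (nat_lit 73) (nat_lit 4) (nat_lit 6) (nat_lit 6) (nat_lit 4) (nat_lit 6) (nat_lit 7) (by decide +kernel)
theorem L97933 : W_36 (nat_lit 3) (nat_lit 0x2000000010000b0005000280004000000000000000000) (nat_lit 0x0) (nat_lit 0x800000002000300008000000000) := T_36 (nat_lit 57) (nat_lit 107) (nat_lit 5) (nat_lit 6) (nat_lit 3) L97932 (by decide +kernel)
theorem L97934 : W_36 (nat_lit 4) (nat_lit 0x2000000010000a0005000280004000000000000000000) (nat_lit 0x0) (nat_lit 0x200010000800000002000300008000000000) := T_36 (nat_lit 124) (nat_lit 141) (nat_lit 5) (nat_lit 6) (nat_lit 4) L97933 (by decide +kernel)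
theorem L97935 : W_36 (nat_lit 2) (nat_lit 0x2000100010000a0005000280006000000000000000000) (nat_lit 0x0) (nat_lit 0x8000400000000000040000000000000000000000) := D_36 (nat_lit 142) (nat_lit 90) (nat_lit 159) (nat_lit 4) (nat_lit 6) (nat_lit 8) (nat_lit 7) (nat_lit 6) (nat_lit 6) (by decide +kernel)
theorem L97936 : W_36 (nat_lit 3) (nat_lit 0x2000000010000a0005000280006000000000000000000) (nat_lit 0x0) (nat_lit 0x18000c00000000000040000000000000000000000) := T_36 (nat_lit 160) (nat_lit 143) (nat_lit 5) (nat_lit 8) (nat_lit 5) L97935 (by decide +kernel)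
theorem L97937 : W_36 (nat_lit 4) (nat_lit 0x2000000010000a0005000280004000000000000000000) (nat_lit 0x0) (nat_lit 0x18000c00000000000040002000100000000000000) := T_36 (nat_lit 73) (nat_lit 56) (nat_lit 4) (nat_lit 6) (nat_lit 7) L97936 (by decide +kernel)
theorem L97938 : W_36 (nat_lit 2) (nat_lit 0x2000000010000b0005000280004000200028000000000) (nat_lit 0x0) (nat_lit 0x10001400000) := D_36 (nat_lit 40) (nat_lit 22) (nat_lit 24) (nat_lit 4) (nat_lit 6) (nat_lit 5) (nat_lit 6) (nat_lit 6) (nat_lit 5) (by decide +kernel)
theorem L97939 : W_36 (nat_lit 3) (nat_lit 0x2000000010000b0005000280004000200008000000000) (nat_lit 0x0) (nat_lit 0x400030001400000) := T_36 (nat_lit 41) (nat_lit 58) (nat_lit 6) (nat_lit 6) (nat_lit 6) L97938 (by decide +kernel)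
theorem L97940 : W_36 (nat_lit 4) (nat_lit 0x2000000010000b0005000280004000200000000000000) (nat_lit 0x0) (nat_lit 0x500038001400000) := T_36 (nat_lit 39) (nat_lit 56) (nat_lit 4) (nat_lit 6) (nat_lit 6) L97939 (by decide +kernel)
theorem L97941 : W_36 (nat_lit 5) (nat_lit 0x2000000010000b0005000280004000000000000000000) (nat_lit 0x0) (nat_lit 0x800000000000700038001400000) := T_36 (nat_lit 57) (nat_lit 107) (nat_lit 5) (nat_lit 6) (nat_lit 3) L97940 (by decide +kernel)
theorem L97942 : W_36 (nat_lit 6) (nat_lit 0x2000000010000a0005000280004000000000000000000) (nat_lit 0x0) (nat_lit 0x200010000800000000000700038001400000) := T_36 (nat_lit 124) (nat_lit 141) (nat_lit 5) (nat_lit 6) (nat_lit 4) L97941 (by decide +kernel)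
theorem L97943 : W_36 (nat_lit 2) (nat_lit 0x200000001a000a0005000280004000000000000000000) (nat_lit 0x0) (nat_lit 0x4000400100000000000000000000000000000000) := D_36 (nat_lit 142) (nat_lit 128) (nat_lit 158) (nat_lit 2) (nat_lit 5) (nat_lit 8) (nat_lit 5) (nat_lit 6) (nat_lit 5) (by decide +kernel)
theorem L97944 : W_36 (nat_lit 3) (nat_lit 0x2000000018000a0005000280004000000000000000000) (nat_lit 0x0) (nat_lit 0x4000600110000000000000000000000000000000) := T_36 (nat_lit 141) (nat_lit 124) (nat_lit 5) (nat_lit 6) (nat_lit 4) L97943 (by decide +kernel)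
theorem L97945 : W_36 (nat_lit 4) (nat_lit 0x2000000010000a0005000280004000000000000000000) (nat_lit 0x0) (nat_lit 0x14000e00110000000000000000000000000000000) := T_36 (nat_lit 143) (nat_lit 160) (nat_lit 5) (nat_lit 8) (nat_lit 5) L97944 (by decide +kernel)
theorem L97946 : W_36 (nat_lit 7) (nat_lit 0x200000001000080005000280004000000000000000000) (nat_lit 0x0) (nat_lit 0x1c000e00130000800040002000700038001400000) := Q_36 (nat_lit 125) (C_36 L97912 (C_36 L97934 (C_36 L97937 (C_36 L97942 (C_36 L97945 N_36))))) (by decide +kernel)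
theorem L97947 : W_36 (nat_lit 2) (nat_lit 0x200000001000080005000280004000400000000000000) (nat_lit 0x0) (nat_lit 0x20000000000018000000000000000000) := D_36 (nat_lit 75) (nat_lit 125) (nat_lit 76) (nat_lit 6) (nat_lit 6) (nat_lit 7) (nat_lit 4) (nat_lit 8) (nat_lit 7) (by decide +kernel)
theorem L97948 : W_36 (nat_lit 7) (nat_lit 0x200000001000080005000280004000000000000000000) (nat_lit 0x0) (nat_lit 0x1000080003000080004001b800f00038000400000) := Q_36 (nat_lit 58) (C_36 L97639 (C_36 L97634 (C_36 L97947 N_36))) (by decide +kernel)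
theorem L97949 : W_36 (nat_lit 2) (nat_lit 0x200000001800080005000280014000400000000000000) (nat_lit 0x0) (nat_lit 0xa00020000000000) := D_36 (nat_lit 41) (nat_lit 59) (nat_lit 57) (nat_lit 4) (nat_lit 8) (nat_lit 6) (nat_lit 6) (nat_lit 6) (nat_lit 6) (by decide +kernel)
theorem L97950 : W_36 (nat_lit 3) (nat_lit 0x200000001800080005000280004000400000000000000) (nat_lit 0x0) (nat_lit 0x18000a00020000000000) := T_36 (nat_lit 76) (nat_lit 75) (nat_lit 4) (nat_lit 8) (nat_lit 7) L97949 (by decide +kernel)
theorem L97951 : W_36 (nat_lit 4) (nat_lit 0x200000001000080005000280004000400000000000000) (nat_lit 0x0) (nat_lit 0x10000800000000000000018000a00020000000000) := T_36 (nat_lit 143) (nat_lit 160) (nat_lit 5) (nat_lit 8) (nat_lit 5) L97950 (by decide +kernel)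
theorem L97952 : W_36 (nat_lit 7) (nat_lit 0x200000001000080005000280004000000000000000000) (nat_lit 0x0) (nat_lit 0x1000080002000000000001b800f00028000000000) := Q_36 (nat_lit 58) (C_36 L97639 (C_36 L97947 (C_36 L97951 N_36))) (by decide +kernel)
theorem L97953 : W_36 (nat_lit 5) (nat_lit 0x200000001000080005000280004000000000000000000) (nat_lit 0x0) (nat_lit 0x1c000e00130000800040002000300008000000000) := Q_36 (nat_lit 125) (C_36 L97945 (C_36 L97934 (C_36 L97937 N_36))) (by decide +kernel)
theorem L97954 : W_36 (nat_lit 2) (nat_lit 0x20000000180008000d000280014000e00058006000000) (nat_lit 0x0) (nat_lit 0x1800080) := D_36 (nat_lit 24) (nat_lit 7) (nat_lit 23) (nat_lit 4) (nat_lit 8) (nat_lit 4) (nat_lit 1) (nat_lit 9) (nat_lit 1) (by decide +kernel)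
theorem L97955 : W_36 (nat_lit 3) (nat_lit 0x20000000180008000d000280014000e00058004000000) (nat_lit 0x0) (nat_lit 0x3800280) := T_36 (nat_lit 25) (nat_lit 9) (nat_lit 6) (nat_lit 8) (nat_lit 4) L97954 (by decide +kernel)
theorem L97956 : W_36 (nat_lit 4) (nat_lit 0x20000000180008000d000280014000e00058000000000) (nat_lit 0x0) (nat_lit 0x80007800280) := T_36 (nat_lit 26) (nat_lit 43) (nat_lit 6) (nat_lit 8) (nat_lit 5) L97955 (by decide +kernel)
theorem L97957 : W_36 (nat_lit 5) (nat_lit 0x20000000180008000d000280014000e00018000000000) (nat_lit 0x0) (nat_lit 0x4000000000000c0007800280) := T_36 (nat_lit 42) (nat_lit 94) (nat_lit 7) (nat_lit 8) (nat_lit 2) L97956 (by decide +kernel)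
theorem L97958 : W_36 (nat_lit 6) (nat_lit 0x200000001800080005000280014000e00018000000000) (nat_lit 0x0) (nat_lit 0x1000080004000000000000c0007800280) := T_36 (nat_lit 111) (nat_lit 128) (nat_lit 7) (nat_lit 8) (nat_lit 3) L97957 (by decide +kernel)
theorem L97959 : W_36 (nat_lit 7) (nat_lit 0x200000001800080005000280014000600018000000000) (nat_lit 0x0) (nat_lit 0x1000080004000000018000c0007800280) := T_36 (nat_lit 59) (nat_lit 60) (nat_lit 0) (nat_lit 9) (nat_lit 3) L97958 (by decide +kernel)
theorem L97960 : W_36 (nat_lit 8) (nat_lit 0x200000001800080005000280014000600008000000000) (nat_lit 0x0) (nat_lit 0x1000080004000000018000d0007c00280) := T_36 (nat_lit 40) (nat_lit 22) (nat_lit 4) (nat_lit 6) (nat_lit 5) L97959 (by decide +kernel)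
theorem L97961 : W_36 (nat_lit 9) (nat_lit 0x200000001800080005000280014000600000000000000) (nat_lit 0x0) (nat_lit 0x1000080004000000019000d8007c00280) := T_36 (nat_lit 39) (nat_lit 56) (nat_lit 4) (nat_lit 6) (nat_lit 6) L97960 (by decide +kernel)
theorem L97962 : W_36 (nat_lit 10) (nat_lit 0x200000001800080005000280004000600000000000000) (nat_lit 0x0) (nat_lit 0x1000080004000180019000d8007c00280) := T_36 (nat_lit 76) (nat_lit 75) (nat_lit 4) (nat_lit 8) (nat_lit 7) L97961 (by decide +kernel)
theorem L97963 : W_36 (nat_lit 11) (nat_lit 0x200000001800080005000280004000200000000000000) (nat_lit 0x0) (nat_lit 0x100008000400018001d000f8007c00280) := T_36 (nat_lit 58) (nat_lit 41) (nat_lit 6) (nat_lit 6) (nat_lit 6) L97962 (by decide +kernel)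
theorem L97964 : W_36 (nat_lit 12) (nat_lit 0x200000001000080005000280004000200000000000000) (nat_lit 0x0) (nat_lit 0x10000800100008000400018001d000f8007c00280) := T_36 (nat_lit 143) (nat_lit 160) (nat_lit 5) (nat_lit 8) (nat_lit 5) L97963 (by decide +kernel)
theorem L97965 : W_36 (nat_lit 2) (nat_lit 0x200000001000080005800280004000200010000000000) (nat_lit 0x0) (nat_lit 0x400020001000000) := D_36 (nat_lit 41) (nat_lit 58) (nat_lit 24) (nat_lit 6) (nat_lit 6) (nat_lit 6) (nat_lit 6) (nat_lit 6) (nat_lit 5) (by decide +kernel)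
theorem L97966 : W_36 (nat_lit 3) (nat_lit 0x200000001000080005800280004000200000000000000) (nat_lit 0x0) (nat_lit 0x40000000400030001000000) := T_36 (nat_lit 40) (nat_lit 90) (nat_lit 5) (nat_lit 6) (nat_lit 2) L97965 (by decide +kernel)
theorem L97967 : W_36 (nat_lit 4) (nat_lit 0x200000001000080005000280004000200000000000000) (nat_lit 0x0) (nat_lit 0x10000800040000000400030001000000) := T_36 (nat_lit 107) (nat_lit 124) (nat_lit 5) (nat_lit 6) (nat_lit 3) L97966 (by decide +kernel)
theorem L97968 : W_36 (nat_lit 2) (nat_lit 0x20000000180008000580028000d000780004000000000) (nat_lit 0x0) (nat_lit 0x40002000800000000000000) := D_36 (nat_lit 73) (nat_lit 59) (nat_lit 90) (nat_lit 2) (nat_lit 4) (nat_lit 4) (nat_lit 4) (nat_lit 5) (nat_lit 6) (by decide +kernel)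
theorem L97969 : W_36 (nat_lit 3) (nat_lit 0x20000000180008000580028000d000780000000000000) (nat_lit 0x0) (nat_lit 0x40002000800006000000000) := T_36 (nat_lit 38) (nat_lit 37) (nat_lit 0) (nat_lit 7) (nat_lit 3) L97968 (by decide +kernel)
theorem L97970 : W_36 (nat_lit 4) (nat_lit 0x20000000180008000580028000c000780000000000000) (nat_lit 0x0) (nat_lit 0x40003800800006000000000) := T_36 (nat_lit 72) (nat_lit 71) (nat_lit 1) (nat_lit 7) (nat_lit 3) L97969 (by decide +kernel)
theorem L97971 : W_36 (nat_lit 5) (nat_lit 0x20000000180008000580028000c000700000000000000) (nat_lit 0x0) (nat_lit 0x400038008c0006000000000) := T_36 (nat_lit 55) (nat_lit 54) (nat_lit 3) (nat_lit 3) (nat_lit 3) L97970 (by decide +kernel)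
theorem L97972 : W_36 (nat_lit 6) (nat_lit 0x200000001800080005800280004000700000000000000) (nat_lit 0x0) (nat_lit 0x4001b8008c0006000000000) := T_36 (nat_lit 75) (nat_lit 76) (nat_lit 4) (nat_lit 8) (nat_lit 7) L97971 (by decide +kernel)
theorem L97973 : W_36 (nat_lit 7) (nat_lit 0x200000001800080005800280004000300000000000000) (nat_lit 0x0) (nat_lit 0x4001b800cc0026000000000) := T_36 (nat_lit 58) (nat_lit 41) (nat_lit 6) (nat_lit 6) (nat_lit 6) L97972 (by decide +kernel)
theorem L97974 : W_36 (nat_lit 8) (nat_lit 0x200000001800080005000280004000300000000000000) (nat_lit 0x0) (nat_lit 0x1000080004001b800cc0026000000000) := T_36 (nat_lit 107) (nat_lit 124) (nat_lit 5) (nat_lit 6) (nat_lit 3) L97973 (by decide +kernel)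
theorem L97975 : W_36 (nat_lit 9) (nat_lit 0x200000001800080005000280004000200000000000000) (nat_lit 0x0) (nat_lit 0x1000080004001b800dc002e000000000) := T_36 (nat_lit 56) (nat_lit 39) (nat_lit 4) (nat_lit 6) (nat_lit 6) L97974 (by decide +kernel)
theorem L97976 : W_36 (nat_lit 10) (nat_lit 0x200000001000080005000280004000200000000000000) (nat_lit 0x0) (nat_lit 0x1000080001000080004001b800dc002e000000000) := T_36 (nat_lit 143) (nat_lit 160) (nat_lit 5) (nat_lit 8) (nat_lit 5) L97975 (by decide +kernel)
theorem L97977 : W_36 (nat_lit 13) (nat_lit 0x200000001000080005000280004000000000000000000) (nat_lit 0x0) (nat_lit 0x1000080011000880044001b801fc00fe007c00280) := Q_36 (nat_lit 57) (C_36 L97905 (C_36 L97964 (C_36 L97967 (C_36 L97976 N_36)))) (by decide +kernel)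
theorem L97978 : W_36 (nat_lit 6) (nat_lit 0x200000001000080005000280004000000000000000000) (nat_lit 0x0) (nat_lit 0x10000800030000800040018000f00038000400000) := Q_36 (nat_lit 58) (C_36 L97634 (C_36 L97951 (C_36 L97947 N_36))) (by decide +kernel)
theorem L97979 : W_36 (nat_lit 2) (nat_lit 0x200000001e00080005000280004000000000000000000) (nat_lit 0x0) (nat_lit 0x6000000020000000000000000000000000000000) := D_36 (nat_lit 158) (nat_lit 157) (nat_lit 125) (nat_lit 1) (nat_lit 8) (nat_lit 8) (nat_lit 5) (nat_lit 6) (nat_lit 5) (by decide +kernel)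
theorem L97980 : W_36 (nat_lit 3) (nat_lit 0x200000001a00080005000280004000000000000000000) (nat_lit 0x0) (nat_lit 0x6000400120000000000000000000000000000000) := T_36 (nat_lit 142) (nat_lit 128) (nat_lit 2) (nat_lit 5) (nat_lit 8) L97979 (by decide +kernel)
theorem L97981 : W_36 (nat_lit 4) (nat_lit 0x200000001200080005000280004000000000000000000) (nat_lit 0x0) (nat_lit 0x16000c00120000000000000000000000000000000) := T_36 (nat_lit 143) (nat_lit 160) (nat_lit 5) (nat_lit 8) (nat_lit 5) L97980 (by decide +kernel)
theorem L97982 : W_36 (nat_lit 2) (nat_lit 0x2000000012000a0005000280006000000000000000000) (nat_lit 0x0) (nat_lit 0x4000400000000000040000000000000000000000) := D_36 (nat_lit 142) (nat_lit 158) (nat_lit 90) (nat_lit 5) (nat_lit 6) (nat_lit 5) (nat_lit 4) (nat_lit 6) (nat_lit 8) (by decide +kernel)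
theorem L97983 : W_36 (nat_lit 3) (nat_lit 0x2000000012000a0005000280004000000000000000000) (nat_lit 0x0) (nat_lit 0x4000400000000000040002000100000000000000) := T_36 (nat_lit 73) (nat_lit 56) (nat_lit 4) (nat_lit 6) (nat_lit 7) L97982 (by decide +kernel)
theorem L97984 : W_36 (nat_lit 4) (nat_lit 0x200000001200080005000280004000000000000000000) (nat_lit 0x0) (nat_lit 0x4000400030000000040002000100000000000000) := T_36 (nat_lit 125) (nat_lit 124) (nat_lit 5) (nat_lit 6) (nat_lit 4) L97983 (by decide +kernel)
theorem L97985 : W_36 (nat_lit 2) (nat_lit 0x2000000012000a000500028001e000000000000000000) (nat_lit 0x0) (nat_lit 0x400000000000060000000000000000000000) := D_36 (nat_lit 90) (nat_lit 142) (nat_lit 89) (nat_lit 4) (nat_lit 6) (nat_lit 8) (nat_lit 1) (nat_lit 8) (nat_lit 4) (by decide +kernel)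
theorem L97986 : W_36 (nat_lit 3) (nat_lit 0x2000000012000a000500028000e000000000000000000) (nat_lit 0x0) (nat_lit 0x400000000000460010000000000000000000) := T_36 (nat_lit 76) (nat_lit 94) (nat_lit 3) (nat_lit 5) (nat_lit 4) L97985 (by decide +kernel)
theorem L97987 : W_36 (nat_lit 4) (nat_lit 0x2000000012000a0005000280006000000000000000000) (nat_lit 0x0) (nat_lit 0x400000000000460018000400000000000000) := T_36 (nat_lit 75) (nat_lit 58) (nat_lit 6) (nat_lit 6) (nat_lit 7) L97986 (by decide +kernel)
theorem L97988 : W_36 (nat_lit 5) (nat_lit 0x2000000012000a0005000280004000000000000000000) (nat_lit 0x0) (nat_lit 0x40000000000046001a000500000000000000) := T_36 (nat_lit 73) (nat_lit 56) (nat_lit 4) (nat_lit 6) (nat_lit 7) L97987 (by decide +kernel)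
theorem L97989 : W_36 (nat_lit 6) (nat_lit 0x200000001200080005000280004000000000000000000) (nat_lit 0x0) (nat_lit 0x40003000000046001a000500000000000000) := T_36 (nat_lit 125) (nat_lit 124) (nat_lit 5) (nat_lit 6) (nat_lit 4) L97988 (by decide +kernel)
theorem L97990 : W_36 (nat_lit 2) (nat_lit 0x200000001200090005000280004000000000000000000) (nat_lit 0x0) (nat_lit 0x4000000000000800040000000000000000000000) := D_36 (nat_lit 107) (nat_lit 90) (nat_lit 158) (nat_lit 6) (nat_lit 5) (nat_lit 8) (nat_lit 6) (nat_lit 5) (nat_lit 9) (by decide +kernel)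
theorem L97991 : W_36 (nat_lit 3) (nat_lit 0x200000001200080005000280004000000000000000000) (nat_lit 0x0) (nat_lit 0x4000000030000800040000000000000000000000) := T_36 (nat_lit 124) (nat_lit 125) (nat_lit 5) (nat_lit 6) (nat_lit 4) L97990 (by decide +kernel)
theorem L97992 : W_36 (nat_lit 2) (nat_lit 0x200004001e00080005000280004000000000000000000) (nat_lit 0x0) (nat_lit 0x18000800000000000000000000000000) := D_36 (nat_lit 124) (nat_lit 123) (nat_lit 107) (nat_lit 0) (nat_lit 8) (nat_lit 8) (nat_lit 6) (nat_lit 5) (nat_lit 9) (by decide +kernel)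
theorem L97993 : W_36 (nat_lit 3) (nat_lit 0x200000001e00080005000280004000000000000000000) (nat_lit 0x0) (nat_lit 0x6000000018000800000000000000000000000000) := T_36 (nat_lit 158) (nat_lit 157) (nat_lit 1) (nat_lit 8) (nat_lit 8) L97992 (by decide +kernel)
theorem L97994 : W_36 (nat_lit 4) (nat_lit 0x200000001a00080005000280004000000000000000000) (nat_lit 0x0) (nat_lit 0x6000400118000800000000000000000000000000) := T_36 (nat_lit 142) (nat_lit 128) (nat_lit 2) (nat_lit 5) (nat_lit 8) L97993 (by decide +kernel)
theorem L97995 : W_36 (nat_lit 5) (nat_lit 0x200000001200080005000280004000000000000000000) (nat_lit 0x0) (nat_lit 0x16000c00118000800000000000000000000000000) := T_36 (nat_lit 143) (nat_lit 160) (nat_lit 5) (nat_lit 8) (nat_lit 5) L97994 (by decide +kernel)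
theorem L97996 : W_36 (nat_lit 7) (nat_lit 0x200000001000080005000280004000000000000000000) (nat_lit 0x0) (nat_lit 0x16000e0013800080046001a000500000000000000) := Q_36 (nat_lit 141) (C_36 L97981 (C_36 L97984 (C_36 L97989 (C_36 L97991 (C_36 L97995 N_36))))) (by decide +kernel)
theorem L97997 : W_36 (nat_lit 2) (nat_lit 0x200000001a00090005000280004000600000000000000) (nat_lit 0x0) (nat_lit 0x400108000000000000000000000000000000) := D_36 (nat_lit 142) (nat_lit 128) (nat_lit 123) (nat_lit 2) (nat_lit 5) (nat_lit 8) (nat_lit 0) (nat_lit 8) (nat_lit 8) (by decide +kernel)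
theorem L97998 : W_36 (nat_lit 3) (nat_lit 0x200000001800090005000280004000600000000000000) (nat_lit 0x0) (nat_lit 0x600128000000000000000000000000000000) := T_36 (nat_lit 141) (nat_lit 125) (nat_lit 5) (nat_lit 6) (nat_lit 4) L97997 (by decide +kernel)
theorem L97999 : W_36 (nat_lit 4) (nat_lit 0x200000001800080005000280004000600000000000000) (nat_lit 0x0) (nat_lit 0x600138000800000000000000000000000000) := T_36 (nat_lit 124) (nat_lit 107) (nat_lit 5) (nat_lit 6) (nat_lit 3) L97998 (by decide +kernel)
theorem L98000 : W_36 (nat_lit 5) (nat_lit 0x200000001800080005000280004000400000000000000) (nat_lit 0x0) (nat_lit 0x600138000800000000000200020000000000) := T_36 (nat_lit 57) (nat_lit 41) (nat_lit 6) (nat_lit 6) (nat_lit 6) L97999 (by decide +kernel)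
theorem L98001 : W_36 (nat_lit 6) (nat_lit 0x200000001000080005000280004000400000000000000) (nat_lit 0x0) (nat_lit 0x10000e00138000800000000000200020000000000) := T_36 (nat_lit 143) (nat_lit 160) (nat_lit 5) (nat_lit 8) (nat_lit 5) L98000 (by decide +kernel)
theorem L98002 : W_36 (nat_lit 7) (nat_lit 0x200000001000080005000280004000000000000000000) (nat_lit 0x0) (nat_lit 0x10000e00138000800000018000e00020000000000) := Q_36 (nat_lit 58) (C_36 L98001 (C_36 L97947 (C_36 L97951 N_36))) (by decide +kernel)
theorem L98003 : W_36 (nat_lit 14) (nat_lit 0x200000001000080005000280000000000000000000000) (nat_lit 0x0) (nat_lit 0x1e000e0013800880046001f801fc00fe007c00280) := Q_36 (nat_lit 74) (C_36 L97908 (C_36 L97931 (C_36 L97946 (C_36 L97948 (C_36 L97952 (C_36 L97953 (C_36 L97977 (C_36 L97978 (C_36 L97996 (C_36 L98002 N_36)))))))))) (by decide +kernel)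
theorem L98004 : W_36 (nat_lit 2) (nat_lit 0x20000000180008000500028000c000400000000000000) (nat_lit 0x0) (nat_lit 0x200020001000000) := D_36 (nat_lit 41) (nat_lit 57) (nat_lit 24) (nat_lit 6) (nat_lit 6) (nat_lit 6) (nat_lit 5) (nat_lit 7) (nat_lit 1) (by decide +kernel)
theorem L98005 : W_36 (nat_lit 3) (nat_lit 0x200000001800080005000280008000400000000000000) (nat_lit 0x0) (nat_lit 0x20000000000004000200020001000000) := T_36 (nat_lit 74) (nat_lit 125) (nat_lit 6) (nat_lit 6) (nat_lit 7) L98004 (by decide +kernel)
theorem L98006 : W_36 (nat_lit 4) (nat_lit 0x200000001800080005000280008000000000000000000) (nat_lit 0x0) (nat_lit 0x20000000000014000600020001000000) := T_36 (nat_lit 58) (nat_lit 76) (nat_lit 4) (nat_lit 8) (nat_lit 7) L98005 (by decide +kernel)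
theorem L98007 : W_36 (nat_lit 5) (nat_lit 0x200000001800080005000280000000000000000000000) (nat_lit 0x0) (nat_lit 0x2000000010001c000600020001000000) := T_36 (nat_lit 75) (nat_lit 92) (nat_lit 4) (nat_lit 8) (nat_lit 8) L98006 (by decide +kernel)
theorem L98008 : W_36 (nat_lit 6) (nat_lit 0x200000001000080005000280000000000000000000000) (nat_lit 0x0) (nat_lit 0x1000080002000000010001c000600020001000000) := T_36 (nat_lit 143) (nat_lit 160) (nat_lit 5) (nat_lit 8) (nat_lit 5) L98007 (by decide +kernel)
theorem L98009 : W_36 (nat_lit 15) (nat_lit 0x200000001000080005000200000000000000000000000) (nat_lit 0x0) (nat_lit 0x1f000f0013c018e005e001f801fc00fe007c00280) := Q_36 (nat_lit 91) (C_36 L97857 (C_36 L97860 (C_36 L97870 (C_36 L97898 (C_36 L98003 (C_36 L98008 N_36)))))) (by decide +kernel)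
theorem L98010 : W_36 (nat_lit 5) (nat_lit 0x200000001000080007000200000000000000000000000) (nat_lit 0x0) (nat_lit 0x700038001d00018000c00000000000000) := Q_36 (nat_lit 111) (C_36 L97681 (C_36 L97819 (C_36 L97790 N_36))) (by decide +kernel)
theorem L98011 : W_36 (nat_lit 6) (nat_lit 0x200000001000080005000200000000000000000000000) (nat_lit 0x0) (nat_lit 0x71c03ac01d00018000c00000000000000) := Q_36 (nat_lit 109) (C_36 L98010 (C_36 L97793 (C_36 L97846 (C_36 L97690 (C_36 L97683 N_36))))) (by decide +kernel)
theorem L98012 : W_36 (nat_lit 2) (nat_lit 0x20000000100008000d000380000000000000000000000) (nat_lit 0x0) (nat_lit 0x30000400000000000000000000000) := D_36 (nat_lit 112) (nat_lit 113) (nat_lit 94) (nat_lit 0) (nat_lit 11) (nat_lit 6) (nat_lit 3) (nat_lit 6) (nat_lit 5) (by decide +kernel)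
theorem L98013 : W_36 (nat_lit 3) (nat_lit 0x20000000100008000d000300000000000000000000000) (nat_lit 0x0) (nat_lit 0x300004c0000000000000000000000) := T_36 (nat_lit 91) (nat_lit 90) (nat_lit 3) (nat_lit 5) (nat_lit 5) L98012 (by decide +kernel)
theorem L98014 : W_36 (nat_lit 4) (nat_lit 0x20000000100008000d000200000000000000000000000) (nat_lit 0x0) (nat_lit 0x300005c0008000000000000000000) := T_36 (nat_lit 92) (nat_lit 75) (nat_lit 4) (nat_lit 8) (nat_lit 8) L98013 (by decide +kernel)
theorem L98015 : W_36 (nat_lit 2) (nat_lit 0x20000000180008000d000200018000800040000000000) (nat_lit 0x0) (nat_lit 0x1000080004000000) := D_36 (nat_lit 43) (nat_lit 26) (nat_lit 60) (nat_lit 6) (nat_lit 8) (nat_lit 5) (nat_lit 6) (nat_lit 8) (nat_lit 6) (by decide +kernel)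
theorem L98016 : W_36 (nat_lit 3) (nat_lit 0x20000000180008000d000200018000800000000000000) (nat_lit 0x0) (nat_lit 0x4000000010000c0004000000) := T_36 (nat_lit 42) (nat_lit 94) (nat_lit 7) (nat_lit 8) (nat_lit 2) L98015 (by decide +kernel)
theorem L98017 : W_36 (nat_lit 4) (nat_lit 0x20000000180008000d000200018000000000000000000) (nat_lit 0x0) (nat_lit 0x1000000004000000018000c0004000000) := T_36 (nat_lit 59) (nat_lit 128) (nat_lit 7) (nat_lit 8) (nat_lit 3) L98016 (by decide +kernel)
theorem L98018 : W_36 (nat_lit 5) (nat_lit 0x20000000180008000d000200008000000000000000000) (nat_lit 0x0) (nat_lit 0x100000000400010001c000c0004000000) := T_36 (nat_lit 76) (nat_lit 58) (nat_lit 4) (nat_lit 8) (nat_lit 7) L98017 (by decide +kernel)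
theorem L98019 : W_36 (nat_lit 6) (nat_lit 0x20000000180008000d000200000000000000000000000) (nat_lit 0x0) (nat_lit 0x100000000500018001c000c0004000000) := T_36 (nat_lit 75) (nat_lit 92) (nat_lit 4) (nat_lit 8) (nat_lit 8) L98018 (by decide +kernel)
theorem L98020 : W_36 (nat_lit 7) (nat_lit 0x20000000100008000d000200000000000000000000000) (nat_lit 0x0) (nat_lit 0x10000800100000000500018001c000c0004000000) := T_36 (nat_lit 143) (nat_lit 160) (nat_lit 5) (nat_lit 8) (nat_lit 5) L98019 (by decide +kernel)
theorem L98021 : W_36 (nat_lit 2) (nat_lit 0x20000000100008000d000380000000000000000000000) (nat_lit 0x0) (nat_lit 0x32000000000000000000000000000) := D_36 (nat_lit 112) (nat_lit 113) (nat_lit 109) (nat_lit 0) (nat_lit 11) (nat_lit 6) (nat_lit 0) (nat_lit 10) (nat_lit 6) (by decide +kernel)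
theorem L98022 : W_36 (nat_lit 3) (nat_lit 0x20000000100008000d000300000000000000000000000) (nat_lit 0x0) (nat_lit 0x320000c0000000000000000000000) := T_36 (nat_lit 91) (nat_lit 90) (nat_lit 3) (nat_lit 5) (nat_lit 5) L98021 (by decide +kernel)
theorem L98023 : W_36 (nat_lit 4) (nat_lit 0x20000000100008000d000200000000000000000000000) (nat_lit 0x0) (nat_lit 0x320001c0008000000000000000000) := T_36 (nat_lit 92) (nat_lit 75) (nat_lit 4) (nat_lit 8) (nat_lit 8) L98022 (by decide +kernel)
theorem L98024 : W_36 (nat_lit 10) (nat_lit 0x20000000100008000d000200000000000000000000000) (nat_lit 0x0) (nat_lit 0x1c000e01f30072007dc0010000800000000000000) := Q_36 (nat_lit 109) (C_36 L97843 (C_36 L97681 (C_36 L97816 (C_36 L97673 (C_36 L97678 N_36))))) (by decide +kernel)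
theorem L98025 : W_36 (nat_lit 2) (nat_lit 0x20000000100008000d000200010000800000000000000) (nat_lit 0x0) (nat_lit 0x8000400020000000000) := D_36 (nat_lit 58) (nat_lit 75) (nat_lit 41) (nat_lit 4) (nat_lit 8) (nat_lit 7) (nat_lit 4) (nat_lit 8) (nat_lit 6) (by decide +kernel)
theorem L98026 : W_36 (nat_lit 3) (nat_lit 0x20000000100008000d000200010000000000000000000) (nat_lit 0x0) (nat_lit 0x100000000000008000c00020000000000) := T_36 (nat_lit 59) (nat_lit 128) (nat_lit 7) (nat_lit 8) (nat_lit 3) L98025 (by decide +kernel)
theorem L98027 : W_36 (nat_lit 6) (nat_lit 0x20000000100008000d000200010000000000000000000) (nat_lit 0x0) (nat_lit 0x10000800000000000400008001c000e0004000000) := T_36 (nat_lit 58) (nat_lit 75) (nat_lit 4) (nat_lit 8) (nat_lit 7) L97630 (by decide +kernel)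
theorem L98028 : W_36 (nat_lit 2) (nat_lit 0x20000000180008000d000200010000800040000000000) (nat_lit 0x0) (nat_lit 0x1000080004000000) := D_36 (nat_lit 43) (nat_lit 26) (nat_lit 60) (nat_lit 6) (nat_lit 8) (nat_lit 5) (nat_lit 6) (nat_lit 8) (nat_lit 6) (by decide +kernel)
theorem L98029 : W_36 (nat_lit 3) (nat_lit 0x20000000180008000d000200010000800000000000000) (nat_lit 0x0) (nat_lit 0x4000000010000c0004000000) := T_36 (nat_lit 42) (nat_lit 94) (nat_lit 7) (nat_lit 8) (nat_lit 2) L98028 (by decide +kernel)
theorem L98030 : W_36 (nat_lit 4) (nat_lit 0x20000000180008000d000200010000000000000000000) (nat_lit 0x0) (nat_lit 0x1000000004000000018000c0004000000) := T_36 (nat_lit 59) (nat_lit 128) (nat_lit 7) (nat_lit 8) (nat_lit 3) L98029 (by decide +kernel)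
theorem L98031 : W_36 (nat_lit 5) (nat_lit 0x20000000100008000d000200010000000000000000000) (nat_lit 0x0) (nat_lit 0x100008001000000004000000018000c0004000000) := T_36 (nat_lit 143) (nat_lit 160) (nat_lit 5) (nat_lit 8) (nat_lit 5) L98030 (by decide +kernel)
theorem L98032 : W_36 (nat_lit 2) (nat_lit 0x20000000100008003d000200010000000000000000000) (nat_lit 0x0) (nat_lit 0x100040000400000000000000000000000) := D_36 (nat_lit 114) (nat_lit 94) (nat_lit 128) (nat_lit 0) (nat_lit 12) (nat_lit 6) (nat_lit 1) (nat_lit 12) (nat_lit 6) (by decide +kernel)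
theorem L98033 : W_36 (nat_lit 2) (nat_lit 0x20000000180008003f001200010000000000000000000) (nat_lit 0x0) (nat_lit 0xe00000000000000000000000000000000) := D_36 (nat_lit 130) (nat_lit 131) (nat_lit 129) (nat_lit 3) (nat_lit 8) (nat_lit 6) (nat_lit 3) (nat_lit 7) (nat_lit 6) (by decide +kernel)
theorem L98034 : W_36 (nat_lit 3) (nat_lit 0x20000000180008003d001200010000000000000000000) (nat_lit 0x0) (nat_lit 0xe00002000800000000000000000000000) := T_36 (nat_lit 109) (nat_lit 95) (nat_lit 2) (nat_lit 7) (nat_lit 6) L98033 (by decide +kernel)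
theorem L98035 : W_36 (nat_lit 4) (nat_lit 0x20000000180008003d000200010000000000000000000) (nat_lit 0x0) (nat_lit 0xe00002003800000000000000000000000) := T_36 (nat_lit 96) (nat_lit 97) (nat_lit 2) (nat_lit 8) (nat_lit 6) L98034 (by decide +kernel)
theorem L98036 : W_36 (nat_lit 5) (nat_lit 0x20000000100008003d000200010000000000000000000) (nat_lit 0x0) (nat_lit 0x10000800e00002003800000000000000000000000) := T_36 (nat_lit 143) (nat_lit 160) (nat_lit 5) (nat_lit 8) (nat_lit 5) L98035 (by decide +kernel)
theorem L98037 : W_36 (nat_lit 6) (nat_lit 0x20000000100008001d000200010000000000000000000) (nat_lit 0x0) (nat_lit 0x10000800f00062003c00000000000000000000000) := Q_36 (nat_lit 113) (C_36 L98032 (C_36 L98036 N_36)) (by decide +kernel)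
theorem L98038 : W_36 (nat_lit 2) (nat_lit 0x20000000100008001f000200010000000000000000000) (nat_lit 0x0) (nat_lit 0x1c00000000000000000000000) := D_36 (nat_lit 95) (nat_lit 94) (nat_lit 96) (nat_lit 2) (nat_lit 6) (nat_lit 6) (nat_lit 2) (nat_lit 7) (nat_lit 6) (by decide +kernel)
theorem L98039 : W_36 (nat_lit 2) (nat_lit 0x20000000100008001f000200010000000000000000000) (nat_lit 0x0) (nat_lit 0x700000000000000000000000000000000) := D_36 (nat_lit 129) (nat_lit 130) (nat_lit 128) (nat_lit 3) (nat_lit 7) (nat_lit 6) (nat_lit 3) (nat_lit 6) (nat_lit 6) (by decide +kernel)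
theorem L98040 : W_36 (nat_lit 3) (nat_lit 0x20000000100008001d000200010000000000000000000) (nat_lit 0x0) (nat_lit 0x700002001c00000000000000000000000) := Q_36 (nat_lit 109) (C_36 L98038 (C_36 L98039 N_36)) (by decide +kernel)
theorem L98041 : W_36 (nat_lit 2) (nat_lit 0x20000000100048001f001200018000000000000000000) (nat_lit 0x0) (nat_lit 0x800020002000000000000000000000000) := D_36 (nat_lit 113) (nat_lit 97) (nat_lit 131) (nat_lit 2) (nat_lit 8) (nat_lit 6) (nat_lit 3) (nat_lit 8) (nat_lit 6) (by decide +kernel)
theorem L98042 : W_36 (nat_lit 3) (nat_lit 0x20000000100008001f001200018000000000000000000) (nat_lit 0x0) (nat_lit 0xe00020002000000000000000000000000) := T_36 (nat_lit 130) (nat_lit 129) (nat_lit 3) (nat_lit 7) (nat_lit 6) L98041 (by decide +kernel)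
theorem L98043 : W_36 (nat_lit 4) (nat_lit 0x20000000100008001f000200018000000000000000000) (nat_lit 0x0) (nat_lit 0xe00020003800000000000000000000000) := T_36 (nat_lit 96) (nat_lit 95) (nat_lit 2) (nat_lit 7) (nat_lit 6) L98042 (by decide +kernel)
theorem L98044 : W_36 (nat_lit 5) (nat_lit 0x20000000100008001f000200010000000000000000000) (nat_lit 0x0) (nat_lit 0xe00020003800008000400000000000000) := T_36 (nat_lit 75) (nat_lit 58) (nat_lit 4) (nat_lit 8) (nat_lit 7) L98043 (by decide +kernel)
theorem L98045 : W_36 (nat_lit 2) (nat_lit 0x20000000100048003f002280018000000000000000000) (nat_lit 0x0) (nat_lit 0x40004400000000000000000000000) := D_36 (nat_lit 114) (nat_lit 94) (nat_lit 98) (nat_lit 0) (nat_lit 12) (nat_lit 6) (nat_lit 2) (nat_lit 9) (nat_lit 6) (by decide +kernel)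
theorem L98046 : W_36 (nat_lit 3) (nat_lit 0x20000000100048003f000280018000000000000000000) (nat_lit 0x0) (nat_lit 0x40007400000000000000000000000) := T_36 (nat_lit 97) (nat_lit 96) (nat_lit 2) (nat_lit 8) (nat_lit 6) L98045 (by decide +kernel)
theorem L98047 : W_36 (nat_lit 4) (nat_lit 0x20000000100048001f000280018000000000000000000) (nat_lit 0x0) (nat_lit 0x800060007400000000000000000000000) := T_36 (nat_lit 113) (nat_lit 131) (nat_lit 3) (nat_lit 8) (nat_lit 6) L98046 (by decide +kernel)
theorem L98048 : W_36 (nat_lit 5) (nat_lit 0x20000000100048001f000200018000000000000000000) (nat_lit 0x0) (nat_lit 0x8000600074c0000000000000000000000) := T_36 (nat_lit 91) (nat_lit 90) (nat_lit 0) (nat_lit 9) (nat_lit 6) L98047 (by decide +kernel)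
theorem L98049 : W_36 (nat_lit 6) (nat_lit 0x20000000100008001f000200018000000000000000000) (nat_lit 0x0) (nat_lit 0xe000600074c0000000000000000000000) := T_36 (nat_lit 130) (nat_lit 129) (nat_lit 3) (nat_lit 7) (nat_lit 6) L98048 (by decide +kernel)
theorem L98050 : W_36 (nat_lit 7) (nat_lit 0x20000000100008001f000200010000000000000000000) (nat_lit 0x0) (nat_lit 0xe000600074c0008000400000000000000) := T_36 (nat_lit 75) (nat_lit 58) (nat_lit 4) (nat_lit 8) (nat_lit 7) L98049 (by decide +kernel)
theorem L98051 : W_36 (nat_lit 2) (nat_lit 0x2000000010000a003f000600010000000000000000000) (nat_lit 0x0) (nat_lit 0xe00000000000000000000000000000000) := D_36 (nat_lit 130) (nat_lit 129) (nat_lit 131) (nat_lit 3) (nat_lit 7) (nat_lit 6) (nat_lit 3) (nat_lit 8) (nat_lit 6) (by decide +kernel)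
theorem L98052 : W_36 (nat_lit 3) (nat_lit 0x2000000010000a001f000600010000000000000000000) (nat_lit 0x0) (nat_lit 0xe00060000000000000000000000000000) := T_36 (nat_lit 113) (nat_lit 114) (nat_lit 0) (nat_lit 12) (nat_lit 6) L98051 (by decide +kernel)
theorem L98053 : W_36 (nat_lit 4) (nat_lit 0x2000000010000a001f000200010000000000000000000) (nat_lit 0x0) (nat_lit 0xe00060000c00000000000000000000000) := T_36 (nat_lit 94) (nat_lit 95) (nat_lit 2) (nat_lit 6) (nat_lit 6) L98052 (by decide +kernel)
theorem L98054 : W_36 (nat_lit 5) (nat_lit 0x20000000100008001f000200010000000000000000000) (nat_lit 0x0) (nat_lit 0xe30060000c00000000000000000000000) := T_36 (nat_lit 125) (nat_lit 124) (nat_lit 1) (nat_lit 9) (nat_lit 6) L98053 (by decide +kernel)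
theorem L98055 : W_36 (nat_lit 8) (nat_lit 0x20000000100008001d000200010000000000000000000) (nat_lit 0x0) (nat_lit 0xe30062007cc0008000400000000000000) := Q_36 (nat_lit 109) (C_36 L98038 (C_36 L98044 (C_36 L98050 (C_36 L98054 N_36)))) (by decide +kernel)
theorem L98056 : W_36 (nat_lit 2) (nat_lit 0x20000000180008007f001200018000000000000000000) (nat_lit 0x0) (nat_lit 0x1c00000000000000000000000000000000) := D_36 (nat_lit 131) (nat_lit 130) (nat_lit 132) (nat_lit 3) (nat_lit 8) (nat_lit 6) (nat_lit 3) (nat_lit 9) (nat_lit 6) (by decide +kernel)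
theorem L98057 : W_36 (nat_lit 3) (nat_lit 0x20000000180008003f001200018000000000000000000) (nat_lit 0x0) (nat_lit 0x1d00040000000000000000000000000000) := T_36 (nat_lit 114) (nat_lit 128) (nat_lit 1) (nat_lit 12) (nat_lit 6) L98056 (by decide +kernel)
theorem L98058 : W_36 (nat_lit 4) (nat_lit 0x20000000180008001f001200018000000000000000000) (nat_lit 0x0) (nat_lit 0x1d00060002000000000000000000000000) := T_36 (nat_lit 113) (nat_lit 97) (nat_lit 2) (nat_lit 8) (nat_lit 6) L98057 (by decide +kernel)
theorem L98059 : W_36 (nat_lit 5) (nat_lit 0x20000000180008001f001200010000000000000000000) (nat_lit 0x0) (nat_lit 0x1d00060002000008000400000000000000) := T_36 (nat_lit 75) (nat_lit 58) (nat_lit 4) (nat_lit 8) (nat_lit 7) L98058 (by decide +kernel)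
theorem L98060 : W_36 (nat_lit 6) (nat_lit 0x20000000180008001f000200010000000000000000000) (nat_lit 0x0) (nat_lit 0x1d00060003800008000400000000000000) := T_36 (nat_lit 96) (nat_lit 95) (nat_lit 2) (nat_lit 7) (nat_lit 6) L98059 (by decide +kernel)
theorem L98061 : W_36 (nat_lit 7) (nat_lit 0x20000000100008001f000200010000000000000000000) (nat_lit 0x0) (nat_lit 0x10000801d00060003800008000400000000000000) := T_36 (nat_lit 143) (nat_lit 160) (nat_lit 5) (nat_lit 8) (nat_lit 5) L98060 (by decide +kernel)
theorem L98062 : W_36 (nat_lit 2) (nat_lit 0x20000000100018001f001200010000000000000000000) (nat_lit 0x0) (nat_lit 0x60002000000000000000000000000) := D_36 (nat_lit 113) (nat_lit 114) (nat_lit 97) (nat_lit 1) (nat_lit 12) (nat_lit 6) (nat_lit 2) (nat_lit 8) (nat_lit 6) (by decide +kernel)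
theorem L98063 : W_36 (nat_lit 3) (nat_lit 0x20000000100008001f001200010000000000000000000) (nat_lit 0x0) (nat_lit 0x300060002000000000000000000000000) := T_36 (nat_lit 128) (nat_lit 129) (nat_lit 3) (nat_lit 6) (nat_lit 6) L98062 (by decide +kernel)
theorem L98064 : W_36 (nat_lit 4) (nat_lit 0x20000000100008001f000200010000000000000000000) (nat_lit 0x0) (nat_lit 0x300060003800000000000000000000000) := T_36 (nat_lit 96) (nat_lit 95) (nat_lit 2) (nat_lit 7) (nat_lit 6) L98063 (by decide +kernel)
theorem L98065 : W_36 (nat_lit 8) (nat_lit 0x20000000100008001d000200010000000000000000000) (nat_lit 0x0) (nat_lit 0x10000801f00062003800008000400000000000000) := Q_36 (nat_lit 109) (C_36 L98044 (C_36 L98061 (C_36 L98039 (C_36 L98064 N_36)))) (by decide +kernel)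
theorem L98066 : W_36 (nat_lit 2) (nat_lit 0x2000000018008a003f001280010000000000000000000) (nat_lit 0x0) (nat_lit 0x1000040000400000000000000000000000) := D_36 (nat_lit 114) (nat_lit 94) (nat_lit 132) (nat_lit 0) (nat_lit 12) (nat_lit 6) (nat_lit 3) (nat_lit 9) (nat_lit 6) (by decide +kernel)
theorem L98067 : W_36 (nat_lit 3) (nat_lit 0x2000000018000a003f001280010000000000000000000) (nat_lit 0x0) (nat_lit 0x1c00040000400000000000000000000000) := T_36 (nat_lit 131) (nat_lit 130) (nat_lit 3) (nat_lit 8) (nat_lit 6) L98066 (by decide +kernel)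
theorem L98068 : W_36 (nat_lit 4) (nat_lit 0x2000000018000a003f001200010000000000000000000) (nat_lit 0x0) (nat_lit 0x1c000400004c0000000000000000000000) := T_36 (nat_lit 91) (nat_lit 90) (nat_lit 0) (nat_lit 9) (nat_lit 6) L98067 (by decide +kernel)
theorem L98069 : W_36 (nat_lit 5) (nat_lit 0x20000000180008003f001200010000000000000000000) (nat_lit 0x0) (nat_lit 0x1c300400004c0000000000000000000000) := T_36 (nat_lit 125) (nat_lit 124) (nat_lit 1) (nat_lit 9) (nat_lit 6) L98068 (by decide +kernel)
theorem L98070 : W_36 (nat_lit 6) (nat_lit 0x20000000180008003d001200010000000000000000000) (nat_lit 0x0) (nat_lit 0x1c30042000cc0000000000000000000000) := T_36 (nat_lit 109) (nat_lit 95) (nat_lit 2) (nat_lit 7) (nat_lit 6) L98069 (by decide +kernel)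
theorem L98071 : W_36 (nat_lit 7) (nat_lit 0x20000000180008003d000200010000000000000000000) (nat_lit 0x0) (nat_lit 0x1c30042003cc0000000000000000000000) := T_36 (nat_lit 96) (nat_lit 97) (nat_lit 2) (nat_lit 8) (nat_lit 6) L98070 (by decide +kernel)
theorem L98072 : W_36 (nat_lit 8) (nat_lit 0x20000000100008003d000200010000000000000000000) (nat_lit 0x0) (nat_lit 0x10000801c30042003cc0000000000000000000000) := T_36 (nat_lit 143) (nat_lit 160) (nat_lit 5) (nat_lit 8) (nat_lit 5) L98071 (by decide +kernel)
theorem L98073 : W_36 (nat_lit 2) (nat_lit 0x20000000100008007d000200010000000000000000000) (nat_lit 0x0) (nat_lit 0x1c00000000000000000000000000000000) := D_36 (nat_lit 131) (nat_lit 130) (nat_lit 132) (nat_lit 3) (nat_lit 8) (nat_lit 6) (nat_lit 3) (nat_lit 9) (nat_lit 6) (by decide +kernel)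
theorem L98074 : W_36 (nat_lit 3) (nat_lit 0x20000000100008003d000200010000000000000000000) (nat_lit 0x0) (nat_lit 0x1d00040000000000000000000000000000) := T_36 (nat_lit 114) (nat_lit 128) (nat_lit 1) (nat_lit 12) (nat_lit 6) L98073 (by decide +kernel)
theorem L98075 : W_36 (nat_lit 2) (nat_lit 0x20000000180008003d001a00010000000000000000000) (nat_lit 0x0) (nat_lit 0x400008000400000000000000) := D_36 (nat_lit 75) (nat_lit 58) (nat_lit 94) (nat_lit 4) (nat_lit 8) (nat_lit 7) (nat_lit 0) (nat_lit 11) (nat_lit 5) (by decide +kernel)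
theorem L98076 : W_36 (nat_lit 3) (nat_lit 0x20000000180008003d001200010000000000000000000) (nat_lit 0x0) (nat_lit 0x2000c00008000400000000000000) := T_36 (nat_lit 95) (nat_lit 109) (nat_lit 2) (nat_lit 7) (nat_lit 6) L98075 (by decide +kernel)
theorem L98077 : W_36 (nat_lit 4) (nat_lit 0x20000000180008003d000200010000000000000000000) (nat_lit 0x0) (nat_lit 0x2003c00008000400000000000000) := T_36 (nat_lit 96) (nat_lit 97) (nat_lit 2) (nat_lit 8) (nat_lit 6) L98076 (by decide +kernel)
theorem L98078 : W_36 (nat_lit 5) (nat_lit 0x20000000100008003d000200010000000000000000000) (nat_lit 0x0) (nat_lit 0x10000800000002003c00008000400000000000000) := T_36 (nat_lit 143) (nat_lit 160) (nat_lit 5) (nat_lit 8) (nat_lit 5) L98077 (by decide +kernel)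
theorem L98079 : W_36 (nat_lit 9) (nat_lit 0x20000000100008001d000200010000000000000000000) (nat_lit 0x0) (nat_lit 0x10000801d30062003cc0008000400000000000000) := Q_36 (nat_lit 113) (C_36 L98032 (C_36 L98072 (C_36 L98074 (C_36 L98078 N_36)))) (by decide +kernel)
theorem L98080 : W_36 (nat_lit 2) (nat_lit 0x20000000180048003d001600010000000000000000000) (nat_lit 0x0) (nat_lit 0x800008000400000000000000) := D_36 (nat_lit 75) (nat_lit 58) (nat_lit 95) (nat_lit 4) (nat_lit 8) (nat_lit 7) (nat_lit 0) (nat_lit 11) (nat_lit 5) (by decide +kernel)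
theorem L98081 : W_36 (nat_lit 3) (nat_lit 0x20000000180048003d001200010000000000000000000) (nat_lit 0x0) (nat_lit 0x40000c00008000400000000000000) := T_36 (nat_lit 94) (nat_lit 114) (nat_lit 0) (nat_lit 12) (nat_lit 6) L98080 (by decide +kernel)
theorem L98082 : W_36 (nat_lit 4) (nat_lit 0x20000000180008003d001200010000000000000000000) (nat_lit 0x0) (nat_lit 0xc00040000c00008000400000000000000) := T_36 (nat_lit 130) (nat_lit 131) (nat_lit 3) (nat_lit 8) (nat_lit 6) L98081 (by decide +kernel)
theorem L98083 : W_36 (nat_lit 5) (nat_lit 0x20000000180008003d000200010000000000000000000) (nat_lit 0x0) (nat_lit 0xc00040003c00008000400000000000000) := T_36 (nat_lit 96) (nat_lit 97) (nat_lit 2) (nat_lit 8) (nat_lit 6) L98082 (by decide +kernel)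
theorem L98084 : W_36 (nat_lit 6) (nat_lit 0x20000000100008003d000200010000000000000000000) (nat_lit 0x0) (nat_lit 0x10000800c00040003c00008000400000000000000) := T_36 (nat_lit 143) (nat_lit 160) (nat_lit 5) (nat_lit 8) (nat_lit 5) L98083 (by decide +kernel)
theorem L98085 : W_36 (nat_lit 2) (nat_lit 0x20000000180048003d001a00018000000000000000000) (nat_lit 0x0) (nat_lit 0x100008000000000000000040000000000000000000) := D_36 (nat_lit 147) (nat_lit 78) (nat_lit 164) (nat_lit 4) (nat_lit 11) (nat_lit 8) (nat_lit 4) (nat_lit 11) (nat_lit 9) (by decide +kernel)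
theorem L98086 : W_36 (nat_lit 3) (nat_lit 0x20000000180008003d001a00018000000000000000000) (nat_lit 0x0) (nat_lit 0x100008000c00000000000040000000000000000000) := T_36 (nat_lit 130) (nat_lit 131) (nat_lit 3) (nat_lit 8) (nat_lit 6) L98085 (by decide +kernel)
theorem L98087 : W_36 (nat_lit 4) (nat_lit 0x20000000100008003d001a00018000000000000000000) (nat_lit 0x0) (nat_lit 0x110008800c00000000000040000000000000000000) := T_36 (nat_lit 143) (nat_lit 160) (nat_lit 5) (nat_lit 8) (nat_lit 5) L98086 (by decide +kernel)
theorem L98088 : W_36 (nat_lit 5) (nat_lit 0x20000000100008003d001200018000000000000000000) (nat_lit 0x0) (nat_lit 0x110008800c00000000c00040000000000000000000) := T_36 (nat_lit 95) (nat_lit 94) (nat_lit 0) (nat_lit 11) (nat_lit 5) L98087 (by decide +kernel)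
theorem L98089 : W_36 (nat_lit 6) (nat_lit 0x20000000100008003d000200018000000000000000000) (nat_lit 0x0) (nat_lit 0x110008800c00000003c00040000000000000000000) := T_36 (nat_lit 96) (nat_lit 97) (nat_lit 2) (nat_lit 8) (nat_lit 6) L98088 (by decide +kernel)
theorem L98090 : W_36 (nat_lit 7) (nat_lit 0x20000000100008003d000200010000000000000000000) (nat_lit 0x0) (nat_lit 0x110008800c00000003c00048000400000000000000) := T_36 (nat_lit 75) (nat_lit 58) (nat_lit 4) (nat_lit 8) (nat_lit 7) L98089 (by decide +kernel)
theorem L98091 : W_36 (nat_lit 8) (nat_lit 0x20000000100008001d000200010000000000000000000) (nat_lit 0x0) (nat_lit 0x110008801d00060003c00048000400000000000000) := Q_36 (nat_lit 113) (C_36 L98074 (C_36 L98084 (C_36 L98032 (C_36 L98090 N_36)))) (by decide +kernel)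
theorem L98092 : W_36 (nat_lit 2) (nat_lit 0x20000000100068003d001200018000000000000000000) (nat_lit 0x0) (nat_lit 0x4000000000000000080004000000000000000) := D_36 (nat_lit 79) (nat_lit 62) (nat_lit 146) (nat_lit 5) (nat_lit 11) (nat_lit 3) (nat_lit 5) (nat_lit 11) (nat_lit 4) (by decide +kernel)
theorem L98093 : W_36 (nat_lit 3) (nat_lit 0x20000000100048003d001200018000000000000000000) (nat_lit 0x0) (nat_lit 0x4000200002000000080004000000000000000) := T_36 (nat_lit 129) (nat_lit 109) (nat_lit 3) (nat_lit 7) (nat_lit 6) L98092 (by decide +kernel)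
theorem L98094 : W_36 (nat_lit 4) (nat_lit 0x20000000100008003d001200018000000000000000000) (nat_lit 0x0) (nat_lit 0x4000e00002000000080004000000000000000) := T_36 (nat_lit 130) (nat_lit 131) (nat_lit 3) (nat_lit 8) (nat_lit 6) L98093 (by decide +kernel)
theorem L98095 : W_36 (nat_lit 5) (nat_lit 0x20000000100008003d000200018000000000000000000) (nat_lit 0x0) (nat_lit 0x4000e00002003000080004000000000000000) := T_36 (nat_lit 96) (nat_lit 97) (nat_lit 2) (nat_lit 8) (nat_lit 6) L98094 (by decide +kernel)
theorem L98096 : W_36 (nat_lit 6) (nat_lit 0x20000000100008003d000200010000000000000000000) (nat_lit 0x0) (nat_lit 0x4000e00002003000088004400000000000000) := T_36 (nat_lit 75) (nat_lit 58) (nat_lit 4) (nat_lit 8) (nat_lit 7) L98095 (by decide +kernel)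
theorem L98097 : W_36 (nat_lit 7) (nat_lit 0x20000000100008001d000200010000000000000000000) (nat_lit 0x0) (nat_lit 0x4001f00062003400088004400000000000000) := Q_36 (nat_lit 113) (C_36 L98074 (C_36 L98096 (C_36 L98032 N_36))) (by decide +kernel)
theorem L98098 : W_36 (nat_lit 2) (nat_lit 0x20000000100008003f001200010000000000000000000) (nat_lit 0x0) (nat_lit 0x300040000000000000000000000000000) := D_36 (nat_lit 128) (nat_lit 114) (nat_lit 129) (nat_lit 1) (nat_lit 12) (nat_lit 6) (nat_lit 3) (nat_lit 6) (nat_lit 6) (by decide +kernel)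
theorem L98099 : W_36 (nat_lit 3) (nat_lit 0x20000000100008003d001200010000000000000000000) (nat_lit 0x0) (nat_lit 0x300042000800000000000000000000000) := T_36 (nat_lit 109) (nat_lit 95) (nat_lit 2) (nat_lit 7) (nat_lit 6) L98098 (by decide +kernel)
theorem L98100 : W_36 (nat_lit 4) (nat_lit 0x20000000100008003d000200010000000000000000000) (nat_lit 0x0) (nat_lit 0x300042003800000000000000000000000) := T_36 (nat_lit 96) (nat_lit 97) (nat_lit 2) (nat_lit 8) (nat_lit 6) L98099 (by decide +kernel)
theorem L98101 : W_36 (nat_lit 6) (nat_lit 0x20000000100008001d000200010000000000000000000) (nat_lit 0x0) (nat_lit 0x10000800300062003c00008000400000000000000) := Q_36 (nat_lit 113) (C_36 L98078 (C_36 L98032 (C_36 L98100 N_36))) (by decide +kernel)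
theorem L98102 : W_36 (nat_lit 2) (nat_lit 0x20000000180048003f000200010000000000000000000) (nat_lit 0x0) (nat_lit 0x40000c00000000000000000000000) := D_36 (nat_lit 94) (nat_lit 95) (nat_lit 114) (nat_lit 2) (nat_lit 6) (nat_lit 6) (nat_lit 0) (nat_lit 12) (nat_lit 6) (by decide +kernel)
theorem L98103 : W_36 (nat_lit 3) (nat_lit 0x20000000180048003d000200010000000000000000000) (nat_lit 0x0) (nat_lit 0x200042000c00000000000000000000000) := T_36 (nat_lit 109) (nat_lit 129) (nat_lit 3) (nat_lit 7) (nat_lit 6) L98102 (by decide +kernel)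
theorem L98104 : W_36 (nat_lit 4) (nat_lit 0x20000000180008003d000200010000000000000000000) (nat_lit 0x0) (nat_lit 0xe00042000c00000000000000000000000) := T_36 (nat_lit 130) (nat_lit 131) (nat_lit 3) (nat_lit 8) (nat_lit 6) L98103 (by decide +kernel)
theorem L98105 : W_36 (nat_lit 5) (nat_lit 0x20000000100008003d000200010000000000000000000) (nat_lit 0x0) (nat_lit 0x10000800e00042000c00000000000000000000000) := T_36 (nat_lit 143) (nat_lit 160) (nat_lit 5) (nat_lit 8) (nat_lit 5) L98104 (by decide +kernel)
theorem L98106 : W_36 (nat_lit 2) (nat_lit 0x20000000100068003d000200010000000000000000000) (nat_lit 0x0) (nat_lit 0x10000800100000000000000000000000000000000) := D_36 (nat_lit 143) (nat_lit 160) (nat_lit 128) (nat_lit 5) (nat_lit 8) (nat_lit 5) (nat_lit 1) (nat_lit 11) (nat_lit 7) (by decide +kernel)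
theorem L98107 : W_36 (nat_lit 3) (nat_lit 0x20000000100048003d000200010000000000000000000) (nat_lit 0x0) (nat_lit 0x10000800300002000000000000000000000000000) := T_36 (nat_lit 129) (nat_lit 109) (nat_lit 3) (nat_lit 7) (nat_lit 6) L98106 (by decide +kernel)
theorem L98108 : W_36 (nat_lit 4) (nat_lit 0x20000000100008003d000200010000000000000000000) (nat_lit 0x0) (nat_lit 0x10000800f00002000000000000000000000000000) := T_36 (nat_lit 130) (nat_lit 131) (nat_lit 3) (nat_lit 8) (nat_lit 6) L98107 (by decide +kernel)
theorem L98109 : W_36 (nat_lit 6) (nat_lit 0x20000000100008001d000200010000000000000000000) (nat_lit 0x0) (nat_lit 0x10000801f00062000c00000000000000000000000) := Q_36 (nat_lit 113) (C_36 L98074 (C_36 L98105 (C_36 L98032 (C_36 L98108 N_36)))) (by decide +kernel)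
theorem L98110 : W_36 (nat_lit 10) (nat_lit 0x20000000100008000d000200010000000000000000000) (nat_lit 0x0) (nat_lit 0x11000c801f30072007cc00c8004400000000000000) := Q_36 (nat_lit 112) (C_36 L98037 (C_36 L98040 (C_36 L98055 (C_36 L98065 (C_36 L98079 (C_36 L98091 (C_36 L98097 (C_36 L98101 (C_36 L98109 N_36))))))))) (by decide +kernel)
theorem L98111 : W_36 (nat_lit 11) (nat_lit 0x20000000100008000d000200000000000000000000000) (nat_lit 0x0) (nat_lit 0x11000c801f30072007cc00d8005c000e0004000000) := Q_36 (nat_lit 76) (C_36 L98026 (C_36 L98027 (C_36 L98031 (C_36 L98110 N_36)))) (by decide +kernel)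
theorem L98112 : W_36 (nat_lit 12) (nat_lit 0x200000001000080005000200000000000000000000000) (nat_lit 0x0) (nat_lit 0x11c00ce01f3007a007dc00d8005c000e0004000000) := Q_36 (nat_lit 111) (C_36 L98014 (C_36 L98020 (C_36 L98023 (C_36 L98024 (C_36 L98111 N_36))))) (by decide +kernel)
theorem L98113 : W_36 (nat_lit 6) (nat_lit 0x200000001000080005000200000000000000000000000) (nat_lit 0x0) (nat_lit 0x70003ac01d00018000c00000000000000) := Q_36 (nat_lit 109) (C_36 L98010 (C_36 L97793 (C_36 L97846 (C_36 L97683 N_36)))) (by decide +kernel)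
theorem L98114 : W_36 (nat_lit 16) (nat_lit 0x200000001000080004000200000000000000000000000) (nat_lit 0x0) (nat_lit 0x8001c011f00cf01f3c07bf07df80dfc05fc00fe007c00280) := Q_36 (nat_lit 108) (C_36 L97691 (C_36 L97785 (C_36 L97794 (C_36 L97827 (C_36 L97830 (C_36 L97847 (C_36 L98009 (C_36 L98011 (C_36 L98112 (C_36 L98113 N_36)))))))))) (by decide +kernel)
theorem L98115 : W_36 (nat_lit 2) (nat_lit 0x200000001800080004000200028000000000000000000) (nat_lit 0x0) (nat_lit 0x10001400000000000000) := D_36 (nat_lit 76) (nat_lit 60) (nat_lit 58) (nat_lit 6) (nat_lit 8) (nat_lit 7) (nat_lit 4) (nat_lit 8) (nat_lit 7) (by decide +kernel)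
theorem L98116 : W_36 (nat_lit 3) (nat_lit 0x200000001800080004000200020000000000000000000) (nat_lit 0x0) (nat_lit 0x100018001400000000000000) := T_36 (nat_lit 75) (nat_lit 92) (nat_lit 4) (nat_lit 8) (nat_lit 8) L98115 (by decide +kernel)
theorem L98117 : W_36 (nat_lit 4) (nat_lit 0x200000001800080004000200000000000000000000000) (nat_lit 0x0) (nat_lit 0x500038001400000000000000) := T_36 (nat_lit 77) (nat_lit 94) (nat_lit 6) (nat_lit 8) (nat_lit 8) L98116 (by decide +kernel)
theorem L98118 : W_36 (nat_lit 5) (nat_lit 0x200000001000080004000200000000000000000000000) (nat_lit 0x0) (nat_lit 0x10000800000000000500038001400000000000000) := T_36 (nat_lit 143) (nat_lit 160) (nat_lit 5) (nat_lit 8) (nat_lit 5) L98117 (by decide +kernel)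
theorem L98119 : W_36 (nat_lit 2) (nat_lit 0x200000001000080004000200028000000000000000000) (nat_lit 0x0) (nat_lit 0x10001400000000000000) := D_36 (nat_lit 76) (nat_lit 58) (nat_lit 60) (nat_lit 4) (nat_lit 8) (nat_lit 7) (nat_lit 6) (nat_lit 8) (nat_lit 7) (by decide +kernel)
theorem L98120 : W_36 (nat_lit 3) (nat_lit 0x200000001000080004000200008000000000000000000) (nat_lit 0x0) (nat_lit 0x400030001400000000000000) := T_36 (nat_lit 77) (nat_lit 94) (nat_lit 6) (nat_lit 8) (nat_lit 8) L98119 (by decide +kernel)
theorem L98121 : W_36 (nat_lit 4) (nat_lit 0x200000001000080004000200000000000000000000000) (nat_lit 0x0) (nat_lit 0x500038001400000000000000) := T_36 (nat_lit 75) (nat_lit 92) (nat_lit 4) (nat_lit 8) (nat_lit 8) L98120 (by decide +kernel)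
theorem L98122 : W_36 (nat_lit 2) (nat_lit 0x20000000180008000c000340010001800020000000000) (nat_lit 0x0) (nat_lit 0x2000000000000000040001000000) := D_36 (nat_lit 42) (nat_lit 24) (nat_lit 109) (nat_lit 4) (nat_lit 8) (nat_lit 5) (nat_lit 5) (nat_lit 8) (nat_lit 2) (by decide +kernel)
theorem L98123 : W_36 (nat_lit 3) (nat_lit 0x20000000180008000c000240010001800020000000000) (nat_lit 0x0) (nat_lit 0x2000180000000000040001000000) := T_36 (nat_lit 92) (nat_lit 91) (nat_lit 3) (nat_lit 5) (nat_lit 5) L98122 (by decide +kernel)
theorem L98124 : W_36 (nat_lit 4) (nat_lit 0x200000001800080004000240010001800020000000000) (nat_lit 0x0) (nat_lit 0x10000a000180000000000040001000000) := T_36 (nat_lit 111) (nat_lit 128) (nat_lit 7) (nat_lit 8) (nat_lit 3) L98123 (by decide +kernel)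
theorem L98125 : W_36 (nat_lit 5) (nat_lit 0x200000001800080004000240010001800000000000000) (nat_lit 0x0) (nat_lit 0x10000a000180000000400060001000000) := T_36 (nat_lit 41) (nat_lit 58) (nat_lit 4) (nat_lit 8) (nat_lit 6) L98124 (by decide +kernel)
theorem L98126 : W_36 (nat_lit 6) (nat_lit 0x200000001800080004000240010001000000000000000) (nat_lit 0x0) (nat_lit 0x10000a000180000000c000e0001000000) := T_36 (nat_lit 59) (nat_lit 43) (nat_lit 6) (nat_lit 8) (nat_lit 6) L98125 (by decide +kernel)
theorem L98127 : W_36 (nat_lit 7) (nat_lit 0x200000001800080004000240010000000000000000000) (nat_lit 0x0) (nat_lit 0x10000a000180020001c000e0001000000) := T_36 (nat_lit 60) (nat_lit 77) (nat_lit 6) (nat_lit 8) (nat_lit 7) L98126 (by decide +kernel)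
theorem L98128 : W_36 (nat_lit 8) (nat_lit 0x200000001000080004000240010000000000000000000) (nat_lit 0x0) (nat_lit 0x1000080010000a000180020001c000e0001000000) := T_36 (nat_lit 143) (nat_lit 160) (nat_lit 5) (nat_lit 8) (nat_lit 5) L98127 (by decide +kernel)
theorem L98129 : W_36 (nat_lit 2) (nat_lit 0x200000001000080004000240010000800000000000000) (nat_lit 0x0) (nat_lit 0x20001000080000000000) := D_36 (nat_lit 60) (nat_lit 77) (nat_lit 43) (nat_lit 6) (nat_lit 8) (nat_lit 7) (nat_lit 6) (nat_lit 8) (nat_lit 6) (by decide +kernel)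
theorem L98130 : W_36 (nat_lit 2) (nat_lit 0x200000001c005a0004800240012000c00000000000000) (nat_lit 0x0) (nat_lit 0x8000000000001000080000000000000000000000) := D_36 (nat_lit 108) (nat_lit 159) (nat_lit 91) (nat_lit 4) (nat_lit 6) (nat_lit 9) (nat_lit 4) (nat_lit 6) (nat_lit 8) (by decide +kernel)
theorem L98131 : W_36 (nat_lit 3) (nat_lit 0x200000001c00580004800240012000c00000000000000) (nat_lit 0x0) (nat_lit 0x8000000030001000080000000000000000000000) := T_36 (nat_lit 125) (nat_lit 124) (nat_lit 7) (nat_lit 5) (nat_lit 4) L98130 (by decide +kernel)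
theorem L98132 : W_36 (nat_lit 4) (nat_lit 0x200000001c00180004800240012000c00000000000000) (nat_lit 0x0) (nat_lit 0x8000000630001000080000000000000000000000) := T_36 (nat_lit 130) (nat_lit 129) (nat_lit 1) (nat_lit 11) (nat_lit 7) L98131 (by decide +kernel)
theorem L98133 : W_36 (nat_lit 5) (nat_lit 0x200000001800180004800240012000c00000000000000) (nat_lit 0x0) (nat_lit 0x8000600630001000080000000000000000000000) := T_36 (nat_lit 142) (nat_lit 141) (nat_lit 2) (nat_lit 5) (nat_lit 8) L98132 (by decide +kernel)
theorem L98134 : W_36 (nat_lit 6) (nat_lit 0x200000001800080004800240012000c00000000000000) (nat_lit 0x0) (nat_lit 0x8000600730009000080000000000000000000000) := T_36 (nat_lit 128) (nat_lit 111) (nat_lit 7) (nat_lit 8) (nat_lit 3) L98133 (by decide +kernel)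
theorem L98135 : W_36 (nat_lit 7) (nat_lit 0x200000001000080004800240012000c00000000000000) (nat_lit 0x0) (nat_lit 0x18000e00730009000080000000000000000000000) := T_36 (nat_lit 143) (nat_lit 160) (nat_lit 5) (nat_lit 8) (nat_lit 5) L98134 (by decide +kernel)
theorem L98136 : W_36 (nat_lit 8) (nat_lit 0x200000001000080004800240012000800000000000000) (nat_lit 0x0) (nat_lit 0x18000e00730009000080000000400020000000000) := T_36 (nat_lit 58) (nat_lit 41) (nat_lit 4) (nat_lit 8) (nat_lit 6) L98135 (by decide +kernel)
theorem L98137 : W_36 (nat_lit 2) (nat_lit 0x2000000018000800048003c0012000900068006000000) (nat_lit 0x0) (nat_lit 0x80004000200000) := D_36 (nat_lit 38) (nat_lit 21) (nat_lit 55) (nat_lit 4) (nat_lit 5) (nat_lit 5) (nat_lit 4) (nat_lit 5) (nat_lit 6) (by decide +kernel)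
theorem L98138 : W_36 (nat_lit 3) (nat_lit 0x2000000018000800048003c0012000800068006000000) (nat_lit 0x0) (nat_lit 0x1000000000000180004000200000) := T_36 (nat_lit 56) (nat_lit 108) (nat_lit 7) (nat_lit 5) (nat_lit 2) L98137 (by decide +kernel)
theorem L98139 : W_36 (nat_lit 4) (nat_lit 0x2000000018000800048003c0012000800060006000000) (nat_lit 0x0) (nat_lit 0x100000000000018001c000200000) := T_36 (nat_lit 39) (nat_lit 40) (nat_lit 2) (nat_lit 5) (nat_lit 2) L98138 (by decide +kernel)
theorem L98140 : W_36 (nat_lit 5) (nat_lit 0x2000000018000800048003c0012000800060004000000) (nat_lit 0x0) (nat_lit 0x100000000000018001c002200200) := T_36 (nat_lit 25) (nat_lit 9) (nat_lit 6) (nat_lit 8) (nat_lit 4) L98139 (by decide +kernel)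
theorem L98141 : W_36 (nat_lit 6) (nat_lit 0x2000000018000800048003c0012000800060000000000) (nat_lit 0x0) (nat_lit 0x100000000000018009c006200200) := T_36 (nat_lit 26) (nat_lit 43) (nat_lit 6) (nat_lit 8) (nat_lit 5) L98140 (by decide +kernel)
theorem L98142 : W_36 (nat_lit 2) (nat_lit 0x2000000010000800048002c0010000000000000000000) (nat_lit 0x0) (nat_lit 0x100020001000000000000000) := D_36 (nat_lit 77) (nat_lit 60) (nat_lit 92) (nat_lit 6) (nat_lit 8) (nat_lit 7) (nat_lit 2) (nat_lit 5) (nat_lit 5) (by decide +kernel)
theorem L98143 : W_36 (nat_lit 2) (nat_lit 0x200000001b005900048002c0012001c00000000000000) (nat_lit 0x0) (nat_lit 0x20001000080000000000000) := D_36 (nat_lit 72) (nat_lit 55) (nat_lit 89) (nat_lit 4) (nat_lit 5) (nat_lit 7) (nat_lit 4) (nat_lit 5) (nat_lit 8) (by decide +kernel)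
theorem L98144 : W_36 (nat_lit 3) (nat_lit 0x200000001b005900048002c0010001c00000000000000) (nat_lit 0x0) (nat_lit 0x8000000020003000080000000000000) := T_36 (nat_lit 73) (nat_lit 123) (nat_lit 5) (nat_lit 5) (nat_lit 4) L98143 (by decide +kernel)
theorem L98145 : W_36 (nat_lit 4) (nat_lit 0x200000001a005900048002c0010001c00000000000000) (nat_lit 0x0) (nat_lit 0x2000100008000000020003000080000000000000) := T_36 (nat_lit 140) (nat_lit 157) (nat_lit 5) (nat_lit 5) (nat_lit 5) L98144 (by decide +kernel)
theorem L98146 : W_36 (nat_lit 5) (nat_lit 0x200000001a005800048002c0010001c00000000000000) (nat_lit 0x0) (nat_lit 0x2000100018000000020007000080000000000000) := T_36 (nat_lit 124) (nat_lit 74) (nat_lit 6) (nat_lit 5) (nat_lit 8) L98145 (by decide +kernel)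
theorem L98147 : W_36 (nat_lit 6) (nat_lit 0x200000001a001800048002c0010001c00000000000000) (nat_lit 0x0) (nat_lit 0x2000100618000000020007000080000000000000) := T_36 (nat_lit 130) (nat_lit 129) (nat_lit 1) (nat_lit 11) (nat_lit 7) L98146 (by decide +kernel)
theorem L98148 : W_36 (nat_lit 7) (nat_lit 0x2000000018001800048002c0010001c00000000000000) (nat_lit 0x0) (nat_lit 0x2000700618000000020007000080000000000000) := T_36 (nat_lit 141) (nat_lit 142) (nat_lit 2) (nat_lit 5) (nat_lit 8) L98147 (by decide +kernel)
theorem L98149 : W_36 (nat_lit 8) (nat_lit 0x2000000018000800048002c0010001c00000000000000) (nat_lit 0x0) (nat_lit 0x2000700718008000020007000080000000000000) := T_36 (nat_lit 128) (nat_lit 111) (nat_lit 7) (nat_lit 8) (nat_lit 3) L98148 (by decide +kernel)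
theorem L98150 : W_36 (nat_lit 9) (nat_lit 0x2000000018000800048002c0010001800000000000000) (nat_lit 0x0) (nat_lit 0x2000700718008000020007000480020000000000) := T_36 (nat_lit 58) (nat_lit 41) (nat_lit 4) (nat_lit 8) (nat_lit 6) L98149 (by decide +kernel)
theorem L98151 : W_36 (nat_lit 10) (nat_lit 0x2000000018000800048002c0010001000000000000000) (nat_lit 0x0) (nat_lit 0x2000700718008000020007000c800a0000000000) := T_36 (nat_lit 59) (nat_lit 43) (nat_lit 6) (nat_lit 8) (nat_lit 6) L98150 (by decide +kernel)
theorem L98152 : W_36 (nat_lit 11) (nat_lit 0x2000000018000800048002c0010000000000000000000) (nat_lit 0x0) (nat_lit 0x2000700718008000020027001c800a0000000000) := T_36 (nat_lit 60) (nat_lit 77) (nat_lit 6) (nat_lit 8) (nat_lit 7) L98151 (by decide +kernel)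
theorem L98153 : W_36 (nat_lit 12) (nat_lit 0x2000000010000800048002c0010000000000000000000) (nat_lit 0x0) (nat_lit 0x12000f00718008000020027001c800a0000000000) := T_36 (nat_lit 143) (nat_lit 160) (nat_lit 5) (nat_lit 8) (nat_lit 5) L98152 (by decide +kernel)
theorem L98154 : W_36 (nat_lit 2) (nat_lit 0x2000000010000800048002c0010000000000000000000) (nat_lit 0x0) (nat_lit 0x8400100000000000000000000000) := D_36 (nat_lit 92) (nat_lit 111) (nat_lit 106) (nat_lit 3) (nat_lit 5) (nat_lit 5) (nat_lit 1) (nat_lit 8) (nat_lit 5) (by decide +kernel)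
theorem L98155 : W_36 (nat_lit 13) (nat_lit 0x200000001000080004800240010000000000000000000) (nat_lit 0x0) (nat_lit 0x12000f007180084001a0027001c800a0000000000) := Q_36 (nat_lit 91) (C_36 L98142 (C_36 L98153 (C_36 L98154 N_36))) (by decide +kernel)
theorem L98156 : W_36 (nat_lit 2) (nat_lit 0x2000000010000800048002c0010000000000000000000) (nat_lit 0x0) (nat_lit 0x400100020000000000000000000) := D_36 (nat_lit 92) (nat_lit 106) (nat_lit 77) (nat_lit 1) (nat_lit 8) (nat_lit 5) (nat_lit 2) (nat_lit 5) (nat_lit 5) (by decide +kernel)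
theorem L98157 : W_36 (nat_lit 2) (nat_lit 0x200000001e000800048002c0010000000000000000000) (nat_lit 0x0) (nat_lit 0x18000000000004000000000000000000) := D_36 (nat_lit 124) (nat_lit 74) (nat_lit 123) (nat_lit 6) (nat_lit 5) (nat_lit 8) (nat_lit 0) (nat_lit 8) (nat_lit 8) (by decide +kernel)
theorem L98158 : W_36 (nat_lit 3) (nat_lit 0x200000001a000800048002c0010000000000000000000) (nat_lit 0x0) (nat_lit 0x400118000000000004000000000000000000) := T_36 (nat_lit 142) (nat_lit 128) (nat_lit 2) (nat_lit 5) (nat_lit 8) L98157 (by decide +kernel)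
theorem L98159 : W_36 (nat_lit 4) (nat_lit 0x2000000012000800048002c0010000000000000000000) (nat_lit 0x0) (nat_lit 0x10000c00118000000000004000000000000000000) := T_36 (nat_lit 143) (nat_lit 160) (nat_lit 5) (nat_lit 8) (nat_lit 5) L98158 (by decide +kernel)
theorem L98160 : W_36 (nat_lit 2) (nat_lit 0x2000000013000900048002c0012000000000000000000) (nat_lit 0x0) (nat_lit 0x20001000080000000000000) := D_36 (nat_lit 72) (nat_lit 55) (nat_lit 89) (nat_lit 4) (nat_lit 5) (nat_lit 7) (nat_lit 4) (nat_lit 5) (nat_lit 8) (by decide +kernel)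
theorem L98161 : W_36 (nat_lit 3) (nat_lit 0x2000000013000900048002c0010000000000000000000) (nat_lit 0x0) (nat_lit 0x8000000020003000080000000000000) := T_36 (nat_lit 73) (nat_lit 123) (nat_lit 5) (nat_lit 5) (nat_lit 4) L98160 (by decide +kernel)
theorem L98162 : W_36 (nat_lit 4) (nat_lit 0x2000000012000900048002c0010000000000000000000) (nat_lit 0x0) (nat_lit 0x2000100008000000020003000080000000000000) := T_36 (nat_lit 140) (nat_lit 157) (nat_lit 5) (nat_lit 5) (nat_lit 5) L98161 (by decide +kernel)
theorem L98163 : W_36 (nat_lit 5) (nat_lit 0x2000000012000800048002c0010000000000000000000) (nat_lit 0x0) (nat_lit 0x2000100018000000020007000080000000000000) := T_36 (nat_lit 124) (nat_lit 74) (nat_lit 6) (nat_lit 5) (nat_lit 8) L98162 (by decide +kernel)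
theorem L98164 : W_36 (nat_lit 2) (nat_lit 0x200000001e000800048002c0010000000000000000000) (nat_lit 0x0) (nat_lit 0x8000000018000000000000000000000000000000) := D_36 (nat_lit 124) (nat_lit 123) (nat_lit 159) (nat_lit 0) (nat_lit 8) (nat_lit 8) (nat_lit 7) (nat_lit 5) (nat_lit 5) (by decide +kernel)
theorem L98165 : W_36 (nat_lit 3) (nat_lit 0x200000001a000800048002c0010000000000000000000) (nat_lit 0x0) (nat_lit 0x8000400118000000000000000000000000000000) := T_36 (nat_lit 142) (nat_lit 128) (nat_lit 2) (nat_lit 5) (nat_lit 8) L98164 (by decide +kernel)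
theorem L98166 : W_36 (nat_lit 4) (nat_lit 0x2000000012000800048002c0010000000000000000000) (nat_lit 0x0) (nat_lit 0x18000c00118000000000000000000000000000000) := T_36 (nat_lit 143) (nat_lit 160) (nat_lit 5) (nat_lit 8) (nat_lit 5) L98165 (by decide +kernel)
theorem L98167 : W_36 (nat_lit 2) (nat_lit 0x200000001e000800048002c0010000000000000000000) (nat_lit 0x0) (nat_lit 0x8000000010000000000004000000000000000000) := D_36 (nat_lit 124) (nat_lit 74) (nat_lit 159) (nat_lit 6) (nat_lit 5) (nat_lit 8) (nat_lit 7) (nat_lit 5) (nat_lit 5) (by decide +kernel)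
theorem L98168 : W_36 (nat_lit 3) (nat_lit 0x200000001a000800048002c0010000000000000000000) (nat_lit 0x0) (nat_lit 0x8000400110000000000004000000000000000000) := T_36 (nat_lit 142) (nat_lit 128) (nat_lit 2) (nat_lit 5) (nat_lit 8) L98167 (by decide +kernel)
theorem L98169 : W_36 (nat_lit 4) (nat_lit 0x2000000012000800048002c0010000000000000000000) (nat_lit 0x0) (nat_lit 0x18000c00110000000000004000000000000000000) := T_36 (nat_lit 143) (nat_lit 160) (nat_lit 5) (nat_lit 8) (nat_lit 5) L98168 (by decide +kernel)
theorem L98170 : W_36 (nat_lit 2) (nat_lit 0x200002001f000800048002c0010000000000000000000) (nat_lit 0x0) (nat_lit 0xc000400000000000000000000000000) := D_36 (nat_lit 123) (nat_lit 122) (nat_lit 106) (nat_lit 0) (nat_lit 7) (nat_lit 8) (nat_lit 6) (nat_lit 4) (nat_lit 9) (by decide +kernel)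
theorem L98171 : W_36 (nat_lit 3) (nat_lit 0x200002001e000800048002c0010000000000000000000) (nat_lit 0x0) (nat_lit 0x100010000c000400000000000000000000000000) := T_36 (nat_lit 140) (nat_lit 156) (nat_lit 1) (nat_lit 7) (nat_lit 8) L98170 (by decide +kernel)
theorem L98172 : W_36 (nat_lit 4) (nat_lit 0x200000001e000800048002c0010000000000000000000) (nat_lit 0x0) (nat_lit 0x700010000c000400000000000000000000000000) := T_36 (nat_lit 157) (nat_lit 158) (nat_lit 1) (nat_lit 8) (nat_lit 8) L98171 (by decide +kernel)
theorem L98173 : W_36 (nat_lit 5) (nat_lit 0x200000001a000800048002c0010000000000000000000) (nat_lit 0x0) (nat_lit 0x700050010c000400000000000000000000000000) := T_36 (nat_lit 142) (nat_lit 128) (nat_lit 2) (nat_lit 5) (nat_lit 8) L98172 (by decide +kernel)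
theorem L98174 : W_36 (nat_lit 6) (nat_lit 0x2000000012000800048002c0010000000000000000000) (nat_lit 0x0) (nat_lit 0x17000d0010c000400000000000000000000000000) := T_36 (nat_lit 143) (nat_lit 160) (nat_lit 5) (nat_lit 8) (nat_lit 5) L98173 (by decide +kernel)
theorem L98175 : W_36 (nat_lit 7) (nat_lit 0x2000000010000800048002c0010000000000000000000) (nat_lit 0x0) (nat_lit 0x1f000f0011c000400020007000080000000000000) := Q_36 (nat_lit 141) (C_36 L98159 (C_36 L98163 (C_36 L98166 (C_36 L98169 (C_36 L98174 N_36))))) (by decide +kernel)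
theorem L98176 : W_36 (nat_lit 2) (nat_lit 0x2000000010000800048002c0010000000000000000000) (nat_lit 0x0) (nat_lit 0x8000100020000000000000000000) := D_36 (nat_lit 92) (nat_lit 111) (nat_lit 77) (nat_lit 3) (nat_lit 5) (nat_lit 5) (nat_lit 2) (nat_lit 5) (nat_lit 5) (by decide +kernel)
theorem L98177 : W_36 (nat_lit 8) (nat_lit 0x200000001000080004800240010000000000000000000) (nat_lit 0x0) (nat_lit 0x1f000f0011c0084001a0027000080000000000000) := Q_36 (nat_lit 91) (C_36 L98154 (C_36 L98156 (C_36 L98175 (C_36 L98176 N_36)))) (by decide +kernel)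
theorem L98178 : W_36 (nat_lit 2) (nat_lit 0x2000000010000800048002c0034000200000000000000) (nat_lit 0x0) (nat_lit 0x10001000000002000000000000000000) := D_36 (nat_lit 124) (nat_lit 108) (nat_lit 73) (nat_lit 5) (nat_lit 6) (nat_lit 3) (nat_lit 6) (nat_lit 5) (nat_lit 7) (by decide +kernel)
theorem L98179 : W_36 (nat_lit 3) (nat_lit 0x2000000010000800048002c0030000200000000000000) (nat_lit 0x0) (nat_lit 0x10001000000006000000010000000000) := T_36 (nat_lit 74) (nat_lit 40) (nat_lit 5) (nat_lit 6) (nat_lit 2) L98178 (by decide +kernel)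
theorem L98180 : W_36 (nat_lit 4) (nat_lit 0x2000000010000800048002c0010000200000000000000) (nat_lit 0x0) (nat_lit 0x10001000000026001000010000000000) := T_36 (nat_lit 77) (nat_lit 60) (nat_lit 6) (nat_lit 8) (nat_lit 7) L98179 (by decide +kernel)
theorem L98181 : W_36 (nat_lit 2) (nat_lit 0x2000000010000800048002c0014000200000000000000) (nat_lit 0x0) (nat_lit 0x10001000000002000000000000000000) := D_36 (nat_lit 124) (nat_lit 108) (nat_lit 73) (nat_lit 5) (nat_lit 6) (nat_lit 3) (nat_lit 6) (nat_lit 5) (nat_lit 7) (by decide +kernel)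
theorem L98182 : W_36 (nat_lit 3) (nat_lit 0x2000000010000800048002c0010000200000000000000) (nat_lit 0x0) (nat_lit 0x10001000000006000000010000000000) := T_36 (nat_lit 74) (nat_lit 40) (nat_lit 5) (nat_lit 6) (nat_lit 2) L98181 (by decide +kernel)
theorem L98183 : W_36 (nat_lit 2) (nat_lit 0x2000000010000800048002c0012001a00010000000000) (nat_lit 0x0) (nat_lit 0x400028000000000) := D_36 (nat_lit 58) (nat_lit 41) (nat_lit 39) (nat_lit 4) (nat_lit 8) (nat_lit 6) (nat_lit 0) (nat_lit 9) (nat_lit 3) (by decide +kernel)
theorem L98184 : W_36 (nat_lit 3) (nat_lit 0x2000000010000800048002c0012001200010000000000) (nat_lit 0x0) (nat_lit 0xc000a8000000000) := T_36 (nat_lit 59) (nat_lit 43) (nat_lit 6) (nat_lit 8) (nat_lit 6) L98183 (by decide +kernel)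
theorem L98185 : W_36 (nat_lit 4) (nat_lit 0x2000000010000800048002c0010001200010000000000) (nat_lit 0x0) (nat_lit 0x2000d000a8000000000) := T_36 (nat_lit 73) (nat_lit 56) (nat_lit 6) (nat_lit 5) (nat_lit 6) L98184 (by decide +kernel)
theorem L98186 : W_36 (nat_lit 5) (nat_lit 0x2000000010000800048002c0010000200010000000000) (nat_lit 0x0) (nat_lit 0x22001d000a8000000000) := T_36 (nat_lit 60) (nat_lit 77) (nat_lit 6) (nat_lit 8) (nat_lit 7) L98185 (by decide +kernel)
theorem L98187 : W_36 (nat_lit 6) (nat_lit 0x2000000010000800048002c0010000200000000000000) (nat_lit 0x0) (nat_lit 0x26001d000b8000000000) := T_36 (nat_lit 40) (nat_lit 74) (nat_lit 5) (nat_lit 6) (nat_lit 2) L98186 (by decide +kernel)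
theorem L98188 : W_36 (nat_lit 2) (nat_lit 0x20000000100008000c8002c0010001f00008000000000) (nat_lit 0x0) (nat_lit 0x1000000003000000000000000000) := D_36 (nat_lit 73) (nat_lit 72) (nat_lit 108) (nat_lit 1) (nat_lit 8) (nat_lit 3) (nat_lit 7) (nat_lit 5) (nat_lit 2) (by decide +kernel)
theorem L98189 : W_36 (nat_lit 3) (nat_lit 0x20000000100008000c8002c0010001e00008000000000) (nat_lit 0x0) (nat_lit 0x1000000003000100004000000000) := T_36 (nat_lit 56) (nat_lit 38) (nat_lit 0) (nat_lit 8) (nat_lit 3) L98188 (by decide +kernel)
theorem L98190 : W_36 (nat_lit 4) (nat_lit 0x2000000010000800048002c0010001e00008000000000) (nat_lit 0x0) (nat_lit 0x100009000000003000100004000000000) := T_36 (nat_lit 111) (nat_lit 128) (nat_lit 7) (nat_lit 8) (nat_lit 3) L98189 (by decide +kernel)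
theorem L98191 : W_36 (nat_lit 5) (nat_lit 0x2000000010000800048002c0010001e00000000000000) (nat_lit 0x0) (nat_lit 0x10000900000000300010001c000000000) := T_36 (nat_lit 39) (nat_lit 40) (nat_lit 0) (nat_lit 9) (nat_lit 3) L98190 (by decide +kernel)
theorem L98192 : W_36 (nat_lit 6) (nat_lit 0x2000000010000800048002c0010001a00000000000000) (nat_lit 0x0) (nat_lit 0x10000900000000300050003c000000000) := T_36 (nat_lit 58) (nat_lit 41) (nat_lit 4) (nat_lit 8) (nat_lit 6) L98191 (by decide +kernel)
theorem L98193 : W_36 (nat_lit 7) (nat_lit 0x2000000010000800048002c0010001200000000000000) (nat_lit 0x0) (nat_lit 0x100009000000003000d000bc000000000) := T_36 (nat_lit 59) (nat_lit 43) (nat_lit 6) (nat_lit 8) (nat_lit 6) L98192 (by decide +kernel)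
theorem L98194 : W_36 (nat_lit 8) (nat_lit 0x2000000010000800048002c0010000200000000000000) (nat_lit 0x0) (nat_lit 0x100009000000023001d000bc000000000) := T_36 (nat_lit 60) (nat_lit 77) (nat_lit 6) (nat_lit 8) (nat_lit 7) L98193 (by decide +kernel)
theorem L98195 : W_36 (nat_lit 2) (nat_lit 0x2000000010000800048002c0034000200000000000000) (nat_lit 0x0) (nat_lit 0x200010001000000000000000000000000000) := D_36 (nat_lit 124) (nat_lit 108) (nat_lit 141) (nat_lit 5) (nat_lit 6) (nat_lit 3) (nat_lit 6) (nat_lit 5) (nat_lit 8) (by decide +kernel)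
theorem L98196 : W_36 (nat_lit 3) (nat_lit 0x2000000010000800048002c0030000200000000000000) (nat_lit 0x0) (nat_lit 0x200010001000000004000000010000000000) := T_36 (nat_lit 74) (nat_lit 40) (nat_lit 5) (nat_lit 6) (nat_lit 2) L98195 (by decide +kernel)
theorem L98197 : W_36 (nat_lit 4) (nat_lit 0x2000000010000800048002c0010000200000000000000) (nat_lit 0x0) (nat_lit 0x200010001000000024001000010000000000) := T_36 (nat_lit 77) (nat_lit 60) (nat_lit 6) (nat_lit 8) (nat_lit 7) L98196 (by decide +kernel)
theorem L98198 : W_36 (nat_lit 2) (nat_lit 0x2000000010000800048002c0014001e00000000000000) (nat_lit 0x0) (nat_lit 0x200010001000000000000000000000000000) := D_36 (nat_lit 124) (nat_lit 108) (nat_lit 141) (nat_lit 5) (nat_lit 6) (nat_lit 3) (nat_lit 6) (nat_lit 5) (nat_lit 8) (by decide +kernel)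
theorem L98199 : W_36 (nat_lit 3) (nat_lit 0x2000000010000800048002c0010001e00000000000000) (nat_lit 0x0) (nat_lit 0x200010001000000006000000000000000000) := T_36 (nat_lit 74) (nat_lit 73) (nat_lit 1) (nat_lit 9) (nat_lit 3) L98198 (by decide +kernel)
theorem L98200 : W_36 (nat_lit 4) (nat_lit 0x2000000010000800048002c0010001a00000000000000) (nat_lit 0x0) (nat_lit 0x200010001000000006000400020000000000) := T_36 (nat_lit 58) (nat_lit 41) (nat_lit 4) (nat_lit 8) (nat_lit 6) L98199 (by decide +kernel)
theorem L98201 : W_36 (nat_lit 5) (nat_lit 0x2000000010000800048002c0010001200000000000000) (nat_lit 0x0) (nat_lit 0x200010001000000006000c000a0000000000) := T_36 (nat_lit 59) (nat_lit 43) (nat_lit 6) (nat_lit 8) (nat_lit 6) L98200 (by decide +kernel)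
theorem L98202 : W_36 (nat_lit 6) (nat_lit 0x2000000010000800048002c0010000200000000000000) (nat_lit 0x0) (nat_lit 0x200010001000000026001c000a0000000000) := T_36 (nat_lit 60) (nat_lit 77) (nat_lit 6) (nat_lit 8) (nat_lit 7) L98201 (by decide +kernel)
theorem L98203 : W_36 (nat_lit 9) (nat_lit 0x2000000010000800048002c0010000000000000000000) (nat_lit 0x0) (nat_lit 0x200110009000000027001f000bc000000000) := Q_36 (nat_lit 57) (C_36 L98180 (C_36 L98182 (C_36 L98187 (C_36 L98194 (C_36 L98197 (C_36 L98202 N_36)))))) (by decide +kernel)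
theorem L98204 : W_36 (nat_lit 10) (nat_lit 0x200000001000080004800240010000000000000000000) (nat_lit 0x0) (nat_lit 0x200110009400180027001f000bc000000000) := Q_36 (nat_lit 91) (C_36 L98176 (C_36 L98156 (C_36 L98203 (C_36 L98154 N_36)))) (by decide +kernel)
theorem L98205 : W_36 (nat_lit 2) (nat_lit 0x2000000018000800048002c0010001f00008000000000) (nat_lit 0x0) (nat_lit 0x1000000003000000000000000000) := D_36 (nat_lit 73) (nat_lit 72) (nat_lit 108) (nat_lit 1) (nat_lit 8) (nat_lit 3) (nat_lit 7) (nat_lit 5) (nat_lit 2) (by decide +kernel)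
theorem L98206 : W_36 (nat_lit 3) (nat_lit 0x2000000018000800048002c0010001e00008000000000) (nat_lit 0x0) (nat_lit 0x1000000003000100004000000000) := T_36 (nat_lit 56) (nat_lit 38) (nat_lit 0) (nat_lit 8) (nat_lit 3) L98205 (by decide +kernel)
theorem L98207 : W_36 (nat_lit 4) (nat_lit 0x2000000018000800048002c0010001e00000000000000) (nat_lit 0x0) (nat_lit 0x100000000300010001c000000000) := T_36 (nat_lit 39) (nat_lit 40) (nat_lit 0) (nat_lit 9) (nat_lit 3) L98206 (by decide +kernel)
theorem L98208 : W_36 (nat_lit 5) (nat_lit 0x2000000018000800048002c0010001a00000000000000) (nat_lit 0x0) (nat_lit 0x100000000300050003c000000000) := T_36 (nat_lit 58) (nat_lit 41) (nat_lit 4) (nat_lit 8) (nat_lit 6) L98207 (by decide +kernel)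
theorem L98209 : W_36 (nat_lit 6) (nat_lit 0x2000000018000800048002c0010001200000000000000) (nat_lit 0x0) (nat_lit 0x1000000003000d000bc000000000) := T_36 (nat_lit 59) (nat_lit 43) (nat_lit 6) (nat_lit 8) (nat_lit 6) L98208 (by decide +kernel)
theorem L98210 : W_36 (nat_lit 7) (nat_lit 0x2000000010000800048002c0010001200000000000000) (nat_lit 0x0) (nat_lit 0x10000800000001000000003000d000bc000000000) := T_36 (nat_lit 143) (nat_lit 160) (nat_lit 5) (nat_lit 8) (nat_lit 5) L98209 (by decide +kernel)
theorem L98211 : W_36 (nat_lit 8) (nat_lit 0x2000000010000800048002c0010000200000000000000) (nat_lit 0x0) (nat_lit 0x10000800000001000000023001d000bc000000000) := T_36 (nat_lit 60) (nat_lit 77) (nat_lit 6) (nat_lit 8) (nat_lit 7) L98210 (by decide +kernel)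
theorem L98212 : W_36 (nat_lit 9) (nat_lit 0x2000000010000800048002c0010000000000000000000) (nat_lit 0x0) (nat_lit 0x10000a00010001000000027001f000bc000000000) := Q_36 (nat_lit 57) (C_36 L98202 (C_36 L98197 (C_36 L98182 (C_36 L98187 (C_36 L98211 N_36))))) (by decide +kernel)
theorem L98213 : W_36 (nat_lit 10) (nat_lit 0x200000001000080004800240010000000000000000000) (nat_lit 0x0) (nat_lit 0x10000a00010009400180027001f000bc000000000) := Q_36 (nat_lit 91) (C_36 L98176 (C_36 L98156 (C_36 L98212 (C_36 L98154 N_36)))) (by decide +kernel)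
theorem L98214 : W_36 (nat_lit 2) (nat_lit 0x200000001e00080004800240010000000000000000000) (nat_lit 0x0) (nat_lit 0x8000000018000000000000000000000000000000) := D_36 (nat_lit 124) (nat_lit 123) (nat_lit 159) (nat_lit 0) (nat_lit 8) (nat_lit 8) (nat_lit 7) (nat_lit 5) (nat_lit 5) (by decide +kernel)
theorem L98215 : W_36 (nat_lit 3) (nat_lit 0x200000001a00080004800240010000000000000000000) (nat_lit 0x0) (nat_lit 0x8000400118000000000000000000000000000000) := T_36 (nat_lit 142) (nat_lit 128) (nat_lit 2) (nat_lit 5) (nat_lit 8) L98214 (by decide +kernel)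
theorem L98216 : W_36 (nat_lit 4) (nat_lit 0x200000001200080004800240010000000000000000000) (nat_lit 0x0) (nat_lit 0x18000c00118000000000000000000000000000000) := T_36 (nat_lit 143) (nat_lit 160) (nat_lit 5) (nat_lit 8) (nat_lit 5) L98215 (by decide +kernel)
theorem L98217 : W_36 (nat_lit 2) (nat_lit 0x2000000013000900048002c0032000000000000000000) (nat_lit 0x0) (nat_lit 0x20001000080000000000000) := D_36 (nat_lit 72) (nat_lit 55) (nat_lit 89) (nat_lit 4) (nat_lit 5) (nat_lit 7) (nat_lit 4) (nat_lit 5) (nat_lit 8) (by decide +kernel)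
theorem L98218 : W_36 (nat_lit 3) (nat_lit 0x2000000013000900048002c0030000000000000000000) (nat_lit 0x0) (nat_lit 0x8000000020003000080000000000000) := T_36 (nat_lit 73) (nat_lit 123) (nat_lit 5) (nat_lit 5) (nat_lit 4) L98217 (by decide +kernel)
theorem L98219 : W_36 (nat_lit 4) (nat_lit 0x2000000012000900048002c0030000000000000000000) (nat_lit 0x0) (nat_lit 0x2000100008000000020003000080000000000000) := T_36 (nat_lit 140) (nat_lit 157) (nat_lit 5) (nat_lit 5) (nat_lit 5) L98218 (by decide +kernel)
theorem L98220 : W_36 (nat_lit 5) (nat_lit 0x2000000012000800048002c0030000000000000000000) (nat_lit 0x0) (nat_lit 0x2000100018000000020007000080000000000000) := T_36 (nat_lit 124) (nat_lit 74) (nat_lit 6) (nat_lit 5) (nat_lit 8) L98219 (by decide +kernel)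
theorem L98221 : W_36 (nat_lit 6) (nat_lit 0x200000001200080004800240030000000000000000000) (nat_lit 0x0) (nat_lit 0x20001000180000001a0007000080000000000000) := T_36 (nat_lit 91) (nat_lit 92) (nat_lit 2) (nat_lit 5) (nat_lit 5) L98220 (by decide +kernel)
theorem L98222 : W_36 (nat_lit 7) (nat_lit 0x200000001200080004800240010000000000000000000) (nat_lit 0x0) (nat_lit 0x20001000180000001a0027001080000000000000) := T_36 (nat_lit 77) (nat_lit 60) (nat_lit 6) (nat_lit 8) (nat_lit 7) L98221 (by decide +kernel)
theorem L98223 : W_36 (nat_lit 2) (nat_lit 0x2000000017000900048002c0030000000000000000000) (nat_lit 0x0) (nat_lit 0x10000800100000000000000000000000000000000) := D_36 (nat_lit 143) (nat_lit 160) (nat_lit 128) (nat_lit 5) (nat_lit 8) (nat_lit 5) (nat_lit 2) (nat_lit 5) (nat_lit 8) (by decide +kernel)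
theorem L98224 : W_36 (nat_lit 3) (nat_lit 0x2000000013000900048002c0030000000000000000000) (nat_lit 0x0) (nat_lit 0x18000c00100000000000000000000000000000000) := T_36 (nat_lit 142) (nat_lit 159) (nat_lit 7) (nat_lit 5) (nat_lit 5) L98223 (by decide +kernel)
theorem L98225 : W_36 (nat_lit 4) (nat_lit 0x2000000012000900048002c0030000000000000000000) (nat_lit 0x0) (nat_lit 0x1a000d00100000000000000000000000000000000) := T_36 (nat_lit 140) (nat_lit 157) (nat_lit 5) (nat_lit 5) (nat_lit 5) L98224 (by decide +kernel)
theorem L98226 : W_36 (nat_lit 5) (nat_lit 0x2000000012000800048002c0030000000000000000000) (nat_lit 0x0) (nat_lit 0x1a000d00110000000000004000000000000000000) := T_36 (nat_lit 124) (nat_lit 74) (nat_lit 6) (nat_lit 5) (nat_lit 8) L98225 (by decide +kernel)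
theorem L98227 : W_36 (nat_lit 6) (nat_lit 0x200000001200080004800240030000000000000000000) (nat_lit 0x0) (nat_lit 0x1a000d00110000000180004000000000000000000) := T_36 (nat_lit 91) (nat_lit 92) (nat_lit 2) (nat_lit 5) (nat_lit 5) L98226 (by decide +kernel)
theorem L98228 : W_36 (nat_lit 7) (nat_lit 0x200000001200080004800240010000000000000000000) (nat_lit 0x0) (nat_lit 0x1a000d00110000000180024001000000000000000) := T_36 (nat_lit 77) (nat_lit 60) (nat_lit 6) (nat_lit 8) (nat_lit 7) L98227 (by decide +kernel)
theorem L98229 : W_36 (nat_lit 2) (nat_lit 0x200002001f000800048002c0030000000000000000000) (nat_lit 0x0) (nat_lit 0xc000400000000000000000000000000) := D_36 (nat_lit 123) (nat_lit 122) (nat_lit 106) (nat_lit 0) (nat_lit 7) (nat_lit 8) (nat_lit 6) (nat_lit 4) (nat_lit 9) (by decide +kernel)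
theorem L98230 : W_36 (nat_lit 3) (nat_lit 0x200002001e000800048002c0030000000000000000000) (nat_lit 0x0) (nat_lit 0x100010000c000400000000000000000000000000) := T_36 (nat_lit 140) (nat_lit 156) (nat_lit 1) (nat_lit 7) (nat_lit 8) L98229 (by decide +kernel)
theorem L98231 : W_36 (nat_lit 4) (nat_lit 0x200002001e00080004800240030000000000000000000) (nat_lit 0x0) (nat_lit 0x100010000c000400180000000000000000000000) := T_36 (nat_lit 91) (nat_lit 92) (nat_lit 2) (nat_lit 5) (nat_lit 5) L98230 (by decide +kernel)
theorem L98232 : W_36 (nat_lit 5) (nat_lit 0x200002001e00080004800240010000000000000000000) (nat_lit 0x0) (nat_lit 0x100010000c000400180020001000000000000000) := T_36 (nat_lit 77) (nat_lit 60) (nat_lit 6) (nat_lit 8) (nat_lit 7) L98231 (by decide +kernel)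
theorem L98233 : W_36 (nat_lit 6) (nat_lit 0x200000001e00080004800240010000000000000000000) (nat_lit 0x0) (nat_lit 0x700010000c000400180020001000000000000000) := T_36 (nat_lit 157) (nat_lit 158) (nat_lit 1) (nat_lit 8) (nat_lit 8) L98232 (by decide +kernel)
theorem L98234 : W_36 (nat_lit 7) (nat_lit 0x200000001a00080004800240010000000000000000000) (nat_lit 0x0) (nat_lit 0x700050010c000400180020001000000000000000) := T_36 (nat_lit 142) (nat_lit 128) (nat_lit 2) (nat_lit 5) (nat_lit 8) L98233 (by decide +kernel)
theorem L98235 : W_36 (nat_lit 8) (nat_lit 0x200000001200080004800240010000000000000000000) (nat_lit 0x0) (nat_lit 0x17000d0010c000400180020001000000000000000) := T_36 (nat_lit 143) (nat_lit 160) (nat_lit 5) (nat_lit 8) (nat_lit 5) L98234 (by decide +kernel)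
theorem L98236 : W_36 (nat_lit 9) (nat_lit 0x200000001000080004800240010000000000000000000) (nat_lit 0x0) (nat_lit 0x1f000f0011c0004001a0027001080000000000000) := Q_36 (nat_lit 141) (C_36 L98216 (C_36 L98222 (C_36 L98228 (C_36 L98235 N_36)))) (by decide +kernel)
theorem L98237 : W_36 (nat_lit 2) (nat_lit 0x200000001600090004800240032000000000000000000) (nat_lit 0x0) (nat_lit 0x80004000200000000000000) := D_36 (nat_lit 74) (nat_lit 57) (nat_lit 91) (nat_lit 6) (nat_lit 5) (nat_lit 7) (nat_lit 6) (nat_lit 5) (nat_lit 8) (by decide +kernel)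
theorem L98238 : W_36 (nat_lit 3) (nat_lit 0x200000001600090004800240030000000000000000000) (nat_lit 0x0) (nat_lit 0x20000000080006000200000000000000) := T_36 (nat_lit 73) (nat_lit 125) (nat_lit 7) (nat_lit 5) (nat_lit 4) L98237 (by decide +kernel)
theorem L98239 : W_36 (nat_lit 4) (nat_lit 0x200000001200090004800240030000000000000000000) (nat_lit 0x0) (nat_lit 0x8000400020000000080006000200000000000000) := T_36 (nat_lit 142) (nat_lit 159) (nat_lit 7) (nat_lit 5) (nat_lit 5) L98238 (by decide +kernel)
theorem L98240 : W_36 (nat_lit 5) (nat_lit 0x200000001200090004800240010000000000000000000) (nat_lit 0x0) (nat_lit 0x8000400020000000080026001200000000000000) := T_36 (nat_lit 77) (nat_lit 60) (nat_lit 6) (nat_lit 8) (nat_lit 7) L98239 (by decide +kernel)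
theorem L98241 : W_36 (nat_lit 5) (nat_lit 0x200000001200090004800240010000000000000000000) (nat_lit 0x0) (nat_lit 0x20001000080000000a0007000080000000000000) := T_36 (nat_lit 91) (nat_lit 74) (nat_lit 6) (nat_lit 5) (nat_lit 8) L98162 (by decide +kernel)
theorem L98242 : W_36 (nat_lit 2) (nat_lit 0x200000001600090004800240032000000000000000000) (nat_lit 0x0) (nat_lit 0x20001000080000000000000) := D_36 (nat_lit 72) (nat_lit 89) (nat_lit 55) (nat_lit 4) (nat_lit 5) (nat_lit 8) (nat_lit 4) (nat_lit 5) (nat_lit 7) (by decide +kernel)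
theorem L98243 : W_36 (nat_lit 3) (nat_lit 0x200000001600090004800240030000000000000000000) (nat_lit 0x0) (nat_lit 0x20000000020003000080000000000000) := T_36 (nat_lit 73) (nat_lit 125) (nat_lit 7) (nat_lit 5) (nat_lit 4) L98242 (by decide +kernel)
theorem L98244 : W_36 (nat_lit 4) (nat_lit 0x200000001200090004800240030000000000000000000) (nat_lit 0x0) (nat_lit 0x8000400020000000020003000080000000000000) := T_36 (nat_lit 142) (nat_lit 159) (nat_lit 7) (nat_lit 5) (nat_lit 5) L98243 (by decide +kernel)
theorem L98245 : W_36 (nat_lit 5) (nat_lit 0x200000001200090004800240010000000000000000000) (nat_lit 0x0) (nat_lit 0x8000400020000000020023001080000000000000) := T_36 (nat_lit 77) (nat_lit 60) (nat_lit 6) (nat_lit 8) (nat_lit 7) L98244 (by decide +kernel)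
theorem L98246 : W_36 (nat_lit 2) (nat_lit 0x2000040013000900048002c0030000000000000000000) (nat_lit 0x0) (nat_lit 0x400020001000000000000000000) := D_36 (nat_lit 89) (nat_lit 106) (nat_lit 72) (nat_lit 4) (nat_lit 5) (nat_lit 9) (nat_lit 4) (nat_lit 5) (nat_lit 8) (by decide +kernel)
theorem L98247 : W_36 (nat_lit 3) (nat_lit 0x2000000013000900048002c0030000000000000000000) (nat_lit 0x0) (nat_lit 0x4000000000001400020001000000000000000000) := T_36 (nat_lit 158) (nat_lit 108) (nat_lit 6) (nat_lit 5) (nat_lit 9) L98246 (by decide +kernel)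
theorem L98248 : W_36 (nat_lit 4) (nat_lit 0x2000000013000900048002c0010000000000000000000) (nat_lit 0x0) (nat_lit 0x4000000000001400020021001000000000000000) := T_36 (nat_lit 77) (nat_lit 60) (nat_lit 6) (nat_lit 8) (nat_lit 7) L98247 (by decide +kernel)
theorem L98249 : W_36 (nat_lit 5) (nat_lit 0x200000001300090004800240010000000000000000000) (nat_lit 0x0) (nat_lit 0x40000000000014000a0025001000000000000000) := T_36 (nat_lit 91) (nat_lit 74) (nat_lit 6) (nat_lit 5) (nat_lit 8) L98248 (by decide +kernel)
theorem L98250 : W_36 (nat_lit 6) (nat_lit 0x200000001200090004800240010000000000000000000) (nat_lit 0x0) (nat_lit 0x60001000000014000a0025001000000000000000) := T_36 (nat_lit 140) (nat_lit 157) (nat_lit 5) (nat_lit 5) (nat_lit 5) L98249 (by decide +kernel)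
theorem L98251 : W_36 (nat_lit 7) (nat_lit 0x200000001200080004800240010000000000000000000) (nat_lit 0x0) (nat_lit 0xe0005000380014000a0027001280000000000000) := Q_36 (nat_lit 124) (C_36 L98240 (C_36 L98241 (C_36 L98245 (C_36 L98250 N_36)))) (by decide +kernel)
theorem L98252 : W_36 (nat_lit 2) (nat_lit 0x200004001e00090004800240030000000000000000000) (nat_lit 0x0) (nat_lit 0x400020001000000000000000000) := D_36 (nat_lit 89) (nat_lit 72) (nat_lit 106) (nat_lit 4) (nat_lit 5) (nat_lit 8) (nat_lit 4) (nat_lit 5) (nat_lit 9) (by decide +kernel)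
theorem L98253 : W_36 (nat_lit 3) (nat_lit 0x200004001e00080004800240030000000000000000000) (nat_lit 0x0) (nat_lit 0x18000400020001000000000000000000) := T_36 (nat_lit 124) (nat_lit 123) (nat_lit 0) (nat_lit 8) (nat_lit 8) L98252 (by decide +kernel)
theorem L98254 : W_36 (nat_lit 4) (nat_lit 0x200000001e00080004800240030000000000000000000) (nat_lit 0x0) (nat_lit 0x6000000018000400020001000000000000000000) := T_36 (nat_lit 158) (nat_lit 157) (nat_lit 1) (nat_lit 8) (nat_lit 8) L98253 (by decide +kernel)
theorem L98255 : W_36 (nat_lit 5) (nat_lit 0x200000001a00080004800240030000000000000000000) (nat_lit 0x0) (nat_lit 0x6000400118000400020001000000000000000000) := T_36 (nat_lit 142) (nat_lit 128) (nat_lit 2) (nat_lit 5) (nat_lit 8) L98254 (by decide +kernel)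
theorem L98256 : W_36 (nat_lit 6) (nat_lit 0x200000001200080004800240030000000000000000000) (nat_lit 0x0) (nat_lit 0x16000c00118000400020001000000000000000000) := T_36 (nat_lit 143) (nat_lit 160) (nat_lit 5) (nat_lit 8) (nat_lit 5) L98255 (by decide +kernel)
theorem L98257 : W_36 (nat_lit 7) (nat_lit 0x200000001200080004800240010000000000000000000) (nat_lit 0x0) (nat_lit 0x16000c00118000400020021001000000000000000) := T_36 (nat_lit 77) (nat_lit 60) (nat_lit 6) (nat_lit 8) (nat_lit 7) L98256 (by decide +kernel)
theorem L98258 : W_36 (nat_lit 2) (nat_lit 0x200000001b00090004800240012000000000000000000) (nat_lit 0x0) (nat_lit 0x20001000080000000000000) := D_36 (nat_lit 72) (nat_lit 55) (nat_lit 89) (nat_lit 4) (nat_lit 5) (nat_lit 7) (nat_lit 4) (nat_lit 5) (nat_lit 8) (by decide +kernel)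
theorem L98259 : W_36 (nat_lit 3) (nat_lit 0x200000001b00090004800240010000000000000000000) (nat_lit 0x0) (nat_lit 0x8000000020003000080000000000000) := T_36 (nat_lit 73) (nat_lit 123) (nat_lit 5) (nat_lit 5) (nat_lit 4) L98258 (by decide +kernel)
theorem L98260 : W_36 (nat_lit 4) (nat_lit 0x200000001a00090004800240010000000000000000000) (nat_lit 0x0) (nat_lit 0x2000100008000000020003000080000000000000) := T_36 (nat_lit 140) (nat_lit 157) (nat_lit 5) (nat_lit 5) (nat_lit 5) L98259 (by decide +kernel)
theorem L98261 : W_36 (nat_lit 5) (nat_lit 0x200000001200090004800240010000000000000000000) (nat_lit 0x0) (nat_lit 0x12000900008000000020003000080000000000000) := T_36 (nat_lit 143) (nat_lit 160) (nat_lit 5) (nat_lit 8) (nat_lit 5) L98260 (by decide +kernel)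
theorem L98262 : W_36 (nat_lit 2) (nat_lit 0x200004001a00090004800260010000000000000000000) (nat_lit 0x0) (nat_lit 0x1000080004000000000000000000) := D_36 (nat_lit 91) (nat_lit 74) (nat_lit 108) (nat_lit 6) (nat_lit 5) (nat_lit 8) (nat_lit 6) (nat_lit 5) (nat_lit 9) (by decide +kernel)
theorem L98263 : W_36 (nat_lit 3) (nat_lit 0x200000001a00090004800260010000000000000000000) (nat_lit 0x0) (nat_lit 0x4000000000001400080004000000000000000000) := T_36 (nat_lit 158) (nat_lit 106) (nat_lit 4) (nat_lit 5) (nat_lit 9) L98262 (by decide +kernel)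
theorem L98264 : W_36 (nat_lit 4) (nat_lit 0x200000001200090004800260010000000000000000000) (nat_lit 0x0) (nat_lit 0x14000800000001400080004000000000000000000) := T_36 (nat_lit 143) (nat_lit 160) (nat_lit 5) (nat_lit 8) (nat_lit 5) L98263 (by decide +kernel)
theorem L98265 : W_36 (nat_lit 5) (nat_lit 0x200000001200090004800240010000000000000000000) (nat_lit 0x0) (nat_lit 0x140008000000014000a0005000000000000000000) := T_36 (nat_lit 89) (nat_lit 72) (nat_lit 4) (nat_lit 5) (nat_lit 8) L98264 (by decide +kernel)
theorem L98266 : W_36 (nat_lit 2) (nat_lit 0x200004001a000900048002c0010000000000000000000) (nat_lit 0x0) (nat_lit 0x40002000100000000000000000000000000000000000) := D_36 (nat_lit 157) (nat_lit 174) (nat_lit 140) (nat_lit 5) (nat_lit 5) (nat_lit 6) (nat_lit 5) (nat_lit 5) (nat_lit 5) (by decide +kernel)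
theorem L98267 : W_36 (nat_lit 3) (nat_lit 0x200000001a000900048002c0010000000000000000000) (nat_lit 0x0) (nat_lit 0x40006000100000001000000000000000000000000000) := T_36 (nat_lit 158) (nat_lit 108) (nat_lit 6) (nat_lit 5) (nat_lit 9) L98266 (by decide +kernel)
theorem L98268 : W_36 (nat_lit 4) (nat_lit 0x2000000012000900048002c0010000000000000000000) (nat_lit 0x0) (nat_lit 0x40016000900000001000000000000000000000000000) := T_36 (nat_lit 143) (nat_lit 160) (nat_lit 5) (nat_lit 8) (nat_lit 5) L98267 (by decide +kernel)
theorem L98269 : W_36 (nat_lit 5) (nat_lit 0x200000001200090004800240010000000000000000000) (nat_lit 0x0) (nat_lit 0x40016000900000001000080004000000000000000000) := T_36 (nat_lit 91) (nat_lit 74) (nat_lit 6) (nat_lit 5) (nat_lit 8) L98268 (by decide +kernel)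
theorem L98270 : W_36 (nat_lit 7) (nat_lit 0x200000001200080004800240010000000000000000000) (nat_lit 0x0) (nat_lit 0x400160009000180014000a0027001080000000000000) := Q_36 (nat_lit 124) (C_36 L98250 (C_36 L98241 (C_36 L98261 (C_36 L98265 (C_36 L98269 N_36))))) (by decide +kernel)
theorem L98271 : W_36 (nat_lit 2) (nat_lit 0x200004001e00090004800240010000000000000000000) (nat_lit 0x0) (nat_lit 0x400020001000000000000000000) := D_36 (nat_lit 89) (nat_lit 72) (nat_lit 106) (nat_lit 4) (nat_lit 5) (nat_lit 8) (nat_lit 4) (nat_lit 5) (nat_lit 9) (by decide +kernel)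
theorem L98272 : W_36 (nat_lit 3) (nat_lit 0x200004001e00080004800240010000000000000000000) (nat_lit 0x0) (nat_lit 0x8000000010000400020001000000000000000000) := T_36 (nat_lit 124) (nat_lit 159) (nat_lit 7) (nat_lit 5) (nat_lit 5) L98271 (by decide +kernel)
theorem L98273 : W_36 (nat_lit 4) (nat_lit 0x200000001e00080004800240010000000000000000000) (nat_lit 0x0) (nat_lit 0xe000000010000400020001000000000000000000) := T_36 (nat_lit 158) (nat_lit 157) (nat_lit 1) (nat_lit 8) (nat_lit 8) L98272 (by decide +kernel)
theorem L98274 : W_36 (nat_lit 5) (nat_lit 0x200000001a00080004800240010000000000000000000) (nat_lit 0x0) (nat_lit 0xe000400110000400020001000000000000000000) := T_36 (nat_lit 142) (nat_lit 128) (nat_lit 2) (nat_lit 5) (nat_lit 8) L98273 (by decide +kernel)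
theorem L98275 : W_36 (nat_lit 6) (nat_lit 0x200000001200080004800240010000000000000000000) (nat_lit 0x0) (nat_lit 0x1e000c00110000400020001000000000000000000) := T_36 (nat_lit 143) (nat_lit 160) (nat_lit 5) (nat_lit 8) (nat_lit 5) L98274 (by decide +kernel)
theorem L98276 : W_36 (nat_lit 2) (nat_lit 0x200002001f00080004800240030000000000000000000) (nat_lit 0x0) (nat_lit 0xc000400000000000000000000000000) := D_36 (nat_lit 123) (nat_lit 122) (nat_lit 106) (nat_lit 0) (nat_lit 7) (nat_lit 8) (nat_lit 6) (nat_lit 4) (nat_lit 9) (by decide +kernel)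
theorem L98277 : W_36 (nat_lit 3) (nat_lit 0x200002001e00080004800240030000000000000000000) (nat_lit 0x0) (nat_lit 0x100010000c000400000000000000000000000000) := T_36 (nat_lit 140) (nat_lit 156) (nat_lit 1) (nat_lit 7) (nat_lit 8) L98276 (by decide +kernel)
theorem L98278 : W_36 (nat_lit 4) (nat_lit 0x200000001e00080004800240030000000000000000000) (nat_lit 0x0) (nat_lit 0x700010000c000400000000000000000000000000) := T_36 (nat_lit 157) (nat_lit 158) (nat_lit 1) (nat_lit 8) (nat_lit 8) L98277 (by decide +kernel)
theorem L98279 : W_36 (nat_lit 5) (nat_lit 0x200000001a00080004800240030000000000000000000) (nat_lit 0x0) (nat_lit 0x700050010c000400000000000000000000000000) := T_36 (nat_lit 142) (nat_lit 128) (nat_lit 2) (nat_lit 5) (nat_lit 8) L98278 (by decide +kernel)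
theorem L98280 : W_36 (nat_lit 6) (nat_lit 0x200000001200080004800240030000000000000000000) (nat_lit 0x0) (nat_lit 0x17000d0010c000400000000000000000000000000) := T_36 (nat_lit 143) (nat_lit 160) (nat_lit 5) (nat_lit 8) (nat_lit 5) L98279 (by decide +kernel)
theorem L98281 : W_36 (nat_lit 7) (nat_lit 0x200000001200080004800240010000000000000000000) (nat_lit 0x0) (nat_lit 0x17000d0010c000400000020001000000000000000) := T_36 (nat_lit 77) (nat_lit 60) (nat_lit 6) (nat_lit 8) (nat_lit 7) L98280 (by decide +kernel)
theorem L98282 : W_36 (nat_lit 8) (nat_lit 0x200000001000080004800240010000000000000000000) (nat_lit 0x0) (nat_lit 0x4001f000f0013c0014000a0027001280000000000000) := Q_36 (nat_lit 141) (C_36 L98216 (C_36 L98251 (C_36 L98257 (C_36 L98270 (C_36 L98275 (C_36 L98281 N_36)))))) (by decide +kernel)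
theorem L98283 : W_36 (nat_lit 2) (nat_lit 0x2000000018000800048002c0010001a00010000000000) (nat_lit 0x0) (nat_lit 0x400028000000000) := D_36 (nat_lit 58) (nat_lit 41) (nat_lit 39) (nat_lit 4) (nat_lit 8) (nat_lit 6) (nat_lit 0) (nat_lit 9) (nat_lit 3) (by decide +kernel)
theorem L98284 : W_36 (nat_lit 3) (nat_lit 0x2000000018000800048002c0010001200010000000000) (nat_lit 0x0) (nat_lit 0xc000a8000000000) := T_36 (nat_lit 59) (nat_lit 43) (nat_lit 6) (nat_lit 8) (nat_lit 6) L98283 (by decide +kernel)
theorem L98285 : W_36 (nat_lit 4) (nat_lit 0x2000000018000800048002c0010000200010000000000) (nat_lit 0x0) (nat_lit 0x20001c000a8000000000) := T_36 (nat_lit 60) (nat_lit 77) (nat_lit 6) (nat_lit 8) (nat_lit 7) L98284 (by decide +kernel)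
theorem L98286 : W_36 (nat_lit 5) (nat_lit 0x2000000018000800048002c0010000200000000000000) (nat_lit 0x0) (nat_lit 0x24001c000b8000000000) := T_36 (nat_lit 40) (nat_lit 74) (nat_lit 5) (nat_lit 6) (nat_lit 2) L98285 (by decide +kernel)
theorem L98287 : W_36 (nat_lit 6) (nat_lit 0x2000000010000800048002c0010000200000000000000) (nat_lit 0x0) (nat_lit 0x10000800000000000000024001c000b8000000000) := T_36 (nat_lit 143) (nat_lit 160) (nat_lit 5) (nat_lit 8) (nat_lit 5) L98286 (by decide +kernel)
theorem L98288 : W_36 (nat_lit 2) (nat_lit 0x20000000180008000c8002c0012001f00000000000000) (nat_lit 0x0) (nat_lit 0x100000000000000000c000000000) := D_36 (nat_lit 39) (nat_lit 38) (nat_lit 108) (nat_lit 0) (nat_lit 8) (nat_lit 3) (nat_lit 7) (nat_lit 5) (nat_lit 2) (by decide +kernel)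
theorem L98289 : W_36 (nat_lit 3) (nat_lit 0x20000000180008000c8002c0012001e00000000000000) (nat_lit 0x0) (nat_lit 0x100000000100010000c000000000) := T_36 (nat_lit 56) (nat_lit 72) (nat_lit 1) (nat_lit 8) (nat_lit 3) L98288 (by decide +kernel)
theorem L98290 : W_36 (nat_lit 4) (nat_lit 0x2000000018000800048002c0012001e00000000000000) (nat_lit 0x0) (nat_lit 0x10000900000000100010000c000000000) := T_36 (nat_lit 111) (nat_lit 128) (nat_lit 7) (nat_lit 8) (nat_lit 3) L98289 (by decide +kernel)
theorem L98291 : W_36 (nat_lit 5) (nat_lit 0x2000000018000800048002c0010001e00000000000000) (nat_lit 0x0) (nat_lit 0x10000900000000700010000c000000000) := T_36 (nat_lit 73) (nat_lit 74) (nat_lit 1) (nat_lit 9) (nat_lit 3) L98290 (by decide +kernel)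
theorem L98292 : W_36 (nat_lit 6) (nat_lit 0x2000000018000800048002c0010001a00000000000000) (nat_lit 0x0) (nat_lit 0x10000900000000700050002c000000000) := T_36 (nat_lit 58) (nat_lit 41) (nat_lit 4) (nat_lit 8) (nat_lit 6) L98291 (by decide +kernel)
theorem L98293 : W_36 (nat_lit 7) (nat_lit 0x2000000018000800048002c0010001200000000000000) (nat_lit 0x0) (nat_lit 0x100009000000007000d000ac000000000) := T_36 (nat_lit 59) (nat_lit 43) (nat_lit 6) (nat_lit 8) (nat_lit 6) L98292 (by decide +kernel)
theorem L98294 : W_36 (nat_lit 8) (nat_lit 0x2000000010000800048002c0010001200000000000000) (nat_lit 0x0) (nat_lit 0x10000800100009000000007000d000ac000000000) := T_36 (nat_lit 143) (nat_lit 160) (nat_lit 5) (nat_lit 8) (nat_lit 5) L98293 (by decide +kernel)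
theorem L98295 : W_36 (nat_lit 9) (nat_lit 0x2000000010000800048002c0010000200000000000000) (nat_lit 0x0) (nat_lit 0x10000800100009000000027001d000ac000000000) := T_36 (nat_lit 60) (nat_lit 77) (nat_lit 6) (nat_lit 8) (nat_lit 7) L98294 (by decide +kernel)
theorem L98296 : W_36 (nat_lit 10) (nat_lit 0x2000000010000800048002c0010000000000000000000) (nat_lit 0x0) (nat_lit 0x10000800110009000000027001f000bc000000000) := Q_36 (nat_lit 57) (C_36 L98211 (C_36 L98182 (C_36 L98187 (C_36 L98287 (C_36 L98295 N_36))))) (by decide +kernel)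
theorem L98297 : W_36 (nat_lit 11) (nat_lit 0x200000001000080004800240010000000000000000000) (nat_lit 0x0) (nat_lit 0x10000800110009400180027001f000bc000000000) := Q_36 (nat_lit 91) (C_36 L98176 (C_36 L98156 (C_36 L98296 (C_36 L98154 N_36)))) (by decide +kernel)
theorem L98298 : W_36 (nat_lit 2) (nat_lit 0x200000001300090004800240032000000000000000000) (nat_lit 0x0) (nat_lit 0x20001000080000000000000) := D_36 (nat_lit 72) (nat_lit 55) (nat_lit 89) (nat_lit 4) (nat_lit 5) (nat_lit 7) (nat_lit 4) (nat_lit 5) (nat_lit 8) (by decide +kernel)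
theorem L98299 : W_36 (nat_lit 3) (nat_lit 0x200000001300090004800240030000000000000000000) (nat_lit 0x0) (nat_lit 0x8000000020003000080000000000000) := T_36 (nat_lit 73) (nat_lit 123) (nat_lit 5) (nat_lit 5) (nat_lit 4) L98298 (by decide +kernel)
theorem L98300 : W_36 (nat_lit 4) (nat_lit 0x200000001200090004800240030000000000000000000) (nat_lit 0x0) (nat_lit 0x2000100008000000020003000080000000000000) := T_36 (nat_lit 140) (nat_lit 157) (nat_lit 5) (nat_lit 5) (nat_lit 5) L98299 (by decide +kernel)
theorem L98301 : W_36 (nat_lit 5) (nat_lit 0x200000001200090004800240010000000000000000000) (nat_lit 0x0) (nat_lit 0x2000100008000000020023001080000000000000) := T_36 (nat_lit 77) (nat_lit 60) (nat_lit 6) (nat_lit 8) (nat_lit 7) L98300 (by decide +kernel)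
theorem L98302 : W_36 (nat_lit 2) (nat_lit 0x200000001600090004800260012000000000000000000) (nat_lit 0x0) (nat_lit 0x2000100008000000000000000000000000000000) := D_36 (nat_lit 140) (nat_lit 157) (nat_lit 123) (nat_lit 5) (nat_lit 5) (nat_lit 5) (nat_lit 5) (nat_lit 5) (nat_lit 4) (by decide +kernel)
theorem L98303 : W_36 (nat_lit 3) (nat_lit 0x200000001600090004800260010000000000000000000) (nat_lit 0x0) (nat_lit 0x2000100028000000000002000000000000000000) := T_36 (nat_lit 73) (nat_lit 125) (nat_lit 7) (nat_lit 5) (nat_lit 4) L98302 (by decide +kernel)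
theorem L98304 : W_36 (nat_lit 4) (nat_lit 0x200000001200090004800260010000000000000000000) (nat_lit 0x0) (nat_lit 0xa000500028000000000002000000000000000000) := T_36 (nat_lit 142) (nat_lit 159) (nat_lit 7) (nat_lit 5) (nat_lit 5) L98303 (by decide +kernel)
theorem L98305 : W_36 (nat_lit 5) (nat_lit 0x200000001200090004800240010000000000000000000) (nat_lit 0x0) (nat_lit 0xa000500028000000020003000000000000000000) := T_36 (nat_lit 89) (nat_lit 72) (nat_lit 4) (nat_lit 5) (nat_lit 8) L98304 (by decide +kernel)
theorem L98306 : W_36 (nat_lit 2) (nat_lit 0x200004001200090004800260030000000000000000000) (nat_lit 0x0) (nat_lit 0x100008000400000000000000000000000000000000000) := D_36 (nat_lit 159) (nat_lit 142) (nat_lit 176) (nat_lit 7) (nat_lit 5) (nat_lit 5) (nat_lit 7) (nat_lit 5) (nat_lit 6) (by decide +kernel)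
theorem L98307 : W_36 (nat_lit 3) (nat_lit 0x200000001200090004800260030000000000000000000) (nat_lit 0x0) (nat_lit 0x10000c000400000000400000000000000000000000000) := T_36 (nat_lit 158) (nat_lit 106) (nat_lit 4) (nat_lit 5) (nat_lit 9) L98306 (by decide +kernel)
theorem L98308 : W_36 (nat_lit 4) (nat_lit 0x200000001200090004800260010000000000000000000) (nat_lit 0x0) (nat_lit 0x10000c000400000000400000020001000000000000000) := T_36 (nat_lit 77) (nat_lit 60) (nat_lit 6) (nat_lit 8) (nat_lit 7) L98307 (by decide +kernel)
theorem L98309 : W_36 (nat_lit 5) (nat_lit 0x200000001200090004800240010000000000000000000) (nat_lit 0x0) (nat_lit 0x10000c000400000000400020021001000000000000000) := T_36 (nat_lit 89) (nat_lit 72) (nat_lit 4) (nat_lit 5) (nat_lit 8) L98308 (by decide +kernel)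
theorem L98310 : W_36 (nat_lit 2) (nat_lit 0x200000001600090004800240012000000000000000000) (nat_lit 0x0) (nat_lit 0x2000100008000000000000000000000000000000) := D_36 (nat_lit 140) (nat_lit 157) (nat_lit 123) (nat_lit 5) (nat_lit 5) (nat_lit 5) (nat_lit 5) (nat_lit 5) (nat_lit 4) (by decide +kernel)
theorem L98311 : W_36 (nat_lit 3) (nat_lit 0x200000001600090004800240010000000000000000000) (nat_lit 0x0) (nat_lit 0x2000100028000000000002000000000000000000) := T_36 (nat_lit 73) (nat_lit 125) (nat_lit 7) (nat_lit 5) (nat_lit 4) L98310 (by decide +kernel)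
theorem L98312 : W_36 (nat_lit 4) (nat_lit 0x200000001200090004800240010000000000000000000) (nat_lit 0x0) (nat_lit 0xa000500028000000000002000000000000000000) := T_36 (nat_lit 142) (nat_lit 159) (nat_lit 7) (nat_lit 5) (nat_lit 5) L98311 (by decide +kernel)
theorem L98313 : W_36 (nat_lit 6) (nat_lit 0x200000001200080004800240010000000000000000000) (nat_lit 0x0) (nat_lit 0x10000e000500038000400020023001080000000000000) := Q_36 (nat_lit 124) (C_36 L98245 (C_36 L98301 (C_36 L98305 (C_36 L98309 (C_36 L98312 N_36))))) (by decide +kernel)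
theorem L98314 : W_36 (nat_lit 2) (nat_lit 0x800380004001a000b0004800260030000000000000000000) (nat_lit 0x0) (nat_lit 0x10001000400000000000000000000000000000000000000000000) := D_36 (nat_lit 192) (nat_lit 178) (nat_lit 208) (nat_lit 1) (nat_lit 8) (nat_lit 10) (nat_lit 5) (nat_lit 5) (nat_lit 8) (by decide +kernel)
theorem L98315 : W_36 (nat_lit 3) (nat_lit 0x380004001a000b0004800260030000000000000000000) (nat_lit 0x0) (nat_lit 0x10001800440000000000000000000000000000000000000000000) := T_36 (nat_lit 191) (nat_lit 174) (nat_lit 5) (nat_lit 5) (nat_lit 7) L98314 (by decide +kernel)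
theorem L98316 : W_36 (nat_lit 4) (nat_lit 0x380004001a00090004800260030000000000000000000) (nat_lit 0x0) (nat_lit 0x10001800440000000000020001000000000000000000000000000) := T_36 (nat_lit 125) (nat_lit 108) (nat_lit 6) (nat_lit 5) (nat_lit 10) L98315 (by decide +kernel)
theorem L98317 : W_36 (nat_lit 5) (nat_lit 0x300004001a00090004800260030000000000000000000) (nat_lit 0x0) (nat_lit 0x100038004c0000000000020001000000000000000000000000000) := T_36 (nat_lit 175) (nat_lit 193) (nat_lit 7) (nat_lit 5) (nat_lit 7) L98316 (by decide +kernel)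
theorem L98318 : W_36 (nat_lit 6) (nat_lit 0x200004001a00090004800260030000000000000000000) (nat_lit 0x0) (nat_lit 0x100038005c0008000000020001000000000000000000000000000) := T_36 (nat_lit 176) (nat_lit 159) (nat_lit 7) (nat_lit 5) (nat_lit 6) L98317 (by decide +kernel)
theorem L98319 : W_36 (nat_lit 7) (nat_lit 0x200000001a00090004800260030000000000000000000) (nat_lit 0x0) (nat_lit 0x100038005c000c000000020001400000000000000000000000000) := T_36 (nat_lit 158) (nat_lit 106) (nat_lit 4) (nat_lit 5) (nat_lit 9) L98318 (by decide +kernel)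
theorem L98320 : W_36 (nat_lit 8) (nat_lit 0x200000001200090004800260030000000000000000000) (nat_lit 0x0) (nat_lit 0x100038005c001c000800020001400000000000000000000000000) := T_36 (nat_lit 143) (nat_lit 160) (nat_lit 5) (nat_lit 8) (nat_lit 5) L98319 (by decide +kernel)
theorem L98321 : W_36 (nat_lit 9) (nat_lit 0x200000001200090004800240030000000000000000000) (nat_lit 0x0) (nat_lit 0x100038005c001c000800020001400020001000000000000000000) := T_36 (nat_lit 89) (nat_lit 72) (nat_lit 4) (nat_lit 5) (nat_lit 8) L98320 (by decide +kernel)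
theorem L98322 : W_36 (nat_lit 10) (nat_lit 0x200000001200090004800240010000000000000000000) (nat_lit 0x0) (nat_lit 0x100038005c001c000800020001400020021001000000000000000) := T_36 (nat_lit 77) (nat_lit 60) (nat_lit 6) (nat_lit 8) (nat_lit 7) L98321 (by decide +kernel)
theorem L98323 : W_36 (nat_lit 2) (nat_lit 0x200000001300090004800240013001300000000000000) (nat_lit 0x0) (nat_lit 0xc00080000000000) := D_36 (nat_lit 59) (nat_lit 43) (nat_lit 58) (nat_lit 6) (nat_lit 8) (nat_lit 6) (nat_lit 1) (nat_lit 8) (nat_lit 3) (by decide +kernel)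
theorem L98324 : W_36 (nat_lit 3) (nat_lit 0x200000001300090004800240013001200000000000000) (nat_lit 0x0) (nat_lit 0xd00090000000000) := T_36 (nat_lit 56) (nat_lit 40) (nat_lit 6) (nat_lit 5) (nat_lit 6) L98323 (by decide +kernel)
theorem L98325 : W_36 (nat_lit 4) (nat_lit 0x200000001300090004800240013000200000000000000) (nat_lit 0x0) (nat_lit 0x20001d00090000000000) := T_36 (nat_lit 60) (nat_lit 77) (nat_lit 6) (nat_lit 8) (nat_lit 7) L98324 (by decide +kernel)
theorem L98326 : W_36 (nat_lit 5) (nat_lit 0x200000001300090004800240013000000000000000000) (nat_lit 0x0) (nat_lit 0x24001f00090000000000) := T_36 (nat_lit 57) (nat_lit 74) (nat_lit 6) (nat_lit 5) (nat_lit 7) L98325 (by decide +kernel)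
theorem L98327 : W_36 (nat_lit 6) (nat_lit 0x200000001300090004800240012000000000000000000) (nat_lit 0x0) (nat_lit 0x25001f80090000000000) := T_36 (nat_lit 72) (nat_lit 55) (nat_lit 4) (nat_lit 5) (nat_lit 7) L98326 (by decide +kernel)
theorem L98328 : W_36 (nat_lit 7) (nat_lit 0x200000001300090004800240010000000000000000000) (nat_lit 0x0) (nat_lit 0x8000000000027001f80090000000000) := T_36 (nat_lit 73) (nat_lit 123) (nat_lit 5) (nat_lit 5) (nat_lit 4) L98327 (by decide +kernel)
theorem L98329 : W_36 (nat_lit 8) (nat_lit 0x200000001200090004800240010000000000000000000) (nat_lit 0x0) (nat_lit 0x2000100008000000000027001f80090000000000) := T_36 (nat_lit 140) (nat_lit 157) (nat_lit 5) (nat_lit 5) (nat_lit 5) L98328 (by decide +kernel)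
theorem L98330 : W_36 (nat_lit 2) (nat_lit 0x300006001a00090004c00240030000000000000000000) (nat_lit 0x0) (nat_lit 0x2000080000000000008000000000000000000000000000000) := D_36 (nat_lit 175) (nat_lit 123) (nat_lit 193) (nat_lit 4) (nat_lit 5) (nat_lit 10) (nat_lit 7) (nat_lit 5) (nat_lit 7) (by decide +kernel)
theorem L98331 : W_36 (nat_lit 3) (nat_lit 0x200006001a00090004c00240030000000000000000000) (nat_lit 0x0) (nat_lit 0x2000180008000000008000000000000000000000000000000) := T_36 (nat_lit 176) (nat_lit 159) (nat_lit 7) (nat_lit 5) (nat_lit 6) L98330 (by decide +kernel)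
theorem L98332 : W_36 (nat_lit 4) (nat_lit 0x200006001a00090004800240030000000000000000000) (nat_lit 0x0) (nat_lit 0x2000180008000000008000400020000000000000000000000) := T_36 (nat_lit 106) (nat_lit 89) (nat_lit 4) (nat_lit 5) (nat_lit 9) L98331 (by decide +kernel)
theorem L98333 : W_36 (nat_lit 5) (nat_lit 0x200002001a00090004800240030000000000000000000) (nat_lit 0x0) (nat_lit 0x20001c000c000000008000400020000000000000000000000) := T_36 (nat_lit 158) (nat_lit 174) (nat_lit 5) (nat_lit 5) (nat_lit 6) L98332 (by decide +kernel)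
theorem L98334 : W_36 (nat_lit 6) (nat_lit 0x200002001200090004800240030000000000000000000) (nat_lit 0x0) (nat_lit 0x20001c001c000800008000400020000000000000000000000) := T_36 (nat_lit 143) (nat_lit 160) (nat_lit 5) (nat_lit 8) (nat_lit 5) L98333 (by decide +kernel)
theorem L98335 : W_36 (nat_lit 7) (nat_lit 0x200000001200090004800240030000000000000000000) (nat_lit 0x0) (nat_lit 0x20001c001e000900008000400020000000000000000000000) := T_36 (nat_lit 157) (nat_lit 140) (nat_lit 5) (nat_lit 5) (nat_lit 5) L98334 (by decide +kernel)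
theorem L98336 : W_36 (nat_lit 8) (nat_lit 0x200000001200090004800240010000000000000000000) (nat_lit 0x0) (nat_lit 0x20001c001e000900008000400020020001000000000000000) := T_36 (nat_lit 77) (nat_lit 60) (nat_lit 6) (nat_lit 8) (nat_lit 7) L98335 (by decide +kernel)
theorem L98337 : W_36 (nat_lit 11) (nat_lit 0x200000001200080004800240010000000000000000000) (nat_lit 0x0) (nat_lit 0x100038005c001e000900038001400020027001f80090000000000) := Q_36 (nat_lit 124) (C_36 L98301 (C_36 L98261 (C_36 L98322 (C_36 L98329 (C_36 L98336 N_36))))) (by decide +kernel)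
theorem L98338 : W_36 (nat_lit 12) (nat_lit 0x200000001000080004800240010000000000000000000) (nat_lit 0x0) (nat_lit 0x100038005c001f000f0013c001400020027001f80090000000000) := Q_36 (nat_lit 141) (C_36 L98281 (C_36 L98313 (C_36 L98216 (C_36 L98337 (C_36 L98275 N_36))))) (by decide +kernel)
theorem L98339 : W_36 (nat_lit 2) (nat_lit 0x20000000180008000c8002c0014000e002c0000000000) (nat_lit 0x0) (nat_lit 0x10001000000002000000000000000000) := D_36 (nat_lit 124) (nat_lit 108) (nat_lit 73) (nat_lit 5) (nat_lit 6) (nat_lit 3) (nat_lit 6) (nat_lit 5) (nat_lit 7) (by decide +kernel)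
theorem L98340 : W_36 (nat_lit 3) (nat_lit 0x20000000180008000c8002c0010000e002c0000000000) (nat_lit 0x0) (nat_lit 0x10001000000006000000010000000000) := T_36 (nat_lit 74) (nat_lit 40) (nat_lit 5) (nat_lit 6) (nat_lit 2) L98339 (by decide +kernel)
theorem L98341 : W_36 (nat_lit 4) (nat_lit 0x20000000180008000c8002c0010000e000c0000000000) (nat_lit 0x0) (nat_lit 0x10001000000006000000310000000000) := T_36 (nat_lit 45) (nat_lit 44) (nat_lit 1) (nat_lit 11) (nat_lit 2) L98340 (by decide +kernel)
theorem L98342 : W_36 (nat_lit 5) (nat_lit 0x20000000180008000c8002c0010000c000c0000000000) (nat_lit 0x0) (nat_lit 0x10001000000006000300310000000000) := T_36 (nat_lit 57) (nat_lit 56) (nat_lit 2) (nat_lit 5) (nat_lit 3) L98341 (by decide +kernel)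
theorem L98343 : W_36 (nat_lit 6) (nat_lit 0x20000000180008000c8002c0010000c00080000000000) (nat_lit 0x0) (nat_lit 0x10001000000006000300350004000000) := T_36 (nat_lit 42) (nat_lit 26) (nat_lit 6) (nat_lit 8) (nat_lit 5) L98342 (by decide +kernel)
theorem L98344 : W_36 (nat_lit 7) (nat_lit 0x20000000180008000c8002c0010000800080000000000) (nat_lit 0x0) (nat_lit 0x10001000000006000700370004000000) := T_36 (nat_lit 58) (nat_lit 41) (nat_lit 4) (nat_lit 8) (nat_lit 6) L98343 (by decide +kernel)
theorem L98345 : W_36 (nat_lit 8) (nat_lit 0x20000000180008000c8002c0010000800000000000000) (nat_lit 0x0) (nat_lit 0x100010000000060017003f0004000000) := T_36 (nat_lit 43) (nat_lit 60) (nat_lit 6) (nat_lit 8) (nat_lit 6) L98344 (by decide +kernel)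
theorem L98346 : W_36 (nat_lit 9) (nat_lit 0x20000000180008000c8002c0010000000000000000000) (nat_lit 0x0) (nat_lit 0x110001000000006001f003f0004000000) := T_36 (nat_lit 59) (nat_lit 128) (nat_lit 7) (nat_lit 8) (nat_lit 3) L98345 (by decide +kernel)
theorem L98347 : W_36 (nat_lit 10) (nat_lit 0x20000000100008000c8002c0010000000000000000000) (nat_lit 0x0) (nat_lit 0x10000800110001000000006001f003f0004000000) := T_36 (nat_lit 143) (nat_lit 160) (nat_lit 5) (nat_lit 8) (nat_lit 5) L98346 (by decide +kernel)
theorem L98348 : W_36 (nat_lit 11) (nat_lit 0x2000000010000800048002c0010000000000000000000) (nat_lit 0x0) (nat_lit 0x10000800110009000100006001f003f0004000000) := T_36 (nat_lit 111) (nat_lit 92) (nat_lit 3) (nat_lit 5) (nat_lit 5) L98347 (by decide +kernel)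
theorem L98349 : W_36 (nat_lit 12) (nat_lit 0x200000001000080004800240010000000000000000000) (nat_lit 0x0) (nat_lit 0x1f000f0011c0094001a0007001f803f0004000000) := Q_36 (nat_lit 91) (C_36 L98175 (C_36 L98154 (C_36 L98348 N_36))) (by decide +kernel)
theorem L98350 : W_36 (nat_lit 2) (nat_lit 0x200000001000080004800240010000800000000000000) (nat_lit 0x0) (nat_lit 0x20001000080000000000) := D_36 (nat_lit 60) (nat_lit 77) (nat_lit 43) (nat_lit 6) (nat_lit 8) (nat_lit 7) (nat_lit 6) (nat_lit 8) (nat_lit 6) (by decide +kernel)
theorem L98351 : W_36 (nat_lit 2) (nat_lit 0x200000001800088004800240012000980070006000000) (nat_lit 0x0) (nat_lit 0x100010000000000001000000000000000000) := D_36 (nat_lit 124) (nat_lit 140) (nat_lit 72) (nat_lit 5) (nat_lit 5) (nat_lit 4) (nat_lit 4) (nat_lit 5) (nat_lit 7) (by decide +kernel)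
theorem L98352 : W_36 (nat_lit 3) (nat_lit 0x200000001800088004800240012000900070006000000) (nat_lit 0x0) (nat_lit 0x100010000000000001000080004000000000) := T_36 (nat_lit 55) (nat_lit 38) (nat_lit 4) (nat_lit 5) (nat_lit 6) L98351 (by decide +kernel)
theorem L98353 : W_36 (nat_lit 4) (nat_lit 0x200000001800080004800240012000900070006000000) (nat_lit 0x0) (nat_lit 0x100018000400000001000080004000000000) := T_36 (nat_lit 123) (nat_lit 106) (nat_lit 5) (nat_lit 5) (nat_lit 3) L98352 (by decide +kernel)
theorem L98354 : W_36 (nat_lit 5) (nat_lit 0x200000001800080004800240012000800070006000000) (nat_lit 0x0) (nat_lit 0x100018000400000001000380004000000000) := T_36 (nat_lit 56) (nat_lit 57) (nat_lit 6) (nat_lit 5) (nat_lit 6) L98353 (by decide +kernel)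
theorem L98355 : W_36 (nat_lit 6) (nat_lit 0x200000001800080004800240012000800060006000000) (nat_lit 0x0) (nat_lit 0x10001800040000000100038001c000000000) := T_36 (nat_lit 40) (nat_lit 39) (nat_lit 2) (nat_lit 5) (nat_lit 2) L98354 (by decide +kernel)
theorem L98356 : W_36 (nat_lit 7) (nat_lit 0x200000001800080004800240012000800060004000000) (nat_lit 0x0) (nat_lit 0x10001800040000000100038001c002000200) := T_36 (nat_lit 25) (nat_lit 9) (nat_lit 6) (nat_lit 8) (nat_lit 4) L98355 (by decide +kernel)
theorem L98357 : W_36 (nat_lit 8) (nat_lit 0x200000001800080004800240012000800060000000000) (nat_lit 0x0) (nat_lit 0x10001800040000000100038009c006000200) := T_36 (nat_lit 26) (nat_lit 43) (nat_lit 6) (nat_lit 8) (nat_lit 5) L98356 (by decide +kernel)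
theorem L98358 : W_36 (nat_lit 9) (nat_lit 0x200000001800080004800240012000800020000000000) (nat_lit 0x0) (nat_lit 0x1000180004000000010003800dc007000200) := T_36 (nat_lit 42) (nat_lit 24) (nat_lit 4) (nat_lit 8) (nat_lit 5) L98357 (by decide +kernel)
theorem L98359 : W_36 (nat_lit 10) (nat_lit 0x200000001800080004800240012000800000000000000) (nat_lit 0x0) (nat_lit 0x1000180004000000010007800fc007000200) := T_36 (nat_lit 41) (nat_lit 58) (nat_lit 4) (nat_lit 8) (nat_lit 6) L98358 (by decide +kernel)
theorem L98360 : W_36 (nat_lit 11) (nat_lit 0x200000001000080004800240012000800000000000000) (nat_lit 0x0) (nat_lit 0x100009000180004000000010007800fc007000200) := T_36 (nat_lit 143) (nat_lit 160) (nat_lit 5) (nat_lit 8) (nat_lit 5) L98359 (by decide +kernel)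
theorem L98361 : W_36 (nat_lit 2) (nat_lit 0x20000000100008000c8002c0012000900068016000000) (nat_lit 0x0) (nat_lit 0x8000400020000000000000000000000) := D_36 (nat_lit 106) (nat_lit 123) (nat_lit 89) (nat_lit 5) (nat_lit 5) (nat_lit 3) (nat_lit 5) (nat_lit 5) (nat_lit 2) (by decide +kernel)
theorem L98362 : W_36 (nat_lit 3) (nat_lit 0x20000000100008000c8002c0012000800068016000000) (nat_lit 0x0) (nat_lit 0x8001400020000000100000000000000) := T_36 (nat_lit 56) (nat_lit 108) (nat_lit 7) (nat_lit 5) (nat_lit 2) L98361 (by decide +kernel)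
theorem L98363 : W_36 (nat_lit 4) (nat_lit 0x20000000100008000c8002c0012000800068006000000) (nat_lit 0x0) (nat_lit 0x8001400020000000100000018000000) := T_36 (nat_lit 28) (nat_lit 27) (nat_lit 1) (nat_lit 11) (nat_lit 1) L98362 (by decide +kernel)
theorem L98364 : W_36 (nat_lit 5) (nat_lit 0x20000000100008000c8002c0012000800060006000000) (nat_lit 0x0) (nat_lit 0x8001400020000000100018018000000) := T_36 (nat_lit 39) (nat_lit 40) (nat_lit 2) (nat_lit 5) (nat_lit 2) L98363 (by decide +kernel)
theorem L98365 : W_36 (nat_lit 6) (nat_lit 0x20000000100008000c8002c0012000800060004000000) (nat_lit 0x0) (nat_lit 0x800140002000000010001801a000200) := T_36 (nat_lit 25) (nat_lit 9) (nat_lit 6) (nat_lit 8) (nat_lit 4) L98364 (by decide +kernel)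
theorem L98366 : W_36 (nat_lit 7) (nat_lit 0x20000000100008000c8002c0012000800060000000000) (nat_lit 0x0) (nat_lit 0x800140002000000010009801e000200) := T_36 (nat_lit 26) (nat_lit 43) (nat_lit 6) (nat_lit 8) (nat_lit 5) L98365 (by decide +kernel)
theorem L98367 : W_36 (nat_lit 8) (nat_lit 0x20000000100008000c8002c0012000800020000000000) (nat_lit 0x0) (nat_lit 0x80014000200000001000d801f000200) := T_36 (nat_lit 42) (nat_lit 24) (nat_lit 4) (nat_lit 8) (nat_lit 5) L98366 (by decide +kernel)
theorem L98368 : W_36 (nat_lit 9) (nat_lit 0x20000000100008000c800240012000800020000000000) (nat_lit 0x0) (nat_lit 0x80014001a00000001000d801f000200) := T_36 (nat_lit 91) (nat_lit 92) (nat_lit 3) (nat_lit 5) (nat_lit 5) L98367 (by decide +kernel)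
theorem L98369 : W_36 (nat_lit 10) (nat_lit 0x200000001000080004800240012000800020000000000) (nat_lit 0x0) (nat_lit 0x1080094001a00000001000d801f000200) := T_36 (nat_lit 111) (nat_lit 128) (nat_lit 7) (nat_lit 8) (nat_lit 3) L98368 (by decide +kernel)
theorem L98370 : W_36 (nat_lit 11) (nat_lit 0x200000001000080004800240012000800000000000000) (nat_lit 0x0) (nat_lit 0x1080094001a00000005000f801f000200) := T_36 (nat_lit 41) (nat_lit 58) (nat_lit 4) (nat_lit 8) (nat_lit 6) L98369 (by decide +kernel)
theorem L98371 : W_36 (nat_lit 2) (nat_lit 0x200000001c00598004800240012000900000000000000) (nat_lit 0x0) (nat_lit 0x1000080004000000000) := D_36 (nat_lit 55) (nat_lit 38) (nat_lit 72) (nat_lit 4) (nat_lit 5) (nat_lit 6) (nat_lit 4) (nat_lit 5) (nat_lit 7) (by decide +kernel)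
theorem L98372 : W_36 (nat_lit 3) (nat_lit 0x200000001c00598004800240012000800000000000000) (nat_lit 0x0) (nat_lit 0x400000001000180004000000000) := T_36 (nat_lit 56) (nat_lit 106) (nat_lit 5) (nat_lit 5) (nat_lit 3) L98371 (by decide +kernel)
theorem L98373 : W_36 (nat_lit 4) (nat_lit 0x200000001c00590004800240012000800000000000000) (nat_lit 0x0) (nat_lit 0x100008000400000001000180004000000000) := T_36 (nat_lit 123) (nat_lit 140) (nat_lit 5) (nat_lit 5) (nat_lit 4) L98372 (by decide +kernel)
theorem L98374 : W_36 (nat_lit 5) (nat_lit 0x200000001c00580004800240012000800000000000000) (nat_lit 0x0) (nat_lit 0x100038000400000001000180004000000000) := T_36 (nat_lit 124) (nat_lit 125) (nat_lit 7) (nat_lit 5) (nat_lit 4) L98373 (by decide +kernel)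
theorem L98375 : W_36 (nat_lit 6) (nat_lit 0x200000001c00180004800240012000800000000000000) (nat_lit 0x0) (nat_lit 0x100638000400000001000180004000000000) := T_36 (nat_lit 130) (nat_lit 129) (nat_lit 1) (nat_lit 11) (nat_lit 7) L98374 (by decide +kernel)
theorem L98376 : W_36 (nat_lit 7) (nat_lit 0x200000001800180004800240012000800000000000000) (nat_lit 0x0) (nat_lit 0x700638000400000001000180004000000000) := T_36 (nat_lit 142) (nat_lit 141) (nat_lit 2) (nat_lit 5) (nat_lit 8) L98375 (by decide +kernel)
theorem L98377 : W_36 (nat_lit 8) (nat_lit 0x200000001000180004800240012000800000000000000) (nat_lit 0x0) (nat_lit 0x10000f00638000400000001000180004000000000) := T_36 (nat_lit 143) (nat_lit 160) (nat_lit 5) (nat_lit 8) (nat_lit 5) L98376 (by decide +kernel)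
theorem L98378 : W_36 (nat_lit 9) (nat_lit 0x200000001000080004800240012000800000000000000) (nat_lit 0x0) (nat_lit 0x10000f00738008400000001000180004000000000) := T_36 (nat_lit 128) (nat_lit 111) (nat_lit 7) (nat_lit 8) (nat_lit 3) L98377 (by decide +kernel)
theorem L98379 : W_36 (nat_lit 12) (nat_lit 0x200000001000080004800240010000800000000000000) (nat_lit 0x0) (nat_lit 0x18000f007380094001a00030007800fc01f000200) := Q_36 (nat_lit 73) (C_36 L98360 (C_36 L98136 (C_36 L98370 (C_36 L98378 N_36)))) (by decide +kernel)
theorem L98380 : W_36 (nat_lit 2) (nat_lit 0x200000001800080005800240032000d00000000000000) (nat_lit 0x0) (nat_lit 0x180000000000008000000000) := D_36 (nat_lit 91) (nat_lit 39) (nat_lit 92) (nat_lit 7) (nat_lit 5) (nat_lit 2) (nat_lit 2) (nat_lit 5) (nat_lit 5) (by decide +kernel)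
theorem L98381 : W_36 (nat_lit 3) (nat_lit 0x200000001800080004800240032000d00000000000000) (nat_lit 0x0) (nat_lit 0x20001000180000000000008000000000) := T_36 (nat_lit 108) (nat_lit 125) (nat_lit 7) (nat_lit 5) (nat_lit 3) L98380 (by decide +kernel)
theorem L98382 : W_36 (nat_lit 4) (nat_lit 0x200000001800080004800240032000c00000000000000) (nat_lit 0x0) (nat_lit 0x20001000180000000300008000000000) := T_36 (nat_lit 56) (nat_lit 57) (nat_lit 3) (nat_lit 5) (nat_lit 3) L98381 (by decide +kernel)
theorem L98383 : W_36 (nat_lit 5) (nat_lit 0x200000001800080004800240012000c00000000000000) (nat_lit 0x0) (nat_lit 0x20001000180020001300008000000000) := T_36 (nat_lit 77) (nat_lit 60) (nat_lit 6) (nat_lit 8) (nat_lit 7) L98382 (by decide +kernel)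
theorem L98384 : W_36 (nat_lit 6) (nat_lit 0x200000001800080004800240012000800000000000000) (nat_lit 0x0) (nat_lit 0x20001000180020001700028000000000) := T_36 (nat_lit 58) (nat_lit 41) (nat_lit 4) (nat_lit 8) (nat_lit 6) L98383 (by decide +kernel)
theorem L98385 : W_36 (nat_lit 7) (nat_lit 0x200000001000080004800240012000800000000000000) (nat_lit 0x0) (nat_lit 0x10000800020001000180020001700028000000000) := T_36 (nat_lit 143) (nat_lit 160) (nat_lit 5) (nat_lit 8) (nat_lit 5) L98384 (by decide +kernel)
theorem L98386 : W_36 (nat_lit 2) (nat_lit 0x20000000100008000c8002c0032000d00000000000000) (nat_lit 0x0) (nat_lit 0x20001000000000000000008000000000) := D_36 (nat_lit 108) (nat_lit 125) (nat_lit 39) (nat_lit 7) (nat_lit 5) (nat_lit 3) (nat_lit 7) (nat_lit 5) (nat_lit 2) (by decide +kernel)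
theorem L98387 : W_36 (nat_lit 3) (nat_lit 0x20000000100008000c8002c0032000c00000000000000) (nat_lit 0x0) (nat_lit 0x20001000000000000300008000000000) := T_36 (nat_lit 56) (nat_lit 57) (nat_lit 3) (nat_lit 5) (nat_lit 3) L98386 (by decide +kernel)
theorem L98388 : W_36 (nat_lit 4) (nat_lit 0x20000000100008000c8002c0032000800000000000000) (nat_lit 0x0) (nat_lit 0x20001000000000000700028000000000) := T_36 (nat_lit 58) (nat_lit 41) (nat_lit 4) (nat_lit 8) (nat_lit 6) L98387 (by decide +kernel)
theorem L98389 : W_36 (nat_lit 5) (nat_lit 0x2000000010000800048002c0032000800000000000000) (nat_lit 0x0) (nat_lit 0x120009000000000000700028000000000) := T_36 (nat_lit 111) (nat_lit 128) (nat_lit 7) (nat_lit 8) (nat_lit 3) L98388 (by decide +kernel)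
theorem L98390 : W_36 (nat_lit 6) (nat_lit 0x200000001000080004800240032000800000000000000) (nat_lit 0x0) (nat_lit 0x120009000180000000700028000000000) := T_36 (nat_lit 91) (nat_lit 92) (nat_lit 2) (nat_lit 5) (nat_lit 5) L98389 (by decide +kernel)
theorem L98391 : W_36 (nat_lit 7) (nat_lit 0x200000001000080004800240012000800000000000000) (nat_lit 0x0) (nat_lit 0x120009000180020001700028000000000) := T_36 (nat_lit 77) (nat_lit 60) (nat_lit 6) (nat_lit 8) (nat_lit 7) L98390 (by decide +kernel)
theorem L98392 : W_36 (nat_lit 2) (nat_lit 0x200000001800080004c00240032000d00008000000000) (nat_lit 0x0) (nat_lit 0x80004000200000) := D_36 (nat_lit 38) (nat_lit 21) (nat_lit 55) (nat_lit 4) (nat_lit 5) (nat_lit 5) (nat_lit 4) (nat_lit 5) (nat_lit 6) (by decide +kernel)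
theorem L98393 : W_36 (nat_lit 3) (nat_lit 0x200000001800080004c00240032000d00000000000000) (nat_lit 0x0) (nat_lit 0x2000000008000c000200000) := T_36 (nat_lit 39) (nat_lit 89) (nat_lit 5) (nat_lit 5) (nat_lit 2) L98392 (by decide +kernel)
theorem L98394 : W_36 (nat_lit 4) (nat_lit 0x200000001800080004800240032000d00000000000000) (nat_lit 0x0) (nat_lit 0x800040002000000008000c000200000) := T_36 (nat_lit 106) (nat_lit 123) (nat_lit 5) (nat_lit 5) (nat_lit 3) L98393 (by decide +kernel)
theorem L98395 : W_36 (nat_lit 5) (nat_lit 0x200000001800080004800240032000c00000000000000) (nat_lit 0x0) (nat_lit 0x800040002000000038000c000200000) := T_36 (nat_lit 56) (nat_lit 57) (nat_lit 3) (nat_lit 5) (nat_lit 3) L98394 (by decide +kernel)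
theorem L98396 : W_36 (nat_lit 6) (nat_lit 0x200000001800080004800240012000c00000000000000) (nat_lit 0x0) (nat_lit 0x800040002002000138000c000200000) := T_36 (nat_lit 77) (nat_lit 60) (nat_lit 6) (nat_lit 8) (nat_lit 7) L98395 (by decide +kernel)
theorem L98397 : W_36 (nat_lit 7) (nat_lit 0x200000001000080004800240012000c00000000000000) (nat_lit 0x0) (nat_lit 0x1000080000800040002002000138000c000200000) := T_36 (nat_lit 143) (nat_lit 160) (nat_lit 5) (nat_lit 8) (nat_lit 5) L98396 (by decide +kernel)
theorem L98398 : W_36 (nat_lit 8) (nat_lit 0x200000001000080004800240012000800000000000000) (nat_lit 0x0) (nat_lit 0x1000080000800040002002000178002c000200000) := T_36 (nat_lit 58) (nat_lit 41) (nat_lit 4) (nat_lit 8) (nat_lit 6) L98397 (by decide +kernel)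
theorem L98399 : W_36 (nat_lit 10) (nat_lit 0x200000001000080004800240010000800000000000000) (nat_lit 0x0) (nat_lit 0x18000f007380094001a002300178002c000200000) := Q_36 (nat_lit 73) (C_36 L98385 (C_36 L98391 (C_36 L98378 (C_36 L98398 (C_36 L98136 N_36))))) (by decide +kernel)
theorem L98400 : W_36 (nat_lit 13) (nat_lit 0x200000001000080004800240010000000000000000000) (nat_lit 0x0) (nat_lit 0x18000f007380094001a0023001f800fc01f200200) := Q_36 (nat_lit 59) (C_36 L98350 (C_36 L98379 (C_36 L98399 N_36))) (by decide +kernel)
theorem L98401 : W_36 (nat_lit 2) (nat_lit 0x200004001b005900048002c0010001c00000000000000) (nat_lit 0x0) (nat_lit 0x400020001000000000000000000) := D_36 (nat_lit 89) (nat_lit 106) (nat_lit 72) (nat_lit 4) (nat_lit 5) (nat_lit 9) (nat_lit 4) (nat_lit 5) (nat_lit 8) (by decide +kernel)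
theorem L98402 : W_36 (nat_lit 3) (nat_lit 0x200000001b005900048002c0010001c00000000000000) (nat_lit 0x0) (nat_lit 0x4000000000001400020001000000000000000000) := T_36 (nat_lit 158) (nat_lit 108) (nat_lit 6) (nat_lit 5) (nat_lit 9) L98401 (by decide +kernel)
theorem L98403 : W_36 (nat_lit 4) (nat_lit 0x200000001a005900048002c0010001c00000000000000) (nat_lit 0x0) (nat_lit 0x6000100000001400020001000000000000000000) := T_36 (nat_lit 140) (nat_lit 157) (nat_lit 5) (nat_lit 5) (nat_lit 5) L98402 (by decide +kernel)
theorem L98404 : W_36 (nat_lit 5) (nat_lit 0x200000001a005800048002c0010001c00000000000000) (nat_lit 0x0) (nat_lit 0x6000100010001400020005000000000000000000) := T_36 (nat_lit 124) (nat_lit 74) (nat_lit 6) (nat_lit 5) (nat_lit 8) L98403 (by decide +kernel)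
theorem L98405 : W_36 (nat_lit 6) (nat_lit 0x200000001a001800048002c0010001c00000000000000) (nat_lit 0x0) (nat_lit 0x6000100610001400020005000000000000000000) := T_36 (nat_lit 130) (nat_lit 129) (nat_lit 1) (nat_lit 11) (nat_lit 7) L98404 (by decide +kernel)
theorem L98406 : W_36 (nat_lit 7) (nat_lit 0x2000000018001800048002c0010001c00000000000000) (nat_lit 0x0) (nat_lit 0x6000700610001400020005000000000000000000) := T_36 (nat_lit 141) (nat_lit 142) (nat_lit 2) (nat_lit 5) (nat_lit 8) L98405 (by decide +kernel)
theorem L98407 : W_36 (nat_lit 8) (nat_lit 0x2000000018000800048002c0010001c00000000000000) (nat_lit 0x0) (nat_lit 0x6000700710009400020005000000000000000000) := T_36 (nat_lit 128) (nat_lit 111) (nat_lit 7) (nat_lit 8) (nat_lit 3) L98406 (by decide +kernel)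
theorem L98408 : W_36 (nat_lit 9) (nat_lit 0x2000000018000800048002c0010001800000000000000) (nat_lit 0x0) (nat_lit 0x6000700710009400020005000400020000000000) := T_36 (nat_lit 58) (nat_lit 41) (nat_lit 4) (nat_lit 8) (nat_lit 6) L98407 (by decide +kernel)
theorem L98409 : W_36 (nat_lit 10) (nat_lit 0x2000000018000800048002c0010001000000000000000) (nat_lit 0x0) (nat_lit 0x6000700710009400020005000c000a0000000000) := T_36 (nat_lit 59) (nat_lit 43) (nat_lit 6) (nat_lit 8) (nat_lit 6) L98408 (by decide +kernel)
theorem L98410 : W_36 (nat_lit 11) (nat_lit 0x2000000018000800048002c0010000000000000000000) (nat_lit 0x0) (nat_lit 0x6000700710009400020025001c000a0000000000) := T_36 (nat_lit 60) (nat_lit 77) (nat_lit 6) (nat_lit 8) (nat_lit 7) L98409 (by decide +kernel)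
theorem L98411 : W_36 (nat_lit 12) (nat_lit 0x2000000010000800048002c0010000000000000000000) (nat_lit 0x0) (nat_lit 0x16000f00710009400020025001c000a0000000000) := T_36 (nat_lit 143) (nat_lit 160) (nat_lit 5) (nat_lit 8) (nat_lit 5) L98410 (by decide +kernel)
theorem L98412 : W_36 (nat_lit 13) (nat_lit 0x200000001000080004800240010000000000000000000) (nat_lit 0x0) (nat_lit 0x16000f007100094001a0025001c000a0000000000) := Q_36 (nat_lit 91) (C_36 L98176 (C_36 L98156 (C_36 L98411 (C_36 L98154 N_36)))) (by decide +kernel)
theorem L98413 : W_36 (nat_lit 2) (nat_lit 0x20000000180008000c8002c00100009000f8000000000) (nat_lit 0x0) (nat_lit 0xe00000) := D_36 (nat_lit 22) (nat_lit 21) (nat_lit 23) (nat_lit 0) (nat_lit 8) (nat_lit 2) (nat_lit 0) (nat_lit 9) (nat_lit 2) (by decide +kernel)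
theorem L98414 : W_36 (nat_lit 3) (nat_lit 0x20000000180008000c8002c00100009000f0000000000) (nat_lit 0x0) (nat_lit 0x80008000e00000) := T_36 (nat_lit 39) (nat_lit 55) (nat_lit 1) (nat_lit 8) (nat_lit 2) L98413 (by decide +kernel)
theorem L98415 : W_36 (nat_lit 4) (nat_lit 0x20000000180008000c8002c00100009000e0000000000) (nat_lit 0x0) (nat_lit 0x280018000e00000) := T_36 (nat_lit 40) (nat_lit 57) (nat_lit 1) (nat_lit 9) (nat_lit 2) L98414 (by decide +kernel)
theorem L98416 : W_36 (nat_lit 5) (nat_lit 0x20000000180008000c8002c0010000900060000000000) (nat_lit 0x0) (nat_lit 0x280098004e00000) := T_36 (nat_lit 43) (nat_lit 26) (nat_lit 6) (nat_lit 8) (nat_lit 5) L98415 (by decide +kernel)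
theorem L98417 : W_36 (nat_lit 6) (nat_lit 0x20000000180008000c800240010000900060000000000) (nat_lit 0x0) (nat_lit 0x180000000280098004e00000) := T_36 (nat_lit 91) (nat_lit 92) (nat_lit 3) (nat_lit 5) (nat_lit 5) L98416 (by decide +kernel)
theorem L98418 : W_36 (nat_lit 7) (nat_lit 0x200000001800080004800240010000900060000000000) (nat_lit 0x0) (nat_lit 0x100008000180000000280098004e00000) := T_36 (nat_lit 111) (nat_lit 128) (nat_lit 7) (nat_lit 8) (nat_lit 3) L98417 (by decide +kernel)
theorem L98419 : W_36 (nat_lit 8) (nat_lit 0x200000001800080004800240010000900020000000000) (nat_lit 0x0) (nat_lit 0x1000080001800000002800d8005e00000) := T_36 (nat_lit 42) (nat_lit 24) (nat_lit 4) (nat_lit 8) (nat_lit 5) L98418 (by decide +kernel)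
theorem L98420 : W_36 (nat_lit 9) (nat_lit 0x200000001000080004800240010000900020000000000) (nat_lit 0x0) (nat_lit 0x100008001000080001800000002800d8005e00000) := T_36 (nat_lit 143) (nat_lit 160) (nat_lit 5) (nat_lit 8) (nat_lit 5) L98419 (by decide +kernel)
theorem L98421 : W_36 (nat_lit 10) (nat_lit 0x200000001000080004800240010000900000000000000) (nat_lit 0x0) (nat_lit 0x100008001000080001800000006800f8005e00000) := T_36 (nat_lit 41) (nat_lit 58) (nat_lit 4) (nat_lit 8) (nat_lit 6) L98420 (by decide +kernel)
theorem L98422 : W_36 (nat_lit 2) (nat_lit 0x200000001800080005c00240012000300008000000000) (nat_lit 0x0) (nat_lit 0x80004000200000) := D_36 (nat_lit 38) (nat_lit 21) (nat_lit 55) (nat_lit 4) (nat_lit 5) (nat_lit 5) (nat_lit 4) (nat_lit 5) (nat_lit 6) (by decide +kernel)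
theorem L98423 : W_36 (nat_lit 3) (nat_lit 0x200000001800080005c00240012000300000000000000) (nat_lit 0x0) (nat_lit 0x2000000008000c000200000) := T_36 (nat_lit 39) (nat_lit 89) (nat_lit 5) (nat_lit 5) (nat_lit 2) L98422 (by decide +kernel)
theorem L98424 : W_36 (nat_lit 4) (nat_lit 0x200000001800080005800240012000300000000000000) (nat_lit 0x0) (nat_lit 0x800040002000000008000c000200000) := T_36 (nat_lit 106) (nat_lit 123) (nat_lit 5) (nat_lit 5) (nat_lit 3) L98423 (by decide +kernel)
theorem L98425 : W_36 (nat_lit 5) (nat_lit 0x200000001800080005800240012000100000000000000) (nat_lit 0x0) (nat_lit 0x800040002000000028001c000200000) := T_36 (nat_lit 57) (nat_lit 40) (nat_lit 6) (nat_lit 5) (nat_lit 6) L98424 (by decide +kernel)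
theorem L98426 : W_36 (nat_lit 6) (nat_lit 0x200000001800080004800240012000100000000000000) (nat_lit 0x0) (nat_lit 0x2800140002000000028001c000200000) := T_36 (nat_lit 108) (nat_lit 125) (nat_lit 7) (nat_lit 5) (nat_lit 3) L98425 (by decide +kernel)
theorem L98427 : W_36 (nat_lit 7) (nat_lit 0x200000001000080004800240012000100000000000000) (nat_lit 0x0) (nat_lit 0x1000080002800140002000000028001c000200000) := T_36 (nat_lit 143) (nat_lit 160) (nat_lit 5) (nat_lit 8) (nat_lit 5) L98426 (by decide +kernel)
theorem L98428 : W_36 (nat_lit 2) (nat_lit 0x200000001000080005800240012000180008000000000) (nat_lit 0x0) (nat_lit 0x200010000800000) := D_36 (nat_lit 40) (nat_lit 23) (nat_lit 57) (nat_lit 6) (nat_lit 5) (nat_lit 5) (nat_lit 6) (nat_lit 5) (nat_lit 6) (by decide +kernel)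
theorem L98429 : W_36 (nat_lit 3) (nat_lit 0x200000001000080005800240012000180000000000000) (nat_lit 0x0) (nat_lit 0x80000000200018000800000) := T_36 (nat_lit 39) (nat_lit 91) (nat_lit 7) (nat_lit 5) (nat_lit 2) L98428 (by decide +kernel)
theorem L98430 : W_36 (nat_lit 4) (nat_lit 0x200000001000080004800240012000180000000000000) (nat_lit 0x0) (nat_lit 0x20001000080000000200018000800000) := T_36 (nat_lit 108) (nat_lit 125) (nat_lit 7) (nat_lit 5) (nat_lit 3) L98429 (by decide +kernel)
theorem L98431 : W_36 (nat_lit 5) (nat_lit 0x200000001000080004800240012000100000000000000) (nat_lit 0x0) (nat_lit 0x2000100008000000028001c000800000) := T_36 (nat_lit 55) (nat_lit 38) (nat_lit 4) (nat_lit 5) (nat_lit 6) L98430 (by decide +kernel)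
theorem L98432 : W_36 (nat_lit 2) (nat_lit 0x200000001800080004c002c0013000380008000c00000) (nat_lit 0x0) (nat_lit 0xc00400000000000000) := D_36 (nat_lit 71) (nat_lit 70) (nat_lit 58) (nat_lit 3) (nat_lit 2) (nat_lit 4) (nat_lit 1) (nat_lit 7) (nat_lit 3) (by decide +kernel)
theorem L98433 : W_36 (nat_lit 3) (nat_lit 0x200000001800080004c002c0012000380008000c00000) (nat_lit 0x0) (nat_lit 0x1c00400000000000020) := T_36 (nat_lit 72) (nat_lit 5) (nat_lit 5) (nat_lit 5) (nat_lit 0) L98432 (by decide +kernel)
theorem L98434 : W_36 (nat_lit 4) (nat_lit 0x200000001800080004c002c0012000380008000400000) (nat_lit 0x0) (nat_lit 0x1c00400000000800060) := T_36 (nat_lit 23) (nat_lit 6) (nat_lit 6) (nat_lit 5) (nat_lit 4) L98433 (by decide +kernel)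
theorem L98435 : W_36 (nat_lit 5) (nat_lit 0x200000001800080004c002c0012000380008000000000) (nat_lit 0x0) (nat_lit 0x5c00400000000c00060) := T_36 (nat_lit 22) (nat_lit 74) (nat_lit 7) (nat_lit 5) (nat_lit 1) L98434 (by decide +kernel)
theorem L98436 : W_36 (nat_lit 6) (nat_lit 0x200000001800080004c00240012000380008000000000) (nat_lit 0x0) (nat_lit 0x180005c00400000000c00060) := T_36 (nat_lit 91) (nat_lit 92) (nat_lit 1) (nat_lit 8) (nat_lit 5) L98435 (by decide +kernel)
theorem L98437 : W_36 (nat_lit 7) (nat_lit 0x200000001800080004c00240012000380000000000000) (nat_lit 0x0) (nat_lit 0x1a0005c00400008000c00060) := T_36 (nat_lit 39) (nat_lit 89) (nat_lit 5) (nat_lit 5) (nat_lit 2) L98436 (by decide +kernel)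
theorem L98438 : W_36 (nat_lit 8) (nat_lit 0x200000001800080004800240012000380000000000000) (nat_lit 0x0) (nat_lit 0x80004001a0005c00400008000c00060) := T_36 (nat_lit 106) (nat_lit 123) (nat_lit 5) (nat_lit 5) (nat_lit 3) L98437 (by decide +kernel)
theorem L98439 : W_36 (nat_lit 9) (nat_lit 0x200000001000080004800240012000380000000000000) (nat_lit 0x0) (nat_lit 0x100008000080004001a0005c00400008000c00060) := T_36 (nat_lit 143) (nat_lit 160) (nat_lit 5) (nat_lit 8) (nat_lit 5) L98438 (by decide +kernel)
theorem L98440 : W_36 (nat_lit 10) (nat_lit 0x200000001000080004800240012000300000000000000) (nat_lit 0x0) (nat_lit 0x100008000080004001a0005c0048000c000c00060) := T_36 (nat_lit 55) (nat_lit 38) (nat_lit 4) (nat_lit 5) (nat_lit 6) L98439 (by decide +kernel)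
theorem L98441 : W_36 (nat_lit 11) (nat_lit 0x200000001000080004800240012000100000000000000) (nat_lit 0x0) (nat_lit 0x100008000080004001a0005c0068001c000c00060) := T_36 (nat_lit 57) (nat_lit 40) (nat_lit 6) (nat_lit 5) (nat_lit 6) L98440 (by decide +kernel)
theorem L98442 : W_36 (nat_lit 2) (nat_lit 0x200000001000080004c00240012000100008000000000) (nat_lit 0x0) (nat_lit 0x80004000200000) := D_36 (nat_lit 38) (nat_lit 21) (nat_lit 55) (nat_lit 4) (nat_lit 5) (nat_lit 5) (nat_lit 4) (nat_lit 5) (nat_lit 6) (by decide +kernel)
theorem L98443 : W_36 (nat_lit 3) (nat_lit 0x200000001000080004c00240012000100000000000000) (nat_lit 0x0) (nat_lit 0x2000000008000c000200000) := T_36 (nat_lit 39) (nat_lit 89) (nat_lit 5) (nat_lit 5) (nat_lit 2) L98442 (by decide +kernel)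
theorem L98444 : W_36 (nat_lit 4) (nat_lit 0x200000001000080004800240012000100000000000000) (nat_lit 0x0) (nat_lit 0x800040002000000008000c000200000) := T_36 (nat_lit 106) (nat_lit 123) (nat_lit 5) (nat_lit 5) (nat_lit 3) L98443 (by decide +kernel)
theorem L98445 : W_36 (nat_lit 2) (nat_lit 0x200000001000080005800240012000100008000000000) (nat_lit 0x0) (nat_lit 0x200010000800000) := D_36 (nat_lit 40) (nat_lit 23) (nat_lit 57) (nat_lit 6) (nat_lit 5) (nat_lit 5) (nat_lit 6) (nat_lit 5) (nat_lit 6) (by decide +kernel)
theorem L98446 : W_36 (nat_lit 3) (nat_lit 0x200000001000080005800240012000100000000000000) (nat_lit 0x0) (nat_lit 0x80000000200018000800000) := T_36 (nat_lit 39) (nat_lit 91) (nat_lit 7) (nat_lit 5) (nat_lit 2) L98445 (by decide +kernel)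
theorem L98447 : W_36 (nat_lit 4) (nat_lit 0x200000001000080004800240012000100000000000000) (nat_lit 0x0) (nat_lit 0x20001000080000000200018000800000) := T_36 (nat_lit 108) (nat_lit 125) (nat_lit 7) (nat_lit 5) (nat_lit 3) L98446 (by decide +kernel)
theorem L98448 : W_36 (nat_lit 2) (nat_lit 0x200000001800084005e002d0012000380000000000000) (nat_lit 0x0) (nat_lit 0x20001800000000000000000) := D_36 (nat_lit 72) (nat_lit 89) (nat_lit 71) (nat_lit 5) (nat_lit 4) (nat_lit 3) (nat_lit 6) (nat_lit 3) (nat_lit 7) (by decide +kernel)
theorem L98449 : W_36 (nat_lit 3) (nat_lit 0x200000001800084005e002c0012000380000000000000) (nat_lit 0x0) (nat_lit 0x38001800000000000000000) := T_36 (nat_lit 88) (nat_lit 87) (nat_lit 0) (nat_lit 6) (nat_lit 6) L98448 (by decide +kernel)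
theorem L98450 : W_36 (nat_lit 4) (nat_lit 0x200000001800080005e002c0012000380000000000000) (nat_lit 0x0) (nat_lit 0x6000000038001800000000000000000) := T_36 (nat_lit 122) (nat_lit 121) (nat_lit 1) (nat_lit 6) (nat_lit 6) L98449 (by decide +kernel)
theorem L98451 : W_36 (nat_lit 5) (nat_lit 0x200000001800080004e002c0012000380000000000000) (nat_lit 0x0) (nat_lit 0x26001000038001800000000000000000) := T_36 (nat_lit 108) (nat_lit 125) (nat_lit 7) (nat_lit 5) (nat_lit 3) L98450 (by decide +kernel)
theorem L98452 : W_36 (nat_lit 6) (nat_lit 0x200000001000080004e002c0012000380000000000000) (nat_lit 0x0) (nat_lit 0x10000800026001000038001800000000000000000) := T_36 (nat_lit 143) (nat_lit 160) (nat_lit 5) (nat_lit 8) (nat_lit 5) L98451 (by decide +kernel)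
theorem L98453 : W_36 (nat_lit 7) (nat_lit 0x200000001000080004e002c0012000300000000000000) (nat_lit 0x0) (nat_lit 0x10000800026001000038001800080004000000000) := T_36 (nat_lit 55) (nat_lit 38) (nat_lit 4) (nat_lit 5) (nat_lit 6) L98452 (by decide +kernel)
theorem L98454 : W_36 (nat_lit 8) (nat_lit 0x200000001000080004c002c0012000300000000000000) (nat_lit 0x0) (nat_lit 0x10000800026001300038001800080004000000000) := T_36 (nat_lit 105) (nat_lit 104) (nat_lit 2) (nat_lit 2) (nat_lit 6) L98453 (by decide +kernel)
theorem L98455 : W_36 (nat_lit 9) (nat_lit 0x200000001000080004c002c0012000100000000000000) (nat_lit 0x0) (nat_lit 0x10000800026001300038001800280014000000000) := T_36 (nat_lit 57) (nat_lit 40) (nat_lit 6) (nat_lit 5) (nat_lit 6) L98454 (by decide +kernel)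
theorem L98456 : W_36 (nat_lit 10) (nat_lit 0x200000001000080004c00240012000100000000000000) (nat_lit 0x0) (nat_lit 0x100008000260013001b8001800280014000000000) := T_36 (nat_lit 91) (nat_lit 92) (nat_lit 1) (nat_lit 8) (nat_lit 5) L98455 (by decide +kernel)
theorem L98457 : W_36 (nat_lit 11) (nat_lit 0x200000001000080004800240012000100000000000000) (nat_lit 0x0) (nat_lit 0x1000080002e0017001b8001800280014000000000) := T_36 (nat_lit 106) (nat_lit 123) (nat_lit 5) (nat_lit 5) (nat_lit 3) L98456 (by decide +kernel)
theorem L98458 : W_36 (nat_lit 12) (nat_lit 0x200000001000080004800240010000100000000000000) (nat_lit 0x0) (nat_lit 0x1000080002e0017001b8007c0068001c000e00060) := Q_36 (nat_lit 73) (C_36 L98427 (C_36 L98431 (C_36 L98441 (C_36 L98444 (C_36 L98447 (C_36 L98457 N_36)))))) (by decide +kernel)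
theorem L98459 : W_36 (nat_lit 2) (nat_lit 0x20000000100008000c8002c0012001900068000000000) (nat_lit 0x0) (nat_lit 0x80004000200000) := D_36 (nat_lit 38) (nat_lit 21) (nat_lit 55) (nat_lit 4) (nat_lit 5) (nat_lit 5) (nat_lit 4) (nat_lit 5) (nat_lit 6) (by decide +kernel)
theorem L98460 : W_36 (nat_lit 3) (nat_lit 0x20000000100008000c8002c0010001900068000000000) (nat_lit 0x0) (nat_lit 0x1000000002000080004000200000) := T_36 (nat_lit 73) (nat_lit 108) (nat_lit 7) (nat_lit 5) (nat_lit 2) L98459 (by decide +kernel)
theorem L98461 : W_36 (nat_lit 4) (nat_lit 0x20000000100008000c8002c0010001900060000000000) (nat_lit 0x0) (nat_lit 0x100000000200008001c000200000) := T_36 (nat_lit 39) (nat_lit 40) (nat_lit 3) (nat_lit 5) (nat_lit 2) L98460 (by decide +kernel)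
theorem L98462 : W_36 (nat_lit 5) (nat_lit 0x20000000100008000c8002c0010001900020000000000) (nat_lit 0x0) (nat_lit 0x100000000200008005c001200000) := T_36 (nat_lit 42) (nat_lit 24) (nat_lit 4) (nat_lit 8) (nat_lit 5) L98461 (by decide +kernel)
theorem L98463 : W_36 (nat_lit 6) (nat_lit 0x20000000100008000c800240010001900020000000000) (nat_lit 0x0) (nat_lit 0x100018000200008005c001200000) := T_36 (nat_lit 91) (nat_lit 92) (nat_lit 3) (nat_lit 5) (nat_lit 5) L98462 (by decide +kernel)
theorem L98464 : W_36 (nat_lit 7) (nat_lit 0x200000001000080004800240010001900020000000000) (nat_lit 0x0) (nat_lit 0x10000900018000200008005c001200000) := T_36 (nat_lit 111) (nat_lit 128) (nat_lit 7) (nat_lit 8) (nat_lit 3) L98463 (by decide +kernel)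
theorem L98465 : W_36 (nat_lit 8) (nat_lit 0x200000001000080004800240010001900000000000000) (nat_lit 0x0) (nat_lit 0x10000900018000200048007c001200000) := T_36 (nat_lit 41) (nat_lit 58) (nat_lit 4) (nat_lit 8) (nat_lit 6) L98464 (by decide +kernel)
theorem L98466 : W_36 (nat_lit 9) (nat_lit 0x200000001000080004800240010001100000000000000) (nat_lit 0x0) (nat_lit 0x100009000180002000c800fc001200000) := T_36 (nat_lit 59) (nat_lit 43) (nat_lit 6) (nat_lit 8) (nat_lit 6) L98465 (by decide +kernel)
theorem L98467 : W_36 (nat_lit 10) (nat_lit 0x200000001000080004800240010000100000000000000) (nat_lit 0x0) (nat_lit 0x100009000180022001c800fc001200000) := T_36 (nat_lit 60) (nat_lit 77) (nat_lit 6) (nat_lit 8) (nat_lit 7) L98466 (by decide +kernel)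
theorem L98468 : W_36 (nat_lit 2) (nat_lit 0x200000001000080005c00240036800780020000000000) (nat_lit 0x0) (nat_lit 0x400060000000000000) := D_36 (nat_lit 54) (nat_lit 70) (nat_lit 53) (nat_lit 1) (nat_lit 6) (nat_lit 3) (nat_lit 3) (nat_lit 2) (nat_lit 3) (by decide +kernel)
theorem L98469 : W_36 (nat_lit 3) (nat_lit 0x200000001000080005c00240032800780020000000000) (nat_lit 0x0) (nat_lit 0x80004400060000000000000) := T_36 (nat_lit 74) (nat_lit 91) (nat_lit 6) (nat_lit 6) (nat_lit 6) L98468 (by decide +kernel)
theorem L98470 : W_36 (nat_lit 4) (nat_lit 0x200000001000080005c00240032000780020000000000) (nat_lit 0x0) (nat_lit 0x80005c00060000000000000) := T_36 (nat_lit 71) (nat_lit 72) (nat_lit 1) (nat_lit 7) (nat_lit 3) L98469 (by decide +kernel)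
theorem L98471 : W_36 (nat_lit 5) (nat_lit 0x200000001000080005c00240032000780000000000000) (nat_lit 0x0) (nat_lit 0x80005c00060060000000000) := T_36 (nat_lit 41) (nat_lit 42) (nat_lit 2) (nat_lit 4) (nat_lit 3) L98470 (by decide +kernel)
theorem L98472 : W_36 (nat_lit 6) (nat_lit 0x200000001000080005c00240032000700000000000000) (nat_lit 0x0) (nat_lit 0x80005c000e0064000000000) := T_36 (nat_lit 55) (nat_lit 38) (nat_lit 4) (nat_lit 5) (nat_lit 6) L98471 (by decide +kernel)
theorem L98473 : W_36 (nat_lit 7) (nat_lit 0x200000001000080005800240032000700000000000000) (nat_lit 0x0) (nat_lit 0x8000400080005c000e0064000000000) := T_36 (nat_lit 106) (nat_lit 123) (nat_lit 5) (nat_lit 5) (nat_lit 3) L98472 (by decide +kernel)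
theorem L98474 : W_36 (nat_lit 8) (nat_lit 0x200000001000080005800240032000300000000000000) (nat_lit 0x0) (nat_lit 0x8000400080005c00ce0064000000000) := T_36 (nat_lit 58) (nat_lit 59) (nat_lit 3) (nat_lit 5) (nat_lit 3) L98473 (by decide +kernel)
theorem L98475 : W_36 (nat_lit 9) (nat_lit 0x200000001000080005800240032000100000000000000) (nat_lit 0x0) (nat_lit 0x8000400080005c00ee0074000000000) := T_36 (nat_lit 57) (nat_lit 40) (nat_lit 6) (nat_lit 5) (nat_lit 6) L98474 (by decide +kernel)
theorem L98476 : W_36 (nat_lit 10) (nat_lit 0x200000001000080005800240012000100000000000000) (nat_lit 0x0) (nat_lit 0x8000400080025c01ee0074000000000) := T_36 (nat_lit 77) (nat_lit 60) (nat_lit 6) (nat_lit 8) (nat_lit 7) L98475 (by decide +kernel)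
theorem L98477 : W_36 (nat_lit 11) (nat_lit 0x200000001000080004800240012000100000000000000) (nat_lit 0x0) (nat_lit 0x28001400080025c01ee0074000000000) := T_36 (nat_lit 108) (nat_lit 125) (nat_lit 7) (nat_lit 5) (nat_lit 3) L98476 (by decide +kernel)
theorem L98478 : W_36 (nat_lit 12) (nat_lit 0x200000001000080004800240010000100000000000000) (nat_lit 0x0) (nat_lit 0x280014000a0027c01ee007c000a00000) := Q_36 (nat_lit 73) (C_36 L98447 (C_36 L98444 (C_36 L98477 N_36))) (by decide +kernel)
theorem L98479 : W_36 (nat_lit 2) (nat_lit 0x20000000180008000c8002c0010001900070000000000) (nat_lit 0x0) (nat_lit 0x6000200000000000000) := D_36 (nat_lit 57) (nat_lit 73) (nat_lit 74) (nat_lit 6) (nat_lit 5) (nat_lit 6) (nat_lit 5) (nat_lit 6) (nat_lit 2) (by decide +kernel)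
theorem L98480 : W_36 (nat_lit 3) (nat_lit 0x20000000180008000c8002c0010001900060000000000) (nat_lit 0x0) (nat_lit 0x6000200018000000000) := T_36 (nat_lit 40) (nat_lit 39) (nat_lit 3) (nat_lit 5) (nat_lit 2) L98479 (by decide +kernel)
theorem L98481 : W_36 (nat_lit 4) (nat_lit 0x20000000180008000c8002c0010001900020000000000) (nat_lit 0x0) (nat_lit 0x6000200058001000000) := T_36 (nat_lit 42) (nat_lit 24) (nat_lit 4) (nat_lit 8) (nat_lit 5) L98480 (by decide +kernel)
theorem L98482 : W_36 (nat_lit 5) (nat_lit 0x20000000180008000c800240010001900020000000000) (nat_lit 0x0) (nat_lit 0x180006000200058001000000) := T_36 (nat_lit 91) (nat_lit 92) (nat_lit 3) (nat_lit 5) (nat_lit 5) L98481 (by decide +kernel)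
theorem L98483 : W_36 (nat_lit 6) (nat_lit 0x200000001800080004800240010001900020000000000) (nat_lit 0x0) (nat_lit 0x100008000180006000200058001000000) := T_36 (nat_lit 111) (nat_lit 128) (nat_lit 7) (nat_lit 8) (nat_lit 3) L98482 (by decide +kernel)
theorem L98484 : W_36 (nat_lit 7) (nat_lit 0x200000001800080004800240010001900000000000000) (nat_lit 0x0) (nat_lit 0x100008000180006000600078001000000) := T_36 (nat_lit 41) (nat_lit 58) (nat_lit 4) (nat_lit 8) (nat_lit 6) L98483 (by decide +kernel)
theorem L98485 : W_36 (nat_lit 8) (nat_lit 0x200000001800080004800240010001100000000000000) (nat_lit 0x0) (nat_lit 0x100008000180006000e000f8001000000) := T_36 (nat_lit 59) (nat_lit 43) (nat_lit 6) (nat_lit 8) (nat_lit 6) L98484 (by decide +kernel)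
theorem L98486 : W_36 (nat_lit 9) (nat_lit 0x200000001800080004800240010000100000000000000) (nat_lit 0x0) (nat_lit 0x100008000180026001e000f8001000000) := T_36 (nat_lit 60) (nat_lit 77) (nat_lit 6) (nat_lit 8) (nat_lit 7) L98485 (by decide +kernel)
theorem L98487 : W_36 (nat_lit 10) (nat_lit 0x200000001000080004800240010000100000000000000) (nat_lit 0x0) (nat_lit 0x10000800100008000180026001e000f8001000000) := T_36 (nat_lit 143) (nat_lit 160) (nat_lit 5) (nat_lit 8) (nat_lit 5) L98486 (by decide +kernel)
theorem L98488 : W_36 (nat_lit 2) (nat_lit 0x2000000010000800058002400328007c0021000000000) (nat_lit 0x0) (nat_lit 0x4000020000800000000) := D_36 (nat_lit 53) (nat_lit 74) (nat_lit 35) (nat_lit 3) (nat_lit 2) (nat_lit 3) (nat_lit 0) (nat_lit 5) (nat_lit 3) (by decide +kernel)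
theorem L98489 : W_36 (nat_lit 3) (nat_lit 0x2000000010000800058002400328007c0020000000000) (nat_lit 0x0) (nat_lit 0x4000020003800000000) := T_36 (nat_lit 36) (nat_lit 37) (nat_lit 0) (nat_lit 6) (nat_lit 3) L98488 (by decide +kernel)
theorem L98490 : W_36 (nat_lit 4) (nat_lit 0x200000001000080005800240032800780020000000000) (nat_lit 0x0) (nat_lit 0x4400060003800000000) := T_36 (nat_lit 54) (nat_lit 70) (nat_lit 1) (nat_lit 6) (nat_lit 3) L98489 (by decide +kernel)
theorem L98491 : W_36 (nat_lit 5) (nat_lit 0x200000001000080005800240032000780020000000000) (nat_lit 0x0) (nat_lit 0x5c00060003800000000) := T_36 (nat_lit 71) (nat_lit 72) (nat_lit 1) (nat_lit 7) (nat_lit 3) L98490 (by decide +kernel)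
theorem L98492 : W_36 (nat_lit 6) (nat_lit 0x200000001000080005800240032000780000000000000) (nat_lit 0x0) (nat_lit 0x5c00060063800000000) := T_36 (nat_lit 41) (nat_lit 42) (nat_lit 2) (nat_lit 4) (nat_lit 3) L98491 (by decide +kernel)
theorem L98493 : W_36 (nat_lit 7) (nat_lit 0x200000001000080005800240032000700000000000000) (nat_lit 0x0) (nat_lit 0x5c000e0067800000000) := T_36 (nat_lit 55) (nat_lit 38) (nat_lit 4) (nat_lit 5) (nat_lit 6) L98492 (by decide +kernel)
theorem L98494 : W_36 (nat_lit 8) (nat_lit 0x200000001000080005800240032000300000000000000) (nat_lit 0x0) (nat_lit 0x5c00ce0067800000000) := T_36 (nat_lit 58) (nat_lit 59) (nat_lit 3) (nat_lit 5) (nat_lit 3) L98493 (by decide +kernel)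
theorem L98495 : W_36 (nat_lit 9) (nat_lit 0x200000001000080005800240012000300000000000000) (nat_lit 0x0) (nat_lit 0x25c01ce0067800000000) := T_36 (nat_lit 77) (nat_lit 60) (nat_lit 6) (nat_lit 8) (nat_lit 7) L98494 (by decide +kernel)
theorem L98496 : W_36 (nat_lit 10) (nat_lit 0x200000001000080005800240012000100000000000000) (nat_lit 0x0) (nat_lit 0x25c01ee0077800000000) := T_36 (nat_lit 57) (nat_lit 40) (nat_lit 6) (nat_lit 5) (nat_lit 6) L98495 (by decide +kernel)
theorem L98497 : W_36 (nat_lit 11) (nat_lit 0x200000001000080004800240012000100000000000000) (nat_lit 0x0) (nat_lit 0x20001000000025c01ee0077800000000) := T_36 (nat_lit 108) (nat_lit 125) (nat_lit 7) (nat_lit 5) (nat_lit 3) L98496 (by decide +kernel)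
theorem L98498 : W_36 (nat_lit 2) (nat_lit 0x200000001800080005c0024001200130000c000000000) (nat_lit 0x0) (nat_lit 0xc00080000000000) := D_36 (nat_lit 59) (nat_lit 43) (nat_lit 58) (nat_lit 6) (nat_lit 8) (nat_lit 6) (nat_lit 0) (nat_lit 8) (nat_lit 3) (by decide +kernel)
theorem L98499 : W_36 (nat_lit 3) (nat_lit 0x200000001800080005c00240012001300008000000000) (nat_lit 0x0) (nat_lit 0xc00084000200000) := T_36 (nat_lit 38) (nat_lit 21) (nat_lit 4) (nat_lit 5) (nat_lit 5) L98498 (by decide +kernel)
theorem L98500 : W_36 (nat_lit 4) (nat_lit 0x200000001800080005c00240012001300000000000000) (nat_lit 0x0) (nat_lit 0x20000000c0008c000200000) := T_36 (nat_lit 39) (nat_lit 89) (nat_lit 5) (nat_lit 5) (nat_lit 2) L98499 (by decide +kernel)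
theorem L98501 : W_36 (nat_lit 5) (nat_lit 0x200000001800080005800240012001300000000000000) (nat_lit 0x0) (nat_lit 0x8000400020000000c0008c000200000) := T_36 (nat_lit 106) (nat_lit 123) (nat_lit 5) (nat_lit 5) (nat_lit 3) L98500 (by decide +kernel)
theorem L98502 : W_36 (nat_lit 6) (nat_lit 0x200000001800080005800240012000300000000000000) (nat_lit 0x0) (nat_lit 0x8000400020020001c0008c000200000) := T_36 (nat_lit 60) (nat_lit 77) (nat_lit 6) (nat_lit 8) (nat_lit 7) L98501 (by decide +kernel)
theorem L98503 : W_36 (nat_lit 7) (nat_lit 0x200000001800080005800240012000100000000000000) (nat_lit 0x0) (nat_lit 0x8000400020020001e0009c000200000) := T_36 (nat_lit 57) (nat_lit 40) (nat_lit 6) (nat_lit 5) (nat_lit 6) L98502 (by decide +kernel)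
theorem L98504 : W_36 (nat_lit 8) (nat_lit 0x200000001800080004800240012000100000000000000) (nat_lit 0x0) (nat_lit 0x28001400020020001e0009c000200000) := T_36 (nat_lit 108) (nat_lit 125) (nat_lit 7) (nat_lit 5) (nat_lit 3) L98503 (by decide +kernel)
theorem L98505 : W_36 (nat_lit 9) (nat_lit 0x200000001000080004800240012000100000000000000) (nat_lit 0x0) (nat_lit 0x10000800028001400020020001e0009c000200000) := T_36 (nat_lit 143) (nat_lit 160) (nat_lit 5) (nat_lit 8) (nat_lit 5) L98504 (by decide +kernel)
theorem L98506 : W_36 (nat_lit 2) (nat_lit 0x200000001000080004c00240012000100008000000000) (nat_lit 0x0) (nat_lit 0x200010000800000) := D_36 (nat_lit 40) (nat_lit 57) (nat_lit 23) (nat_lit 6) (nat_lit 5) (nat_lit 6) (nat_lit 6) (nat_lit 5) (nat_lit 5) (by decide +kernel)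
theorem L98507 : W_36 (nat_lit 3) (nat_lit 0x200000001000080004c00240012000100000000000000) (nat_lit 0x0) (nat_lit 0x20000000200018000800000) := T_36 (nat_lit 39) (nat_lit 89) (nat_lit 5) (nat_lit 5) (nat_lit 2) L98506 (by decide +kernel)
theorem L98508 : W_36 (nat_lit 4) (nat_lit 0x200000001000080004800240012000100000000000000) (nat_lit 0x0) (nat_lit 0x8000400020000000200018000800000) := T_36 (nat_lit 106) (nat_lit 123) (nat_lit 5) (nat_lit 5) (nat_lit 3) L98507 (by decide +kernel)
theorem L98509 : W_36 (nat_lit 12) (nat_lit 0x200000001000080004800240010000100000000000000) (nat_lit 0x0) (nat_lit 0x10000800028001400020027c01ee00ff800a00000) := Q_36 (nat_lit 73) (C_36 L98444 (C_36 L98497 (C_36 L98505 (C_36 L98508 N_36)))) (by decide +kernel)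
theorem L98510 : W_36 (nat_lit 12) (nat_lit 0x200000001000080004800240010000100000000000000) (nat_lit 0x0) (nat_lit 0x1000080002e0017001b800380028001c000a00000) := Q_36 (nat_lit 73) (C_36 L98508 (C_36 L98447 (C_36 L98444 (C_36 L98457 N_36)))) (by decide +kernel)
theorem L98511 : W_36 (nat_lit 2) (nat_lit 0x200000001000080004800240010000900000000000000) (nat_lit 0x0) (nat_lit 0x20001000080000000000) := D_36 (nat_lit 60) (nat_lit 43) (nat_lit 77) (nat_lit 6) (nat_lit 8) (nat_lit 6) (nat_lit 6) (nat_lit 8) (nat_lit 7) (by decide +kernel)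
theorem L98512 : W_36 (nat_lit 2) (nat_lit 0x200000001800080004800240030000900000000000000) (nat_lit 0x0) (nat_lit 0x600020000000000) := D_36 (nat_lit 58) (nat_lit 57) (nat_lit 41) (nat_lit 3) (nat_lit 5) (nat_lit 3) (nat_lit 4) (nat_lit 8) (nat_lit 6) (by decide +kernel)
theorem L98513 : W_36 (nat_lit 3) (nat_lit 0x200000001800080004800240010000900000000000000) (nat_lit 0x0) (nat_lit 0x20001600020000000000) := T_36 (nat_lit 77) (nat_lit 60) (nat_lit 6) (nat_lit 8) (nat_lit 7) L98512 (by decide +kernel)
theorem L98514 : W_36 (nat_lit 4) (nat_lit 0x200000001000080004800240010000900000000000000) (nat_lit 0x0) (nat_lit 0x10000800000000000000020001600020000000000) := T_36 (nat_lit 143) (nat_lit 160) (nat_lit 5) (nat_lit 8) (nat_lit 5) L98513 (by decide +kernel)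
theorem L98515 : W_36 (nat_lit 11) (nat_lit 0x200000001000080004800240010000100000000000000) (nat_lit 0x0) (nat_lit 0x10000800100008000180020001e800f8005e00000) := Q_36 (nat_lit 59) (C_36 L98421 (C_36 L98511 (C_36 L98514 N_36))) (by decide +kernel)
theorem L98516 : W_36 (nat_lit 2) (nat_lit 0x2000000018000800048002c0032000100000000000000) (nat_lit 0x0) (nat_lit 0x20001000000000000000008000000000) := D_36 (nat_lit 108) (nat_lit 39) (nat_lit 125) (nat_lit 7) (nat_lit 5) (nat_lit 2) (nat_lit 7) (nat_lit 5) (nat_lit 3) (by decide +kernel)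
theorem L98517 : W_36 (nat_lit 3) (nat_lit 0x200000001800080004800240032000100000000000000) (nat_lit 0x0) (nat_lit 0x20001000180000000000008000000000) := T_36 (nat_lit 91) (nat_lit 92) (nat_lit 2) (nat_lit 5) (nat_lit 5) L98516 (by decide +kernel)
theorem L98518 : W_36 (nat_lit 4) (nat_lit 0x200000001800080004800240012000100000000000000) (nat_lit 0x0) (nat_lit 0x20001000180020001000008000000000) := T_36 (nat_lit 77) (nat_lit 60) (nat_lit 6) (nat_lit 8) (nat_lit 7) L98517 (by decide +kernel)
theorem L98519 : W_36 (nat_lit 5) (nat_lit 0x200000001000080004800240012000100000000000000) (nat_lit 0x0) (nat_lit 0x10000800020001000180020001000008000000000) := T_36 (nat_lit 143) (nat_lit 160) (nat_lit 5) (nat_lit 8) (nat_lit 5) L98518 (by decide +kernel)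
theorem L98520 : W_36 (nat_lit 2) (nat_lit 0x200000001800080005c00340012001d80000000000000) (nat_lit 0x0) (nat_lit 0x5000200000000000000) := D_36 (nat_lit 57) (nat_lit 74) (nat_lit 72) (nat_lit 1) (nat_lit 9) (nat_lit 3) (nat_lit 1) (nat_lit 8) (nat_lit 3) (by decide +kernel)
theorem L98521 : W_36 (nat_lit 3) (nat_lit 0x200000001800080005c00340012001980000000000000) (nat_lit 0x0) (nat_lit 0x5000600020000000000) := T_36 (nat_lit 58) (nat_lit 41) (nat_lit 4) (nat_lit 8) (nat_lit 6) L98520 (by decide +kernel)
theorem L98522 : W_36 (nat_lit 4) (nat_lit 0x200000001800080005c00340012001180000000000000) (nat_lit 0x0) (nat_lit 0x5000e000a0000000000) := T_36 (nat_lit 59) (nat_lit 43) (nat_lit 6) (nat_lit 8) (nat_lit 6) L98521 (by decide +kernel)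
theorem L98523 : W_36 (nat_lit 5) (nat_lit 0x200000001800080004c00340012001180000000000000) (nat_lit 0x0) (nat_lit 0x20001000000005000e000a0000000000) := T_36 (nat_lit 108) (nat_lit 125) (nat_lit 7) (nat_lit 5) (nat_lit 3) L98522 (by decide +kernel)
theorem L98524 : W_36 (nat_lit 6) (nat_lit 0x200000001800080004c00340012000180000000000000) (nat_lit 0x0) (nat_lit 0x20001000000025001e000a0000000000) := T_36 (nat_lit 60) (nat_lit 77) (nat_lit 6) (nat_lit 8) (nat_lit 7) L98523 (by decide +kernel)
theorem L98525 : W_36 (nat_lit 7) (nat_lit 0x200000001000080004c00340012000180000000000000) (nat_lit 0x0) (nat_lit 0x10000800020001000000025001e000a0000000000) := T_36 (nat_lit 143) (nat_lit 160) (nat_lit 5) (nat_lit 8) (nat_lit 5) L98524 (by decide +kernel)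
theorem L98526 : W_36 (nat_lit 8) (nat_lit 0x200000001000080004c00240012000180000000000000) (nat_lit 0x0) (nat_lit 0x10000800020001000180025001e000a0000000000) := T_36 (nat_lit 92) (nat_lit 91) (nat_lit 1) (nat_lit 8) (nat_lit 5) L98525 (by decide +kernel)
theorem L98527 : W_36 (nat_lit 9) (nat_lit 0x200000001000080004800240012000180000000000000) (nat_lit 0x0) (nat_lit 0x10000800028001400180025001e000a0000000000) := T_36 (nat_lit 106) (nat_lit 123) (nat_lit 5) (nat_lit 5) (nat_lit 3) L98526 (by decide +kernel)
theorem L98528 : W_36 (nat_lit 10) (nat_lit 0x200000001000080004800240012000100000000000000) (nat_lit 0x0) (nat_lit 0x10000800028001400180025001e800a4000000000) := T_36 (nat_lit 55) (nat_lit 38) (nat_lit 4) (nat_lit 5) (nat_lit 6) L98527 (by decide +kernel)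
theorem L98529 : W_36 (nat_lit 11) (nat_lit 0x200000001000080004800240010000100000000000000) (nat_lit 0x0) (nat_lit 0x100008000280014001a0027001e800ac000200000) := Q_36 (nat_lit 73) (C_36 L98444 (C_36 L98519 (C_36 L98528 N_36))) (by decide +kernel)
theorem L98530 : W_36 (nat_lit 2) (nat_lit 0x200000001800080004c00340012001b80000000000000) (nat_lit 0x0) (nat_lit 0x1000400020000000000) := D_36 (nat_lit 58) (nat_lit 41) (nat_lit 72) (nat_lit 4) (nat_lit 8) (nat_lit 6) (nat_lit 1) (nat_lit 8) (nat_lit 3) (by decide +kernel)
theorem L98531 : W_36 (nat_lit 3) (nat_lit 0x200000001800080004c00340012001380000000000000) (nat_lit 0x0) (nat_lit 0x1000c000a0000000000) := T_36 (nat_lit 59) (nat_lit 43) (nat_lit 6) (nat_lit 8) (nat_lit 6) L98530 (by decide +kernel)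
theorem L98532 : W_36 (nat_lit 4) (nat_lit 0x200000001800080004c00340012000380000000000000) (nat_lit 0x0) (nat_lit 0x21001c000a0000000000) := T_36 (nat_lit 60) (nat_lit 77) (nat_lit 6) (nat_lit 8) (nat_lit 7) L98531 (by decide +kernel)
theorem L98533 : W_36 (nat_lit 5) (nat_lit 0x200000001800080004c00340012000300000000000000) (nat_lit 0x0) (nat_lit 0x21001c800a4000000000) := T_36 (nat_lit 55) (nat_lit 38) (nat_lit 4) (nat_lit 5) (nat_lit 6) L98532 (by decide +kernel)
theorem L98534 : W_36 (nat_lit 6) (nat_lit 0x200000001800080004c00240012000300000000000000) (nat_lit 0x0) (nat_lit 0x180021001c800a4000000000) := T_36 (nat_lit 92) (nat_lit 91) (nat_lit 1) (nat_lit 8) (nat_lit 5) L98533 (by decide +kernel)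
theorem L98535 : W_36 (nat_lit 7) (nat_lit 0x200000001800080004800240012000300000000000000) (nat_lit 0x0) (nat_lit 0x8000400180021001c800a4000000000) := T_36 (nat_lit 106) (nat_lit 123) (nat_lit 5) (nat_lit 5) (nat_lit 3) L98534 (by decide +kernel)
theorem L98536 : W_36 (nat_lit 8) (nat_lit 0x200000001800080004800240012000100000000000000) (nat_lit 0x0) (nat_lit 0x8000400180021001e800b4000000000) := T_36 (nat_lit 57) (nat_lit 40) (nat_lit 6) (nat_lit 5) (nat_lit 6) L98535 (by decide +kernel)
theorem L98537 : W_36 (nat_lit 9) (nat_lit 0x200000001000080004800240012000100000000000000) (nat_lit 0x0) (nat_lit 0x10000800008000400180021001e800b4000000000) := T_36 (nat_lit 143) (nat_lit 160) (nat_lit 5) (nat_lit 8) (nat_lit 5) L98536 (by decide +kernel)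
theorem L98538 : W_36 (nat_lit 2) (nat_lit 0x200000001800084005e002d0032000180000000000000) (nat_lit 0x0) (nat_lit 0x20001800000000000000000) := D_36 (nat_lit 72) (nat_lit 89) (nat_lit 71) (nat_lit 5) (nat_lit 4) (nat_lit 3) (nat_lit 6) (nat_lit 3) (nat_lit 7) (by decide +kernel)
theorem L98539 : W_36 (nat_lit 3) (nat_lit 0x200000001800080005e002d0032000180000000000000) (nat_lit 0x0) (nat_lit 0x6000000020001800000000000000000) := T_36 (nat_lit 122) (nat_lit 121) (nat_lit 1) (nat_lit 6) (nat_lit 6) L98538 (by decide +kernel)
theorem L98540 : W_36 (nat_lit 4) (nat_lit 0x200000001800080005e002c0032000180000000000000) (nat_lit 0x0) (nat_lit 0x6000000038001800000000000000000) := T_36 (nat_lit 88) (nat_lit 87) (nat_lit 0) (nat_lit 6) (nat_lit 6) L98539 (by decide +kernel)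
theorem L98541 : W_36 (nat_lit 5) (nat_lit 0x200000001800080005e002c0032000100000000000000) (nat_lit 0x0) (nat_lit 0x6000000038001800080004000000000) := T_36 (nat_lit 55) (nat_lit 38) (nat_lit 4) (nat_lit 5) (nat_lit 6) L98540 (by decide +kernel)
theorem L98542 : W_36 (nat_lit 6) (nat_lit 0x200000001800080005c002c0032000100000000000000) (nat_lit 0x0) (nat_lit 0x6000300038001800080004000000000) := T_36 (nat_lit 105) (nat_lit 104) (nat_lit 2) (nat_lit 2) (nat_lit 6) L98541 (by decide +kernel)
theorem L98543 : W_36 (nat_lit 7) (nat_lit 0x2000000018000800058002c0032000100000000000000) (nat_lit 0x0) (nat_lit 0xe000700038001800080004000000000) := T_36 (nat_lit 106) (nat_lit 123) (nat_lit 5) (nat_lit 5) (nat_lit 3) L98542 (by decide +kernel)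
theorem L98544 : W_36 (nat_lit 8) (nat_lit 0x2000000018000800048002c0032000100000000000000) (nat_lit 0x0) (nat_lit 0x2e001700038001800080004000000000) := T_36 (nat_lit 108) (nat_lit 125) (nat_lit 7) (nat_lit 5) (nat_lit 3) L98543 (by decide +kernel)
theorem L98545 : W_36 (nat_lit 9) (nat_lit 0x2000000010000800048002c0032000100000000000000) (nat_lit 0x0) (nat_lit 0x1000080002e001700038001800080004000000000) := T_36 (nat_lit 143) (nat_lit 160) (nat_lit 5) (nat_lit 8) (nat_lit 5) L98544 (by decide +kernel)
theorem L98546 : W_36 (nat_lit 10) (nat_lit 0x200000001000080004800240032000100000000000000) (nat_lit 0x0) (nat_lit 0x1000080002e0017001b8001800080004000000000) := T_36 (nat_lit 91) (nat_lit 92) (nat_lit 2) (nat_lit 5) (nat_lit 5) L98545 (by decide +kernel)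
theorem L98547 : W_36 (nat_lit 11) (nat_lit 0x200000001000080004800240012000100000000000000) (nat_lit 0x0) (nat_lit 0x1000080002e0017001b8021801080004000000000) := T_36 (nat_lit 77) (nat_lit 60) (nat_lit 6) (nat_lit 8) (nat_lit 7) L98546 (by decide +kernel)
theorem L98548 : W_36 (nat_lit 2) (nat_lit 0x2000000010000800048002c0032000780020000000000) (nat_lit 0x0) (nat_lit 0x20001000000004000000000000000000) := D_36 (nat_lit 108) (nat_lit 74) (nat_lit 125) (nat_lit 6) (nat_lit 6) (nat_lit 6) (nat_lit 7) (nat_lit 5) (nat_lit 3) (by decide +kernel)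
theorem L98549 : W_36 (nat_lit 3) (nat_lit 0x200000001000080004800240032000780020000000000) (nat_lit 0x0) (nat_lit 0x20001000180004000000000000000000) := T_36 (nat_lit 91) (nat_lit 92) (nat_lit 2) (nat_lit 5) (nat_lit 5) L98548 (by decide +kernel)
theorem L98550 : W_36 (nat_lit 4) (nat_lit 0x200000001000080004800240032000780000000000000) (nat_lit 0x0) (nat_lit 0x20001000180004000000060000000000) := T_36 (nat_lit 41) (nat_lit 42) (nat_lit 2) (nat_lit 4) (nat_lit 3) L98549 (by decide +kernel)
theorem L98551 : W_36 (nat_lit 5) (nat_lit 0x200000001000080004800240032000380000000000000) (nat_lit 0x0) (nat_lit 0x20001000180004000c00060000000000) := T_36 (nat_lit 58) (nat_lit 59) (nat_lit 3) (nat_lit 5) (nat_lit 3) L98550 (by decide +kernel)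
theorem L98552 : W_36 (nat_lit 6) (nat_lit 0x200000001000080004800240012000380000000000000) (nat_lit 0x0) (nat_lit 0x20001000180024001c00060000000000) := T_36 (nat_lit 77) (nat_lit 60) (nat_lit 6) (nat_lit 8) (nat_lit 7) L98551 (by decide +kernel)
theorem L98553 : W_36 (nat_lit 7) (nat_lit 0x200000001000080004800240012000180000000000000) (nat_lit 0x0) (nat_lit 0x20001000180024001e00070000000000) := T_36 (nat_lit 57) (nat_lit 40) (nat_lit 6) (nat_lit 5) (nat_lit 6) L98552 (by decide +kernel)
theorem L98554 : W_36 (nat_lit 8) (nat_lit 0x200000001000080004800240012000100000000000000) (nat_lit 0x0) (nat_lit 0x20001000180024001e80074000000000) := T_36 (nat_lit 55) (nat_lit 38) (nat_lit 4) (nat_lit 5) (nat_lit 6) L98553 (by decide +kernel)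
theorem L98555 : W_36 (nat_lit 2) (nat_lit 0x200000001800080005800240012001b00000000000000) (nat_lit 0x0) (nat_lit 0x1000400020000000000) := D_36 (nat_lit 58) (nat_lit 41) (nat_lit 72) (nat_lit 4) (nat_lit 8) (nat_lit 6) (nat_lit 1) (nat_lit 8) (nat_lit 3) (by decide +kernel)
theorem L98556 : W_36 (nat_lit 3) (nat_lit 0x200000001800080005800240012001300000000000000) (nat_lit 0x0) (nat_lit 0x1000c000a0000000000) := T_36 (nat_lit 59) (nat_lit 43) (nat_lit 6) (nat_lit 8) (nat_lit 6) L98555 (by decide +kernel)
theorem L98557 : W_36 (nat_lit 4) (nat_lit 0x200000001800080004800240012001300000000000000) (nat_lit 0x0) (nat_lit 0x20001000000001000c000a0000000000) := T_36 (nat_lit 108) (nat_lit 125) (nat_lit 7) (nat_lit 5) (nat_lit 3) L98556 (by decide +kernel)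
theorem L98558 : W_36 (nat_lit 5) (nat_lit 0x200000001800080004800240012000300000000000000) (nat_lit 0x0) (nat_lit 0x20001000000021001c000a0000000000) := T_36 (nat_lit 60) (nat_lit 77) (nat_lit 6) (nat_lit 8) (nat_lit 7) L98557 (by decide +kernel)
theorem L98559 : W_36 (nat_lit 6) (nat_lit 0x200000001800080004800240012000100000000000000) (nat_lit 0x0) (nat_lit 0x20001000000021001e000b0000000000) := T_36 (nat_lit 57) (nat_lit 40) (nat_lit 6) (nat_lit 5) (nat_lit 6) L98558 (by decide +kernel)
theorem L98560 : W_36 (nat_lit 7) (nat_lit 0x200000001000080004800240012000100000000000000) (nat_lit 0x0) (nat_lit 0x10000800020001000000021001e000b0000000000) := T_36 (nat_lit 143) (nat_lit 160) (nat_lit 5) (nat_lit 8) (nat_lit 5) L98559 (by decide +kernel)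
theorem L98561 : W_36 (nat_lit 12) (nat_lit 0x200000001000080004800240010000100000000000000) (nat_lit 0x0) (nat_lit 0x1000080002e0017001b8027c01ee00f7800000000) := Q_36 (nat_lit 73) (C_36 L98457 (C_36 L98497 (C_36 L98528 (C_36 L98537 (C_36 L98547 (C_36 L98554 (C_36 L98560 N_36))))))) (by decide +kernel)
theorem L98562 : W_36 (nat_lit 13) (nat_lit 0x200000001000080004800240010000000000000000000) (nat_lit 0x0) (nat_lit 0x1000080012e0097001b8027c01fe00ff805e00060) := Q_36 (nat_lit 56) (C_36 L98458 (C_36 L98467 (C_36 L98478 (C_36 L98487 (C_36 L98509 (C_36 L98510 (C_36 L98515 (C_36 L98529 (C_36 L98561 N_36))))))))) (by decide +kernel)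
theorem L98563 : W_36 (nat_lit 2) (nat_lit 0x200002001a005900048002c0010001c00000000000000) (nat_lit 0x0) (nat_lit 0x40004000000000001000000000000000000000000000) := D_36 (nat_lit 158) (nat_lit 108) (nat_lit 174) (nat_lit 6) (nat_lit 5) (nat_lit 9) (nat_lit 5) (nat_lit 5) (nat_lit 6) (by decide +kernel)
theorem L98564 : W_36 (nat_lit 3) (nat_lit 0x200000001a005900048002c0010001c00000000000000) (nat_lit 0x0) (nat_lit 0x40006000100000001000000000000000000000000000) := T_36 (nat_lit 157) (nat_lit 140) (nat_lit 5) (nat_lit 5) (nat_lit 5) L98563 (by decide +kernel)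
theorem L98565 : W_36 (nat_lit 4) (nat_lit 0x200000001a005800048002c0010001c00000000000000) (nat_lit 0x0) (nat_lit 0x40006000100010001000000004000000000000000000) := T_36 (nat_lit 124) (nat_lit 74) (nat_lit 6) (nat_lit 5) (nat_lit 8) L98564 (by decide +kernel)
theorem L98566 : W_36 (nat_lit 5) (nat_lit 0x200000001a001800048002c0010001c00000000000000) (nat_lit 0x0) (nat_lit 0x40006000100610001000000004000000000000000000) := T_36 (nat_lit 130) (nat_lit 129) (nat_lit 1) (nat_lit 11) (nat_lit 7) L98565 (by decide +kernel)
theorem L98567 : W_36 (nat_lit 6) (nat_lit 0x2000000018001800048002c0010001c00000000000000) (nat_lit 0x0) (nat_lit 0x40006000700610001000000004000000000000000000) := T_36 (nat_lit 141) (nat_lit 142) (nat_lit 2) (nat_lit 5) (nat_lit 8) L98566 (by decide +kernel)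
theorem L98568 : W_36 (nat_lit 7) (nat_lit 0x2000000018000800048002c0010001c00000000000000) (nat_lit 0x0) (nat_lit 0x40006000700710009000000004000000000000000000) := T_36 (nat_lit 128) (nat_lit 111) (nat_lit 7) (nat_lit 8) (nat_lit 3) L98567 (by decide +kernel)
theorem L98569 : W_36 (nat_lit 8) (nat_lit 0x2000000018000800048002c0010001800000000000000) (nat_lit 0x0) (nat_lit 0x40006000700710009000000004000400020000000000) := T_36 (nat_lit 58) (nat_lit 41) (nat_lit 4) (nat_lit 8) (nat_lit 6) L98568 (by decide +kernel)
theorem L98570 : W_36 (nat_lit 9) (nat_lit 0x2000000018000800048002c0010001000000000000000) (nat_lit 0x0) (nat_lit 0x40006000700710009000000004000c000a0000000000) := T_36 (nat_lit 59) (nat_lit 43) (nat_lit 6) (nat_lit 8) (nat_lit 6) L98569 (by decide +kernel)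
theorem L98571 : W_36 (nat_lit 10) (nat_lit 0x2000000010000800048002c0010001000000000000000) (nat_lit 0x0) (nat_lit 0x40016000f00710009000000004000c000a0000000000) := T_36 (nat_lit 143) (nat_lit 160) (nat_lit 5) (nat_lit 8) (nat_lit 5) L98570 (by decide +kernel)
theorem L98572 : W_36 (nat_lit 11) (nat_lit 0x2000000010000800048002c0010000000000000000000) (nat_lit 0x0) (nat_lit 0x40016000f00710009000000024001c000a0000000000) := T_36 (nat_lit 60) (nat_lit 77) (nat_lit 6) (nat_lit 8) (nat_lit 7) L98571 (by decide +kernel)
theorem L98573 : W_36 (nat_lit 12) (nat_lit 0x200000001000080004800240010000000000000000000) (nat_lit 0x0) (nat_lit 0x40016000f00710009400180026001f003f0004000000) := Q_36 (nat_lit 91) (C_36 L98176 (C_36 L98348 (C_36 L98156 (C_36 L98572 N_36)))) (by decide +kernel)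
theorem L98574 : W_36 (nat_lit 12) (nat_lit 0x200000001000080004800240010000000000000000000) (nat_lit 0x0) (nat_lit 0x40016000f00710009000180027001f003fc004000000) := Q_36 (nat_lit 91) (C_36 L98176 (C_36 L98572 (C_36 L98212 (C_36 L98348 N_36)))) (by decide +kernel)
theorem L98575 : W_36 (nat_lit 14) (nat_lit 0x200000001000080004000240010000000000000000000) (nat_lit 0x0) (nat_lit 0x100038005c001f000f0073e009f001b8027c01fe03ff81fe00260) := Q_36 (nat_lit 107) (C_36 L98155 (C_36 L98177 (C_36 L98204 (C_36 L98213 (C_36 L98236 (C_36 L98282 (C_36 L98297 (C_36 L98338 (C_36 L98349 (C_36 L98400 (C_36 L98412 (C_36 L98562 (C_36 L98573 (C_36 L98574 N_36)))))))))))))) (by decide +kernel)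
theorem L98576 : W_36 (nat_lit 2) (nat_lit 0x20000000100008000c000340010001800020000000000) (nat_lit 0x0) (nat_lit 0x2000000000000000040001000000) := D_36 (nat_lit 42) (nat_lit 24) (nat_lit 109) (nat_lit 4) (nat_lit 8) (nat_lit 5) (nat_lit 5) (nat_lit 8) (nat_lit 2) (by decide +kernel)
theorem L98577 : W_36 (nat_lit 3) (nat_lit 0x20000000100008000c000240010001800020000000000) (nat_lit 0x0) (nat_lit 0x2000180000000000040001000000) := T_36 (nat_lit 92) (nat_lit 91) (nat_lit 3) (nat_lit 5) (nat_lit 5) L98576 (by decide +kernel)
theorem L98578 : W_36 (nat_lit 4) (nat_lit 0x200000001000080004000240010001800020000000000) (nat_lit 0x0) (nat_lit 0x10000a000180000000000040001000000) := T_36 (nat_lit 111) (nat_lit 128) (nat_lit 7) (nat_lit 8) (nat_lit 3) L98577 (by decide +kernel)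
theorem L98579 : W_36 (nat_lit 5) (nat_lit 0x200000001000080004000240010001800000000000000) (nat_lit 0x0) (nat_lit 0x10000a000180000000400060001000000) := T_36 (nat_lit 41) (nat_lit 58) (nat_lit 4) (nat_lit 8) (nat_lit 6) L98578 (by decide +kernel)
theorem L98580 : W_36 (nat_lit 6) (nat_lit 0x200000001000080004000240010001000000000000000) (nat_lit 0x0) (nat_lit 0x10000a000180000000c000e0001000000) := T_36 (nat_lit 59) (nat_lit 43) (nat_lit 6) (nat_lit 8) (nat_lit 6) L98579 (by decide +kernel)
theorem L98581 : W_36 (nat_lit 7) (nat_lit 0x200000001000080004000240010000000000000000000) (nat_lit 0x0) (nat_lit 0x10000a000180020001c000e0001000000) := T_36 (nat_lit 60) (nat_lit 77) (nat_lit 6) (nat_lit 8) (nat_lit 7) L98580 (by decide +kernel)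
theorem L98582 : W_36 (nat_lit 2) (nat_lit 0x2000000018000800048003c0012005900068000000000) (nat_lit 0x0) (nat_lit 0x80004000200000) := D_36 (nat_lit 38) (nat_lit 21) (nat_lit 55) (nat_lit 4) (nat_lit 5) (nat_lit 5) (nat_lit 4) (nat_lit 5) (nat_lit 6) (by decide +kernel)
theorem L98583 : W_36 (nat_lit 3) (nat_lit 0x2000000018000800048003c0012005800068000000000) (nat_lit 0x0) (nat_lit 0x1000000000000180004000200000) := T_36 (nat_lit 56) (nat_lit 108) (nat_lit 7) (nat_lit 5) (nat_lit 2) L98582 (by decide +kernel)
theorem L98584 : W_36 (nat_lit 4) (nat_lit 0x2000000018000800048003c0012001800068000000000) (nat_lit 0x0) (nat_lit 0x1000000000006180004000200000) := T_36 (nat_lit 62) (nat_lit 61) (nat_lit 0) (nat_lit 11) (nat_lit 3) L98583 (by decide +kernel)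
theorem L98585 : W_36 (nat_lit 5) (nat_lit 0x2000000018000800048003c0010001800068000000000) (nat_lit 0x0) (nat_lit 0x1000000003006180004000200000) := T_36 (nat_lit 73) (nat_lit 72) (nat_lit 0) (nat_lit 8) (nat_lit 5) L98584 (by decide +kernel)
theorem L98586 : W_36 (nat_lit 6) (nat_lit 0x2000000018000800040003c0010001800068000000000) (nat_lit 0x0) (nat_lit 0x1c00000003006180004000200000) := T_36 (nat_lit 107) (nat_lit 106) (nat_lit 1) (nat_lit 8) (nat_lit 5) L98585 (by decide +kernel)
theorem L98587 : W_36 (nat_lit 7) (nat_lit 0x200000001800080004000340010001800068000000000) (nat_lit 0x0) (nat_lit 0x9c00080003006180004000200000) := T_36 (nat_lit 91) (nat_lit 111) (nat_lit 3) (nat_lit 5) (nat_lit 5) L98586 (by decide +kernel)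
theorem L98588 : W_36 (nat_lit 8) (nat_lit 0x200000001800080004000240010001800068000000000) (nat_lit 0x0) (nat_lit 0xbc00180003006180004000200000) := T_36 (nat_lit 92) (nat_lit 109) (nat_lit 5) (nat_lit 8) (nat_lit 2) L98587 (by decide +kernel)
theorem L98589 : W_36 (nat_lit 9) (nat_lit 0x200000001800080004000240010001800060000000000) (nat_lit 0x0) (nat_lit 0xbc0018000300618001c000200000) := T_36 (nat_lit 39) (nat_lit 40) (nat_lit 3) (nat_lit 5) (nat_lit 2) L98588 (by decide +kernel)
theorem L98590 : W_36 (nat_lit 10) (nat_lit 0x200000001800080004000240010001800020000000000) (nat_lit 0x0) (nat_lit 0xbc0018000300618005c001200000) := T_36 (nat_lit 42) (nat_lit 24) (nat_lit 4) (nat_lit 8) (nat_lit 5) L98589 (by decide +kernel)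
theorem L98591 : W_36 (nat_lit 11) (nat_lit 0x200000001800080004000240010001800000000000000) (nat_lit 0x0) (nat_lit 0xbc0018000300658007c001200000) := T_36 (nat_lit 41) (nat_lit 58) (nat_lit 4) (nat_lit 8) (nat_lit 6) L98590 (by decide +kernel)
theorem L98592 : W_36 (nat_lit 12) (nat_lit 0x200000001800080004000240010001000000000000000) (nat_lit 0x0) (nat_lit 0xbc00180003006d800fc001200000) := T_36 (nat_lit 59) (nat_lit 43) (nat_lit 6) (nat_lit 8) (nat_lit 6) L98591 (by decide +kernel)
theorem L98593 : W_36 (nat_lit 13) (nat_lit 0x200000001000080004000240010001000000000000000) (nat_lit 0x0) (nat_lit 0x1000080000000bc00180003006d800fc001200000) := T_36 (nat_lit 143) (nat_lit 160) (nat_lit 5) (nat_lit 8) (nat_lit 5) L98592 (by decide +kernel)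
theorem L98594 : W_36 (nat_lit 14) (nat_lit 0x200000001000080004000240010000000000000000000) (nat_lit 0x0) (nat_lit 0x1000080000000bc00180023007d800fc001200000) := T_36 (nat_lit 60) (nat_lit 77) (nat_lit 6) (nat_lit 8) (nat_lit 7) L98593 (by decide +kernel)
theorem L98595 : W_36 (nat_lit 7) (nat_lit 0x2000000018000800048003c0010000800060000000000) (nat_lit 0x0) (nat_lit 0x100000000300018009c006200200) := T_36 (nat_lit 73) (nat_lit 72) (nat_lit 0) (nat_lit 8) (nat_lit 5) L98141 (by decide +kernel)
theorem L98596 : W_36 (nat_lit 8) (nat_lit 0x2000000018000800040003c0010000800060000000000) (nat_lit 0x0) (nat_lit 0x1c0000000300018009c006200200) := T_36 (nat_lit 107) (nat_lit 106) (nat_lit 1) (nat_lit 8) (nat_lit 5) L98595 (by decide +kernel)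
theorem L98597 : W_36 (nat_lit 9) (nat_lit 0x200000001800080004000340010000800060000000000) (nat_lit 0x0) (nat_lit 0x1c0008002300018009c006200200) := T_36 (nat_lit 91) (nat_lit 77) (nat_lit 2) (nat_lit 5) (nat_lit 5) L98596 (by decide +kernel)
theorem L98598 : W_36 (nat_lit 10) (nat_lit 0x200000001800080004000240010000800060000000000) (nat_lit 0x0) (nat_lit 0x3c0018002300018009c006200200) := T_36 (nat_lit 92) (nat_lit 109) (nat_lit 5) (nat_lit 8) (nat_lit 2) L98597 (by decide +kernel)
theorem L98599 : W_36 (nat_lit 11) (nat_lit 0x200000001800080004000240010000800020000000000) (nat_lit 0x0) (nat_lit 0x3c001800230001800dc007200200) := T_36 (nat_lit 42) (nat_lit 24) (nat_lit 4) (nat_lit 8) (nat_lit 5) L98598 (by decide +kernel)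
theorem L98600 : W_36 (nat_lit 12) (nat_lit 0x200000001800080004000240010000800000000000000) (nat_lit 0x0) (nat_lit 0x3c001800230005800fc007200200) := T_36 (nat_lit 41) (nat_lit 58) (nat_lit 4) (nat_lit 8) (nat_lit 6) L98599 (by decide +kernel)
theorem L98601 : W_36 (nat_lit 13) (nat_lit 0x200000001000080004000240010000800000000000000) (nat_lit 0x0) (nat_lit 0x10000800000003c001800230005800fc007200200) := T_36 (nat_lit 143) (nat_lit 160) (nat_lit 5) (nat_lit 8) (nat_lit 5) L98600 (by decide +kernel)
theorem L98602 : W_36 (nat_lit 2) (nat_lit 0x200000001000080004000340030000800020000000000) (nat_lit 0x0) (nat_lit 0x2000000000000000040001000000) := D_36 (nat_lit 42) (nat_lit 24) (nat_lit 109) (nat_lit 4) (nat_lit 8) (nat_lit 5) (nat_lit 5) (nat_lit 8) (nat_lit 2) (by decide +kernel)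
theorem L98603 : W_36 (nat_lit 3) (nat_lit 0x200000001000080004000240030000800020000000000) (nat_lit 0x0) (nat_lit 0x2000180000000000040001000000) := T_36 (nat_lit 92) (nat_lit 91) (nat_lit 2) (nat_lit 5) (nat_lit 5) L98602 (by decide +kernel)
theorem L98604 : W_36 (nat_lit 4) (nat_lit 0x200000001000080004000240010000800020000000000) (nat_lit 0x0) (nat_lit 0x2000180020001000040001000000) := T_36 (nat_lit 77) (nat_lit 60) (nat_lit 6) (nat_lit 8) (nat_lit 7) L98603 (by decide +kernel)
theorem L98605 : W_36 (nat_lit 5) (nat_lit 0x200000001000080004000240010000800000000000000) (nat_lit 0x0) (nat_lit 0x2000180020001400060001000000) := T_36 (nat_lit 41) (nat_lit 58) (nat_lit 4) (nat_lit 8) (nat_lit 6) L98604 (by decide +kernel)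
theorem L98606 : W_36 (nat_lit 2) (nat_lit 0x2000000010000800040002400100008000a0000000000) (nat_lit 0x0) (nat_lit 0x40005000000) := D_36 (nat_lit 42) (nat_lit 26) (nat_lit 24) (nat_lit 6) (nat_lit 8) (nat_lit 5) (nat_lit 4) (nat_lit 8) (nat_lit 5) (by decide +kernel)
theorem L98607 : W_36 (nat_lit 3) (nat_lit 0x200000001000080004000240010000800080000000000) (nat_lit 0x0) (nat_lit 0x400060005000000) := T_36 (nat_lit 41) (nat_lit 58) (nat_lit 4) (nat_lit 8) (nat_lit 6) L98606 (by decide +kernel)
theorem L98608 : W_36 (nat_lit 4) (nat_lit 0x200000001000080004000240010000800000000000000) (nat_lit 0x0) (nat_lit 0x14000e0005000000) := T_36 (nat_lit 43) (nat_lit 60) (nat_lit 6) (nat_lit 8) (nat_lit 6) L98607 (by decide +kernel)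
theorem L98609 : W_36 (nat_lit 14) (nat_lit 0x200000001000080004000240010000000000000000000) (nat_lit 0x0) (nat_lit 0x10000800000003c00180023001d800fc007200200) := Q_36 (nat_lit 59) (C_36 L98129 (C_36 L98601 (C_36 L98605 (C_36 L98608 N_36)))) (by decide +kernel)
theorem L98610 : W_36 (nat_lit 2) (nat_lit 0x200000001000180005800240012000900008000000000) (nat_lit 0x0) (nat_lit 0x200010000800000) := D_36 (nat_lit 40) (nat_lit 23) (nat_lit 57) (nat_lit 6) (nat_lit 5) (nat_lit 5) (nat_lit 6) (nat_lit 5) (nat_lit 6) (by decide +kernel)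
theorem L98611 : W_36 (nat_lit 3) (nat_lit 0x200000001000180005800240012000900000000000000) (nat_lit 0x0) (nat_lit 0x80000000200018000800000) := T_36 (nat_lit 39) (nat_lit 91) (nat_lit 7) (nat_lit 5) (nat_lit 2) L98610 (by decide +kernel)
theorem L98612 : W_36 (nat_lit 2) (nat_lit 0x200000001000180005800240012000d00008000000000) (nat_lit 0x0) (nat_lit 0x80004000200000) := D_36 (nat_lit 38) (nat_lit 55) (nat_lit 21) (nat_lit 4) (nat_lit 5) (nat_lit 6) (nat_lit 4) (nat_lit 5) (nat_lit 5) (by decide +kernel)
theorem L98613 : W_36 (nat_lit 3) (nat_lit 0x200000001000180005800240012000d00000000000000) (nat_lit 0x0) (nat_lit 0x8000000008000c000200000) := T_36 (nat_lit 39) (nat_lit 91) (nat_lit 7) (nat_lit 5) (nat_lit 2) L98612 (by decide +kernel)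
theorem L98614 : W_36 (nat_lit 4) (nat_lit 0x200000001000180005800240010000900000000000000) (nat_lit 0x0) (nat_lit 0x20000000080002000200018000800000) := T_36 (nat_lit 73) (nat_lit 125) (nat_lit 7) (nat_lit 5) (nat_lit 3) L98611 (by decide +kernel)
theorem L98615 : W_36 (nat_lit 5) (nat_lit 0x200000001000180004800240010000900000000000000) (nat_lit 0x0) (nat_lit 0x20003000080002000200018000800000) := T_36 (nat_lit 108) (nat_lit 109) (nat_lit 3) (nat_lit 5) (nat_lit 6) L98614 (by decide +kernel)
theorem L98616 : W_36 (nat_lit 6) (nat_lit 0x200000001000080004800240010000900000000000000) (nat_lit 0x0) (nat_lit 0x12000b000080002000200018000800000) := T_36 (nat_lit 128) (nat_lit 111) (nat_lit 7) (nat_lit 8) (nat_lit 3) L98615 (by decide +kernel)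
theorem L98617 : W_36 (nat_lit 2) (nat_lit 0x200000001000080004800240010000f00000000000000) (nat_lit 0x0) (nat_lit 0x3000000010000000000) := D_36 (nat_lit 73) (nat_lit 72) (nat_lit 40) (nat_lit 1) (nat_lit 8) (nat_lit 3) (nat_lit 6) (nat_lit 5) (nat_lit 6) (by decide +kernel)
theorem L98618 : W_36 (nat_lit 3) (nat_lit 0x200000001000080004800240010000d00000000000000) (nat_lit 0x0) (nat_lit 0x23000200010000000000) := T_36 (nat_lit 57) (nat_lit 77) (nat_lit 3) (nat_lit 5) (nat_lit 3) L98617 (by decide +kernel)
theorem L98619 : W_36 (nat_lit 4) (nat_lit 0x200000001000080004800240010000900000000000000) (nat_lit 0x0) (nat_lit 0x23000600030000000000) := T_36 (nat_lit 58) (nat_lit 41) (nat_lit 4) (nat_lit 8) (nat_lit 6) L98618 (by decide +kernel)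
theorem L98620 : W_36 (nat_lit 2) (nat_lit 0x20000000100008000c800240010000f80044000000000) (nat_lit 0x0) (nat_lit 0x20001800000000000000000) := D_36 (nat_lit 72) (nat_lit 71) (nat_lit 89) (nat_lit 1) (nat_lit 7) (nat_lit 3) (nat_lit 7) (nat_lit 4) (nat_lit 2) (by decide +kernel)
theorem L98621 : W_36 (nat_lit 3) (nat_lit 0x20000000100008000c800240010000f00044000000000) (nat_lit 0x0) (nat_lit 0x20001800080002000000000) := T_36 (nat_lit 55) (nat_lit 37) (nat_lit 0) (nat_lit 7) (nat_lit 3) L98620 (by decide +kernel)
theorem L98622 : W_36 (nat_lit 4) (nat_lit 0x200000001000080004800240010000f00044000000000) (nat_lit 0x0) (nat_lit 0x100008000020001800080002000000000) := T_36 (nat_lit 111) (nat_lit 128) (nat_lit 7) (nat_lit 8) (nat_lit 3) L98621 (by decide +kernel)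
theorem L98623 : W_36 (nat_lit 5) (nat_lit 0x200000001000080004800240010000f00040000000000) (nat_lit 0x0) (nat_lit 0x10000800002000180008000e000000000) := T_36 (nat_lit 38) (nat_lit 39) (nat_lit 0) (nat_lit 8) (nat_lit 3) L98622 (by decide +kernel)
theorem L98624 : W_36 (nat_lit 6) (nat_lit 0x200000001000080004800240010000f00000000000000) (nat_lit 0x0) (nat_lit 0x1000080000200018000800ce000000000) := T_36 (nat_lit 42) (nat_lit 43) (nat_lit 2) (nat_lit 5) (nat_lit 3) L98623 (by decide +kernel)
theorem L98625 : W_36 (nat_lit 7) (nat_lit 0x200000001000080004800240010000d00000000000000) (nat_lit 0x0) (nat_lit 0x1000080000200218002800ce000000000) := T_36 (nat_lit 57) (nat_lit 77) (nat_lit 3) (nat_lit 5) (nat_lit 3) L98624 (by decide +kernel)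
theorem L98626 : W_36 (nat_lit 8) (nat_lit 0x200000001000080004800240010000900000000000000) (nat_lit 0x0) (nat_lit 0x1000080000200218006800ee000000000) := T_36 (nat_lit 58) (nat_lit 41) (nat_lit 4) (nat_lit 8) (nat_lit 6) L98625 (by decide +kernel)
theorem L98627 : W_36 (nat_lit 4) (nat_lit 0x200000001000180005800240010000d00000000000000) (nat_lit 0x0) (nat_lit 0x2000000008000200008000c000200000) := T_36 (nat_lit 73) (nat_lit 125) (nat_lit 7) (nat_lit 5) (nat_lit 3) L98613 (by decide +kernel)
theorem L98628 : W_36 (nat_lit 5) (nat_lit 0x200000001000180004800240010000d00000000000000) (nat_lit 0x0) (nat_lit 0x2000300008000200008000c000200000) := T_36 (nat_lit 108) (nat_lit 109) (nat_lit 3) (nat_lit 5) (nat_lit 6) L98627 (by decide +kernel)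
theorem L98629 : W_36 (nat_lit 6) (nat_lit 0x200000001000180004800240010000900000000000000) (nat_lit 0x0) (nat_lit 0x2000300008000200048002c000200000) := T_36 (nat_lit 58) (nat_lit 41) (nat_lit 4) (nat_lit 8) (nat_lit 6) L98628 (by decide +kernel)
theorem L98630 : W_36 (nat_lit 7) (nat_lit 0x200000001000080004800240010000900000000000000) (nat_lit 0x0) (nat_lit 0x12000b00008000200048002c000200000) := T_36 (nat_lit 128) (nat_lit 111) (nat_lit 7) (nat_lit 8) (nat_lit 3) L98629 (by decide +kernel)
theorem L98631 : W_36 (nat_lit 9) (nat_lit 0x200000001000080004800240010000800000000000000) (nat_lit 0x0) (nat_lit 0x12000b0000a00238007800fe000a00000) := Q_36 (nat_lit 56) (C_36 L98616 (C_36 L98619 (C_36 L98626 (C_36 L98630 N_36)))) (by decide +kernel)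
theorem L98632 : W_36 (nat_lit 2) (nat_lit 0x20000000180008000f800240010000000000000000000) (nat_lit 0x0) (nat_lit 0x38000000000000000000000000000000) := D_36 (nat_lit 124) (nat_lit 123) (nat_lit 125) (nat_lit 1) (nat_lit 8) (nat_lit 6) (nat_lit 1) (nat_lit 9) (nat_lit 6) (by decide +kernel)
theorem L98633 : W_36 (nat_lit 3) (nat_lit 0x200000001800080007800240010000000000000000000) (nat_lit 0x0) (nat_lit 0x38008000080000000000000000000000) := T_36 (nat_lit 111) (nat_lit 91) (nat_lit 0) (nat_lit 9) (nat_lit 6) L98632 (by decide +kernel)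
theorem L98634 : W_36 (nat_lit 4) (nat_lit 0x200000001800080005800240010000000000000000000) (nat_lit 0x0) (nat_lit 0x3800a0000a0000000000000000000000) := T_36 (nat_lit 109) (nat_lit 89) (nat_lit 0) (nat_lit 8) (nat_lit 6) L98633 (by decide +kernel)
theorem L98635 : W_36 (nat_lit 5) (nat_lit 0x200000001000080005800240010000000000000000000) (nat_lit 0x0) (nat_lit 0x1000080003800a0000a0000000000000000000000) := T_36 (nat_lit 143) (nat_lit 160) (nat_lit 5) (nat_lit 8) (nat_lit 5) L98634 (by decide +kernel)
theorem L98636 : W_36 (nat_lit 2) (nat_lit 0x200000001000080005800240010000000000000000000) (nat_lit 0x0) (nat_lit 0x100002000020000000000000000000000) := D_36 (nat_lit 109) (nat_lit 89) (nat_lit 128) (nat_lit 0) (nat_lit 8) (nat_lit 6) (nat_lit 3) (nat_lit 5) (nat_lit 6) (by decide +kernel)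
theorem L98637 : W_36 (nat_lit 2) (nat_lit 0x20000a001f00080005800240010000000000000000000) (nat_lit 0x0) (nat_lit 0xc000400000000000000000000000000) := D_36 (nat_lit 123) (nat_lit 122) (nat_lit 106) (nat_lit 0) (nat_lit 7) (nat_lit 8) (nat_lit 6) (nat_lit 4) (nat_lit 9) (by decide +kernel)
theorem L98638 : W_36 (nat_lit 3) (nat_lit 0x20000a001e00080005800240010000000000000000000) (nat_lit 0x0) (nat_lit 0x100010000c000400000000000000000000000000) := T_36 (nat_lit 140) (nat_lit 156) (nat_lit 1) (nat_lit 7) (nat_lit 8) L98637 (by decide +kernel)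
theorem L98639 : W_36 (nat_lit 4) (nat_lit 0x200008001e00080005800240010000000000000000000) (nat_lit 0x0) (nat_lit 0x700010000c000400000000000000000000000000) := T_36 (nat_lit 157) (nat_lit 158) (nat_lit 1) (nat_lit 8) (nat_lit 8) L98638 (by decide +kernel)
theorem L98640 : W_36 (nat_lit 5) (nat_lit 0x200008001c00080005800240010000000000000000000) (nat_lit 0x0) (nat_lit 0x700030001c000400000000000000000000000000) := T_36 (nat_lit 141) (nat_lit 124) (nat_lit 7) (nat_lit 5) (nat_lit 5) L98639 (by decide +kernel)
theorem L98641 : W_36 (nat_lit 6) (nat_lit 0x200000001c00080005800240010000000000000000000) (nat_lit 0x0) (nat_lit 0xf00030003c000400000000000000000000000000) := T_36 (nat_lit 159) (nat_lit 125) (nat_lit 4) (nat_lit 6) (nat_lit 9) L98640 (by decide +kernel)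
theorem L98642 : W_36 (nat_lit 7) (nat_lit 0x200000001400080005800240010000000000000000000) (nat_lit 0x0) (nat_lit 0x1f000b0003c000400000000000000000000000000) := T_36 (nat_lit 143) (nat_lit 160) (nat_lit 5) (nat_lit 8) (nat_lit 5) L98641 (by decide +kernel)
theorem L98643 : W_36 (nat_lit 2) (nat_lit 0x2000000014000a0005800240010000000000000000000) (nat_lit 0x0) (nat_lit 0x80002000100000000000000) := D_36 (nat_lit 73) (nat_lit 91) (nat_lit 56) (nat_lit 4) (nat_lit 6) (nat_lit 8) (nat_lit 7) (nat_lit 5) (nat_lit 3) (by decide +kernel)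
theorem L98644 : W_36 (nat_lit 3) (nat_lit 0x200000001400080005800240010000000000000000000) (nat_lit 0x0) (nat_lit 0x8000000020000000080002000100000000000000) := T_36 (nat_lit 125) (nat_lit 159) (nat_lit 4) (nat_lit 6) (nat_lit 9) L98643 (by decide +kernel)
theorem L98645 : W_36 (nat_lit 2) (nat_lit 0x200004001e00080005800240010000000000000000000) (nat_lit 0x0) (nat_lit 0x18000000080000000000000000000000) := D_36 (nat_lit 124) (nat_lit 123) (nat_lit 91) (nat_lit 0) (nat_lit 8) (nat_lit 8) (nat_lit 6) (nat_lit 5) (nat_lit 9) (by decide +kernel)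
theorem L98646 : W_36 (nat_lit 3) (nat_lit 0x200000001e00080005800240010000000000000000000) (nat_lit 0x0) (nat_lit 0x6000000018000000080000000000000000000000) := T_36 (nat_lit 158) (nat_lit 157) (nat_lit 1) (nat_lit 8) (nat_lit 8) L98645 (by decide +kernel)
theorem L98647 : W_36 (nat_lit 4) (nat_lit 0x200000001c00080005800240010000000000000000000) (nat_lit 0x0) (nat_lit 0x6000200118000000080000000000000000000000) := T_36 (nat_lit 141) (nat_lit 128) (nat_lit 2) (nat_lit 5) (nat_lit 8) L98646 (by decide +kernel)
theorem L98648 : W_36 (nat_lit 5) (nat_lit 0x200000001400080005800240010000000000000000000) (nat_lit 0x0) (nat_lit 0x16000a00118000000080000000000000000000000) := T_36 (nat_lit 143) (nat_lit 160) (nat_lit 5) (nat_lit 8) (nat_lit 5) L98647 (by decide +kernel)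
theorem L98649 : W_36 (nat_lit 8) (nat_lit 0x200000001000080005800240010000000000000000000) (nat_lit 0x0) (nat_lit 0x1f000f0013c000400080002000100000000000000) := Q_36 (nat_lit 142) (C_36 L98642 (C_36 L98644 (C_36 L98648 N_36))) (by decide +kernel)
theorem L98650 : W_36 (nat_lit 9) (nat_lit 0x200000001000080004800240010000000000000000000) (nat_lit 0x0) (nat_lit 0x1f000f0013c00b4000a0002000100000000000000) := Q_36 (nat_lit 108) (C_36 L98635 (C_36 L98636 (C_36 L98649 N_36))) (by decide +kernel)
theorem L98651 : W_36 (nat_lit 2) (nat_lit 0x2000000010001800058002400b2000d00008000000000) (nat_lit 0x0) (nat_lit 0x80004000200000) := D_36 (nat_lit 38) (nat_lit 55) (nat_lit 21) (nat_lit 4) (nat_lit 5) (nat_lit 6) (nat_lit 4) (nat_lit 5) (nat_lit 5) (by decide +kernel)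
theorem L98652 : W_36 (nat_lit 3) (nat_lit 0x2000000010001800058002400b2000d00000000000000) (nat_lit 0x0) (nat_lit 0x8000000008000c000200000) := T_36 (nat_lit 39) (nat_lit 91) (nat_lit 7) (nat_lit 5) (nat_lit 2) L98651 (by decide +kernel)
theorem L98653 : W_36 (nat_lit 4) (nat_lit 0x2000000010001800058002400b0000d00000000000000) (nat_lit 0x0) (nat_lit 0x2000000008000200008000c000200000) := T_36 (nat_lit 73) (nat_lit 125) (nat_lit 7) (nat_lit 5) (nat_lit 3) L98652 (by decide +kernel)
theorem L98654 : W_36 (nat_lit 5) (nat_lit 0x2000000010001800048002400b0000d00000000000000) (nat_lit 0x0) (nat_lit 0x2000300008000200008000c000200000) := T_36 (nat_lit 108) (nat_lit 109) (nat_lit 3) (nat_lit 5) (nat_lit 6) L98653 (by decide +kernel)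
theorem L98655 : W_36 (nat_lit 6) (nat_lit 0x200000001000180004800240030000d00000000000000) (nat_lit 0x0) (nat_lit 0x200030000800c200008000c000200000) := T_36 (nat_lit 79) (nat_lit 78) (nat_lit 0) (nat_lit 11) (nat_lit 4) L98654 (by decide +kernel)
theorem L98656 : W_36 (nat_lit 7) (nat_lit 0x200000001000180004800240030000c00000000000000) (nat_lit 0x0) (nat_lit 0x200030000800c200038000c000200000) := T_36 (nat_lit 56) (nat_lit 57) (nat_lit 3) (nat_lit 5) (nat_lit 3) L98655 (by decide +kernel)
theorem L98657 : W_36 (nat_lit 8) (nat_lit 0x200000001000180004800240030000800000000000000) (nat_lit 0x0) (nat_lit 0x200030000800c200078002c000200000) := T_36 (nat_lit 58) (nat_lit 41) (nat_lit 4) (nat_lit 8) (nat_lit 6) L98656 (by decide +kernel)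
theorem L98658 : W_36 (nat_lit 9) (nat_lit 0x200000001000080004800240030000800000000000000) (nat_lit 0x0) (nat_lit 0x12000b0000800c200078002c000200000) := T_36 (nat_lit 128) (nat_lit 111) (nat_lit 7) (nat_lit 8) (nat_lit 3) L98657 (by decide +kernel)
theorem L98659 : W_36 (nat_lit 10) (nat_lit 0x200000001000080004800240010000800000000000000) (nat_lit 0x0) (nat_lit 0x12000b0000800e200178002c000200000) := T_36 (nat_lit 77) (nat_lit 60) (nat_lit 6) (nat_lit 8) (nat_lit 7) L98658 (by decide +kernel)
theorem L98660 : W_36 (nat_lit 2) (nat_lit 0x200000001000180005800240012000d002c8000000000) (nat_lit 0x0) (nat_lit 0x80004000200000) := D_36 (nat_lit 38) (nat_lit 55) (nat_lit 21) (nat_lit 4) (nat_lit 5) (nat_lit 6) (nat_lit 4) (nat_lit 5) (nat_lit 5) (by decide +kernel)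
theorem L98661 : W_36 (nat_lit 3) (nat_lit 0x200000001000180005800240012000d002c0000000000) (nat_lit 0x0) (nat_lit 0x8000000008000c000200000) := T_36 (nat_lit 39) (nat_lit 91) (nat_lit 7) (nat_lit 5) (nat_lit 2) L98660 (by decide +kernel)
theorem L98662 : W_36 (nat_lit 4) (nat_lit 0x200000001000180005800240010000d002c0000000000) (nat_lit 0x0) (nat_lit 0x2000000008000200008000c000200000) := T_36 (nat_lit 73) (nat_lit 125) (nat_lit 7) (nat_lit 5) (nat_lit 3) L98661 (by decide +kernel)
theorem L98663 : W_36 (nat_lit 5) (nat_lit 0x200000001000180004800240010000d002c0000000000) (nat_lit 0x0) (nat_lit 0x2000300008000200008000c000200000) := T_36 (nat_lit 108) (nat_lit 109) (nat_lit 3) (nat_lit 5) (nat_lit 6) L98662 (by decide +kernel)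
theorem L98664 : W_36 (nat_lit 6) (nat_lit 0x200000001000180004800240010000d000c0000000000) (nat_lit 0x0) (nat_lit 0x2000300008000200008030c000200000) := T_36 (nat_lit 45) (nat_lit 44) (nat_lit 1) (nat_lit 11) (nat_lit 2) L98663 (by decide +kernel)
theorem L98665 : W_36 (nat_lit 7) (nat_lit 0x200000001000180004800240010000c000c0000000000) (nat_lit 0x0) (nat_lit 0x2000300008000200038030c000200000) := T_36 (nat_lit 56) (nat_lit 57) (nat_lit 2) (nat_lit 5) (nat_lit 3) L98664 (by decide +kernel)
theorem L98666 : W_36 (nat_lit 8) (nat_lit 0x200000001000180004800240010000c00080000000000) (nat_lit 0x0) (nat_lit 0x2000300008000200038034c004200000) := T_36 (nat_lit 42) (nat_lit 26) (nat_lit 6) (nat_lit 8) (nat_lit 5) L98665 (by decide +kernel)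
theorem L98667 : W_36 (nat_lit 9) (nat_lit 0x200000001000080004800240010000c00080000000000) (nat_lit 0x0) (nat_lit 0x12000b00008000200038034c004200000) := T_36 (nat_lit 128) (nat_lit 111) (nat_lit 7) (nat_lit 8) (nat_lit 3) L98666 (by decide +kernel)
theorem L98668 : W_36 (nat_lit 10) (nat_lit 0x200000001000080004800240010000c00000000000000) (nat_lit 0x0) (nat_lit 0x12000b0000800020013803cc004200000) := T_36 (nat_lit 43) (nat_lit 60) (nat_lit 6) (nat_lit 8) (nat_lit 6) L98667 (by decide +kernel)
theorem L98669 : W_36 (nat_lit 11) (nat_lit 0x200000001000080004800240010000800000000000000) (nat_lit 0x0) (nat_lit 0x12000b0000800020017803ec004200000) := T_36 (nat_lit 58) (nat_lit 41) (nat_lit 4) (nat_lit 8) (nat_lit 6) L98668 (by decide +kernel)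
theorem L98670 : W_36 (nat_lit 12) (nat_lit 0x200000001000080004800240010000000000000000000) (nat_lit 0x0) (nat_lit 0x12000b0000a00e3801f803fe004a00000) := Q_36 (nat_lit 59) (C_36 L98350 (C_36 L98631 (C_36 L98659 (C_36 L98669 N_36)))) (by decide +kernel)
theorem L98671 : W_36 (nat_lit 2) (nat_lit 0x2000000010000b0004800240032000100000000000000) (nat_lit 0x0) (nat_lit 0x4000200010000000000) := D_36 (nat_lit 57) (nat_lit 40) (nat_lit 74) (nat_lit 6) (nat_lit 5) (nat_lit 6) (nat_lit 6) (nat_lit 5) (nat_lit 7) (by decide +kernel)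
theorem L98672 : W_36 (nat_lit 3) (nat_lit 0x2000000010000b0004800240032000000000000000000) (nat_lit 0x0) (nat_lit 0x1000000004000300010000000000) := T_36 (nat_lit 56) (nat_lit 108) (nat_lit 7) (nat_lit 5) (nat_lit 3) L98671 (by decide +kernel)
theorem L98673 : W_36 (nat_lit 4) (nat_lit 0x200000001000090004800240032000000000000000000) (nat_lit 0x0) (nat_lit 0x400020001000000004000300010000000000) := T_36 (nat_lit 125) (nat_lit 142) (nat_lit 7) (nat_lit 5) (nat_lit 4) L98672 (by decide +kernel)
theorem L98674 : W_36 (nat_lit 5) (nat_lit 0x200000001000090004800240012000000000000000000) (nat_lit 0x0) (nat_lit 0x400020001000000024001300010000000000) := T_36 (nat_lit 77) (nat_lit 60) (nat_lit 6) (nat_lit 8) (nat_lit 7) L98673 (by decide +kernel)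
theorem L98675 : W_36 (nat_lit 2) (nat_lit 0x200000001200090004800240036000000000000000000) (nat_lit 0x0) (nat_lit 0x2000100008000000000000000000000000000000) := D_36 (nat_lit 140) (nat_lit 157) (nat_lit 123) (nat_lit 5) (nat_lit 5) (nat_lit 5) (nat_lit 5) (nat_lit 5) (nat_lit 4) (by decide +kernel)
theorem L98676 : W_36 (nat_lit 3) (nat_lit 0x200000001000090004800240036000000000000000000) (nat_lit 0x0) (nat_lit 0x2000300008000000080000000000000000000000) := T_36 (nat_lit 141) (nat_lit 91) (nat_lit 6) (nat_lit 5) (nat_lit 8) L98675 (by decide +kernel)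
theorem L98677 : W_36 (nat_lit 4) (nat_lit 0x200000001000090004800240016000000000000000000) (nat_lit 0x0) (nat_lit 0x2000300008000000080020001000000000000000) := T_36 (nat_lit 77) (nat_lit 60) (nat_lit 6) (nat_lit 8) (nat_lit 7) L98676 (by decide +kernel)
theorem L98678 : W_36 (nat_lit 5) (nat_lit 0x200000001000090004800240012000000000000000000) (nat_lit 0x0) (nat_lit 0x2000300008000000080024001200000000000000) := T_36 (nat_lit 74) (nat_lit 57) (nat_lit 6) (nat_lit 5) (nat_lit 7) L98677 (by decide +kernel)
theorem L98679 : W_36 (nat_lit 2) (nat_lit 0x200000001000098004800240012000100000000000000) (nat_lit 0x0) (nat_lit 0x1000080004000000000) := D_36 (nat_lit 55) (nat_lit 38) (nat_lit 72) (nat_lit 4) (nat_lit 5) (nat_lit 6) (nat_lit 4) (nat_lit 5) (nat_lit 7) (by decide +kernel)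
theorem L98680 : W_36 (nat_lit 3) (nat_lit 0x200000001000098004800240012000000000000000000) (nat_lit 0x0) (nat_lit 0x400000001000180004000000000) := T_36 (nat_lit 56) (nat_lit 106) (nat_lit 5) (nat_lit 5) (nat_lit 3) L98679 (by decide +kernel)
theorem L98681 : W_36 (nat_lit 4) (nat_lit 0x200000001000090004800240012000000000000000000) (nat_lit 0x0) (nat_lit 0x100008000400000001000180004000000000) := T_36 (nat_lit 123) (nat_lit 140) (nat_lit 5) (nat_lit 5) (nat_lit 4) L98680 (by decide +kernel)
theorem L98682 : W_36 (nat_lit 6) (nat_lit 0x200000001000090004800240010000000000000000000) (nat_lit 0x0) (nat_lit 0x2000700028001400080027001380014000000000) := Q_36 (nat_lit 73) (C_36 L98674 (C_36 L98678 (C_36 L98681 N_36))) (by decide +kernel)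
theorem L98683 : W_36 (nat_lit 2) (nat_lit 0x200000001000090004800240037000000000000000000) (nat_lit 0x0) (nat_lit 0x2000000000000a0000000000000000000000) := D_36 (nat_lit 141) (nat_lit 91) (nat_lit 89) (nat_lit 6) (nat_lit 5) (nat_lit 8) (nat_lit 4) (nat_lit 5) (nat_lit 8) (by decide +kernel)
theorem L98684 : W_36 (nat_lit 3) (nat_lit 0x200000001000090004800240036000000000000000000) (nat_lit 0x0) (nat_lit 0x2000000000000a0001000080000000000000) := T_36 (nat_lit 72) (nat_lit 55) (nat_lit 4) (nat_lit 5) (nat_lit 7) L98683 (by decide +kernel)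
theorem L98685 : W_36 (nat_lit 4) (nat_lit 0x200000001000090004800240032000000000000000000) (nat_lit 0x0) (nat_lit 0x2000000000000a0005000280000000000000) := T_36 (nat_lit 74) (nat_lit 57) (nat_lit 6) (nat_lit 5) (nat_lit 7) L98684 (by decide +kernel)
theorem L98686 : W_36 (nat_lit 5) (nat_lit 0x200000001000090004800240012000000000000000000) (nat_lit 0x0) (nat_lit 0x2000000000000a0025001280000000000000) := T_36 (nat_lit 77) (nat_lit 60) (nat_lit 6) (nat_lit 8) (nat_lit 7) L98685 (by decide +kernel)
theorem L98687 : W_36 (nat_lit 6) (nat_lit 0x200000001000090004800240010000000000000000000) (nat_lit 0x0) (nat_lit 0x20003000080004000a0027001380004000000000) := Q_36 (nat_lit 73) (C_36 L98681 (C_36 L98686 (C_36 L98678 N_36))) (by decide +kernel)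
theorem L98688 : W_36 (nat_lit 2) (nat_lit 0x2000000018000b0004800240016000100000000000000) (nat_lit 0x0) (nat_lit 0x1000080004000000000) := D_36 (nat_lit 55) (nat_lit 72) (nat_lit 38) (nat_lit 4) (nat_lit 5) (nat_lit 7) (nat_lit 4) (nat_lit 5) (nat_lit 6) (by decide +kernel)
theorem L98689 : W_36 (nat_lit 3) (nat_lit 0x2000000018000b0004800240016000000000000000000) (nat_lit 0x0) (nat_lit 0x1000000001000180004000000000) := T_36 (nat_lit 56) (nat_lit 108) (nat_lit 7) (nat_lit 5) (nat_lit 3) L98688 (by decide +kernel)
theorem L98690 : W_36 (nat_lit 4) (nat_lit 0x200000001800090004800240016000000000000000000) (nat_lit 0x0) (nat_lit 0x400020001000000001000180004000000000) := T_36 (nat_lit 125) (nat_lit 142) (nat_lit 7) (nat_lit 5) (nat_lit 4) L98689 (by decide +kernel)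
theorem L98691 : W_36 (nat_lit 5) (nat_lit 0x200000001800090004800240012000000000000000000) (nat_lit 0x0) (nat_lit 0x400020001000000005000380004000000000) := T_36 (nat_lit 74) (nat_lit 57) (nat_lit 6) (nat_lit 5) (nat_lit 7) L98690 (by decide +kernel)
theorem L98692 : W_36 (nat_lit 6) (nat_lit 0x200000001000090004800240012000000000000000000) (nat_lit 0x0) (nat_lit 0x10000c00020001000000005000380004000000000) := T_36 (nat_lit 143) (nat_lit 160) (nat_lit 5) (nat_lit 8) (nat_lit 5) L98691 (by decide +kernel)
theorem L98693 : W_36 (nat_lit 2) (nat_lit 0x200000001200098006800240016000000000000000000) (nat_lit 0x0) (nat_lit 0x20001000080000000000000) := D_36 (nat_lit 72) (nat_lit 89) (nat_lit 55) (nat_lit 4) (nat_lit 5) (nat_lit 8) (nat_lit 4) (nat_lit 5) (nat_lit 7) (by decide +kernel)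
theorem L98694 : W_36 (nat_lit 3) (nat_lit 0x200000001000098006800240016000000000000000000) (nat_lit 0x0) (nat_lit 0x2000000000000a0001000080000000000000) := T_36 (nat_lit 141) (nat_lit 91) (nat_lit 6) (nat_lit 5) (nat_lit 8) L98693 (by decide +kernel)
theorem L98695 : W_36 (nat_lit 4) (nat_lit 0x200000001000098004800240016000000000000000000) (nat_lit 0x0) (nat_lit 0x2000000030000a0001000080000000000000) := T_36 (nat_lit 109) (nat_lit 108) (nat_lit 1) (nat_lit 8) (nat_lit 6) L98694 (by decide +kernel)
theorem L98696 : W_36 (nat_lit 5) (nat_lit 0x200000001000090004800240016000000000000000000) (nat_lit 0x0) (nat_lit 0x3000080030000a0001000080000000000000) := T_36 (nat_lit 123) (nat_lit 140) (nat_lit 5) (nat_lit 5) (nat_lit 4) L98695 (by decide +kernel)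
theorem L98697 : W_36 (nat_lit 6) (nat_lit 0x200000001000090004800240012000000000000000000) (nat_lit 0x0) (nat_lit 0x3000080030000a0005000280000000000000) := T_36 (nat_lit 74) (nat_lit 57) (nat_lit 6) (nat_lit 5) (nat_lit 7) L98696 (by decide +kernel)
theorem L98698 : W_36 (nat_lit 2) (nat_lit 0x200000001a00090004800240016000000000000000000) (nat_lit 0x0) (nat_lit 0x2000100008000000000000000000000000000000) := D_36 (nat_lit 140) (nat_lit 157) (nat_lit 123) (nat_lit 5) (nat_lit 5) (nat_lit 5) (nat_lit 5) (nat_lit 5) (nat_lit 4) (by decide +kernel)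
theorem L98699 : W_36 (nat_lit 3) (nat_lit 0x200000001800090004800240016000000000000000000) (nat_lit 0x0) (nat_lit 0x2000300008000000080000000000000000000000) := T_36 (nat_lit 141) (nat_lit 91) (nat_lit 6) (nat_lit 5) (nat_lit 8) L98698 (by decide +kernel)
theorem L98700 : W_36 (nat_lit 4) (nat_lit 0x200000001000090004800240016000000000000000000) (nat_lit 0x0) (nat_lit 0x12000b00008000000080000000000000000000000) := T_36 (nat_lit 143) (nat_lit 160) (nat_lit 5) (nat_lit 8) (nat_lit 5) L98699 (by decide +kernel)
theorem L98701 : W_36 (nat_lit 5) (nat_lit 0x200000001000090004800240012000000000000000000) (nat_lit 0x0) (nat_lit 0x12000b00008000000080004000200000000000000) := T_36 (nat_lit 74) (nat_lit 57) (nat_lit 6) (nat_lit 5) (nat_lit 7) L98700 (by decide +kernel)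
theorem L98702 : W_36 (nat_lit 7) (nat_lit 0x200000001000090004800240010000000000000000000) (nat_lit 0x0) (nat_lit 0x12000f000280034000a0007000380004000000000) := Q_36 (nat_lit 73) (C_36 L98681 (C_36 L98692 (C_36 L98697 (C_36 L98701 N_36)))) (by decide +kernel)
theorem L98703 : W_36 (nat_lit 2) (nat_lit 0x2000000018800bc005a00240017000000000000000000) (nat_lit 0x0) (nat_lit 0x400030000000000000000000000) := D_36 (nat_lit 89) (nat_lit 106) (nat_lit 88) (nat_lit 5) (nat_lit 4) (nat_lit 4) (nat_lit 6) (nat_lit 3) (nat_lit 8) (by decide +kernel)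
theorem L98704 : W_36 (nat_lit 3) (nat_lit 0x2000000018800bc005800240017000000000000000000) (nat_lit 0x0) (nat_lit 0x700030000000000000000000000) := T_36 (nat_lit 105) (nat_lit 104) (nat_lit 0) (nat_lit 6) (nat_lit 7) L98703 (by decide +kernel)
theorem L98705 : W_36 (nat_lit 4) (nat_lit 0x2000000018000bc005800240017000000000000000000) (nat_lit 0x0) (nat_lit 0xc0000000700030000000000000000000000) := T_36 (nat_lit 139) (nat_lit 138) (nat_lit 1) (nat_lit 6) (nat_lit 7) L98704 (by decide +kernel)
theorem L98706 : W_36 (nat_lit 5) (nat_lit 0x2000000018000b8005800240017000000000000000000) (nat_lit 0x0) (nat_lit 0xc0006000700030000000000000000000000) := T_36 (nat_lit 122) (nat_lit 121) (nat_lit 2) (nat_lit 2) (nat_lit 7) L98705 (by decide +kernel)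
theorem L98707 : W_36 (nat_lit 6) (nat_lit 0x2000000018000b8005800240016000000000000000000) (nat_lit 0x0) (nat_lit 0xc0006000700030001000080000000000000) := T_36 (nat_lit 72) (nat_lit 55) (nat_lit 4) (nat_lit 5) (nat_lit 7) L98706 (by decide +kernel)
theorem L98708 : W_36 (nat_lit 7) (nat_lit 0x2000000018000b8004800240016000000000000000000) (nat_lit 0x0) (nat_lit 0xc0006003700030001000080000000000000) := T_36 (nat_lit 108) (nat_lit 109) (nat_lit 1) (nat_lit 8) (nat_lit 6) L98707 (by decide +kernel)
theorem L98709 : W_36 (nat_lit 8) (nat_lit 0x2000000018000b0004800240016000000000000000000) (nat_lit 0x0) (nat_lit 0x1c000e003700030001000080000000000000) := T_36 (nat_lit 123) (nat_lit 140) (nat_lit 5) (nat_lit 5) (nat_lit 4) L98708 (by decide +kernel)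
theorem L98710 : W_36 (nat_lit 9) (nat_lit 0x2000000018000b0004800240012000000000000000000) (nat_lit 0x0) (nat_lit 0x1c000e003700030005000280000000000000) := T_36 (nat_lit 74) (nat_lit 57) (nat_lit 6) (nat_lit 5) (nat_lit 7) L98709 (by decide +kernel)
theorem L98711 : W_36 (nat_lit 10) (nat_lit 0x2000000010000b0004800240012000000000000000000) (nat_lit 0x0) (nat_lit 0x100009c000e003700030005000280000000000000) := T_36 (nat_lit 143) (nat_lit 160) (nat_lit 5) (nat_lit 8) (nat_lit 5) L98710 (by decide +kernel)
theorem L98712 : W_36 (nat_lit 11) (nat_lit 0x200000001000090004800240012000000000000000000) (nat_lit 0x0) (nat_lit 0x10000dc002e003700030005000280000000000000) := T_36 (nat_lit 125) (nat_lit 142) (nat_lit 7) (nat_lit 5) (nat_lit 4) L98711 (by decide +kernel)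
theorem L98713 : W_36 (nat_lit 12) (nat_lit 0x200000001000090004800240010000000000000000000) (nat_lit 0x0) (nat_lit 0x10000dc002e003700030027001380014000000000) := Q_36 (nat_lit 73) (C_36 L98692 (C_36 L98681 (C_36 L98712 (C_36 L98674 N_36)))) (by decide +kernel)
theorem L98714 : W_36 (nat_lit 11) (nat_lit 0x200000001000090004800240010000000000000000000) (nat_lit 0x0) (nat_lit 0x100038005c001e000f00028001400020023001080000000000000) := Q_36 (nat_lit 141) (C_36 L98336 (C_36 L98312 (C_36 L98301 (C_36 L98322 N_36)))) (by decide +kernel)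
theorem L98715 : W_36 (nat_lit 11) (nat_lit 0x200000001000090004800240010000000000000000000) (nat_lit 0x0) (nat_lit 0x100038005c001c000e000200014000a0027001280000000000000) := Q_36 (nat_lit 141) (C_36 L98322 (C_36 L98309 (C_36 L98265 (C_36 L98245 (C_36 L98240 N_36))))) (by decide +kernel)
theorem L98716 : W_36 (nat_lit 2) (nat_lit 0x200000001600090004800240030000000000000000000) (nat_lit 0x0) (nat_lit 0x10000800008000000000000000000000000000000) := D_36 (nat_lit 143) (nat_lit 123) (nat_lit 160) (nat_lit 0) (nat_lit 8) (nat_lit 8) (nat_lit 5) (nat_lit 8) (nat_lit 5) (by decide +kernel)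
theorem L98717 : W_36 (nat_lit 3) (nat_lit 0x200000001200090004800240030000000000000000000) (nat_lit 0x0) (nat_lit 0x18000c00008000000000000000000000000000000) := T_36 (nat_lit 142) (nat_lit 159) (nat_lit 7) (nat_lit 5) (nat_lit 5) L98716 (by decide +kernel)
theorem L98718 : W_36 (nat_lit 4) (nat_lit 0x200000001200090004800240010000000000000000000) (nat_lit 0x0) (nat_lit 0x18000c00008000000000020001000000000000000) := T_36 (nat_lit 77) (nat_lit 60) (nat_lit 6) (nat_lit 8) (nat_lit 7) L98717 (by decide +kernel)
theorem L98719 : W_36 (nat_lit 9) (nat_lit 0x200000001000090004800240010000000000000000000) (nat_lit 0x0) (nat_lit 0x20001c001e000f000080014000a0025001000000000000000) := Q_36 (nat_lit 141) (C_36 L98336 (C_36 L98309 (C_36 L98269 (C_36 L98718 N_36)))) (by decide +kernel)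
theorem L98720 : W_36 (nat_lit 6) (nat_lit 0x200000001000090004800240010000000000000000000) (nat_lit 0x0) (nat_lit 0x4001e000f00028001000080026001000000000000000) := Q_36 (nat_lit 141) (C_36 L98718 (C_36 L98312 (C_36 L98269 N_36))) (by decide +kernel)
theorem L98721 : W_36 (nat_lit 13) (nat_lit 0x200000001000080004800240010000000000000000000) (nat_lit 0x0) (nat_lit 0x100038005c001e000fc003e0037000b0027001380014000000000) := Q_36 (nat_lit 124) (C_36 L98682 (C_36 L98687 (C_36 L98702 (C_36 L98713 (C_36 L98714 (C_36 L98715 (C_36 L98719 (C_36 L98720 N_36)))))))) (by decide +kernel)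
theorem L98722 : W_36 (nat_lit 2) (nat_lit 0x800380004001a000900048002e0030000000000000000000) (nat_lit 0x0) (nat_lit 0x10001000400000000000000000000000000000000000000000000) := D_36 (nat_lit 192) (nat_lit 178) (nat_lit 208) (nat_lit 1) (nat_lit 8) (nat_lit 10) (nat_lit 5) (nat_lit 5) (nat_lit 8) (by decide +kernel)
theorem L98723 : W_36 (nat_lit 3) (nat_lit 0x380004001a000900048002e0030000000000000000000) (nat_lit 0x0) (nat_lit 0x10001800440000000000000000000000000000000000000000000) := T_36 (nat_lit 191) (nat_lit 174) (nat_lit 5) (nat_lit 5) (nat_lit 7) L98722 (by decide +kernel)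
theorem L98724 : W_36 (nat_lit 4) (nat_lit 0x300004001a000900048002e0030000000000000000000) (nat_lit 0x0) (nat_lit 0x100038004c0000000000000000000000000000000000000000000) := T_36 (nat_lit 175) (nat_lit 193) (nat_lit 7) (nat_lit 5) (nat_lit 7) L98723 (by decide +kernel)
theorem L98725 : W_36 (nat_lit 5) (nat_lit 0x200004001a000900048002e0030000000000000000000) (nat_lit 0x0) (nat_lit 0x100038005c0008000000000000000000000000000000000000000) := T_36 (nat_lit 176) (nat_lit 159) (nat_lit 7) (nat_lit 5) (nat_lit 6) L98724 (by decide +kernel)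
theorem L98726 : W_36 (nat_lit 6) (nat_lit 0x200000001a000900048002e0030000000000000000000) (nat_lit 0x0) (nat_lit 0x100038005c000c000000000000400000000000000000000000000) := T_36 (nat_lit 158) (nat_lit 106) (nat_lit 4) (nat_lit 5) (nat_lit 9) L98725 (by decide +kernel)
theorem L98727 : W_36 (nat_lit 7) (nat_lit 0x200000001a00090004800260030000000000000000000) (nat_lit 0x0) (nat_lit 0x100038005c000c000000000000400080004000000000000000000) := T_36 (nat_lit 91) (nat_lit 74) (nat_lit 6) (nat_lit 5) (nat_lit 8) L98726 (by decide +kernel)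
theorem L98728 : W_36 (nat_lit 8) (nat_lit 0x200000001a00090004800240030000000000000000000) (nat_lit 0x0) (nat_lit 0x100038005c000c0000000000004000a0005000000000000000000) := T_36 (nat_lit 89) (nat_lit 72) (nat_lit 4) (nat_lit 5) (nat_lit 8) L98727 (by decide +kernel)
theorem L98729 : W_36 (nat_lit 9) (nat_lit 0x200000001a00090004800240010000000000000000000) (nat_lit 0x0) (nat_lit 0x100038005c000c0000000000004000a0025001000000000000000) := T_36 (nat_lit 77) (nat_lit 60) (nat_lit 6) (nat_lit 8) (nat_lit 7) L98728 (by decide +kernel)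
theorem L98730 : W_36 (nat_lit 10) (nat_lit 0x200000001200090004800240010000000000000000000) (nat_lit 0x0) (nat_lit 0x100038005c001c0008000000004000a0025001000000000000000) := T_36 (nat_lit 143) (nat_lit 160) (nat_lit 5) (nat_lit 8) (nat_lit 5) L98729 (by decide +kernel)
theorem L98731 : W_36 (nat_lit 11) (nat_lit 0x200000001200080004800240010000000000000000000) (nat_lit 0x0) (nat_lit 0x100038005c001e0009000180004000a0027001f80090000000000) := Q_36 (nat_lit 124) (C_36 L98336 (C_36 L98329 (C_36 L98261 (C_36 L98730 N_36)))) (by decide +kernel)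
theorem L98732 : W_36 (nat_lit 12) (nat_lit 0x200000001000080004800240010000000000000000000) (nat_lit 0x0) (nat_lit 0x100038005c001f000f0013c0004000a0027001f80090000000000) := Q_36 (nat_lit 141) (C_36 L98313 (C_36 L98281 (C_36 L98216 (C_36 L98731 (C_36 L98275 N_36))))) (by decide +kernel)
theorem L98733 : W_36 (nat_lit 2) (nat_lit 0x200000001800080004800240012001e00000000000000) (nat_lit 0x0) (nat_lit 0x1000100010000000000) := D_36 (nat_lit 56) (nat_lit 72) (nat_lit 40) (nat_lit 1) (nat_lit 8) (nat_lit 3) (nat_lit 6) (nat_lit 5) (nat_lit 6) (by decide +kernel)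
theorem L98734 : W_36 (nat_lit 3) (nat_lit 0x200000001800080004800240012001c00000000000000) (nat_lit 0x0) (nat_lit 0x5000300010000000000) := T_36 (nat_lit 57) (nat_lit 74) (nat_lit 1) (nat_lit 9) (nat_lit 3) L98733 (by decide +kernel)
theorem L98735 : W_36 (nat_lit 4) (nat_lit 0x200000001800080004800240012001800000000000000) (nat_lit 0x0) (nat_lit 0x5000700030000000000) := T_36 (nat_lit 58) (nat_lit 41) (nat_lit 4) (nat_lit 8) (nat_lit 6) L98734 (by decide +kernel)
theorem L98736 : W_36 (nat_lit 5) (nat_lit 0x200000001800080004800240012001000000000000000) (nat_lit 0x0) (nat_lit 0x5000f000b0000000000) := T_36 (nat_lit 59) (nat_lit 43) (nat_lit 6) (nat_lit 8) (nat_lit 6) L98735 (by decide +kernel)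
theorem L98737 : W_36 (nat_lit 6) (nat_lit 0x200000001800080004800240012000000000000000000) (nat_lit 0x0) (nat_lit 0x25001f000b0000000000) := T_36 (nat_lit 60) (nat_lit 77) (nat_lit 6) (nat_lit 8) (nat_lit 7) L98736 (by decide +kernel)
theorem L98738 : W_36 (nat_lit 7) (nat_lit 0x200000001000080004800240012000000000000000000) (nat_lit 0x0) (nat_lit 0x10000800000000000000025001f000b0000000000) := T_36 (nat_lit 143) (nat_lit 160) (nat_lit 5) (nat_lit 8) (nat_lit 5) L98737 (by decide +kernel)
theorem L98739 : W_36 (nat_lit 2) (nat_lit 0x200000001000080004800240012001e00000000000000) (nat_lit 0x0) (nat_lit 0x1000100010000000000) := D_36 (nat_lit 56) (nat_lit 72) (nat_lit 40) (nat_lit 1) (nat_lit 8) (nat_lit 3) (nat_lit 6) (nat_lit 5) (nat_lit 6) (by decide +kernel)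
theorem L98740 : W_36 (nat_lit 3) (nat_lit 0x200000001000080004800240012001c00000000000000) (nat_lit 0x0) (nat_lit 0x5000300010000000000) := T_36 (nat_lit 57) (nat_lit 74) (nat_lit 1) (nat_lit 9) (nat_lit 3) L98739 (by decide +kernel)
theorem L98741 : W_36 (nat_lit 4) (nat_lit 0x200000001000080004800240012001800000000000000) (nat_lit 0x0) (nat_lit 0x5000700030000000000) := T_36 (nat_lit 58) (nat_lit 41) (nat_lit 4) (nat_lit 8) (nat_lit 6) L98740 (by decide +kernel)
theorem L98742 : W_36 (nat_lit 5) (nat_lit 0x200000001000080004800240012001000000000000000) (nat_lit 0x0) (nat_lit 0x5000f000b0000000000) := T_36 (nat_lit 59) (nat_lit 43) (nat_lit 6) (nat_lit 8) (nat_lit 6) L98741 (by decide +kernel)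
theorem L98743 : W_36 (nat_lit 6) (nat_lit 0x200000001000080004800240012000000000000000000) (nat_lit 0x0) (nat_lit 0x25001f000b0000000000) := T_36 (nat_lit 60) (nat_lit 77) (nat_lit 6) (nat_lit 8) (nat_lit 7) L98742 (by decide +kernel)
theorem L98744 : W_36 (nat_lit 2) (nat_lit 0x200000001800080004800240012000380000000000000) (nat_lit 0x0) (nat_lit 0x10000000000005000000000000000000) := D_36 (nat_lit 124) (nat_lit 74) (nat_lit 72) (nat_lit 6) (nat_lit 5) (nat_lit 7) (nat_lit 4) (nat_lit 5) (nat_lit 7) (by decide +kernel)
theorem L98745 : W_36 (nat_lit 3) (nat_lit 0x200000001800080004800240012000300000000000000) (nat_lit 0x0) (nat_lit 0x10000000000005000080004000000000) := T_36 (nat_lit 55) (nat_lit 38) (nat_lit 4) (nat_lit 5) (nat_lit 6) L98744 (by decide +kernel)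
theorem L98746 : W_36 (nat_lit 4) (nat_lit 0x200000001800080004800240012000100000000000000) (nat_lit 0x0) (nat_lit 0x10000000000005000280014000000000) := T_36 (nat_lit 57) (nat_lit 40) (nat_lit 6) (nat_lit 5) (nat_lit 6) L98745 (by decide +kernel)
theorem L98747 : W_36 (nat_lit 5) (nat_lit 0x200000001000080004800240012000100000000000000) (nat_lit 0x0) (nat_lit 0x10000800010000000000005000280014000000000) := T_36 (nat_lit 143) (nat_lit 160) (nat_lit 5) (nat_lit 8) (nat_lit 5) L98746 (by decide +kernel)
theorem L98748 : W_36 (nat_lit 6) (nat_lit 0x200000001000080004800240012000000000000000000) (nat_lit 0x0) (nat_lit 0x1000080001800040002000500038001c000a00000) := Q_36 (nat_lit 56) (C_36 L98508 (C_36 L98747 (C_36 L98444 N_36))) (by decide +kernel)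
theorem L98749 : W_36 (nat_lit 2) (nat_lit 0x20000000180008800c800240012001980070000000000) (nat_lit 0x0) (nat_lit 0x100010000000000001000000000000000000) := D_36 (nat_lit 124) (nat_lit 140) (nat_lit 72) (nat_lit 5) (nat_lit 5) (nat_lit 4) (nat_lit 4) (nat_lit 5) (nat_lit 7) (by decide +kernel)
theorem L98750 : W_36 (nat_lit 3) (nat_lit 0x20000000180008800c800240012001900070000000000) (nat_lit 0x0) (nat_lit 0x100010000000000001000080004000000000) := T_36 (nat_lit 55) (nat_lit 38) (nat_lit 4) (nat_lit 5) (nat_lit 6) L98749 (by decide +kernel)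
theorem L98751 : W_36 (nat_lit 4) (nat_lit 0x20000000180008000c800240012001900070000000000) (nat_lit 0x0) (nat_lit 0x100018000400000001000080004000000000) := T_36 (nat_lit 123) (nat_lit 106) (nat_lit 5) (nat_lit 5) (nat_lit 3) L98750 (by decide +kernel)
theorem L98752 : W_36 (nat_lit 5) (nat_lit 0x20000000180008000c800240012001800070000000000) (nat_lit 0x0) (nat_lit 0x100018000400000001000380004000000000) := T_36 (nat_lit 56) (nat_lit 57) (nat_lit 6) (nat_lit 5) (nat_lit 6) L98751 (by decide +kernel)
theorem L98753 : W_36 (nat_lit 6) (nat_lit 0x20000000180008000c800240012001800060000000000) (nat_lit 0x0) (nat_lit 0x10001800040000000100038001c000000000) := T_36 (nat_lit 40) (nat_lit 39) (nat_lit 3) (nat_lit 5) (nat_lit 2) L98752 (by decide +kernel)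
theorem L98754 : W_36 (nat_lit 7) (nat_lit 0x20000000180008000c800240012001800020000000000) (nat_lit 0x0) (nat_lit 0x10001800040000000100038005c001000000) := T_36 (nat_lit 42) (nat_lit 24) (nat_lit 4) (nat_lit 8) (nat_lit 5) L98753 (by decide +kernel)
theorem L98755 : W_36 (nat_lit 8) (nat_lit 0x200000001800080004800240012001800020000000000) (nat_lit 0x0) (nat_lit 0x10011800840000000100038005c001000000) := T_36 (nat_lit 111) (nat_lit 128) (nat_lit 7) (nat_lit 8) (nat_lit 3) L98754 (by decide +kernel)
theorem L98756 : W_36 (nat_lit 9) (nat_lit 0x200000001800080004800240012001800000000000000) (nat_lit 0x0) (nat_lit 0x10011800840000000100078007c001000000) := T_36 (nat_lit 41) (nat_lit 58) (nat_lit 4) (nat_lit 8) (nat_lit 6) L98755 (by decide +kernel)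
theorem L98757 : W_36 (nat_lit 10) (nat_lit 0x200000001800080004800240012001000000000000000) (nat_lit 0x0) (nat_lit 0x100118008400000001000f800fc001000000) := T_36 (nat_lit 59) (nat_lit 43) (nat_lit 6) (nat_lit 8) (nat_lit 6) L98756 (by decide +kernel)
theorem L98758 : W_36 (nat_lit 11) (nat_lit 0x200000001800080004800240012000000000000000000) (nat_lit 0x0) (nat_lit 0x100118008400000021001f800fc001000000) := T_36 (nat_lit 60) (nat_lit 77) (nat_lit 6) (nat_lit 8) (nat_lit 7) L98757 (by decide +kernel)
theorem L98759 : W_36 (nat_lit 12) (nat_lit 0x200000001000080004800240012000000000000000000) (nat_lit 0x0) (nat_lit 0x10000900118008400000021001f800fc001000000) := T_36 (nat_lit 143) (nat_lit 160) (nat_lit 5) (nat_lit 8) (nat_lit 5) L98758 (by decide +kernel)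
theorem L98760 : W_36 (nat_lit 2) (nat_lit 0x200000001800180005800240012005900068000000000) (nat_lit 0x0) (nat_lit 0x8000400020000000000000000000000) := D_36 (nat_lit 106) (nat_lit 123) (nat_lit 89) (nat_lit 5) (nat_lit 5) (nat_lit 3) (nat_lit 5) (nat_lit 5) (nat_lit 2) (by decide +kernel)
theorem L98761 : W_36 (nat_lit 3) (nat_lit 0x200000001800180005800240012005800068000000000) (nat_lit 0x0) (nat_lit 0x80004000a0000000100000000000000) := T_36 (nat_lit 56) (nat_lit 91) (nat_lit 7) (nat_lit 5) (nat_lit 2) L98760 (by decide +kernel)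
theorem L98762 : W_36 (nat_lit 4) (nat_lit 0x200000001800180004800240012005800068000000000) (nat_lit 0x0) (nat_lit 0x80034000a0000000100000000000000) := T_36 (nat_lit 108) (nat_lit 109) (nat_lit 3) (nat_lit 5) (nat_lit 6) L98761 (by decide +kernel)
theorem L98763 : W_36 (nat_lit 5) (nat_lit 0x200000001800180004800240012001800068000000000) (nat_lit 0x0) (nat_lit 0x80034000a0000006100000000000000) := T_36 (nat_lit 62) (nat_lit 61) (nat_lit 0) (nat_lit 11) (nat_lit 3) L98762 (by decide +kernel)
theorem L98764 : W_36 (nat_lit 6) (nat_lit 0x200000001800180004800240012001800060000000000) (nat_lit 0x0) (nat_lit 0x80034000a0000006100018000000000) := T_36 (nat_lit 39) (nat_lit 40) (nat_lit 3) (nat_lit 5) (nat_lit 2) L98763 (by decide +kernel)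
theorem L98765 : W_36 (nat_lit 7) (nat_lit 0x200000001800180004800240012001800020000000000) (nat_lit 0x0) (nat_lit 0x80034000a0000006100058001000000) := T_36 (nat_lit 42) (nat_lit 24) (nat_lit 4) (nat_lit 8) (nat_lit 5) L98764 (by decide +kernel)
theorem L98766 : W_36 (nat_lit 8) (nat_lit 0x200000001800080004800240012001800020000000000) (nat_lit 0x0) (nat_lit 0x10800b4000a0000006100058001000000) := T_36 (nat_lit 128) (nat_lit 111) (nat_lit 7) (nat_lit 8) (nat_lit 3) L98765 (by decide +kernel)
theorem L98767 : W_36 (nat_lit 9) (nat_lit 0x200000001800080004800240012001800000000000000) (nat_lit 0x0) (nat_lit 0x10800b4000a0000006500078001000000) := T_36 (nat_lit 41) (nat_lit 58) (nat_lit 4) (nat_lit 8) (nat_lit 6) L98766 (by decide +kernel)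
theorem L98768 : W_36 (nat_lit 10) (nat_lit 0x200000001800080004800240012001000000000000000) (nat_lit 0x0) (nat_lit 0x10800b4000a0000006d000f8001000000) := T_36 (nat_lit 59) (nat_lit 43) (nat_lit 6) (nat_lit 8) (nat_lit 6) L98767 (by decide +kernel)
theorem L98769 : W_36 (nat_lit 11) (nat_lit 0x200000001000080004800240012001000000000000000) (nat_lit 0x0) (nat_lit 0x1000080010800b4000a0000006d000f8001000000) := T_36 (nat_lit 143) (nat_lit 160) (nat_lit 5) (nat_lit 8) (nat_lit 5) L98768 (by decide +kernel)
theorem L98770 : W_36 (nat_lit 12) (nat_lit 0x200000001000080004800240012000000000000000000) (nat_lit 0x0) (nat_lit 0x1000080010800b4000a0020007d000f8001000000) := T_36 (nat_lit 60) (nat_lit 77) (nat_lit 6) (nat_lit 8) (nat_lit 7) L98769 (by decide +kernel)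
theorem L98771 : W_36 (nat_lit 2) (nat_lit 0x200000001a00590005800240016001c00000000000000) (nat_lit 0x0) (nat_lit 0x2000100008000000000000000000000000000000) := D_36 (nat_lit 140) (nat_lit 157) (nat_lit 123) (nat_lit 5) (nat_lit 5) (nat_lit 5) (nat_lit 5) (nat_lit 5) (nat_lit 4) (by decide +kernel)
theorem L98772 : W_36 (nat_lit 3) (nat_lit 0x200000001a00580005800240016001c00000000000000) (nat_lit 0x0) (nat_lit 0x2000100018000000080000000000000000000000) := T_36 (nat_lit 124) (nat_lit 91) (nat_lit 6) (nat_lit 5) (nat_lit 8) L98771 (by decide +kernel)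
theorem L98773 : W_36 (nat_lit 4) (nat_lit 0x200000001a00180005800240016001c00000000000000) (nat_lit 0x0) (nat_lit 0x2000100618000000080000000000000000000000) := T_36 (nat_lit 130) (nat_lit 129) (nat_lit 1) (nat_lit 11) (nat_lit 7) L98772 (by decide +kernel)
theorem L98774 : W_36 (nat_lit 5) (nat_lit 0x200000001800180005800240016001c00000000000000) (nat_lit 0x0) (nat_lit 0x2000700618000000080000000000000000000000) := T_36 (nat_lit 141) (nat_lit 142) (nat_lit 2) (nat_lit 5) (nat_lit 8) L98773 (by decide +kernel)
theorem L98775 : W_36 (nat_lit 6) (nat_lit 0x200000001800180004800240016001c00000000000000) (nat_lit 0x0) (nat_lit 0x2000700618003000080000000000000000000000) := T_36 (nat_lit 108) (nat_lit 109) (nat_lit 3) (nat_lit 5) (nat_lit 6) L98774 (by decide +kernel)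
theorem L98776 : W_36 (nat_lit 7) (nat_lit 0x200000001800080004800240016001c00000000000000) (nat_lit 0x0) (nat_lit 0x200070071800b000080000000000000000000000) := T_36 (nat_lit 128) (nat_lit 111) (nat_lit 7) (nat_lit 8) (nat_lit 3) L98775 (by decide +kernel)
theorem L98777 : W_36 (nat_lit 8) (nat_lit 0x200000001800080004800240012001c00000000000000) (nat_lit 0x0) (nat_lit 0x200070071800b000080004000200000000000000) := T_36 (nat_lit 74) (nat_lit 57) (nat_lit 1) (nat_lit 9) (nat_lit 3) L98776 (by decide +kernel)
theorem L98778 : W_36 (nat_lit 9) (nat_lit 0x200000001800080004800240012001800000000000000) (nat_lit 0x0) (nat_lit 0x200070071800b000080004000600020000000000) := T_36 (nat_lit 58) (nat_lit 41) (nat_lit 4) (nat_lit 8) (nat_lit 6) L98777 (by decide +kernel)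
theorem L98779 : W_36 (nat_lit 10) (nat_lit 0x200000001800080004800240012001000000000000000) (nat_lit 0x0) (nat_lit 0x200070071800b000080004000e000a0000000000) := T_36 (nat_lit 59) (nat_lit 43) (nat_lit 6) (nat_lit 8) (nat_lit 6) L98778 (by decide +kernel)
theorem L98780 : W_36 (nat_lit 11) (nat_lit 0x200000001800080004800240012000000000000000000) (nat_lit 0x0) (nat_lit 0x200070071800b000080024001e000a0000000000) := T_36 (nat_lit 60) (nat_lit 77) (nat_lit 6) (nat_lit 8) (nat_lit 7) L98779 (by decide +kernel)
theorem L98781 : W_36 (nat_lit 12) (nat_lit 0x200000001000080004800240012000000000000000000) (nat_lit 0x0) (nat_lit 0x12000f0071800b000080024001e000a0000000000) := T_36 (nat_lit 143) (nat_lit 160) (nat_lit 5) (nat_lit 8) (nat_lit 5) L98780 (by decide +kernel)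
theorem L98782 : W_36 (nat_lit 13) (nat_lit 0x200000001000080004800240010000000000000000000) (nat_lit 0x0) (nat_lit 0x12000f0071800b4000a0027007f800fc001a00000) := Q_36 (nat_lit 73) (C_36 L98738 (C_36 L98743 (C_36 L98748 (C_36 L98759 (C_36 L98770 (C_36 L98781 N_36)))))) (by decide +kernel)
theorem L98783 : W_36 (nat_lit 2) (nat_lit 0x2000040013000900048002c0030000000000000000000) (nat_lit 0x0) (nat_lit 0x100008000400000000000000000000000000000000000) := D_36 (nat_lit 159) (nat_lit 142) (nat_lit 176) (nat_lit 7) (nat_lit 5) (nat_lit 5) (nat_lit 7) (nat_lit 5) (nat_lit 6) (by decide +kernel)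
theorem L98784 : W_36 (nat_lit 3) (nat_lit 0x2000000013000900048002c0030000000000000000000) (nat_lit 0x0) (nat_lit 0x10000c000400000001000000000000000000000000000) := T_36 (nat_lit 158) (nat_lit 108) (nat_lit 6) (nat_lit 5) (nat_lit 9) L98783 (by decide +kernel)
theorem L98785 : W_36 (nat_lit 4) (nat_lit 0x2000000012000900048002c0030000000000000000000) (nat_lit 0x0) (nat_lit 0x10000e000500000001000000000000000000000000000) := T_36 (nat_lit 140) (nat_lit 157) (nat_lit 5) (nat_lit 5) (nat_lit 5) L98784 (by decide +kernel)
theorem L98786 : W_36 (nat_lit 5) (nat_lit 0x200000001200090004800240030000000000000000000) (nat_lit 0x0) (nat_lit 0x10000e000500000001000080004000000000000000000) := T_36 (nat_lit 91) (nat_lit 74) (nat_lit 6) (nat_lit 5) (nat_lit 8) L98785 (by decide +kernel)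
theorem L98787 : W_36 (nat_lit 6) (nat_lit 0x200000001200090004800240010000000000000000000) (nat_lit 0x0) (nat_lit 0x10000e000500000001000080024001000000000000000) := T_36 (nat_lit 77) (nat_lit 60) (nat_lit 6) (nat_lit 8) (nat_lit 7) L98786 (by decide +kernel)
theorem L98788 : W_36 (nat_lit 2) (nat_lit 0x2000000012000900048002e0010000000000000000000) (nat_lit 0x0) (nat_lit 0x4000000000003000000000000000000000000000) := D_36 (nat_lit 108) (nat_lit 109) (nat_lit 158) (nat_lit 0) (nat_lit 8) (nat_lit 6) (nat_lit 6) (nat_lit 5) (nat_lit 9) (by decide +kernel)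
theorem L98789 : W_36 (nat_lit 3) (nat_lit 0x2000000012000900048002c0010000000000000000000) (nat_lit 0x0) (nat_lit 0x4000000000003000020001000000000000000000) := T_36 (nat_lit 89) (nat_lit 72) (nat_lit 4) (nat_lit 5) (nat_lit 8) L98788 (by decide +kernel)
theorem L98790 : W_36 (nat_lit 4) (nat_lit 0x200000001200090004800240010000000000000000000) (nat_lit 0x0) (nat_lit 0x40000000000030000a0005000000000000000000) := T_36 (nat_lit 91) (nat_lit 74) (nat_lit 6) (nat_lit 5) (nat_lit 8) L98789 (by decide +kernel)
theorem L98791 : W_36 (nat_lit 2) (nat_lit 0x200000001300090005a002f0010800000000000000000) (nat_lit 0x0) (nat_lit 0xc000400000000000000000000000000) := D_36 (nat_lit 123) (nat_lit 106) (nat_lit 122) (nat_lit 4) (nat_lit 4) (nat_lit 8) (nat_lit 7) (nat_lit 3) (nat_lit 4) (by decide +kernel)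
theorem L98792 : W_36 (nat_lit 3) (nat_lit 0x200000001300090005a002f0010000000000000000000) (nat_lit 0x0) (nat_lit 0xc000400000000c00000000000000000) := T_36 (nat_lit 71) (nat_lit 70) (nat_lit 0) (nat_lit 6) (nat_lit 5) L98791 (by decide +kernel)
theorem L98793 : W_36 (nat_lit 4) (nat_lit 0x2000000013000900058002f0010000000000000000000) (nat_lit 0x0) (nat_lit 0xc000700000000c00000000000000000) := T_36 (nat_lit 105) (nat_lit 104) (nat_lit 1) (nat_lit 6) (nat_lit 5) L98792 (by decide +kernel)
theorem L98794 : W_36 (nat_lit 5) (nat_lit 0x200000001300090005800270010000000000000000000) (nat_lit 0x0) (nat_lit 0xc000700080004c00000000000000000) := T_36 (nat_lit 91) (nat_lit 74) (nat_lit 6) (nat_lit 5) (nat_lit 8) L98793 (by decide +kernel)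
theorem L98795 : W_36 (nat_lit 6) (nat_lit 0x200000001300090005800260010000000000000000000) (nat_lit 0x0) (nat_lit 0xc000700098004c00000000000000000) := T_36 (nat_lit 88) (nat_lit 87) (nat_lit 3) (nat_lit 2) (nat_lit 5) L98794 (by decide +kernel)
theorem L98796 : W_36 (nat_lit 7) (nat_lit 0x200000001200090005800260010000000000000000000) (nat_lit 0x0) (nat_lit 0x200010000c000700098004c00000000000000000) := T_36 (nat_lit 140) (nat_lit 157) (nat_lit 5) (nat_lit 5) (nat_lit 5) L98795 (by decide +kernel)
theorem L98797 : W_36 (nat_lit 8) (nat_lit 0x200000001200090004800260010000000000000000000) (nat_lit 0x0) (nat_lit 0x200010000c003700098004c00000000000000000) := T_36 (nat_lit 108) (nat_lit 109) (nat_lit 0) (nat_lit 8) (nat_lit 6) L98796 (by decide +kernel)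
theorem L98798 : W_36 (nat_lit 9) (nat_lit 0x200000001200090004800240010000000000000000000) (nat_lit 0x0) (nat_lit 0x200010000c0037000b8005c00000000000000000) := T_36 (nat_lit 89) (nat_lit 72) (nat_lit 4) (nat_lit 5) (nat_lit 8) L98797 (by decide +kernel)
theorem L98799 : W_36 (nat_lit 10) (nat_lit 0x200000001200080004800240010000000000000000000) (nat_lit 0x0) (nat_lit 0x10000e00050001c0037000b8025c01000000000000000) := Q_36 (nat_lit 124) (C_36 L98787 (C_36 L98790 (C_36 L98798 (C_36 L98309 N_36)))) (by decide +kernel)
theorem L98800 : W_36 (nat_lit 10) (nat_lit 0x200000001200080004800240010000000000000000000) (nat_lit 0x0) (nat_lit 0x20001c001e00090001c0037000b8025c01000000000000000) := Q_36 (nat_lit 124) (C_36 L98336 (C_36 L98798 (C_36 L98790 (C_36 L98269 N_36)))) (by decide +kernel)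
theorem L98801 : W_36 (nat_lit 11) (nat_lit 0x200000001000080004800240010000000000000000000) (nat_lit 0x0) (nat_lit 0x20001c001f000f0011c0037000b8025c01000000000000000) := Q_36 (nat_lit 141) (C_36 L98799 (C_36 L98281 (C_36 L98216 (C_36 L98800 (C_36 L98275 N_36))))) (by decide +kernel)
theorem L98802 : W_36 (nat_lit 2) (nat_lit 0x200000001c005a0005800240010001c00000000000000) (nat_lit 0x0) (nat_lit 0x80002000100000000000000) := D_36 (nat_lit 73) (nat_lit 91) (nat_lit 56) (nat_lit 4) (nat_lit 6) (nat_lit 8) (nat_lit 7) (nat_lit 5) (nat_lit 3) (by decide +kernel)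
theorem L98803 : W_36 (nat_lit 3) (nat_lit 0x200000001c00580005800240010001c00000000000000) (nat_lit 0x0) (nat_lit 0x8000000020000000080002000100000000000000) := T_36 (nat_lit 125) (nat_lit 159) (nat_lit 4) (nat_lit 6) (nat_lit 9) L98802 (by decide +kernel)
theorem L98804 : W_36 (nat_lit 4) (nat_lit 0x200000001c00180005800240010001c00000000000000) (nat_lit 0x0) (nat_lit 0x8000000620000000080002000100000000000000) := T_36 (nat_lit 130) (nat_lit 129) (nat_lit 1) (nat_lit 11) (nat_lit 7) L98803 (by decide +kernel)
theorem L98805 : W_36 (nat_lit 5) (nat_lit 0x200000001800180005800240010001c00000000000000) (nat_lit 0x0) (nat_lit 0x8000600620000000080002000100000000000000) := T_36 (nat_lit 142) (nat_lit 141) (nat_lit 2) (nat_lit 5) (nat_lit 8) L98804 (by decide +kernel)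
theorem L98806 : W_36 (nat_lit 6) (nat_lit 0x200000001800180004800240010001c00000000000000) (nat_lit 0x0) (nat_lit 0x8000600620003000080002000100000000000000) := T_36 (nat_lit 108) (nat_lit 109) (nat_lit 3) (nat_lit 5) (nat_lit 6) L98805 (by decide +kernel)
theorem L98807 : W_36 (nat_lit 7) (nat_lit 0x200000001800080004800240010001c00000000000000) (nat_lit 0x0) (nat_lit 0x800060072000b000080002000100000000000000) := T_36 (nat_lit 128) (nat_lit 111) (nat_lit 7) (nat_lit 8) (nat_lit 3) L98806 (by decide +kernel)
theorem L98808 : W_36 (nat_lit 8) (nat_lit 0x200000001800080004800240010001800000000000000) (nat_lit 0x0) (nat_lit 0x800060072000b000080002000500020000000000) := T_36 (nat_lit 58) (nat_lit 41) (nat_lit 4) (nat_lit 8) (nat_lit 6) L98807 (by decide +kernel)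
theorem L98809 : W_36 (nat_lit 9) (nat_lit 0x200000001800080004800240010001000000000000000) (nat_lit 0x0) (nat_lit 0x800060072000b000080002000d000a0000000000) := T_36 (nat_lit 59) (nat_lit 43) (nat_lit 6) (nat_lit 8) (nat_lit 6) L98808 (by decide +kernel)
theorem L98810 : W_36 (nat_lit 10) (nat_lit 0x200000001000080004800240010001000000000000000) (nat_lit 0x0) (nat_lit 0x18000e0072000b000080002000d000a0000000000) := T_36 (nat_lit 143) (nat_lit 160) (nat_lit 5) (nat_lit 8) (nat_lit 5) L98809 (by decide +kernel)
theorem L98811 : W_36 (nat_lit 11) (nat_lit 0x200000001000080004800240010000000000000000000) (nat_lit 0x0) (nat_lit 0x18000e0072000b000080022001d000a0000000000) := T_36 (nat_lit 60) (nat_lit 77) (nat_lit 6) (nat_lit 8) (nat_lit 7) L98810 (by decide +kernel)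
theorem L98812 : W_36 (nat_lit 14) (nat_lit 0x200000001000080004000240010000000000000000000) (nat_lit 0x0) (nat_lit 0x100038005c001f000fc073e00bf000b80e7c07f803fe005a00000) := Q_36 (nat_lit 107) (C_36 L98650 (C_36 L98282 (C_36 L98670 (C_36 L98721 (C_36 L98732 (C_36 L98338 (C_36 L98782 (C_36 L98801 (C_36 L98811 N_36))))))))) (by decide +kernel)
theorem L98813 : W_36 (nat_lit 2) (nat_lit 0x2000000010000800040002c0010000000000000000000) (nat_lit 0x0) (nat_lit 0x8000100020000000000000000000) := D_36 (nat_lit 92) (nat_lit 77) (nat_lit 111) (nat_lit 2) (nat_lit 5) (nat_lit 5) (nat_lit 3) (nat_lit 5) (nat_lit 5) (by decide +kernel)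
theorem L98814 : W_36 (nat_lit 2) (nat_lit 0x2000000018000800048003e0010000000000000000000) (nat_lit 0x0) (nat_lit 0x3800000000000000000) := D_36 (nat_lit 72) (nat_lit 71) (nat_lit 73) (nat_lit 0) (nat_lit 7) (nat_lit 5) (nat_lit 0) (nat_lit 8) (nat_lit 5) (by decide +kernel)
theorem L98815 : W_36 (nat_lit 3) (nat_lit 0x2000000018000800048003c0010000000000000000000) (nat_lit 0x0) (nat_lit 0x2000020003800000000000000000) := T_36 (nat_lit 89) (nat_lit 109) (nat_lit 3) (nat_lit 4) (nat_lit 5) L98814 (by decide +kernel)
theorem L98816 : W_36 (nat_lit 4) (nat_lit 0x2000000018000800040003c0010000000000000000000) (nat_lit 0x0) (nat_lit 0x2c00020003800000000000000000) := T_36 (nat_lit 107) (nat_lit 106) (nat_lit 1) (nat_lit 8) (nat_lit 5) L98815 (by decide +kernel)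
theorem L98817 : W_36 (nat_lit 5) (nat_lit 0x2000000018000800040002c0010000000000000000000) (nat_lit 0x0) (nat_lit 0x2c00120023800000000000000000) := T_36 (nat_lit 92) (nat_lit 77) (nat_lit 2) (nat_lit 5) (nat_lit 5) L98816 (by decide +kernel)
theorem L98818 : W_36 (nat_lit 6) (nat_lit 0x2000000010000800040002c0010000000000000000000) (nat_lit 0x0) (nat_lit 0x10000800000002c00120023800000000000000000) := T_36 (nat_lit 143) (nat_lit 160) (nat_lit 5) (nat_lit 8) (nat_lit 5) L98817 (by decide +kernel)
theorem L98819 : W_36 (nat_lit 2) (nat_lit 0x2000000018000800070002c0010000000000000000000) (nat_lit 0x0) (nat_lit 0x100000800020000000000000000000000) := D_36 (nat_lit 107) (nat_lit 89) (nat_lit 128) (nat_lit 0) (nat_lit 8) (nat_lit 6) (nat_lit 3) (nat_lit 5) (nat_lit 6) (by decide +kernel)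
theorem L98820 : W_36 (nat_lit 3) (nat_lit 0x2000000018000800050002c0010000000000000000000) (nat_lit 0x0) (nat_lit 0x10000a800020000000000000000000000) := T_36 (nat_lit 109) (nat_lit 111) (nat_lit 0) (nat_lit 9) (nat_lit 6) L98819 (by decide +kernel)
theorem L98821 : W_36 (nat_lit 4) (nat_lit 0x2000000010000800050002c0010000000000000000000) (nat_lit 0x0) (nat_lit 0x1000080010000a800020000000000000000000000) := T_36 (nat_lit 143) (nat_lit 160) (nat_lit 5) (nat_lit 8) (nat_lit 5) L98820 (by decide +kernel)
theorem L98822 : W_36 (nat_lit 2) (nat_lit 0x2000000010000800070002c0010000000000000000000) (nat_lit 0x0) (nat_lit 0x100000800020000000000000000000000) := D_36 (nat_lit 107) (nat_lit 89) (nat_lit 128) (nat_lit 0) (nat_lit 8) (nat_lit 6) (nat_lit 3) (nat_lit 5) (nat_lit 6) (by decide +kernel)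
theorem L98823 : W_36 (nat_lit 3) (nat_lit 0x2000000010000800050002c0010000000000000000000) (nat_lit 0x0) (nat_lit 0x10000a800020000000000000000000000) := T_36 (nat_lit 109) (nat_lit 111) (nat_lit 0) (nat_lit 9) (nat_lit 6) L98822 (by decide +kernel)
theorem L98824 : W_36 (nat_lit 2) (nat_lit 0x2000000010000800070002c0010000000000000000000) (nat_lit 0x0) (nat_lit 0x800030000000000000000000000) := D_36 (nat_lit 89) (nat_lit 107) (nat_lit 88) (nat_lit 0) (nat_lit 8) (nat_lit 6) (nat_lit 3) (nat_lit 3) (nat_lit 5) (by decide +kernel)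
theorem L98825 : W_36 (nat_lit 3) (nat_lit 0x2000000010000800050002c0010000000000000000000) (nat_lit 0x0) (nat_lit 0xa800030000000000000000000000) := T_36 (nat_lit 109) (nat_lit 111) (nat_lit 0) (nat_lit 9) (nat_lit 6) L98824 (by decide +kernel)
theorem L98826 : W_36 (nat_lit 2) (nat_lit 0x200000001e000800050002c0010000000000000000000) (nat_lit 0x0) (nat_lit 0x6000000020000000000000000000000000000000) := D_36 (nat_lit 158) (nat_lit 157) (nat_lit 125) (nat_lit 1) (nat_lit 8) (nat_lit 8) (nat_lit 5) (nat_lit 6) (nat_lit 5) (by decide +kernel)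
theorem L98827 : W_36 (nat_lit 3) (nat_lit 0x200000001c000800050002c0010000000000000000000) (nat_lit 0x0) (nat_lit 0x6000200120000000000000000000000000000000) := T_36 (nat_lit 141) (nat_lit 128) (nat_lit 2) (nat_lit 5) (nat_lit 8) L98826 (by decide +kernel)
theorem L98828 : W_36 (nat_lit 4) (nat_lit 0x2000000014000800050002c0010000000000000000000) (nat_lit 0x0) (nat_lit 0x16000a00120000000000000000000000000000000) := T_36 (nat_lit 143) (nat_lit 160) (nat_lit 5) (nat_lit 8) (nat_lit 5) L98827 (by decide +kernel)
theorem L98829 : W_36 (nat_lit 2) (nat_lit 0x2000000014000a00050002c0010000000000000000000) (nat_lit 0x0) (nat_lit 0x18000000000000800000000000000000000000000) := D_36 (nat_lit 159) (nat_lit 107) (nat_lit 160) (nat_lit 4) (nat_lit 6) (nat_lit 9) (nat_lit 7) (nat_lit 6) (nat_lit 6) (by decide +kernel)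
theorem L98830 : W_36 (nat_lit 3) (nat_lit 0x2000000014000800050002c0010000000000000000000) (nat_lit 0x0) (nat_lit 0x18000000020000800000002000000000000000000) := T_36 (nat_lit 125) (nat_lit 73) (nat_lit 4) (nat_lit 6) (nat_lit 8) L98829 (by decide +kernel)
theorem L98831 : W_36 (nat_lit 2) (nat_lit 0x2000080014000a00050002c0010000000000000000000) (nat_lit 0x0) (nat_lit 0x80004000200000000000000000000000000000000000) := D_36 (nat_lit 158) (nat_lit 141) (nat_lit 175) (nat_lit 5) (nat_lit 6) (nat_lit 5) (nat_lit 5) (nat_lit 6) (nat_lit 6) (by decide +kernel)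
theorem L98832 : W_36 (nat_lit 3) (nat_lit 0x2000000014000a00050002c0010000000000000000000) (nat_lit 0x0) (nat_lit 0x8000c000200000000800000000000000000000000000) := T_36 (nat_lit 159) (nat_lit 107) (nat_lit 4) (nat_lit 6) (nat_lit 9) L98831 (by decide +kernel)
theorem L98833 : W_36 (nat_lit 4) (nat_lit 0x2000000014000800050002c0010000000000000000000) (nat_lit 0x0) (nat_lit 0x8000c000200020000800000002000000000000000000) := T_36 (nat_lit 125) (nat_lit 73) (nat_lit 4) (nat_lit 6) (nat_lit 8) L98832 (by decide +kernel)
theorem L98834 : W_36 (nat_lit 2) (nat_lit 0x200004001e000800050002c0010000000000000000000) (nat_lit 0x0) (nat_lit 0x18000800000000000000000000000000) := D_36 (nat_lit 124) (nat_lit 123) (nat_lit 107) (nat_lit 0) (nat_lit 8) (nat_lit 8) (nat_lit 6) (nat_lit 5) (nat_lit 9) (by decide +kernel)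
theorem L98835 : W_36 (nat_lit 3) (nat_lit 0x200000001e000800050002c0010000000000000000000) (nat_lit 0x0) (nat_lit 0x6000000018000800000000000000000000000000) := T_36 (nat_lit 158) (nat_lit 157) (nat_lit 1) (nat_lit 8) (nat_lit 8) L98834 (by decide +kernel)
theorem L98836 : W_36 (nat_lit 4) (nat_lit 0x200000001c000800050002c0010000000000000000000) (nat_lit 0x0) (nat_lit 0x6000200118000800000000000000000000000000) := T_36 (nat_lit 141) (nat_lit 128) (nat_lit 2) (nat_lit 5) (nat_lit 8) L98835 (by decide +kernel)
theorem L98837 : W_36 (nat_lit 5) (nat_lit 0x2000000014000800050002c0010000000000000000000) (nat_lit 0x0) (nat_lit 0x16000a00118000800000000000000000000000000) := T_36 (nat_lit 143) (nat_lit 160) (nat_lit 5) (nat_lit 8) (nat_lit 5) L98836 (by decide +kernel)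
theorem L98838 : W_36 (nat_lit 6) (nat_lit 0x2000000010000800050002c0010000000000000000000) (nat_lit 0x0) (nat_lit 0x8001e000e00138000800000002000000000000000000) := Q_36 (nat_lit 142) (C_36 L98828 (C_36 L98830 (C_36 L98833 (C_36 L98837 N_36)))) (by decide +kernel)
theorem L98839 : W_36 (nat_lit 2) (nat_lit 0x200004001f000880070002c0012000000008000000000) (nat_lit 0x0) (nat_lit 0x400030000000000000000000000) := D_36 (nat_lit 89) (nat_lit 88) (nat_lit 106) (nat_lit 3) (nat_lit 3) (nat_lit 5) (nat_lit 7) (nat_lit 4) (nat_lit 5) (by decide +kernel)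
theorem L98840 : W_36 (nat_lit 3) (nat_lit 0x200004001e000880070002c0012000000008000000000) (nat_lit 0x0) (nat_lit 0x100004000400030000000000000000000000) := T_36 (nat_lit 140) (nat_lit 122) (nat_lit 0) (nat_lit 7) (nat_lit 8) L98839 (by decide +kernel)
theorem L98841 : W_36 (nat_lit 4) (nat_lit 0x200004001e000880050002c0012000000008000000000) (nat_lit 0x0) (nat_lit 0x10000400a400030000000000000000000000) := T_36 (nat_lit 109) (nat_lit 111) (nat_lit 0) (nat_lit 9) (nat_lit 6) L98840 (by decide +kernel)
theorem L98842 : W_36 (nat_lit 5) (nat_lit 0x200004001e000800050002c0012000000008000000000) (nat_lit 0x0) (nat_lit 0x10001c00a400030000000000000000000000) := T_36 (nat_lit 123) (nat_lit 124) (nat_lit 0) (nat_lit 8) (nat_lit 8) L98841 (by decide +kernel)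
theorem L98843 : W_36 (nat_lit 6) (nat_lit 0x200000001e000800050002c0012000000008000000000) (nat_lit 0x0) (nat_lit 0x600010001c00a400030000000000000000000000) := T_36 (nat_lit 158) (nat_lit 157) (nat_lit 1) (nat_lit 8) (nat_lit 8) L98842 (by decide +kernel)
theorem L98844 : W_36 (nat_lit 7) (nat_lit 0x200000001c000800050002c0012000000008000000000) (nat_lit 0x0) (nat_lit 0x600030011c00a400030000000000000000000000) := T_36 (nat_lit 141) (nat_lit 128) (nat_lit 2) (nat_lit 5) (nat_lit 8) L98843 (by decide +kernel)
theorem L98845 : W_36 (nat_lit 8) (nat_lit 0x2000000018000800050002c0012000000008000000000) (nat_lit 0x0) (nat_lit 0x600070013c00a400030000000000000000000000) := T_36 (nat_lit 142) (nat_lit 125) (nat_lit 4) (nat_lit 6) (nat_lit 8) L98844 (by decide +kernel)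
theorem L98846 : W_36 (nat_lit 9) (nat_lit 0x2000000018000800050002c0012000000000000000000) (nat_lit 0x0) (nat_lit 0x600070013c00a400030000000100008000000000) := T_36 (nat_lit 39) (nat_lit 56) (nat_lit 7) (nat_lit 5) (nat_lit 2) L98845 (by decide +kernel)
theorem L98847 : W_36 (nat_lit 10) (nat_lit 0x2000000010000800050002c0012000000000000000000) (nat_lit 0x0) (nat_lit 0x16000f0013c00a400030000000100008000000000) := T_36 (nat_lit 143) (nat_lit 160) (nat_lit 5) (nat_lit 8) (nat_lit 5) L98846 (by decide +kernel)
theorem L98848 : W_36 (nat_lit 2) (nat_lit 0x20000000140008000d0002c0012000800068004000000) (nat_lit 0x0) (nat_lit 0x10002000200) := D_36 (nat_lit 25) (nat_lit 9) (nat_lit 40) (nat_lit 6) (nat_lit 8) (nat_lit 4) (nat_lit 2) (nat_lit 5) (nat_lit 2) (by decide +kernel)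
theorem L98849 : W_36 (nat_lit 3) (nat_lit 0x20000000140008000d0002c0012000800068000000000) (nat_lit 0x0) (nat_lit 0x90006000200) := T_36 (nat_lit 26) (nat_lit 43) (nat_lit 6) (nat_lit 8) (nat_lit 5) L98848 (by decide +kernel)
theorem L98850 : W_36 (nat_lit 4) (nat_lit 0x20000000140008000d0002c0012000800028000000000) (nat_lit 0x0) (nat_lit 0xd0007000200) := T_36 (nat_lit 42) (nat_lit 24) (nat_lit 4) (nat_lit 8) (nat_lit 5) L98849 (by decide +kernel)
theorem L98851 : W_36 (nat_lit 5) (nat_lit 0x20000000100008000d0002c0012000800028000000000) (nat_lit 0x0) (nat_lit 0x4000200000000000000000000d0007000200) := T_36 (nat_lit 142) (nat_lit 125) (nat_lit 4) (nat_lit 6) (nat_lit 8) L98850 (by decide +kernel)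
theorem L98852 : W_36 (nat_lit 6) (nat_lit 0x20000000100008000d0002c0012000800008000000000) (nat_lit 0x0) (nat_lit 0x4000200000000000000004000f0007000200) := T_36 (nat_lit 41) (nat_lit 58) (nat_lit 4) (nat_lit 8) (nat_lit 6) L98851 (by decide +kernel)
theorem L98853 : W_36 (nat_lit 7) (nat_lit 0x20000000100008000d0002c0012000000008000000000) (nat_lit 0x0) (nat_lit 0x400120000000000000000c000f0007000200) := T_36 (nat_lit 59) (nat_lit 128) (nat_lit 7) (nat_lit 8) (nat_lit 3) L98852 (by decide +kernel)
theorem L98854 : W_36 (nat_lit 8) (nat_lit 0x20000000100008000d0002c0012000000000000000000) (nat_lit 0x0) (nat_lit 0x400120000000000000000d000f8007000200) := T_36 (nat_lit 39) (nat_lit 56) (nat_lit 7) (nat_lit 5) (nat_lit 2) L98853 (by decide +kernel)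
theorem L98855 : W_36 (nat_lit 9) (nat_lit 0x2000000010000800050002c0012000000000000000000) (nat_lit 0x0) (nat_lit 0x40012000a000000000000d000f8007000200) := T_36 (nat_lit 111) (nat_lit 109) (nat_lit 0) (nat_lit 9) (nat_lit 6) L98854 (by decide +kernel)
theorem L98856 : W_36 (nat_lit 2) (nat_lit 0x2000000010000a00050002c0012000000000000000000) (nat_lit 0x0) (nat_lit 0x4000100008000000000) := D_36 (nat_lit 56) (nat_lit 39) (nat_lit 74) (nat_lit 7) (nat_lit 5) (nat_lit 2) (nat_lit 4) (nat_lit 6) (nat_lit 7) (by decide +kernel)
theorem L98857 : W_36 (nat_lit 3) (nat_lit 0x2000000010000800050002c0012000000000000000000) (nat_lit 0x0) (nat_lit 0x400020000000000004000100008000000000) := T_36 (nat_lit 125) (nat_lit 142) (nat_lit 4) (nat_lit 6) (nat_lit 8) L98856 (by decide +kernel)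
theorem L98858 : W_36 (nat_lit 2) (nat_lit 0x20000000180008000d0002c0012000800068004000000) (nat_lit 0x0) (nat_lit 0x10002000200) := D_36 (nat_lit 25) (nat_lit 9) (nat_lit 40) (nat_lit 6) (nat_lit 8) (nat_lit 4) (nat_lit 2) (nat_lit 5) (nat_lit 2) (by decide +kernel)
theorem L98859 : W_36 (nat_lit 3) (nat_lit 0x20000000180008000d0002c0012000800068000000000) (nat_lit 0x0) (nat_lit 0x90006000200) := T_36 (nat_lit 26) (nat_lit 43) (nat_lit 6) (nat_lit 8) (nat_lit 5) L98858 (by decide +kernel)
theorem L98860 : W_36 (nat_lit 4) (nat_lit 0x20000000180008000d0002c0012000800028000000000) (nat_lit 0x0) (nat_lit 0xd0007000200) := T_36 (nat_lit 42) (nat_lit 24) (nat_lit 4) (nat_lit 8) (nat_lit 5) L98859 (by decide +kernel)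
theorem L98861 : W_36 (nat_lit 5) (nat_lit 0x20000000180008000d0002c0012000800008000000000) (nat_lit 0x0) (nat_lit 0x4000f0007000200) := T_36 (nat_lit 41) (nat_lit 58) (nat_lit 4) (nat_lit 8) (nat_lit 6) L98860 (by decide +kernel)
theorem L98862 : W_36 (nat_lit 6) (nat_lit 0x20000000180008000d0002c0012000000008000000000) (nat_lit 0x0) (nat_lit 0x100000000000000000c000f0007000200) := T_36 (nat_lit 59) (nat_lit 128) (nat_lit 7) (nat_lit 8) (nat_lit 3) L98861 (by decide +kernel)
theorem L98863 : W_36 (nat_lit 7) (nat_lit 0x2000000018000800050002c0012000000008000000000) (nat_lit 0x0) (nat_lit 0x10000a000000000000c000f0007000200) := T_36 (nat_lit 111) (nat_lit 109) (nat_lit 0) (nat_lit 9) (nat_lit 6) L98862 (by decide +kernel)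
theorem L98864 : W_36 (nat_lit 8) (nat_lit 0x2000000018000800050002c0012000000000000000000) (nat_lit 0x0) (nat_lit 0x10000a000000000000d000f8007000200) := T_36 (nat_lit 39) (nat_lit 56) (nat_lit 7) (nat_lit 5) (nat_lit 2) L98863 (by decide +kernel)
theorem L98865 : W_36 (nat_lit 9) (nat_lit 0x2000000010000800050002c0012000000000000000000) (nat_lit 0x0) (nat_lit 0x1000080010000a000000000000d000f8007000200) := T_36 (nat_lit 143) (nat_lit 160) (nat_lit 5) (nat_lit 8) (nat_lit 5) L98864 (by decide +kernel)
theorem L98866 : W_36 (nat_lit 2) (nat_lit 0x20000000180018000d0002c0012000000000000000000) (nat_lit 0x0) (nat_lit 0x600020000000000000000000000000000000) := D_36 (nat_lit 142) (nat_lit 125) (nat_lit 141) (nat_lit 4) (nat_lit 6) (nat_lit 8) (nat_lit 2) (nat_lit 5) (nat_lit 8) (by decide +kernel)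
theorem L98867 : W_36 (nat_lit 3) (nat_lit 0x20000000180008000d0002c0012000000000000000000) (nat_lit 0x0) (nat_lit 0x600120000000000000000800000000000000) := T_36 (nat_lit 128) (nat_lit 59) (nat_lit 7) (nat_lit 8) (nat_lit 3) L98866 (by decide +kernel)
theorem L98868 : W_36 (nat_lit 4) (nat_lit 0x20000000100008000d0002c0012000000000000000000) (nat_lit 0x0) (nat_lit 0x10000e00120000000000000000800000000000000) := T_36 (nat_lit 143) (nat_lit 160) (nat_lit 5) (nat_lit 8) (nat_lit 5) L98867 (by decide +kernel)
theorem L98869 : W_36 (nat_lit 5) (nat_lit 0x2000000010000800050002c0012000000000000000000) (nat_lit 0x0) (nat_lit 0x10000e0012000a000000000000800000000000000) := T_36 (nat_lit 111) (nat_lit 109) (nat_lit 0) (nat_lit 9) (nat_lit 6) L98868 (by decide +kernel)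
theorem L98870 : W_36 (nat_lit 11) (nat_lit 0x2000000010000800050002c0010000000000000000000) (nat_lit 0x0) (nat_lit 0x16000f0013c00a400030006000d000f8007000200) := Q_36 (nat_lit 73) (C_36 L98847 (C_36 L98855 (C_36 L98857 (C_36 L98865 (C_36 L98869 N_36))))) (by decide +kernel)
theorem L98871 : W_36 (nat_lit 12) (nat_lit 0x2000000010000800040002c0010000000000000000000) (nat_lit 0x0) (nat_lit 0x8001e000f0013c00bc00030006000d000f8007000200) := Q_36 (nat_lit 108) (C_36 L98821 (C_36 L98823 (C_36 L98825 (C_36 L98838 (C_36 L98870 N_36))))) (by decide +kernel)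
theorem L98872 : W_36 (nat_lit 13) (nat_lit 0x200000001000080004000240010000000000000000000) (nat_lit 0x0) (nat_lit 0x8001e000f0013c00bc001b0027800d000f8007000200) := Q_36 (nat_lit 91) (C_36 L98813 (C_36 L98818 (C_36 L98871 N_36))) (by decide +kernel)
theorem L98873 : W_36 (nat_lit 2) (nat_lit 0x2000040014000a000d0002c0030000000000000000000) (nat_lit 0x0) (nat_lit 0x80018000000000000000000000000000000000000000) := D_36 (nat_lit 159) (nat_lit 160) (nat_lit 175) (nat_lit 7) (nat_lit 6) (nat_lit 6) (nat_lit 5) (nat_lit 6) (nat_lit 6) (by decide +kernel)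
theorem L98874 : W_36 (nat_lit 3) (nat_lit 0x2000000014000a000d0002c0030000000000000000000) (nat_lit 0x0) (nat_lit 0x8001c000200000000000000000000000000000000000) := T_36 (nat_lit 158) (nat_lit 141) (nat_lit 5) (nat_lit 6) (nat_lit 5) L98873 (by decide +kernel)
theorem L98875 : W_36 (nat_lit 4) (nat_lit 0x20000000140008000d0002c0030000000000000000000) (nat_lit 0x0) (nat_lit 0x8001c000200020000000000002000000000000000000) := T_36 (nat_lit 125) (nat_lit 73) (nat_lit 4) (nat_lit 6) (nat_lit 8) L98874 (by decide +kernel)
theorem L98876 : W_36 (nat_lit 5) (nat_lit 0x2000000014000800050002c0030000000000000000000) (nat_lit 0x0) (nat_lit 0x8001c00020002000a000000002000000000000000000) := T_36 (nat_lit 111) (nat_lit 109) (nat_lit 0) (nat_lit 9) (nat_lit 6) L98875 (by decide +kernel)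
theorem L98877 : W_36 (nat_lit 6) (nat_lit 0x2000000014000800050002c0010000000000000000000) (nat_lit 0x0) (nat_lit 0x8001c00020002000a000000022001000000000000000) := T_36 (nat_lit 77) (nat_lit 60) (nat_lit 6) (nat_lit 8) (nat_lit 7) L98876 (by decide +kernel)
theorem L98878 : W_36 (nat_lit 2) (nat_lit 0x2000000016000b00050002c0030000000000000000000) (nat_lit 0x0) (nat_lit 0x800108000000000000000000000000000000) := D_36 (nat_lit 143) (nat_lit 128) (nat_lit 123) (nat_lit 2) (nat_lit 5) (nat_lit 8) (nat_lit 0) (nat_lit 8) (nat_lit 8) (by decide +kernel)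
theorem L98879 : W_36 (nat_lit 3) (nat_lit 0x2000000016000a00050002c0030000000000000000000) (nat_lit 0x0) (nat_lit 0x800118000000000004000000000000000000) := T_36 (nat_lit 124) (nat_lit 74) (nat_lit 5) (nat_lit 6) (nat_lit 4) L98878 (by decide +kernel)
theorem L98880 : W_36 (nat_lit 4) (nat_lit 0x2000000014000a00050002c0030000000000000000000) (nat_lit 0x0) (nat_lit 0x4000a00118000000000004000000000000000000) := T_36 (nat_lit 141) (nat_lit 158) (nat_lit 5) (nat_lit 6) (nat_lit 5) L98879 (by decide +kernel)
theorem L98881 : W_36 (nat_lit 5) (nat_lit 0x2000000014000a00050002c0010000000000000000000) (nat_lit 0x0) (nat_lit 0x4000a00118000000000024001000000000000000) := T_36 (nat_lit 77) (nat_lit 60) (nat_lit 6) (nat_lit 8) (nat_lit 7) L98880 (by decide +kernel)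
theorem L98882 : W_36 (nat_lit 6) (nat_lit 0x2000000014000800050002c0010000000000000000000) (nat_lit 0x0) (nat_lit 0x4000a00138000000000026001000000000000000) := T_36 (nat_lit 125) (nat_lit 73) (nat_lit 4) (nat_lit 6) (nat_lit 8) L98881 (by decide +kernel)
theorem L98883 : W_36 (nat_lit 2) (nat_lit 0x200000001e0009000d0002c0010000000000000000000) (nat_lit 0x0) (nat_lit 0x20000000000006000000000000000000) := D_36 (nat_lit 125) (nat_lit 73) (nat_lit 74) (nat_lit 4) (nat_lit 6) (nat_lit 8) (nat_lit 5) (nat_lit 6) (nat_lit 4) (by decide +kernel)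
theorem L98884 : W_36 (nat_lit 3) (nat_lit 0x200000001e0008000d0002c0010000000000000000000) (nat_lit 0x0) (nat_lit 0x38000000000006000000000000000000) := T_36 (nat_lit 124) (nat_lit 123) (nat_lit 0) (nat_lit 8) (nat_lit 8) L98883 (by decide +kernel)
theorem L98885 : W_36 (nat_lit 4) (nat_lit 0x200000001c0008000d0002c0010000000000000000000) (nat_lit 0x0) (nat_lit 0x200138000000000006000000000000000000) := T_36 (nat_lit 141) (nat_lit 128) (nat_lit 2) (nat_lit 5) (nat_lit 8) L98884 (by decide +kernel)
theorem L98886 : W_36 (nat_lit 5) (nat_lit 0x20000000140008000d0002c0010000000000000000000) (nat_lit 0x0) (nat_lit 0x10000a00138000000000006000000000000000000) := T_36 (nat_lit 143) (nat_lit 160) (nat_lit 5) (nat_lit 8) (nat_lit 5) L98885 (by decide +kernel)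
theorem L98887 : W_36 (nat_lit 6) (nat_lit 0x2000000014000800050002c0010000000000000000000) (nat_lit 0x0) (nat_lit 0x10000a0013800a000000006000000000000000000) := T_36 (nat_lit 111) (nat_lit 109) (nat_lit 0) (nat_lit 9) (nat_lit 6) L98886 (by decide +kernel)
theorem L98888 : W_36 (nat_lit 2) (nat_lit 0x20001000140008000d0002c0030000000000000000000) (nat_lit 0x0) (nat_lit 0x8000000020000000000002000000000000000000) := D_36 (nat_lit 125) (nat_lit 73) (nat_lit 159) (nat_lit 4) (nat_lit 6) (nat_lit 8) (nat_lit 7) (nat_lit 6) (nat_lit 6) (by decide +kernel)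
theorem L98889 : W_36 (nat_lit 3) (nat_lit 0x20000000140008000d0002c0030000000000000000000) (nat_lit 0x0) (nat_lit 0x18000800020000000000002000000000000000000) := T_36 (nat_lit 160) (nat_lit 143) (nat_lit 5) (nat_lit 8) (nat_lit 5) L98888 (by decide +kernel)
theorem L98890 : W_36 (nat_lit 4) (nat_lit 0x2000000014000800050002c0030000000000000000000) (nat_lit 0x0) (nat_lit 0x1800080002000a000000002000000000000000000) := T_36 (nat_lit 111) (nat_lit 109) (nat_lit 0) (nat_lit 9) (nat_lit 6) L98889 (by decide +kernel)
theorem L98891 : W_36 (nat_lit 5) (nat_lit 0x2000000014000800050002c0010000000000000000000) (nat_lit 0x0) (nat_lit 0x1800080002000a000000022001000000000000000) := T_36 (nat_lit 77) (nat_lit 60) (nat_lit 6) (nat_lit 8) (nat_lit 7) L98890 (by decide +kernel)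
theorem L98892 : W_36 (nat_lit 2) (nat_lit 0x200002001e0008800d0002c0030000000000000000000) (nat_lit 0x0) (nat_lit 0x1000100004000000000000000000000000000000) := D_36 (nat_lit 140) (nat_lit 156) (nat_lit 122) (nat_lit 1) (nat_lit 7) (nat_lit 8) (nat_lit 0) (nat_lit 7) (nat_lit 8) (by decide +kernel)
theorem L98893 : W_36 (nat_lit 3) (nat_lit 0x200002001e0008000d0002c0030000000000000000000) (nat_lit 0x0) (nat_lit 0x100010001c000000000000000000000000000000) := T_36 (nat_lit 123) (nat_lit 124) (nat_lit 0) (nat_lit 8) (nat_lit 8) L98892 (by decide +kernel)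
theorem L98894 : W_36 (nat_lit 4) (nat_lit 0x200000001e0008000d0002c0030000000000000000000) (nat_lit 0x0) (nat_lit 0x700010001c000000000000000000000000000000) := T_36 (nat_lit 157) (nat_lit 158) (nat_lit 1) (nat_lit 8) (nat_lit 8) L98893 (by decide +kernel)
theorem L98895 : W_36 (nat_lit 5) (nat_lit 0x200000001c0008000d0002c0030000000000000000000) (nat_lit 0x0) (nat_lit 0x700030011c000000000000000000000000000000) := T_36 (nat_lit 141) (nat_lit 128) (nat_lit 2) (nat_lit 5) (nat_lit 8) L98894 (by decide +kernel)
theorem L98896 : W_36 (nat_lit 6) (nat_lit 0x20000000140008000d0002c0030000000000000000000) (nat_lit 0x0) (nat_lit 0x17000b0011c000000000000000000000000000000) := T_36 (nat_lit 143) (nat_lit 160) (nat_lit 5) (nat_lit 8) (nat_lit 5) L98895 (by decide +kernel)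
theorem L98897 : W_36 (nat_lit 7) (nat_lit 0x2000000014000800050002c0030000000000000000000) (nat_lit 0x0) (nat_lit 0x17000b0011c00a000000000000000000000000000) := T_36 (nat_lit 111) (nat_lit 109) (nat_lit 0) (nat_lit 9) (nat_lit 6) L98896 (by decide +kernel)
theorem L98898 : W_36 (nat_lit 8) (nat_lit 0x2000000014000800050002c0010000000000000000000) (nat_lit 0x0) (nat_lit 0x17000b0011c00a000000020001000000000000000) := T_36 (nat_lit 77) (nat_lit 60) (nat_lit 6) (nat_lit 8) (nat_lit 7) L98897 (by decide +kernel)
theorem L98899 : W_36 (nat_lit 9) (nat_lit 0x2000000010000800050002c0010000000000000000000) (nat_lit 0x0) (nat_lit 0x8001f000f0013c00a000000026001000000000000000) := Q_36 (nat_lit 142) (C_36 L98828 (C_36 L98877 (C_36 L98882 (C_36 L98887 (C_36 L98891 (C_36 L98898 N_36)))))) (by decide +kernel)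
theorem L98900 : W_36 (nat_lit 10) (nat_lit 0x2000000010000800040002c0010000000000000000000) (nat_lit 0x0) (nat_lit 0x8001f000f0013c00b800030026001000000000000000) := Q_36 (nat_lit 108) (C_36 L98825 (C_36 L98838 (C_36 L98899 N_36))) (by decide +kernel)
theorem L98901 : W_36 (nat_lit 5) (nat_lit 0x2000000018000800040002c0010000000000000000000) (nat_lit 0x0) (nat_lit 0xac00120003800000000000000000) := T_36 (nat_lit 92) (nat_lit 111) (nat_lit 3) (nat_lit 5) (nat_lit 5) L98816 (by decide +kernel)
theorem L98902 : W_36 (nat_lit 6) (nat_lit 0x2000000010000800040002c0010000000000000000000) (nat_lit 0x0) (nat_lit 0x1000080000000ac00120003800000000000000000) := T_36 (nat_lit 143) (nat_lit 160) (nat_lit 5) (nat_lit 8) (nat_lit 5) L98901 (by decide +kernel)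
theorem L98903 : W_36 (nat_lit 11) (nat_lit 0x200000001000080004000240010000000000000000000) (nat_lit 0x0) (nat_lit 0x8001f000f0013c00bc001b0027801000000000000000) := Q_36 (nat_lit 91) (C_36 L98818 (C_36 L98813 (C_36 L98900 (C_36 L98902 N_36)))) (by decide +kernel)
theorem L98904 : W_36 (nat_lit 2) (nat_lit 0x2000000018000b0007c00240010000000000000000000) (nat_lit 0x0) (nat_lit 0x8000400000000000000002000000000000000000) := D_36 (nat_lit 142) (nat_lit 159) (nat_lit 73) (nat_lit 4) (nat_lit 6) (nat_lit 9) (nat_lit 7) (nat_lit 5) (nat_lit 4) (by decide +kernel)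
theorem L98905 : W_36 (nat_lit 3) (nat_lit 0x200000001800090007c00240010000000000000000000) (nat_lit 0x0) (nat_lit 0x8000400020008000000002000000000000000000) := T_36 (nat_lit 125) (nat_lit 111) (nat_lit 1) (nat_lit 9) (nat_lit 6) L98904 (by decide +kernel)
theorem L98906 : W_36 (nat_lit 4) (nat_lit 0x200000001800090007800240010000000000000000000) (nat_lit 0x0) (nat_lit 0x8000400020008400100002000000000000000000) := T_36 (nat_lit 106) (nat_lit 92) (nat_lit 2) (nat_lit 4) (nat_lit 6) L98905 (by decide +kernel)
theorem L98907 : W_36 (nat_lit 5) (nat_lit 0x200000001800080007800240010000000000000000000) (nat_lit 0x0) (nat_lit 0x8000400038008400100002000000000000000000) := T_36 (nat_lit 124) (nat_lit 123) (nat_lit 1) (nat_lit 8) (nat_lit 6) L98906 (by decide +kernel)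
theorem L98908 : W_36 (nat_lit 6) (nat_lit 0x200000001800080005800240010000000000000000000) (nat_lit 0x0) (nat_lit 0x800040003800a400120002000000000000000000) := T_36 (nat_lit 109) (nat_lit 89) (nat_lit 0) (nat_lit 8) (nat_lit 6) L98907 (by decide +kernel)
theorem L98909 : W_36 (nat_lit 7) (nat_lit 0x200000001000080005800240010000000000000000000) (nat_lit 0x0) (nat_lit 0x18000c0003800a400120002000000000000000000) := T_36 (nat_lit 143) (nat_lit 160) (nat_lit 5) (nat_lit 8) (nat_lit 5) L98908 (by decide +kernel)
theorem L98910 : W_36 (nat_lit 2) (nat_lit 0x2000000014000a0005800240010000000000000000000) (nat_lit 0x0) (nat_lit 0x10000000000002000100000000000000) := D_36 (nat_lit 73) (nat_lit 56) (nat_lit 124) (nat_lit 7) (nat_lit 5) (nat_lit 3) (nat_lit 7) (nat_lit 5) (nat_lit 4) (by decide +kernel)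
theorem L98911 : W_36 (nat_lit 3) (nat_lit 0x200000001400080005800240010000000000000000000) (nat_lit 0x0) (nat_lit 0x8000000030000000000002000100000000000000) := T_36 (nat_lit 125) (nat_lit 159) (nat_lit 4) (nat_lit 6) (nat_lit 9) L98910 (by decide +kernel)
theorem L98912 : W_36 (nat_lit 2) (nat_lit 0x200004001e00090005800240010000000000000000000) (nat_lit 0x0) (nat_lit 0x400020001000000000000000000) := D_36 (nat_lit 89) (nat_lit 72) (nat_lit 106) (nat_lit 4) (nat_lit 5) (nat_lit 8) (nat_lit 4) (nat_lit 5) (nat_lit 9) (by decide +kernel)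
theorem L98913 : W_36 (nat_lit 3) (nat_lit 0x200004001e00080005800240010000000000000000000) (nat_lit 0x0) (nat_lit 0x18000400020001000000000000000000) := T_36 (nat_lit 124) (nat_lit 123) (nat_lit 0) (nat_lit 8) (nat_lit 8) L98912 (by decide +kernel)
theorem L98914 : W_36 (nat_lit 4) (nat_lit 0x200000001e00080005800240010000000000000000000) (nat_lit 0x0) (nat_lit 0x6000000018000400020001000000000000000000) := T_36 (nat_lit 158) (nat_lit 157) (nat_lit 1) (nat_lit 8) (nat_lit 8) L98913 (by decide +kernel)
theorem L98915 : W_36 (nat_lit 5) (nat_lit 0x200000001c00080005800240010000000000000000000) (nat_lit 0x0) (nat_lit 0x6000200118000400020001000000000000000000) := T_36 (nat_lit 141) (nat_lit 128) (nat_lit 2) (nat_lit 5) (nat_lit 8) L98914 (by decide +kernel)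
theorem L98916 : W_36 (nat_lit 6) (nat_lit 0x200000001400080005800240010000000000000000000) (nat_lit 0x0) (nat_lit 0x16000a00118000400020001000000000000000000) := T_36 (nat_lit 143) (nat_lit 160) (nat_lit 5) (nat_lit 8) (nat_lit 5) L98915 (by decide +kernel)
theorem L98917 : W_36 (nat_lit 4) (nat_lit 0x200002001e00080005800240010000000000000000000) (nat_lit 0x0) (nat_lit 0x900010002c000400000000000000000000000000) := T_36 (nat_lit 159) (nat_lit 125) (nat_lit 4) (nat_lit 6) (nat_lit 9) L98638 (by decide +kernel)
theorem L98918 : W_36 (nat_lit 5) (nat_lit 0x200000001e00080005800240010000000000000000000) (nat_lit 0x0) (nat_lit 0xf00010002c000400000000000000000000000000) := T_36 (nat_lit 157) (nat_lit 158) (nat_lit 1) (nat_lit 8) (nat_lit 8) L98917 (by decide +kernel)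
theorem L98919 : W_36 (nat_lit 6) (nat_lit 0x200000001c00080005800240010000000000000000000) (nat_lit 0x0) (nat_lit 0xf00030012c000400000000000000000000000000) := T_36 (nat_lit 141) (nat_lit 128) (nat_lit 2) (nat_lit 5) (nat_lit 8) L98918 (by decide +kernel)
theorem L98920 : W_36 (nat_lit 7) (nat_lit 0x200000001400080005800240010000000000000000000) (nat_lit 0x0) (nat_lit 0x1f000b0012c000400000000000000000000000000) := T_36 (nat_lit 143) (nat_lit 160) (nat_lit 5) (nat_lit 8) (nat_lit 5) L98919 (by decide +kernel)
theorem L98921 : W_36 (nat_lit 8) (nat_lit 0x200000001000080005800240010000000000000000000) (nat_lit 0x0) (nat_lit 0x1f000f0013c000400020003000100000000000000) := Q_36 (nat_lit 142) (C_36 L98642 (C_36 L98911 (C_36 L98916 (C_36 L98920 N_36)))) (by decide +kernel)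
theorem L98922 : W_36 (nat_lit 6) (nat_lit 0x200000001800080005800240010000000000000000000) (nat_lit 0x0) (nat_lit 0x800040013800a400100002000000000000000000) := T_36 (nat_lit 109) (nat_lit 128) (nat_lit 3) (nat_lit 5) (nat_lit 6) L98907 (by decide +kernel)
theorem L98923 : W_36 (nat_lit 7) (nat_lit 0x200000001000080005800240010000000000000000000) (nat_lit 0x0) (nat_lit 0x18000c0013800a400100002000000000000000000) := T_36 (nat_lit 143) (nat_lit 160) (nat_lit 5) (nat_lit 8) (nat_lit 5) L98922 (by decide +kernel)
theorem L98924 : W_36 (nat_lit 9) (nat_lit 0x200000001000080004800240010000000000000000000) (nat_lit 0x0) (nat_lit 0x1f000f0013c00b400120003000100000000000000) := Q_36 (nat_lit 108) (C_36 L98636 (C_36 L98909 (C_36 L98921 (C_36 L98923 N_36)))) (by decide +kernel)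
theorem L98925 : W_36 (nat_lit 2) (nat_lit 0x20000000180008000f800240010005800068000000000) (nat_lit 0x0) (nat_lit 0x38000000000000000000000000000000) := D_36 (nat_lit 124) (nat_lit 123) (nat_lit 125) (nat_lit 1) (nat_lit 8) (nat_lit 6) (nat_lit 1) (nat_lit 9) (nat_lit 6) (by decide +kernel)
theorem L98926 : W_36 (nat_lit 3) (nat_lit 0x20000000180008000e800240010005800068000000000) (nat_lit 0x0) (nat_lit 0x38001000020000000000000000000000) := T_36 (nat_lit 108) (nat_lit 89) (nat_lit 0) (nat_lit 8) (nat_lit 6) L98925 (by decide +kernel)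
theorem L98927 : W_36 (nat_lit 4) (nat_lit 0x20000000180008000e800240010001800068000000000) (nat_lit 0x0) (nat_lit 0x38001000020000006000000000000000) := T_36 (nat_lit 62) (nat_lit 61) (nat_lit 0) (nat_lit 11) (nat_lit 3) L98926 (by decide +kernel)
theorem L98928 : W_36 (nat_lit 5) (nat_lit 0x20000000180008000c800240010001800068000000000) (nat_lit 0x0) (nat_lit 0x38003000120000006000000000000000) := T_36 (nat_lit 109) (nat_lit 92) (nat_lit 5) (nat_lit 8) (nat_lit 2) L98927 (by decide +kernel)
theorem L98929 : W_36 (nat_lit 6) (nat_lit 0x20000000180008000c800240010001800060000000000) (nat_lit 0x0) (nat_lit 0x38003000120000006000018000000000) := T_36 (nat_lit 39) (nat_lit 40) (nat_lit 3) (nat_lit 5) (nat_lit 2) L98928 (by decide +kernel)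
theorem L98930 : W_36 (nat_lit 7) (nat_lit 0x20000000180008000c800240010001800020000000000) (nat_lit 0x0) (nat_lit 0x38003000120000006000058001000000) := T_36 (nat_lit 42) (nat_lit 24) (nat_lit 4) (nat_lit 8) (nat_lit 5) L98929 (by decide +kernel)
theorem L98931 : W_36 (nat_lit 8) (nat_lit 0x200000001800080004800240010001800020000000000) (nat_lit 0x0) (nat_lit 0x13800b000120000006000058001000000) := T_36 (nat_lit 111) (nat_lit 128) (nat_lit 7) (nat_lit 8) (nat_lit 3) L98930 (by decide +kernel)
theorem L98932 : W_36 (nat_lit 9) (nat_lit 0x200000001800080004800240010001800000000000000) (nat_lit 0x0) (nat_lit 0x13800b000120000006400078001000000) := T_36 (nat_lit 41) (nat_lit 58) (nat_lit 4) (nat_lit 8) (nat_lit 6) L98931 (by decide +kernel)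
theorem L98933 : W_36 (nat_lit 10) (nat_lit 0x200000001800080004800240010001000000000000000) (nat_lit 0x0) (nat_lit 0x13800b000120000006c000f8001000000) := T_36 (nat_lit 59) (nat_lit 43) (nat_lit 6) (nat_lit 8) (nat_lit 6) L98932 (by decide +kernel)
theorem L98934 : W_36 (nat_lit 11) (nat_lit 0x200000001800080004800240010000000000000000000) (nat_lit 0x0) (nat_lit 0x13800b000120020007c000f8001000000) := T_36 (nat_lit 60) (nat_lit 77) (nat_lit 6) (nat_lit 8) (nat_lit 7) L98933 (by decide +kernel)
theorem L98935 : W_36 (nat_lit 12) (nat_lit 0x200000001000080004800240010000000000000000000) (nat_lit 0x0) (nat_lit 0x1000080013800b000120020007c000f8001000000) := T_36 (nat_lit 143) (nat_lit 160) (nat_lit 5) (nat_lit 8) (nat_lit 5) L98934 (by decide +kernel)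
theorem L98936 : W_36 (nat_lit 2) (nat_lit 0x20000000100008000f800240010005800068000000000) (nat_lit 0x0) (nat_lit 0x38000000000000000000000000000000) := D_36 (nat_lit 124) (nat_lit 123) (nat_lit 125) (nat_lit 1) (nat_lit 8) (nat_lit 6) (nat_lit 1) (nat_lit 9) (nat_lit 6) (by decide +kernel)
theorem L98937 : W_36 (nat_lit 3) (nat_lit 0x20000000100008000e800240010005800068000000000) (nat_lit 0x0) (nat_lit 0x38001000020000000000000000000000) := T_36 (nat_lit 108) (nat_lit 89) (nat_lit 0) (nat_lit 8) (nat_lit 6) L98936 (by decide +kernel)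
theorem L98938 : W_36 (nat_lit 4) (nat_lit 0x20000000100008000e800240010001800068000000000) (nat_lit 0x0) (nat_lit 0x38001000020000006000000000000000) := T_36 (nat_lit 62) (nat_lit 61) (nat_lit 0) (nat_lit 11) (nat_lit 3) L98937 (by decide +kernel)
theorem L98939 : W_36 (nat_lit 5) (nat_lit 0x20000000100008000c800240010001800068000000000) (nat_lit 0x0) (nat_lit 0x38003000120000006000000000000000) := T_36 (nat_lit 109) (nat_lit 92) (nat_lit 5) (nat_lit 8) (nat_lit 2) L98938 (by decide +kernel)
theorem L98940 : W_36 (nat_lit 6) (nat_lit 0x20000000100008000c800240010001800060000000000) (nat_lit 0x0) (nat_lit 0x38003000120000006000018000000000) := T_36 (nat_lit 39) (nat_lit 40) (nat_lit 3) (nat_lit 5) (nat_lit 2) L98939 (by decide +kernel)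
theorem L98941 : W_36 (nat_lit 7) (nat_lit 0x20000000100008000c800240010001800020000000000) (nat_lit 0x0) (nat_lit 0x38003000120000006000058001000000) := T_36 (nat_lit 42) (nat_lit 24) (nat_lit 4) (nat_lit 8) (nat_lit 5) L98940 (by decide +kernel)
theorem L98942 : W_36 (nat_lit 8) (nat_lit 0x200000001000080004800240010001800020000000000) (nat_lit 0x0) (nat_lit 0x13800b000120000006000058001000000) := T_36 (nat_lit 111) (nat_lit 128) (nat_lit 7) (nat_lit 8) (nat_lit 3) L98941 (by decide +kernel)
theorem L98943 : W_36 (nat_lit 9) (nat_lit 0x200000001000080004800240010001800000000000000) (nat_lit 0x0) (nat_lit 0x13800b000120000006400078001000000) := T_36 (nat_lit 41) (nat_lit 58) (nat_lit 4) (nat_lit 8) (nat_lit 6) L98942 (by decide +kernel)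
theorem L98944 : W_36 (nat_lit 10) (nat_lit 0x200000001000080004800240010001000000000000000) (nat_lit 0x0) (nat_lit 0x13800b000120000006c000f8001000000) := T_36 (nat_lit 59) (nat_lit 43) (nat_lit 6) (nat_lit 8) (nat_lit 6) L98943 (by decide +kernel)
theorem L98945 : W_36 (nat_lit 11) (nat_lit 0x200000001000080004800240010000000000000000000) (nat_lit 0x0) (nat_lit 0x13800b000120020007c000f8001000000) := T_36 (nat_lit 60) (nat_lit 77) (nat_lit 6) (nat_lit 8) (nat_lit 7) L98944 (by decide +kernel)
theorem L98946 : W_36 (nat_lit 2) (nat_lit 0x2000000018000b0007800240010005800068000000000) (nat_lit 0x0) (nat_lit 0x8000400000000000000002000000000000000000) := D_36 (nat_lit 142) (nat_lit 159) (nat_lit 73) (nat_lit 4) (nat_lit 6) (nat_lit 9) (nat_lit 7) (nat_lit 5) (nat_lit 4) (by decide +kernel)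
theorem L98947 : W_36 (nat_lit 3) (nat_lit 0x200000001800090007800240010005800068000000000) (nat_lit 0x0) (nat_lit 0x8000400020008000000002000000000000000000) := T_36 (nat_lit 125) (nat_lit 111) (nat_lit 1) (nat_lit 9) (nat_lit 6) L98946 (by decide +kernel)
theorem L98948 : W_36 (nat_lit 4) (nat_lit 0x200000001800080007800240010005800068000000000) (nat_lit 0x0) (nat_lit 0x8000400038008000000002000000000000000000) := T_36 (nat_lit 124) (nat_lit 123) (nat_lit 1) (nat_lit 8) (nat_lit 6) L98947 (by decide +kernel)
theorem L98949 : W_36 (nat_lit 5) (nat_lit 0x200000001800080006800240010005800068000000000) (nat_lit 0x0) (nat_lit 0x8000400038009000020002000000000000000000) := T_36 (nat_lit 108) (nat_lit 89) (nat_lit 0) (nat_lit 8) (nat_lit 6) L98948 (by decide +kernel)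
theorem L98950 : W_36 (nat_lit 6) (nat_lit 0x200000001800080006800240010001800068000000000) (nat_lit 0x0) (nat_lit 0x8000400038009000020002006000000000000000) := T_36 (nat_lit 62) (nat_lit 61) (nat_lit 0) (nat_lit 11) (nat_lit 3) L98949 (by decide +kernel)
theorem L98951 : W_36 (nat_lit 7) (nat_lit 0x200000001800080004800240010001800068000000000) (nat_lit 0x0) (nat_lit 0x800040003800b000120002006000000000000000) := T_36 (nat_lit 109) (nat_lit 92) (nat_lit 5) (nat_lit 8) (nat_lit 2) L98950 (by decide +kernel)
theorem L98952 : W_36 (nat_lit 8) (nat_lit 0x200000001800080004800240010001800060000000000) (nat_lit 0x0) (nat_lit 0x800040003800b000120002006000018000000000) := T_36 (nat_lit 39) (nat_lit 40) (nat_lit 3) (nat_lit 5) (nat_lit 2) L98951 (by decide +kernel)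
theorem L98953 : W_36 (nat_lit 9) (nat_lit 0x200000001800080004800240010001800020000000000) (nat_lit 0x0) (nat_lit 0x800040003800b000120002006000058001000000) := T_36 (nat_lit 42) (nat_lit 24) (nat_lit 4) (nat_lit 8) (nat_lit 5) L98952 (by decide +kernel)
theorem L98954 : W_36 (nat_lit 10) (nat_lit 0x200000001800080004800240010001800000000000000) (nat_lit 0x0) (nat_lit 0x800040003800b000120002006400078001000000) := T_36 (nat_lit 41) (nat_lit 58) (nat_lit 4) (nat_lit 8) (nat_lit 6) L98953 (by decide +kernel)
theorem L98955 : W_36 (nat_lit 11) (nat_lit 0x200000001800080004800240010001000000000000000) (nat_lit 0x0) (nat_lit 0x800040003800b000120002006c000f8001000000) := T_36 (nat_lit 59) (nat_lit 43) (nat_lit 6) (nat_lit 8) (nat_lit 6) L98954 (by decide +kernel)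
theorem L98956 : W_36 (nat_lit 12) (nat_lit 0x200000001000080004800240010001000000000000000) (nat_lit 0x0) (nat_lit 0x18000c0003800b000120002006c000f8001000000) := T_36 (nat_lit 143) (nat_lit 160) (nat_lit 5) (nat_lit 8) (nat_lit 5) L98955 (by decide +kernel)
theorem L98957 : W_36 (nat_lit 13) (nat_lit 0x200000001000080004800240010000000000000000000) (nat_lit 0x0) (nat_lit 0x18000c0003800b000120022007c000f8001000000) := T_36 (nat_lit 60) (nat_lit 77) (nat_lit 6) (nat_lit 8) (nat_lit 7) L98956 (by decide +kernel)
theorem L98958 : W_36 (nat_lit 2) (nat_lit 0x800380004001a00090004800260030000000000000000000) (nat_lit 0x0) (nat_lit 0x10001000400000000000000000000000000000000000000000000) := D_36 (nat_lit 192) (nat_lit 178) (nat_lit 208) (nat_lit 1) (nat_lit 8) (nat_lit 10) (nat_lit 5) (nat_lit 5) (nat_lit 8) (by decide +kernel)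
theorem L98959 : W_36 (nat_lit 3) (nat_lit 0x380004001a00090004800260030000000000000000000) (nat_lit 0x0) (nat_lit 0x10001800440000000000000000000000000000000000000000000) := T_36 (nat_lit 191) (nat_lit 174) (nat_lit 5) (nat_lit 5) (nat_lit 7) L98958 (by decide +kernel)
theorem L98960 : W_36 (nat_lit 4) (nat_lit 0x300004001a00090004800260030000000000000000000) (nat_lit 0x0) (nat_lit 0x100038004c0000000000000000000000000000000000000000000) := T_36 (nat_lit 175) (nat_lit 193) (nat_lit 7) (nat_lit 5) (nat_lit 7) L98959 (by decide +kernel)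
theorem L98961 : W_36 (nat_lit 5) (nat_lit 0x200004001a00090004800260030000000000000000000) (nat_lit 0x0) (nat_lit 0x100038005c0008000000000000000000000000000000000000000) := T_36 (nat_lit 176) (nat_lit 159) (nat_lit 7) (nat_lit 5) (nat_lit 6) L98960 (by decide +kernel)
theorem L98962 : W_36 (nat_lit 6) (nat_lit 0x200004001a00090004800260010000000000000000000) (nat_lit 0x0) (nat_lit 0x100038005c0008000000000000000000020001000000000000000) := T_36 (nat_lit 77) (nat_lit 60) (nat_lit 6) (nat_lit 8) (nat_lit 7) L98961 (by decide +kernel)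
theorem L98963 : W_36 (nat_lit 7) (nat_lit 0x200000001a00090004800260010000000000000000000) (nat_lit 0x0) (nat_lit 0x100038005c000c000000000000400000020001000000000000000) := T_36 (nat_lit 158) (nat_lit 106) (nat_lit 4) (nat_lit 5) (nat_lit 9) L98962 (by decide +kernel)
theorem L98964 : W_36 (nat_lit 8) (nat_lit 0x200000001200090004800260010000000000000000000) (nat_lit 0x0) (nat_lit 0x100038005c001c000800000000400000020001000000000000000) := T_36 (nat_lit 143) (nat_lit 160) (nat_lit 5) (nat_lit 8) (nat_lit 5) L98963 (by decide +kernel)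
theorem L98965 : W_36 (nat_lit 9) (nat_lit 0x200000001200090004800240010000000000000000000) (nat_lit 0x0) (nat_lit 0x100038005c001c000800000000400020021001000000000000000) := T_36 (nat_lit 89) (nat_lit 72) (nat_lit 4) (nat_lit 5) (nat_lit 8) L98964 (by decide +kernel)
theorem L98966 : W_36 (nat_lit 10) (nat_lit 0x200000001200080004800240010000000000000000000) (nat_lit 0x0) (nat_lit 0x100038005c001e000900018000400020027001f80090000000000) := Q_36 (nat_lit 124) (C_36 L98336 (C_36 L98261 (C_36 L98329 (C_36 L98965 N_36)))) (by decide +kernel)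
theorem L98967 : W_36 (nat_lit 11) (nat_lit 0x200000001000080004800240010000000000000000000) (nat_lit 0x0) (nat_lit 0x100038005c001f000f0013c000400020027001f80090000000000) := Q_36 (nat_lit 141) (C_36 L98313 (C_36 L98281 (C_36 L98216 (C_36 L98966 (C_36 L98275 N_36))))) (by decide +kernel)
theorem L98968 : W_36 (nat_lit 2) (nat_lit 0x200000001c005a0005800240010001c00000000000000) (nat_lit 0x0) (nat_lit 0x10000000000002000100000000000000) := D_36 (nat_lit 73) (nat_lit 56) (nat_lit 124) (nat_lit 7) (nat_lit 5) (nat_lit 3) (nat_lit 7) (nat_lit 5) (nat_lit 4) (by decide +kernel)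
theorem L98969 : W_36 (nat_lit 3) (nat_lit 0x200000001c00580005800240010001c00000000000000) (nat_lit 0x0) (nat_lit 0x8000000030000000000002000100000000000000) := T_36 (nat_lit 125) (nat_lit 159) (nat_lit 4) (nat_lit 6) (nat_lit 9) L98968 (by decide +kernel)
theorem L98970 : W_36 (nat_lit 4) (nat_lit 0x200000001c00180005800240010001c00000000000000) (nat_lit 0x0) (nat_lit 0x8000000630000000000002000100000000000000) := T_36 (nat_lit 130) (nat_lit 129) (nat_lit 1) (nat_lit 11) (nat_lit 7) L98969 (by decide +kernel)
theorem L98971 : W_36 (nat_lit 5) (nat_lit 0x200000001800180005800240010001c00000000000000) (nat_lit 0x0) (nat_lit 0x8000600630000000000002000100000000000000) := T_36 (nat_lit 142) (nat_lit 141) (nat_lit 2) (nat_lit 5) (nat_lit 8) L98970 (by decide +kernel)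
theorem L98972 : W_36 (nat_lit 6) (nat_lit 0x200000001800180004800240010001c00000000000000) (nat_lit 0x0) (nat_lit 0x8000600630003000000002000100000000000000) := T_36 (nat_lit 108) (nat_lit 109) (nat_lit 3) (nat_lit 5) (nat_lit 6) L98971 (by decide +kernel)
theorem L98973 : W_36 (nat_lit 7) (nat_lit 0x200000001800080004800240010001c00000000000000) (nat_lit 0x0) (nat_lit 0x800060073000b000000002000100000000000000) := T_36 (nat_lit 128) (nat_lit 111) (nat_lit 7) (nat_lit 8) (nat_lit 3) L98972 (by decide +kernel)
theorem L98974 : W_36 (nat_lit 8) (nat_lit 0x200000001800080004800240010001800000000000000) (nat_lit 0x0) (nat_lit 0x800060073000b000000002000500020000000000) := T_36 (nat_lit 58) (nat_lit 41) (nat_lit 4) (nat_lit 8) (nat_lit 6) L98973 (by decide +kernel)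
theorem L98975 : W_36 (nat_lit 9) (nat_lit 0x200000001800080004800240010001000000000000000) (nat_lit 0x0) (nat_lit 0x800060073000b000000002000d000a0000000000) := T_36 (nat_lit 59) (nat_lit 43) (nat_lit 6) (nat_lit 8) (nat_lit 6) L98974 (by decide +kernel)
theorem L98976 : W_36 (nat_lit 10) (nat_lit 0x200000001800080004800240010000000000000000000) (nat_lit 0x0) (nat_lit 0x800060073000b000000022001d000a0000000000) := T_36 (nat_lit 60) (nat_lit 77) (nat_lit 6) (nat_lit 8) (nat_lit 7) L98975 (by decide +kernel)
theorem L98977 : W_36 (nat_lit 11) (nat_lit 0x200000001000080004800240010000000000000000000) (nat_lit 0x0) (nat_lit 0x18000e0073000b000000022001d000a0000000000) := T_36 (nat_lit 143) (nat_lit 160) (nat_lit 5) (nat_lit 8) (nat_lit 5) L98976 (by decide +kernel)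
theorem L98978 : W_36 (nat_lit 2) (nat_lit 0x200000001800180004800240010001800060000000000) (nat_lit 0x0) (nat_lit 0x3000100000000000000000000000) := D_36 (nat_lit 109) (nat_lit 108) (nat_lit 92) (nat_lit 3) (nat_lit 5) (nat_lit 6) (nat_lit 5) (nat_lit 8) (nat_lit 2) (by decide +kernel)
theorem L98979 : W_36 (nat_lit 3) (nat_lit 0x200000001800180004800240010001800020000000000) (nat_lit 0x0) (nat_lit 0x3000100000000000040001000000) := T_36 (nat_lit 42) (nat_lit 24) (nat_lit 4) (nat_lit 8) (nat_lit 5) L98978 (by decide +kernel)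
theorem L98980 : W_36 (nat_lit 4) (nat_lit 0x200000001800080004800240010001800020000000000) (nat_lit 0x0) (nat_lit 0x10000b000100000000000040001000000) := T_36 (nat_lit 128) (nat_lit 111) (nat_lit 7) (nat_lit 8) (nat_lit 3) L98979 (by decide +kernel)
theorem L98981 : W_36 (nat_lit 5) (nat_lit 0x200000001800080004800240010001800000000000000) (nat_lit 0x0) (nat_lit 0x10000b000100000000400060001000000) := T_36 (nat_lit 41) (nat_lit 58) (nat_lit 4) (nat_lit 8) (nat_lit 6) L98980 (by decide +kernel)
theorem L98982 : W_36 (nat_lit 6) (nat_lit 0x200000001800080004800240010001000000000000000) (nat_lit 0x0) (nat_lit 0x10000b000100000000c000e0001000000) := T_36 (nat_lit 59) (nat_lit 43) (nat_lit 6) (nat_lit 8) (nat_lit 6) L98981 (by decide +kernel)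
theorem L98983 : W_36 (nat_lit 7) (nat_lit 0x200000001000080004800240010001000000000000000) (nat_lit 0x0) (nat_lit 0x1000080010000b000100000000c000e0001000000) := T_36 (nat_lit 143) (nat_lit 160) (nat_lit 5) (nat_lit 8) (nat_lit 5) L98982 (by decide +kernel)
theorem L98984 : W_36 (nat_lit 8) (nat_lit 0x200000001000080004800240010000000000000000000) (nat_lit 0x0) (nat_lit 0x1000080010000b000100020001c000e0001000000) := T_36 (nat_lit 60) (nat_lit 77) (nat_lit 6) (nat_lit 8) (nat_lit 7) L98983 (by decide +kernel)
theorem L98985 : W_36 (nat_lit 14) (nat_lit 0x200000001000080004000240010000000000000000000) (nat_lit 0x0) (nat_lit 0x100038005c001f000f0073c00bc00120027007f800f8001000000) := Q_36 (nat_lit 107) (C_36 L98924 (C_36 L98935 (C_36 L98945 (C_36 L98957 (C_36 L98338 (C_36 L98967 (C_36 L98977 (C_36 L98984 N_36)))))))) (by decide +kernel)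
theorem L98986 : W_36 (nat_lit 2) (nat_lit 0x2000000010000800040003e0010000000000000000000) (nat_lit 0x0) (nat_lit 0xe00000000000000000000000000) := D_36 (nat_lit 106) (nat_lit 105) (nat_lit 107) (nat_lit 1) (nat_lit 7) (nat_lit 5) (nat_lit 1) (nat_lit 8) (nat_lit 5) (by decide +kernel)
theorem L98987 : W_36 (nat_lit 3) (nat_lit 0x2000000010000800040003c0010000000000000000000) (nat_lit 0x0) (nat_lit 0x2e00020000000000000000000000) := T_36 (nat_lit 89) (nat_lit 109) (nat_lit 3) (nat_lit 4) (nat_lit 5) L98986 (by decide +kernel)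
theorem L98988 : W_36 (nat_lit 4) (nat_lit 0x2000000010000800040002c0010000000000000000000) (nat_lit 0x0) (nat_lit 0xae00120000000000000000000000) := T_36 (nat_lit 92) (nat_lit 111) (nat_lit 3) (nat_lit 5) (nat_lit 5) L98987 (by decide +kernel)
theorem L98989 : W_36 (nat_lit 2) (nat_lit 0x2000000018000800044003c0011000000000000000000) (nat_lit 0x0) (nat_lit 0x200020000800000000000000000) := D_36 (nat_lit 89) (nat_lit 105) (nat_lit 71) (nat_lit 1) (nat_lit 7) (nat_lit 5) (nat_lit 0) (nat_lit 7) (nat_lit 5) (by decide +kernel)
theorem L98990 : W_36 (nat_lit 3) (nat_lit 0x2000000018000800044003c0010000000000000000000) (nat_lit 0x0) (nat_lit 0x200020003800000000000000000) := T_36 (nat_lit 72) (nat_lit 73) (nat_lit 0) (nat_lit 8) (nat_lit 5) L98989 (by decide +kernel)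
theorem L98991 : W_36 (nat_lit 4) (nat_lit 0x2000000018000800040003c0010000000000000000000) (nat_lit 0x0) (nat_lit 0xe00020003800000000000000000) := T_36 (nat_lit 106) (nat_lit 107) (nat_lit 1) (nat_lit 8) (nat_lit 5) L98990 (by decide +kernel)
theorem L98992 : W_36 (nat_lit 5) (nat_lit 0x2000000010000800040003c0010000000000000000000) (nat_lit 0x0) (nat_lit 0x10000800000000e00020003800000000000000000) := T_36 (nat_lit 143) (nat_lit 160) (nat_lit 5) (nat_lit 8) (nat_lit 5) L98991 (by decide +kernel)
theorem L98993 : W_36 (nat_lit 2) (nat_lit 0x2000000018000800042003f0012400000000000000000) (nat_lit 0x0) (nat_lit 0x8004200000000000000000) := D_36 (nat_lit 87) (nat_lit 74) (nat_lit 69) (nat_lit 2) (nat_lit 2) (nat_lit 5) (nat_lit 0) (nat_lit 5) (nat_lit 5) (by decide +kernel)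
theorem L98994 : W_36 (nat_lit 3) (nat_lit 0x2000000018000800042003f0012000000000000000000) (nat_lit 0x0) (nat_lit 0x8004e00000000000000000) := T_36 (nat_lit 70) (nat_lit 71) (nat_lit 0) (nat_lit 6) (nat_lit 5) L98993 (by decide +kernel)
theorem L98995 : W_36 (nat_lit 4) (nat_lit 0x2000000018000800042003e0012000000000000000000) (nat_lit 0x0) (nat_lit 0x100018004e00000000000000000) := T_36 (nat_lit 88) (nat_lit 104) (nat_lit 1) (nat_lit 6) (nat_lit 5) L98994 (by decide +kernel)
theorem L98996 : W_36 (nat_lit 5) (nat_lit 0x2000000018000800040003e0012000000000000000000) (nat_lit 0x0) (nat_lit 0x700018004e00000000000000000) := T_36 (nat_lit 105) (nat_lit 106) (nat_lit 1) (nat_lit 7) (nat_lit 5) L98995 (by decide +kernel)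
theorem L98997 : W_36 (nat_lit 6) (nat_lit 0x2000000018000800040003c0012000000000000000000) (nat_lit 0x0) (nat_lit 0x2700038004e00000000000000000) := T_36 (nat_lit 89) (nat_lit 109) (nat_lit 3) (nat_lit 4) (nat_lit 5) L98996 (by decide +kernel)
theorem L98998 : W_36 (nat_lit 7) (nat_lit 0x2000000010000800040003c0012000000000000000000) (nat_lit 0x0) (nat_lit 0x10000800000002700038004e00000000000000000) := T_36 (nat_lit 143) (nat_lit 160) (nat_lit 5) (nat_lit 8) (nat_lit 5) L98997 (by decide +kernel)
theorem L98999 : W_36 (nat_lit 8) (nat_lit 0x2000000010000800040003c0010000000000000000000) (nat_lit 0x0) (nat_lit 0x10000800000002700038007e00000000000000000) := T_36 (nat_lit 73) (nat_lit 72) (nat_lit 0) (nat_lit 8) (nat_lit 5) L98998 (by decide +kernel)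
theorem L99000 : W_36 (nat_lit 2) (nat_lit 0x2000000010000800048003c0010000800040000000000) (nat_lit 0x0) (nat_lit 0x400020001000000) := D_36 (nat_lit 41) (nat_lit 24) (nat_lit 58) (nat_lit 4) (nat_lit 8) (nat_lit 5) (nat_lit 4) (nat_lit 8) (nat_lit 6) (by decide +kernel)
theorem L99001 : W_36 (nat_lit 3) (nat_lit 0x2000000010000800048003c0010000800000000000000) (nat_lit 0x0) (nat_lit 0x2000000000000400060001000000) := T_36 (nat_lit 42) (nat_lit 109) (nat_lit 5) (nat_lit 8) (nat_lit 2) L99000 (by decide +kernel)
theorem L99002 : W_36 (nat_lit 4) (nat_lit 0x2000000010000800040003c0010000800000000000000) (nat_lit 0x0) (nat_lit 0x2c00000000000400060001000000) := T_36 (nat_lit 107) (nat_lit 106) (nat_lit 1) (nat_lit 8) (nat_lit 5) L99001 (by decide +kernel)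
theorem L99003 : W_36 (nat_lit 2) (nat_lit 0x2000000010000800048003c0012001e00000000000000) (nat_lit 0x0) (nat_lit 0x100018000000000) := D_36 (nat_lit 40) (nat_lit 39) (nat_lit 56) (nat_lit 0) (nat_lit 9) (nat_lit 3) (nat_lit 6) (nat_lit 5) (nat_lit 6) (by decide +kernel)
theorem L99004 : W_36 (nat_lit 3) (nat_lit 0x2000000010000800048003c0012001c00000000000000) (nat_lit 0x0) (nat_lit 0x4000300018000000000) := T_36 (nat_lit 57) (nat_lit 74) (nat_lit 1) (nat_lit 9) (nat_lit 3) L99003 (by decide +kernel)
theorem L99005 : W_36 (nat_lit 4) (nat_lit 0x2000000010000800048003c0012000c00000000000000) (nat_lit 0x0) (nat_lit 0x4001300098000000000) := T_36 (nat_lit 60) (nat_lit 43) (nat_lit 6) (nat_lit 8) (nat_lit 6) L99004 (by decide +kernel)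
theorem L99006 : W_36 (nat_lit 5) (nat_lit 0x2000000010000800048003c0012000800000000000000) (nat_lit 0x0) (nat_lit 0x40017000b8000000000) := T_36 (nat_lit 58) (nat_lit 41) (nat_lit 4) (nat_lit 8) (nat_lit 6) L99005 (by decide +kernel)
theorem L99007 : W_36 (nat_lit 6) (nat_lit 0x2000000010000800040003c0012000800000000000000) (nat_lit 0x0) (nat_lit 0xc000000040017000b8000000000) := T_36 (nat_lit 107) (nat_lit 106) (nat_lit 1) (nat_lit 8) (nat_lit 5) L99006 (by decide +kernel)
theorem L99008 : W_36 (nat_lit 7) (nat_lit 0x2000000010000800040003c0010000800000000000000) (nat_lit 0x0) (nat_lit 0xc000000070017000b8000000000) := T_36 (nat_lit 73) (nat_lit 72) (nat_lit 0) (nat_lit 8) (nat_lit 5) L99007 (by decide +kernel)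
theorem L99009 : W_36 (nat_lit 2) (nat_lit 0x2000000018000800040003c0012000800040000000000) (nat_lit 0x0) (nat_lit 0x400020001000000) := D_36 (nat_lit 41) (nat_lit 24) (nat_lit 58) (nat_lit 4) (nat_lit 8) (nat_lit 5) (nat_lit 4) (nat_lit 8) (nat_lit 6) (by decide +kernel)
theorem L99010 : W_36 (nat_lit 3) (nat_lit 0x2000000018000800040003c0012000800000000000000) (nat_lit 0x0) (nat_lit 0x2000000000000400060001000000) := T_36 (nat_lit 42) (nat_lit 109) (nat_lit 5) (nat_lit 8) (nat_lit 2) L99009 (by decide +kernel)
theorem L99011 : W_36 (nat_lit 4) (nat_lit 0x2000000018000800040003c0010000800000000000000) (nat_lit 0x0) (nat_lit 0x2000000003000400060001000000) := T_36 (nat_lit 73) (nat_lit 72) (nat_lit 0) (nat_lit 8) (nat_lit 5) L99010 (by decide +kernel)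
theorem L99012 : W_36 (nat_lit 5) (nat_lit 0x2000000010000800040003c0010000800000000000000) (nat_lit 0x0) (nat_lit 0x10000800000002000000003000400060001000000) := T_36 (nat_lit 143) (nat_lit 160) (nat_lit 5) (nat_lit 8) (nat_lit 5) L99011 (by decide +kernel)
theorem L99013 : W_36 (nat_lit 2) (nat_lit 0x2000000010000800040003c0010000800040000000000) (nat_lit 0x0) (nat_lit 0x1000080004000000) := D_36 (nat_lit 43) (nat_lit 60) (nat_lit 26) (nat_lit 6) (nat_lit 8) (nat_lit 6) (nat_lit 6) (nat_lit 8) (nat_lit 5) (by decide +kernel)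
theorem L99014 : W_36 (nat_lit 3) (nat_lit 0x2000000010000800040003c0010000800000000000000) (nat_lit 0x0) (nat_lit 0x20000000000010000c0004000000) := T_36 (nat_lit 42) (nat_lit 109) (nat_lit 5) (nat_lit 8) (nat_lit 2) L99013 (by decide +kernel)
theorem L99015 : W_36 (nat_lit 8) (nat_lit 0x2000000010000800040003c0010000000000000000000) (nat_lit 0x0) (nat_lit 0x10000800000002c00000007001f000f8005000000) := Q_36 (nat_lit 59) (C_36 L99002 (C_36 L99008 (C_36 L99012 (C_36 L99014 N_36)))) (by decide +kernel)
theorem L99016 : W_36 (nat_lit 2) (nat_lit 0x2000000018000800040003e0010000000000000000000) (nat_lit 0x0) (nat_lit 0x3800000000000000000) := D_36 (nat_lit 72) (nat_lit 71) (nat_lit 73) (nat_lit 0) (nat_lit 7) (nat_lit 5) (nat_lit 0) (nat_lit 8) (nat_lit 5) (by decide +kernel)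
theorem L99017 : W_36 (nat_lit 3) (nat_lit 0x2000000018000800040003c0010000000000000000000) (nat_lit 0x0) (nat_lit 0x2000020003800000000000000000) := T_36 (nat_lit 89) (nat_lit 109) (nat_lit 3) (nat_lit 4) (nat_lit 5) L99016 (by decide +kernel)
theorem L99018 : W_36 (nat_lit 4) (nat_lit 0x2000000010000800040003c0010000000000000000000) (nat_lit 0x0) (nat_lit 0x10000800000002000020003800000000000000000) := T_36 (nat_lit 143) (nat_lit 160) (nat_lit 5) (nat_lit 8) (nat_lit 5) L99017 (by decide +kernel)
theorem L99019 : W_36 (nat_lit 9) (nat_lit 0x2000000010000800040002c0010000000000000000000) (nat_lit 0x0) (nat_lit 0x10000800000002f00138007e01f000f8005000000) := Q_36 (nat_lit 92) (C_36 L98987 (C_36 L98992 (C_36 L98999 (C_36 L99015 (C_36 L99018 N_36))))) (by decide +kernel)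
theorem L99020 : W_36 (nat_lit 5) (nat_lit 0x2000000018000800040002c0010000000000000000000) (nat_lit 0x0) (nat_lit 0x8e00120003800000000000000000) := T_36 (nat_lit 92) (nat_lit 111) (nat_lit 3) (nat_lit 5) (nat_lit 5) L98991 (by decide +kernel)
theorem L99021 : W_36 (nat_lit 6) (nat_lit 0x2000000010000800040002c0010000000000000000000) (nat_lit 0x0) (nat_lit 0x10000800000008e00120003800000000000000000) := T_36 (nat_lit 143) (nat_lit 160) (nat_lit 5) (nat_lit 8) (nat_lit 5) L99020 (by decide +kernel)
theorem L99022 : W_36 (nat_lit 4) (nat_lit 0x2000000018000800040002c0010000000000000000000) (nat_lit 0x0) (nat_lit 0xa000120003800000000000000000) := T_36 (nat_lit 92) (nat_lit 111) (nat_lit 3) (nat_lit 5) (nat_lit 5) L99017 (by decide +kernel)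
theorem L99023 : W_36 (nat_lit 5) (nat_lit 0x2000000010000800040002c0010000000000000000000) (nat_lit 0x0) (nat_lit 0x1000080000000a000120003800000000000000000) := T_36 (nat_lit 143) (nat_lit 160) (nat_lit 5) (nat_lit 8) (nat_lit 5) L99022 (by decide +kernel)
theorem L99024 : W_36 (nat_lit 9) (nat_lit 0x2000000010000800040002c0010000000000000000000) (nat_lit 0x0) (nat_lit 0x1000080000000ac00100007001f000f8005000000) := T_36 (nat_lit 92) (nat_lit 111) (nat_lit 3) (nat_lit 5) (nat_lit 5) L99015 (by decide +kernel)
theorem L99025 : W_36 (nat_lit 13) (nat_lit 0x200000001000080004000240010000000000000000000) (nat_lit 0x0) (nat_lit 0x8001e000f0013c00bf001b8007e01f000f8007000200) := Q_36 (nat_lit 91) (C_36 L98902 (C_36 L98988 (C_36 L99019 (C_36 L99021 (C_36 L98871 (C_36 L99023 (C_36 L99024 N_36))))))) (by decide +kernel)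
theorem L99026 : W_36 (nat_lit 15) (nat_lit 0x200000001000080004000200010000000000000000000) (nat_lit 0x0) (nat_lit 0x100038005c001f000fc073e00bf001f80e7e07fe03ff81fe00260) := Q_36 (nat_lit 90) (C_36 L98128 (C_36 L98575 (C_36 L98581 (C_36 L98594 (C_36 L98609 (C_36 L98812 (C_36 L98872 (C_36 L98903 (C_36 L98985 (C_36 L99025 N_36)))))))))) (by decide +kernel)
theorem L99027 : W_36 (nat_lit 2) (nat_lit 0x200000001800080004000200010001400000000000000) (nat_lit 0x0) (nat_lit 0x8000a0000000000) := D_36 (nat_lit 59) (nat_lit 41) (nat_lit 43) (nat_lit 4) (nat_lit 8) (nat_lit 6) (nat_lit 6) (nat_lit 8) (nat_lit 6) (by decide +kernel)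
theorem L99028 : W_36 (nat_lit 3) (nat_lit 0x200000001800080004000200010000400000000000000) (nat_lit 0x0) (nat_lit 0x200018000a0000000000) := T_36 (nat_lit 60) (nat_lit 77) (nat_lit 6) (nat_lit 8) (nat_lit 7) L99027 (by decide +kernel)
theorem L99029 : W_36 (nat_lit 4) (nat_lit 0x200000001800080004000200010000000000000000000) (nat_lit 0x0) (nat_lit 0x28001c000a0000000000) := T_36 (nat_lit 58) (nat_lit 75) (nat_lit 4) (nat_lit 8) (nat_lit 7) L99028 (by decide +kernel)
theorem L99030 : W_36 (nat_lit 5) (nat_lit 0x200000001000080004000200010000000000000000000) (nat_lit 0x0) (nat_lit 0x10000800000000000000028001c000a0000000000) := T_36 (nat_lit 143) (nat_lit 160) (nat_lit 5) (nat_lit 8) (nat_lit 5) L99029 (by decide +kernel)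
theorem L99031 : W_36 (nat_lit 2) (nat_lit 0x200000001000080004000200010000000000000000000) (nat_lit 0x0) (nat_lit 0x100008000400000000000000) := D_36 (nat_lit 75) (nat_lit 58) (nat_lit 92) (nat_lit 4) (nat_lit 8) (nat_lit 7) (nat_lit 4) (nat_lit 8) (nat_lit 8) (by decide +kernel)
theorem L99032 : W_36 (nat_lit 2) (nat_lit 0x20000000180008000e000300010001800000000000000) (nat_lit 0x0) (nat_lit 0x100000c0000000000000000000000) := D_36 (nat_lit 91) (nat_lit 90) (nat_lit 112) (nat_lit 3) (nat_lit 5) (nat_lit 5) (nat_lit 0) (nat_lit 10) (nat_lit 6) (by decide +kernel)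
theorem L99033 : W_36 (nat_lit 3) (nat_lit 0x200000001800080006000300010001800000000000000) (nat_lit 0x0) (nat_lit 0x1000180000c0000000000000000000000) := T_36 (nat_lit 111) (nat_lit 128) (nat_lit 7) (nat_lit 8) (nat_lit 3) L99032 (by decide +kernel)
theorem L99034 : W_36 (nat_lit 4) (nat_lit 0x200000001000080006000300010001800000000000000) (nat_lit 0x0) (nat_lit 0x100008001000180000c0000000000000000000000) := T_36 (nat_lit 143) (nat_lit 160) (nat_lit 5) (nat_lit 8) (nat_lit 5) L99033 (by decide +kernel)
theorem L99035 : W_36 (nat_lit 5) (nat_lit 0x200000001000080004000300010001800000000000000) (nat_lit 0x0) (nat_lit 0x1000080010001a0000c0000000000040000000000) := T_36 (nat_lit 109) (nat_lit 42) (nat_lit 5) (nat_lit 8) (nat_lit 2) L99034 (by decide +kernel)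
theorem L99036 : W_36 (nat_lit 6) (nat_lit 0x200000001000080004000300010001000000000000000) (nat_lit 0x0) (nat_lit 0x1000080010001a0000c00000008000c0000000000) := T_36 (nat_lit 59) (nat_lit 43) (nat_lit 6) (nat_lit 8) (nat_lit 6) L99035 (by decide +kernel)
theorem L99037 : W_36 (nat_lit 7) (nat_lit 0x200000001000080004000200010001000000000000000) (nat_lit 0x0) (nat_lit 0x1000080010001a0001c00080008000c0000000000) := T_36 (nat_lit 92) (nat_lit 75) (nat_lit 4) (nat_lit 8) (nat_lit 8) L99036 (by decide +kernel)
theorem L99038 : W_36 (nat_lit 8) (nat_lit 0x200000001000080004000200010000000000000000000) (nat_lit 0x0) (nat_lit 0x1000080010001a0001c00280018000c0000000000) := T_36 (nat_lit 60) (nat_lit 77) (nat_lit 6) (nat_lit 8) (nat_lit 7) L99037 (by decide +kernel)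
theorem L99039 : W_36 (nat_lit 16) (nat_lit 0x200000001000080004000200000000000000000000000) (nat_lit 0x0) (nat_lit 0x100038005c001f000fc073e01bf001f80ffe07fe03ff81fe00260) := Q_36 (nat_lit 76) (C_36 L99026 (C_36 L99030 (C_36 L99031 (C_36 L99038 N_36)))) (by decide +kernel)
theorem L99040 : W_36 (nat_lit 2) (nat_lit 0x200000001800080007000600000000000000000000000) (nat_lit 0x0) (nat_lit 0x1900000000000000000000000) := D_36 (nat_lit 95) (nat_lit 96) (nat_lit 92) (nat_lit 1) (nat_lit 11) (nat_lit 5) (nat_lit 1) (nat_lit 10) (nat_lit 5) (by decide +kernel)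
theorem L99041 : W_36 (nat_lit 3) (nat_lit 0x200000001800080006000600000000000000000000000) (nat_lit 0x0) (nat_lit 0x1801900000000000000000000000) := T_36 (nat_lit 108) (nat_lit 107) (nat_lit 2) (nat_lit 5) (nat_lit 6) L99040 (by decide +kernel)
theorem L99042 : W_36 (nat_lit 4) (nat_lit 0x200000001800080006000200000000000000000000000) (nat_lit 0x0) (nat_lit 0x1801d00020000000000000000000) := T_36 (nat_lit 94) (nat_lit 77) (nat_lit 6) (nat_lit 8) (nat_lit 8) L99041 (by decide +kernel)
theorem L99043 : W_36 (nat_lit 5) (nat_lit 0x200000001000080006000200000000000000000000000) (nat_lit 0x0) (nat_lit 0x10000800000001801d00020000000000000000000) := T_36 (nat_lit 143) (nat_lit 160) (nat_lit 5) (nat_lit 8) (nat_lit 5) L99042 (by decide +kernel)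
theorem L99044 : W_36 (nat_lit 2) (nat_lit 0x200000001000080007000600000000000000000000000) (nat_lit 0x0) (nat_lit 0x8001800000000000000000000000) := D_36 (nat_lit 95) (nat_lit 96) (nat_lit 111) (nat_lit 1) (nat_lit 11) (nat_lit 5) (nat_lit 2) (nat_lit 6) (nat_lit 6) (by decide +kernel)
theorem L99045 : W_36 (nat_lit 3) (nat_lit 0x200000001000080006000600000000000000000000000) (nat_lit 0x0) (nat_lit 0x9801800000000000000000000000) := T_36 (nat_lit 108) (nat_lit 107) (nat_lit 2) (nat_lit 5) (nat_lit 6) L99044 (by decide +kernel)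
theorem L99046 : W_36 (nat_lit 4) (nat_lit 0x200000001000080006000200000000000000000000000) (nat_lit 0x0) (nat_lit 0x9801c00020000000000000000000) := T_36 (nat_lit 94) (nat_lit 77) (nat_lit 6) (nat_lit 8) (nat_lit 8) L99045 (by decide +kernel)
theorem L99047 : W_36 (nat_lit 2) (nat_lit 0x200000001c001a000f000200000000000000000000000) (nat_lit 0x0) (nat_lit 0x8000000000000000100008000000000000000000) := D_36 (nat_lit 92) (nat_lit 75) (nat_lit 159) (nat_lit 4) (nat_lit 8) (nat_lit 8) (nat_lit 6) (nat_lit 6) (nat_lit 9) (by decide +kernel)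
theorem L99048 : W_36 (nat_lit 3) (nat_lit 0x200000001c0018000f000200000000000000000000000) (nat_lit 0x0) (nat_lit 0x8000000030000000100008000000000000000000) := T_36 (nat_lit 125) (nat_lit 124) (nat_lit 1) (nat_lit 9) (nat_lit 6) L99047 (by decide +kernel)
theorem L99049 : W_36 (nat_lit 4) (nat_lit 0x20000000180018000f000200000000000000000000000) (nat_lit 0x0) (nat_lit 0x8000600030000000100008000000000000000000) := T_36 (nat_lit 142) (nat_lit 141) (nat_lit 2) (nat_lit 5) (nat_lit 8) L99048 (by decide +kernel)
theorem L99050 : W_36 (nat_lit 5) (nat_lit 0x20000000100018000f000200000000000000000000000) (nat_lit 0x0) (nat_lit 0x18000e00030000000100008000000000000000000) := T_36 (nat_lit 143) (nat_lit 160) (nat_lit 5) (nat_lit 8) (nat_lit 5) L99049 (by decide +kernel)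
theorem L99051 : W_36 (nat_lit 6) (nat_lit 0x20000000100008000f000200000000000000000000000) (nat_lit 0x0) (nat_lit 0x18000e00330000000100008000000000000000000) := T_36 (nat_lit 128) (nat_lit 129) (nat_lit 3) (nat_lit 6) (nat_lit 6) L99050 (by decide +kernel)
theorem L99052 : W_36 (nat_lit 10) (nat_lit 0x200000001000080007000200000000000000000000000) (nat_lit 0x0) (nat_lit 0x18000e01f300780039c0008000000000000000000) := Q_36 (nat_lit 111) (C_36 L97843 (C_36 L97787 (C_36 L99051 N_36))) (by decide +kernel)
theorem L99053 : W_36 (nat_lit 11) (nat_lit 0x200000001000080006000200000000000000000000000) (nat_lit 0x0) (nat_lit 0x18000e01f38079c039e0008000000000000000000) := Q_36 (nat_lit 108) (C_36 L99052 (C_36 L97846 (C_36 L97826 (C_36 L97700 N_36)))) (by decide +kernel)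
theorem L99054 : W_36 (nat_lit 5) (nat_lit 0x2000000018000a000f000280000000000000000000000) (nat_lit 0x0) (nat_lit 0xe00070000500020000000000000000000) := T_36 (nat_lit 94) (nat_lit 77) (nat_lit 6) (nat_lit 8) (nat_lit 8) L97656 (by decide +kernel)
theorem L99055 : W_36 (nat_lit 6) (nat_lit 0x2000000018000a000f000200000000000000000000000) (nat_lit 0x0) (nat_lit 0xe000700005c0020000000000000000000) := T_36 (nat_lit 91) (nat_lit 90) (nat_lit 0) (nat_lit 9) (nat_lit 6) L99054 (by decide +kernel)
theorem L99056 : W_36 (nat_lit 7) (nat_lit 0x20000000180008000f000200000000000000000000000) (nat_lit 0x0) (nat_lit 0xe300700005c0020000000000000000000) := T_36 (nat_lit 125) (nat_lit 124) (nat_lit 1) (nat_lit 9) (nat_lit 6) L99055 (by decide +kernel)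
theorem L99057 : W_36 (nat_lit 8) (nat_lit 0x20000000100008000f000200000000000000000000000) (nat_lit 0x0) (nat_lit 0x10000800e300700005c0020000000000000000000) := T_36 (nat_lit 143) (nat_lit 160) (nat_lit 5) (nat_lit 8) (nat_lit 5) L99056 (by decide +kernel)
theorem L99058 : W_36 (nat_lit 2) (nat_lit 0x2000040014001a000f000680000000000000000000000) (nat_lit 0x0) (nat_lit 0x80018000000000000000000000000000000000000000) := D_36 (nat_lit 159) (nat_lit 160) (nat_lit 175) (nat_lit 7) (nat_lit 6) (nat_lit 6) (nat_lit 5) (nat_lit 6) (nat_lit 6) (by decide +kernel)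
theorem L99059 : W_36 (nat_lit 3) (nat_lit 0x2000000014001a000f000680000000000000000000000) (nat_lit 0x0) (nat_lit 0x8001c000200000000000000000000000000000000000) := T_36 (nat_lit 158) (nat_lit 141) (nat_lit 5) (nat_lit 6) (nat_lit 5) L99058 (by decide +kernel)
theorem L99060 : W_36 (nat_lit 4) (nat_lit 0x20000000140018000f000680000000000000000000000) (nat_lit 0x0) (nat_lit 0x8001c000200030000000000000000000000000000000) := T_36 (nat_lit 125) (nat_lit 124) (nat_lit 1) (nat_lit 9) (nat_lit 6) L99059 (by decide +kernel)
theorem L99061 : W_36 (nat_lit 5) (nat_lit 0x20000000140008000f000680000000000000000000000) (nat_lit 0x0) (nat_lit 0x8001c000200330000000000000000000000000000000) := T_36 (nat_lit 128) (nat_lit 129) (nat_lit 3) (nat_lit 6) (nat_lit 6) L99060 (by decide +kernel)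
theorem L99062 : W_36 (nat_lit 6) (nat_lit 0x20000000140008000f000600000000000000000000000) (nat_lit 0x0) (nat_lit 0x8001c0002003300000000c0000000000000000000000) := T_36 (nat_lit 91) (nat_lit 90) (nat_lit 0) (nat_lit 9) (nat_lit 6) L99061 (by decide +kernel)
theorem L99063 : W_36 (nat_lit 7) (nat_lit 0x20000000140008000f000200000000000000000000000) (nat_lit 0x0) (nat_lit 0x8001c0002003300000004c0020000000000000000000) := T_36 (nat_lit 94) (nat_lit 77) (nat_lit 6) (nat_lit 8) (nat_lit 8) L99062 (by decide +kernel)
theorem L99064 : W_36 (nat_lit 8) (nat_lit 0x20000000100008000f000200000000000000000000000) (nat_lit 0x0) (nat_lit 0x8001c000e003300000004c0020000000000000000000) := Q_36 (nat_lit 142) (C_36 L97662 (C_36 L97672 (C_36 L99063 (C_36 L97670 N_36)))) (by decide +kernel)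
theorem L99065 : W_36 (nat_lit 9) (nat_lit 0x200000001000080007000200000000000000000000000) (nat_lit 0x0) (nat_lit 0x8001c000e00f300780005c0028000000000000000000) := Q_36 (nat_lit 111) (C_36 L99051 (C_36 L97787 (C_36 L99057 (C_36 L99064 N_36)))) (by decide +kernel)
theorem L99066 : W_36 (nat_lit 10) (nat_lit 0x200000001000080006000200000000000000000000000) (nat_lit 0x0) (nat_lit 0x8001c000e00f38079c005e0028000000000000000000) := Q_36 (nat_lit 108) (C_36 L99065 (C_36 L97846 (C_36 L97826 (C_36 L97700 N_36)))) (by decide +kernel)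
theorem L99067 : W_36 (nat_lit 2) (nat_lit 0x200000001800080016000fc0040000000000000000000) (nat_lit 0x0) (nat_lit 0x7000000000000000000) := D_36 (nat_lit 73) (nat_lit 74) (nat_lit 72) (nat_lit 0) (nat_lit 9) (nat_lit 5) (nat_lit 0) (nat_lit 8) (nat_lit 5) (by decide +kernel)
theorem L99068 : W_36 (nat_lit 3) (nat_lit 0x200000001800080016000f80040000000000000000000) (nat_lit 0x0) (nat_lit 0x60007000000000000000000) := T_36 (nat_lit 90) (nat_lit 89) (nat_lit 3) (nat_lit 4) (nat_lit 5) L99067 (by decide +kernel)
theorem L99069 : W_36 (nat_lit 4) (nat_lit 0x200000001800080016000f00040000000000000000000) (nat_lit 0x0) (nat_lit 0x80000e0007000000000000000000) := T_36 (nat_lit 91) (nat_lit 111) (nat_lit 3) (nat_lit 6) (nat_lit 5) L99068 (by decide +kernel)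
theorem L99070 : W_36 (nat_lit 5) (nat_lit 0x200000001800080006000f00040000000000000000000) (nat_lit 0x0) (nat_lit 0x380000e0007000000000000000000) := T_36 (nat_lit 112) (nat_lit 113) (nat_lit 3) (nat_lit 7) (nat_lit 5) L99069 (by decide +kernel)
theorem L99071 : W_36 (nat_lit 6) (nat_lit 0x200000001800080006000f00000000000000000000000) (nat_lit 0x0) (nat_lit 0x380000e00c7000000000000000000) := T_36 (nat_lit 78) (nat_lit 79) (nat_lit 2) (nat_lit 7) (nat_lit 5) L99070 (by decide +kernel)
theorem L99072 : W_36 (nat_lit 7) (nat_lit 0x200000001800080006000700000000000000000000000) (nat_lit 0x0) (nat_lit 0x380018e00c7000000000000000000) := T_36 (nat_lit 95) (nat_lit 96) (nat_lit 1) (nat_lit 11) (nat_lit 5) L99071 (by decide +kernel)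
theorem L99073 : W_36 (nat_lit 8) (nat_lit 0x200000001800080006000300000000000000000000000) (nat_lit 0x0) (nat_lit 0x38001ce00e7000000000000000000) := T_36 (nat_lit 94) (nat_lit 77) (nat_lit 6) (nat_lit 8) (nat_lit 8) L99072 (by decide +kernel)
theorem L99074 : W_36 (nat_lit 9) (nat_lit 0x200000001800080006000200000000000000000000000) (nat_lit 0x0) (nat_lit 0x38001de00ef000000000000000000) := T_36 (nat_lit 92) (nat_lit 75) (nat_lit 4) (nat_lit 8) (nat_lit 8) L99073 (by decide +kernel)
theorem L99075 : W_36 (nat_lit 10) (nat_lit 0x200000001000080006000200000000000000000000000) (nat_lit 0x0) (nat_lit 0x10000800000038001de00ef000000000000000000) := T_36 (nat_lit 143) (nat_lit 160) (nat_lit 5) (nat_lit 8) (nat_lit 5) L99074 (by decide +kernel)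
theorem L99076 : W_36 (nat_lit 12) (nat_lit 0x200000001000080004000200000000000000000000000) (nat_lit 0x0) (nat_lit 0x8001c000e01f3807bc03de00ef000000000000000000) := Q_36 (nat_lit 109) (C_36 L99043 (C_36 L99046 (C_36 L99053 (C_36 L99066 (C_36 L99075 N_36))))) (by decide +kernel)
theorem L99077 : W_36 (nat_lit 2) (nat_lit 0x20000000100008000c000200010000000000000000000) (nat_lit 0x0) (nat_lit 0x400020001000000000000000) := D_36 (nat_lit 77) (nat_lit 94) (nat_lit 60) (nat_lit 6) (nat_lit 8) (nat_lit 8) (nat_lit 6) (nat_lit 8) (nat_lit 7) (by decide +kernel)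
theorem L99078 : W_36 (nat_lit 2) (nat_lit 0x20000000100008000c000200010000800000000000000) (nat_lit 0x0) (nat_lit 0x20001000080000000000) := D_36 (nat_lit 60) (nat_lit 43) (nat_lit 77) (nat_lit 6) (nat_lit 8) (nat_lit 6) (nat_lit 6) (nat_lit 8) (nat_lit 7) (by decide +kernel)
theorem L99079 : W_36 (nat_lit 3) (nat_lit 0x20000000100008000c000200010000000000000000000) (nat_lit 0x0) (nat_lit 0x100000000000020001800080000000000) := T_36 (nat_lit 59) (nat_lit 128) (nat_lit 7) (nat_lit 8) (nat_lit 3) L99078 (by decide +kernel)
theorem L99080 : W_36 (nat_lit 5) (nat_lit 0x20000000100008000c000200000000000000000000000) (nat_lit 0x0) (nat_lit 0x100000000400030001c000e0001000000) := Q_36 (nat_lit 76) (C_36 L97642 (C_36 L99077 (C_36 L99079 N_36))) (by decide +kernel)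
theorem L99081 : W_36 (nat_lit 2) (nat_lit 0x20000000100008001c000600000000000000000000000) (nat_lit 0x0) (nat_lit 0x20000180000000000000000000000) := D_36 (nat_lit 92) (nat_lit 91) (nat_lit 113) (nat_lit 3) (nat_lit 6) (nat_lit 5) (nat_lit 0) (nat_lit 11) (nat_lit 6) (by decide +kernel)
theorem L99082 : W_36 (nat_lit 3) (nat_lit 0x20000000100008001c000200000000000000000000000) (nat_lit 0x0) (nat_lit 0x20000580020000000000000000000) := T_36 (nat_lit 94) (nat_lit 77) (nat_lit 6) (nat_lit 8) (nat_lit 8) L99081 (by decide +kernel)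
theorem L99083 : W_36 (nat_lit 2) (nat_lit 0x20000000180048003e000200000000000000000000000) (nat_lit 0x0) (nat_lit 0x3800000000000000000000000) := D_36 (nat_lit 96) (nat_lit 95) (nat_lit 97) (nat_lit 2) (nat_lit 7) (nat_lit 6) (nat_lit 2) (nat_lit 8) (nat_lit 6) (by decide +kernel)
theorem L99084 : W_36 (nat_lit 3) (nat_lit 0x20000000180048003c000200000000000000000000000) (nat_lit 0x0) (nat_lit 0x200002003800000000000000000000000) := T_36 (nat_lit 109) (nat_lit 129) (nat_lit 3) (nat_lit 7) (nat_lit 6) L99083 (by decide +kernel)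
theorem L99085 : W_36 (nat_lit 4) (nat_lit 0x20000000180008003c000200000000000000000000000) (nat_lit 0x0) (nat_lit 0xe00002003800000000000000000000000) := T_36 (nat_lit 130) (nat_lit 131) (nat_lit 3) (nat_lit 8) (nat_lit 6) L99084 (by decide +kernel)
theorem L99086 : W_36 (nat_lit 5) (nat_lit 0x20000000100008003c000200000000000000000000000) (nat_lit 0x0) (nat_lit 0x10000800e00002003800000000000000000000000) := T_36 (nat_lit 143) (nat_lit 160) (nat_lit 5) (nat_lit 8) (nat_lit 5) L99085 (by decide +kernel)
theorem L99087 : W_36 (nat_lit 6) (nat_lit 0x20000000100008001c000200000000000000000000000) (nat_lit 0x0) (nat_lit 0x10000800e00022003900000000000000000000000) := T_36 (nat_lit 113) (nat_lit 92) (nat_lit 0) (nat_lit 11) (nat_lit 6) L99086 (by decide +kernel)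
theorem L99088 : W_36 (nat_lit 2) (nat_lit 0x20000000100008001e000600000000000000000000000) (nat_lit 0x0) (nat_lit 0x1001800000000000000000000000) := D_36 (nat_lit 95) (nat_lit 96) (nat_lit 108) (nat_lit 2) (nat_lit 7) (nat_lit 6) (nat_lit 2) (nat_lit 6) (nat_lit 6) (by decide +kernel)
theorem L99089 : W_36 (nat_lit 3) (nat_lit 0x20000000100008001e000200000000000000000000000) (nat_lit 0x0) (nat_lit 0x1001c00020000000000000000000) := T_36 (nat_lit 94) (nat_lit 77) (nat_lit 6) (nat_lit 8) (nat_lit 8) L99088 (by decide +kernel)
theorem L99090 : W_36 (nat_lit 2) (nat_lit 0x20000000100008001f000200000000000000000000000) (nat_lit 0x0) (nat_lit 0x1c0000000000000000000000) := D_36 (nat_lit 91) (nat_lit 92) (nat_lit 90) (nat_lit 0) (nat_lit 10) (nat_lit 6) (nat_lit 0) (nat_lit 9) (nat_lit 6) (by decide +kernel)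
theorem L99091 : W_36 (nat_lit 2) (nat_lit 0x20000000100028001f800a40000000000000000000000) (nat_lit 0x0) (nat_lit 0x38000000000000000000000000000000) := D_36 (nat_lit 124) (nat_lit 125) (nat_lit 123) (nat_lit 1) (nat_lit 9) (nat_lit 6) (nat_lit 1) (nat_lit 8) (nat_lit 6) (by decide +kernel)
theorem L99092 : W_36 (nat_lit 3) (nat_lit 0x20000000100028001f000a40000000000000000000000) (nat_lit 0x0) (nat_lit 0x38000800020000000000000000000000) := T_36 (nat_lit 107) (nat_lit 89) (nat_lit 0) (nat_lit 8) (nat_lit 6) L99091 (by decide +kernel)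
theorem L99093 : W_36 (nat_lit 4) (nat_lit 0x20000000100028001f000240000000000000000000000) (nat_lit 0x0) (nat_lit 0x38000801820000000000000000000000) := T_36 (nat_lit 95) (nat_lit 96) (nat_lit 2) (nat_lit 7) (nat_lit 6) L99092 (by decide +kernel)
theorem L99094 : W_36 (nat_lit 5) (nat_lit 0x20000000100028001f000200000000000000000000000) (nat_lit 0x0) (nat_lit 0x380008018e0000000000000000000000) := T_36 (nat_lit 90) (nat_lit 91) (nat_lit 0) (nat_lit 9) (nat_lit 6) L99093 (by decide +kernel)
theorem L99095 : W_36 (nat_lit 6) (nat_lit 0x20000000100008001f000200000000000000000000000) (nat_lit 0x0) (nat_lit 0x6380008018e0000000000000000000000) := T_36 (nat_lit 129) (nat_lit 130) (nat_lit 3) (nat_lit 7) (nat_lit 6) L99094 (by decide +kernel)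
theorem L99096 : W_36 (nat_lit 2) (nat_lit 0x20000000100029001f800220000000000000000000000) (nat_lit 0x0) (nat_lit 0x400110000000000000000000000) := D_36 (nat_lit 106) (nat_lit 92) (nat_lit 88) (nat_lit 2) (nat_lit 4) (nat_lit 6) (nat_lit 0) (nat_lit 7) (nat_lit 6) (by decide +kernel)
theorem L99097 : W_36 (nat_lit 3) (nat_lit 0x20000000100029001f800200000000000000000000000) (nat_lit 0x0) (nat_lit 0x400170000000000000000000000) := T_36 (nat_lit 89) (nat_lit 90) (nat_lit 0) (nat_lit 8) (nat_lit 6) L99096 (by decide +kernel)
theorem L99098 : W_36 (nat_lit 4) (nat_lit 0x20000000100029001f000200000000000000000000000) (nat_lit 0x0) (nat_lit 0x8000c00170000000000000000000000) := T_36 (nat_lit 107) (nat_lit 123) (nat_lit 1) (nat_lit 8) (nat_lit 6) L99097 (by decide +kernel)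
theorem L99099 : W_36 (nat_lit 5) (nat_lit 0x20000000100009001f000200000000000000000000000) (nat_lit 0x0) (nat_lit 0x608000c00170000000000000000000000) := T_36 (nat_lit 129) (nat_lit 130) (nat_lit 3) (nat_lit 7) (nat_lit 6) L99098 (by decide +kernel)
theorem L99100 : W_36 (nat_lit 6) (nat_lit 0x20000000100008001f000200000000000000000000000) (nat_lit 0x0) (nat_lit 0x638000c00170000000000000000000000) := T_36 (nat_lit 124) (nat_lit 125) (nat_lit 1) (nat_lit 9) (nat_lit 6) L99099 (by decide +kernel)
theorem L99101 : W_36 (nat_lit 2) (nat_lit 0x20000000180009001f000300000000000000000000000) (nat_lit 0x0) (nat_lit 0x8000c00000000000000000000000000) := D_36 (nat_lit 107) (nat_lit 106) (nat_lit 123) (nat_lit 2) (nat_lit 4) (nat_lit 6) (nat_lit 1) (nat_lit 8) (nat_lit 6) (by decide +kernel)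
theorem L99102 : W_36 (nat_lit 3) (nat_lit 0x20000000180008001f000300000000000000000000000) (nat_lit 0x0) (nat_lit 0x38000c00000000000000000000000000) := T_36 (nat_lit 124) (nat_lit 125) (nat_lit 1) (nat_lit 9) (nat_lit 6) L99101 (by decide +kernel)
theorem L99103 : W_36 (nat_lit 4) (nat_lit 0x20000000180008001f000200000000000000000000000) (nat_lit 0x0) (nat_lit 0x38000c00180000000000000000000000) := T_36 (nat_lit 92) (nat_lit 91) (nat_lit 0) (nat_lit 10) (nat_lit 6) L99102 (by decide +kernel)
theorem L99104 : W_36 (nat_lit 5) (nat_lit 0x20000000100008001f000200000000000000000000000) (nat_lit 0x0) (nat_lit 0x10000800038000c00180000000000000000000000) := T_36 (nat_lit 143) (nat_lit 160) (nat_lit 5) (nat_lit 8) (nat_lit 5) L99103 (by decide +kernel)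
theorem L99105 : W_36 (nat_lit 7) (nat_lit 0x20000000100008001e000200000000000000000000000) (nat_lit 0x0) (nat_lit 0x10000800638001c019f0000000000000000000000) := Q_36 (nat_lit 108) (C_36 L99090 (C_36 L99095 (C_36 L99100 (C_36 L99104 N_36)))) (by decide +kernel)
theorem L99106 : W_36 (nat_lit 2) (nat_lit 0x20000000100008001e000680000000000000000000000) (nat_lit 0x0) (nat_lit 0x1800040000000000000000000000) := D_36 (nat_lit 108) (nat_lit 107) (nat_lit 90) (nat_lit 2) (nat_lit 5) (nat_lit 6) (nat_lit 0) (nat_lit 9) (nat_lit 6) (by decide +kernel)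
theorem L99107 : W_36 (nat_lit 3) (nat_lit 0x20000000100008001e000280000000000000000000000) (nat_lit 0x0) (nat_lit 0x1800440020000000000000000000) := T_36 (nat_lit 94) (nat_lit 77) (nat_lit 6) (nat_lit 8) (nat_lit 8) L99106 (by decide +kernel)
theorem L99108 : W_36 (nat_lit 4) (nat_lit 0x20000000100008001e000200000000000000000000000) (nat_lit 0x0) (nat_lit 0x18005c0020000000000000000000) := T_36 (nat_lit 91) (nat_lit 92) (nat_lit 0) (nat_lit 10) (nat_lit 6) L99107 (by decide +kernel)
theorem L99109 : W_36 (nat_lit 2) (nat_lit 0x20000000100028001e000b00020000000000000000000) (nat_lit 0x0) (nat_lit 0x50001000000000000000) := D_36 (nat_lit 60) (nat_lit 76) (nat_lit 78) (nat_lit 6) (nat_lit 8) (nat_lit 7) (nat_lit 4) (nat_lit 10) (nat_lit 7) (by decide +kernel)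
theorem L99110 : W_36 (nat_lit 3) (nat_lit 0x20000000100008001e000b00020000000000000000000) (nat_lit 0x0) (nat_lit 0x600000000000050001000000000000000) := T_36 (nat_lit 129) (nat_lit 130) (nat_lit 3) (nat_lit 7) (nat_lit 6) L99109 (by decide +kernel)
theorem L99111 : W_36 (nat_lit 4) (nat_lit 0x20000000100008001e000b00000000000000000000000) (nat_lit 0x0) (nat_lit 0x600000000400070001000000000000000) := T_36 (nat_lit 77) (nat_lit 94) (nat_lit 6) (nat_lit 8) (nat_lit 8) L99110 (by decide +kernel)
theorem L99112 : W_36 (nat_lit 5) (nat_lit 0x20000000100008001e000300000000000000000000000) (nat_lit 0x0) (nat_lit 0x600000001c00070001000000000000000) := T_36 (nat_lit 95) (nat_lit 96) (nat_lit 2) (nat_lit 7) (nat_lit 6) L99111 (by decide +kernel)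
theorem L99113 : W_36 (nat_lit 6) (nat_lit 0x20000000100008001e000200000000000000000000000) (nat_lit 0x0) (nat_lit 0x600000001d80070001000000000000000) := T_36 (nat_lit 92) (nat_lit 91) (nat_lit 0) (nat_lit 10) (nat_lit 6) L99112 (by decide +kernel)
theorem L99114 : W_36 (nat_lit 8) (nat_lit 0x20000000100008001c000200000000000000000000000) (nat_lit 0x0) (nat_lit 0x10000800638003c01df0070001000000000000000) := Q_36 (nat_lit 109) (C_36 L99089 (C_36 L99105 (C_36 L99108 (C_36 L99113 N_36)))) (by decide +kernel)
theorem L99115 : W_36 (nat_lit 2) (nat_lit 0x20000000180048003e000600000000000000000000000) (nat_lit 0x0) (nat_lit 0x1001800000000000000000000000) := D_36 (nat_lit 95) (nat_lit 96) (nat_lit 108) (nat_lit 2) (nat_lit 7) (nat_lit 6) (nat_lit 2) (nat_lit 6) (nat_lit 6) (by decide +kernel)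
theorem L99116 : W_36 (nat_lit 3) (nat_lit 0x20000000180048003c000600000000000000000000000) (nat_lit 0x0) (nat_lit 0x200003001800000000000000000000000) := T_36 (nat_lit 109) (nat_lit 129) (nat_lit 3) (nat_lit 7) (nat_lit 6) L99115 (by decide +kernel)
theorem L99117 : W_36 (nat_lit 4) (nat_lit 0x20000000180008003c000600000000000000000000000) (nat_lit 0x0) (nat_lit 0xe00003001800000000000000000000000) := T_36 (nat_lit 130) (nat_lit 131) (nat_lit 3) (nat_lit 8) (nat_lit 6) L99116 (by decide +kernel)
theorem L99118 : W_36 (nat_lit 5) (nat_lit 0x20000000100008003c000600000000000000000000000) (nat_lit 0x0) (nat_lit 0x10000800e00003001800000000000000000000000) := T_36 (nat_lit 143) (nat_lit 160) (nat_lit 5) (nat_lit 8) (nat_lit 5) L99117 (by decide +kernel)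
theorem L99119 : W_36 (nat_lit 6) (nat_lit 0x20000000100008001c000600000000000000000000000) (nat_lit 0x0) (nat_lit 0x10000800e00063001800000000000000000000000) := T_36 (nat_lit 113) (nat_lit 114) (nat_lit 0) (nat_lit 12) (nat_lit 6) L99118 (by decide +kernel)
theorem L99120 : W_36 (nat_lit 7) (nat_lit 0x20000000100008001c000200000000000000000000000) (nat_lit 0x0) (nat_lit 0x10000800e00063001c00020000000000000000000) := T_36 (nat_lit 94) (nat_lit 77) (nat_lit 6) (nat_lit 8) (nat_lit 8) L99119 (by decide +kernel)
theorem L99121 : W_36 (nat_lit 9) (nat_lit 0x20000000100008000c000200000000000000000000000) (nat_lit 0x0) (nat_lit 0x10000800e38073c03df0070001000000000000000) := Q_36 (nat_lit 112) (C_36 L99082 (C_36 L99087 (C_36 L99114 (C_36 L99120 N_36)))) (by decide +kernel)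
theorem L99122 : W_36 (nat_lit 2) (nat_lit 0x20000000180008007c000200000000000000000000000) (nat_lit 0x0) (nat_lit 0x1c00000000000000000000000000000000) := D_36 (nat_lit 131) (nat_lit 130) (nat_lit 132) (nat_lit 3) (nat_lit 8) (nat_lit 6) (nat_lit 3) (nat_lit 9) (nat_lit 6) (by decide +kernel)
theorem L99123 : W_36 (nat_lit 3) (nat_lit 0x20000000180008003c000200000000000000000000000) (nat_lit 0x0) (nat_lit 0x1d00040000000000000000000000000000) := T_36 (nat_lit 114) (nat_lit 128) (nat_lit 1) (nat_lit 12) (nat_lit 6) L99122 (by decide +kernel)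
theorem L99124 : W_36 (nat_lit 4) (nat_lit 0x20000000180008001c000200000000000000000000000) (nat_lit 0x0) (nat_lit 0x1d00060000100000000000000000000000) := T_36 (nat_lit 113) (nat_lit 92) (nat_lit 0) (nat_lit 11) (nat_lit 6) L99123 (by decide +kernel)
theorem L99125 : W_36 (nat_lit 5) (nat_lit 0x20000000100008001c000200000000000000000000000) (nat_lit 0x0) (nat_lit 0x10000801d00060000100000000000000000000000) := T_36 (nat_lit 143) (nat_lit 160) (nat_lit 5) (nat_lit 8) (nat_lit 5) L99124 (by decide +kernel)
theorem L99126 : W_36 (nat_lit 2) (nat_lit 0x20000000100008007c000200000000000000000000000) (nat_lit 0x0) (nat_lit 0x1c00000000000000000000000000000000) := D_36 (nat_lit 131) (nat_lit 130) (nat_lit 132) (nat_lit 3) (nat_lit 8) (nat_lit 6) (nat_lit 3) (nat_lit 9) (nat_lit 6) (by decide +kernel)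
theorem L99127 : W_36 (nat_lit 3) (nat_lit 0x20000000100008003c000200000000000000000000000) (nat_lit 0x0) (nat_lit 0x1d00040000000000000000000000000000) := T_36 (nat_lit 114) (nat_lit 128) (nat_lit 1) (nat_lit 12) (nat_lit 6) L99126 (by decide +kernel)
theorem L99128 : W_36 (nat_lit 4) (nat_lit 0x20000000100008001c000200000000000000000000000) (nat_lit 0x0) (nat_lit 0x1d00060000100000000000000000000000) := T_36 (nat_lit 113) (nat_lit 92) (nat_lit 0) (nat_lit 11) (nat_lit 6) L99127 (by decide +kernel)
theorem L99129 : W_36 (nat_lit 2) (nat_lit 0x20000000180008001e000200030000800000000000000) (nat_lit 0x0) (nat_lit 0x180000000000040000000000) := D_36 (nat_lit 92) (nat_lit 42) (nat_lit 91) (nat_lit 5) (nat_lit 8) (nat_lit 2) (nat_lit 0) (nat_lit 10) (nat_lit 6) (by decide +kernel)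
theorem L99130 : W_36 (nat_lit 3) (nat_lit 0x20000000180008001e000200030000000000000000000) (nat_lit 0x0) (nat_lit 0x100000000180000000800040000000000) := T_36 (nat_lit 59) (nat_lit 128) (nat_lit 7) (nat_lit 8) (nat_lit 3) L99129 (by decide +kernel)
theorem L99131 : W_36 (nat_lit 4) (nat_lit 0x20000000180008001e000200010000000000000000000) (nat_lit 0x0) (nat_lit 0x100000000180020001800040000000000) := T_36 (nat_lit 77) (nat_lit 60) (nat_lit 6) (nat_lit 8) (nat_lit 7) L99130 (by decide +kernel)
theorem L99132 : W_36 (nat_lit 5) (nat_lit 0x20000000100008001e000200010000000000000000000) (nat_lit 0x0) (nat_lit 0x10000800100000000180020001800040000000000) := T_36 (nat_lit 143) (nat_lit 160) (nat_lit 5) (nat_lit 8) (nat_lit 5) L99131 (by decide +kernel)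
theorem L99133 : W_36 (nat_lit 2) (nat_lit 0x20000000100028001e000a00030000800000000000000) (nat_lit 0x0) (nat_lit 0x180000000000040000000000) := D_36 (nat_lit 92) (nat_lit 42) (nat_lit 91) (nat_lit 5) (nat_lit 8) (nat_lit 2) (nat_lit 0) (nat_lit 10) (nat_lit 6) (by decide +kernel)
theorem L99134 : W_36 (nat_lit 3) (nat_lit 0x20000000100028001e000a00030000000000000000000) (nat_lit 0x0) (nat_lit 0x100000000180000000800040000000000) := T_36 (nat_lit 59) (nat_lit 128) (nat_lit 7) (nat_lit 8) (nat_lit 3) L99133 (by decide +kernel)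
theorem L99135 : W_36 (nat_lit 4) (nat_lit 0x20000000100028001e000a00010000000000000000000) (nat_lit 0x0) (nat_lit 0x100000000180020001800040000000000) := T_36 (nat_lit 77) (nat_lit 60) (nat_lit 6) (nat_lit 8) (nat_lit 7) L99134 (by decide +kernel)
theorem L99136 : W_36 (nat_lit 5) (nat_lit 0x20000000100008001e000a00010000000000000000000) (nat_lit 0x0) (nat_lit 0x700000000180020001800040000000000) := T_36 (nat_lit 129) (nat_lit 130) (nat_lit 3) (nat_lit 7) (nat_lit 6) L99135 (by decide +kernel)
theorem L99137 : W_36 (nat_lit 6) (nat_lit 0x20000000100008001e000200010000000000000000000) (nat_lit 0x0) (nat_lit 0x700000001980020001800040000000000) := T_36 (nat_lit 95) (nat_lit 96) (nat_lit 2) (nat_lit 7) (nat_lit 6) L99136 (by decide +kernel)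
theorem L99138 : W_36 (nat_lit 2) (nat_lit 0x20000000100008001e000b00010000800000000000000) (nat_lit 0x0) (nat_lit 0x20001000080000000000) := D_36 (nat_lit 60) (nat_lit 77) (nat_lit 43) (nat_lit 6) (nat_lit 8) (nat_lit 7) (nat_lit 6) (nat_lit 8) (nat_lit 6) (by decide +kernel)
theorem L99139 : W_36 (nat_lit 3) (nat_lit 0x20000000100008001e000b00010000000000000000000) (nat_lit 0x0) (nat_lit 0x200018000c0000000000) := T_36 (nat_lit 59) (nat_lit 42) (nat_lit 5) (nat_lit 8) (nat_lit 2) L99138 (by decide +kernel)
theorem L99140 : W_36 (nat_lit 4) (nat_lit 0x20000000100008001e000300010000000000000000000) (nat_lit 0x0) (nat_lit 0x18000200018000c0000000000) := T_36 (nat_lit 95) (nat_lit 96) (nat_lit 2) (nat_lit 7) (nat_lit 6) L99139 (by decide +kernel)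
theorem L99141 : W_36 (nat_lit 5) (nat_lit 0x20000000100008001e000200010000000000000000000) (nat_lit 0x0) (nat_lit 0x19800200018000c0000000000) := T_36 (nat_lit 92) (nat_lit 91) (nat_lit 0) (nat_lit 10) (nat_lit 6) L99140 (by decide +kernel)
theorem L99142 : W_36 (nat_lit 2) (nat_lit 0x20000000180008001e000a00010000800000000000000) (nat_lit 0x0) (nat_lit 0x20001000080000000000) := D_36 (nat_lit 60) (nat_lit 43) (nat_lit 77) (nat_lit 6) (nat_lit 8) (nat_lit 6) (nat_lit 6) (nat_lit 8) (nat_lit 7) (by decide +kernel)
theorem L99143 : W_36 (nat_lit 3) (nat_lit 0x20000000180008001e000a00010000000000000000000) (nat_lit 0x0) (nat_lit 0x100000000000020001800080000000000) := T_36 (nat_lit 59) (nat_lit 128) (nat_lit 7) (nat_lit 8) (nat_lit 3) L99142 (by decide +kernel)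
theorem L99144 : W_36 (nat_lit 4) (nat_lit 0x20000000180008001e000200010000000000000000000) (nat_lit 0x0) (nat_lit 0x100000001800020001800080000000000) := T_36 (nat_lit 95) (nat_lit 96) (nat_lit 2) (nat_lit 7) (nat_lit 6) L99143 (by decide +kernel)
theorem L99145 : W_36 (nat_lit 5) (nat_lit 0x20000000100008001e000200010000000000000000000) (nat_lit 0x0) (nat_lit 0x10000800100000001800020001800080000000000) := T_36 (nat_lit 143) (nat_lit 160) (nat_lit 5) (nat_lit 8) (nat_lit 5) L99144 (by decide +kernel)
theorem L99146 : W_36 (nat_lit 2) (nat_lit 0x20000000100008001e000300010000000000000000000) (nat_lit 0x0) (nat_lit 0x100000000000000000800040000000000) := D_36 (nat_lit 59) (nat_lit 128) (nat_lit 42) (nat_lit 7) (nat_lit 8) (nat_lit 3) (nat_lit 5) (nat_lit 8) (nat_lit 2) (by decide +kernel)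
theorem L99147 : W_36 (nat_lit 3) (nat_lit 0x20000000100008001e000200010000000000000000000) (nat_lit 0x0) (nat_lit 0x100000000180000000800040000000000) := T_36 (nat_lit 92) (nat_lit 91) (nat_lit 0) (nat_lit 10) (nat_lit 6) L99146 (by decide +kernel)
theorem L99148 : W_36 (nat_lit 2) (nat_lit 0x20000000100008001e000300050000000000000000000) (nat_lit 0x0) (nat_lit 0xa0001000000000000000) := D_36 (nat_lit 77) (nat_lit 60) (nat_lit 79) (nat_lit 6) (nat_lit 8) (nat_lit 7) (nat_lit 1) (nat_lit 11) (nat_lit 4) (by decide +kernel)
theorem L99149 : W_36 (nat_lit 3) (nat_lit 0x20000000100008001e000200050000000000000000000) (nat_lit 0x0) (nat_lit 0x1800a0001000000000000000) := T_36 (nat_lit 92) (nat_lit 91) (nat_lit 0) (nat_lit 10) (nat_lit 6) L99148 (by decide +kernel)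
theorem L99150 : W_36 (nat_lit 2) (nat_lit 0x20000000180008001e000a00050002000000000000000) (nat_lit 0x0) (nat_lit 0x20001000080000000000) := D_36 (nat_lit 60) (nat_lit 43) (nat_lit 77) (nat_lit 4) (nat_lit 10) (nat_lit 6) (nat_lit 6) (nat_lit 8) (nat_lit 7) (by decide +kernel)
theorem L99151 : W_36 (nat_lit 3) (nat_lit 0x20000000180008001e000a00050000000000000000000) (nat_lit 0x0) (nat_lit 0x100000000000020003000080000000000) := T_36 (nat_lit 61) (nat_lit 128) (nat_lit 5) (nat_lit 10) (nat_lit 3) L99150 (by decide +kernel)
theorem L99152 : W_36 (nat_lit 4) (nat_lit 0x20000000100008001e000a00050000000000000000000) (nat_lit 0x0) (nat_lit 0x10000800100000000000020003000080000000000) := T_36 (nat_lit 143) (nat_lit 160) (nat_lit 5) (nat_lit 8) (nat_lit 5) L99151 (by decide +kernel)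
theorem L99153 : W_36 (nat_lit 5) (nat_lit 0x20000000100008001e000200050000000000000000000) (nat_lit 0x0) (nat_lit 0x10000800100000001800020003000080000000000) := T_36 (nat_lit 95) (nat_lit 96) (nat_lit 2) (nat_lit 7) (nat_lit 6) L99152 (by decide +kernel)
theorem L99154 : W_36 (nat_lit 2) (nat_lit 0x20000000180008001e000b00050006000000000000000) (nat_lit 0x0) (nat_lit 0x2000000000000a0000000000000000000) := D_36 (nat_lit 79) (nat_lit 77) (nat_lit 129) (nat_lit 1) (nat_lit 11) (nat_lit 4) (nat_lit 6) (nat_lit 10) (nat_lit 7) (by decide +kernel)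
theorem L99155 : W_36 (nat_lit 3) (nat_lit 0x20000000180008001e000b00050002000000000000000) (nat_lit 0x0) (nat_lit 0x2000000000000a0004000200000000000) := T_36 (nat_lit 62) (nat_lit 45) (nat_lit 6) (nat_lit 10) (nat_lit 6) L99154 (by decide +kernel)
theorem L99156 : W_36 (nat_lit 4) (nat_lit 0x20000000180008001e000a00050002000000000000000) (nat_lit 0x0) (nat_lit 0x2000000001800a0004000200000000000) := T_36 (nat_lit 92) (nat_lit 91) (nat_lit 0) (nat_lit 10) (nat_lit 6) L99155 (by decide +kernel)
theorem L99157 : W_36 (nat_lit 5) (nat_lit 0x20000000180008001e000a00050000000000000000000) (nat_lit 0x0) (nat_lit 0x3000000001800a0006000200000000000) := T_36 (nat_lit 61) (nat_lit 128) (nat_lit 5) (nat_lit 10) (nat_lit 3) L99156 (by decide +kernel)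
theorem L99158 : W_36 (nat_lit 6) (nat_lit 0x20000000100008001e000a00050000000000000000000) (nat_lit 0x0) (nat_lit 0x100008003000000001800a0006000200000000000) := T_36 (nat_lit 143) (nat_lit 160) (nat_lit 5) (nat_lit 8) (nat_lit 5) L99157 (by decide +kernel)
theorem L99159 : W_36 (nat_lit 7) (nat_lit 0x20000000100008001e000200050000000000000000000) (nat_lit 0x0) (nat_lit 0x100008003000000019800a0006000200000000000) := T_36 (nat_lit 95) (nat_lit 96) (nat_lit 2) (nat_lit 7) (nat_lit 6) L99158 (by decide +kernel)
theorem L99160 : W_36 (nat_lit 2) (nat_lit 0x20000000180028001e000b00050004000000000000000) (nat_lit 0x0) (nat_lit 0x100000000000000002000200000000000) := D_36 (nat_lit 61) (nat_lit 128) (nat_lit 45) (nat_lit 5) (nat_lit 10) (nat_lit 3) (nat_lit 6) (nat_lit 10) (nat_lit 6) (by decide +kernel)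
theorem L99161 : W_36 (nat_lit 3) (nat_lit 0x20000000180028001e000b00050000000000000000000) (nat_lit 0x0) (nat_lit 0x100000000000080006000200000000000) := T_36 (nat_lit 62) (nat_lit 79) (nat_lit 6) (nat_lit 10) (nat_lit 7) L99160 (by decide +kernel)
theorem L99162 : W_36 (nat_lit 4) (nat_lit 0x20000000180008001e000b00050000000000000000000) (nat_lit 0x0) (nat_lit 0x700000000000080006000200000000000) := T_36 (nat_lit 129) (nat_lit 130) (nat_lit 3) (nat_lit 7) (nat_lit 6) L99161 (by decide +kernel)
theorem L99163 : W_36 (nat_lit 5) (nat_lit 0x20000000180008001e000300050000000000000000000) (nat_lit 0x0) (nat_lit 0x700000001800080006000200000000000) := T_36 (nat_lit 95) (nat_lit 96) (nat_lit 2) (nat_lit 7) (nat_lit 6) L99162 (by decide +kernel)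
theorem L99164 : W_36 (nat_lit 6) (nat_lit 0x20000000100008001e000300050000000000000000000) (nat_lit 0x0) (nat_lit 0x10000800700000001800080006000200000000000) := T_36 (nat_lit 143) (nat_lit 160) (nat_lit 5) (nat_lit 8) (nat_lit 5) L99163 (by decide +kernel)
theorem L99165 : W_36 (nat_lit 7) (nat_lit 0x20000000100008001e000200050000000000000000000) (nat_lit 0x0) (nat_lit 0x10000800700000001980080006000200000000000) := T_36 (nat_lit 92) (nat_lit 91) (nat_lit 0) (nat_lit 10) (nat_lit 6) L99164 (by decide +kernel)
theorem L99166 : W_36 (nat_lit 8) (nat_lit 0x20000000100008001e000200010000000000000000000) (nat_lit 0x0) (nat_lit 0x100008007000000019800e0007000280000000000) := Q_36 (nat_lit 78) (C_36 L99149 (C_36 L99153 (C_36 L99159 (C_36 L99165 N_36)))) (by decide +kernel)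
theorem L99167 : W_36 (nat_lit 9) (nat_lit 0x20000000100008001e000200000000000000000000000) (nat_lit 0x0) (nat_lit 0x100008007000000019800f00078002c0000000000) := Q_36 (nat_lit 76) (C_36 L99132 (C_36 L99137 (C_36 L99141 (C_36 L99145 (C_36 L99147 (C_36 L99166 N_36)))))) (by decide +kernel)
theorem L99168 : W_36 (nat_lit 2) (nat_lit 0x20000000100028001f800b00000000000000000000000) (nat_lit 0x0) (nat_lit 0x38000000000000000000000000000000) := D_36 (nat_lit 124) (nat_lit 125) (nat_lit 123) (nat_lit 1) (nat_lit 9) (nat_lit 6) (nat_lit 1) (nat_lit 8) (nat_lit 6) (by decide +kernel)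
theorem L99169 : W_36 (nat_lit 3) (nat_lit 0x20000000100028001f000b00000000000000000000000) (nat_lit 0x0) (nat_lit 0x38000c00000000000000000000000000) := T_36 (nat_lit 107) (nat_lit 106) (nat_lit 2) (nat_lit 4) (nat_lit 6) L99168 (by decide +kernel)
theorem L99170 : W_36 (nat_lit 4) (nat_lit 0x20000000100028001e000b00000000000000000000000) (nat_lit 0x0) (nat_lit 0x138001c00000000000000000000000000) := T_36 (nat_lit 108) (nat_lit 128) (nat_lit 3) (nat_lit 6) (nat_lit 6) L99169 (by decide +kernel)
theorem L99171 : W_36 (nat_lit 5) (nat_lit 0x20000000100008001e000b00000000000000000000000) (nat_lit 0x0) (nat_lit 0x738001c00000000000000000000000000) := T_36 (nat_lit 129) (nat_lit 130) (nat_lit 3) (nat_lit 7) (nat_lit 6) L99170 (by decide +kernel)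
theorem L99172 : W_36 (nat_lit 6) (nat_lit 0x20000000100008001e000a00000000000000000000000) (nat_lit 0x0) (nat_lit 0x738001c00180000000000000000000000) := T_36 (nat_lit 92) (nat_lit 91) (nat_lit 0) (nat_lit 10) (nat_lit 6) L99171 (by decide +kernel)
theorem L99173 : W_36 (nat_lit 7) (nat_lit 0x20000000100008001e000200000000000000000000000) (nat_lit 0x0) (nat_lit 0x738001c01980000000000000000000000) := T_36 (nat_lit 95) (nat_lit 96) (nat_lit 2) (nat_lit 7) (nat_lit 6) L99172 (by decide +kernel)
theorem L99174 : W_36 (nat_lit 2) (nat_lit 0x20000000180009001f000a80000000000000000000000) (nat_lit 0x0) (nat_lit 0x108000800000000000000000000000000) := D_36 (nat_lit 107) (nat_lit 128) (nat_lit 123) (nat_lit 3) (nat_lit 5) (nat_lit 6) (nat_lit 1) (nat_lit 8) (nat_lit 6) (by decide +kernel)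
theorem L99175 : W_36 (nat_lit 3) (nat_lit 0x20000000180008001f000a80000000000000000000000) (nat_lit 0x0) (nat_lit 0x138000800000000000000000000000000) := T_36 (nat_lit 124) (nat_lit 125) (nat_lit 1) (nat_lit 9) (nat_lit 6) L99174 (by decide +kernel)
theorem L99176 : W_36 (nat_lit 4) (nat_lit 0x20000000180008001e000a80000000000000000000000) (nat_lit 0x0) (nat_lit 0x138001800040000000000000000000000) := T_36 (nat_lit 108) (nat_lit 90) (nat_lit 0) (nat_lit 9) (nat_lit 6) L99175 (by decide +kernel)
theorem L99177 : W_36 (nat_lit 5) (nat_lit 0x20000000180008001e000a00000000000000000000000) (nat_lit 0x0) (nat_lit 0x1380018001c0000000000000000000000) := T_36 (nat_lit 91) (nat_lit 92) (nat_lit 0) (nat_lit 10) (nat_lit 6) L99176 (by decide +kernel)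
theorem L99178 : W_36 (nat_lit 6) (nat_lit 0x20000000180008001e000200000000000000000000000) (nat_lit 0x0) (nat_lit 0x1380018019c0000000000000000000000) := T_36 (nat_lit 95) (nat_lit 96) (nat_lit 2) (nat_lit 7) (nat_lit 6) L99177 (by decide +kernel)
theorem L99179 : W_36 (nat_lit 7) (nat_lit 0x20000000100008001e000200000000000000000000000) (nat_lit 0x0) (nat_lit 0x100008001380018019c0000000000000000000000) := T_36 (nat_lit 143) (nat_lit 160) (nat_lit 5) (nat_lit 8) (nat_lit 5) L99178 (by decide +kernel)
theorem L99180 : W_36 (nat_lit 2) (nat_lit 0x20000000180028001f800300000000000000000000000) (nat_lit 0x0) (nat_lit 0x38000000000000000000000000000000) := D_36 (nat_lit 124) (nat_lit 125) (nat_lit 123) (nat_lit 1) (nat_lit 9) (nat_lit 6) (nat_lit 1) (nat_lit 8) (nat_lit 6) (by decide +kernel)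
theorem L99181 : W_36 (nat_lit 3) (nat_lit 0x20000000180028001f000300000000000000000000000) (nat_lit 0x0) (nat_lit 0x38000c00000000000000000000000000) := T_36 (nat_lit 107) (nat_lit 106) (nat_lit 2) (nat_lit 4) (nat_lit 6) L99180 (by decide +kernel)
theorem L99182 : W_36 (nat_lit 4) (nat_lit 0x20000000180028001e000300000000000000000000000) (nat_lit 0x0) (nat_lit 0x138001c00000000000000000000000000) := T_36 (nat_lit 108) (nat_lit 128) (nat_lit 3) (nat_lit 6) (nat_lit 6) L99181 (by decide +kernel)
theorem L99183 : W_36 (nat_lit 5) (nat_lit 0x20000000180008001e000300000000000000000000000) (nat_lit 0x0) (nat_lit 0x738001c00000000000000000000000000) := T_36 (nat_lit 129) (nat_lit 130) (nat_lit 3) (nat_lit 7) (nat_lit 6) L99182 (by decide +kernel)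
theorem L99184 : W_36 (nat_lit 6) (nat_lit 0x20000000100008001e000300000000000000000000000) (nat_lit 0x0) (nat_lit 0x10000800738001c00000000000000000000000000) := T_36 (nat_lit 143) (nat_lit 160) (nat_lit 5) (nat_lit 8) (nat_lit 5) L99183 (by decide +kernel)
theorem L99185 : W_36 (nat_lit 7) (nat_lit 0x20000000100008001e000200000000000000000000000) (nat_lit 0x0) (nat_lit 0x10000800738001c00180000000000000000000000) := T_36 (nat_lit 92) (nat_lit 91) (nat_lit 0) (nat_lit 10) (nat_lit 6) L99184 (by decide +kernel)
theorem L99186 : W_36 (nat_lit 6) (nat_lit 0x20000000100028001e000200000000000000000000000) (nat_lit 0x0) (nat_lit 0x1380018018e0000000000000000000000) := T_36 (nat_lit 108) (nat_lit 128) (nat_lit 3) (nat_lit 6) (nat_lit 6) L99094 (by decide +kernel)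
theorem L99187 : W_36 (nat_lit 7) (nat_lit 0x20000000100008001e000200000000000000000000000) (nat_lit 0x0) (nat_lit 0x7380018018e0000000000000000000000) := T_36 (nat_lit 129) (nat_lit 130) (nat_lit 3) (nat_lit 7) (nat_lit 6) L99186 (by decide +kernel)
theorem L99188 : W_36 (nat_lit 2) (nat_lit 0x20000000180029001f800a20000000000000000000000) (nat_lit 0x0) (nat_lit 0x400110000000000000000000000) := D_36 (nat_lit 106) (nat_lit 92) (nat_lit 88) (nat_lit 2) (nat_lit 4) (nat_lit 6) (nat_lit 0) (nat_lit 7) (nat_lit 6) (by decide +kernel)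
theorem L99189 : W_36 (nat_lit 3) (nat_lit 0x20000000180029001f800a00000000000000000000000) (nat_lit 0x0) (nat_lit 0x400170000000000000000000000) := T_36 (nat_lit 89) (nat_lit 90) (nat_lit 0) (nat_lit 8) (nat_lit 6) L99188 (by decide +kernel)
theorem L99190 : W_36 (nat_lit 4) (nat_lit 0x20000000180029001f000a00000000000000000000000) (nat_lit 0x0) (nat_lit 0x8000c00170000000000000000000000) := T_36 (nat_lit 107) (nat_lit 123) (nat_lit 1) (nat_lit 8) (nat_lit 6) L99189 (by decide +kernel)
theorem L99191 : W_36 (nat_lit 5) (nat_lit 0x20000000100029001f000a00000000000000000000000) (nat_lit 0x0) (nat_lit 0x10000800008000c00170000000000000000000000) := T_36 (nat_lit 143) (nat_lit 160) (nat_lit 5) (nat_lit 8) (nat_lit 5) L99190 (by decide +kernel)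
theorem L99192 : W_36 (nat_lit 6) (nat_lit 0x20000000100028001f000a00000000000000000000000) (nat_lit 0x0) (nat_lit 0x10000800038000c00170000000000000000000000) := T_36 (nat_lit 124) (nat_lit 125) (nat_lit 1) (nat_lit 9) (nat_lit 6) L99191 (by decide +kernel)
theorem L99193 : W_36 (nat_lit 7) (nat_lit 0x20000000100028001e000a00000000000000000000000) (nat_lit 0x0) (nat_lit 0x10000800138001c00170000000000000000000000) := T_36 (nat_lit 108) (nat_lit 128) (nat_lit 3) (nat_lit 6) (nat_lit 6) L99192 (by decide +kernel)
theorem L99194 : W_36 (nat_lit 8) (nat_lit 0x20000000100008001e000a00000000000000000000000) (nat_lit 0x0) (nat_lit 0x10000800738001c00170000000000000000000000) := T_36 (nat_lit 129) (nat_lit 130) (nat_lit 3) (nat_lit 7) (nat_lit 6) L99193 (by decide +kernel)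
theorem L99195 : W_36 (nat_lit 9) (nat_lit 0x20000000100008001e000200000000000000000000000) (nat_lit 0x0) (nat_lit 0x10000800738001c01970000000000000000000000) := T_36 (nat_lit 95) (nat_lit 96) (nat_lit 2) (nat_lit 7) (nat_lit 6) L99194 (by decide +kernel)
theorem L99196 : W_36 (nat_lit 10) (nat_lit 0x20000000100008001c000200000000000000000000000) (nat_lit 0x0) (nat_lit 0x10000800738003c019f00f00078002c0000000000) := Q_36 (nat_lit 109) (C_36 L99167 (C_36 L99105 (C_36 L99173 (C_36 L99179 (C_36 L99185 (C_36 L99187 (C_36 L99195 N_36))))))) (by decide +kernel)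
theorem L99197 : W_36 (nat_lit 2) (nat_lit 0x20000000180018003e001200000000000000000000000) (nat_lit 0x0) (nat_lit 0x200001800000000000000000000000000) := D_36 (nat_lit 108) (nat_lit 107) (nat_lit 129) (nat_lit 3) (nat_lit 5) (nat_lit 6) (nat_lit 3) (nat_lit 6) (nat_lit 6) (by decide +kernel)
theorem L99198 : W_36 (nat_lit 3) (nat_lit 0x20000000180008003e001200000000000000000000000) (nat_lit 0x0) (nat_lit 0x300041800000000000000000000000000) := T_36 (nat_lit 128) (nat_lit 114) (nat_lit 1) (nat_lit 12) (nat_lit 6) L99197 (by decide +kernel)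
theorem L99199 : W_36 (nat_lit 4) (nat_lit 0x20000000180008003c001200000000000000000000000) (nat_lit 0x0) (nat_lit 0x300043800800000000000000000000000) := T_36 (nat_lit 109) (nat_lit 95) (nat_lit 2) (nat_lit 7) (nat_lit 6) L99198 (by decide +kernel)
theorem L99200 : W_36 (nat_lit 5) (nat_lit 0x20000000180008003c000200000000000000000000000) (nat_lit 0x0) (nat_lit 0x300043803800000000000000000000000) := T_36 (nat_lit 96) (nat_lit 97) (nat_lit 2) (nat_lit 8) (nat_lit 6) L99199 (by decide +kernel)
theorem L99201 : W_36 (nat_lit 6) (nat_lit 0x20000000100008003c000200000000000000000000000) (nat_lit 0x0) (nat_lit 0x10000800300043803800000000000000000000000) := T_36 (nat_lit 143) (nat_lit 160) (nat_lit 5) (nat_lit 8) (nat_lit 5) L99200 (by decide +kernel)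
theorem L99202 : W_36 (nat_lit 7) (nat_lit 0x20000000100008001c000200000000000000000000000) (nat_lit 0x0) (nat_lit 0x10000801f00063803800000000000000000000000) := Q_36 (nat_lit 113) (C_36 L99127 (C_36 L99086 (C_36 L99201 N_36))) (by decide +kernel)
theorem L99203 : W_36 (nat_lit 6) (nat_lit 0x20000000180008001c000200000000000000000000000) (nat_lit 0x0) (nat_lit 0x300063803900000000000000000000000) := T_36 (nat_lit 113) (nat_lit 92) (nat_lit 0) (nat_lit 11) (nat_lit 6) L99200 (by decide +kernel)
theorem L99204 : W_36 (nat_lit 7) (nat_lit 0x20000000100008001c000200000000000000000000000) (nat_lit 0x0) (nat_lit 0x10000800300063803900000000000000000000000) := T_36 (nat_lit 143) (nat_lit 160) (nat_lit 5) (nat_lit 8) (nat_lit 5) L99203 (by decide +kernel)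
theorem L99205 : W_36 (nat_lit 11) (nat_lit 0x20000000100008000c000200000000000000000000000) (nat_lit 0x0) (nat_lit 0x10000801f38073c039f00f00078002c0000000000) := Q_36 (nat_lit 112) (C_36 L99087 (C_36 L99125 (C_36 L99128 (C_36 L99196 (C_36 L99202 (C_36 L99204 N_36)))))) (by decide +kernel)
theorem L99206 : W_36 (nat_lit 2) (nat_lit 0x20008000180028001e000f00040000000000000000000) (nat_lit 0x0) (nat_lit 0x100000000000000002000100000000000) := D_36 (nat_lit 61) (nat_lit 44) (nat_lit 128) (nat_lit 5) (nat_lit 10) (nat_lit 2) (nat_lit 5) (nat_lit 10) (nat_lit 3) (by decide +kernel)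
theorem L99207 : W_36 (nat_lit 3) (nat_lit 0x20008000180028001e000f00000000000000000000000) (nat_lit 0x0) (nat_lit 0x1000000000000c0002000100000000000) := T_36 (nat_lit 78) (nat_lit 79) (nat_lit 2) (nat_lit 7) (nat_lit 5) L99206 (by decide +kernel)
theorem L99208 : W_36 (nat_lit 4) (nat_lit 0x20000000180028001e000f00000000000000000000000) (nat_lit 0x0) (nat_lit 0x800040001000000000000c0002000100000000000) := T_36 (nat_lit 163) (nat_lit 146) (nat_lit 4) (nat_lit 10) (nat_lit 9) L99207 (by decide +kernel)
theorem L99209 : W_36 (nat_lit 5) (nat_lit 0x20000000180028001e000b00000000000000000000000) (nat_lit 0x0) (nat_lit 0x800040001000000004000e0002000100000000000) := T_36 (nat_lit 94) (nat_lit 77) (nat_lit 6) (nat_lit 8) (nat_lit 8) L99208 (by decide +kernel)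
theorem L99210 : W_36 (nat_lit 6) (nat_lit 0x20000000180028001e000a00000000000000000000000) (nat_lit 0x0) (nat_lit 0x800040001000000005800e0002000100000000000) := T_36 (nat_lit 92) (nat_lit 91) (nat_lit 0) (nat_lit 10) (nat_lit 6) L99209 (by decide +kernel)
theorem L99211 : W_36 (nat_lit 7) (nat_lit 0x20000000180028001e000200000000000000000000000) (nat_lit 0x0) (nat_lit 0x80004000100000001d800e0002000100000000000) := T_36 (nat_lit 95) (nat_lit 96) (nat_lit 2) (nat_lit 7) (nat_lit 6) L99210 (by decide +kernel)
theorem L99212 : W_36 (nat_lit 8) (nat_lit 0x20000000100028001e000200000000000000000000000) (nat_lit 0x0) (nat_lit 0x90004800100000001d800e0002000100000000000) := T_36 (nat_lit 143) (nat_lit 160) (nat_lit 5) (nat_lit 8) (nat_lit 5) L99211 (by decide +kernel)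
theorem L99213 : W_36 (nat_lit 9) (nat_lit 0x20000000100008001e000200000000000000000000000) (nat_lit 0x0) (nat_lit 0x90004800700000001d800e0002000100000000000) := T_36 (nat_lit 129) (nat_lit 130) (nat_lit 3) (nat_lit 7) (nat_lit 6) L99212 (by decide +kernel)
theorem L99214 : W_36 (nat_lit 10) (nat_lit 0x20000000100008001c000200000000000000000000000) (nat_lit 0x0) (nat_lit 0x90004800738003c01df00e0002000100000000000) := Q_36 (nat_lit 109) (C_36 L99195 (C_36 L99187 (C_36 L99108 (C_36 L99213 N_36)))) (by decide +kernel)
theorem L99215 : W_36 (nat_lit 11) (nat_lit 0x20000000100008000c000200000000000000000000000) (nat_lit 0x0) (nat_lit 0x90004801f38073c03df00e0002000100000000000) := Q_36 (nat_lit 112) (C_36 L99128 (C_36 L99204 (C_36 L99120 (C_36 L99214 N_36)))) (by decide +kernel)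
theorem L99216 : W_36 (nat_lit 2) (nat_lit 0x20000000100028001e000b00040000000000000000000) (nat_lit 0x0) (nat_lit 0x400080004000000000000000) := D_36 (nat_lit 79) (nat_lit 62) (nat_lit 94) (nat_lit 6) (nat_lit 10) (nat_lit 7) (nat_lit 2) (nat_lit 7) (nat_lit 5) (by decide +kernel)
theorem L99217 : W_36 (nat_lit 3) (nat_lit 0x20000000100008001e000b00040000000000000000000) (nat_lit 0x0) (nat_lit 0x600000000400080004000000000000000) := T_36 (nat_lit 129) (nat_lit 130) (nat_lit 3) (nat_lit 7) (nat_lit 6) L99216 (by decide +kernel)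
theorem L99218 : W_36 (nat_lit 4) (nat_lit 0x20000000100008001e000a00040000000000000000000) (nat_lit 0x0) (nat_lit 0x600000000580080004000000000000000) := T_36 (nat_lit 92) (nat_lit 91) (nat_lit 0) (nat_lit 10) (nat_lit 6) L99217 (by decide +kernel)
theorem L99219 : W_36 (nat_lit 2) (nat_lit 0x20000000100028001e000a00040004000000000000000) (nat_lit 0x0) (nat_lit 0x100000000000000002000200000000000) := D_36 (nat_lit 61) (nat_lit 128) (nat_lit 45) (nat_lit 5) (nat_lit 10) (nat_lit 3) (nat_lit 6) (nat_lit 10) (nat_lit 6) (by decide +kernel)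
theorem L99220 : W_36 (nat_lit 3) (nat_lit 0x20000000100028001e000a00040000000000000000000) (nat_lit 0x0) (nat_lit 0x100000000000080006000200000000000) := T_36 (nat_lit 62) (nat_lit 79) (nat_lit 6) (nat_lit 10) (nat_lit 7) L99219 (by decide +kernel)
theorem L99221 : W_36 (nat_lit 4) (nat_lit 0x20000000100008001e000a00040000000000000000000) (nat_lit 0x0) (nat_lit 0x700000000000080006000200000000000) := T_36 (nat_lit 129) (nat_lit 130) (nat_lit 3) (nat_lit 7) (nat_lit 6) L99220 (by decide +kernel)
theorem L99222 : W_36 (nat_lit 2) (nat_lit 0x20000000100008001e000a00040002000100000000000) (nat_lit 0x0) (nat_lit 0x1000080004000000) := D_36 (nat_lit 43) (nat_lit 26) (nat_lit 60) (nat_lit 4) (nat_lit 10) (nat_lit 5) (nat_lit 4) (nat_lit 10) (nat_lit 6) (by decide +kernel)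
theorem L99223 : W_36 (nat_lit 3) (nat_lit 0x20000000100008001e000a00040002000000000000000) (nat_lit 0x0) (nat_lit 0x400000001000180004000000) := T_36 (nat_lit 44) (nat_lit 94) (nat_lit 5) (nat_lit 10) (nat_lit 2) L99222 (by decide +kernel)
theorem L99224 : W_36 (nat_lit 4) (nat_lit 0x20000000100008001e000a00040000000000000000000) (nat_lit 0x0) (nat_lit 0x100000000400000003000180004000000) := T_36 (nat_lit 61) (nat_lit 128) (nat_lit 5) (nat_lit 10) (nat_lit 3) L99223 (by decide +kernel)
theorem L99225 : W_36 (nat_lit 5) (nat_lit 0x20000000100008001e000a00000000000000000000000) (nat_lit 0x0) (nat_lit 0x7000000005800c0007000380004000000) := Q_36 (nat_lit 78) (C_36 L99218 (C_36 L99221 (C_36 L99224 N_36))) (by decide +kernel)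
theorem L99226 : W_36 (nat_lit 6) (nat_lit 0x20000000100008001e000200000000000000000000000) (nat_lit 0x0) (nat_lit 0x700000001d800c0007000380004000000) := T_36 (nat_lit 95) (nat_lit 96) (nat_lit 2) (nat_lit 7) (nat_lit 6) L99225 (by decide +kernel)
theorem L99227 : W_36 (nat_lit 10) (nat_lit 0x20000000100008001c000200000000000000000000000) (nat_lit 0x0) (nat_lit 0x10000800738003c01df00c0007000380004000000) := Q_36 (nat_lit 109) (C_36 L99195 (C_36 L99187 (C_36 L99105 (C_36 L99179 (C_36 L99185 (C_36 L99226 N_36)))))) (by decide +kernel)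
theorem L99228 : W_36 (nat_lit 11) (nat_lit 0x20000000100008000c000200000000000000000000000) (nat_lit 0x0) (nat_lit 0x10000801f38073c03df00c0007000380004000000) := Q_36 (nat_lit 112) (C_36 L99227 (C_36 L99128 (C_36 L99087 (C_36 L99202 (C_36 L99204 N_36))))) (by decide +kernel)
theorem L99229 : W_36 (nat_lit 12) (nat_lit 0x200000001000080004000200000000000000000000000) (nat_lit 0x0) (nat_lit 0x90004801f3807bc03df00f0007c003e0005000000) := Q_36 (nat_lit 111) (C_36 L99080 (C_36 L99121 (C_36 L99205 (C_36 L99215 (C_36 L99228 N_36))))) (by decide +kernel)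
theorem L99230 : W_36 (nat_lit 2) (nat_lit 0x200000001000080004000200010000000000000000000) (nat_lit 0x0) (nat_lit 0x400020001000000000000000) := D_36 (nat_lit 77) (nat_lit 94) (nat_lit 60) (nat_lit 6) (nat_lit 8) (nat_lit 8) (nat_lit 6) (nat_lit 8) (nat_lit 7) (by decide +kernel)
theorem L99231 : W_36 (nat_lit 2) (nat_lit 0x200000001800080004000600010000c00000000000000) (nat_lit 0x0) (nat_lit 0x100008000000000000000040000000000) := D_36 (nat_lit 111) (nat_lit 42) (nat_lit 128) (nat_lit 7) (nat_lit 8) (nat_lit 2) (nat_lit 7) (nat_lit 8) (nat_lit 3) (by decide +kernel)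
theorem L99232 : W_36 (nat_lit 3) (nat_lit 0x200000001800080004000600010000400000000000000) (nat_lit 0x0) (nat_lit 0x100008000000000000800060000000000) := T_36 (nat_lit 59) (nat_lit 41) (nat_lit 4) (nat_lit 8) (nat_lit 6) L99231 (by decide +kernel)
theorem L99233 : W_36 (nat_lit 4) (nat_lit 0x200000001800080004000600010000000000000000000) (nat_lit 0x0) (nat_lit 0x100008000000008000c00060000000000) := T_36 (nat_lit 58) (nat_lit 75) (nat_lit 4) (nat_lit 8) (nat_lit 7) L99232 (by decide +kernel)
theorem L99234 : W_36 (nat_lit 5) (nat_lit 0x200000001800080004000200010000000000000000000) (nat_lit 0x0) (nat_lit 0x100008000400028000c00060000000000) := T_36 (nat_lit 94) (nat_lit 77) (nat_lit 6) (nat_lit 8) (nat_lit 8) L99233 (by decide +kernel)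
theorem L99235 : W_36 (nat_lit 6) (nat_lit 0x200000001000080004000200010000000000000000000) (nat_lit 0x0) (nat_lit 0x10000800100008000400028000c00060000000000) := T_36 (nat_lit 143) (nat_lit 160) (nat_lit 5) (nat_lit 8) (nat_lit 5) L99234 (by decide +kernel)
theorem L99236 : W_36 (nat_lit 3) (nat_lit 0x200000001800080004000200010000c00080000000000) (nat_lit 0x0) (nat_lit 0x100008000400000000000040004000000) := T_36 (nat_lit 111) (nat_lit 128) (nat_lit 7) (nat_lit 8) (nat_lit 3) L97626 (by decide +kernel)
theorem L99237 : W_36 (nat_lit 4) (nat_lit 0x200000001800080004000200010000c00000000000000) (nat_lit 0x0) (nat_lit 0x1000080004000000010000c0004000000) := T_36 (nat_lit 43) (nat_lit 60) (nat_lit 6) (nat_lit 8) (nat_lit 6) L99236 (by decide +kernel)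
theorem L99238 : W_36 (nat_lit 5) (nat_lit 0x200000001800080004000200010000400000000000000) (nat_lit 0x0) (nat_lit 0x1000080004000000018000e0004000000) := T_36 (nat_lit 59) (nat_lit 41) (nat_lit 4) (nat_lit 8) (nat_lit 6) L99237 (by decide +kernel)
theorem L99239 : W_36 (nat_lit 6) (nat_lit 0x200000001000080004000200010000400000000000000) (nat_lit 0x0) (nat_lit 0x100008001000080004000000018000e0004000000) := T_36 (nat_lit 143) (nat_lit 160) (nat_lit 5) (nat_lit 8) (nat_lit 5) L99238 (by decide +kernel)
theorem L99240 : W_36 (nat_lit 7) (nat_lit 0x200000001000080004000200010000000000000000000) (nat_lit 0x0) (nat_lit 0x10000800100008000400008001c000e0004000000) := T_36 (nat_lit 58) (nat_lit 75) (nat_lit 4) (nat_lit 8) (nat_lit 7) L99239 (by decide +kernel)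
theorem L99241 : W_36 (nat_lit 8) (nat_lit 0x200000001000080004000200000000000000000000000) (nat_lit 0x0) (nat_lit 0x10000800100008000400038001c000e0004000000) := Q_36 (nat_lit 76) (C_36 L99230 (C_36 L99030 (C_36 L99235 (C_36 L99240 N_36)))) (by decide +kernel)
theorem L99242 : W_36 (nat_lit 17) (nat_lit 0x200000001000080004000000000000000000000000000) (nat_lit 0x0) (nat_lit 0x100038005c019f00cfc1f3e07bf07ff80ffe07fe03ff81fe002e0) := Q_36 (nat_lit 93) (C_36 L98114 (C_36 L98118 (C_36 L98121 (C_36 L99039 (C_36 L99076 (C_36 L99229 (C_36 L99241 N_36))))))) (by decide +kernel)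
theorem L99243 : W_36 (nat_lit 2) (nat_lit 0x20006000100018000e000000000000000000000000000) (nat_lit 0x0) (nat_lit 0x200001800000000000000000000000000) := D_36 (nat_lit 108) (nat_lit 129) (nat_lit 107) (nat_lit 3) (nat_lit 6) (nat_lit 6) (nat_lit 3) (nat_lit 5) (nat_lit 6) (by decide +kernel)
theorem L99244 : W_36 (nat_lit 3) (nat_lit 0x20006000100008000e000000000000000000000000000) (nat_lit 0x0) (nat_lit 0x400000000000300001800000000000000000000000000) := T_36 (nat_lit 128) (nat_lit 178) (nat_lit 6) (nat_lit 8) (nat_lit 10) L99243 (by decide +kernel)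
theorem L99245 : W_36 (nat_lit 4) (nat_lit 0x200060001000080006000000000000000000000000000) (nat_lit 0x0) (nat_lit 0x400000000000300009800400000000000000000000000) := T_36 (nat_lit 111) (nat_lit 94) (nat_lit 6) (nat_lit 8) (nat_lit 9) L99244 (by decide +kernel)
theorem L99246 : W_36 (nat_lit 5) (nat_lit 0x200020001000080006000000000000000000000000000) (nat_lit 0x0) (nat_lit 0xc00040000000300009800400000000000000000000000) := T_36 (nat_lit 162) (nat_lit 179) (nat_lit 7) (nat_lit 8) (nat_lit 6) L99245 (by decide +kernel)
theorem L99247 : W_36 (nat_lit 6) (nat_lit 0x200020001000080004000000000000000000000000000) (nat_lit 0x0) (nat_lit 0xc0004000000030000b800500000000000000000000000) := T_36 (nat_lit 109) (nat_lit 92) (nat_lit 4) (nat_lit 8) (nat_lit 9) L99246 (by decide +kernel)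
theorem L99248 : W_36 (nat_lit 7) (nat_lit 0x200000001000080004000000000000000000000000000) (nat_lit 0x0) (nat_lit 0xc0007000000030000b800500000000000000000000000) := T_36 (nat_lit 161) (nat_lit 160) (nat_lit 5) (nat_lit 8) (nat_lit 6) L99247 (by decide +kernel)
theorem L99249 : W_36 (nat_lit 6) (nat_lit 0x200000001000080004000000000000000000000000000) (nat_lit 0x0) (nat_lit 0x80007000000000000a000700028000000000000000000) := T_36 (nat_lit 161) (nat_lit 160) (nat_lit 5) (nat_lit 8) (nat_lit 6) L76274 (by decide +kernel)
theorem L99250 : W_36 (nat_lit 6) (nat_lit 0x200000001000080004000000000000000000000000000) (nat_lit 0x0) (nat_lit 0x30000800000000000700038001400000000000000) := T_36 (nat_lit 160) (nat_lit 161) (nat_lit 5) (nat_lit 8) (nat_lit 6) L96445 (by decide +kernel)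
theorem L99251 : W_36 (nat_lit 2) (nat_lit 0x200000001000080004000200000000000000000000000) (nat_lit 0x0) (nat_lit 0x30000800000000000000000000000000000000000) := D_36 (nat_lit 160) (nat_lit 161) (nat_lit 143) (nat_lit 5) (nat_lit 8) (nat_lit 6) (nat_lit 5) (nat_lit 8) (nat_lit 5) (by decide +kernel)
theorem L99252 : W_36 (nat_lit 2) (nat_lit 0x200020001000080004000200000000000000000000000) (nat_lit 0x0) (nat_lit 0x2000100008000000000000000000) := D_36 (nat_lit 92) (nat_lit 109) (nat_lit 75) (nat_lit 4) (nat_lit 8) (nat_lit 9) (nat_lit 4) (nat_lit 8) (nat_lit 8) (by decide +kernel)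
theorem L99253 : W_36 (nat_lit 3) (nat_lit 0x200000001000080004000200000000000000000000000) (nat_lit 0x0) (nat_lit 0x30000000000002000100008000000000000000000) := T_36 (nat_lit 161) (nat_lit 160) (nat_lit 5) (nat_lit 8) (nat_lit 6) L99252 (by decide +kernel)
theorem L99254 : W_36 (nat_lit 2) (nat_lit 0x20000000100008000c000200010001000000000000000) (nat_lit 0x0) (nat_lit 0x100000000000000000800080000000000) := D_36 (nat_lit 59) (nat_lit 43) (nat_lit 128) (nat_lit 6) (nat_lit 8) (nat_lit 6) (nat_lit 7) (nat_lit 8) (nat_lit 3) (by decide +kernel)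
theorem L99255 : W_36 (nat_lit 3) (nat_lit 0x20000000100008000c000200000001000000000000000) (nat_lit 0x0) (nat_lit 0x100000000000030000800080000000000) := T_36 (nat_lit 76) (nat_lit 77) (nat_lit 6) (nat_lit 8) (nat_lit 7) L99254 (by decide +kernel)
theorem L99256 : W_36 (nat_lit 2) (nat_lit 0x20000000100008003e001200010001c00000000000000) (nat_lit 0x0) (nat_lit 0xe00000000000000000000000000000000) := D_36 (nat_lit 130) (nat_lit 131) (nat_lit 129) (nat_lit 3) (nat_lit 8) (nat_lit 6) (nat_lit 3) (nat_lit 7) (nat_lit 6) (by decide +kernel)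
theorem L99257 : W_36 (nat_lit 3) (nat_lit 0x20000000100008003c001200010001c00000000000000) (nat_lit 0x0) (nat_lit 0xe00002000800000000000000000000000) := T_36 (nat_lit 109) (nat_lit 95) (nat_lit 2) (nat_lit 7) (nat_lit 6) L99256 (by decide +kernel)
theorem L99258 : W_36 (nat_lit 4) (nat_lit 0x20000000100008003c000200010001c00000000000000) (nat_lit 0x0) (nat_lit 0xe00002003800000000000000000000000) := T_36 (nat_lit 96) (nat_lit 97) (nat_lit 2) (nat_lit 8) (nat_lit 6) L99257 (by decide +kernel)
theorem L99259 : W_36 (nat_lit 5) (nat_lit 0x20000000100008001c000200010001c00000000000000) (nat_lit 0x0) (nat_lit 0xe00022003900000000000000000000000) := T_36 (nat_lit 113) (nat_lit 92) (nat_lit 0) (nat_lit 11) (nat_lit 6) L99258 (by decide +kernel)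
theorem L99260 : W_36 (nat_lit 6) (nat_lit 0x20000000100008001c000200010001800000000000000) (nat_lit 0x0) (nat_lit 0xe00022003900000000400020000000000) := T_36 (nat_lit 58) (nat_lit 41) (nat_lit 4) (nat_lit 8) (nat_lit 6) L99259 (by decide +kernel)
theorem L99261 : W_36 (nat_lit 7) (nat_lit 0x20000000100008001c000200010001000000000000000) (nat_lit 0x0) (nat_lit 0xe00022003900000000c000a0000000000) := T_36 (nat_lit 59) (nat_lit 43) (nat_lit 6) (nat_lit 8) (nat_lit 6) L99260 (by decide +kernel)
theorem L99262 : W_36 (nat_lit 8) (nat_lit 0x20000000100008001c000200000001000000000000000) (nat_lit 0x0) (nat_lit 0xe00022003900030000c000a0000000000) := T_36 (nat_lit 76) (nat_lit 77) (nat_lit 6) (nat_lit 8) (nat_lit 7) L99261 (by decide +kernel)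
theorem L99263 : W_36 (nat_lit 2) (nat_lit 0x20000000100008003e001200000001000000000000000) (nat_lit 0x0) (nat_lit 0xe00000000000000000000000000000000) := D_36 (nat_lit 130) (nat_lit 131) (nat_lit 129) (nat_lit 3) (nat_lit 8) (nat_lit 6) (nat_lit 3) (nat_lit 7) (nat_lit 6) (by decide +kernel)
theorem L99264 : W_36 (nat_lit 3) (nat_lit 0x20000000100008003c001200000001000000000000000) (nat_lit 0x0) (nat_lit 0xe00002000800000000000000000000000) := T_36 (nat_lit 109) (nat_lit 95) (nat_lit 2) (nat_lit 7) (nat_lit 6) L99263 (by decide +kernel)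
theorem L99265 : W_36 (nat_lit 4) (nat_lit 0x20000000100008003c000200000001000000000000000) (nat_lit 0x0) (nat_lit 0xe00002003800000000000000000000000) := T_36 (nat_lit 96) (nat_lit 97) (nat_lit 2) (nat_lit 8) (nat_lit 6) L99264 (by decide +kernel)
theorem L99266 : W_36 (nat_lit 5) (nat_lit 0x20000000100008001c000200000001000000000000000) (nat_lit 0x0) (nat_lit 0xe00022003900000000000000000000000) := T_36 (nat_lit 113) (nat_lit 92) (nat_lit 0) (nat_lit 11) (nat_lit 6) L99265 (by decide +kernel)
theorem L99267 : W_36 (nat_lit 2) (nat_lit 0x20000000100048003c001a00010001c00000000000000) (nat_lit 0x0) (nat_lit 0x100008000000000000000040000000000000000000) := D_36 (nat_lit 147) (nat_lit 78) (nat_lit 164) (nat_lit 4) (nat_lit 11) (nat_lit 8) (nat_lit 4) (nat_lit 11) (nat_lit 9) (by decide +kernel)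
theorem L99268 : W_36 (nat_lit 3) (nat_lit 0x20000000100048003c001200010001c00000000000000) (nat_lit 0x0) (nat_lit 0x100008000000002000800040000000000000000000) := T_36 (nat_lit 95) (nat_lit 109) (nat_lit 2) (nat_lit 7) (nat_lit 6) L99267 (by decide +kernel)
theorem L99269 : W_36 (nat_lit 4) (nat_lit 0x20000000100048003c000200010001c00000000000000) (nat_lit 0x0) (nat_lit 0x100008000000002003800040000000000000000000) := T_36 (nat_lit 96) (nat_lit 97) (nat_lit 2) (nat_lit 8) (nat_lit 6) L99268 (by decide +kernel)
theorem L99270 : W_36 (nat_lit 5) (nat_lit 0x20000000100008003c000200010001c00000000000000) (nat_lit 0x0) (nat_lit 0x100008000c00002003800040000000000000000000) := T_36 (nat_lit 130) (nat_lit 131) (nat_lit 3) (nat_lit 8) (nat_lit 6) L99269 (by decide +kernel)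
theorem L99271 : W_36 (nat_lit 6) (nat_lit 0x20000000100008003c000200010001800000000000000) (nat_lit 0x0) (nat_lit 0x100008000c00002003800040000400020000000000) := T_36 (nat_lit 58) (nat_lit 41) (nat_lit 4) (nat_lit 8) (nat_lit 6) L99270 (by decide +kernel)
theorem L99272 : W_36 (nat_lit 7) (nat_lit 0x20000000100008003c000200010001000000000000000) (nat_lit 0x0) (nat_lit 0x100008000c00002003800040000c000a0000000000) := T_36 (nat_lit 59) (nat_lit 43) (nat_lit 6) (nat_lit 8) (nat_lit 6) L99271 (by decide +kernel)
theorem L99273 : W_36 (nat_lit 8) (nat_lit 0x20000000100008003c000200000001000000000000000) (nat_lit 0x0) (nat_lit 0x100008000c00002003800070000c000a0000000000) := T_36 (nat_lit 76) (nat_lit 77) (nat_lit 6) (nat_lit 8) (nat_lit 7) L99272 (by decide +kernel)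
theorem L99274 : W_36 (nat_lit 9) (nat_lit 0x20000000100008001c000200000001000000000000000) (nat_lit 0x0) (nat_lit 0x100008000c00022003900070000c000a0000000000) := T_36 (nat_lit 113) (nat_lit 92) (nat_lit 0) (nat_lit 11) (nat_lit 6) L99273 (by decide +kernel)
theorem L99275 : W_36 (nat_lit 2) (nat_lit 0x20000000100008001e000200000001000000000000000) (nat_lit 0x0) (nat_lit 0x20000000000000000180000000000000000000000) := D_36 (nat_lit 92) (nat_lit 91) (nat_lit 161) (nat_lit 0) (nat_lit 10) (nat_lit 6) (nat_lit 4) (nat_lit 8) (nat_lit 9) (by decide +kernel)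
theorem L99276 : W_36 (nat_lit 2) (nat_lit 0x20000000100008001e000a00020001000000000000000) (nat_lit 0x0) (nat_lit 0x600000000000040000000000000000000) := D_36 (nat_lit 129) (nat_lit 130) (nat_lit 78) (nat_lit 3) (nat_lit 7) (nat_lit 6) (nat_lit 4) (nat_lit 10) (nat_lit 7) (by decide +kernel)
theorem L99277 : W_36 (nat_lit 3) (nat_lit 0x20000000100008001e000200020001000000000000000) (nat_lit 0x0) (nat_lit 0x600000001800040000000000000000000) := T_36 (nat_lit 95) (nat_lit 96) (nat_lit 2) (nat_lit 7) (nat_lit 6) L99276 (by decide +kernel)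
theorem L99278 : W_36 (nat_lit 4) (nat_lit 0x20000000100008001e000200000001000000000000000) (nat_lit 0x0) (nat_lit 0x600000001800070000000000000000000) := T_36 (nat_lit 77) (nat_lit 76) (nat_lit 6) (nat_lit 8) (nat_lit 7) L99277 (by decide +kernel)
theorem L99279 : W_36 (nat_lit 5) (nat_lit 0x20000000100008001c000200000001000000000000000) (nat_lit 0x0) (nat_lit 0x20000000600002001980070000000000000000000) := Q_36 (nat_lit 109) (C_36 L99275 (C_36 L99278 N_36)) (by decide +kernel)
theorem L99280 : W_36 (nat_lit 2) (nat_lit 0x20000000100088003c002200010001c00000000000000) (nat_lit 0x0) (nat_lit 0x1000040004000000000000000000000000) := D_36 (nat_lit 114) (nat_lit 98) (nat_lit 132) (nat_lit 2) (nat_lit 9) (nat_lit 6) (nat_lit 3) (nat_lit 9) (nat_lit 6) (by decide +kernel)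
theorem L99281 : W_36 (nat_lit 3) (nat_lit 0x20000000100008003c002200010001c00000000000000) (nat_lit 0x0) (nat_lit 0x1c00040004000000000000000000000000) := T_36 (nat_lit 131) (nat_lit 130) (nat_lit 3) (nat_lit 8) (nat_lit 6) L99280 (by decide +kernel)
theorem L99282 : W_36 (nat_lit 4) (nat_lit 0x20000000100008003c000200010001c00000000000000) (nat_lit 0x0) (nat_lit 0x1c00040007000000000000000000000000) := T_36 (nat_lit 97) (nat_lit 96) (nat_lit 2) (nat_lit 8) (nat_lit 6) L99281 (by decide +kernel)
theorem L99283 : W_36 (nat_lit 5) (nat_lit 0x20000000100008001c000200010001c00000000000000) (nat_lit 0x0) (nat_lit 0x1c00060007100000000000000000000000) := T_36 (nat_lit 113) (nat_lit 92) (nat_lit 0) (nat_lit 11) (nat_lit 6) L99282 (by decide +kernel)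
theorem L99284 : W_36 (nat_lit 6) (nat_lit 0x20000000100008001c000200010001800000000000000) (nat_lit 0x0) (nat_lit 0x1c00060007100000000400020000000000) := T_36 (nat_lit 58) (nat_lit 41) (nat_lit 4) (nat_lit 8) (nat_lit 6) L99283 (by decide +kernel)
theorem L99285 : W_36 (nat_lit 7) (nat_lit 0x20000000100008001c000200010001000000000000000) (nat_lit 0x0) (nat_lit 0x1c00060007100000000c000a0000000000) := T_36 (nat_lit 59) (nat_lit 43) (nat_lit 6) (nat_lit 8) (nat_lit 6) L99284 (by decide +kernel)
theorem L99286 : W_36 (nat_lit 8) (nat_lit 0x20000000100008001c000200000001000000000000000) (nat_lit 0x0) (nat_lit 0x1c00060007100030000c000a0000000000) := T_36 (nat_lit 76) (nat_lit 77) (nat_lit 6) (nat_lit 8) (nat_lit 7) L99285 (by decide +kernel)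
theorem L99287 : W_36 (nat_lit 2) (nat_lit 0x20000000100048003c001200090005800068000000000) (nat_lit 0x0) (nat_lit 0x100008000400000000000) := D_36 (nat_lit 63) (nat_lit 80) (nat_lit 46) (nat_lit 6) (nat_lit 11) (nat_lit 7) (nat_lit 6) (nat_lit 11) (nat_lit 6) (by decide +kernel)
theorem L99288 : W_36 (nat_lit 3) (nat_lit 0x20000000100048003c001200010005800068000000000) (nat_lit 0x0) (nat_lit 0x200000000000180008000400000000000) := T_36 (nat_lit 79) (nat_lit 129) (nat_lit 5) (nat_lit 11) (nat_lit 3) L99287 (by decide +kernel)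
theorem L99289 : W_36 (nat_lit 4) (nat_lit 0x20000000100048003c001200010001800068000000000) (nat_lit 0x0) (nat_lit 0x20000000000018000e000400000000000) := T_36 (nat_lit 62) (nat_lit 61) (nat_lit 0) (nat_lit 11) (nat_lit 3) L99288 (by decide +kernel)
theorem L99290 : W_36 (nat_lit 5) (nat_lit 0x20000000100048003c001200010001800060000000000) (nat_lit 0x0) (nat_lit 0x20000000000018000e000418000000000) := T_36 (nat_lit 39) (nat_lit 40) (nat_lit 3) (nat_lit 5) (nat_lit 2) L99289 (by decide +kernel)
theorem L99291 : W_36 (nat_lit 6) (nat_lit 0x20000000100048003c001200010001800020000000000) (nat_lit 0x0) (nat_lit 0x20000000000018000e000458001000000) := T_36 (nat_lit 42) (nat_lit 24) (nat_lit 4) (nat_lit 8) (nat_lit 5) L99290 (by decide +kernel)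
theorem L99292 : W_36 (nat_lit 7) (nat_lit 0x20000000100048003c000200010001800020000000000) (nat_lit 0x0) (nat_lit 0x20000000300018000e000458001000000) := T_36 (nat_lit 96) (nat_lit 97) (nat_lit 2) (nat_lit 8) (nat_lit 6) L99291 (by decide +kernel)
theorem L99293 : W_36 (nat_lit 8) (nat_lit 0x20000000100048003c000200010001800000000000000) (nat_lit 0x0) (nat_lit 0x20000000300018000e400478001000000) := T_36 (nat_lit 41) (nat_lit 58) (nat_lit 4) (nat_lit 8) (nat_lit 6) L99292 (by decide +kernel)
theorem L99294 : W_36 (nat_lit 9) (nat_lit 0x20000000100048003c000200010001000000000000000) (nat_lit 0x0) (nat_lit 0x20000000300018000ec004f8001000000) := T_36 (nat_lit 59) (nat_lit 43) (nat_lit 6) (nat_lit 8) (nat_lit 6) L99293 (by decide +kernel)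
theorem L99295 : W_36 (nat_lit 10) (nat_lit 0x20000000100048003c000200000001000000000000000) (nat_lit 0x0) (nat_lit 0x2000000030001b000ec004f8001000000) := T_36 (nat_lit 76) (nat_lit 77) (nat_lit 6) (nat_lit 8) (nat_lit 7) L99294 (by decide +kernel)
theorem L99296 : W_36 (nat_lit 11) (nat_lit 0x20000000100008003c000200000001000000000000000) (nat_lit 0x0) (nat_lit 0xe000000030001b000ec004f8001000000) := T_36 (nat_lit 130) (nat_lit 131) (nat_lit 3) (nat_lit 8) (nat_lit 6) L99295 (by decide +kernel)
theorem L99297 : W_36 (nat_lit 2) (nat_lit 0x20000000100008003c001a00010005800068000000000) (nat_lit 0x0) (nat_lit 0x200000000000080000000200000000000) := D_36 (nat_lit 79) (nat_lit 45) (nat_lit 129) (nat_lit 5) (nat_lit 11) (nat_lit 2) (nat_lit 5) (nat_lit 11) (nat_lit 3) (by decide +kernel)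
theorem L99298 : W_36 (nat_lit 3) (nat_lit 0x20000000100008003c001a00010001800068000000000) (nat_lit 0x0) (nat_lit 0x200000000000080006000200000000000) := T_36 (nat_lit 62) (nat_lit 61) (nat_lit 0) (nat_lit 11) (nat_lit 3) L99297 (by decide +kernel)
theorem L99299 : W_36 (nat_lit 4) (nat_lit 0x20000000100008003c001a00010001800060000000000) (nat_lit 0x0) (nat_lit 0x200000000000080006000218000000000) := T_36 (nat_lit 39) (nat_lit 40) (nat_lit 3) (nat_lit 5) (nat_lit 2) L99298 (by decide +kernel)
theorem L99300 : W_36 (nat_lit 5) (nat_lit 0x20000000100008003c001a00010001800020000000000) (nat_lit 0x0) (nat_lit 0x200000000000080006000258001000000) := T_36 (nat_lit 42) (nat_lit 24) (nat_lit 4) (nat_lit 8) (nat_lit 5) L99299 (by decide +kernel)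
theorem L99301 : W_36 (nat_lit 6) (nat_lit 0x20000000100008003c001a00010001800000000000000) (nat_lit 0x0) (nat_lit 0x200000000000080006400278001000000) := T_36 (nat_lit 41) (nat_lit 58) (nat_lit 4) (nat_lit 8) (nat_lit 6) L99300 (by decide +kernel)
theorem L99302 : W_36 (nat_lit 7) (nat_lit 0x20000000100008003c001a00010001000000000000000) (nat_lit 0x0) (nat_lit 0x200000000000080006c002f8001000000) := T_36 (nat_lit 59) (nat_lit 43) (nat_lit 6) (nat_lit 8) (nat_lit 6) L99301 (by decide +kernel)
theorem L99303 : W_36 (nat_lit 8) (nat_lit 0x20000000100008003c001a00000001000000000000000) (nat_lit 0x0) (nat_lit 0x2000000000000b0006c002f8001000000) := T_36 (nat_lit 76) (nat_lit 77) (nat_lit 6) (nat_lit 8) (nat_lit 7) L99302 (by decide +kernel)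
theorem L99304 : W_36 (nat_lit 9) (nat_lit 0x20000000100008003c001200000001000000000000000) (nat_lit 0x0) (nat_lit 0x2000020008000b0006c002f8001000000) := T_36 (nat_lit 95) (nat_lit 109) (nat_lit 2) (nat_lit 7) (nat_lit 6) L99303 (by decide +kernel)
theorem L99305 : W_36 (nat_lit 10) (nat_lit 0x20000000100008003c000200000001000000000000000) (nat_lit 0x0) (nat_lit 0x2000020038000b0006c002f8001000000) := T_36 (nat_lit 96) (nat_lit 97) (nat_lit 2) (nat_lit 8) (nat_lit 6) L99304 (by decide +kernel)
theorem L99306 : W_36 (nat_lit 2) (nat_lit 0x20000000100088007c00220011000d800060000000000) (nat_lit 0x0) (nat_lit 0x200010000800000000000) := D_36 (nat_lit 64) (nat_lit 81) (nat_lit 47) (nat_lit 6) (nat_lit 12) (nat_lit 7) (nat_lit 6) (nat_lit 12) (nat_lit 6) (by decide +kernel)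
theorem L99307 : W_36 (nat_lit 3) (nat_lit 0x20000000100088007c002200110005800060000000000) (nat_lit 0x0) (nat_lit 0x200018000a00000000000) := T_36 (nat_lit 63) (nat_lit 45) (nat_lit 4) (nat_lit 12) (nat_lit 6) L99306 (by decide +kernel)
theorem L99308 : W_36 (nat_lit 4) (nat_lit 0x20000000100088007c002200010005800060000000000) (nat_lit 0x0) (nat_lit 0x380018000a00000000000) := T_36 (nat_lit 80) (nat_lit 79) (nat_lit 4) (nat_lit 12) (nat_lit 7) L99307 (by decide +kernel)
theorem L99309 : W_36 (nat_lit 5) (nat_lit 0x20000000100088007c000200010005800060000000000) (nat_lit 0x0) (nat_lit 0x6000380018000a00000000000) := T_36 (nat_lit 97) (nat_lit 98) (nat_lit 2) (nat_lit 9) (nat_lit 6) L99308 (by decide +kernel)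
theorem L99310 : W_36 (nat_lit 6) (nat_lit 0x20000000100088007c000200010001800060000000000) (nat_lit 0x0) (nat_lit 0x600038001e000a00000000000) := T_36 (nat_lit 62) (nat_lit 61) (nat_lit 0) (nat_lit 11) (nat_lit 3) L99309 (by decide +kernel)
theorem L99311 : W_36 (nat_lit 7) (nat_lit 0x20000000100088003c000200010001800060000000000) (nat_lit 0x0) (nat_lit 0x100004000600038001e000a00000000000) := T_36 (nat_lit 114) (nat_lit 132) (nat_lit 3) (nat_lit 9) (nat_lit 6) L99310 (by decide +kernel)
theorem L99312 : W_36 (nat_lit 8) (nat_lit 0x20000000100088003c000200010001800020000000000) (nat_lit 0x0) (nat_lit 0x100004000600038001e000a40001000000) := T_36 (nat_lit 42) (nat_lit 24) (nat_lit 4) (nat_lit 8) (nat_lit 5) L99311 (by decide +kernel)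
theorem L99313 : W_36 (nat_lit 9) (nat_lit 0x20000000100008003c000200010001800020000000000) (nat_lit 0x0) (nat_lit 0x1c0004000600038001e000a40001000000) := T_36 (nat_lit 131) (nat_lit 130) (nat_lit 3) (nat_lit 8) (nat_lit 6) L99312 (by decide +kernel)
theorem L99314 : W_36 (nat_lit 10) (nat_lit 0x20000000100008003c000200010001800000000000000) (nat_lit 0x0) (nat_lit 0x1c0004000600038001e400a60001000000) := T_36 (nat_lit 41) (nat_lit 58) (nat_lit 4) (nat_lit 8) (nat_lit 6) L99313 (by decide +kernel)
theorem L99315 : W_36 (nat_lit 11) (nat_lit 0x20000000100008003c000200010001000000000000000) (nat_lit 0x0) (nat_lit 0x1c0004000600038001ec00ae0001000000) := T_36 (nat_lit 59) (nat_lit 43) (nat_lit 6) (nat_lit 8) (nat_lit 6) L99314 (by decide +kernel)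
theorem L99316 : W_36 (nat_lit 12) (nat_lit 0x20000000100008003c000200000001000000000000000) (nat_lit 0x0) (nat_lit 0x1c000400060003b001ec00ae0001000000) := T_36 (nat_lit 76) (nat_lit 77) (nat_lit 6) (nat_lit 8) (nat_lit 7) L99315 (by decide +kernel)
theorem L99317 : W_36 (nat_lit 2) (nat_lit 0x20000000100048003e000a00010003800020000000000) (nat_lit 0x0) (nat_lit 0x4000040001000000) := D_36 (nat_lit 42) (nat_lit 62) (nat_lit 24) (nat_lit 0) (nat_lit 11) (nat_lit 3) (nat_lit 4) (nat_lit 8) (nat_lit 5) (by decide +kernel)
theorem L99318 : W_36 (nat_lit 3) (nat_lit 0x20000000100048003e000a00010001800020000000000) (nat_lit 0x0) (nat_lit 0x40006000040001000000) := T_36 (nat_lit 61) (nat_lit 78) (nat_lit 7) (nat_lit 10) (nat_lit 3) L99317 (by decide +kernel)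
theorem L99319 : W_36 (nat_lit 4) (nat_lit 0x20000000100048003e000a00010001800000000000000) (nat_lit 0x0) (nat_lit 0x40006400060001000000) := T_36 (nat_lit 41) (nat_lit 58) (nat_lit 4) (nat_lit 8) (nat_lit 6) L99318 (by decide +kernel)
theorem L99320 : W_36 (nat_lit 5) (nat_lit 0x20000000100048003e000a00010001000000000000000) (nat_lit 0x0) (nat_lit 0x40006c000e0001000000) := T_36 (nat_lit 59) (nat_lit 43) (nat_lit 6) (nat_lit 8) (nat_lit 6) L99319 (by decide +kernel)
theorem L99321 : W_36 (nat_lit 6) (nat_lit 0x20000000100048003e000a00000001000000000000000) (nat_lit 0x0) (nat_lit 0x70006c000e0001000000) := T_36 (nat_lit 76) (nat_lit 77) (nat_lit 6) (nat_lit 8) (nat_lit 7) L99320 (by decide +kernel)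
theorem L99322 : W_36 (nat_lit 7) (nat_lit 0x20000000100048003e000200000001000000000000000) (nat_lit 0x0) (nat_lit 0x1800070006c000e0001000000) := T_36 (nat_lit 95) (nat_lit 96) (nat_lit 2) (nat_lit 7) (nat_lit 6) L99321 (by decide +kernel)
theorem L99323 : W_36 (nat_lit 8) (nat_lit 0x20000000100048003c000200000001000000000000000) (nat_lit 0x0) (nat_lit 0x200002001800070006c000e0001000000) := T_36 (nat_lit 109) (nat_lit 129) (nat_lit 3) (nat_lit 7) (nat_lit 6) L99322 (by decide +kernel)
theorem L99324 : W_36 (nat_lit 9) (nat_lit 0x20000000100008003c000200000001000000000000000) (nat_lit 0x0) (nat_lit 0xe00002001800070006c000e0001000000) := T_36 (nat_lit 130) (nat_lit 131) (nat_lit 3) (nat_lit 8) (nat_lit 6) L99323 (by decide +kernel)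
theorem L99325 : W_36 (nat_lit 13) (nat_lit 0x20000000100008001c000200000001000000000000000) (nat_lit 0x0) (nat_lit 0x100008001e000620078003f001ec00ef8001000000) := Q_36 (nat_lit 113) (C_36 L99273 (C_36 L99265 (C_36 L99296 (C_36 L99305 (C_36 L99316 (C_36 L99324 N_36)))))) (by decide +kernel)
theorem L99326 : W_36 (nat_lit 2) (nat_lit 0x20000000100008001c000300010001c00000000000000) (nat_lit 0x0) (nat_lit 0x20000000000002000080000000000000000000000) := D_36 (nat_lit 109) (nat_lit 91) (nat_lit 161) (nat_lit 0) (nat_lit 10) (nat_lit 6) (nat_lit 4) (nat_lit 8) (nat_lit 9) (by decide +kernel)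
theorem L99327 : W_36 (nat_lit 3) (nat_lit 0x20000000100008001c000200010001c00000000000000) (nat_lit 0x0) (nat_lit 0x20000000000022000180000000000000000000000) := T_36 (nat_lit 92) (nat_lit 113) (nat_lit 0) (nat_lit 11) (nat_lit 6) L99326 (by decide +kernel)
theorem L99328 : W_36 (nat_lit 4) (nat_lit 0x20000000100008001c000200010001800000000000000) (nat_lit 0x0) (nat_lit 0x20000000000022000180000000400020000000000) := T_36 (nat_lit 58) (nat_lit 41) (nat_lit 4) (nat_lit 8) (nat_lit 6) L99327 (by decide +kernel)
theorem L99329 : W_36 (nat_lit 5) (nat_lit 0x20000000100008001c000200010001000000000000000) (nat_lit 0x0) (nat_lit 0x20000000000022000180000000c000a0000000000) := T_36 (nat_lit 59) (nat_lit 43) (nat_lit 6) (nat_lit 8) (nat_lit 6) L99328 (by decide +kernel)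
theorem L99330 : W_36 (nat_lit 6) (nat_lit 0x20000000100008001c000200000001000000000000000) (nat_lit 0x0) (nat_lit 0x20000000000022000180030000c000a0000000000) := T_36 (nat_lit 76) (nat_lit 77) (nat_lit 6) (nat_lit 8) (nat_lit 7) L99329 (by decide +kernel)
theorem L99331 : W_36 (nat_lit 14) (nat_lit 0x20000000100008000c000200000001000000000000000) (nat_lit 0x0) (nat_lit 0x120008001e000720079803f001ec00ef8001000000) := Q_36 (nat_lit 112) (C_36 L99262 (C_36 L99266 (C_36 L99274 (C_36 L99279 (C_36 L99286 (C_36 L99325 (C_36 L99330 N_36))))))) (by decide +kernel)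
theorem L99332 : W_36 (nat_lit 2) (nat_lit 0x60002000100008000e000200000001000000000000000) (nat_lit 0x0) (nat_lit 0x10000800040000000000000000000000000000000000000000) := D_36 (nat_lit 179) (nat_lit 162) (nat_lit 196) (nat_lit 7) (nat_lit 8) (nat_lit 6) (nat_lit 7) (nat_lit 8) (nat_lit 7) (by decide +kernel)
theorem L99333 : W_36 (nat_lit 3) (nat_lit 0x20002000100008000e000200000001000000000000000) (nat_lit 0x0) (nat_lit 0x10000c00040000000100000000000000000000000000000000) := T_36 (nat_lit 178) (nat_lit 128) (nat_lit 6) (nat_lit 8) (nat_lit 10) L99332 (by decide +kernel)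
theorem L99334 : W_36 (nat_lit 4) (nat_lit 0x20000000100008000e000200000001000000000000000) (nat_lit 0x0) (nat_lit 0x10000c00060000000100000000100000000000000000000000) := T_36 (nat_lit 161) (nat_lit 92) (nat_lit 4) (nat_lit 8) (nat_lit 9) L99333 (by decide +kernel)
theorem L99335 : W_36 (nat_lit 2) (nat_lit 0x20000000100008000e000300000001000000000000000) (nat_lit 0x0) (nat_lit 0x100000c0000000000000000000000) := D_36 (nat_lit 91) (nat_lit 90) (nat_lit 112) (nat_lit 3) (nat_lit 5) (nat_lit 5) (nat_lit 0) (nat_lit 10) (nat_lit 6) (by decide +kernel)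
theorem L99336 : W_36 (nat_lit 3) (nat_lit 0x20000000100008000e000200000001000000000000000) (nat_lit 0x0) (nat_lit 0x200000000000100001c0000000000000000000000) := T_36 (nat_lit 92) (nat_lit 161) (nat_lit 4) (nat_lit 8) (nat_lit 9) L99335 (by decide +kernel)
theorem L99337 : W_36 (nat_lit 2) (nat_lit 0x20000000100008000f800280000001000000000000000) (nat_lit 0x0) (nat_lit 0x38000000000000000000000000000000) := D_36 (nat_lit 124) (nat_lit 123) (nat_lit 125) (nat_lit 1) (nat_lit 8) (nat_lit 6) (nat_lit 1) (nat_lit 9) (nat_lit 6) (by decide +kernel)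
theorem L99338 : W_36 (nat_lit 3) (nat_lit 0x20000000100008000f000280000001000000000000000) (nat_lit 0x0) (nat_lit 0x138000800000000000000000000000000) := T_36 (nat_lit 107) (nat_lit 128) (nat_lit 3) (nat_lit 5) (nat_lit 6) L99337 (by decide +kernel)
theorem L99339 : W_36 (nat_lit 4) (nat_lit 0x20000000100008000f000200000001000000000000000) (nat_lit 0x0) (nat_lit 0x1380008000c0000000000000000000000) := T_36 (nat_lit 91) (nat_lit 90) (nat_lit 0) (nat_lit 9) (nat_lit 6) L99338 (by decide +kernel)
theorem L99340 : W_36 (nat_lit 2) (nat_lit 0x20000000100009000f000240000001000000000000000) (nat_lit 0x0) (nat_lit 0x8000800020000000000000000000000) := D_36 (nat_lit 107) (nat_lit 123) (nat_lit 89) (nat_lit 1) (nat_lit 8) (nat_lit 6) (nat_lit 0) (nat_lit 8) (nat_lit 6) (by decide +kernel)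
theorem L99341 : W_36 (nat_lit 3) (nat_lit 0x20000000100009000f000200000001000000000000000) (nat_lit 0x0) (nat_lit 0x80008000e0000000000000000000000) := T_36 (nat_lit 90) (nat_lit 91) (nat_lit 0) (nat_lit 9) (nat_lit 6) L99340 (by decide +kernel)
theorem L99342 : W_36 (nat_lit 4) (nat_lit 0x20000000100008000f000200000001000000000000000) (nat_lit 0x0) (nat_lit 0x380008000e0000000000000000000000) := T_36 (nat_lit 124) (nat_lit 125) (nat_lit 1) (nat_lit 9) (nat_lit 6) L99341 (by decide +kernel)
theorem L99343 : W_36 (nat_lit 2) (nat_lit 0x20000000100008000f000200000001000000000000000) (nat_lit 0x0) (nat_lit 0x300000800000000000000000000000000) := D_36 (nat_lit 128) (nat_lit 129) (nat_lit 107) (nat_lit 3) (nat_lit 6) (nat_lit 6) (nat_lit 3) (nat_lit 5) (nat_lit 6) (by decide +kernel)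
theorem L99344 : W_36 (nat_lit 2) (nat_lit 0x20000000100028001f000a80040003000000000000000) (nat_lit 0x0) (nat_lit 0x80004000200000000000) := D_36 (nat_lit 62) (nat_lit 79) (nat_lit 45) (nat_lit 6) (nat_lit 10) (nat_lit 7) (nat_lit 6) (nat_lit 10) (nat_lit 6) (by decide +kernel)
theorem L99345 : W_36 (nat_lit 3) (nat_lit 0x20000000100028001f000a80040001000000000000000) (nat_lit 0x0) (nat_lit 0x80006000280000000000) := T_36 (nat_lit 61) (nat_lit 43) (nat_lit 4) (nat_lit 10) (nat_lit 6) L99344 (by decide +kernel)
theorem L99346 : W_36 (nat_lit 4) (nat_lit 0x20000000100028001f000a80000001000000000000000) (nat_lit 0x0) (nat_lit 0xe0006000280000000000) := T_36 (nat_lit 78) (nat_lit 77) (nat_lit 4) (nat_lit 10) (nat_lit 7) L99345 (by decide +kernel)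
theorem L99347 : W_36 (nat_lit 5) (nat_lit 0x20000000100028001f000a00000001000000000000000) (nat_lit 0x0) (nat_lit 0xc00e0006000280000000000) := T_36 (nat_lit 91) (nat_lit 90) (nat_lit 0) (nat_lit 9) (nat_lit 6) L99346 (by decide +kernel)
theorem L99348 : W_36 (nat_lit 6) (nat_lit 0x20000000100028001f000200000001000000000000000) (nat_lit 0x0) (nat_lit 0x18c00e0006000280000000000) := T_36 (nat_lit 95) (nat_lit 96) (nat_lit 2) (nat_lit 7) (nat_lit 6) L99347 (by decide +kernel)
theorem L99349 : W_36 (nat_lit 7) (nat_lit 0x20000000100028000f000200000001000000000000000) (nat_lit 0x0) (nat_lit 0x4000100018c00e0006000280000000000) := T_36 (nat_lit 112) (nat_lit 130) (nat_lit 3) (nat_lit 7) (nat_lit 6) L99348 (by decide +kernel)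
theorem L99350 : W_36 (nat_lit 8) (nat_lit 0x20000000100008000f000200000001000000000000000) (nat_lit 0x0) (nat_lit 0x7000100018c00e0006000280000000000) := T_36 (nat_lit 129) (nat_lit 128) (nat_lit 3) (nat_lit 6) (nat_lit 6) L99349 (by decide +kernel)
theorem L99351 : W_36 (nat_lit 9) (nat_lit 0x20000000100008000e000200000001000000000000000) (nat_lit 0x0) (nat_lit 0x7380118018e00e0006000280000000000) := Q_36 (nat_lit 108) (C_36 L99339 (C_36 L99342 (C_36 L99343 (C_36 L99350 N_36)))) (by decide +kernel)
theorem L99352 : W_36 (nat_lit 10) (nat_lit 0x20000000100008000c000200000001000000000000000) (nat_lit 0x0) (nat_lit 0x10000c000600000007380138019e00e0006000280000000000) := Q_36 (nat_lit 109) (C_36 L99334 (C_36 L99336 (C_36 L99351 N_36))) (by decide +kernel)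
theorem L99353 : W_36 (nat_lit 2) (nat_lit 0x20002000100018000e000200010001000000000000000) (nat_lit 0x0) (nat_lit 0x200001800000000000000000000000000) := D_36 (nat_lit 108) (nat_lit 129) (nat_lit 107) (nat_lit 3) (nat_lit 6) (nat_lit 6) (nat_lit 3) (nat_lit 5) (nat_lit 6) (by decide +kernel)
theorem L99354 : W_36 (nat_lit 3) (nat_lit 0x20002000100018000c000200010001000000000000000) (nat_lit 0x0) (nat_lit 0x200003800100000000000000000000000) := T_36 (nat_lit 109) (nat_lit 92) (nat_lit 4) (nat_lit 8) (nat_lit 9) L99353 (by decide +kernel)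
theorem L99355 : W_36 (nat_lit 4) (nat_lit 0x20000000100018000c000200010001000000000000000) (nat_lit 0x0) (nat_lit 0x400020000000200003800100000000000000000000000) := T_36 (nat_lit 161) (nat_lit 178) (nat_lit 6) (nat_lit 8) (nat_lit 10) L99354 (by decide +kernel)
theorem L99356 : W_36 (nat_lit 5) (nat_lit 0x20000000100008000c000200010001000000000000000) (nat_lit 0x0) (nat_lit 0x400020000000300003800100000000800000000000000) := T_36 (nat_lit 128) (nat_lit 59) (nat_lit 7) (nat_lit 8) (nat_lit 3) L99355 (by decide +kernel)
theorem L99357 : W_36 (nat_lit 6) (nat_lit 0x20000000100008000c000200000001000000000000000) (nat_lit 0x0) (nat_lit 0x400020000000300003800100030000800000000000000) := T_36 (nat_lit 76) (nat_lit 77) (nat_lit 6) (nat_lit 8) (nat_lit 7) L99356 (by decide +kernel)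
theorem L99358 : W_36 (nat_lit 2) (nat_lit 0x20000000100008001f000200000001000000000000000) (nat_lit 0x0) (nat_lit 0x700000000000000000000000000000000) := D_36 (nat_lit 129) (nat_lit 128) (nat_lit 130) (nat_lit 3) (nat_lit 6) (nat_lit 6) (nat_lit 3) (nat_lit 7) (nat_lit 6) (by decide +kernel)
theorem L99359 : W_36 (nat_lit 2) (nat_lit 0x20000000100048001f001280000001000000000000000) (nat_lit 0x0) (nat_lit 0x800020002000000000000000000000000) := D_36 (nat_lit 113) (nat_lit 97) (nat_lit 131) (nat_lit 2) (nat_lit 8) (nat_lit 6) (nat_lit 3) (nat_lit 8) (nat_lit 6) (by decide +kernel)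
theorem L99360 : W_36 (nat_lit 3) (nat_lit 0x20000000100008001f001280000001000000000000000) (nat_lit 0x0) (nat_lit 0xe00020002000000000000000000000000) := T_36 (nat_lit 130) (nat_lit 129) (nat_lit 3) (nat_lit 7) (nat_lit 6) L99359 (by decide +kernel)
theorem L99361 : W_36 (nat_lit 4) (nat_lit 0x20000000100008001f000280000001000000000000000) (nat_lit 0x0) (nat_lit 0xe00020003800000000000000000000000) := T_36 (nat_lit 96) (nat_lit 95) (nat_lit 2) (nat_lit 7) (nat_lit 6) L99360 (by decide +kernel)
theorem L99362 : W_36 (nat_lit 5) (nat_lit 0x20000000100008001f000200000001000000000000000) (nat_lit 0x0) (nat_lit 0xe000200038c0000000000000000000000) := T_36 (nat_lit 91) (nat_lit 90) (nat_lit 0) (nat_lit 9) (nat_lit 6) L99361 (by decide +kernel)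
theorem L99363 : W_36 (nat_lit 2) (nat_lit 0x20000000100008007f001280000001000000000000000) (nat_lit 0x0) (nat_lit 0x1c00000000000000000000000000000000) := D_36 (nat_lit 131) (nat_lit 130) (nat_lit 132) (nat_lit 3) (nat_lit 8) (nat_lit 6) (nat_lit 3) (nat_lit 9) (nat_lit 6) (by decide +kernel)
theorem L99364 : W_36 (nat_lit 3) (nat_lit 0x20000000100008003f001280000001000000000000000) (nat_lit 0x0) (nat_lit 0x1d00040000000000000000000000000000) := T_36 (nat_lit 114) (nat_lit 128) (nat_lit 1) (nat_lit 12) (nat_lit 6) L99363 (by decide +kernel)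
theorem L99365 : W_36 (nat_lit 4) (nat_lit 0x20000000100008001f001280000001000000000000000) (nat_lit 0x0) (nat_lit 0x1d00060002000000000000000000000000) := T_36 (nat_lit 113) (nat_lit 97) (nat_lit 2) (nat_lit 8) (nat_lit 6) L99364 (by decide +kernel)
theorem L99366 : W_36 (nat_lit 5) (nat_lit 0x20000000100008001f001200000001000000000000000) (nat_lit 0x0) (nat_lit 0x1d000600020c0000000000000000000000) := T_36 (nat_lit 91) (nat_lit 90) (nat_lit 0) (nat_lit 9) (nat_lit 6) L99365 (by decide +kernel)
theorem L99367 : W_36 (nat_lit 6) (nat_lit 0x20000000100008001f000200000001000000000000000) (nat_lit 0x0) (nat_lit 0x1d000600038c0000000000000000000000) := T_36 (nat_lit 96) (nat_lit 95) (nat_lit 2) (nat_lit 7) (nat_lit 6) L99366 (by decide +kernel)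
theorem L99368 : W_36 (nat_lit 2) (nat_lit 0x20000000100018001f001200000001000000000000000) (nat_lit 0x0) (nat_lit 0x60002000000000000000000000000) := D_36 (nat_lit 113) (nat_lit 114) (nat_lit 97) (nat_lit 1) (nat_lit 12) (nat_lit 6) (nat_lit 2) (nat_lit 8) (nat_lit 6) (by decide +kernel)
theorem L99369 : W_36 (nat_lit 3) (nat_lit 0x20000000100008001f001200000001000000000000000) (nat_lit 0x0) (nat_lit 0x300060002000000000000000000000000) := T_36 (nat_lit 128) (nat_lit 129) (nat_lit 3) (nat_lit 6) (nat_lit 6) L99368 (by decide +kernel)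
theorem L99370 : W_36 (nat_lit 4) (nat_lit 0x20000000100008001f000200000001000000000000000) (nat_lit 0x0) (nat_lit 0x300060003800000000000000000000000) := T_36 (nat_lit 96) (nat_lit 95) (nat_lit 2) (nat_lit 7) (nat_lit 6) L99369 (by decide +kernel)
theorem L99371 : W_36 (nat_lit 7) (nat_lit 0x20000000100008000f000200000001000000000000000) (nat_lit 0x0) (nat_lit 0x1f000700038c0000000000000000000000) := Q_36 (nat_lit 112) (C_36 L99358 (C_36 L99362 (C_36 L99367 (C_36 L99370 N_36)))) (by decide +kernel)
theorem L99372 : W_36 (nat_lit 8) (nat_lit 0x20000000100008000e000200000001000000000000000) (nat_lit 0x0) (nat_lit 0x1f380718038e0000000000000000000000) := Q_36 (nat_lit 108) (C_36 L99342 (C_36 L99343 (C_36 L99371 N_36))) (by decide +kernel)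
theorem L99373 : W_36 (nat_lit 9) (nat_lit 0x20000000100008000c000200000001000000000000000) (nat_lit 0x0) (nat_lit 0x10000c00060000001f380738039e0000000000000000000000) := Q_36 (nat_lit 109) (C_36 L99336 (C_36 L99334 (C_36 L99372 N_36))) (by decide +kernel)
theorem L99374 : W_36 (nat_lit 15) (nat_lit 0x200000001000080004000200000001000000000000000) (nat_lit 0x0) (nat_lit 0x10000c00160008001f3807b8079e03f001ec00ef8001000000) := Q_36 (nat_lit 111) (C_36 L99255 (C_36 L99331 (C_36 L99352 (C_36 L99357 (C_36 L99373 N_36))))) (by decide +kernel)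
theorem L99375 : W_36 (nat_lit 2) (nat_lit 0x200000001000080004000200010001800000000000000) (nat_lit 0x0) (nat_lit 0x8000400020000000000) := D_36 (nat_lit 58) (nat_lit 41) (nat_lit 75) (nat_lit 4) (nat_lit 8) (nat_lit 6) (nat_lit 4) (nat_lit 8) (nat_lit 7) (by decide +kernel)
theorem L99376 : W_36 (nat_lit 3) (nat_lit 0x200000001000080004000200010001000000000000000) (nat_lit 0x0) (nat_lit 0x8000c000a0000000000) := T_36 (nat_lit 59) (nat_lit 43) (nat_lit 6) (nat_lit 8) (nat_lit 6) L99375 (by decide +kernel)
theorem L99377 : W_36 (nat_lit 4) (nat_lit 0x200000001000080004000200000001000000000000000) (nat_lit 0x0) (nat_lit 0x38000c000a0000000000) := T_36 (nat_lit 76) (nat_lit 77) (nat_lit 6) (nat_lit 8) (nat_lit 7) L99376 (by decide +kernel)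
theorem L99378 : W_36 (nat_lit 2) (nat_lit 0x2000200010000800044003c0001001000000000000000) (nat_lit 0x0) (nat_lit 0x200020000800000000000000000) := D_36 (nat_lit 89) (nat_lit 105) (nat_lit 71) (nat_lit 1) (nat_lit 7) (nat_lit 5) (nat_lit 0) (nat_lit 7) (nat_lit 5) (by decide +kernel)
theorem L99379 : W_36 (nat_lit 3) (nat_lit 0x2000200010000800044003c0000001000000000000000) (nat_lit 0x0) (nat_lit 0x200020003800000000000000000) := T_36 (nat_lit 72) (nat_lit 73) (nat_lit 0) (nat_lit 8) (nat_lit 5) L99378 (by decide +kernel)
theorem L99380 : W_36 (nat_lit 4) (nat_lit 0x2000200010000800040003c0000001000000000000000) (nat_lit 0x0) (nat_lit 0xe00020003800000000000000000) := T_36 (nat_lit 106) (nat_lit 107) (nat_lit 1) (nat_lit 8) (nat_lit 5) L99379 (by decide +kernel)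
theorem L99381 : W_36 (nat_lit 5) (nat_lit 0x200020001000080004000380000001000000000000000) (nat_lit 0x0) (nat_lit 0x8e00060003800000000000000000) := T_36 (nat_lit 90) (nat_lit 111) (nat_lit 3) (nat_lit 5) (nat_lit 5) L99380 (by decide +kernel)
theorem L99382 : W_36 (nat_lit 6) (nat_lit 0x200000001000080004000380000001000000000000000) (nat_lit 0x0) (nat_lit 0x2000000000000ae00060003800000000000000000) := T_36 (nat_lit 161) (nat_lit 109) (nat_lit 4) (nat_lit 8) (nat_lit 9) L99381 (by decide +kernel)
theorem L99383 : W_36 (nat_lit 2) (nat_lit 0x2000000010000800078003c0002001000000000000000) (nat_lit 0x0) (nat_lit 0x400020000000000000000100000000000000) := D_36 (nat_lit 125) (nat_lit 142) (nat_lit 56) (nat_lit 4) (nat_lit 6) (nat_lit 8) (nat_lit 7) (nat_lit 5) (nat_lit 3) (by decide +kernel)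
theorem L99384 : W_36 (nat_lit 3) (nat_lit 0x2000000010000800068003c0002001000000000000000) (nat_lit 0x0) (nat_lit 0x400120001000000000000100000000000000) := T_36 (nat_lit 108) (nat_lit 128) (nat_lit 3) (nat_lit 5) (nat_lit 6) L99383 (by decide +kernel)
theorem L99385 : W_36 (nat_lit 4) (nat_lit 0x2000000010000800068003c0000001000000000000000) (nat_lit 0x0) (nat_lit 0x400120001000000003000100000000000000) := T_36 (nat_lit 73) (nat_lit 72) (nat_lit 0) (nat_lit 8) (nat_lit 5) L99384 (by decide +kernel)
theorem L99386 : W_36 (nat_lit 5) (nat_lit 0x2000000010000800060003c0000001000000000000000) (nat_lit 0x0) (nat_lit 0x400120001c00000003000100000000000000) := T_36 (nat_lit 107) (nat_lit 106) (nat_lit 1) (nat_lit 8) (nat_lit 5) L99385 (by decide +kernel)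
theorem L99387 : W_36 (nat_lit 6) (nat_lit 0x200000001000080006000380000001000000000000000) (nat_lit 0x0) (nat_lit 0x400120001c00060003000100000000000000) := T_36 (nat_lit 90) (nat_lit 89) (nat_lit 3) (nat_lit 4) (nat_lit 5) L99386 (by decide +kernel)
theorem L99388 : W_36 (nat_lit 7) (nat_lit 0x200000001000080004000380000001000000000000000) (nat_lit 0x0) (nat_lit 0x20000400120003c00060003000100000000000000) := T_36 (nat_lit 109) (nat_lit 161) (nat_lit 4) (nat_lit 8) (nat_lit 9) L99387 (by decide +kernel)
theorem L99389 : W_36 (nat_lit 2) (nat_lit 0x2000000010000800044003c0001001000000000000000) (nat_lit 0x0) (nat_lit 0x200020000800000000000000000) := D_36 (nat_lit 89) (nat_lit 105) (nat_lit 71) (nat_lit 1) (nat_lit 7) (nat_lit 5) (nat_lit 0) (nat_lit 7) (nat_lit 5) (by decide +kernel)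
theorem L99390 : W_36 (nat_lit 3) (nat_lit 0x2000000010000800044003c0000001000000000000000) (nat_lit 0x0) (nat_lit 0x200020003800000000000000000) := T_36 (nat_lit 72) (nat_lit 73) (nat_lit 0) (nat_lit 8) (nat_lit 5) L99389 (by decide +kernel)
theorem L99391 : W_36 (nat_lit 4) (nat_lit 0x2000000010000800040003c0000001000000000000000) (nat_lit 0x0) (nat_lit 0xe00020003800000000000000000) := T_36 (nat_lit 106) (nat_lit 107) (nat_lit 1) (nat_lit 8) (nat_lit 5) L99390 (by decide +kernel)
theorem L99392 : W_36 (nat_lit 5) (nat_lit 0x200000001000080004000380000001000000000000000) (nat_lit 0x0) (nat_lit 0x8e00060003800000000000000000) := T_36 (nat_lit 90) (nat_lit 111) (nat_lit 3) (nat_lit 5) (nat_lit 5) L99391 (by decide +kernel)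
theorem L99393 : W_36 (nat_lit 2) (nat_lit 0x2000000010000800040003c0000001000000000000000) (nat_lit 0x0) (nat_lit 0x20000000000002000020000000000000000000000) := D_36 (nat_lit 109) (nat_lit 89) (nat_lit 161) (nat_lit 3) (nat_lit 4) (nat_lit 5) (nat_lit 4) (nat_lit 8) (nat_lit 9) (by decide +kernel)
theorem L99394 : W_36 (nat_lit 3) (nat_lit 0x200000001000080004000380000001000000000000000) (nat_lit 0x0) (nat_lit 0x2000000000000a000060000000000000000000000) := T_36 (nat_lit 90) (nat_lit 111) (nat_lit 3) (nat_lit 5) (nat_lit 5) L99393 (by decide +kernel)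
theorem L99395 : W_36 (nat_lit 2) (nat_lit 0x200000001000080007000380000001000000000000000) (nat_lit 0x0) (nat_lit 0x100000c00000000000000000000000000) := D_36 (nat_lit 107) (nat_lit 106) (nat_lit 128) (nat_lit 2) (nat_lit 4) (nat_lit 6) (nat_lit 3) (nat_lit 5) (nat_lit 6) (by decide +kernel)
theorem L99396 : W_36 (nat_lit 2) (nat_lit 0x200000001000090017800380004001000000000000000) (nat_lit 0x0) (nat_lit 0x4000200020000000000000000000000000000000) := D_36 (nat_lit 141) (nat_lit 158) (nat_lit 125) (nat_lit 6) (nat_lit 5) (nat_lit 9) (nat_lit 5) (nat_lit 6) (nat_lit 4) (by decide +kernel)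
theorem L99397 : W_36 (nat_lit 3) (nat_lit 0x200000001000090017800380000001000000000000000) (nat_lit 0x0) (nat_lit 0x4000200020000000000004000200000000000000) := T_36 (nat_lit 74) (nat_lit 57) (nat_lit 5) (nat_lit 6) (nat_lit 3) L99396 (by decide +kernel)
theorem L99398 : W_36 (nat_lit 4) (nat_lit 0x200000001000080017800380000001000000000000000) (nat_lit 0x0) (nat_lit 0x4000200038000000000004000200000000000000) := T_36 (nat_lit 124) (nat_lit 123) (nat_lit 1) (nat_lit 8) (nat_lit 6) L99397 (by decide +kernel)
theorem L99399 : W_36 (nat_lit 5) (nat_lit 0x200000001000080017000380000001000000000000000) (nat_lit 0x0) (nat_lit 0x4000200038000c00000004000200000000000000) := T_36 (nat_lit 107) (nat_lit 106) (nat_lit 2) (nat_lit 4) (nat_lit 6) L99398 (by decide +kernel)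
theorem L99400 : W_36 (nat_lit 6) (nat_lit 0x200000001000080007000380000001000000000000000) (nat_lit 0x0) (nat_lit 0x4000200038018c00000004000200000000000000) := T_36 (nat_lit 112) (nat_lit 111) (nat_lit 0) (nat_lit 10) (nat_lit 6) L99399 (by decide +kernel)
theorem L99401 : W_36 (nat_lit 2) (nat_lit 0x2000000014001a000f000380000001000000000000000) (nat_lit 0x0) (nat_lit 0x4000a00000000000000000000000000000000000) := D_36 (nat_lit 141) (nat_lit 158) (nat_lit 143) (nat_lit 5) (nat_lit 6) (nat_lit 5) (nat_lit 2) (nat_lit 5) (nat_lit 8) (by decide +kernel)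
theorem L99402 : W_36 (nat_lit 3) (nat_lit 0x2000000010001a000f000380000001000000000000000) (nat_lit 0x0) (nat_lit 0xc000e00000000000000000000000000000000000) := T_36 (nat_lit 142) (nat_lit 159) (nat_lit 6) (nat_lit 6) (nat_lit 9) L99401 (by decide +kernel)
theorem L99403 : W_36 (nat_lit 4) (nat_lit 0x20000000100018000f000380000001000000000000000) (nat_lit 0x0) (nat_lit 0xc000e00030000000000000000000000000000000) := T_36 (nat_lit 125) (nat_lit 124) (nat_lit 1) (nat_lit 9) (nat_lit 6) L99402 (by decide +kernel)
theorem L99404 : W_36 (nat_lit 5) (nat_lit 0x20000000100008000f000380000001000000000000000) (nat_lit 0x0) (nat_lit 0xc000e00330000000000000000000000000000000) := T_36 (nat_lit 128) (nat_lit 129) (nat_lit 3) (nat_lit 6) (nat_lit 6) L99403 (by decide +kernel)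
theorem L99405 : W_36 (nat_lit 6) (nat_lit 0x200000001000080007000380000001000000000000000) (nat_lit 0x0) (nat_lit 0xc000e00330018000000000000000000000000000) := T_36 (nat_lit 111) (nat_lit 112) (nat_lit 0) (nat_lit 10) (nat_lit 6) L99404 (by decide +kernel)
theorem L99406 : W_36 (nat_lit 7) (nat_lit 0x200000001000080006000380000001000000000000000) (nat_lit 0x0) (nat_lit 0xc000e00338019c00000004000200000000000000) := Q_36 (nat_lit 108) (C_36 L99395 (C_36 L99400 (C_36 L99405 N_36))) (by decide +kernel)
theorem L99407 : W_36 (nat_lit 8) (nat_lit 0x200000001000080004000380000001000000000000000) (nat_lit 0x0) (nat_lit 0x2c000e0033801bc00000004000200000000000000) := T_36 (nat_lit 109) (nat_lit 161) (nat_lit 4) (nat_lit 8) (nat_lit 9) L99406 (by decide +kernel)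
theorem L99408 : W_36 (nat_lit 9) (nat_lit 0x200000001000080004000300000001000000000000000) (nat_lit 0x0) (nat_lit 0x2c000e0033801be000e0007800300000000000000) := Q_36 (nat_lit 91) (C_36 L99382 (C_36 L99388 (C_36 L99392 (C_36 L99394 (C_36 L99407 N_36))))) (by decide +kernel)
theorem L99409 : W_36 (nat_lit 10) (nat_lit 0x200000001000080004000200000001000000000000000) (nat_lit 0x0) (nat_lit 0x2c000e0033801be001e000f800300000000000000) := T_36 (nat_lit 92) (nat_lit 75) (nat_lit 4) (nat_lit 8) (nat_lit 8) L99408 (by decide +kernel)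
theorem L99410 : W_36 (nat_lit 16) (nat_lit 0x200000001000080004000200000000000000000000000) (nat_lit 0x0) (nat_lit 0x10000c0016c008e01f3807be079e03ff81ff00ef8001000000) := Q_36 (nat_lit 60) (C_36 L99374 (C_36 L99377 (C_36 L99409 N_36))) (by decide +kernel)
theorem L99411 : W_36 (nat_lit 17) (nat_lit 0x200000001000080004000000000000000000000000000) (nat_lit 0x0) (nat_lit 0x10013800dc017f008fc1f3e07bf07bf83ffe1ffe0fff81fe00260) := Q_36 (nat_lit 93) (C_36 L99251 (C_36 L99253 (C_36 L99410 (C_36 L99039 N_36)))) (by decide +kernel)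
theorem L99412 : W_36 (nat_lit 2) (nat_lit 0x200000001000080004000700000000000000000000000) (nat_lit 0x0) (nat_lit 0x2000000000000a000000000000000000000000000) := D_36 (nat_lit 161) (nat_lit 109) (nat_lit 111) (nat_lit 4) (nat_lit 8) (nat_lit 9) (nat_lit 6) (nat_lit 8) (nat_lit 9) (by decide +kernel)
theorem L99413 : W_36 (nat_lit 3) (nat_lit 0x200000001000080004000300000000000000000000000) (nat_lit 0x0) (nat_lit 0x2000000000000a000400020000000000000000000) := T_36 (nat_lit 94) (nat_lit 77) (nat_lit 6) (nat_lit 8) (nat_lit 8) L99412 (by decide +kernel)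
theorem L99414 : W_36 (nat_lit 4) (nat_lit 0x200000001000080004000200000000000000000000000) (nat_lit 0x0) (nat_lit 0x2000000000000a000500028000000000000000000) := T_36 (nat_lit 92) (nat_lit 75) (nat_lit 4) (nat_lit 8) (nat_lit 8) L99413 (by decide +kernel)
theorem L99415 : W_36 (nat_lit 2) (nat_lit 0x20000000100008000c000200000000000000000000000) (nat_lit 0x0) (nat_lit 0x20000000000000000400020000000000000000000) := D_36 (nat_lit 94) (nat_lit 77) (nat_lit 161) (nat_lit 6) (nat_lit 8) (nat_lit 8) (nat_lit 6) (nat_lit 8) (nat_lit 9) (by decide +kernel)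
theorem L99416 : W_36 (nat_lit 2) (nat_lit 0xa0002000100008000c000340000000000000000000000) (nat_lit 0x0) (nat_lit 0x10000400000000000100000000000000000000000000000000) := D_36 (nat_lit 178) (nat_lit 128) (nat_lit 196) (nat_lit 6) (nat_lit 8) (nat_lit 10) (nat_lit 7) (nat_lit 8) (nat_lit 7) (by decide +kernel)
theorem L99417 : W_36 (nat_lit 3) (nat_lit 0x20002000100008000c000340000000000000000000000) (nat_lit 0x0) (nat_lit 0x10000c00040000000100000000000000000000000000000000) := T_36 (nat_lit 179) (nat_lit 162) (nat_lit 7) (nat_lit 8) (nat_lit 6) L99416 (by decide +kernel)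
theorem L99418 : W_36 (nat_lit 4) (nat_lit 0x20002000100008000c000300000000000000000000000) (nat_lit 0x0) (nat_lit 0x10000c000400000001000000000c0000000000000000000000) := T_36 (nat_lit 90) (nat_lit 91) (nat_lit 3) (nat_lit 5) (nat_lit 5) L99417 (by decide +kernel)
theorem L99419 : W_36 (nat_lit 2) (nat_lit 0x20000000100008000e000300000000000000000000000) (nat_lit 0x0) (nat_lit 0x100000c0000000000000000000000) := D_36 (nat_lit 91) (nat_lit 90) (nat_lit 112) (nat_lit 3) (nat_lit 5) (nat_lit 5) (nat_lit 0) (nat_lit 10) (nat_lit 6) (by decide +kernel)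
theorem L99420 : W_36 (nat_lit 3) (nat_lit 0x20000000100008000e000200000000000000000000000) (nat_lit 0x0) (nat_lit 0x200000000000100001c0000000000000000000000) := T_36 (nat_lit 92) (nat_lit 161) (nat_lit 4) (nat_lit 8) (nat_lit 9) L99419 (by decide +kernel)
theorem L99421 : W_36 (nat_lit 2) (nat_lit 0x60002000100008000e000200000000000000000000000) (nat_lit 0x0) (nat_lit 0x10000800040000000000000000000000000000000000000000) := D_36 (nat_lit 179) (nat_lit 162) (nat_lit 196) (nat_lit 7) (nat_lit 8) (nat_lit 6) (nat_lit 7) (nat_lit 8) (nat_lit 7) (by decide +kernel)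
theorem L99422 : W_36 (nat_lit 3) (nat_lit 0x20002000100008000e000200000000000000000000000) (nat_lit 0x0) (nat_lit 0x10000c00040000000100000000000000000000000000000000) := T_36 (nat_lit 178) (nat_lit 128) (nat_lit 6) (nat_lit 8) (nat_lit 10) L99421 (by decide +kernel)
theorem L99423 : W_36 (nat_lit 4) (nat_lit 0x20000000100008000e000200000000000000000000000) (nat_lit 0x0) (nat_lit 0x10000c00060000000100000000100000000000000000000000) := T_36 (nat_lit 161) (nat_lit 92) (nat_lit 4) (nat_lit 8) (nat_lit 9) L99422 (by decide +kernel)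
theorem L99424 : W_36 (nat_lit 2) (nat_lit 0x20000000100008000f800280000000000000000000000) (nat_lit 0x0) (nat_lit 0x38000000000000000000000000000000) := D_36 (nat_lit 124) (nat_lit 123) (nat_lit 125) (nat_lit 1) (nat_lit 8) (nat_lit 6) (nat_lit 1) (nat_lit 9) (nat_lit 6) (by decide +kernel)
theorem L99425 : W_36 (nat_lit 3) (nat_lit 0x20000000100008000f000280000000000000000000000) (nat_lit 0x0) (nat_lit 0x138000800000000000000000000000000) := T_36 (nat_lit 107) (nat_lit 128) (nat_lit 3) (nat_lit 5) (nat_lit 6) L99424 (by decide +kernel)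
theorem L99426 : W_36 (nat_lit 4) (nat_lit 0x20000000100008000f000200000000000000000000000) (nat_lit 0x0) (nat_lit 0x1380008000c0000000000000000000000) := T_36 (nat_lit 91) (nat_lit 90) (nat_lit 0) (nat_lit 9) (nat_lit 6) L99425 (by decide +kernel)
theorem L99427 : W_36 (nat_lit 2) (nat_lit 0x20000000100009000f000240000000000000000000000) (nat_lit 0x0) (nat_lit 0x8000800020000000000000000000000) := D_36 (nat_lit 107) (nat_lit 123) (nat_lit 89) (nat_lit 1) (nat_lit 8) (nat_lit 6) (nat_lit 0) (nat_lit 8) (nat_lit 6) (by decide +kernel)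
theorem L99428 : W_36 (nat_lit 3) (nat_lit 0x20000000100009000f000200000000000000000000000) (nat_lit 0x0) (nat_lit 0x80008000e0000000000000000000000) := T_36 (nat_lit 90) (nat_lit 91) (nat_lit 0) (nat_lit 9) (nat_lit 6) L99427 (by decide +kernel)
theorem L99429 : W_36 (nat_lit 4) (nat_lit 0x20000000100008000f000200000000000000000000000) (nat_lit 0x0) (nat_lit 0x380008000e0000000000000000000000) := T_36 (nat_lit 124) (nat_lit 125) (nat_lit 1) (nat_lit 9) (nat_lit 6) L99428 (by decide +kernel)
theorem L99430 : W_36 (nat_lit 2) (nat_lit 0x20000000100008000f000200000000000000000000000) (nat_lit 0x0) (nat_lit 0x300000800000000000000000000000000) := D_36 (nat_lit 128) (nat_lit 129) (nat_lit 107) (nat_lit 3) (nat_lit 6) (nat_lit 6) (nat_lit 3) (nat_lit 5) (nat_lit 6) (by decide +kernel)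
theorem L99431 : W_36 (nat_lit 2) (nat_lit 0x20000000100048001f001200000000000000000000000) (nat_lit 0x0) (nat_lit 0x800020002000000000000000000000000) := D_36 (nat_lit 113) (nat_lit 131) (nat_lit 97) (nat_lit 3) (nat_lit 8) (nat_lit 6) (nat_lit 2) (nat_lit 8) (nat_lit 6) (by decide +kernel)
theorem L99432 : W_36 (nat_lit 3) (nat_lit 0x20000000100048001f000200000000000000000000000) (nat_lit 0x0) (nat_lit 0x800020003800000000000000000000000) := T_36 (nat_lit 96) (nat_lit 95) (nat_lit 2) (nat_lit 7) (nat_lit 6) L99431 (by decide +kernel)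
theorem L99433 : W_36 (nat_lit 4) (nat_lit 0x20000000100008001f000200000000000000000000000) (nat_lit 0x0) (nat_lit 0xe00020003800000000000000000000000) := T_36 (nat_lit 130) (nat_lit 129) (nat_lit 3) (nat_lit 7) (nat_lit 6) L99432 (by decide +kernel)
theorem L99434 : W_36 (nat_lit 2) (nat_lit 0x20000000100008007f001280000000000000000000000) (nat_lit 0x0) (nat_lit 0x1c00000000000000000000000000000000) := D_36 (nat_lit 131) (nat_lit 130) (nat_lit 132) (nat_lit 3) (nat_lit 8) (nat_lit 6) (nat_lit 3) (nat_lit 9) (nat_lit 6) (by decide +kernel)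
theorem L99435 : W_36 (nat_lit 3) (nat_lit 0x20000000100008003f001280000000000000000000000) (nat_lit 0x0) (nat_lit 0x1d00040000000000000000000000000000) := T_36 (nat_lit 114) (nat_lit 128) (nat_lit 1) (nat_lit 12) (nat_lit 6) L99434 (by decide +kernel)
theorem L99436 : W_36 (nat_lit 4) (nat_lit 0x20000000100008001f001280000000000000000000000) (nat_lit 0x0) (nat_lit 0x1d00060002000000000000000000000000) := T_36 (nat_lit 113) (nat_lit 97) (nat_lit 2) (nat_lit 8) (nat_lit 6) L99435 (by decide +kernel)
theorem L99437 : W_36 (nat_lit 5) (nat_lit 0x20000000100008001f001200000000000000000000000) (nat_lit 0x0) (nat_lit 0x1d000600020c0000000000000000000000) := T_36 (nat_lit 91) (nat_lit 90) (nat_lit 0) (nat_lit 9) (nat_lit 6) L99436 (by decide +kernel)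
theorem L99438 : W_36 (nat_lit 6) (nat_lit 0x20000000100008001f000200000000000000000000000) (nat_lit 0x0) (nat_lit 0x1d000600038c0000000000000000000000) := T_36 (nat_lit 96) (nat_lit 95) (nat_lit 2) (nat_lit 7) (nat_lit 6) L99437 (by decide +kernel)
theorem L99439 : W_36 (nat_lit 7) (nat_lit 0x20000000100008000f000200000000000000000000000) (nat_lit 0x0) (nat_lit 0x1f000700038c0000000000000000000000) := Q_36 (nat_lit 112) (C_36 L97842 (C_36 L99433 (C_36 L99438 (C_36 L97831 N_36)))) (by decide +kernel)
theorem L99440 : W_36 (nat_lit 8) (nat_lit 0x20000000100008000e000200000000000000000000000) (nat_lit 0x0) (nat_lit 0x1f380718038e0000000000000000000000) := Q_36 (nat_lit 108) (C_36 L99426 (C_36 L99429 (C_36 L99430 (C_36 L99439 N_36)))) (by decide +kernel)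
theorem L99441 : W_36 (nat_lit 9) (nat_lit 0x20000000100008000c000200000000000000000000000) (nat_lit 0x0) (nat_lit 0x10000c00060000001f380738039e0000000000000000000000) := Q_36 (nat_lit 109) (C_36 L99420 (C_36 L99423 (C_36 L99440 N_36))) (by decide +kernel)
theorem L99442 : W_36 (nat_lit 10) (nat_lit 0x200000001000080004000200000000000000000000000) (nat_lit 0x0) (nat_lit 0x10000c00060000001f3807b803de0030001c000e0001000000) := Q_36 (nat_lit 111) (C_36 L99080 (C_36 L99415 (C_36 L99441 N_36))) (by decide +kernel)
theorem L99443 : W_36 (nat_lit 4) (nat_lit 0x200000001000080004000200010000000000000000000) (nat_lit 0x0) (nat_lit 0x28001c000a0000000000) := T_36 (nat_lit 60) (nat_lit 77) (nat_lit 6) (nat_lit 8) (nat_lit 7) L99376 (by decide +kernel)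
theorem L99444 : W_36 (nat_lit 2) (nat_lit 0x20000000100008000c00060001a000000000000000000) (nat_lit 0x0) (nat_lit 0x100000000000000000800040000000000) := D_36 (nat_lit 59) (nat_lit 42) (nat_lit 128) (nat_lit 7) (nat_lit 8) (nat_lit 2) (nat_lit 7) (nat_lit 8) (nat_lit 3) (by decide +kernel)
theorem L99445 : W_36 (nat_lit 3) (nat_lit 0x20000000100008000400060001a000000000000000000) (nat_lit 0x0) (nat_lit 0x20000000100008000000000000800040000000000) := T_36 (nat_lit 111) (nat_lit 161) (nat_lit 6) (nat_lit 8) (nat_lit 9) L99444 (by decide +kernel)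
theorem L99446 : W_36 (nat_lit 4) (nat_lit 0x200000001000080004000600018000000000000000000) (nat_lit 0x0) (nat_lit 0x20000000100008000000006000800040000000000) := T_36 (nat_lit 73) (nat_lit 74) (nat_lit 3) (nat_lit 5) (nat_lit 4) L99445 (by decide +kernel)
theorem L99447 : W_36 (nat_lit 5) (nat_lit 0x200000001000080004000200018000000000000000000) (nat_lit 0x0) (nat_lit 0x20000000100008000400026000800040000000000) := T_36 (nat_lit 94) (nat_lit 77) (nat_lit 6) (nat_lit 8) (nat_lit 8) L99446 (by decide +kernel)
theorem L99448 : W_36 (nat_lit 6) (nat_lit 0x200000001000080004000200010000000000000000000) (nat_lit 0x0) (nat_lit 0x2000000010000800040002e000c00040000000000) := T_36 (nat_lit 75) (nat_lit 58) (nat_lit 4) (nat_lit 8) (nat_lit 7) L99447 (by decide +kernel)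
theorem L99449 : W_36 (nat_lit 5) (nat_lit 0x200000001000080004000200010000400000000000000) (nat_lit 0x0) (nat_lit 0x1000080004000000018000e0004000000) := T_36 (nat_lit 59) (nat_lit 41) (nat_lit 4) (nat_lit 8) (nat_lit 6) L97625 (by decide +kernel)
theorem L99450 : W_36 (nat_lit 6) (nat_lit 0x200000001000080004000200010000000000000000000) (nat_lit 0x0) (nat_lit 0x100008000400008001c000e0004000000) := T_36 (nat_lit 58) (nat_lit 75) (nat_lit 4) (nat_lit 8) (nat_lit 7) L99449 (by decide +kernel)
theorem L99451 : W_36 (nat_lit 7) (nat_lit 0x200000001000080004000200000000000000000000000) (nat_lit 0x0) (nat_lit 0x2000000010000800040003e001c000e0004000000) := Q_36 (nat_lit 76) (C_36 L99230 (C_36 L99443 (C_36 L99448 (C_36 L99450 N_36)))) (by decide +kernel)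
theorem L99452 : W_36 (nat_lit 5) (nat_lit 0x200020001000080004000300000000000000000000000) (nat_lit 0x0) (nat_lit 0x10000c000400000001000080004c0000000000000000000000) := T_36 (nat_lit 111) (nat_lit 94) (nat_lit 6) (nat_lit 8) (nat_lit 9) L99418 (by decide +kernel)
theorem L99453 : W_36 (nat_lit 6) (nat_lit 0x200000001000080004000300000000000000000000000) (nat_lit 0x0) (nat_lit 0x10000c0006000000010000a0004c0000000000000000000000) := T_36 (nat_lit 161) (nat_lit 109) (nat_lit 4) (nat_lit 8) (nat_lit 9) L99452 (by decide +kernel)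
theorem L99454 : W_36 (nat_lit 7) (nat_lit 0x200000001000080004000200000000000000000000000) (nat_lit 0x0) (nat_lit 0x10000c0006000000010000a0005c0008000000000000000000) := T_36 (nat_lit 92) (nat_lit 75) (nat_lit 4) (nat_lit 8) (nat_lit 8) L99453 (by decide +kernel)
theorem L99455 : W_36 (nat_lit 17) (nat_lit 0x200000001000080004000000000000000000000000000) (nat_lit 0x0) (nat_lit 0x10000c0016c008e01f3807be07fe03ff81ff00ef8005000000) := Q_36 (nat_lit 93) (C_36 L98121 (C_36 L99410 (C_36 L99414 (C_36 L99442 (C_36 L99451 (C_36 L99454 N_36)))))) (by decide +kernel)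
theorem L99456 : W_36 (nat_lit 5) (nat_lit 0x200000001000080004000000000000000000000000000) (nat_lit 0x0) (nat_lit 0x10000c00070000000100008000400000000000000000000000) := T_36 (nat_lit 161) (nat_lit 160) (nat_lit 5) (nat_lit 8) (nat_lit 6) L76258 (by decide +kernel)
theorem L99457 : W_36 (nat_lit 18) (nat_lit 0x200000001000080000000000000000000000000000000) (nat_lit 0x0) (nat_lit 0x10013800dc01ff00cfc1f3e07ff07ff83ffe1ffe0fff81fe002e0) := Q_36 (nat_lit 110) (C_36 L99242 (C_36 L99248 (C_36 L99249 (C_36 L99250 (C_36 L99411 (C_36 L99455 (C_36 L99456 N_36))))))) (by decide +kernel)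
theorem L99458 : W_36 (nat_lit 2) (nat_lit 0x40003c000a001000080000000000000000000000000000000) (nat_lit 0x0) (nat_lit 0x2000020010000000000000000000000000000000000000000) := D_36 (nat_lit 173) (nat_lit 193) (nat_lit 160) (nat_lit 3) (nat_lit 3) (nat_lit 10) (nat_lit 2) (nat_lit 3) (nat_lit 10) (by decide +kernel)
theorem L99459 : W_36 (nat_lit 3) (nat_lit 0x3c000a001000080000000000000000000000000000000) (nat_lit 0x0) (nat_lit 0xe000020010000000000000000000000000000000000000000) := T_36 (nat_lit 194) (nat_lit 195) (nat_lit 3) (nat_lit 4) (nat_lit 10) L99458 (by decide +kernel)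
theorem L99460 : W_36 (nat_lit 4) (nat_lit 0x3c0008001000080000000000000000000000000000000) (nat_lit 0x0) (nat_lit 0xe000020013000000000000000000000000000000000000000) := T_36 (nat_lit 157) (nat_lit 156) (nat_lit 0) (nat_lit 7) (nat_lit 10) L99459 (by decide +kernel)
theorem L99461 : W_36 (nat_lit 2) (nat_lit 0x40003e0008001000080000000000000000000000000000000) (nat_lit 0x0) (nat_lit 0xe00000000000000000000000000000000000000000000000) := D_36 (nat_lit 190) (nat_lit 191) (nat_lit 189) (nat_lit 1) (nat_lit 7) (nat_lit 10) (nat_lit 1) (nat_lit 6) (nat_lit 10) (by decide +kernel)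
theorem L99462 : W_36 (nat_lit 3) (nat_lit 0x40003c0008001000080000000000000000000000000000000) (nat_lit 0x0) (nat_lit 0x2e00020000000000000000000000000000000000000000000) := T_36 (nat_lit 173) (nat_lit 193) (nat_lit 3) (nat_lit 3) (nat_lit 10) L99461 (by decide +kernel)
theorem L99463 : W_36 (nat_lit 4) (nat_lit 0x3c0008001000080000000000000000000000000000000) (nat_lit 0x0) (nat_lit 0xee00020000000000000000000000000000000000000000000) := T_36 (nat_lit 194) (nat_lit 195) (nat_lit 3) (nat_lit 4) (nat_lit 10) L99462 (by decide +kernel)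
theorem L99464 : W_36 (nat_lit 2) (nat_lit 0x40003c0008001000080000000000000000000000000000000) (nat_lit 0x0) (nat_lit 0x20010000800000000000000000000000000000000000) := D_36 (nat_lit 160) (nat_lit 173) (nat_lit 143) (nat_lit 2) (nat_lit 3) (nat_lit 10) (nat_lit 6) (nat_lit 7) (nat_lit 11) (by decide +kernel)
theorem L99465 : W_36 (nat_lit 3) (nat_lit 0x3c0008001000080000000000000000000000000000000) (nat_lit 0x0) (nat_lit 0xc000020010000800000000000000000000000000000000000) := T_36 (nat_lit 194) (nat_lit 195) (nat_lit 3) (nat_lit 4) (nat_lit 10) L99464 (by decide +kernel)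
theorem L99466 : W_36 (nat_lit 2) (nat_lit 0x3e0008001000080000000000000000000000000000000) (nat_lit 0x0) (nat_lit 0xe00000000000000000000000000000000000000000000000) := D_36 (nat_lit 190) (nat_lit 191) (nat_lit 189) (nat_lit 1) (nat_lit 7) (nat_lit 10) (nat_lit 1) (nat_lit 6) (nat_lit 10) (by decide +kernel)
theorem L99467 : W_36 (nat_lit 3) (nat_lit 0x3c0008001000080000000000000000000000000000000) (nat_lit 0x0) (nat_lit 0xe00020010000000000000000000000000000000000000000) := T_36 (nat_lit 173) (nat_lit 160) (nat_lit 2) (nat_lit 3) (nat_lit 10) L99466 (by decide +kernel)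
theorem L99468 : W_36 (nat_lit 2) (nat_lit 0x1c00048003c001a001000080000000000000000000000000000000) (nat_lit 0x0) (nat_lit 0x20003000000000000000000000000000000000000000000000000) := D_36 (nat_lit 192) (nat_lit 193) (nat_lit 209) (nat_lit 3) (nat_lit 4) (nat_lit 11) (nat_lit 0) (nat_lit 8) (nat_lit 12) (by decide +kernel)
theorem L99469 : W_36 (nat_lit 3) (nat_lit 0xc00048003c001a001000080000000000000000000000000000000) (nat_lit 0x0) (nat_lit 0x2000120003000000000000000000000000000000000000000000000000) := T_36 (nat_lit 212) (nat_lit 229) (nat_lit 7) (nat_lit 7) (nat_lit 9) L99468 (by decide +kernel)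
theorem L99470 : W_36 (nat_lit 4) (nat_lit 0x800048003c001a001000080000000000000000000000000000000) (nat_lit 0x0) (nat_lit 0x2800160003000000000000000000000000000000000000000000000000) := T_36 (nat_lit 210) (nat_lit 227) (nat_lit 5) (nat_lit 7) (nat_lit 9) L99469 (by decide +kernel)
theorem L99471 : W_36 (nat_lit 5) (nat_lit 0x48003c001a001000080000000000000000000000000000000) (nat_lit 0x0) (nat_lit 0x38001e0003000000000000000000000000000000000000000000000000) := T_36 (nat_lit 211) (nat_lit 228) (nat_lit 4) (nat_lit 7) (nat_lit 13) L99470 (by decide +kernel)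
theorem L99472 : W_36 (nat_lit 6) (nat_lit 0x48003c000a001000080000000000000000000000000000000) (nat_lit 0x0) (nat_lit 0x38001e0003000000010000800000000000000000000000000000000000) := T_36 (nat_lit 160) (nat_lit 143) (nat_lit 6) (nat_lit 7) (nat_lit 11) L99471 (by decide +kernel)
theorem L99473 : W_36 (nat_lit 7) (nat_lit 0x40003c000a001000080000000000000000000000000000000) (nat_lit 0x0) (nat_lit 0x38001e0003c00000010000800000000000000000000000000000000000) := T_36 (nat_lit 191) (nat_lit 190) (nat_lit 1) (nat_lit 7) (nat_lit 10) L99472 (by decide +kernel)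
theorem L99474 : W_36 (nat_lit 8) (nat_lit 0x3c000a001000080000000000000000000000000000000) (nat_lit 0x0) (nat_lit 0x38001e000fc00000010000800000000000000000000000000000000000) := T_36 (nat_lit 194) (nat_lit 195) (nat_lit 3) (nat_lit 4) (nat_lit 10) L99473 (by decide +kernel)
theorem L99475 : W_36 (nat_lit 9) (nat_lit 0x3c0008001000080000000000000000000000000000000) (nat_lit 0x0) (nat_lit 0x38001e000fc00000013000800000000000000000000000000000000000) := T_36 (nat_lit 157) (nat_lit 156) (nat_lit 0) (nat_lit 7) (nat_lit 10) L99474 (by decide +kernel)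
theorem L99476 : W_36 (nat_lit 10) (nat_lit 0x380008001000080000000000000000000000000000000) (nat_lit 0x0) (nat_lit 0x38001e000fe00060013000800000000000000000000000000000000000) := Q_36 (nat_lit 174) (C_36 L99460 (C_36 L99463 (C_36 L99465 (C_36 L99467 (C_36 L99475 N_36))))) (by decide +kernel)
theorem L99477 : W_36 (nat_lit 2) (nat_lit 0x40007c000a001000080000000000000000000000000000000) (nat_lit 0x0) (nat_lit 0x1c00000000000000000000000000000000000000000000000) := D_36 (nat_lit 191) (nat_lit 190) (nat_lit 192) (nat_lit 1) (nat_lit 7) (nat_lit 10) (nat_lit 1) (nat_lit 8) (nat_lit 10) (by decide +kernel)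
theorem L99478 : W_36 (nat_lit 3) (nat_lit 0x40003c000a001000080000000000000000000000000000000) (nat_lit 0x0) (nat_lit 0x1c00400004000000000000000000000000000000000000000) := T_36 (nat_lit 178) (nat_lit 158) (nat_lit 0) (nat_lit 8) (nat_lit 10) L99477 (by decide +kernel)
theorem L99479 : W_36 (nat_lit 4) (nat_lit 0x3c000a001000080000000000000000000000000000000) (nat_lit 0x0) (nat_lit 0xdc00400004000000000000000000000000000000000000000) := T_36 (nat_lit 194) (nat_lit 195) (nat_lit 3) (nat_lit 4) (nat_lit 10) L99478 (by decide +kernel)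
theorem L99480 : W_36 (nat_lit 5) (nat_lit 0x3c0008001000080000000000000000000000000000000) (nat_lit 0x0) (nat_lit 0xdc00400007000000000000000000000000000000000000000) := T_36 (nat_lit 157) (nat_lit 156) (nat_lit 0) (nat_lit 7) (nat_lit 10) L99479 (by decide +kernel)
theorem L99481 : W_36 (nat_lit 6) (nat_lit 0x380008001000080000000000000000000000000000000) (nat_lit 0x0) (nat_lit 0xfe00460017000000000000000000000000000000000000000) := Q_36 (nat_lit 174) (C_36 L99467 (C_36 L99463 (C_36 L99460 (C_36 L99480 N_36)))) (by decide +kernel)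
theorem L99482 : W_36 (nat_lit 2) (nat_lit 0x8003c000a001000080000000000000000000000000000000) (nat_lit 0x0) (nat_lit 0x1000400004000000000000000000000000000000000000000) := D_36 (nat_lit 178) (nat_lit 158) (nat_lit 192) (nat_lit 0) (nat_lit 8) (nat_lit 10) (nat_lit 1) (nat_lit 8) (nat_lit 10) (by decide +kernel)
theorem L99483 : W_36 (nat_lit 3) (nat_lit 0x3c000a001000080000000000000000000000000000000) (nat_lit 0x0) (nat_lit 0x1c00400004000000000000000000000000000000000000000) := T_36 (nat_lit 191) (nat_lit 190) (nat_lit 1) (nat_lit 7) (nat_lit 10) L99482 (by decide +kernel)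
theorem L99484 : W_36 (nat_lit 4) (nat_lit 0x3c0008001000080000000000000000000000000000000) (nat_lit 0x0) (nat_lit 0x1c00400007000000000000000000000000000000000000000) := T_36 (nat_lit 157) (nat_lit 156) (nat_lit 0) (nat_lit 7) (nat_lit 10) L99483 (by decide +kernel)
theorem L99485 : W_36 (nat_lit 2) (nat_lit 0x40003e000a001000080000000000000000000000000000000) (nat_lit 0x0) (nat_lit 0x410004000000000000000000000000000000000000000) := D_36 (nat_lit 158) (nat_lit 172) (nat_lit 178) (nat_lit 2) (nat_lit 2) (nat_lit 10) (nat_lit 0) (nat_lit 8) (nat_lit 10) (by decide +kernel)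
theorem L99486 : W_36 (nat_lit 3) (nat_lit 0x40003c000a001000080000000000000000000000000000000) (nat_lit 0x0) (nat_lit 0x2000430004000000000000000000000000000000000000000) := T_36 (nat_lit 173) (nat_lit 193) (nat_lit 3) (nat_lit 3) (nat_lit 10) L99485 (by decide +kernel)
theorem L99487 : W_36 (nat_lit 4) (nat_lit 0x3c000a001000080000000000000000000000000000000) (nat_lit 0x0) (nat_lit 0xe000430004000000000000000000000000000000000000000) := T_36 (nat_lit 194) (nat_lit 195) (nat_lit 3) (nat_lit 4) (nat_lit 10) L99486 (by decide +kernel)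
theorem L99488 : W_36 (nat_lit 5) (nat_lit 0x3c0008001000080000000000000000000000000000000) (nat_lit 0x0) (nat_lit 0xe000430007000000000000000000000000000000000000000) := T_36 (nat_lit 157) (nat_lit 156) (nat_lit 0) (nat_lit 7) (nat_lit 10) L99487 (by decide +kernel)
theorem L99489 : W_36 (nat_lit 6) (nat_lit 0x380008001000080000000000000000000000000000000) (nat_lit 0x0) (nat_lit 0xfe00470007000000000000000000000000000000000000000) := Q_36 (nat_lit 174) (C_36 L99463 (C_36 L99480 (C_36 L99484 (C_36 L99488 N_36)))) (by decide +kernel)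
theorem L99490 : W_36 (nat_lit 5) (nat_lit 0x380008001000080000000000000000000000000000000) (nat_lit 0x0) (nat_lit 0xde00460017000800000000000000000000000000000000000) := Q_36 (nat_lit 174) (C_36 L99467 (C_36 L99484 (C_36 L99465 N_36))) (by decide +kernel)
theorem L99491 : W_36 (nat_lit 4) (nat_lit 0x38001e001000080000000000000000000000000000000) (nat_lit 0x0) (nat_lit 0x10000c00060000000200010000000000000000000000000000000) := T_36 (nat_lit 174) (nat_lit 173) (nat_lit 2) (nat_lit 3) (nat_lit 10) L64426 (by decide +kernel)
theorem L99492 : W_36 (nat_lit 5) (nat_lit 0x38000e001000080000000000000000000000000000000) (nat_lit 0x0) (nat_lit 0x10000c00060010000a00010000000000000000000000000000000) := T_36 (nat_lit 160) (nat_lit 143) (nat_lit 2) (nat_lit 4) (nat_lit 9) L99491 (by decide +kernel)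
theorem L99493 : W_36 (nat_lit 6) (nat_lit 0x38000c001000080000000000000000000000000000000) (nat_lit 0x0) (nat_lit 0x10000c00060013000a00010000000000000000000000000000000) := T_36 (nat_lit 157) (nat_lit 156) (nat_lit 3) (nat_lit 3) (nat_lit 9) L99492 (by decide +kernel)
theorem L99494 : W_36 (nat_lit 2) (nat_lit 0x38000c001000080000000000000000000000000000000) (nat_lit 0x0) (nat_lit 0x400003000000000000000000000000000000000000000) := D_36 (nat_lit 157) (nat_lit 156) (nat_lit 178) (nat_lit 3) (nat_lit 3) (nat_lit 9) (nat_lit 0) (nat_lit 8) (nat_lit 10) (by decide +kernel)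
theorem L99495 : W_36 (nat_lit 2) (nat_lit 0x38000c001000080000000000000000000000000000000) (nat_lit 0x0) (nat_lit 0xc00002000000000000000000000000000000000000000) := D_36 (nat_lit 178) (nat_lit 179) (nat_lit 157) (nat_lit 0) (nat_lit 9) (nat_lit 10) (nat_lit 0) (nat_lit 8) (nat_lit 10) (by decide +kernel)
theorem L99496 : W_36 (nat_lit 2) (nat_lit 0x7000100078000c001200090000000000000000000000000000000) (nat_lit 0x0) (nat_lit 0x100008000400000000000000000000000000) := D_36 (nat_lit 123) (nat_lit 140) (nat_lit 106) (nat_lit 4) (nat_lit 5) (nat_lit 11) (nat_lit 4) (nat_lit 5) (nat_lit 10) (by decide +kernel)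
theorem L99497 : W_36 (nat_lit 3) (nat_lit 0x7000100078000c001200080000000000000000000000000000000) (nat_lit 0x0) (nat_lit 0x100018000c00000000000000000000000000) := T_36 (nat_lit 124) (nat_lit 107) (nat_lit 7) (nat_lit 5) (nat_lit 6) L99496 (by decide +kernel)
theorem L99498 : W_36 (nat_lit 4) (nat_lit 0x7000100078000c001000080000000000000000000000000000000) (nat_lit 0x0) (nat_lit 0x2000000000000300018000c00000000000000000000000000) := T_36 (nat_lit 141) (nat_lit 193) (nat_lit 7) (nat_lit 5) (nat_lit 8) L99497 (by decide +kernel)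
theorem L99499 : W_36 (nat_lit 5) (nat_lit 0x3000100078000c001000080000000000000000000000000000000) (nat_lit 0x0) (nat_lit 0x800040002000000000000300018000c00000000000000000000000000) := T_36 (nat_lit 210) (nat_lit 227) (nat_lit 7) (nat_lit 5) (nat_lit 9) L99498 (by decide +kernel)
theorem L99500 : W_36 (nat_lit 6) (nat_lit 0x2000100078000c001000080000000000000000000000000000000) (nat_lit 0x0) (nat_lit 0xa00050002000000000000300018000c00000000000000000000000000) := T_36 (nat_lit 208) (nat_lit 225) (nat_lit 5) (nat_lit 5) (nat_lit 9) L99499 (by decide +kernel)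
theorem L99501 : W_36 (nat_lit 7) (nat_lit 0x100078000c001000080000000000000000000000000000000) (nat_lit 0x0) (nat_lit 0xe00070002000000000000300018000c00000000000000000000000000) := T_36 (nat_lit 209) (nat_lit 226) (nat_lit 6) (nat_lit 5) (nat_lit 13) L99500 (by decide +kernel)
theorem L99502 : W_36 (nat_lit 8) (nat_lit 0x78000c001000080000000000000000000000000000000) (nat_lit 0x0) (nat_lit 0xe00070003800000000000300018000c00000000000000000000000000) := T_36 (nat_lit 192) (nat_lit 191) (nat_lit 1) (nat_lit 8) (nat_lit 10) L99501 (by decide +kernel)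
theorem L99503 : W_36 (nat_lit 9) (nat_lit 0x38000c001000080000000000000000000000000000000) (nat_lit 0x0) (nat_lit 0xe00070003800c00000000300018000c00000000000000000000000000) := T_36 (nat_lit 178) (nat_lit 179) (nat_lit 0) (nat_lit 9) (nat_lit 10) L99502 (by decide +kernel)
theorem L99504 : W_36 (nat_lit 10) (nat_lit 0x380008001000080000000000000000000000000000000) (nat_lit 0x0) (nat_lit 0xe00070003c00c60017000b00018000c00000000000000000000000000) := Q_36 (nat_lit 158) (C_36 L99493 (C_36 L99494 (C_36 L99495 (C_36 L99503 N_36)))) (by decide +kernel)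
theorem L99505 : W_36 (nat_lit 5) (nat_lit 0x38000e001000080000000000000000000000000000000) (nat_lit 0x0) (nat_lit 0x20001000000010000b80008000400000000000000000000000000) := T_36 (nat_lit 160) (nat_lit 143) (nat_lit 2) (nat_lit 4) (nat_lit 9) L63983 (by decide +kernel)
theorem L99506 : W_36 (nat_lit 6) (nat_lit 0x38000c001000080000000000000000000000000000000) (nat_lit 0x0) (nat_lit 0x20001000000013000b80008000400000000000000000000000000) := T_36 (nat_lit 157) (nat_lit 156) (nat_lit 3) (nat_lit 3) (nat_lit 9) L99505 (by decide +kernel)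
theorem L99507 : W_36 (nat_lit 10) (nat_lit 0x380008001000080000000000000000000000000000000) (nat_lit 0x0) (nat_lit 0xe00070003800c00017000b80018000c00000000000000000000000000) := Q_36 (nat_lit 158) (C_36 L99506 (C_36 L99503 (C_36 L99495 N_36))) (by decide +kernel)
theorem L99508 : W_36 (nat_lit 2) (nat_lit 0x48007c0008001000080000000000000000000000000000000) (nat_lit 0x0) (nat_lit 0x800006000000000000000000000000000000000000000) := D_36 (nat_lit 158) (nat_lit 179) (nat_lit 157) (nat_lit 0) (nat_lit 9) (nat_lit 10) (nat_lit 0) (nat_lit 8) (nat_lit 10) (by decide +kernel)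
theorem L99509 : W_36 (nat_lit 3) (nat_lit 0x48003c0008001000080000000000000000000000000000000) (nat_lit 0x0) (nat_lit 0x1000c00006000000000000000000000000000000000000000) := T_36 (nat_lit 178) (nat_lit 192) (nat_lit 1) (nat_lit 8) (nat_lit 10) L99508 (by decide +kernel)
theorem L99510 : W_36 (nat_lit 4) (nat_lit 0x8003c0008001000080000000000000000000000000000000) (nat_lit 0x0) (nat_lit 0xd000c00006000000000000000000000000000000000000000) := T_36 (nat_lit 194) (nat_lit 195) (nat_lit 3) (nat_lit 4) (nat_lit 10) L99509 (by decide +kernel)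
theorem L99511 : W_36 (nat_lit 5) (nat_lit 0x3c0008001000080000000000000000000000000000000) (nat_lit 0x0) (nat_lit 0xdc00c00006000000000000000000000000000000000000000) := T_36 (nat_lit 191) (nat_lit 190) (nat_lit 1) (nat_lit 7) (nat_lit 10) L99510 (by decide +kernel)
theorem L99512 : W_36 (nat_lit 6) (nat_lit 0x380008001000080000000000000000000000000000000) (nat_lit 0x0) (nat_lit 0xfe00c60016000800000000000000000000000000000000000) := Q_36 (nat_lit 174) (C_36 L99467 (C_36 L99463 (C_36 L99465 (C_36 L99511 N_36)))) (by decide +kernel)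
theorem L99513 : W_36 (nat_lit 2) (nat_lit 0x3e000a001000080000000000000000000000000000000) (nat_lit 0x0) (nat_lit 0x410004000000000000000000000000000000000000000) := D_36 (nat_lit 158) (nat_lit 172) (nat_lit 178) (nat_lit 2) (nat_lit 2) (nat_lit 10) (nat_lit 0) (nat_lit 8) (nat_lit 10) (by decide +kernel)
theorem L99514 : W_36 (nat_lit 3) (nat_lit 0x3c000a001000080000000000000000000000000000000) (nat_lit 0x0) (nat_lit 0x430014000000000000000000000000000000000000000) := T_36 (nat_lit 173) (nat_lit 160) (nat_lit 2) (nat_lit 3) (nat_lit 10) L99513 (by decide +kernel)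
theorem L99515 : W_36 (nat_lit 4) (nat_lit 0x3c0008001000080000000000000000000000000000000) (nat_lit 0x0) (nat_lit 0x430017000000000000000000000000000000000000000) := T_36 (nat_lit 157) (nat_lit 156) (nat_lit 0) (nat_lit 7) (nat_lit 10) L99514 (by decide +kernel)
theorem L99516 : W_36 (nat_lit 2) (nat_lit 0x40003c001e001100080000000000000000000000000000000) (nat_lit 0x0) (nat_lit 0x20001000000000000000008000000000000000000000000000000) := D_36 (nat_lit 192) (nat_lit 209) (nat_lit 123) (nat_lit 4) (nat_lit 5) (nat_lit 12) (nat_lit 7) (nat_lit 4) (nat_lit 7) (by decide +kernel)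
theorem L99517 : W_36 (nat_lit 3) (nat_lit 0x40003c001e001000080000000000000000000000000000000) (nat_lit 0x0) (nat_lit 0x20001000000000000180008000000000000000000000000000000) := T_36 (nat_lit 140) (nat_lit 139) (nat_lit 0) (nat_lit 7) (nat_lit 9) L99516 (by decide +kernel)
theorem L99518 : W_36 (nat_lit 4) (nat_lit 0x40003c000e001000080000000000000000000000000000000) (nat_lit 0x0) (nat_lit 0x20001000000010000980008000000000000000000000000000000) := T_36 (nat_lit 160) (nat_lit 143) (nat_lit 2) (nat_lit 4) (nat_lit 9) L99517 (by decide +kernel)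
theorem L99519 : W_36 (nat_lit 5) (nat_lit 0x40003c000a001000080000000000000000000000000000000) (nat_lit 0x0) (nat_lit 0x20001000400014000980008000000000000000000000000000000) := T_36 (nat_lit 158) (nat_lit 178) (nat_lit 0) (nat_lit 8) (nat_lit 10) L99518 (by decide +kernel)
theorem L99520 : W_36 (nat_lit 6) (nat_lit 0x3c000a001000080000000000000000000000000000000) (nat_lit 0x0) (nat_lit 0x2000d000400014000980008000000000000000000000000000000) := T_36 (nat_lit 194) (nat_lit 195) (nat_lit 3) (nat_lit 4) (nat_lit 10) L99519 (by decide +kernel)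
theorem L99521 : W_36 (nat_lit 7) (nat_lit 0x3c0008001000080000000000000000000000000000000) (nat_lit 0x0) (nat_lit 0x2000d000400017000980008000000000000000000000000000000) := T_36 (nat_lit 157) (nat_lit 156) (nat_lit 0) (nat_lit 7) (nat_lit 10) L99520 (by decide +kernel)
theorem L99522 : W_36 (nat_lit 8) (nat_lit 0x380008001000080000000000000000000000000000000) (nat_lit 0x0) (nat_lit 0x2000f000470017000980008000000000000000000000000000000) := Q_36 (nat_lit 174) (C_36 L99465 (C_36 L99488 (C_36 L99515 (C_36 L99521 N_36)))) (by decide +kernel)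
theorem L99523 : W_36 (nat_lit 2) (nat_lit 0x10000000048003c001e001100080000400000000000000000000000000) (nat_lit 0x0) (nat_lit 0x10000000000000000200010000000000000000000000000000000) := D_36 (nat_lit 141) (nat_lit 124) (nat_lit 208) (nat_lit 6) (nat_lit 4) (nat_lit 11) (nat_lit 6) (nat_lit 4) (nat_lit 12) (by decide +kernel)
theorem L99524 : W_36 (nat_lit 3) (nat_lit 0x10000000040003c001e001100080000400000000000000000000000000) (nat_lit 0x0) (nat_lit 0x10000c00000000000200010000000000000000000000000000000) := T_36 (nat_lit 191) (nat_lit 190) (nat_lit 1) (nat_lit 7) (nat_lit 10) L99523 (by decide +kernel)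
theorem L99525 : W_36 (nat_lit 4) (nat_lit 0x10000000040003c001e001100080000000000000000000000000000000) (nat_lit 0x0) (nat_lit 0x10000c00000000000200018000400000000000000000000000000) := T_36 (nat_lit 106) (nat_lit 123) (nat_lit 7) (nat_lit 4) (nat_lit 6) L99524 (by decide +kernel)
theorem L99526 : W_36 (nat_lit 5) (nat_lit 0x40003c001e001100080000000000000000000000000000000) (nat_lit 0x0) (nat_lit 0x1000090000c00000000000200018000400000000000000000000000000) := T_36 (nat_lit 228) (nat_lit 211) (nat_lit 4) (nat_lit 7) (nat_lit 13) L99525 (by decide +kernel)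
theorem L99527 : W_36 (nat_lit 6) (nat_lit 0x40003c001e001000080000000000000000000000000000000) (nat_lit 0x0) (nat_lit 0x1000090000c00000000000380018000400000000000000000000000000) := T_36 (nat_lit 140) (nat_lit 139) (nat_lit 0) (nat_lit 7) (nat_lit 9) L99526 (by decide +kernel)
theorem L99528 : W_36 (nat_lit 7) (nat_lit 0x40003c001a001000080000000000000000000000000000000) (nat_lit 0x0) (nat_lit 0x1000090000c00400004000380018000400000000000000000000000000) := T_36 (nat_lit 158) (nat_lit 178) (nat_lit 3) (nat_lit 4) (nat_lit 9) L99527 (by decide +kernel)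
theorem L99529 : W_36 (nat_lit 8) (nat_lit 0x40003c000a001000080000000000000000000000000000000) (nat_lit 0x0) (nat_lit 0x1000090000c00400014000b80018000400000000000000000000000000) := T_36 (nat_lit 160) (nat_lit 143) (nat_lit 6) (nat_lit 7) (nat_lit 11) L99528 (by decide +kernel)
theorem L99530 : W_36 (nat_lit 9) (nat_lit 0x40003c0008001000080000000000000000000000000000000) (nat_lit 0x0) (nat_lit 0x1000090000c00400017000b80018000400000000000000000000000000) := T_36 (nat_lit 157) (nat_lit 156) (nat_lit 0) (nat_lit 7) (nat_lit 10) L99529 (by decide +kernel)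
theorem L99531 : W_36 (nat_lit 10) (nat_lit 0x3c0008001000080000000000000000000000000000000) (nat_lit 0x0) (nat_lit 0x100009000cc00400017000b80018000400000000000000000000000000) := T_36 (nat_lit 194) (nat_lit 195) (nat_lit 3) (nat_lit 4) (nat_lit 10) L99530 (by decide +kernel)
theorem L99532 : W_36 (nat_lit 11) (nat_lit 0x380008001000080000000000000000000000000000000) (nat_lit 0x0) (nat_lit 0x100009000ee00470017000b80018000400000000000000000000000000) := Q_36 (nat_lit 174) (C_36 L99467 (C_36 L99515 (C_36 L99488 (C_36 L99531 N_36)))) (by decide +kernel)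
theorem L99533 : W_36 (nat_lit 2) (nat_lit 0x4800fc0008001000080000000000000000000000000000000) (nat_lit 0x0) (nat_lit 0x1000010000800000000000000000000000000000000000) := D_36 (nat_lit 160) (nat_lit 143) (nat_lit 180) (nat_lit 6) (nat_lit 7) (nat_lit 11) (nat_lit 0) (nat_lit 10) (nat_lit 10) (by decide +kernel)
theorem L99534 : W_36 (nat_lit 3) (nat_lit 0x48007c0008001000080000000000000000000000000000000) (nat_lit 0x0) (nat_lit 0x1800014000800000000000000000000000000000000000) := T_36 (nat_lit 179) (nat_lit 158) (nat_lit 0) (nat_lit 9) (nat_lit 10) L99533 (by decide +kernel)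
theorem L99535 : W_36 (nat_lit 4) (nat_lit 0x48003c0008001000080000000000000000000000000000000) (nat_lit 0x0) (nat_lit 0x1001c00014000800000000000000000000000000000000000) := T_36 (nat_lit 178) (nat_lit 192) (nat_lit 1) (nat_lit 8) (nat_lit 10) L99534 (by decide +kernel)
theorem L99536 : W_36 (nat_lit 5) (nat_lit 0x8003c0008001000080000000000000000000000000000000) (nat_lit 0x0) (nat_lit 0xd001c00014000800000000000000000000000000000000000) := T_36 (nat_lit 194) (nat_lit 195) (nat_lit 3) (nat_lit 4) (nat_lit 10) L99535 (by decide +kernel)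
theorem L99537 : W_36 (nat_lit 6) (nat_lit 0x3c0008001000080000000000000000000000000000000) (nat_lit 0x0) (nat_lit 0xdc01c00014000800000000000000000000000000000000000) := T_36 (nat_lit 191) (nat_lit 190) (nat_lit 1) (nat_lit 7) (nat_lit 10) L99536 (by decide +kernel)
theorem L99538 : W_36 (nat_lit 7) (nat_lit 0x380008001000080000000000000000000000000000000) (nat_lit 0x0) (nat_lit 0xfe01c60014000800000000000000000000000000000000000) := Q_36 (nat_lit 174) (C_36 L99467 (C_36 L99463 (C_36 L99465 (C_36 L99537 N_36)))) (by decide +kernel)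
theorem L99539 : W_36 (nat_lit 12) (nat_lit 0x300008001000080000000000000000000000000000000) (nat_lit 0x0) (nat_lit 0x3e001f000fe01cf0017000b80018000c00000000000000000000000000) := Q_36 (nat_lit 175) (C_36 L99476 (C_36 L99481 (C_36 L99489 (C_36 L99490 (C_36 L99504 (C_36 L99507 (C_36 L99512 (C_36 L99522 (C_36 L99532 (C_36 L99538 N_36)))))))))) (by decide +kernel)
theorem L99540 : W_36 (nat_lit 2) (nat_lit 0x1000000004000300008001e00080000000000000000000000000000000) (nat_lit 0x0) (nat_lit 0x2000000000000000018000000000000000000000000000000) := D_36 (nat_lit 124) (nat_lit 123) (nat_lit 193) (nat_lit 0) (nat_lit 8) (nat_lit 8) (nat_lit 4) (nat_lit 6) (nat_lit 11) (by decide +kernel)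
theorem L99541 : W_36 (nat_lit 3) (nat_lit 0x1000000004000300008001c00080000000000000000000000000000000) (nat_lit 0x0) (nat_lit 0x2000000000000200118000000000000000000000000000000) := T_36 (nat_lit 141) (nat_lit 128) (nat_lit 2) (nat_lit 5) (nat_lit 8) L99540 (by decide +kernel)
theorem L99542 : W_36 (nat_lit 4) (nat_lit 0x1000000004000300008001400080000000000000000000000000000000) (nat_lit 0x0) (nat_lit 0x2000000010000a00118000000000000000000000000000000) := T_36 (nat_lit 143) (nat_lit 160) (nat_lit 6) (nat_lit 7) (nat_lit 11) L99541 (by decide +kernel)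
theorem L99543 : W_36 (nat_lit 5) (nat_lit 0x1000000004000300008001000080000000000000000000000000000000) (nat_lit 0x0) (nat_lit 0x2000000010000e00138000000000000000000000000000000) := T_36 (nat_lit 142) (nat_lit 125) (nat_lit 7) (nat_lit 6) (nat_lit 7) L99542 (by decide +kernel)
theorem L99544 : W_36 (nat_lit 6) (nat_lit 0x4000300008001000080000000000000000000000000000000) (nat_lit 0x0) (nat_lit 0x1000080002000000010000e00138000000000000000000000000000000) := T_36 (nat_lit 228) (nat_lit 211) (nat_lit 4) (nat_lit 7) (nat_lit 13) L99543 (by decide +kernel)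
theorem L99545 : W_36 (nat_lit 4) (nat_lit 0x4000300008001800080000000000000000000000000000000) (nat_lit 0x0) (nat_lit 0x2000000000000600138000000000000000000000000000000) := T_36 (nat_lit 142) (nat_lit 125) (nat_lit 7) (nat_lit 6) (nat_lit 7) L8128 (by decide +kernel)
theorem L99546 : W_36 (nat_lit 5) (nat_lit 0x4000300008001000080000000000000000000000000000000) (nat_lit 0x0) (nat_lit 0x2000000010000e00138000000000000000000000000000000) := T_36 (nat_lit 143) (nat_lit 160) (nat_lit 6) (nat_lit 7) (nat_lit 11) L99545 (by decide +kernel)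
theorem L99547 : W_36 (nat_lit 7) (nat_lit 0x8000400030000c001000080000000000000000000000000000000) (nat_lit 0x0) (nat_lit 0x2800340003800c00010000a00000000000000000000000000000000000) := T_36 (nat_lit 179) (nat_lit 178) (nat_lit 0) (nat_lit 9) (nat_lit 10) L16005 (by decide +kernel)
theorem L99548 : W_36 (nat_lit 8) (nat_lit 0x400030000c001000080000000000000000000000000000000) (nat_lit 0x0) (nat_lit 0x38003c0003800c00010000a00000000000000000000000000000000000) := T_36 (nat_lit 211) (nat_lit 228) (nat_lit 4) (nat_lit 7) (nat_lit 13) L99547 (by decide +kernel)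
theorem L99549 : W_36 (nat_lit 3) (nat_lit 0x1c000400030001d001000080000000000000000000000000000000) (nat_lit 0x0) (nat_lit 0x200003800000000000200000000000000000000000000000000000) := T_36 (nat_lit 193) (nat_lit 141) (nat_lit 4) (nat_lit 6) (nat_lit 12) L15994 (by decide +kernel)
theorem L99550 : W_36 (nat_lit 4) (nat_lit 0x18000400030001d001000080000000000000000000000000000000) (nat_lit 0x0) (nat_lit 0x800240003800000000000200000000000000000000000000000000000) := T_36 (nat_lit 210) (nat_lit 227) (nat_lit 5) (nat_lit 7) (nat_lit 9) L99549 (by decide +kernel)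
theorem L99551 : W_36 (nat_lit 5) (nat_lit 0x8000400030001d001000080000000000000000000000000000000) (nat_lit 0x0) (nat_lit 0x2800340003800000000000200000000000000000000000000000000000) := T_36 (nat_lit 212) (nat_lit 229) (nat_lit 7) (nat_lit 7) (nat_lit 9) L99550 (by decide +kernel)
theorem L99552 : W_36 (nat_lit 6) (nat_lit 0x8000400030001c001000080000000000000000000000000000000) (nat_lit 0x0) (nat_lit 0x2800340003800000003000200000000000000000000000000000000000) := T_36 (nat_lit 156) (nat_lit 157) (nat_lit 3) (nat_lit 3) (nat_lit 9) L99551 (by decide +kernel)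
theorem L99553 : W_36 (nat_lit 7) (nat_lit 0x400030001c001000080000000000000000000000000000000) (nat_lit 0x0) (nat_lit 0x38003c0003800000003000200000000000000000000000000000000000) := T_36 (nat_lit 211) (nat_lit 228) (nat_lit 4) (nat_lit 7) (nat_lit 13) L99552 (by decide +kernel)
theorem L99554 : W_36 (nat_lit 8) (nat_lit 0x400030000c001000080000000000000000000000000000000) (nat_lit 0x0) (nat_lit 0x38003c0003800000013000a00000000000000000000000000000000000) := T_36 (nat_lit 160) (nat_lit 143) (nat_lit 6) (nat_lit 7) (nat_lit 11) L99553 (by decide +kernel)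
theorem L99555 : W_36 (nat_lit 2) (nat_lit 0x100000000400070000c001000080000000000000000000000000000000) (nat_lit 0x0) (nat_lit 0x80003000000000000000000000000000000000000000) := D_36 (nat_lit 157) (nat_lit 156) (nat_lit 175) (nat_lit 3) (nat_lit 3) (nat_lit 9) (nat_lit 0) (nat_lit 8) (nat_lit 10) (by decide +kernel)
theorem L99556 : W_36 (nat_lit 3) (nat_lit 0x100000000400030000c001000080000000000000000000000000000000) (nat_lit 0x0) (nat_lit 0xc80003000000000000000000000000000000000000000) := T_36 (nat_lit 178) (nat_lit 179) (nat_lit 0) (nat_lit 9) (nat_lit 10) L99555 (by decide +kernel)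
theorem L99557 : W_36 (nat_lit 4) (nat_lit 0x400030000c001000080000000000000000000000000000000) (nat_lit 0x0) (nat_lit 0x1000080000000c80003000000000000000000000000000000000000000) := T_36 (nat_lit 228) (nat_lit 211) (nat_lit 4) (nat_lit 7) (nat_lit 13) L99556 (by decide +kernel)
theorem L99558 : W_36 (nat_lit 2) (nat_lit 0x400030000e001000080000000000000000000000000000000) (nat_lit 0x0) (nat_lit 0x400010000800000000000000000000000000000000000) := D_36 (nat_lit 160) (nat_lit 143) (nat_lit 178) (nat_lit 2) (nat_lit 4) (nat_lit 9) (nat_lit 3) (nat_lit 4) (nat_lit 9) (by decide +kernel)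
theorem L99559 : W_36 (nat_lit 3) (nat_lit 0x400030000c001000080000000000000000000000000000000) (nat_lit 0x0) (nat_lit 0x400013000800000000000000000000000000000000000) := T_36 (nat_lit 157) (nat_lit 156) (nat_lit 3) (nat_lit 3) (nat_lit 9) L99558 (by decide +kernel)
theorem L99560 : W_36 (nat_lit 9) (nat_lit 0x4000300008001000080000000000000000000000000000000) (nat_lit 0x0) (nat_lit 0x38003c0003800c80017000a00000000000000000000000000000000000) := Q_36 (nat_lit 158) (C_36 L99548 (C_36 L99554 (C_36 L99557 (C_36 L99559 N_36)))) (by decide +kernel)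
theorem L99561 : W_36 (nat_lit 10) (nat_lit 0x300008001000080000000000000000000000000000000) (nat_lit 0x0) (nat_lit 0x38003c0007800c80017000e00138000000000000000000000000000000) := Q_36 (nat_lit 194) (C_36 L99544 (C_36 L14838 (C_36 L14840 (C_36 L99546 (C_36 L99560 N_36))))) (by decide +kernel)
theorem L99562 : W_36 (nat_lit 2) (nat_lit 0x40006000300008001600080000000000000000000000000000000) (nat_lit 0x0) (nat_lit 0x400020001000000000000000000000000000000000000000000000000) := D_36 (nat_lit 209) (nat_lit 192) (nat_lit 226) (nat_lit 5) (nat_lit 6) (nat_lit 8) (nat_lit 5) (nat_lit 6) (nat_lit 9) (by decide +kernel)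
theorem L99563 : W_36 (nat_lit 3) (nat_lit 0x6000300008001600080000000000000000000000000000000) (nat_lit 0x0) (nat_lit 0x400060001000000004000000000000000000000000000000000000000) := T_36 (nat_lit 210) (nat_lit 158) (nat_lit 4) (nat_lit 6) (nat_lit 12) L99562 (by decide +kernel)
theorem L99564 : W_36 (nat_lit 4) (nat_lit 0x2000300008001600080000000000000000000000000000000) (nat_lit 0x0) (nat_lit 0x4000e0005000000004000000000000000000000000000000000000000) := T_36 (nat_lit 194) (nat_lit 211) (nat_lit 7) (nat_lit 6) (nat_lit 8) L99563 (by decide +kernel)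
theorem L99565 : W_36 (nat_lit 5) (nat_lit 0x2000300008001400080000000000000000000000000000000) (nat_lit 0x0) (nat_lit 0x4000e0005000000004000200010000000000000000000000000000000) := T_36 (nat_lit 141) (nat_lit 124) (nat_lit 4) (nat_lit 6) (nat_lit 11) L99564 (by decide +kernel)
theorem L99566 : W_36 (nat_lit 2) (nat_lit 0x800040003400b00008001600080000000000000000000000000000000) (nat_lit 0x0) (nat_lit 0x10000000000004000080000000000000000000000000000000000000000000) := D_36 (nat_lit 244) (nat_lit 175) (nat_lit 194) (nat_lit 4) (nat_lit 6) (nat_lit 14) (nat_lit 6) (nat_lit 6) (nat_lit 14) (by decide +kernel)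
theorem L99567 : W_36 (nat_lit 3) (nat_lit 0x40003400b00008001600080000000000000000000000000000000) (nat_lit 0x0) (nat_lit 0x10000800000004000080010000000000000000000000000000000000000000) := T_36 (nat_lit 227) (nat_lit 160) (nat_lit 6) (nat_lit 6) (nat_lit 13) L99566 (by decide +kernel)
theorem L99568 : W_36 (nat_lit 4) (nat_lit 0x3400b00008001600080000000000000000000000000000000) (nat_lit 0x0) (nat_lit 0x10000800040004000080014000000000000000000000000000000000000000) := T_36 (nat_lit 210) (nat_lit 158) (nat_lit 4) (nat_lit 6) (nat_lit 12) L99567 (by decide +kernel)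
theorem L99569 : W_36 (nat_lit 5) (nat_lit 0x3400b00008001400080000000000000000000000000000000) (nat_lit 0x0) (nat_lit 0x10000800040004000080014000200010000000000000000000000000000000) := T_36 (nat_lit 141) (nat_lit 124) (nat_lit 4) (nat_lit 6) (nat_lit 11) L99568 (by decide +kernel)
theorem L99570 : W_36 (nat_lit 6) (nat_lit 0x3400300008001400080000000000000000000000000000000) (nat_lit 0x0) (nat_lit 0x10000800040004000c80014000200010000000000000000000000000000000) := T_36 (nat_lit 179) (nat_lit 178) (nat_lit 1) (nat_lit 9) (nat_lit 10) L99569 (by decide +kernel)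
theorem L99571 : W_36 (nat_lit 7) (nat_lit 0x3000300008001400080000000000000000000000000000000) (nat_lit 0x0) (nat_lit 0x10000800040004c00c80014000200010000000000000000000000000000000) := T_36 (nat_lit 190) (nat_lit 191) (nat_lit 2) (nat_lit 3) (nat_lit 11) L99570 (by decide +kernel)
theorem L99572 : W_36 (nat_lit 8) (nat_lit 0x2000300008001400080000000000000000000000000000000) (nat_lit 0x0) (nat_lit 0x10000800060005c00c80014000200010000000000000000000000000000000) := T_36 (nat_lit 192) (nat_lit 209) (nat_lit 5) (nat_lit 6) (nat_lit 8) L99571 (by decide +kernel)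
theorem L99573 : W_36 (nat_lit 2) (nat_lit 0x800040003400b00008001600080000000000000000000000000000000) (nat_lit 0x0) (nat_lit 0x20001000080000000000000000000000000000000000000000000000000000) := D_36 (nat_lit 228) (nat_lit 211) (nat_lit 245) (nat_lit 7) (nat_lit 6) (nat_lit 9) (nat_lit 7) (nat_lit 6) (nat_lit 10) (by decide +kernel)
theorem L99574 : W_36 (nat_lit 3) (nat_lit 0x40003400b00008001600080000000000000000000000000000000) (nat_lit 0x0) (nat_lit 0x20001800080000000000010000000000000000000000000000000000000000) := T_36 (nat_lit 227) (nat_lit 160) (nat_lit 6) (nat_lit 6) (nat_lit 13) L99573 (by decide +kernel)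
theorem L99575 : W_36 (nat_lit 4) (nat_lit 0x3400b00008001600080000000000000000000000000000000) (nat_lit 0x0) (nat_lit 0x200018000c0000000000014000000000000000000000000000000000000000) := T_36 (nat_lit 210) (nat_lit 158) (nat_lit 4) (nat_lit 6) (nat_lit 12) L99574 (by decide +kernel)
theorem L99576 : W_36 (nat_lit 5) (nat_lit 0x3400300008001600080000000000000000000000000000000) (nat_lit 0x0) (nat_lit 0x200018000c0000000c00014000000000000000000000000000000000000000) := T_36 (nat_lit 179) (nat_lit 178) (nat_lit 1) (nat_lit 9) (nat_lit 10) L99575 (by decide +kernel)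
theorem L99577 : W_36 (nat_lit 6) (nat_lit 0x3000300008001600080000000000000000000000000000000) (nat_lit 0x0) (nat_lit 0x200018000c0000c00c00014000000000000000000000000000000000000000) := T_36 (nat_lit 190) (nat_lit 191) (nat_lit 2) (nat_lit 3) (nat_lit 11) L99576 (by decide +kernel)
theorem L99578 : W_36 (nat_lit 7) (nat_lit 0x2000300008001600080000000000000000000000000000000) (nat_lit 0x0) (nat_lit 0x200018000e0001c00c00014000000000000000000000000000000000000000) := T_36 (nat_lit 192) (nat_lit 209) (nat_lit 5) (nat_lit 6) (nat_lit 8) L99577 (by decide +kernel)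
theorem L99579 : W_36 (nat_lit 8) (nat_lit 0x2000300008001400080000000000000000000000000000000) (nat_lit 0x0) (nat_lit 0x200018000e0001c00c00014000200010000000000000000000000000000000) := T_36 (nat_lit 141) (nat_lit 124) (nat_lit 4) (nat_lit 6) (nat_lit 11) L99578 (by decide +kernel)
theorem L99580 : W_36 (nat_lit 4) (nat_lit 0x2000300008001400080000000000000000000000000000000) (nat_lit 0x0) (nat_lit 0xa0005c00400000000000000000000000000000000000000000000) := T_36 (nat_lit 194) (nat_lit 211) (nat_lit 7) (nat_lit 6) (nat_lit 8) L83212 (by decide +kernel)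
theorem L99581 : W_36 (nat_lit 4) (nat_lit 0x2000300008001600080000000000000000000000000000000) (nat_lit 0x0) (nat_lit 0x100008000c0004000000014000000000000000000000000000000000000000) := T_36 (nat_lit 194) (nat_lit 211) (nat_lit 7) (nat_lit 6) (nat_lit 8) L86443 (by decide +kernel)
theorem L99582 : W_36 (nat_lit 5) (nat_lit 0x2000300008001400080000000000000000000000000000000) (nat_lit 0x0) (nat_lit 0x100008000c0004000000014000200010000000000000000000000000000000) := T_36 (nat_lit 141) (nat_lit 124) (nat_lit 4) (nat_lit 6) (nat_lit 11) L99581 (by decide +kernel)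
theorem L99583 : W_36 (nat_lit 9) (nat_lit 0x300008001400080000000000000000000000000000000) (nat_lit 0x0) (nat_lit 0x30001c000e0007c00c80014000200010000000000000000000000000000000) := Q_36 (nat_lit 193) (C_36 L99565 (C_36 L99572 (C_36 L99579 (C_36 L99580 (C_36 L99582 N_36))))) (by decide +kernel)
theorem L99584 : W_36 (nat_lit 2) (nat_lit 0x3000080014000a0001000000000000000000000000000) (nat_lit 0x0) (nat_lit 0x10000800040000000000000000000000) := D_36 (nat_lit 107) (nat_lit 124) (nat_lit 90) (nat_lit 4) (nat_lit 6) (nat_lit 10) (nat_lit 4) (nat_lit 6) (nat_lit 9) (by decide +kernel)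
theorem L99585 : W_36 (nat_lit 3) (nat_lit 0x3000080014000a0000000000000000000000000000000) (nat_lit 0x0) (nat_lit 0x10000000010001800040000000000000000000000) := T_36 (nat_lit 108) (nat_lit 160) (nat_lit 7) (nat_lit 6) (nat_lit 6) L99584 (by decide +kernel)
theorem L99586 : W_36 (nat_lit 4) (nat_lit 0x300008001400080000000000000000000000000000000) (nat_lit 0x0) (nat_lit 0x4000000010000000030001800040000000000000000000000) := T_36 (nat_lit 125) (nat_lit 194) (nat_lit 7) (nat_lit 6) (nat_lit 7) L99585 (by decide +kernel)
theorem L99587 : W_36 (nat_lit 4) (nat_lit 0x3000080014000a0000000000000000000000000000000) (nat_lit 0x0) (nat_lit 0x1000080004000000010001800040000000000000000000000) := T_36 (nat_lit 175) (nat_lit 192) (nat_lit 5) (nat_lit 6) (nat_lit 7) L72369 (by decide +kernel)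
theorem L99588 : W_36 (nat_lit 5) (nat_lit 0x300008001400080000000000000000000000000000000) (nat_lit 0x0) (nat_lit 0x5000080004000000030001800040000000000000000000000) := T_36 (nat_lit 125) (nat_lit 194) (nat_lit 7) (nat_lit 6) (nat_lit 7) L99587 (by decide +kernel)
theorem L99589 : W_36 (nat_lit 2) (nat_lit 0x3800080014000b0000000000000000000000000000000) (nat_lit 0x0) (nat_lit 0x14000000000001000000000000000000000000000) := D_36 (nat_lit 108) (nat_lit 158) (nat_lit 160) (nat_lit 5) (nat_lit 6) (nat_lit 6) (nat_lit 7) (nat_lit 6) (nat_lit 6) (by decide +kernel)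
theorem L99590 : W_36 (nat_lit 3) (nat_lit 0x3000080014000b0000000000000000000000000000000) (nat_lit 0x0) (nat_lit 0x1000080014000000000001000000000000000000000000000) := T_36 (nat_lit 175) (nat_lit 192) (nat_lit 5) (nat_lit 6) (nat_lit 7) L99589 (by decide +kernel)
theorem L99591 : W_36 (nat_lit 4) (nat_lit 0x3000080014000a0000000000000000000000000000000) (nat_lit 0x0) (nat_lit 0x1000080014000000010001800000000000000000000000000) := T_36 (nat_lit 124) (nat_lit 107) (nat_lit 4) (nat_lit 6) (nat_lit 10) L99590 (by decide +kernel)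
theorem L99592 : W_36 (nat_lit 2) (nat_lit 0x10003000080014000b0000000000000000000000000000000) (nat_lit 0x0) (nat_lit 0x20002000000000000200000000000000000000000000000000000) := D_36 (nat_lit 193) (nat_lit 141) (nat_lit 209) (nat_lit 4) (nat_lit 6) (nat_lit 11) (nat_lit 5) (nat_lit 6) (nat_lit 8) (by decide +kernel)
theorem L99593 : W_36 (nat_lit 3) (nat_lit 0x3000080014000b0000000000000000000000000000000) (nat_lit 0x0) (nat_lit 0x20003000080000000200000000000000000000000000000000000) := T_36 (nat_lit 192) (nat_lit 175) (nat_lit 5) (nat_lit 6) (nat_lit 7) L99592 (by decide +kernel)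
theorem L99594 : W_36 (nat_lit 4) (nat_lit 0x3000080014000a0000000000000000000000000000000) (nat_lit 0x0) (nat_lit 0x20003000080000000200010000800000000000000000000000000) := T_36 (nat_lit 124) (nat_lit 107) (nat_lit 4) (nat_lit 6) (nat_lit 10) L99593 (by decide +kernel)
theorem L99595 : W_36 (nat_lit 2) (nat_lit 0x3000080014000a0001000000000000000000000000000) (nat_lit 0x0) (nat_lit 0x1000080004000000000000000000000000000000000000000) := D_36 (nat_lit 175) (nat_lit 192) (nat_lit 158) (nat_lit 5) (nat_lit 6) (nat_lit 7) (nat_lit 5) (nat_lit 6) (nat_lit 6) (by decide +kernel)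
theorem L99596 : W_36 (nat_lit 3) (nat_lit 0x3000080014000a0000000000000000000000000000000) (nat_lit 0x0) (nat_lit 0x1000080014000000000001000000000000000000000000000) := T_36 (nat_lit 108) (nat_lit 160) (nat_lit 7) (nat_lit 6) (nat_lit 6) L99595 (by decide +kernel)
theorem L99597 : W_36 (nat_lit 5) (nat_lit 0x300008001400080000000000000000000000000000000) (nat_lit 0x0) (nat_lit 0x20003000080014000200030001800040000000000000000000000) := Q_36 (nat_lit 125) (C_36 L99587 (C_36 L99585 (C_36 L99591 (C_36 L99594 (C_36 L99596 N_36))))) (by decide +kernel)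
theorem L99598 : W_36 (nat_lit 4) (nat_lit 0x300008001400080000000000000000000000000000000) (nat_lit 0x0) (nat_lit 0x5000080014000000020001000000000000000000000000000) := T_36 (nat_lit 125) (nat_lit 194) (nat_lit 7) (nat_lit 6) (nat_lit 7) L99596 (by decide +kernel)
theorem L99599 : W_36 (nat_lit 10) (nat_lit 0x300008001000080000000000000000000000000000000) (nat_lit 0x0) (nat_lit 0x30001c000e0007c00c80014000600030001800040000000000000000000000) := Q_36 (nat_lit 142) (C_36 L99583 (C_36 L99586 (C_36 L99588 (C_36 L99597 (C_36 L99598 N_36))))) (by decide +kernel)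
theorem L99600 : W_36 (nat_lit 2) (nat_lit 0x2000300008001e00080000000000000000000000000000000) (nat_lit 0x0) (nat_lit 0x40000000000006000000000000000000000000000000000000000) := D_36 (nat_lit 158) (nat_lit 157) (nat_lit 210) (nat_lit 1) (nat_lit 8) (nat_lit 8) (nat_lit 4) (nat_lit 6) (nat_lit 12) (by decide +kernel)
theorem L99601 : W_36 (nat_lit 3) (nat_lit 0x2000300008001600080000000000000000000000000000000) (nat_lit 0x0) (nat_lit 0x40000000000006000800100000000000000000000000000000000) := T_36 (nat_lit 143) (nat_lit 128) (nat_lit 2) (nat_lit 5) (nat_lit 8) L99600 (by decide +kernel)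
theorem L99602 : W_36 (nat_lit 4) (nat_lit 0x2000300008001400080000000000000000000000000000000) (nat_lit 0x0) (nat_lit 0x40000000000006000a00110000000000000000000000000000000) := T_36 (nat_lit 141) (nat_lit 124) (nat_lit 4) (nat_lit 6) (nat_lit 11) L99601 (by decide +kernel)
theorem L99603 : W_36 (nat_lit 4) (nat_lit 0x800010007800300018001400080000000000000000000000000000000) (nat_lit 0x0) (nat_lit 0x40002000000080000e0004000000000000000000000000000000000000000) := T_36 (nat_lit 174) (nat_lit 173) (nat_lit 0) (nat_lit 7) (nat_lit 11) L74704 (by decide +kernel)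
theorem L99604 : W_36 (nat_lit 5) (nat_lit 0x800000007800300018001400080000000000000000000000000000000) (nat_lit 0x0) (nat_lit 0x40002000180080000e0004000000000000000000000000000000000000000) := T_36 (nat_lit 208) (nat_lit 207) (nat_lit 1) (nat_lit 7) (nat_lit 11) L99603 (by decide +kernel)
theorem L99605 : W_36 (nat_lit 6) (nat_lit 0x800000007000300018001400080000000000000000000000000000000) (nat_lit 0x0) (nat_lit 0x4000200018008c000e0004000000000000000000000000000000000000000) := T_36 (nat_lit 191) (nat_lit 190) (nat_lit 2) (nat_lit 3) (nat_lit 11) L99604 (by decide +kernel)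
theorem L99606 : W_36 (nat_lit 7) (nat_lit 0x800000006000300018001400080000000000000000000000000000000) (nat_lit 0x0) (nat_lit 0x4000200038009c000e0004000000000000000000000000000000000000000) := T_36 (nat_lit 192) (nat_lit 209) (nat_lit 5) (nat_lit 6) (nat_lit 8) L99605 (by decide +kernel)
theorem L99607 : W_36 (nat_lit 8) (nat_lit 0x6000300018001400080000000000000000000000000000000) (nat_lit 0x0) (nat_lit 0x4000a00078009c000e0004000000000000000000000000000000000000000) := T_36 (nat_lit 227) (nat_lit 210) (nat_lit 6) (nat_lit 6) (nat_lit 13) L99606 (by decide +kernel)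
theorem L99608 : W_36 (nat_lit 9) (nat_lit 0x6000300008001400080000000000000000000000000000000) (nat_lit 0x0) (nat_lit 0x4000a00078009c000e0014000800000000000000000000000000000000000) := T_36 (nat_lit 160) (nat_lit 143) (nat_lit 6) (nat_lit 7) (nat_lit 11) L99607 (by decide +kernel)
theorem L99609 : W_36 (nat_lit 10) (nat_lit 0x2000300008001400080000000000000000000000000000000) (nat_lit 0x0) (nat_lit 0x4000a000f800dc000e0014000800000000000000000000000000000000000) := T_36 (nat_lit 194) (nat_lit 211) (nat_lit 7) (nat_lit 6) (nat_lit 8) L99608 (by decide +kernel)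
theorem L99610 : W_36 (nat_lit 2) (nat_lit 0x3400300008001e00080000000000000000000000000000000) (nat_lit 0x0) (nat_lit 0x80004000000010000000000000000000000000000000000000000) := D_36 (nat_lit 194) (nat_lit 211) (nat_lit 160) (nat_lit 7) (nat_lit 6) (nat_lit 8) (nat_lit 6) (nat_lit 7) (nat_lit 11) (by decide +kernel)
theorem L99611 : W_36 (nat_lit 3) (nat_lit 0x3400300008001600080000000000000000000000000000000) (nat_lit 0x0) (nat_lit 0x80004000000010000800100000000000000000000000000000000) := T_36 (nat_lit 143) (nat_lit 128) (nat_lit 2) (nat_lit 5) (nat_lit 8) L99610 (by decide +kernel)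
theorem L99612 : W_36 (nat_lit 4) (nat_lit 0x3400300008001400080000000000000000000000000000000) (nat_lit 0x0) (nat_lit 0x80004000000010000a00110000000000000000000000000000000) := T_36 (nat_lit 141) (nat_lit 124) (nat_lit 4) (nat_lit 6) (nat_lit 11) L99611 (by decide +kernel)
theorem L99613 : W_36 (nat_lit 5) (nat_lit 0x3000300008001400080000000000000000000000000000000) (nat_lit 0x0) (nat_lit 0x80004c00000010000a00110000000000000000000000000000000) := T_36 (nat_lit 190) (nat_lit 191) (nat_lit 2) (nat_lit 3) (nat_lit 11) L99612 (by decide +kernel)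
theorem L99614 : W_36 (nat_lit 6) (nat_lit 0x2000300008001400080000000000000000000000000000000) (nat_lit 0x0) (nat_lit 0xa0005c00000010000a00110000000000000000000000000000000) := T_36 (nat_lit 192) (nat_lit 209) (nat_lit 5) (nat_lit 6) (nat_lit 8) L99613 (by decide +kernel)
theorem L99615 : W_36 (nat_lit 11) (nat_lit 0x300008001400080000000000000000000000000000000) (nat_lit 0x0) (nat_lit 0x14000e000f800fc000e0016000a00110000000000000000000000000000000) := Q_36 (nat_lit 193) (C_36 L99582 (C_36 L99565 (C_36 L99602 (C_36 L99609 (C_36 L99614 N_36))))) (by decide +kernel)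
theorem L99616 : W_36 (nat_lit 12) (nat_lit 0x300008001000080000000000000000000000000000000) (nat_lit 0x0) (nat_lit 0x14000e000f800fc000e0016000e00130001800040000000000000000000000) := Q_36 (nat_lit 142) (C_36 L99615 (C_36 L99586 (C_36 L99588 (C_36 L99597 (C_36 L99598 N_36))))) (by decide +kernel)
theorem L99617 : W_36 (nat_lit 3) (nat_lit 0x300008001600080000000000000000000000000000000) (nat_lit 0x0) (nat_lit 0x2000000000000800118000000000000000000000000000000) := T_36 (nat_lit 143) (nat_lit 128) (nat_lit 2) (nat_lit 5) (nat_lit 8) L14195 (by decide +kernel)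
theorem L99618 : W_36 (nat_lit 2) (nat_lit 0x30000c001e00080000000000000000000000000000000) (nat_lit 0x0) (nat_lit 0x18000800000000000000000000000000) := D_36 (nat_lit 124) (nat_lit 123) (nat_lit 107) (nat_lit 0) (nat_lit 8) (nat_lit 8) (nat_lit 7) (nat_lit 5) (nat_lit 6) (by decide +kernel)
theorem L99619 : W_36 (nat_lit 3) (nat_lit 0x300008001e00080000000000000000000000000000000) (nat_lit 0x0) (nat_lit 0x6000000018000800000000000000000000000000) := T_36 (nat_lit 158) (nat_lit 157) (nat_lit 1) (nat_lit 8) (nat_lit 8) L99618 (by decide +kernel)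
theorem L99620 : W_36 (nat_lit 4) (nat_lit 0x300008001600080000000000000000000000000000000) (nat_lit 0x0) (nat_lit 0x6000800118000800000000000000000000000000) := T_36 (nat_lit 143) (nat_lit 128) (nat_lit 2) (nat_lit 5) (nat_lit 8) L99619 (by decide +kernel)
theorem L99621 : W_36 (nat_lit 2) (nat_lit 0x3000b8000c001e00080000000000000000000000000000000) (nat_lit 0x0) (nat_lit 0x10000c00000000000000000000000000000000000000000000000) := D_36 (nat_lit 191) (nat_lit 190) (nat_lit 208) (nat_lit 2) (nat_lit 3) (nat_lit 11) (nat_lit 5) (nat_lit 5) (nat_lit 8) (by decide +kernel)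
theorem L99622 : W_36 (nat_lit 3) (nat_lit 0x3000b0000c001e00080000000000000000000000000000000) (nat_lit 0x0) (nat_lit 0x10000c00080000000000020000000000000000000000000000000) := T_36 (nat_lit 175) (nat_lit 125) (nat_lit 6) (nat_lit 5) (nat_lit 11) L99621 (by decide +kernel)
theorem L99623 : W_36 (nat_lit 4) (nat_lit 0x2000b0000c001e00080000000000000000000000000000000) (nat_lit 0x0) (nat_lit 0x30001c00080000000000020000000000000000000000000000000) := T_36 (nat_lit 192) (nat_lit 209) (nat_lit 5) (nat_lit 6) (nat_lit 8) L99622 (by decide +kernel)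
theorem L99624 : W_36 (nat_lit 5) (nat_lit 0xb0000c001e00080000000000000000000000000000000) (nat_lit 0x0) (nat_lit 0x70003c00080000000000020000000000000000000000000000000) := T_36 (nat_lit 193) (nat_lit 210) (nat_lit 4) (nat_lit 6) (nat_lit 12) L99623 (by decide +kernel)
theorem L99625 : W_36 (nat_lit 6) (nat_lit 0x30000c001e00080000000000000000000000000000000) (nat_lit 0x0) (nat_lit 0x70003c00c80000000000020000000000000000000000000000000) := T_36 (nat_lit 179) (nat_lit 178) (nat_lit 0) (nat_lit 9) (nat_lit 10) L99624 (by decide +kernel)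
theorem L99626 : W_36 (nat_lit 7) (nat_lit 0x300008001e00080000000000000000000000000000000) (nat_lit 0x0) (nat_lit 0x70003c00c80006000000020000000000000000000000000000000) := T_36 (nat_lit 158) (nat_lit 157) (nat_lit 1) (nat_lit 8) (nat_lit 8) L99625 (by decide +kernel)
theorem L99627 : W_36 (nat_lit 8) (nat_lit 0x300008001600080000000000000000000000000000000) (nat_lit 0x0) (nat_lit 0x70003c00c80006000800120000000000000000000000000000000) := T_36 (nat_lit 143) (nat_lit 128) (nat_lit 2) (nat_lit 5) (nat_lit 8) L99626 (by decide +kernel)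
theorem L99628 : W_36 (nat_lit 9) (nat_lit 0x300008001400080000000000000000000000000000000) (nat_lit 0x0) (nat_lit 0x400070003c00c80006000a00138000800000000000000000000000000) := Q_36 (nat_lit 141) (C_36 L99617 (C_36 L39114 (C_36 L99620 (C_36 L99627 N_36)))) (by decide +kernel)
theorem L99629 : W_36 (nat_lit 2) (nat_lit 0x3000080016000b0000000000000000000000000000000) (nat_lit 0x0) (nat_lit 0x800108000000000000000000000000000000) := D_36 (nat_lit 143) (nat_lit 128) (nat_lit 123) (nat_lit 2) (nat_lit 5) (nat_lit 8) (nat_lit 0) (nat_lit 8) (nat_lit 8) (by decide +kernel)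
theorem L99630 : W_36 (nat_lit 3) (nat_lit 0x3000080014000b0000000000000000000000000000000) (nat_lit 0x0) (nat_lit 0x2000000000000a00108000000000000000000000000000000) := T_36 (nat_lit 141) (nat_lit 193) (nat_lit 4) (nat_lit 6) (nat_lit 11) L99629 (by decide +kernel)
theorem L99631 : W_36 (nat_lit 4) (nat_lit 0x3000080014000a0000000000000000000000000000000) (nat_lit 0x0) (nat_lit 0x2000000000000a00118000800000000000000000000000000) := T_36 (nat_lit 124) (nat_lit 107) (nat_lit 4) (nat_lit 6) (nat_lit 10) L99630 (by decide +kernel)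
theorem L99632 : W_36 (nat_lit 5) (nat_lit 0x300008001400080000000000000000000000000000000) (nat_lit 0x0) (nat_lit 0x6000000000000a00138000800000000000000000000000000) := T_36 (nat_lit 125) (nat_lit 194) (nat_lit 7) (nat_lit 6) (nat_lit 7) L99631 (by decide +kernel)
theorem L99633 : W_36 (nat_lit 5) (nat_lit 0x300008001400080000000000000000000000000000000) (nat_lit 0x0) (nat_lit 0xe0007c00400006000a00110000000000000000000000000000000) := Q_36 (nat_lit 193) (C_36 L99580 (C_36 L99602 N_36)) (by decide +kernel)
theorem L99634 : W_36 (nat_lit 2) (nat_lit 0x3800080014000a0001000140000000000000000000000) (nat_lit 0x0) (nat_lit 0x8000a000000000000000000) := D_36 (nat_lit 91) (nat_lit 73) (nat_lit 75) (nat_lit 4) (nat_lit 6) (nat_lit 8) (nat_lit 6) (nat_lit 6) (nat_lit 8) (by decide +kernel)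
theorem L99635 : W_36 (nat_lit 3) (nat_lit 0x3800080014000a0001000040000000000000000000000) (nat_lit 0x0) (nat_lit 0x200018000a000000000000000000) := T_36 (nat_lit 92) (nat_lit 109) (nat_lit 6) (nat_lit 6) (nat_lit 9) L99634 (by decide +kernel)
theorem L99636 : W_36 (nat_lit 4) (nat_lit 0x3800080014000a0001000000000000000000000000000) (nat_lit 0x0) (nat_lit 0x28001c000a000000000000000000) := T_36 (nat_lit 90) (nat_lit 107) (nat_lit 4) (nat_lit 6) (nat_lit 9) L99635 (by decide +kernel)
theorem L99637 : W_36 (nat_lit 5) (nat_lit 0x3800080014000a0000000000000000000000000000000) (nat_lit 0x0) (nat_lit 0x40000000000038001c000a000000000000000000) := T_36 (nat_lit 108) (nat_lit 158) (nat_lit 5) (nat_lit 6) (nat_lit 6) L99636 (by decide +kernel)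
theorem L99638 : W_36 (nat_lit 6) (nat_lit 0x3000080014000a0000000000000000000000000000000) (nat_lit 0x0) (nat_lit 0x10000800040000000000038001c000a000000000000000000) := T_36 (nat_lit 175) (nat_lit 192) (nat_lit 5) (nat_lit 6) (nat_lit 7) L99637 (by decide +kernel)
theorem L99639 : W_36 (nat_lit 7) (nat_lit 0x300008001400080000000000000000000000000000000) (nat_lit 0x0) (nat_lit 0x50000800040000000200038001c000a000000000000000000) := T_36 (nat_lit 125) (nat_lit 194) (nat_lit 7) (nat_lit 6) (nat_lit 7) L99638 (by decide +kernel)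
theorem L99640 : W_36 (nat_lit 10) (nat_lit 0x300008001000080000000000000000000000000000000) (nat_lit 0x0) (nat_lit 0x4000f0007c00c80006000e001380038001c000a000000000000000000) := Q_36 (nat_lit 142) (C_36 L99588 (C_36 L99628 (C_36 L99632 (C_36 L99633 (C_36 L99639 N_36))))) (by decide +kernel)
theorem L99641 : W_36 (nat_lit 2) (nat_lit 0x3800300008001400080000000000000000000000000000000) (nat_lit 0x0) (nat_lit 0xc80000000000000000000000000000000000000000000) := D_36 (nat_lit 178) (nat_lit 179) (nat_lit 175) (nat_lit 1) (nat_lit 9) (nat_lit 10) (nat_lit 1) (nat_lit 8) (nat_lit 10) (by decide +kernel)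
theorem L99642 : W_36 (nat_lit 3) (nat_lit 0x3000300008001400080000000000000000000000000000000) (nat_lit 0x0) (nat_lit 0xc00c80000000000000000000000000000000000000000000) := T_36 (nat_lit 191) (nat_lit 190) (nat_lit 2) (nat_lit 3) (nat_lit 11) L99641 (by decide +kernel)
theorem L99643 : W_36 (nat_lit 4) (nat_lit 0x2000300008001400080000000000000000000000000000000) (nat_lit 0x0) (nat_lit 0x20001c00c80000000000000000000000000000000000000000000) := T_36 (nat_lit 192) (nat_lit 209) (nat_lit 5) (nat_lit 6) (nat_lit 8) L99642 (by decide +kernel)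
theorem L99644 : W_36 (nat_lit 9) (nat_lit 0x300008001400080000000000000000000000000000000) (nat_lit 0x0) (nat_lit 0x10000800060007c00c80016000a00110000000000000000000000000000000) := Q_36 (nat_lit 193) (C_36 L99572 (C_36 L99602 (C_36 L99643 N_36))) (by decide +kernel)
theorem L99645 : W_36 (nat_lit 10) (nat_lit 0x300008001000080000000000000000000000000000000) (nat_lit 0x0) (nat_lit 0x10000c00070007c00c80016000e001380038001c000a000000000000000000) := Q_36 (nat_lit 142) (C_36 L99639 (C_36 L99632 (C_36 L99628 (C_36 L99644 N_36)))) (by decide +kernel)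
theorem L99646 : W_36 (nat_lit 4) (nat_lit 0x10000000040003c000a0010000a0000000000000000000000000000000) (nat_lit 0x0) (nat_lit 0x400020001c00400000000100000000000000000000000000000000000) := T_36 (nat_lit 191) (nat_lit 190) (nat_lit 1) (nat_lit 7) (nat_lit 10) L14912 (by decide +kernel)
theorem L99647 : W_36 (nat_lit 5) (nat_lit 0x40003c000a0010000a0000000000000000000000000000000) (nat_lit 0x0) (nat_lit 0x14000a0001c00400000000100000000000000000000000000000000000) := T_36 (nat_lit 228) (nat_lit 211) (nat_lit 4) (nat_lit 7) (nat_lit 13) L99646 (by decide +kernel)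
theorem L99648 : W_36 (nat_lit 6) (nat_lit 0x40003c000a001000080000000000000000000000000000000) (nat_lit 0x0) (nat_lit 0x14000a0001c00400000000500020000000000000000000000000000000) := T_36 (nat_lit 125) (nat_lit 142) (nat_lit 7) (nat_lit 6) (nat_lit 7) L99647 (by decide +kernel)
theorem L99649 : W_36 (nat_lit 7) (nat_lit 0x40003c0008001000080000000000000000000000000000000) (nat_lit 0x0) (nat_lit 0x14000a0001c00400003000500020000000000000000000000000000000) := T_36 (nat_lit 157) (nat_lit 156) (nat_lit 0) (nat_lit 7) (nat_lit 10) L99648 (by decide +kernel)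
theorem L99650 : W_36 (nat_lit 8) (nat_lit 0x3c0008001000080000000000000000000000000000000) (nat_lit 0x0) (nat_lit 0x14000a000dc00400003000500020000000000000000000000000000000) := T_36 (nat_lit 194) (nat_lit 195) (nat_lit 3) (nat_lit 4) (nat_lit 10) L99649 (by decide +kernel)
theorem L99651 : W_36 (nat_lit 9) (nat_lit 0x380008001000080000000000000000000000000000000) (nat_lit 0x0) (nat_lit 0x14000a000de00460013000d00020000000000000000000000000000000) := Q_36 (nat_lit 174) (C_36 L99467 (C_36 L99650 (C_36 L99465 N_36))) (by decide +kernel)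
theorem L99652 : W_36 (nat_lit 3) (nat_lit 0x78000c001000080000000000000000000000000000000) (nat_lit 0x0) (nat_lit 0x20001800000000000400020000000000000000000000000000000) := T_36 (nat_lit 192) (nat_lit 191) (nat_lit 1) (nat_lit 8) (nat_lit 10) L74447 (by decide +kernel)
theorem L99653 : W_36 (nat_lit 4) (nat_lit 0x38000c001000080000000000000000000000000000000) (nat_lit 0x0) (nat_lit 0x20001800c00000000400020000000000000000000000000000000) := T_36 (nat_lit 178) (nat_lit 179) (nat_lit 0) (nat_lit 9) (nat_lit 10) L99652 (by decide +kernel)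
theorem L99654 : W_36 (nat_lit 7) (nat_lit 0x380008001000080000000000000000000000000000000) (nat_lit 0x0) (nat_lit 0x20001800c00017000f80028000400000000000000000000000000) := Q_36 (nat_lit 158) (C_36 L99653 (C_36 L99506 (C_36 L99495 N_36))) (by decide +kernel)
theorem L99655 : W_36 (nat_lit 9) (nat_lit 0x380008001000080000000000000000000000000000000) (nat_lit 0x0) (nat_lit 0x14000a000de00470017000500020000000000000000000000000000000) := Q_36 (nat_lit 174) (C_36 L99467 (C_36 L99650 (C_36 L99515 N_36))) (by decide +kernel)
theorem L99656 : W_36 (nat_lit 2) (nat_lit 0x11000000044003e000e001600088000000000000000000000000000000) (nat_lit 0x0) (nat_lit 0x10000c00000000000000000000000000) := D_36 (nat_lit 124) (nat_lit 106) (nat_lit 107) (nat_lit 4) (nat_lit 5) (nat_lit 10) (nat_lit 7) (nat_lit 5) (nat_lit 6) (by decide +kernel)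
theorem L99657 : W_36 (nat_lit 3) (nat_lit 0x11000000044003e000e001600080000000000000000000000000000000) (nat_lit 0x0) (nat_lit 0x100018000c00000000000000000000000000) := T_36 (nat_lit 123) (nat_lit 140) (nat_lit 5) (nat_lit 4) (nat_lit 7) L99656 (by decide +kernel)
theorem L99658 : W_36 (nat_lit 4) (nat_lit 0x11000000044003e000e001400080000000000000000000000000000000) (nat_lit 0x0) (nat_lit 0xb00018000c00000000000000000000000000) := T_36 (nat_lit 141) (nat_lit 143) (nat_lit 1) (nat_lit 8) (nat_lit 8) L99657 (by decide +kernel)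
theorem L99659 : W_36 (nat_lit 5) (nat_lit 0x10000000044003e000e001400080000000000000000000000000000000) (nat_lit 0x0) (nat_lit 0x100008000000000000000b00018000c00000000000000000000000000) := T_36 (nat_lit 224) (nat_lit 207) (nat_lit 6) (nat_lit 3) (nat_lit 13) L99658 (by decide +kernel)
theorem L99660 : W_36 (nat_lit 6) (nat_lit 0x10000000044003e000a001400080000000000000000000000000000000) (nat_lit 0x0) (nat_lit 0x100008000000010004000b00018000c00000000000000000000000000) := T_36 (nat_lit 158) (nat_lit 172) (nat_lit 2) (nat_lit 2) (nat_lit 10) L99659 (by decide +kernel)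
theorem L99661 : W_36 (nat_lit 7) (nat_lit 0x10000000044003c000a001400080000000000000000000000000000000) (nat_lit 0x0) (nat_lit 0x100008000200030004000b00018000c00000000000000000000000000) := T_36 (nat_lit 173) (nat_lit 189) (nat_lit 1) (nat_lit 6) (nat_lit 10) L99660 (by decide +kernel)
theorem L99662 : W_36 (nat_lit 8) (nat_lit 0x10000000040003c000a001400080000000000000000000000000000000) (nat_lit 0x0) (nat_lit 0x100008000e00030004000b00018000c00000000000000000000000000) := T_36 (nat_lit 190) (nat_lit 191) (nat_lit 1) (nat_lit 7) (nat_lit 10) L99661 (by decide +kernel)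
theorem L99663 : W_36 (nat_lit 9) (nat_lit 0x40003c000a001400080000000000000000000000000000000) (nat_lit 0x0) (nat_lit 0x1100088000e00030004000b00018000c00000000000000000000000000) := T_36 (nat_lit 228) (nat_lit 211) (nat_lit 4) (nat_lit 7) (nat_lit 13) L99662 (by decide +kernel)
theorem L99664 : W_36 (nat_lit 10) (nat_lit 0x40003c000a001000080000000000000000000000000000000) (nat_lit 0x0) (nat_lit 0x1100088000e00030004000f00038000c00000000000000000000000000) := T_36 (nat_lit 142) (nat_lit 125) (nat_lit 7) (nat_lit 6) (nat_lit 7) L99663 (by decide +kernel)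
theorem L99665 : W_36 (nat_lit 11) (nat_lit 0x40003c0008001000080000000000000000000000000000000) (nat_lit 0x0) (nat_lit 0x1100088000e00030007000f00038000c00000000000000000000000000) := T_36 (nat_lit 157) (nat_lit 156) (nat_lit 0) (nat_lit 7) (nat_lit 10) L99664 (by decide +kernel)
theorem L99666 : W_36 (nat_lit 12) (nat_lit 0x3c0008001000080000000000000000000000000000000) (nat_lit 0x0) (nat_lit 0x110008800ce00030007000f00038000c00000000000000000000000000) := T_36 (nat_lit 194) (nat_lit 195) (nat_lit 3) (nat_lit 4) (nat_lit 10) L99665 (by decide +kernel)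
theorem L99667 : W_36 (nat_lit 2) (nat_lit 0x10000000048003c000a001c00080000000000000000000000000000000) (nat_lit 0x0) (nat_lit 0x4000200100000000000000000000000000000000) := D_36 (nat_lit 141) (nat_lit 128) (nat_lit 158) (nat_lit 2) (nat_lit 5) (nat_lit 8) (nat_lit 1) (nat_lit 8) (nat_lit 8) (by decide +kernel)
theorem L99668 : W_36 (nat_lit 3) (nat_lit 0x10000000048003c000a001400080000000000000000000000000000000) (nat_lit 0x0) (nat_lit 0x14000a00100000000000000000000000000000000) := T_36 (nat_lit 143) (nat_lit 160) (nat_lit 6) (nat_lit 7) (nat_lit 11) L99667 (by decide +kernel)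
theorem L99669 : W_36 (nat_lit 4) (nat_lit 0x10000000048003c000a001000080000000000000000000000000000000) (nat_lit 0x0) (nat_lit 0x14000e00120000000000000000000000000000000) := T_36 (nat_lit 142) (nat_lit 125) (nat_lit 7) (nat_lit 6) (nat_lit 7) L99668 (by decide +kernel)
theorem L99670 : W_36 (nat_lit 5) (nat_lit 0x48003c000a001000080000000000000000000000000000000) (nat_lit 0x0) (nat_lit 0x1000080000000000014000e00120000000000000000000000000000000) := T_36 (nat_lit 228) (nat_lit 211) (nat_lit 4) (nat_lit 7) (nat_lit 13) L99669 (by decide +kernel)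
theorem L99671 : W_36 (nat_lit 6) (nat_lit 0x8003c000a001000080000000000000000000000000000000) (nat_lit 0x0) (nat_lit 0x100008000c000000014000e00120000000000000000000000000000000) := T_36 (nat_lit 194) (nat_lit 195) (nat_lit 3) (nat_lit 4) (nat_lit 10) L99670 (by decide +kernel)
theorem L99672 : W_36 (nat_lit 7) (nat_lit 0x8003c0008001000080000000000000000000000000000000) (nat_lit 0x0) (nat_lit 0x100008000c000000017000e00120000000000000000000000000000000) := T_36 (nat_lit 157) (nat_lit 156) (nat_lit 0) (nat_lit 7) (nat_lit 10) L99671 (by decide +kernel)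
theorem L99673 : W_36 (nat_lit 8) (nat_lit 0x3c0008001000080000000000000000000000000000000) (nat_lit 0x0) (nat_lit 0x100008000cc00000017000e00120000000000000000000000000000000) := T_36 (nat_lit 191) (nat_lit 190) (nat_lit 1) (nat_lit 7) (nat_lit 10) L99672 (by decide +kernel)
theorem L99674 : W_36 (nat_lit 13) (nat_lit 0x380008001000080000000000000000000000000000000) (nat_lit 0x0) (nat_lit 0x110008800ce00070017000f00138000c00000000000000000000000000) := Q_36 (nat_lit 174) (C_36 L99467 (C_36 L99666 (C_36 L99465 (C_36 L99673 N_36)))) (by decide +kernel)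
theorem L99675 : W_36 (nat_lit 2) (nat_lit 0xe00058003c000c0010000a0000000000000000000000000000000) (nat_lit 0x0) (nat_lit 0x200010000000000000000200000000000000000000000000000000000) := D_36 (nat_lit 208) (nat_lit 225) (nat_lit 141) (nat_lit 6) (nat_lit 4) (nat_lit 13) (nat_lit 5) (nat_lit 5) (nat_lit 8) (by decide +kernel)
theorem L99676 : W_36 (nat_lit 3) (nat_lit 0xe00058003c00080010000a0000000000000000000000000000000) (nat_lit 0x0) (nat_lit 0xa00010000000000004000200000000000000000000000000000000000) := T_36 (nat_lit 158) (nat_lit 227) (nat_lit 7) (nat_lit 5) (nat_lit 9) L99675 (by decide +kernel)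
theorem L99677 : W_36 (nat_lit 4) (nat_lit 0xa00058003c00080010000a0000000000000000000000000000000) (nat_lit 0x0) (nat_lit 0xa00150000000000004000200000000000000000000000000000000000) := T_36 (nat_lit 210) (nat_lit 212) (nat_lit 0) (nat_lit 8) (nat_lit 12) L99676 (by decide +kernel)
theorem L99678 : W_36 (nat_lit 5) (nat_lit 0x800058003c00080010000a0000000000000000000000000000000) (nat_lit 0x0) (nat_lit 0xe00170000000000004000200000000000000000000000000000000000) := T_36 (nat_lit 209) (nat_lit 226) (nat_lit 6) (nat_lit 5) (nat_lit 13) L99677 (by decide +kernel)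
theorem L99679 : W_36 (nat_lit 6) (nat_lit 0x58003c00080010000a0000000000000000000000000000000) (nat_lit 0x0) (nat_lit 0x1e001f0000000000004000200000000000000000000000000000000000) := T_36 (nat_lit 211) (nat_lit 228) (nat_lit 4) (nat_lit 7) (nat_lit 13) L99678 (by decide +kernel)
theorem L99680 : W_36 (nat_lit 7) (nat_lit 0x48003c00080010000a0000000000000000000000000000000) (nat_lit 0x0) (nat_lit 0x1e001f0001000400004000200000000000000000000000000000000000) := T_36 (nat_lit 192) (nat_lit 178) (nat_lit 1) (nat_lit 8) (nat_lit 10) L99679 (by decide +kernel)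
theorem L99681 : W_36 (nat_lit 8) (nat_lit 0x48003c0008001000080000000000000000000000000000000) (nat_lit 0x0) (nat_lit 0x1e001f0001000400004000600020000000000000000000000000000000) := T_36 (nat_lit 125) (nat_lit 142) (nat_lit 7) (nat_lit 6) (nat_lit 7) L99680 (by decide +kernel)
theorem L99682 : W_36 (nat_lit 9) (nat_lit 0x40003c0008001000080000000000000000000000000000000) (nat_lit 0x0) (nat_lit 0x1e001f0001c00400004000600020000000000000000000000000000000) := T_36 (nat_lit 191) (nat_lit 190) (nat_lit 1) (nat_lit 7) (nat_lit 10) L99681 (by decide +kernel)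
theorem L99683 : W_36 (nat_lit 10) (nat_lit 0x3c0008001000080000000000000000000000000000000) (nat_lit 0x0) (nat_lit 0x1e001f000dc00400004000600020000000000000000000000000000000) := T_36 (nat_lit 194) (nat_lit 195) (nat_lit 3) (nat_lit 4) (nat_lit 10) L99682 (by decide +kernel)
theorem L99684 : W_36 (nat_lit 11) (nat_lit 0x3c0008001000080000000000000000000000000000000) (nat_lit 0x0) (nat_lit 0x10000a000d000430007000f00038000c00000000000000000000000000) := T_36 (nat_lit 194) (nat_lit 195) (nat_lit 3) (nat_lit 4) (nat_lit 10) L14925 (by decide +kernel)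
theorem L99685 : W_36 (nat_lit 13) (nat_lit 0x380008001000080000000000000000000000000000000) (nat_lit 0x0) (nat_lit 0x1f001f800de00c70007000f00038000c00000000000000000000000000) := Q_36 (nat_lit 174) (C_36 L99666 (C_36 L99683 (C_36 L99511 (C_36 L99484 (C_36 L99684 (C_36 L99650 N_36)))))) (by decide +kernel)
theorem L99686 : W_36 (nat_lit 3) (nat_lit 0x4000380008001000080000000000000000000000000000000) (nat_lit 0x0) (nat_lit 0x8000060010000800000000000000000000000000000000000) := T_36 (nat_lit 174) (nat_lit 195) (nat_lit 3) (nat_lit 4) (nat_lit 10) L99464 (by decide +kernel)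
theorem L99687 : W_36 (nat_lit 2) (nat_lit 0x40003e00080010000a0000000000000000000000000000000) (nat_lit 0x0) (nat_lit 0xe00000000000000000000000000000000000000000000000) := D_36 (nat_lit 190) (nat_lit 191) (nat_lit 189) (nat_lit 1) (nat_lit 7) (nat_lit 10) (nat_lit 1) (nat_lit 6) (nat_lit 10) (by decide +kernel)
theorem L99688 : W_36 (nat_lit 3) (nat_lit 0x40003c00080010000a0000000000000000000000000000000) (nat_lit 0x0) (nat_lit 0xe00020010000000000000000000000000000000000000000) := T_36 (nat_lit 173) (nat_lit 160) (nat_lit 2) (nat_lit 3) (nat_lit 10) L99687 (by decide +kernel)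
theorem L99689 : W_36 (nat_lit 4) (nat_lit 0x40003800080010000a0000000000000000000000000000000) (nat_lit 0x0) (nat_lit 0x8e00060010000000000000000000000000000000000000000) := T_36 (nat_lit 174) (nat_lit 195) (nat_lit 3) (nat_lit 4) (nat_lit 10) L99688 (by decide +kernel)
theorem L99690 : W_36 (nat_lit 5) (nat_lit 0x4000380008001000080000000000000000000000000000000) (nat_lit 0x0) (nat_lit 0x8e00060010000400020000000000000000000000000000000) := T_36 (nat_lit 125) (nat_lit 142) (nat_lit 7) (nat_lit 6) (nat_lit 7) L99689 (by decide +kernel)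
theorem L99691 : W_36 (nat_lit 8) (nat_lit 0x380008001000080000000000000000000000000000000) (nat_lit 0x0) (nat_lit 0x100008000de00c60016000c00020000000000000000000000000000000) := Q_36 (nat_lit 194) (C_36 L99686 (C_36 L99690 (C_36 L14968 (C_36 L14089 N_36)))) (by decide +kernel)
theorem L99692 : W_36 (nat_lit 3) (nat_lit 0x40003c0008001000080000000000000000000000000000000) (nat_lit 0x0) (nat_lit 0x20013800000000000000000000000000000000000000) := T_36 (nat_lit 173) (nat_lit 160) (nat_lit 2) (nat_lit 3) (nat_lit 10) L15809 (by decide +kernel)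
theorem L99693 : W_36 (nat_lit 4) (nat_lit 0x4000380008001000080000000000000000000000000000000) (nat_lit 0x0) (nat_lit 0x8000060013800000000000000000000000000000000000000) := T_36 (nat_lit 174) (nat_lit 195) (nat_lit 3) (nat_lit 4) (nat_lit 10) L99692 (by decide +kernel)
theorem L99694 : W_36 (nat_lit 9) (nat_lit 0x380008001000080000000000000000000000000000000) (nat_lit 0x0) (nat_lit 0x100008000c700070017800c00020000000000000000000000000000000) := Q_36 (nat_lit 194) (C_36 L14089 (C_36 L99693 (C_36 L14962 N_36))) (by decide +kernel)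
theorem L99695 : W_36 (nat_lit 10) (nat_lit 0x4000380008001000080000000000000000000000000000000) (nat_lit 0x0) (nat_lit 0x1e001f0009c00440004000600020000000000000000000000000000000) := T_36 (nat_lit 174) (nat_lit 195) (nat_lit 3) (nat_lit 4) (nat_lit 10) L99682 (by decide +kernel)
theorem L99696 : W_36 (nat_lit 11) (nat_lit 0x380008001000080000000000000000000000000000000) (nat_lit 0x0) (nat_lit 0x1e001f000de00460014000e00020000000000000000000000000000000) := Q_36 (nat_lit 194) (C_36 L14089 (C_36 L99690 (C_36 L99695 (C_36 L99686 N_36)))) (by decide +kernel)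
theorem L99697 : W_36 (nat_lit 14) (nat_lit 0x300008001000080000000000000000000000000000000) (nat_lit 0x0) (nat_lit 0x1f001f800df00cf0017800f80138000c00000000000000000000000000) := Q_36 (nat_lit 175) (C_36 L99651 (C_36 L99654 (C_36 L99655 (C_36 L99674 (C_36 L99685 (C_36 L99490 (C_36 L99691 (C_36 L99694 (C_36 L99696 N_36))))))))) (by decide +kernel)
theorem L99698 : W_36 (nat_lit 2) (nat_lit 0x40002000300008001000080000000000000000000000000000000) (nat_lit 0x0) (nat_lit 0x800000000000000010000800000000000000000000000000000000000) := D_36 (nat_lit 160) (nat_lit 143) (nat_lit 227) (nat_lit 6) (nat_lit 6) (nat_lit 12) (nat_lit 6) (nat_lit 6) (nat_lit 13) (by decide +kernel)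
theorem L99699 : W_36 (nat_lit 2) (nat_lit 0x4000200030000c001000080000000000000000000000000000000) (nat_lit 0x0) (nat_lit 0x800000000000080010000000000000000000000000000000000000000) := D_36 (nat_lit 227) (nat_lit 160) (nat_lit 175) (nat_lit 6) (nat_lit 6) (nat_lit 13) (nat_lit 4) (nat_lit 6) (nat_lit 13) (by decide +kernel)
theorem L99700 : W_36 (nat_lit 3) (nat_lit 0x40002000300008001000080000000000000000000000000000000) (nat_lit 0x0) (nat_lit 0x800000000000080014000200000000000000000000000000000000000) := T_36 (nat_lit 158) (nat_lit 141) (nat_lit 4) (nat_lit 6) (nat_lit 12) L99699 (by decide +kernel)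
theorem L99701 : W_36 (nat_lit 2) (nat_lit 0x80004000200030000d001000080000000000000000000000000000000) (nat_lit 0x0) (nat_lit 0x20001000080000000000000000000000000000000000000000000000000000) := D_36 (nat_lit 228) (nat_lit 211) (nat_lit 245) (nat_lit 7) (nat_lit 6) (nat_lit 9) (nat_lit 7) (nat_lit 6) (nat_lit 10) (by decide +kernel)
theorem L99702 : W_36 (nat_lit 3) (nat_lit 0x4000200030000d001000080000000000000000000000000000000) (nat_lit 0x0) (nat_lit 0x20001800080000000080000000000000000000000000000000000000000000) := T_36 (nat_lit 227) (nat_lit 175) (nat_lit 4) (nat_lit 6) (nat_lit 13) L99701 (by decide +kernel)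
theorem L99703 : W_36 (nat_lit 4) (nat_lit 0x4000200030000c001000080000000000000000000000000000000) (nat_lit 0x0) (nat_lit 0x20001800080000000080003000000000000000000000000000000000000000) := T_36 (nat_lit 156) (nat_lit 157) (nat_lit 3) (nat_lit 3) (nat_lit 9) L99702 (by decide +kernel)
theorem L99704 : W_36 (nat_lit 5) (nat_lit 0x40002000300008001000080000000000000000000000000000000) (nat_lit 0x0) (nat_lit 0x20001800080000000080007000200000000000000000000000000000000000) := T_36 (nat_lit 158) (nat_lit 141) (nat_lit 4) (nat_lit 6) (nat_lit 12) L99703 (by decide +kernel)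
theorem L99705 : W_36 (nat_lit 2) (nat_lit 0xc000200030001c001000080000000000000000000000000000000) (nat_lit 0x0) (nat_lit 0x400003000000000000000000000000000000000000000) := D_36 (nat_lit 157) (nat_lit 178) (nat_lit 156) (nat_lit 3) (nat_lit 4) (nat_lit 9) (nat_lit 3) (nat_lit 3) (nat_lit 9) (by decide +kernel)
theorem L99706 : W_36 (nat_lit 3) (nat_lit 0xc0002000300018001000080000000000000000000000000000000) (nat_lit 0x0) (nat_lit 0x400007000200000000000000000000000000000000000) := T_36 (nat_lit 158) (nat_lit 141) (nat_lit 4) (nat_lit 6) (nat_lit 12) L99705 (by decide +kernel)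
theorem L99707 : W_36 (nat_lit 4) (nat_lit 0xc0002000300008001000080000000000000000000000000000000) (nat_lit 0x0) (nat_lit 0x400017000a00000000000000000000000000000000000) := T_36 (nat_lit 160) (nat_lit 143) (nat_lit 6) (nat_lit 6) (nat_lit 12) L99706 (by decide +kernel)
theorem L99708 : W_36 (nat_lit 5) (nat_lit 0x40002000300008001000080000000000000000000000000000000) (nat_lit 0x0) (nat_lit 0x1000080000000400017000a00000000000000000000000000000000000) := T_36 (nat_lit 211) (nat_lit 228) (nat_lit 7) (nat_lit 6) (nat_lit 9) L99707 (by decide +kernel)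
theorem L99709 : W_36 (nat_lit 6) (nat_lit 0x2000300008001000080000000000000000000000000000000) (nat_lit 0x0) (nat_lit 0x200018000c0000000480017000a00000000000000000000000000000000000) := Q_36 (nat_lit 210) (C_36 L99698 (C_36 L99700 (C_36 L99704 (C_36 L99708 N_36)))) (by decide +kernel)
theorem L99710 : W_36 (nat_lit 2) (nat_lit 0x800060002000300008001600080000000000000000000000000000000) (nat_lit 0x0) (nat_lit 0x20001000080000000000000000000000000000000000000000000000000000) := D_36 (nat_lit 228) (nat_lit 211) (nat_lit 245) (nat_lit 7) (nat_lit 6) (nat_lit 9) (nat_lit 7) (nat_lit 6) (nat_lit 10) (by decide +kernel)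
theorem L99711 : W_36 (nat_lit 3) (nat_lit 0x60002000300008001600080000000000000000000000000000000) (nat_lit 0x0) (nat_lit 0x20001800080000000000010000000000000000000000000000000000000000) := T_36 (nat_lit 227) (nat_lit 160) (nat_lit 6) (nat_lit 6) (nat_lit 13) L99710 (by decide +kernel)
theorem L99712 : W_36 (nat_lit 4) (nat_lit 0x60002000300008001400080000000000000000000000000000000) (nat_lit 0x0) (nat_lit 0x20001800080000000000010000200010000000000000000000000000000000) := T_36 (nat_lit 141) (nat_lit 124) (nat_lit 4) (nat_lit 6) (nat_lit 11) L99711 (by decide +kernel)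
theorem L99713 : W_36 (nat_lit 5) (nat_lit 0x60002000300008001000080000000000000000000000000000000) (nat_lit 0x0) (nat_lit 0x20001800080001000000010000600010000000000000000000000000000000) := T_36 (nat_lit 142) (nat_lit 192) (nat_lit 5) (nat_lit 6) (nat_lit 8) L99712 (by decide +kernel)
theorem L99714 : W_36 (nat_lit 6) (nat_lit 0x40002000300008001000080000000000000000000000000000000) (nat_lit 0x0) (nat_lit 0x20001c000a0001000000010000600010000000000000000000000000000000) := T_36 (nat_lit 209) (nat_lit 226) (nat_lit 5) (nat_lit 6) (nat_lit 9) L99713 (by decide +kernel)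
theorem L99715 : W_36 (nat_lit 2) (nat_lit 0xe0003000300008001000080000000000000000000000000000000) (nat_lit 0x0) (nat_lit 0x100000c00000000000000000000000000000000000000000000000) := D_36 (nat_lit 191) (nat_lit 190) (nat_lit 212) (nat_lit 3) (nat_lit 3) (nat_lit 11) (nat_lit 0) (nat_lit 8) (nat_lit 12) (by decide +kernel)
theorem L99716 : W_36 (nat_lit 3) (nat_lit 0xe0002000300008001000080000000000000000000000000000000) (nat_lit 0x0) (nat_lit 0x100001c00000000000400000000000000000000000000000000000) := T_36 (nat_lit 192) (nat_lit 142) (nat_lit 5) (nat_lit 6) (nat_lit 8) L99715 (by decide +kernel)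
theorem L99717 : W_36 (nat_lit 4) (nat_lit 0xc0002000300008001000080000000000000000000000000000000) (nat_lit 0x0) (nat_lit 0x400120001c00000000000400000000000000000000000000000000000) := T_36 (nat_lit 209) (nat_lit 226) (nat_lit 5) (nat_lit 6) (nat_lit 9) L99716 (by decide +kernel)
theorem L99718 : W_36 (nat_lit 5) (nat_lit 0x40002000300008001000080000000000000000000000000000000) (nat_lit 0x0) (nat_lit 0x14001a0001c00000000000400000000000000000000000000000000000) := T_36 (nat_lit 211) (nat_lit 228) (nat_lit 7) (nat_lit 6) (nat_lit 9) L99717 (by decide +kernel)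
theorem L99719 : W_36 (nat_lit 7) (nat_lit 0x2000300008001000080000000000000000000000000000000) (nat_lit 0x0) (nat_lit 0x20001c001e0001c00000010000e00010000000000000000000000000000000) := Q_36 (nat_lit 210) (C_36 L99698 (C_36 L99714 (C_36 L99718 N_36))) (by decide +kernel)
theorem L99720 : W_36 (nat_lit 6) (nat_lit 0x2000300008001000080000000000000000000000000000000) (nat_lit 0x0) (nat_lit 0x1c001e0001c00080014000600000000000000000000000000000000000) := Q_36 (nat_lit 210) (C_36 L99718 (C_36 L99700 N_36)) (by decide +kernel)
theorem L99721 : W_36 (nat_lit 2) (nat_lit 0x30003000080014000a0000000000000000000000000000000) (nat_lit 0x0) (nat_lit 0x200010000800000000000000000000000000) := D_36 (nat_lit 124) (nat_lit 107) (nat_lit 141) (nat_lit 4) (nat_lit 6) (nat_lit 10) (nat_lit 4) (nat_lit 6) (nat_lit 11) (by decide +kernel)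
theorem L99722 : W_36 (nat_lit 3) (nat_lit 0x3000300008001400080000000000000000000000000000000) (nat_lit 0x0) (nat_lit 0x80000000200030000800000000000000000000000000) := T_36 (nat_lit 125) (nat_lit 175) (nat_lit 5) (nat_lit 6) (nat_lit 7) L99721 (by decide +kernel)
theorem L99723 : W_36 (nat_lit 4) (nat_lit 0x3000300008001000080000000000000000000000000000000) (nat_lit 0x0) (nat_lit 0x20000000080000000600030000800000000000000000000000000) := T_36 (nat_lit 142) (nat_lit 209) (nat_lit 5) (nat_lit 6) (nat_lit 8) L99722 (by decide +kernel)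
theorem L99724 : W_36 (nat_lit 2) (nat_lit 0x3400b00008001e00080000000000000000000000000000000) (nat_lit 0x0) (nat_lit 0x40000000000006000000000000000000000000000000000000000) := D_36 (nat_lit 158) (nat_lit 157) (nat_lit 210) (nat_lit 1) (nat_lit 8) (nat_lit 8) (nat_lit 4) (nat_lit 6) (nat_lit 12) (by decide +kernel)
theorem L99725 : W_36 (nat_lit 3) (nat_lit 0x3400b00008001600080000000000000000000000000000000) (nat_lit 0x0) (nat_lit 0x40000000000006000800100000000000000000000000000000000) := T_36 (nat_lit 143) (nat_lit 128) (nat_lit 2) (nat_lit 5) (nat_lit 8) L99724 (by decide +kernel)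
theorem L99726 : W_36 (nat_lit 4) (nat_lit 0x3400b00008001400080000000000000000000000000000000) (nat_lit 0x0) (nat_lit 0x40000000000006000a00110000000000000000000000000000000) := T_36 (nat_lit 141) (nat_lit 124) (nat_lit 4) (nat_lit 6) (nat_lit 11) L99725 (by decide +kernel)
theorem L99727 : W_36 (nat_lit 5) (nat_lit 0x3400b00008001000080000000000000000000000000000000) (nat_lit 0x0) (nat_lit 0x60000000000006000e00110000000000000000000000000000000) := T_36 (nat_lit 142) (nat_lit 209) (nat_lit 5) (nat_lit 6) (nat_lit 8) L99726 (by decide +kernel)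
theorem L99728 : W_36 (nat_lit 6) (nat_lit 0x3400300008001000080000000000000000000000000000000) (nat_lit 0x0) (nat_lit 0x60000000c00006000e00110000000000000000000000000000000) := T_36 (nat_lit 179) (nat_lit 178) (nat_lit 1) (nat_lit 9) (nat_lit 10) L99727 (by decide +kernel)
theorem L99729 : W_36 (nat_lit 7) (nat_lit 0x3000300008001000080000000000000000000000000000000) (nat_lit 0x0) (nat_lit 0x60000c00c00006000e00110000000000000000000000000000000) := T_36 (nat_lit 190) (nat_lit 191) (nat_lit 2) (nat_lit 3) (nat_lit 11) L99728 (by decide +kernel)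
theorem L99730 : W_36 (nat_lit 2) (nat_lit 0x3800300008001000080000000000000000000000000000000) (nat_lit 0x0) (nat_lit 0xc80000000000000000000000000000000000000000000) := D_36 (nat_lit 178) (nat_lit 179) (nat_lit 175) (nat_lit 1) (nat_lit 9) (nat_lit 10) (nat_lit 1) (nat_lit 8) (nat_lit 10) (by decide +kernel)
theorem L99731 : W_36 (nat_lit 3) (nat_lit 0x3000300008001000080000000000000000000000000000000) (nat_lit 0x0) (nat_lit 0xc00c80000000000000000000000000000000000000000000) := T_36 (nat_lit 191) (nat_lit 190) (nat_lit 2) (nat_lit 3) (nat_lit 11) L99730 (by decide +kernel)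
theorem L99732 : W_36 (nat_lit 8) (nat_lit 0x2000300008001000080000000000000000000000000000000) (nat_lit 0x0) (nat_lit 0x60001c00c80006000e00130000800000000000000000000000000) := Q_36 (nat_lit 192) (C_36 L99723 (C_36 L99729 (C_36 L99731 N_36))) (by decide +kernel)
theorem L99733 : W_36 (nat_lit 6) (nat_lit 0x2000300008001000080000000000000000000000000000000) (nat_lit 0x0) (nat_lit 0x1c001e0001c00000010000c00000000000000000000000000000000000) := Q_36 (nat_lit 210) (C_36 L99718 (C_36 L99698 N_36)) (by decide +kernel)
theorem L99734 : W_36 (nat_lit 2) (nat_lit 0x300030000a001f00084000000000000000000000000000000) (nat_lit 0x0) (nat_lit 0x10000080002000000000000000000000000000000) := D_36 (nat_lit 139) (nat_lit 160) (nat_lit 121) (nat_lit 3) (nat_lit 3) (nat_lit 8) (nat_lit 0) (nat_lit 6) (nat_lit 8) (by decide +kernel)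
theorem L99735 : W_36 (nat_lit 3) (nat_lit 0x300030000a001f00080000000000000000000000000000000) (nat_lit 0x0) (nat_lit 0x1000008000e000000000000000000000000000000) := T_36 (nat_lit 122) (nat_lit 123) (nat_lit 0) (nat_lit 7) (nat_lit 8) L99734 (by decide +kernel)
theorem L99736 : W_36 (nat_lit 4) (nat_lit 0x300030000a001e00080000000000000000000000000000000) (nat_lit 0x0) (nat_lit 0x1100018000e000000000000000000000000000000) := T_36 (nat_lit 140) (nat_lit 156) (nat_lit 1) (nat_lit 7) (nat_lit 8) L99735 (by decide +kernel)
theorem L99737 : W_36 (nat_lit 5) (nat_lit 0x3000300008001e00080000000000000000000000000000000) (nat_lit 0x0) (nat_lit 0x1700018000e000000000000000000000000000000) := T_36 (nat_lit 157) (nat_lit 158) (nat_lit 1) (nat_lit 8) (nat_lit 8) L99736 (by decide +kernel)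
theorem L99738 : W_36 (nat_lit 6) (nat_lit 0x3000300008001600080000000000000000000000000000000) (nat_lit 0x0) (nat_lit 0x1700098010e000000000000000000000000000000) := T_36 (nat_lit 143) (nat_lit 128) (nat_lit 2) (nat_lit 5) (nat_lit 8) L99737 (by decide +kernel)
theorem L99739 : W_36 (nat_lit 7) (nat_lit 0x3000300008001400080000000000000000000000000000000) (nat_lit 0x0) (nat_lit 0x17000b8011e000000000000000000000000000000) := T_36 (nat_lit 141) (nat_lit 124) (nat_lit 4) (nat_lit 6) (nat_lit 11) L99738 (by decide +kernel)
theorem L99740 : W_36 (nat_lit 8) (nat_lit 0x3000300008001000080000000000000000000000000000000) (nat_lit 0x0) (nat_lit 0x20000000000017000f8011e000000000000000000000000000000) := T_36 (nat_lit 142) (nat_lit 209) (nat_lit 5) (nat_lit 6) (nat_lit 8) L99739 (by decide +kernel)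
theorem L99741 : W_36 (nat_lit 9) (nat_lit 0x2000300008001000080000000000000000000000000000000) (nat_lit 0x0) (nat_lit 0x20001c00c80017000f8013e000800000000000000000000000000) := Q_36 (nat_lit 192) (C_36 L99723 (C_36 L99731 (C_36 L99740 N_36))) (by decide +kernel)
theorem L99742 : W_36 (nat_lit 10) (nat_lit 0x300008001000080000000000000000000000000000000) (nat_lit 0x0) (nat_lit 0x20001c001e0003c00c80017000f8013e000800000000000000000000000000) := Q_36 (nat_lit 193) (C_36 L99709 (C_36 L99719 (C_36 L99720 (C_36 L99732 (C_36 L99733 (C_36 L99741 N_36)))))) (by decide +kernel)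
theorem L99743 : W_36 (nat_lit 2) (nat_lit 0x1000000004000f00008001000080000000000000000000000000000000) (nat_lit 0x0) (nat_lit 0x1000010000800000000000000000000000000000000000) := D_36 (nat_lit 160) (nat_lit 143) (nat_lit 180) (nat_lit 6) (nat_lit 7) (nat_lit 11) (nat_lit 0) (nat_lit 10) (nat_lit 10) (by decide +kernel)
theorem L99744 : W_36 (nat_lit 3) (nat_lit 0x1000000004000700008001000080000000000000000000000000000000) (nat_lit 0x0) (nat_lit 0x1800014000800000000000000000000000000000000000) := T_36 (nat_lit 179) (nat_lit 158) (nat_lit 0) (nat_lit 9) (nat_lit 10) L99743 (by decide +kernel)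
theorem L99745 : W_36 (nat_lit 4) (nat_lit 0x4000700008001000080000000000000000000000000000000) (nat_lit 0x0) (nat_lit 0x1000080000001800014000800000000000000000000000000000000000) := T_36 (nat_lit 228) (nat_lit 211) (nat_lit 4) (nat_lit 7) (nat_lit 13) L99744 (by decide +kernel)
theorem L99746 : W_36 (nat_lit 2) (nat_lit 0x1000000004000f00008001000080000000000000000000000000000000) (nat_lit 0x0) (nat_lit 0x2001000010000000000000000000000000000000000000000) := D_36 (nat_lit 180) (nat_lit 160) (nat_lit 193) (nat_lit 0) (nat_lit 10) (nat_lit 10) (nat_lit 1) (nat_lit 10) (nat_lit 10) (by decide +kernel)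
theorem L99747 : W_36 (nat_lit 3) (nat_lit 0x1000000004000700008001000080000000000000000000000000000000) (nat_lit 0x0) (nat_lit 0x2001800014000000000000000000000000000000000000000) := T_36 (nat_lit 179) (nat_lit 158) (nat_lit 0) (nat_lit 9) (nat_lit 10) L99746 (by decide +kernel)
theorem L99748 : W_36 (nat_lit 4) (nat_lit 0x4000700008001000080000000000000000000000000000000) (nat_lit 0x0) (nat_lit 0x1000080002001800014000000000000000000000000000000000000000) := T_36 (nat_lit 228) (nat_lit 211) (nat_lit 4) (nat_lit 7) (nat_lit 13) L99747 (by decide +kernel)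
theorem L99749 : W_36 (nat_lit 3) (nat_lit 0x4000700008001000080000000000000000000000000000000) (nat_lit 0x0) (nat_lit 0x3001800004000000000000000000000000000000000000000) := T_36 (nat_lit 179) (nat_lit 158) (nat_lit 0) (nat_lit 9) (nat_lit 10) L15807 (by decide +kernel)
theorem L99750 : W_36 (nat_lit 2) (nat_lit 0x1c000600070001c001000080000000000000000000000000000000) (nat_lit 0x0) (nat_lit 0x200001800000000000000000000000000000000000000000000000) := D_36 (nat_lit 192) (nat_lit 191) (nat_lit 213) (nat_lit 3) (nat_lit 4) (nat_lit 11) (nat_lit 0) (nat_lit 9) (nat_lit 12) (by decide +kernel)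
theorem L99751 : W_36 (nat_lit 3) (nat_lit 0x1c000400070001c001000080000000000000000000000000000000) (nat_lit 0x0) (nat_lit 0x200003800000000000200000000000000000000000000000000000) := T_36 (nat_lit 193) (nat_lit 141) (nat_lit 4) (nat_lit 6) (nat_lit 12) L99750 (by decide +kernel)
theorem L99752 : W_36 (nat_lit 4) (nat_lit 0x1c0004000700018001000080000000000000000000000000000000) (nat_lit 0x0) (nat_lit 0x200003800000006000200000000000000000000000000000000000) := T_36 (nat_lit 158) (nat_lit 157) (nat_lit 3) (nat_lit 4) (nat_lit 9) L99751 (by decide +kernel)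
theorem L99753 : W_36 (nat_lit 5) (nat_lit 0xc0004000700018001000080000000000000000000000000000000) (nat_lit 0x0) (nat_lit 0x2000300003800000006000200000000000000000000000000000000000) := T_36 (nat_lit 212) (nat_lit 229) (nat_lit 7) (nat_lit 7) (nat_lit 9) L99752 (by decide +kernel)
theorem L99754 : W_36 (nat_lit 6) (nat_lit 0x80004000700018001000080000000000000000000000000000000) (nat_lit 0x0) (nat_lit 0x2800340003800000006000200000000000000000000000000000000000) := T_36 (nat_lit 210) (nat_lit 227) (nat_lit 5) (nat_lit 7) (nat_lit 9) L99753 (by decide +kernel)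
theorem L99755 : W_36 (nat_lit 7) (nat_lit 0x80004000700008001000080000000000000000000000000000000) (nat_lit 0x0) (nat_lit 0x2800340003800000016000a00000000000000000000000000000000000) := T_36 (nat_lit 160) (nat_lit 143) (nat_lit 6) (nat_lit 7) (nat_lit 11) L99754 (by decide +kernel)
theorem L99756 : W_36 (nat_lit 8) (nat_lit 0x4000700008001000080000000000000000000000000000000) (nat_lit 0x0) (nat_lit 0x38003c0003800000016000a00000000000000000000000000000000000) := T_36 (nat_lit 211) (nat_lit 228) (nat_lit 4) (nat_lit 7) (nat_lit 13) L99755 (by decide +kernel)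
theorem L99757 : W_36 (nat_lit 2) (nat_lit 0x5e0006000f00058001000080000000000000000000000000000000) (nat_lit 0x0) (nat_lit 0x18008000000000000000000000000000000000000000000000000) := D_36 (nat_lit 208) (nat_lit 195) (nat_lit 207) (nat_lit 2) (nat_lit 4) (nat_lit 12) (nat_lit 2) (nat_lit 3) (nat_lit 12) (by decide +kernel)
theorem L99758 : W_36 (nat_lit 3) (nat_lit 0x5c0006000f00058001000080000000000000000000000000000000) (nat_lit 0x0) (nat_lit 0x400038008000000000000000000000000000000000000000000000000) := T_36 (nat_lit 209) (nat_lit 226) (nat_lit 5) (nat_lit 6) (nat_lit 9) L99757 (by decide +kernel)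
theorem L99759 : W_36 (nat_lit 4) (nat_lit 0x1c0006000f00058001000080000000000000000000000000000000) (nat_lit 0x0) (nat_lit 0x400638008000000000000000000000000000000000000000000000000) := T_36 (nat_lit 214) (nat_lit 213) (nat_lit 0) (nat_lit 10) (nat_lit 12) L99758 (by decide +kernel)
theorem L99760 : W_36 (nat_lit 5) (nat_lit 0x1c0004000f00058001000080000000000000000000000000000000) (nat_lit 0x0) (nat_lit 0x40063800b000000000000000000000000000000000000000000000000) := T_36 (nat_lit 193) (nat_lit 192) (nat_lit 1) (nat_lit 9) (nat_lit 10) L99759 (by decide +kernel)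
theorem L99761 : W_36 (nat_lit 6) (nat_lit 0x180004000f00058001000080000000000000000000000000000000) (nat_lit 0x0) (nat_lit 0xc0067800b000000000000000000000000000000000000000000000000) := T_36 (nat_lit 210) (nat_lit 227) (nat_lit 5) (nat_lit 7) (nat_lit 9) L99760 (by decide +kernel)
theorem L99762 : W_36 (nat_lit 7) (nat_lit 0x80004000f00058001000080000000000000000000000000000000) (nat_lit 0x0) (nat_lit 0x2c0077800b000000000000000000000000000000000000000000000000) := T_36 (nat_lit 212) (nat_lit 229) (nat_lit 7) (nat_lit 7) (nat_lit 9) L99761 (by decide +kernel)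
theorem L99763 : W_36 (nat_lit 8) (nat_lit 0x80004000f00018001000080000000000000000000000000000000) (nat_lit 0x0) (nat_lit 0x2c0077800b0000000c0000000000000000000000000000000000000000) := T_36 (nat_lit 162) (nat_lit 163) (nat_lit 2) (nat_lit 6) (nat_lit 10) L99762 (by decide +kernel)
theorem L99764 : W_36 (nat_lit 9) (nat_lit 0x4000f00018001000080000000000000000000000000000000) (nat_lit 0x0) (nat_lit 0x3c007f800b0000000c0000000000000000000000000000000000000000) := T_36 (nat_lit 211) (nat_lit 228) (nat_lit 4) (nat_lit 7) (nat_lit 13) L99763 (by decide +kernel)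
theorem L99765 : W_36 (nat_lit 10) (nat_lit 0x4000700018001000080000000000000000000000000000000) (nat_lit 0x0) (nat_lit 0x3c007f800b0018000c0000000000000000000000000000000000000000) := T_36 (nat_lit 179) (nat_lit 180) (nat_lit 0) (nat_lit 10) (nat_lit 10) L99764 (by decide +kernel)
theorem L99766 : W_36 (nat_lit 11) (nat_lit 0x4000700008001000080000000000000000000000000000000) (nat_lit 0x0) (nat_lit 0x3c007f800b0018000d0000800000000000000000000000000000000000) := T_36 (nat_lit 160) (nat_lit 143) (nat_lit 6) (nat_lit 7) (nat_lit 11) L99765 (by decide +kernel)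
theorem L99767 : W_36 (nat_lit 12) (nat_lit 0x4000300008001000080000000000000000000000000000000) (nat_lit 0x0) (nat_lit 0x3c007f800b801c000d6000a00000000000000000000000000000000000) := Q_36 (nat_lit 178) (C_36 L99745 (C_36 L99748 (C_36 L99749 (C_36 L99756 (C_36 L99766 N_36))))) (by decide +kernel)
theorem L99768 : W_36 (nat_lit 13) (nat_lit 0x300008001000080000000000000000000000000000000) (nat_lit 0x0) (nat_lit 0x3c007f800f801c000d6000e00138000000000000000000000000000000) := Q_36 (nat_lit 194) (C_36 L99546 (C_36 L14840 (C_36 L14838 (C_36 L99767 N_36)))) (by decide +kernel)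
theorem L99769 : W_36 (nat_lit 2) (nat_lit 0x1f00008001000080000000000000000000000000000000) (nat_lit 0x0) (nat_lit 0x1c0000000000000000000000000000000000000000) := D_36 (nat_lit 163) (nat_lit 162) (nat_lit 164) (nat_lit 2) (nat_lit 6) (nat_lit 10) (nat_lit 2) (nat_lit 7) (nat_lit 10) (by decide +kernel)
theorem L99770 : W_36 (nat_lit 3) (nat_lit 0xf00008001000080000000000000000000000000000000) (nat_lit 0x0) (nat_lit 0x10001d0000000000000000000000000000000000000000) := T_36 (nat_lit 180) (nat_lit 160) (nat_lit 0) (nat_lit 10) (nat_lit 10) L99769 (by decide +kernel)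
theorem L99771 : W_36 (nat_lit 4) (nat_lit 0x700008001000080000000000000000000000000000000) (nat_lit 0x0) (nat_lit 0x18001d4000000000000000000000000000000000000000) := T_36 (nat_lit 179) (nat_lit 158) (nat_lit 0) (nat_lit 9) (nat_lit 10) L99770 (by decide +kernel)
theorem L99772 : W_36 (nat_lit 3) (nat_lit 0x2000f00048001000080000000000000000000000000000000) (nat_lit 0x0) (nat_lit 0x1000080004001000000000400000000000000000000000000000000000) := T_36 (nat_lit 194) (nat_lit 180) (nat_lit 1) (nat_lit 10) (nat_lit 10) L74496 (by decide +kernel)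
theorem L99773 : W_36 (nat_lit 4) (nat_lit 0x2000f00008001000080000000000000000000000000000000) (nat_lit 0x0) (nat_lit 0x10000800040010000c0000400000000000000000000000000000000000) := T_36 (nat_lit 162) (nat_lit 163) (nat_lit 2) (nat_lit 6) (nat_lit 10) L99772 (by decide +kernel)
theorem L99774 : W_36 (nat_lit 5) (nat_lit 0xf00008001000080000000000000000000000000000000) (nat_lit 0x0) (nat_lit 0x10000800070010000c0000400000000000000000000000000000000000) := T_36 (nat_lit 193) (nat_lit 192) (nat_lit 1) (nat_lit 9) (nat_lit 10) L99773 (by decide +kernel)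
theorem L99775 : W_36 (nat_lit 6) (nat_lit 0x700008001000080000000000000000000000000000000) (nat_lit 0x0) (nat_lit 0x10000800070018000c4000400000000000000000000000000000000000) := T_36 (nat_lit 179) (nat_lit 158) (nat_lit 0) (nat_lit 9) (nat_lit 10) L99774 (by decide +kernel)
theorem L99776 : W_36 (nat_lit 2) (nat_lit 0x1000780008001400080000000000000000000000000000000) (nat_lit 0x0) (nat_lit 0x400020002000000000000000000000000000000000000000000000000) := D_36 (nat_lit 209) (nat_lit 226) (nat_lit 193) (nat_lit 6) (nat_lit 5) (nat_lit 13) (nat_lit 5) (nat_lit 6) (nat_lit 8) (by decide +kernel)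
theorem L99777 : W_36 (nat_lit 3) (nat_lit 0x1000780008001000080000000000000000000000000000000) (nat_lit 0x0) (nat_lit 0x400020002000000000000400020000000000000000000000000000000) := T_36 (nat_lit 142) (nat_lit 125) (nat_lit 5) (nat_lit 6) (nat_lit 7) L99776 (by decide +kernel)
theorem L99778 : W_36 (nat_lit 4) (nat_lit 0x780008001000080000000000000000000000000000000) (nat_lit 0x0) (nat_lit 0x400020003800000000000400020000000000000000000000000000000) := T_36 (nat_lit 192) (nat_lit 191) (nat_lit 1) (nat_lit 8) (nat_lit 10) L99777 (by decide +kernel)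
theorem L99779 : W_36 (nat_lit 3) (nat_lit 0x1000780008001000080000000000000000000000000000000) (nat_lit 0x0) (nat_lit 0x20000000000006000400020000000000000000000000000000000) := T_36 (nat_lit 158) (nat_lit 157) (nat_lit 0) (nat_lit 8) (nat_lit 10) L74447 (by decide +kernel)
theorem L99780 : W_36 (nat_lit 4) (nat_lit 0x780008001000080000000000000000000000000000000) (nat_lit 0x0) (nat_lit 0x20001800000006000400020000000000000000000000000000000) := T_36 (nat_lit 192) (nat_lit 191) (nat_lit 1) (nat_lit 8) (nat_lit 10) L99779 (by decide +kernel)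
theorem L99781 : W_36 (nat_lit 4) (nat_lit 0x78000c001000080000000000000000000000000000000) (nat_lit 0x0) (nat_lit 0x1c00070010000000000000000000000000000000000000000) := T_36 (nat_lit 191) (nat_lit 192) (nat_lit 1) (nat_lit 8) (nat_lit 10) L74639 (by decide +kernel)
theorem L99782 : W_36 (nat_lit 5) (nat_lit 0x780008001000080000000000000000000000000000000) (nat_lit 0x0) (nat_lit 0x1c00070016000000000000000000000000000000000000000) := T_36 (nat_lit 158) (nat_lit 157) (nat_lit 0) (nat_lit 8) (nat_lit 10) L99781 (by decide +kernel)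
theorem L99783 : W_36 (nat_lit 2) (nat_lit 0x7e000a001000080000000000000000000000000000000) (nat_lit 0x0) (nat_lit 0xe000000000000000000000000000000000000000000000000) := D_36 (nat_lit 194) (nat_lit 195) (nat_lit 193) (nat_lit 3) (nat_lit 4) (nat_lit 10) (nat_lit 3) (nat_lit 3) (nat_lit 10) (by decide +kernel)
theorem L99784 : W_36 (nat_lit 3) (nat_lit 0x7c000a001000080000000000000000000000000000000) (nat_lit 0x0) (nat_lit 0xe000020010000000000000000000000000000000000000000) := T_36 (nat_lit 173) (nat_lit 160) (nat_lit 2) (nat_lit 3) (nat_lit 10) L99783 (by decide +kernel)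
theorem L99785 : W_36 (nat_lit 4) (nat_lit 0x78000a001000080000000000000000000000000000000) (nat_lit 0x0) (nat_lit 0xe000060011000000000000000000000000000000000000000) := T_36 (nat_lit 174) (nat_lit 156) (nat_lit 0) (nat_lit 7) (nat_lit 10) L99784 (by decide +kernel)
theorem L99786 : W_36 (nat_lit 5) (nat_lit 0x780008001000080000000000000000000000000000000) (nat_lit 0x0) (nat_lit 0xe000060017000000000000000000000000000000000000000) := T_36 (nat_lit 157) (nat_lit 158) (nat_lit 0) (nat_lit 8) (nat_lit 10) L99785 (by decide +kernel)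
theorem L99787 : W_36 (nat_lit 6) (nat_lit 0x700008001000080000000000000000000000000000000) (nat_lit 0x0) (nat_lit 0x40002000fc000f0017000400020000000000000000000000000000000) := Q_36 (nat_lit 175) (C_36 L99778 (C_36 L99780 (C_36 L99782 (C_36 L99786 N_36)))) (by decide +kernel)
theorem L99788 : W_36 (nat_lit 2) (nat_lit 0x80004000700008001000080000000000000000000000000000000) (nat_lit 0x0) (nat_lit 0x10000400020000000000000000000000000000000) := D_36 (nat_lit 142) (nat_lit 125) (nat_lit 160) (nat_lit 7) (nat_lit 6) (nat_lit 7) (nat_lit 4) (nat_lit 7) (nat_lit 12) (by decide +kernel)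
theorem L99789 : W_36 (nat_lit 3) (nat_lit 0x4000700008001000080000000000000000000000000000000) (nat_lit 0x0) (nat_lit 0x1000080000000000010000400020000000000000000000000000000000) := T_36 (nat_lit 211) (nat_lit 228) (nat_lit 4) (nat_lit 7) (nat_lit 13) L99788 (by decide +kernel)
theorem L99790 : W_36 (nat_lit 2) (nat_lit 0x4000700008001400080000000000000000000000000000000) (nat_lit 0x0) (nat_lit 0x1000080002000000000000000000000000000000000000000000000000) := D_36 (nat_lit 211) (nat_lit 228) (nat_lit 193) (nat_lit 4) (nat_lit 7) (nat_lit 13) (nat_lit 7) (nat_lit 6) (nat_lit 8) (by decide +kernel)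
theorem L99791 : W_36 (nat_lit 3) (nat_lit 0x4000700008001000080000000000000000000000000000000) (nat_lit 0x0) (nat_lit 0x1000080002000000000000400020000000000000000000000000000000) := T_36 (nat_lit 142) (nat_lit 125) (nat_lit 7) (nat_lit 6) (nat_lit 7) L99790 (by decide +kernel)
theorem L99792 : W_36 (nat_lit 2) (nat_lit 0x5000f800580010000a0000000000000000000000000000000) (nat_lit 0x0) (nat_lit 0x8000060000000000000000000000000000000000000000000) := D_36 (nat_lit 174) (nat_lit 173) (nat_lit 195) (nat_lit 2) (nat_lit 3) (nat_lit 10) (nat_lit 3) (nat_lit 4) (nat_lit 10) (by decide +kernel)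
theorem L99793 : W_36 (nat_lit 3) (nat_lit 0x5000f000580010000a0000000000000000000000000000000) (nat_lit 0x0) (nat_lit 0x88000e0000000000000000000000000000000000000000000) := T_36 (nat_lit 175) (nat_lit 191) (nat_lit 1) (nat_lit 8) (nat_lit 10) L99792 (by decide +kernel)
theorem L99794 : W_36 (nat_lit 4) (nat_lit 0x4000f000580010000a0000000000000000000000000000000) (nat_lit 0x0) (nat_lit 0xb8000e0000000000000000000000000000000000000000000) := T_36 (nat_lit 192) (nat_lit 193) (nat_lit 1) (nat_lit 9) (nat_lit 10) L99793 (by decide +kernel)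
theorem L99795 : W_36 (nat_lit 5) (nat_lit 0x4000f000180010000a0000000000000000000000000000000) (nat_lit 0x0) (nat_lit 0xb8000e00c0000000000000000000000000000000000000000) := T_36 (nat_lit 162) (nat_lit 163) (nat_lit 2) (nat_lit 6) (nat_lit 10) L99794 (by decide +kernel)
theorem L99796 : W_36 (nat_lit 6) (nat_lit 0x4000f00018001000080000000000000000000000000000000) (nat_lit 0x0) (nat_lit 0xb8000e00c0000400020000000000000000000000000000000) := T_36 (nat_lit 125) (nat_lit 142) (nat_lit 7) (nat_lit 6) (nat_lit 7) L99795 (by decide +kernel)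
theorem L99797 : W_36 (nat_lit 7) (nat_lit 0x4000700018001000080000000000000000000000000000000) (nat_lit 0x0) (nat_lit 0xb8018e00c0000400020000000000000000000000000000000) := T_36 (nat_lit 179) (nat_lit 180) (nat_lit 0) (nat_lit 10) (nat_lit 10) L99796 (by decide +kernel)
theorem L99798 : W_36 (nat_lit 8) (nat_lit 0x4000700008001000080000000000000000000000000000000) (nat_lit 0x0) (nat_lit 0xb8018e00d0000c00020000000000000000000000000000000) := T_36 (nat_lit 160) (nat_lit 143) (nat_lit 6) (nat_lit 7) (nat_lit 11) L99797 (by decide +kernel)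
theorem L99799 : W_36 (nat_lit 12) (nat_lit 0x700008001000080000000000000000000000000000000) (nat_lit 0x0) (nat_lit 0x3c007f800f8018e00d0000c00020000000000000000000000000000000) := Q_36 (nat_lit 194) (C_36 L99766 (C_36 L99789 (C_36 L99791 (C_36 L99798 N_36)))) (by decide +kernel)
theorem L99800 : W_36 (nat_lit 13) (nat_lit 0x300008001000080000000000000000000000000000000) (nat_lit 0x0) (nat_lit 0x3c007f800fc01cf01d7000c00020000000000000000000000000000000) := Q_36 (nat_lit 178) (C_36 L99771 (C_36 L99775 (C_36 L99787 (C_36 L99799 N_36)))) (by decide +kernel)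
theorem L99801 : W_36 (nat_lit 2) (nat_lit 0x1c0006000b0001c001000080000000000000000000000000000000) (nat_lit 0x0) (nat_lit 0x600001000000000000000000000000000000000000000000000000) := D_36 (nat_lit 213) (nat_lit 214) (nat_lit 192) (nat_lit 0) (nat_lit 10) (nat_lit 12) (nat_lit 0) (nat_lit 9) (nat_lit 12) (by decide +kernel)
theorem L99802 : W_36 (nat_lit 3) (nat_lit 0xc0006000b0001c001000080000000000000000000000000000000) (nat_lit 0x0) (nat_lit 0x2000700001000000000000000000000000000000000000000000000000) := T_36 (nat_lit 212) (nat_lit 229) (nat_lit 7) (nat_lit 7) (nat_lit 9) L99801 (by decide +kernel)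
theorem L99803 : W_36 (nat_lit 4) (nat_lit 0xc0004000b0001c001000080000000000000000000000000000000) (nat_lit 0x0) (nat_lit 0x2000700003000000000000200000000000000000000000000000000000) := T_36 (nat_lit 193) (nat_lit 141) (nat_lit 4) (nat_lit 6) (nat_lit 12) L99802 (by decide +kernel)
theorem L99804 : W_36 (nat_lit 5) (nat_lit 0x80004000b0001c001000080000000000000000000000000000000) (nat_lit 0x0) (nat_lit 0x2800740003000000000000200000000000000000000000000000000000) := T_36 (nat_lit 210) (nat_lit 227) (nat_lit 5) (nat_lit 7) (nat_lit 9) L99803 (by decide +kernel)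
theorem L99805 : W_36 (nat_lit 6) (nat_lit 0x80004000b0000c001000080000000000000000000000000000000) (nat_lit 0x0) (nat_lit 0x2800740003000000010000a00000000000000000000000000000000000) := T_36 (nat_lit 160) (nat_lit 143) (nat_lit 6) (nat_lit 7) (nat_lit 11) L99804 (by decide +kernel)
theorem L99806 : W_36 (nat_lit 7) (nat_lit 0x8000400030000c001000080000000000000000000000000000000) (nat_lit 0x0) (nat_lit 0x2800740003000c00010000a00000000000000000000000000000000000) := T_36 (nat_lit 179) (nat_lit 178) (nat_lit 0) (nat_lit 9) (nat_lit 10) L99805 (by decide +kernel)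
theorem L99807 : W_36 (nat_lit 8) (nat_lit 0x400030000c001000080000000000000000000000000000000) (nat_lit 0x0) (nat_lit 0x38007c0003000c00010000a00000000000000000000000000000000000) := T_36 (nat_lit 211) (nat_lit 228) (nat_lit 4) (nat_lit 7) (nat_lit 13) L99806 (by decide +kernel)
theorem L99808 : W_36 (nat_lit 9) (nat_lit 0x4000300008001000080000000000000000000000000000000) (nat_lit 0x0) (nat_lit 0x38007e000b000ce0017000b80008000000000000000000000000000000) := Q_36 (nat_lit 158) (C_36 L14979 (C_36 L99807 (C_36 L99557 (C_36 L99559 N_36)))) (by decide +kernel)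
theorem L99809 : W_36 (nat_lit 10) (nat_lit 0x300008001000080000000000000000000000000000000) (nat_lit 0x0) (nat_lit 0x38007e000f000ce0017000f80138000000000000000000000000000000) := Q_36 (nat_lit 194) (C_36 L99546 (C_36 L14840 (C_36 L14838 (C_36 L99808 N_36)))) (by decide +kernel)
theorem L99810 : W_36 (nat_lit 2) (nat_lit 0x30003000180014000a0000000000000000000000000000000) (nat_lit 0x0) (nat_lit 0x800040000000000000000800000000000000000000000000000000000) := D_36 (nat_lit 210) (nat_lit 143) (nat_lit 227) (nat_lit 6) (nat_lit 6) (nat_lit 12) (nat_lit 6) (nat_lit 6) (nat_lit 13) (by decide +kernel)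
theorem L99811 : W_36 (nat_lit 3) (nat_lit 0x10003000180014000a0000000000000000000000000000000) (nat_lit 0x0) (nat_lit 0x800060002000000000000800000000000000000000000000000000000) := T_36 (nat_lit 193) (nat_lit 209) (nat_lit 5) (nat_lit 6) (nat_lit 8) L99810 (by decide +kernel)
theorem L99812 : W_36 (nat_lit 4) (nat_lit 0x3000180014000a0000000000000000000000000000000) (nat_lit 0x0) (nat_lit 0x800060003000080000000800000000000000000000000000000000000) := T_36 (nat_lit 192) (nat_lit 175) (nat_lit 5) (nat_lit 6) (nat_lit 7) L99811 (by decide +kernel)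
theorem L99813 : W_36 (nat_lit 5) (nat_lit 0x3000080014000a0000000000000000000000000000000) (nat_lit 0x0) (nat_lit 0x800060003000080010000800000001000000000000000000000000000) := T_36 (nat_lit 160) (nat_lit 108) (nat_lit 7) (nat_lit 6) (nat_lit 6) L99812 (by decide +kernel)
theorem L99814 : W_36 (nat_lit 6) (nat_lit 0x300008001400080000000000000000000000000000000) (nat_lit 0x0) (nat_lit 0x800060003000080010000a00138001800040000000000000000000000) := Q_36 (nat_lit 125) (C_36 L99631 (C_36 L99594 (C_36 L99585 (C_36 L99813 N_36)))) (by decide +kernel)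
theorem L99815 : W_36 (nat_lit 2) (nat_lit 0x2000300008001e00080000000000000000000000000000000) (nat_lit 0x0) (nat_lit 0x80004000000010000000000000000000000000000000000000000) := D_36 (nat_lit 194) (nat_lit 211) (nat_lit 160) (nat_lit 7) (nat_lit 6) (nat_lit 8) (nat_lit 6) (nat_lit 7) (nat_lit 11) (by decide +kernel)
theorem L99816 : W_36 (nat_lit 3) (nat_lit 0x2000300008001600080000000000000000000000000000000) (nat_lit 0x0) (nat_lit 0x80004000000010000800100000000000000000000000000000000) := T_36 (nat_lit 143) (nat_lit 128) (nat_lit 2) (nat_lit 5) (nat_lit 8) L99815 (by decide +kernel)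
theorem L99817 : W_36 (nat_lit 4) (nat_lit 0x2000300008001400080000000000000000000000000000000) (nat_lit 0x0) (nat_lit 0x80004000000010000a00110000000000000000000000000000000) := T_36 (nat_lit 141) (nat_lit 124) (nat_lit 4) (nat_lit 6) (nat_lit 11) L99816 (by decide +kernel)
theorem L99818 : W_36 (nat_lit 7) (nat_lit 0x300008001400080000000000000000000000000000000) (nat_lit 0x0) (nat_lit 0xa0007c00c80010000a00110000000000000000000000000000000) := Q_36 (nat_lit 193) (C_36 L99614 (C_36 L99643 (C_36 L99817 N_36))) (by decide +kernel)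
theorem L99819 : W_36 (nat_lit 6) (nat_lit 0x300008001400080000000000000000000000000000000) (nat_lit 0x0) (nat_lit 0x800060007000080010000800020001000000000000000000000000000) := T_36 (nat_lit 125) (nat_lit 194) (nat_lit 7) (nat_lit 6) (nat_lit 7) L99813 (by decide +kernel)
theorem L99820 : W_36 (nat_lit 8) (nat_lit 0x300008001000080000000000000000000000000000000) (nat_lit 0x0) (nat_lit 0x8000e0007c00c80010000e00138001800040000000000000000000000) := Q_36 (nat_lit 142) (C_36 L99814 (C_36 L99586 (C_36 L99632 (C_36 L99818 (C_36 L99819 N_36))))) (by decide +kernel)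
theorem L99821 : W_36 (nat_lit 5) (nat_lit 0x100000000400034001e001100080000000000000000000000000000000) (nat_lit 0x0) (nat_lit 0x10008c00080000000200018000400000000000000000000000000) := T_36 (nat_lit 175) (nat_lit 195) (nat_lit 3) (nat_lit 4) (nat_lit 10) L99525 (by decide +kernel)
theorem L99822 : W_36 (nat_lit 6) (nat_lit 0x100000000400030001e001100080000000000000000000000000000000) (nat_lit 0x0) (nat_lit 0x10008c000e0000000200018000400000000000000000000000000) := T_36 (nat_lit 174) (nat_lit 173) (nat_lit 1) (nat_lit 7) (nat_lit 9) L99821 (by decide +kernel)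
theorem L99823 : W_36 (nat_lit 7) (nat_lit 0x100000000400030001e001000080000000000000000000000000000000) (nat_lit 0x0) (nat_lit 0x10008c000e0000000380018000400000000000000000000000000) := T_36 (nat_lit 140) (nat_lit 139) (nat_lit 0) (nat_lit 7) (nat_lit 9) L99822 (by decide +kernel)
theorem L99824 : W_36 (nat_lit 8) (nat_lit 0x100000000400030000e001000080000000000000000000000000000000) (nat_lit 0x0) (nat_lit 0x10008c000e0010000b80018000400000000000000000000000000) := T_36 (nat_lit 160) (nat_lit 143) (nat_lit 2) (nat_lit 4) (nat_lit 9) L99823 (by decide +kernel)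
theorem L99825 : W_36 (nat_lit 9) (nat_lit 0x100000000400030000c001000080000000000000000000000000000000) (nat_lit 0x0) (nat_lit 0x10008c000e0013000b80018000400000000000000000000000000) := T_36 (nat_lit 157) (nat_lit 156) (nat_lit 3) (nat_lit 3) (nat_lit 9) L99824 (by decide +kernel)
theorem L99826 : W_36 (nat_lit 10) (nat_lit 0x400030000c001000080000000000000000000000000000000) (nat_lit 0x0) (nat_lit 0x1000090008c000e0013000b80018000400000000000000000000000000) := T_36 (nat_lit 228) (nat_lit 211) (nat_lit 4) (nat_lit 7) (nat_lit 13) L99825 (by decide +kernel)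
theorem L99827 : W_36 (nat_lit 2) (nat_lit 0x5e0006000b0001c001000080000000000000000000000000000000) (nat_lit 0x0) (nat_lit 0x18008000000000000000000000000000000000000000000000000) := D_36 (nat_lit 208) (nat_lit 195) (nat_lit 207) (nat_lit 2) (nat_lit 4) (nat_lit 12) (nat_lit 2) (nat_lit 3) (nat_lit 12) (by decide +kernel)
theorem L99828 : W_36 (nat_lit 3) (nat_lit 0x5c0006000b0001c001000080000000000000000000000000000000) (nat_lit 0x0) (nat_lit 0x400038008000000000000000000000000000000000000000000000000) := T_36 (nat_lit 209) (nat_lit 226) (nat_lit 5) (nat_lit 6) (nat_lit 9) L99827 (by decide +kernel)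
theorem L99829 : W_36 (nat_lit 4) (nat_lit 0x1c0006000b0001c001000080000000000000000000000000000000) (nat_lit 0x0) (nat_lit 0x400638008000000000000000000000000000000000000000000000000) := T_36 (nat_lit 214) (nat_lit 213) (nat_lit 0) (nat_lit 10) (nat_lit 12) L99828 (by decide +kernel)
theorem L99830 : W_36 (nat_lit 5) (nat_lit 0x1c0004000b0001c001000080000000000000000000000000000000) (nat_lit 0x0) (nat_lit 0x40063800a000000000000200000000000000000000000000000000000) := T_36 (nat_lit 193) (nat_lit 141) (nat_lit 4) (nat_lit 6) (nat_lit 12) L99829 (by decide +kernel)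
theorem L99831 : W_36 (nat_lit 6) (nat_lit 0x180004000b0001c001000080000000000000000000000000000000) (nat_lit 0x0) (nat_lit 0xc0067800a000000000000200000000000000000000000000000000000) := T_36 (nat_lit 210) (nat_lit 227) (nat_lit 5) (nat_lit 7) (nat_lit 9) L99830 (by decide +kernel)
theorem L99832 : W_36 (nat_lit 7) (nat_lit 0x80004000b0001c001000080000000000000000000000000000000) (nat_lit 0x0) (nat_lit 0x2c0077800a000000000000200000000000000000000000000000000000) := T_36 (nat_lit 212) (nat_lit 229) (nat_lit 7) (nat_lit 7) (nat_lit 9) L99831 (by decide +kernel)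
theorem L99833 : W_36 (nat_lit 8) (nat_lit 0x8000400030001c001000080000000000000000000000000000000) (nat_lit 0x0) (nat_lit 0x2c0077800a000c00000000200000000000000000000000000000000000) := T_36 (nat_lit 179) (nat_lit 178) (nat_lit 0) (nat_lit 9) (nat_lit 10) L99832 (by decide +kernel)
theorem L99834 : W_36 (nat_lit 9) (nat_lit 0x400030001c001000080000000000000000000000000000000) (nat_lit 0x0) (nat_lit 0x3c007f800a000c00000000200000000000000000000000000000000000) := T_36 (nat_lit 211) (nat_lit 228) (nat_lit 4) (nat_lit 7) (nat_lit 13) L99833 (by decide +kernel)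
theorem L99835 : W_36 (nat_lit 10) (nat_lit 0x400030000c001000080000000000000000000000000000000) (nat_lit 0x0) (nat_lit 0x3c007f800a000c00010000a00000000000000000000000000000000000) := T_36 (nat_lit 160) (nat_lit 143) (nat_lit 6) (nat_lit 7) (nat_lit 11) L99834 (by decide +kernel)
theorem L99836 : W_36 (nat_lit 11) (nat_lit 0x4000300008001000080000000000000000000000000000000) (nat_lit 0x0) (nat_lit 0x3c007f800ac00ce0017000b80018000400000000000000000000000000) := Q_36 (nat_lit 158) (C_36 L99826 (C_36 L99835 (C_36 L99557 (C_36 L99559 N_36)))) (by decide +kernel)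
theorem L99837 : W_36 (nat_lit 12) (nat_lit 0x300008001000080000000000000000000000000000000) (nat_lit 0x0) (nat_lit 0x3c007f800ec00ce0017000f80138000400000000000000000000000000) := Q_36 (nat_lit 194) (C_36 L99836 (C_36 L14840 (C_36 L99546 (C_36 L14838 N_36)))) (by decide +kernel)
theorem L99838 : W_36 (nat_lit 8) (nat_lit 0x300008001000080000000000000000000000000000000) (nat_lit 0x0) (nat_lit 0xa0007c00c80014000e001380038001c000a000000000000000000) := Q_36 (nat_lit 142) (C_36 L99818 (C_36 L99639 (C_36 L99597 (C_36 L99632 N_36)))) (by decide +kernel)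
theorem L99839 : W_36 (nat_lit 15) (nat_lit 0x300000001000080000000000000000000000000000000) (nat_lit 0x0) (nat_lit 0x34003f007f800ff01cf01df800f8013e003c001c000a000000000000000000) := Q_36 (nat_lit 159) (C_36 L99539 (C_36 L99561 (C_36 L99599 (C_36 L99616 (C_36 L99640 (C_36 L99645 (C_36 L99697 (C_36 L99742 (C_36 L99768 (C_36 L99800 (C_36 L99809 (C_36 L99820 (C_36 L99837 (C_36 L99838 N_36)))))))))))))) (by decide +kernel)
theorem L99840 : W_36 (nat_lit 2) (nat_lit 0x3000780024001000080000000000000000000000000000000) (nat_lit 0x0) (nat_lit 0x800040000000000000000200000000000000000000000000000000000) := D_36 (nat_lit 210) (nat_lit 227) (nat_lit 141) (nat_lit 4) (nat_lit 6) (nat_lit 13) (nat_lit 7) (nat_lit 5) (nat_lit 8) (by decide +kernel)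
theorem L99841 : W_36 (nat_lit 3) (nat_lit 0x1000780024001000080000000000000000000000000000000) (nat_lit 0x0) (nat_lit 0x800040002000800000000200000000000000000000000000000000000) := T_36 (nat_lit 193) (nat_lit 179) (nat_lit 1) (nat_lit 9) (nat_lit 10) L99840 (by decide +kernel)
theorem L99842 : W_36 (nat_lit 4) (nat_lit 0x1000780020001000080000000000000000000000000000000) (nat_lit 0x0) (nat_lit 0x800040002000800006000200000000000000000000000000000000000) := T_36 (nat_lit 158) (nat_lit 157) (nat_lit 0) (nat_lit 8) (nat_lit 10) L99841 (by decide +kernel)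
theorem L99843 : W_36 (nat_lit 5) (nat_lit 0x780020001000080000000000000000000000000000000) (nat_lit 0x0) (nat_lit 0x800040003800800006000200000000000000000000000000000000000) := T_36 (nat_lit 192) (nat_lit 191) (nat_lit 1) (nat_lit 8) (nat_lit 10) L99842 (by decide +kernel)
theorem L99844 : W_36 (nat_lit 6) (nat_lit 0x700020001000080000000000000000000000000000000) (nat_lit 0x0) (nat_lit 0x800040003800880046000200000000000000000000000000000000000) := T_36 (nat_lit 175) (nat_lit 162) (nat_lit 2) (nat_lit 5) (nat_lit 10) L99843 (by decide +kernel)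
theorem L99845 : W_36 (nat_lit 7) (nat_lit 0x700000001000080000000000000000000000000000000) (nat_lit 0x0) (nat_lit 0x800040007800880066000200000000000000000000000000000000000) := T_36 (nat_lit 161) (nat_lit 194) (nat_lit 5) (nat_lit 8) (nat_lit 7) L99844 (by decide +kernel)
theorem L99846 : W_36 (nat_lit 2) (nat_lit 0x100078002c001000180000000000000000000000000000000) (nat_lit 0x0) (nat_lit 0x20000000000000000400020000000000000000000000000000000) := D_36 (nat_lit 142) (nat_lit 125) (nat_lit 209) (nat_lit 5) (nat_lit 6) (nat_lit 7) (nat_lit 6) (nat_lit 5) (nat_lit 12) (by decide +kernel)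
theorem L99847 : W_36 (nat_lit 3) (nat_lit 0x1000780024001000180000000000000000000000000000000) (nat_lit 0x0) (nat_lit 0x20000000800008000400020000000000000000000000000000000) := T_36 (nat_lit 159) (nat_lit 179) (nat_lit 0) (nat_lit 9) (nat_lit 10) L99846 (by decide +kernel)
theorem L99848 : W_36 (nat_lit 4) (nat_lit 0x1000780024001000080000000000000000000000000000000) (nat_lit 0x0) (nat_lit 0x20000000800008000400120008000000000000000000000000000) := T_36 (nat_lit 128) (nat_lit 111) (nat_lit 6) (nat_lit 8) (nat_lit 10) L99847 (by decide +kernel)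
theorem L99849 : W_36 (nat_lit 5) (nat_lit 0x1000780020001000080000000000000000000000000000000) (nat_lit 0x0) (nat_lit 0x2000000080000e000400120008000000000000000000000000000) := T_36 (nat_lit 158) (nat_lit 157) (nat_lit 0) (nat_lit 8) (nat_lit 10) L99848 (by decide +kernel)
theorem L99850 : W_36 (nat_lit 6) (nat_lit 0x780020001000080000000000000000000000000000000) (nat_lit 0x0) (nat_lit 0x2000180080000e000400120008000000000000000000000000000) := T_36 (nat_lit 192) (nat_lit 191) (nat_lit 1) (nat_lit 8) (nat_lit 10) L99849 (by decide +kernel)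
theorem L99851 : W_36 (nat_lit 7) (nat_lit 0x700020001000080000000000000000000000000000000) (nat_lit 0x0) (nat_lit 0x2000180088004e000400120008000000000000000000000000000) := T_36 (nat_lit 175) (nat_lit 162) (nat_lit 2) (nat_lit 5) (nat_lit 10) L99850 (by decide +kernel)
theorem L99852 : W_36 (nat_lit 8) (nat_lit 0x700000001000080000000000000000000000000000000) (nat_lit 0x0) (nat_lit 0x2000580088006e000400120008000000000000000000000000000) := T_36 (nat_lit 161) (nat_lit 194) (nat_lit 5) (nat_lit 8) (nat_lit 7) L99851 (by decide +kernel)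
theorem L99853 : W_36 (nat_lit 13) (nat_lit 0x780000001000080000000000000000000000000000000) (nat_lit 0x0) (nat_lit 0x200010001c0004006600020013800f8005e0000000000000000000000) := T_36 (nat_lit 161) (nat_lit 162) (nat_lit 2) (nat_lit 5) (nat_lit 10) L76458 (by decide +kernel)
theorem L99854 : W_36 (nat_lit 2) (nat_lit 0x2000f8002400100009000f800000000000000000000000000) (nat_lit 0x0) (nat_lit 0xe0000000000000000000000) := D_36 (nat_lit 90) (nat_lit 89) (nat_lit 91) (nat_lit 0) (nat_lit 8) (nat_lit 6) (nat_lit 0) (nat_lit 9) (nat_lit 6) (by decide +kernel)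
theorem L99855 : W_36 (nat_lit 3) (nat_lit 0x2000f8002400100009000f000000000000000000000000000) (nat_lit 0x0) (nat_lit 0x80008000e0000000000000000000000) := T_36 (nat_lit 107) (nat_lit 123) (nat_lit 1) (nat_lit 8) (nat_lit 6) L99854 (by decide +kernel)
theorem L99856 : W_36 (nat_lit 4) (nat_lit 0x2000f8002400100009000e000000000000000000000000000) (nat_lit 0x0) (nat_lit 0x280018000e0000000000000000000000) := T_36 (nat_lit 108) (nat_lit 125) (nat_lit 1) (nat_lit 9) (nat_lit 6) L99855 (by decide +kernel)
theorem L99857 : W_36 (nat_lit 5) (nat_lit 0x2000f8002400100008000e000000000000000000000000000) (nat_lit 0x0) (nat_lit 0x2000380018000e0000000000000000000000) := T_36 (nat_lit 124) (nat_lit 141) (nat_lit 7) (nat_lit 5) (nat_lit 7) L99856 (by decide +kernel)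
theorem L99858 : W_36 (nat_lit 6) (nat_lit 0x2000f8002400100008000c000000000000000000000000000) (nat_lit 0x0) (nat_lit 0x2000380038001e0000000000000000000000) := T_36 (nat_lit 109) (nat_lit 92) (nat_lit 4) (nat_lit 8) (nat_lit 9) L99857 (by decide +kernel)
theorem L99859 : W_36 (nat_lit 7) (nat_lit 0x2000f80024001000080008000000000000000000000000000) (nat_lit 0x0) (nat_lit 0x2000380078005e0000000000000000000000) := T_36 (nat_lit 110) (nat_lit 94) (nat_lit 6) (nat_lit 8) (nat_lit 9) L99858 (by decide +kernel)
theorem L99860 : W_36 (nat_lit 8) (nat_lit 0xf80024001000080008000000000000000000000000000) (nat_lit 0x0) (nat_lit 0x30000000000002000380078005e0000000000000000000000) := T_36 (nat_lit 193) (nat_lit 192) (nat_lit 1) (nat_lit 9) (nat_lit 10) L99859 (by decide +kernel)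
theorem L99861 : W_36 (nat_lit 9) (nat_lit 0xf80024001000080000000000000000000000000000000) (nat_lit 0x0) (nat_lit 0x300000000000020013800f8005e0000000000000000000000) := T_36 (nat_lit 111) (nat_lit 128) (nat_lit 6) (nat_lit 8) (nat_lit 10) L99860 (by decide +kernel)
theorem L99862 : W_36 (nat_lit 10) (nat_lit 0x780024001000080000000000000000000000000000000) (nat_lit 0x0) (nat_lit 0x300080000800020013800f8005e0000000000000000000000) := T_36 (nat_lit 179) (nat_lit 159) (nat_lit 0) (nat_lit 9) (nat_lit 10) L99861 (by decide +kernel)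
theorem L99863 : W_36 (nat_lit 11) (nat_lit 0x780004001000080000000000000000000000000000000) (nat_lit 0x0) (nat_lit 0x300080006800020013800f8005e0000000000000000000000) := T_36 (nat_lit 161) (nat_lit 162) (nat_lit 2) (nat_lit 5) (nat_lit 10) L99862 (by decide +kernel)
theorem L99864 : W_36 (nat_lit 12) (nat_lit 0x780000001000080000000000000000000000000000000) (nat_lit 0x0) (nat_lit 0x300080006e00020013800f8005e0000000000000000000000) := T_36 (nat_lit 158) (nat_lit 157) (nat_lit 0) (nat_lit 8) (nat_lit 10) L99863 (by decide +kernel)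
theorem L99865 : W_36 (nat_lit 2) (nat_lit 0x780044001000080000000000000000000000000000000) (nat_lit 0x0) (nat_lit 0x800088000000000000000000000000000000000000000) := D_36 (nat_lit 179) (nat_lit 159) (nat_lit 163) (nat_lit 0) (nat_lit 9) (nat_lit 10) (nat_lit 2) (nat_lit 6) (nat_lit 10) (by decide +kernel)
theorem L99866 : W_36 (nat_lit 3) (nat_lit 0x780004001000080000000000000000000000000000000) (nat_lit 0x0) (nat_lit 0x8000e8000000000000000000000000000000000000000) := T_36 (nat_lit 162) (nat_lit 161) (nat_lit 2) (nat_lit 5) (nat_lit 10) L99865 (by decide +kernel)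
theorem L99867 : W_36 (nat_lit 4) (nat_lit 0x780000001000080000000000000000000000000000000) (nat_lit 0x0) (nat_lit 0x8000ee000000000000000000000000000000000000000) := T_36 (nat_lit 158) (nat_lit 157) (nat_lit 0) (nat_lit 8) (nat_lit 10) L99866 (by decide +kernel)
theorem L99868 : W_36 (nat_lit 14) (nat_lit 0x700000001000080000000000000000000000000000000) (nat_lit 0x0) (nat_lit 0x200010003c008c00ee00020013800f8005e0000000000000000000000) := Q_36 (nat_lit 175) (C_36 L76572 (C_36 L99853 (C_36 L11395 (C_36 L99864 (C_36 L99867 N_36))))) (by decide +kernel)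
theorem L99869 : W_36 (nat_lit 2) (nat_lit 0x4003f000880010000a0000000000000000000000000000000) (nat_lit 0x0) (nat_lit 0xe0000000000000000000000000000000000000000000000000) := D_36 (nat_lit 198) (nat_lit 197) (nat_lit 199) (nat_lit 3) (nat_lit 7) (nat_lit 10) (nat_lit 3) (nat_lit 8) (nat_lit 10) (by decide +kernel)
theorem L99870 : W_36 (nat_lit 3) (nat_lit 0x4001f000880010000a0000000000000000000000000000000) (nat_lit 0x0) (nat_lit 0xe8002000000000000000000000000000000000000000000000) := T_36 (nat_lit 181) (nat_lit 195) (nat_lit 1) (nat_lit 11) (nat_lit 10) L99869 (by decide +kernel)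
theorem L99871 : W_36 (nat_lit 4) (nat_lit 0x4000f000880010000a0000000000000000000000000000000) (nat_lit 0x0) (nat_lit 0xe8003000100000000000000000000000000000000000000000) := T_36 (nat_lit 180) (nat_lit 164) (nat_lit 2) (nat_lit 7) (nat_lit 10) L99870 (by decide +kernel)
theorem L99872 : W_36 (nat_lit 5) (nat_lit 0x4000f00088001000080000000000000000000000000000000) (nat_lit 0x0) (nat_lit 0xe8003000100000400020000000000000000000000000000000) := T_36 (nat_lit 125) (nat_lit 142) (nat_lit 7) (nat_lit 6) (nat_lit 7) L99871 (by decide +kernel)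
theorem L99873 : W_36 (nat_lit 6) (nat_lit 0x4000f00008001000080000000000000000000000000000000) (nat_lit 0x0) (nat_lit 0xe80030001c0000400020000000000000000000000000000000) := T_36 (nat_lit 163) (nat_lit 162) (nat_lit 2) (nat_lit 6) (nat_lit 10) L99872 (by decide +kernel)
theorem L99874 : W_36 (nat_lit 7) (nat_lit 0x4000f00000001000080000000000000000000000000000000) (nat_lit 0x0) (nat_lit 0xe80030001cc000400020000000000000000000000000000000) := T_36 (nat_lit 159) (nat_lit 158) (nat_lit 0) (nat_lit 9) (nat_lit 10) L99873 (by decide +kernel)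
theorem L99875 : W_36 (nat_lit 4) (nat_lit 0x4000f00040001000080000000000000000000000000000000) (nat_lit 0x0) (nat_lit 0x100008000300000000c000400000000000000000000000000000000000) := T_36 (nat_lit 193) (nat_lit 192) (nat_lit 1) (nat_lit 9) (nat_lit 10) L74497 (by decide +kernel)
theorem L99876 : W_36 (nat_lit 5) (nat_lit 0x4000f00000001000080000000000000000000000000000000) (nat_lit 0x0) (nat_lit 0x10000800030000000cc000400000000000000000000000000000000000) := T_36 (nat_lit 162) (nat_lit 163) (nat_lit 2) (nat_lit 6) (nat_lit 10) L99875 (by decide +kernel)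
theorem L99877 : W_36 (nat_lit 8) (nat_lit 0x4000700000001000080000000000000000000000000000000) (nat_lit 0x0) (nat_lit 0x10000800eb0038001cc000400020000000000000000000000000000000) := Q_36 (nat_lit 179) (C_36 L8185 (C_36 L99874 (C_36 L99876 N_36))) (by decide +kernel)
theorem L99878 : W_36 (nat_lit 9) (nat_lit 0x700000001000080000000000000000000000000000000) (nat_lit 0x0) (nat_lit 0x10000800ef0038001ec000400020000000000000000000000000000000) := T_36 (nat_lit 194) (nat_lit 161) (nat_lit 5) (nat_lit 8) (nat_lit 7) L99877 (by decide +kernel)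
theorem L99879 : W_36 (nat_lit 2) (nat_lit 0x50007c0000001000080000000000000000000000000000000) (nat_lit 0x0) (nat_lit 0x2000820000000000000000000000000000000000000000000) := D_36 (nat_lit 193) (nat_lit 173) (nat_lit 179) (nat_lit 3) (nat_lit 3) (nat_lit 10) (nat_lit 1) (nat_lit 9) (nat_lit 10) (by decide +kernel)
theorem L99880 : W_36 (nat_lit 3) (nat_lit 0x5000780000001000080000000000000000000000000000000) (nat_lit 0x0) (nat_lit 0xa000860000000000000000000000000000000000000000000) := T_36 (nat_lit 174) (nat_lit 195) (nat_lit 3) (nat_lit 4) (nat_lit 10) L99879 (by decide +kernel)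
theorem L99881 : W_36 (nat_lit 4) (nat_lit 0x4000780000001000080000000000000000000000000000000) (nat_lit 0x0) (nat_lit 0xb800860000000000000000000000000000000000000000000) := T_36 (nat_lit 192) (nat_lit 191) (nat_lit 1) (nat_lit 8) (nat_lit 10) L99880 (by decide +kernel)
theorem L99882 : W_36 (nat_lit 5) (nat_lit 0x780000001000080000000000000000000000000000000) (nat_lit 0x0) (nat_lit 0xf800860020000000000000000000000000000000000000000) := T_36 (nat_lit 194) (nat_lit 161) (nat_lit 5) (nat_lit 8) (nat_lit 7) L99881 (by decide +kernel)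
theorem L99883 : W_36 (nat_lit 5) (nat_lit 0x1000780004001000080000000000000000000000000000000) (nat_lit 0x0) (nat_lit 0x20004000800028000400120008000000000000000000000000000) := T_36 (nat_lit 161) (nat_lit 194) (nat_lit 5) (nat_lit 8) (nat_lit 7) L99848 (by decide +kernel)
theorem L99884 : W_36 (nat_lit 6) (nat_lit 0x1000780000001000080000000000000000000000000000000) (nat_lit 0x0) (nat_lit 0x2000400080002e000400120008000000000000000000000000000) := T_36 (nat_lit 158) (nat_lit 157) (nat_lit 0) (nat_lit 8) (nat_lit 10) L99883 (by decide +kernel)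
theorem L99885 : W_36 (nat_lit 7) (nat_lit 0x780000001000080000000000000000000000000000000) (nat_lit 0x0) (nat_lit 0x2000580080002e000400120008000000000000000000000000000) := T_36 (nat_lit 192) (nat_lit 191) (nat_lit 1) (nat_lit 8) (nat_lit 10) L99884 (by decide +kernel)
theorem L99886 : W_36 (nat_lit 2) (nat_lit 0x50007f0004001000080000000000000000000000000000000) (nat_lit 0x0) (nat_lit 0x700000000000000000000000000000000000000000000000) := D_36 (nat_lit 189) (nat_lit 188) (nat_lit 190) (nat_lit 1) (nat_lit 5) (nat_lit 10) (nat_lit 1) (nat_lit 6) (nat_lit 10) (by decide +kernel)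
theorem L99887 : W_36 (nat_lit 3) (nat_lit 0x50007e0004001000080000000000000000000000000000000) (nat_lit 0x0) (nat_lit 0x700010008000000000000000000000000000000000000000) := T_36 (nat_lit 172) (nat_lit 159) (nat_lit 2) (nat_lit 2) (nat_lit 10) L99886 (by decide +kernel)
theorem L99888 : W_36 (nat_lit 4) (nat_lit 0x50007c0004001000080000000000000000000000000000000) (nat_lit 0x0) (nat_lit 0x2700030008000000000000000000000000000000000000000) := T_36 (nat_lit 173) (nat_lit 193) (nat_lit 3) (nat_lit 3) (nat_lit 10) L99887 (by decide +kernel)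
theorem L99889 : W_36 (nat_lit 5) (nat_lit 0x5000780004001000080000000000000000000000000000000) (nat_lit 0x0) (nat_lit 0xa700070008000000000000000000000000000000000000000) := T_36 (nat_lit 174) (nat_lit 195) (nat_lit 3) (nat_lit 4) (nat_lit 10) L99888 (by decide +kernel)
theorem L99890 : W_36 (nat_lit 6) (nat_lit 0x1000780004001000080000000000000000000000000000000) (nat_lit 0x0) (nat_lit 0xe700070028000000000000000000000000000000000000000) := T_36 (nat_lit 194) (nat_lit 161) (nat_lit 5) (nat_lit 8) (nat_lit 7) L99889 (by decide +kernel)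
theorem L99891 : W_36 (nat_lit 7) (nat_lit 0x780004001000080000000000000000000000000000000) (nat_lit 0x0) (nat_lit 0xff00070028000000000000000000000000000000000000000) := T_36 (nat_lit 192) (nat_lit 191) (nat_lit 1) (nat_lit 8) (nat_lit 10) L99890 (by decide +kernel)
theorem L99892 : W_36 (nat_lit 8) (nat_lit 0x780000001000080000000000000000000000000000000) (nat_lit 0x0) (nat_lit 0xff0007002e000000000000000000000000000000000000000) := T_36 (nat_lit 158) (nat_lit 157) (nat_lit 0) (nat_lit 8) (nat_lit 10) L99891 (by decide +kernel)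
theorem L99893 : W_36 (nat_lit 11) (nat_lit 0x780004001000080000000000000000000000000000000) (nat_lit 0x0) (nat_lit 0x700080002800020013800f8005e0000000000000000000000) := T_36 (nat_lit 161) (nat_lit 194) (nat_lit 5) (nat_lit 8) (nat_lit 7) L99862 (by decide +kernel)
theorem L99894 : W_36 (nat_lit 12) (nat_lit 0x780000001000080000000000000000000000000000000) (nat_lit 0x0) (nat_lit 0x700080002e00020013800f8005e0000000000000000000000) := T_36 (nat_lit 158) (nat_lit 157) (nat_lit 0) (nat_lit 8) (nat_lit 10) L99893 (by decide +kernel)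
theorem L99895 : W_36 (nat_lit 2) (nat_lit 0x4000fc0004001000080000000000000000000000000000000) (nat_lit 0x0) (nat_lit 0x2001020000000000000000000000000000000000000000000) := D_36 (nat_lit 193) (nat_lit 173) (nat_lit 180) (nat_lit 3) (nat_lit 3) (nat_lit 10) (nat_lit 1) (nat_lit 10) (nat_lit 10) (by decide +kernel)
theorem L99896 : W_36 (nat_lit 3) (nat_lit 0x4000f80004001000080000000000000000000000000000000) (nat_lit 0x0) (nat_lit 0xa001060000000000000000000000000000000000000000000) := T_36 (nat_lit 174) (nat_lit 195) (nat_lit 3) (nat_lit 4) (nat_lit 10) L99895 (by decide +kernel)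
theorem L99897 : W_36 (nat_lit 4) (nat_lit 0x4000780004001000080000000000000000000000000000000) (nat_lit 0x0) (nat_lit 0xa001860008000000000000000000000000000000000000000) := T_36 (nat_lit 179) (nat_lit 159) (nat_lit 0) (nat_lit 9) (nat_lit 10) L99896 (by decide +kernel)
theorem L99898 : W_36 (nat_lit 5) (nat_lit 0x780004001000080000000000000000000000000000000) (nat_lit 0x0) (nat_lit 0xe001860028000000000000000000000000000000000000000) := T_36 (nat_lit 194) (nat_lit 161) (nat_lit 5) (nat_lit 8) (nat_lit 7) L99897 (by decide +kernel)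
theorem L99899 : W_36 (nat_lit 6) (nat_lit 0x780000001000080000000000000000000000000000000) (nat_lit 0x0) (nat_lit 0xe00186002e000000000000000000000000000000000000000) := T_36 (nat_lit 158) (nat_lit 157) (nat_lit 0) (nat_lit 8) (nat_lit 10) L99898 (by decide +kernel)
theorem L99900 : W_36 (nat_lit 13) (nat_lit 0x700000001000080000000000000000000000000000000) (nat_lit 0x0) (nat_lit 0x2000ff018f002e00060013800f8005e0000000000000000000000) := Q_36 (nat_lit 175) (C_36 L99882 (C_36 L99885 (C_36 L99892 (C_36 L11395 (C_36 L99894 (C_36 L99899 N_36)))))) (by decide +kernel)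
theorem L99901 : W_36 (nat_lit 2) (nat_lit 0x800000006000f80044001000090000000000000000000000000000000) (nat_lit 0x0) (nat_lit 0x8000060000000000000000000000000000000000000000000) := D_36 (nat_lit 174) (nat_lit 173) (nat_lit 195) (nat_lit 3) (nat_lit 3) (nat_lit 10) (nat_lit 3) (nat_lit 4) (nat_lit 10) (by decide +kernel)
theorem L99902 : W_36 (nat_lit 3) (nat_lit 0x800000002000f80044001000090000000000000000000000000000000) (nat_lit 0x0) (nat_lit 0xc001060000000000000000000000000000000000000000000) := T_36 (nat_lit 194) (nat_lit 180) (nat_lit 1) (nat_lit 10) (nat_lit 10) L99901 (by decide +kernel)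
theorem L99903 : W_36 (nat_lit 4) (nat_lit 0x2000f80044001000090000000000000000000000000000000) (nat_lit 0x0) (nat_lit 0x80004000c001060000000000000000000000000000000000000000000) := T_36 (nat_lit 227) (nat_lit 210) (nat_lit 4) (nat_lit 6) (nat_lit 13) L99902 (by decide +kernel)
theorem L99904 : W_36 (nat_lit 5) (nat_lit 0x2000f80044001000080000000000000000000000000000000) (nat_lit 0x0) (nat_lit 0x80004000c001060000000200010000000000000000000000000000000) := T_36 (nat_lit 124) (nat_lit 141) (nat_lit 7) (nat_lit 5) (nat_lit 7) L99903 (by decide +kernel)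
theorem L99905 : W_36 (nat_lit 6) (nat_lit 0x2000f80004001000080000000000000000000000000000000) (nat_lit 0x0) (nat_lit 0x80004000c0010600c0000200010000000000000000000000000000000) := T_36 (nat_lit 162) (nat_lit 163) (nat_lit 2) (nat_lit 6) (nat_lit 10) L99904 (by decide +kernel)
theorem L99906 : W_36 (nat_lit 7) (nat_lit 0xf80004001000080000000000000000000000000000000) (nat_lit 0x0) (nat_lit 0x80004000f0010600c0000200010000000000000000000000000000000) := T_36 (nat_lit 193) (nat_lit 192) (nat_lit 1) (nat_lit 9) (nat_lit 10) L99905 (by decide +kernel)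
theorem L99907 : W_36 (nat_lit 8) (nat_lit 0x780004001000080000000000000000000000000000000) (nat_lit 0x0) (nat_lit 0x80004000f0018600c8000200010000000000000000000000000000000) := T_36 (nat_lit 179) (nat_lit 159) (nat_lit 0) (nat_lit 9) (nat_lit 10) L99906 (by decide +kernel)
theorem L99908 : W_36 (nat_lit 9) (nat_lit 0x780000001000080000000000000000000000000000000) (nat_lit 0x0) (nat_lit 0x80004000f0018600ce000200010000000000000000000000000000000) := T_36 (nat_lit 158) (nat_lit 157) (nat_lit 0) (nat_lit 8) (nat_lit 10) L99907 (by decide +kernel)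
theorem L99909 : W_36 (nat_lit 10) (nat_lit 0x700000001000080000000000000000000000000000000) (nat_lit 0x0) (nat_lit 0x18000e000fc038f01cfc00600030000000000000000000000000000000) := Q_36 (nat_lit 175) (C_36 L11407 (C_36 L11395 (C_36 L76585 (C_36 L74450 (C_36 L76583 (C_36 L99908 (C_36 L11400 (C_36 L11392 N_36)))))))) (by decide +kernel)
theorem L99910 : W_36 (nat_lit 15) (nat_lit 0x300000001000080000000000000000000000000000000) (nat_lit 0x0) (nat_lit 0x1a000f00eff03cf01efc0060013800f8005e0000000000000000000000) := Q_36 (nat_lit 178) (C_36 L76565 (C_36 L99845 (C_36 L99852 (C_36 L76460 (C_36 L99868 (C_36 L99878 (C_36 L99900 (C_36 L99909 (C_36 L76589 N_36))))))))) (by decide +kernel)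
theorem L99911 : W_36 (nat_lit 2) (nat_lit 0x300060001000080006000000000000000000000000000) (nat_lit 0x0) (nat_lit 0x4000480000000000000000000000000000000000000000000) := D_36 (nat_lit 178) (nat_lit 175) (nat_lit 194) (nat_lit 2) (nat_lit 5) (nat_lit 10) (nat_lit 5) (nat_lit 8) (nat_lit 7) (by decide +kernel)
theorem L99912 : W_36 (nat_lit 3) (nat_lit 0x300020001000080006000000000000000000000000000) (nat_lit 0x0) (nat_lit 0x4000c80040000000000000000000000000000000000000000) := T_36 (nat_lit 162) (nat_lit 179) (nat_lit 7) (nat_lit 8) (nat_lit 6) L99911 (by decide +kernel)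
theorem L99913 : W_36 (nat_lit 4) (nat_lit 0x300020001000080004000000000000000000000000000) (nat_lit 0x0) (nat_lit 0x4000c80040000000000002000100000000000000000000000) := T_36 (nat_lit 109) (nat_lit 92) (nat_lit 4) (nat_lit 8) (nat_lit 9) L99912 (by decide +kernel)
theorem L99914 : W_36 (nat_lit 5) (nat_lit 0x300020001000080000000000000000000000000000000) (nat_lit 0x0) (nat_lit 0x4000c80050000000000006000100000000000000000000000) := T_36 (nat_lit 110) (nat_lit 160) (nat_lit 5) (nat_lit 8) (nat_lit 6) L99913 (by decide +kernel)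
theorem L99915 : W_36 (nat_lit 4) (nat_lit 0x300020001000080000000000000000000000000000000) (nat_lit 0x0) (nat_lit 0x4000c801c0000000000000000000000000000000000000000) := T_36 (nat_lit 178) (nat_lit 194) (nat_lit 5) (nat_lit 8) (nat_lit 7) L76588 (by decide +kernel)
theorem L99916 : W_36 (nat_lit 2) (nat_lit 0x300060001000080004000300000000000000000000000) (nat_lit 0x0) (nat_lit 0x8000400020000000000000000000) := D_36 (nat_lit 94) (nat_lit 111) (nat_lit 77) (nat_lit 6) (nat_lit 8) (nat_lit 9) (nat_lit 6) (nat_lit 8) (nat_lit 8) (by decide +kernel)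
theorem L99917 : W_36 (nat_lit 3) (nat_lit 0x300060001000080004000100000000000000000000000) (nat_lit 0x0) (nat_lit 0x8000600028000000000000000000) := T_36 (nat_lit 93) (nat_lit 75) (nat_lit 4) (nat_lit 8) (nat_lit 8) L99916 (by decide +kernel)
theorem L99918 : W_36 (nat_lit 4) (nat_lit 0x300020001000080004000100000000000000000000000) (nat_lit 0x0) (nat_lit 0x800040000000000008000600028000000000000000000) := T_36 (nat_lit 162) (nat_lit 179) (nat_lit 7) (nat_lit 8) (nat_lit 6) L99917 (by decide +kernel)
theorem L99919 : W_36 (nat_lit 5) (nat_lit 0x300020001000080004000000000000000000000000000) (nat_lit 0x0) (nat_lit 0x80004000000000000a000700028000000000000000000) := T_36 (nat_lit 92) (nat_lit 109) (nat_lit 4) (nat_lit 8) (nat_lit 9) L99918 (by decide +kernel)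
theorem L99920 : W_36 (nat_lit 6) (nat_lit 0x300020001000080000000000000000000000000000000) (nat_lit 0x0) (nat_lit 0x80005000000000000e000700028000000000000000000) := T_36 (nat_lit 110) (nat_lit 160) (nat_lit 5) (nat_lit 8) (nat_lit 6) L99919 (by decide +kernel)
theorem L99921 : W_36 (nat_lit 2) (nat_lit 0x8007c002400100009000f800000000000000000000000000) (nat_lit 0x0) (nat_lit 0xe0000000000000000000000) := D_36 (nat_lit 90) (nat_lit 89) (nat_lit 91) (nat_lit 0) (nat_lit 8) (nat_lit 6) (nat_lit 0) (nat_lit 9) (nat_lit 6) (by decide +kernel)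
theorem L99922 : W_36 (nat_lit 3) (nat_lit 0x8007c002400100009000f000000000000000000000000000) (nat_lit 0x0) (nat_lit 0x80008000e0000000000000000000000) := T_36 (nat_lit 107) (nat_lit 123) (nat_lit 1) (nat_lit 8) (nat_lit 6) L99921 (by decide +kernel)
theorem L99923 : W_36 (nat_lit 4) (nat_lit 0x8007c002400100009000e000000000000000000000000000) (nat_lit 0x0) (nat_lit 0x280018000e0000000000000000000000) := T_36 (nat_lit 108) (nat_lit 125) (nat_lit 1) (nat_lit 9) (nat_lit 6) L99922 (by decide +kernel)
theorem L99924 : W_36 (nat_lit 5) (nat_lit 0x8007c002400100008000e000000000000000000000000000) (nat_lit 0x0) (nat_lit 0x2000380018000e0000000000000000000000) := T_36 (nat_lit 124) (nat_lit 141) (nat_lit 5) (nat_lit 5) (nat_lit 7) L99923 (by decide +kernel)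
theorem L99925 : W_36 (nat_lit 6) (nat_lit 0x80078002400100008000e000000000000000000000000000) (nat_lit 0x0) (nat_lit 0x4000400000002000380018000e0000000000000000000000) := T_36 (nat_lit 174) (nat_lit 190) (nat_lit 1) (nat_lit 7) (nat_lit 10) L99924 (by decide +kernel)
theorem L99926 : W_36 (nat_lit 7) (nat_lit 0x80078002000100008000e000000000000000000000000000) (nat_lit 0x0) (nat_lit 0x4000400060002000380018000e0000000000000000000000) := T_36 (nat_lit 158) (nat_lit 157) (nat_lit 0) (nat_lit 8) (nat_lit 10) L99925 (by decide +kernel)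
theorem L99927 : W_36 (nat_lit 8) (nat_lit 0x78002000100008000e000000000000000000000000000) (nat_lit 0x0) (nat_lit 0x1c000400060002000380018000e0000000000000000000000) := T_36 (nat_lit 191) (nat_lit 192) (nat_lit 1) (nat_lit 8) (nat_lit 10) L99926 (by decide +kernel)
theorem L99928 : W_36 (nat_lit 9) (nat_lit 0x70002000100008000e000000000000000000000000000) (nat_lit 0x0) (nat_lit 0x1c000c00460002000380018000e0000000000000000000000) := T_36 (nat_lit 175) (nat_lit 162) (nat_lit 2) (nat_lit 5) (nat_lit 10) L99927 (by decide +kernel)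
theorem L99929 : W_36 (nat_lit 10) (nat_lit 0x30002000100008000e000000000000000000000000000) (nat_lit 0x0) (nat_lit 0x5c004c00460002000380018000e0000000000000000000000) := T_36 (nat_lit 178) (nat_lit 194) (nat_lit 5) (nat_lit 8) (nat_lit 7) L99928 (by decide +kernel)
theorem L99930 : W_36 (nat_lit 11) (nat_lit 0x300020001000080006000000000000000000000000000) (nat_lit 0x0) (nat_lit 0x5c004c00460002000380098004e0000000000000000000000) := T_36 (nat_lit 111) (nat_lit 94) (nat_lit 6) (nat_lit 8) (nat_lit 9) L99929 (by decide +kernel)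
theorem L99931 : W_36 (nat_lit 12) (nat_lit 0x300020001000080004000000000000000000000000000) (nat_lit 0x0) (nat_lit 0x5c004c004600020003800b8005e0000000000000000000000) := T_36 (nat_lit 109) (nat_lit 92) (nat_lit 4) (nat_lit 8) (nat_lit 9) L99930 (by decide +kernel)
theorem L99932 : W_36 (nat_lit 13) (nat_lit 0x300020001000080000000000000000000000000000000) (nat_lit 0x0) (nat_lit 0x5c004c005600020003800f8005e0000000000000000000000) := T_36 (nat_lit 110) (nat_lit 160) (nat_lit 5) (nat_lit 8) (nat_lit 6) L99931 (by decide +kernel)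
theorem L99933 : W_36 (nat_lit 2) (nat_lit 0x700020001000080004000500000000000000000000000) (nat_lit 0x0) (nat_lit 0x200028000000000000000000) := D_36 (nat_lit 93) (nat_lit 75) (nat_lit 77) (nat_lit 4) (nat_lit 8) (nat_lit 8) (nat_lit 6) (nat_lit 8) (nat_lit 8) (by decide +kernel)
theorem L99934 : W_36 (nat_lit 3) (nat_lit 0x700020001000080004000100000000000000000000000) (nat_lit 0x0) (nat_lit 0x8000600028000000000000000000) := T_36 (nat_lit 94) (nat_lit 111) (nat_lit 6) (nat_lit 8) (nat_lit 9) L99933 (by decide +kernel)
theorem L99935 : W_36 (nat_lit 4) (nat_lit 0x700020001000080004000000000000000000000000000) (nat_lit 0x0) (nat_lit 0xa000700028000000000000000000) := T_36 (nat_lit 92) (nat_lit 109) (nat_lit 4) (nat_lit 8) (nat_lit 9) L99934 (by decide +kernel)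
theorem L99936 : W_36 (nat_lit 5) (nat_lit 0x700020001000080000000000000000000000000000000) (nat_lit 0x0) (nat_lit 0x1000000000000e000700028000000000000000000) := T_36 (nat_lit 110) (nat_lit 160) (nat_lit 5) (nat_lit 8) (nat_lit 6) L99935 (by decide +kernel)
theorem L99937 : W_36 (nat_lit 6) (nat_lit 0x300020001000080000000000000000000000000000000) (nat_lit 0x0) (nat_lit 0x400040001000000000000e000700028000000000000000000) := T_36 (nat_lit 178) (nat_lit 194) (nat_lit 5) (nat_lit 8) (nat_lit 7) L99936 (by decide +kernel)
theorem L99938 : W_36 (nat_lit 14) (nat_lit 0x300000001000080000000000000000000000000000000) (nat_lit 0x0) (nat_lit 0x5c00cc01f600020003800f8007e0028000000000000000000) := Q_36 (nat_lit 161) (C_36 L99914 (C_36 L99915 (C_36 L99920 (C_36 L99932 (C_36 L99937 N_36))))) (by decide +kernel)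
theorem L99939 : W_36 (nat_lit 5) (nat_lit 0x30002c001e00080000000000000000000000000000000) (nat_lit 0x0) (nat_lit 0x70003c00080000000000020000000000000000000000000000000) := T_36 (nat_lit 193) (nat_lit 210) (nat_lit 4) (nat_lit 6) (nat_lit 12) L39137 (by decide +kernel)
theorem L99940 : W_36 (nat_lit 6) (nat_lit 0x30000c001e00080000000000000000000000000000000) (nat_lit 0x0) (nat_lit 0x70003c00080060000000020000000000000000000000000000000) := T_36 (nat_lit 161) (nat_lit 162) (nat_lit 3) (nat_lit 5) (nat_lit 8) L99939 (by decide +kernel)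
theorem L99941 : W_36 (nat_lit 7) (nat_lit 0x300008001e00080000000000000000000000000000000) (nat_lit 0x0) (nat_lit 0x70003c00080066000000020000000000000000000000000000000) := T_36 (nat_lit 158) (nat_lit 157) (nat_lit 1) (nat_lit 8) (nat_lit 8) L99940 (by decide +kernel)
theorem L99942 : W_36 (nat_lit 8) (nat_lit 0x300008001600080000000000000000000000000000000) (nat_lit 0x0) (nat_lit 0x70003c00080066000800120000000000000000000000000000000) := T_36 (nat_lit 143) (nat_lit 128) (nat_lit 2) (nat_lit 5) (nat_lit 8) L99941 (by decide +kernel)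
theorem L99943 : W_36 (nat_lit 9) (nat_lit 0x300008001400080000000000000000000000000000000) (nat_lit 0x0) (nat_lit 0x400070003c00080066000a00138000800000000000000000000000000) := Q_36 (nat_lit 141) (C_36 L39114 (C_36 L99620 (C_36 L99617 (C_36 L99942 N_36)))) (by decide +kernel)
theorem L99944 : W_36 (nat_lit 2) (nat_lit 0x100078003c0008001400080000000000000000000000000000000) (nat_lit 0x0) (nat_lit 0x4000200000000000000004000000000000000000000000000000000000000) := D_36 (nat_lit 225) (nat_lit 158) (nat_lit 242) (nat_lit 6) (nat_lit 4) (nat_lit 13) (nat_lit 6) (nat_lit 4) (nat_lit 14) (by decide +kernel)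
theorem L99945 : W_36 (nat_lit 3) (nat_lit 0x10007800340008001400080000000000000000000000000000000) (nat_lit 0x0) (nat_lit 0x4000200000008000080004000000000000000000000000000000000000000) := T_36 (nat_lit 175) (nat_lit 195) (nat_lit 3) (nat_lit 4) (nat_lit 10) L99944 (by decide +kernel)
theorem L99946 : W_36 (nat_lit 4) (nat_lit 0x10007800300008001400080000000000000000000000000000000) (nat_lit 0x0) (nat_lit 0x40002000000080000e0004000000000000000000000000000000000000000) := T_36 (nat_lit 174) (nat_lit 173) (nat_lit 0) (nat_lit 7) (nat_lit 11) L99945 (by decide +kernel)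
theorem L99947 : W_36 (nat_lit 5) (nat_lit 0x7800300008001400080000000000000000000000000000000) (nat_lit 0x0) (nat_lit 0x40002000180080000e0004000000000000000000000000000000000000000) := T_36 (nat_lit 208) (nat_lit 207) (nat_lit 1) (nat_lit 7) (nat_lit 11) L99946 (by decide +kernel)
theorem L99948 : W_36 (nat_lit 6) (nat_lit 0x7000300008001400080000000000000000000000000000000) (nat_lit 0x0) (nat_lit 0x4000200018008c000e0004000000000000000000000000000000000000000) := T_36 (nat_lit 191) (nat_lit 190) (nat_lit 2) (nat_lit 3) (nat_lit 11) L99947 (by decide +kernel)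
theorem L99949 : W_36 (nat_lit 7) (nat_lit 0x6000300008001400080000000000000000000000000000000) (nat_lit 0x0) (nat_lit 0x4000200038009c000e0004000000000000000000000000000000000000000) := T_36 (nat_lit 192) (nat_lit 209) (nat_lit 5) (nat_lit 6) (nat_lit 8) L99948 (by decide +kernel)
theorem L99950 : W_36 (nat_lit 8) (nat_lit 0x2000300008001400080000000000000000000000000000000) (nat_lit 0x0) (nat_lit 0x40002000b800dc000e0004000000000000000000000000000000000000000) := T_36 (nat_lit 194) (nat_lit 211) (nat_lit 7) (nat_lit 6) (nat_lit 8) L99949 (by decide +kernel)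
theorem L99951 : W_36 (nat_lit 2) (nat_lit 0xa0002000300008001400080000000000000000000000000000000) (nat_lit 0x0) (nat_lit 0x1400040000000000000000000000000000000000000000000000000000) := D_36 (nat_lit 210) (nat_lit 226) (nat_lit 228) (nat_lit 5) (nat_lit 6) (nat_lit 9) (nat_lit 7) (nat_lit 6) (nat_lit 9) (by decide +kernel)
theorem L99952 : W_36 (nat_lit 3) (nat_lit 0x20002000300008001400080000000000000000000000000000000) (nat_lit 0x0) (nat_lit 0x14000c0004000000000000000000000000000000000000000000000000) := T_36 (nat_lit 211) (nat_lit 194) (nat_lit 7) (nat_lit 6) (nat_lit 8) L99951 (by decide +kernel)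
theorem L99953 : W_36 (nat_lit 4) (nat_lit 0x2000300008001400080000000000000000000000000000000) (nat_lit 0x0) (nat_lit 0x14000e0005000000000000000000000000000000000000000000000000) := T_36 (nat_lit 209) (nat_lit 192) (nat_lit 5) (nat_lit 6) (nat_lit 8) L99952 (by decide +kernel)
theorem L99954 : W_36 (nat_lit 9) (nat_lit 0x300008001400080000000000000000000000000000000) (nat_lit 0x0) (nat_lit 0x40016000f800fc000e0006000a00110000000000000000000000000000000) := Q_36 (nat_lit 193) (C_36 L99565 (C_36 L99602 (C_36 L99950 (C_36 L99953 N_36)))) (by decide +kernel)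
theorem L99955 : W_36 (nat_lit 10) (nat_lit 0x300008001000080000000000000000000000000000000) (nat_lit 0x0) (nat_lit 0x40016000f800fc000e0066000e001380038001c000a000000000000000000) := Q_36 (nat_lit 142) (C_36 L99639 (C_36 L99632 (C_36 L99943 (C_36 L99954 N_36)))) (by decide +kernel)
theorem L99956 : W_36 (nat_lit 5) (nat_lit 0x300008001400080000000000000000000000000000000) (nat_lit 0x0) (nat_lit 0x20007000080000000200030000800000000000000000000000000) := T_36 (nat_lit 125) (nat_lit 194) (nat_lit 7) (nat_lit 6) (nat_lit 7) L99594 (by decide +kernel)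
theorem L99957 : W_36 (nat_lit 4) (nat_lit 0x2000300008001400080000000000000000000000000000000) (nat_lit 0x0) (nat_lit 0x400060001000000004000200010000000000000000000000000000000) := T_36 (nat_lit 141) (nat_lit 124) (nat_lit 4) (nat_lit 6) (nat_lit 11) L39113 (by decide +kernel)
theorem L99958 : W_36 (nat_lit 9) (nat_lit 0x300008001400080000000000000000000000000000000) (nat_lit 0x0) (nat_lit 0x14001e000f800fc000e0014000200010000000000000000000000000000000) := Q_36 (nat_lit 193) (C_36 L99953 (C_36 L99957 (C_36 L99582 (C_36 L99950 N_36)))) (by decide +kernel)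
theorem L99959 : W_36 (nat_lit 10) (nat_lit 0x300008001000080000000000000000000000000000000) (nat_lit 0x0) (nat_lit 0x14001e000f800fc000e00140006000300038001c000a000000000000000000) := Q_36 (nat_lit 142) (C_36 L99639 (C_36 L99598 (C_36 L99597 (C_36 L99586 (C_36 L99956 (C_36 L99958 N_36)))))) (by decide +kernel)
theorem L99960 : W_36 (nat_lit 2) (nat_lit 0x300018001000080004000000000000000000000000000) (nat_lit 0x0) (nat_lit 0x4000000000000800000000000200000000000000000000000) := D_36 (nat_lit 143) (nat_lit 93) (nat_lit 194) (nat_lit 5) (nat_lit 8) (nat_lit 5) (nat_lit 6) (nat_lit 7) (nat_lit 11) (by decide +kernel)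
theorem L99961 : W_36 (nat_lit 3) (nat_lit 0x300018001000080000000000000000000000000000000) (nat_lit 0x0) (nat_lit 0x4000000020000800000004000200000000000000000000000) := T_36 (nat_lit 110) (nat_lit 161) (nat_lit 5) (nat_lit 8) (nat_lit 6) L99960 (by decide +kernel)
theorem L99962 : W_36 (nat_lit 2) (nat_lit 0x380018001000080000000000000000000000000000000) (nat_lit 0x0) (nat_lit 0x60020000000000000000000000000000000000000000) := D_36 (nat_lit 174) (nat_lit 161) (nat_lit 173) (nat_lit 2) (nat_lit 4) (nat_lit 10) (nat_lit 2) (nat_lit 3) (nat_lit 10) (by decide +kernel)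
theorem L99963 : W_36 (nat_lit 8) (nat_lit 0x380018001000080000000000000000000000000000000) (nat_lit 0x0) (nat_lit 0x40007000000066000e00130001000000000000000000000000000) := T_36 (nat_lit 143) (nat_lit 194) (nat_lit 6) (nat_lit 7) (nat_lit 11) L72485 (by decide +kernel)
theorem L99964 : W_36 (nat_lit 2) (nat_lit 0x20003a001c001e00080000000000000000000000000000000) (nat_lit 0x0) (nat_lit 0x1000000000000000020001000000000000000000000000000) := D_36 (nat_lit 125) (nat_lit 108) (nat_lit 192) (nat_lit 7) (nat_lit 6) (nat_lit 6) (nat_lit 6) (nat_lit 5) (nat_lit 11) (by decide +kernel)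
theorem L99965 : W_36 (nat_lit 3) (nat_lit 0x20003a001c001a00080000000000000000000000000000000) (nat_lit 0x0) (nat_lit 0x1000000000000400120001000000000000000000000000000) := T_36 (nat_lit 142) (nat_lit 128) (nat_lit 2) (nat_lit 5) (nat_lit 8) L99964 (by decide +kernel)
theorem L99966 : W_36 (nat_lit 4) (nat_lit 0x20003a001c001800080000000000000000000000000000000) (nat_lit 0x0) (nat_lit 0x1000000000000600130001000000000000000000000000000) := T_36 (nat_lit 141) (nat_lit 124) (nat_lit 7) (nat_lit 5) (nat_lit 7) L99965 (by decide +kernel)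
theorem L99967 : W_36 (nat_lit 5) (nat_lit 0x3a001c001800080000000000000000000000000000000) (nat_lit 0x0) (nat_lit 0x40003000000000000600130001000000000000000000000000000) := T_36 (nat_lit 193) (nat_lit 210) (nat_lit 6) (nat_lit 6) (nat_lit 12) L99966 (by decide +kernel)
theorem L99968 : W_36 (nat_lit 6) (nat_lit 0x3a0018001800080000000000000000000000000000000) (nat_lit 0x0) (nat_lit 0x40003000000006000600130001000000000000000000000000000) := T_36 (nat_lit 158) (nat_lit 157) (nat_lit 2) (nat_lit 4) (nat_lit 9) L99967 (by decide +kernel)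
theorem L99969 : W_36 (nat_lit 7) (nat_lit 0x3a0018001000080000000000000000000000000000000) (nat_lit 0x0) (nat_lit 0x40007000000006000e00130001000000000000000000000000000) := T_36 (nat_lit 143) (nat_lit 194) (nat_lit 6) (nat_lit 7) (nat_lit 11) L99968 (by decide +kernel)
theorem L99970 : W_36 (nat_lit 8) (nat_lit 0x380018001000080000000000000000000000000000000) (nat_lit 0x0) (nat_lit 0x40007000060006000e00130001000000000000000000000000000) := T_36 (nat_lit 173) (nat_lit 174) (nat_lit 2) (nat_lit 3) (nat_lit 10) L99969 (by decide +kernel)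
theorem L99971 : W_36 (nat_lit 9) (nat_lit 0x300018001000080000000000000000000000000000000) (nat_lit 0x0) (nat_lit 0x400070000e0066000e00130001000000000000000000000000000) := Q_36 (nat_lit 175) (C_36 L72461 (C_36 L99962 (C_36 L99963 (C_36 L99970 N_36)))) (by decide +kernel)
theorem L99972 : W_36 (nat_lit 3) (nat_lit 0x300018001000080000000000000000000000000000000) (nat_lit 0x0) (nat_lit 0xc0060000000000004000000000000000000000000000) := T_36 (nat_lit 161) (nat_lit 110) (nat_lit 5) (nat_lit 8) (nat_lit 6) L65548 (by decide +kernel)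
theorem L99973 : W_36 (nat_lit 2) (nat_lit 0x300018001400080000000000000000000000000000000) (nat_lit 0x0) (nat_lit 0x4000000000000800020000000000000000000000000000000) := D_36 (nat_lit 194) (nat_lit 143) (nat_lit 125) (nat_lit 6) (nat_lit 7) (nat_lit 11) (nat_lit 7) (nat_lit 6) (nat_lit 7) (by decide +kernel)
theorem L99974 : W_36 (nat_lit 2) (nat_lit 0x300018001400080000000000000000000000000000000) (nat_lit 0x0) (nat_lit 0x4000000000000000020001000000000000000000000000000) := D_36 (nat_lit 125) (nat_lit 194) (nat_lit 108) (nat_lit 7) (nat_lit 6) (nat_lit 7) (nat_lit 7) (nat_lit 6) (nat_lit 6) (by decide +kernel)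
theorem L99975 : W_36 (nat_lit 5) (nat_lit 0x300018001400080000000000000000000000000000000) (nat_lit 0x0) (nat_lit 0x800060003000080000000800020001000000000000000000000000000) := T_36 (nat_lit 125) (nat_lit 108) (nat_lit 7) (nat_lit 6) (nat_lit 6) L99812 (by decide +kernel)
theorem L99976 : W_36 (nat_lit 2) (nat_lit 0x4000000030001a001e00080000000200000000000000000000000) (nat_lit 0x0) (nat_lit 0x1000180000000000000000000000000000000000) := D_36 (nat_lit 140) (nat_lit 156) (nat_lit 139) (nat_lit 1) (nat_lit 7) (nat_lit 8) (nat_lit 3) (nat_lit 3) (nat_lit 8) (by decide +kernel)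
theorem L99977 : W_36 (nat_lit 3) (nat_lit 0x4000000030001a001c00080000000200000000000000000000000) (nat_lit 0x0) (nat_lit 0x1000380100000000000000000000000000000000) := T_36 (nat_lit 141) (nat_lit 128) (nat_lit 2) (nat_lit 5) (nat_lit 8) L99976 (by decide +kernel)
theorem L99978 : W_36 (nat_lit 4) (nat_lit 0x40000000300018001c00080000000200000000000000000000000) (nat_lit 0x0) (nat_lit 0x7000380100000000000000000000000000000000) := T_36 (nat_lit 157) (nat_lit 158) (nat_lit 2) (nat_lit 4) (nat_lit 9) L99977 (by decide +kernel)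
theorem L99979 : W_36 (nat_lit 5) (nat_lit 0x300018001c00080000000200000000000000000000000) (nat_lit 0x0) (nat_lit 0x40002000000007000380100000000000000000000000000000000) := T_36 (nat_lit 210) (nat_lit 193) (nat_lit 6) (nat_lit 6) (nat_lit 12) L99978 (by decide +kernel)
theorem L99980 : W_36 (nat_lit 6) (nat_lit 0x300018001c00080000000000000000000000000000000) (nat_lit 0x0) (nat_lit 0x40002000000007000380100004000200000000000000000000000) := T_36 (nat_lit 93) (nat_lit 110) (nat_lit 5) (nat_lit 8) (nat_lit 5) L99979 (by decide +kernel)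
theorem L99981 : W_36 (nat_lit 7) (nat_lit 0x300018001400080000000000000000000000000000000) (nat_lit 0x0) (nat_lit 0x40006000000007000b80100004000200000000000000000000000) := T_36 (nat_lit 143) (nat_lit 194) (nat_lit 6) (nat_lit 7) (nat_lit 11) L99980 (by decide +kernel)
theorem L99982 : W_36 (nat_lit 8) (nat_lit 0x300018001000080000000000000000000000000000000) (nat_lit 0x0) (nat_lit 0x800060007000080007000f80120005000200000000000000000000000) := Q_36 (nat_lit 142) (C_36 L99973 (C_36 L99974 (C_36 L99975 (C_36 L99981 N_36)))) (by decide +kernel)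
theorem L99983 : W_36 (nat_lit 10) (nat_lit 0x300008001000080000000000000000000000000000000) (nat_lit 0x0) (nat_lit 0x8000600070000e0077000f80130005000200000000000000000000000) := Q_36 (nat_lit 160) (C_36 L99961 (C_36 L99971 (C_36 L99972 (C_36 L99982 N_36)))) (by decide +kernel)
theorem L99984 : W_36 (nat_lit 2) (nat_lit 0x4000300018001000080000000000000000000000000000000) (nat_lit 0x0) (nat_lit 0x1000080000000000000000400000000000000000000000000000000000) := D_36 (nat_lit 211) (nat_lit 228) (nat_lit 142) (nat_lit 4) (nat_lit 7) (nat_lit 13) (nat_lit 4) (nat_lit 7) (nat_lit 12) (by decide +kernel)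
theorem L99985 : W_36 (nat_lit 3) (nat_lit 0x300018001000080000000000000000000000000000000) (nat_lit 0x0) (nat_lit 0x1000080004000000000000c00000000000000000000000000000000000) := T_36 (nat_lit 194) (nat_lit 143) (nat_lit 6) (nat_lit 7) (nat_lit 11) L99984 (by decide +kernel)
theorem L99986 : W_36 (nat_lit 4) (nat_lit 0x300008001000080000000000000000000000000000000) (nat_lit 0x0) (nat_lit 0x10000800040000c0070000c00000004000000000000000000000000000) := Q_36 (nat_lit 160) (C_36 L99972 (C_36 L99985 N_36)) (by decide +kernel)
theorem L99987 : W_36 (nat_lit 2) (nat_lit 0xc000200030003d001000080000000000000000000000000000000) (nat_lit 0x0) (nat_lit 0xc0040000000000000000000000000000000000000000) := D_36 (nat_lit 175) (nat_lit 174) (nat_lit 162) (nat_lit 2) (nat_lit 4) (nat_lit 10) (nat_lit 1) (nat_lit 9) (nat_lit 9) (by decide +kernel)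
theorem L99988 : W_36 (nat_lit 3) (nat_lit 0xc000200030001d001000080000000000000000000000000000000) (nat_lit 0x0) (nat_lit 0xc0060000000000004000000000000000000000000000) := T_36 (nat_lit 161) (nat_lit 110) (nat_lit 5) (nat_lit 8) (nat_lit 6) L99987 (by decide +kernel)
theorem L99989 : W_36 (nat_lit 4) (nat_lit 0xc000200030000d001000080000000000000000000000000000000) (nat_lit 0x0) (nat_lit 0xc0070000800000004000000000000000000000000000) := T_36 (nat_lit 160) (nat_lit 143) (nat_lit 6) (nat_lit 6) (nat_lit 12) L99988 (by decide +kernel)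
theorem L99990 : W_36 (nat_lit 5) (nat_lit 0x4000200030000d001000080000000000000000000000000000000) (nat_lit 0x0) (nat_lit 0x10000800000000c0070000800000004000000000000000000000000000) := T_36 (nat_lit 211) (nat_lit 228) (nat_lit 7) (nat_lit 6) (nat_lit 9) L99989 (by decide +kernel)
theorem L99991 : W_36 (nat_lit 6) (nat_lit 0x4000200030000c001000080000000000000000000000000000000) (nat_lit 0x0) (nat_lit 0x10000800000000c0073000800000004000000000000000000000000000) := T_36 (nat_lit 156) (nat_lit 157) (nat_lit 3) (nat_lit 3) (nat_lit 9) L99990 (by decide +kernel)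
theorem L99992 : W_36 (nat_lit 7) (nat_lit 0x40002000300008001000080000000000000000000000000000000) (nat_lit 0x0) (nat_lit 0x10000800000000c0077000a00000004000000000000000000000000000) := T_36 (nat_lit 158) (nat_lit 141) (nat_lit 4) (nat_lit 6) (nat_lit 12) L99991 (by decide +kernel)
theorem L99993 : W_36 (nat_lit 8) (nat_lit 0x2000300008001000080000000000000000000000000000000) (nat_lit 0x0) (nat_lit 0x200018000c00000000c0077000a00000004000000000000000000000000000) := Q_36 (nat_lit 210) (C_36 L99700 (C_36 L99704 (C_36 L99698 (C_36 L99992 N_36)))) (by decide +kernel)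
theorem L99994 : W_36 (nat_lit 2) (nat_lit 0x80004000200030000d001000080000000000000000000000000000000) (nat_lit 0x0) (nat_lit 0x8000400020000000000000000000000000000000000000000000000000000) := D_36 (nat_lit 226) (nat_lit 209) (nat_lit 243) (nat_lit 5) (nat_lit 6) (nat_lit 9) (nat_lit 5) (nat_lit 6) (nat_lit 10) (by decide +kernel)
theorem L99995 : W_36 (nat_lit 3) (nat_lit 0x4000200030000d001000080000000000000000000000000000000) (nat_lit 0x0) (nat_lit 0x8000c00020000000080000000000000000000000000000000000000000000) := T_36 (nat_lit 227) (nat_lit 175) (nat_lit 4) (nat_lit 6) (nat_lit 13) L99994 (by decide +kernel)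
theorem L99996 : W_36 (nat_lit 4) (nat_lit 0x4000200030000c001000080000000000000000000000000000000) (nat_lit 0x0) (nat_lit 0x8000c00020000000080003000000000000000000000000000000000000000) := T_36 (nat_lit 156) (nat_lit 157) (nat_lit 3) (nat_lit 3) (nat_lit 9) L99995 (by decide +kernel)
theorem L99997 : W_36 (nat_lit 5) (nat_lit 0x40002000300008001000080000000000000000000000000000000) (nat_lit 0x0) (nat_lit 0x8000c00020000000080007000200000000000000000000000000000000000) := T_36 (nat_lit 158) (nat_lit 141) (nat_lit 4) (nat_lit 6) (nat_lit 12) L99996 (by decide +kernel)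
theorem L99998 : W_36 (nat_lit 6) (nat_lit 0x2000300008001000080000000000000000000000000000000) (nat_lit 0x0) (nat_lit 0x28001c001e0001c00080007000600000000000000000000000000000000000) := Q_36 (nat_lit 210) (C_36 L99718 (C_36 L99997 (C_36 L99704 N_36))) (by decide +kernel)
theorem L99999 : W_36 (nat_lit 2) (nat_lit 0x30003000180014000b0000000000000000000000000000000) (nat_lit 0x0) (nat_lit 0x800040000000000000000800000000000000000000000000000000000) := D_36 (nat_lit 210) (nat_lit 227) (nat_lit 143) (nat_lit 6) (nat_lit 6) (nat_lit 13) (nat_lit 6) (nat_lit 6) (nat_lit 12) (by decide +kernel)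
theorem L100000 : W_36 (nat_lit 3) (nat_lit 0x30003000080014000b0000000000000000000000000000000) (nat_lit 0x0) (nat_lit 0x800040000000000010000800000001000000000000000000000000000) := T_36 (nat_lit 160) (nat_lit 108) (nat_lit 7) (nat_lit 6) (nat_lit 6) L99999 (by decide +kernel)
theorem L100001 : W_36 (nat_lit 4) (nat_lit 0x30003000080014000a0000000000000000000000000000000) (nat_lit 0x0) (nat_lit 0x800040000000000010000800010001800000000000000000000000000) := T_36 (nat_lit 124) (nat_lit 107) (nat_lit 4) (nat_lit 6) (nat_lit 10) L100000 (by decide +kernel)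
theorem L100002 : W_36 (nat_lit 5) (nat_lit 0x3000300008001400080000000000000000000000000000000) (nat_lit 0x0) (nat_lit 0x800040000000080010000800030001800000000000000000000000000) := T_36 (nat_lit 125) (nat_lit 175) (nat_lit 5) (nat_lit 6) (nat_lit 7) L100001 (by decide +kernel)
theorem L100003 : W_36 (nat_lit 6) (nat_lit 0x2000300008001400080000000000000000000000000000000) (nat_lit 0x0) (nat_lit 0x800060001000080010000800030001800000000000000000000000000) := T_36 (nat_lit 192) (nat_lit 209) (nat_lit 5) (nat_lit 6) (nat_lit 8) L100002 (by decide +kernel)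
theorem L100004 : W_36 (nat_lit 6) (nat_lit 0x2000300008001e00080000000000000000000000000000000) (nat_lit 0x0) (nat_lit 0x30001c00080066000000020000000000000000000000000000000) := T_36 (nat_lit 158) (nat_lit 157) (nat_lit 1) (nat_lit 8) (nat_lit 8) L39138 (by decide +kernel)
theorem L100005 : W_36 (nat_lit 7) (nat_lit 0x2000300008001600080000000000000000000000000000000) (nat_lit 0x0) (nat_lit 0x30001c00080066000800120000000000000000000000000000000) := T_36 (nat_lit 143) (nat_lit 128) (nat_lit 2) (nat_lit 5) (nat_lit 8) L100004 (by decide +kernel)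
theorem L100006 : W_36 (nat_lit 8) (nat_lit 0x2000300008001400080000000000000000000000000000000) (nat_lit 0x0) (nat_lit 0x30001c00080066000a00130000000000000000000000000000000) := T_36 (nat_lit 141) (nat_lit 124) (nat_lit 4) (nat_lit 6) (nat_lit 11) L100005 (by decide +kernel)
theorem L100007 : W_36 (nat_lit 2) (nat_lit 0x34003000080014000a0007800400000000000000000000000) (nat_lit 0x0) (nat_lit 0x20000000000008000800000000000000000000000) := D_36 (nat_lit 111) (nat_lit 95) (nat_lit 161) (nat_lit 2) (nat_lit 6) (nat_lit 6) (nat_lit 6) (nat_lit 8) (nat_lit 9) (by decide +kernel)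
theorem L100008 : W_36 (nat_lit 3) (nat_lit 0x34003000080014000a0007800000000000000000000000000) (nat_lit 0x0) (nat_lit 0x20000000000008000e00000000000000000000000) := T_36 (nat_lit 94) (nat_lit 93) (nat_lit 2) (nat_lit 5) (nat_lit 6) L100007 (by decide +kernel)
theorem L100009 : W_36 (nat_lit 4) (nat_lit 0x34003000080014000a0003800000000000000000000000000) (nat_lit 0x0) (nat_lit 0x2000000010000c000e00000000000000000000000) := T_36 (nat_lit 110) (nat_lit 128) (nat_lit 3) (nat_lit 5) (nat_lit 6) L100008 (by decide +kernel)
theorem L100010 : W_36 (nat_lit 5) (nat_lit 0x34003000080014000a0003000000000000000000000000000) (nat_lit 0x0) (nat_lit 0x2000000010000c800e40000000000000000000000) := T_36 (nat_lit 107) (nat_lit 90) (nat_lit 4) (nat_lit 6) (nat_lit 9) L100009 (by decide +kernel)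
theorem L100011 : W_36 (nat_lit 6) (nat_lit 0x34003000080014000a0001000000000000000000000000000) (nat_lit 0x0) (nat_lit 0x2000000010000e800f40000000000000000000000) := T_36 (nat_lit 109) (nat_lit 92) (nat_lit 6) (nat_lit 6) (nat_lit 9) L100010 (by decide +kernel)
theorem L100012 : W_36 (nat_lit 7) (nat_lit 0x34003000080014000a0000000000000000000000000000000) (nat_lit 0x0) (nat_lit 0x3000000010000f800f40000000000000000000000) := T_36 (nat_lit 108) (nat_lit 160) (nat_lit 7) (nat_lit 6) (nat_lit 6) L100011 (by decide +kernel)
theorem L100013 : W_36 (nat_lit 8) (nat_lit 0x30003000080014000a0000000000000000000000000000000) (nat_lit 0x0) (nat_lit 0xc0000003000000010000f800f40000000000000000000000) := T_36 (nat_lit 190) (nat_lit 191) (nat_lit 2) (nat_lit 3) (nat_lit 11) L100012 (by decide +kernel)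
theorem L100014 : W_36 (nat_lit 9) (nat_lit 0x3000300008001400080000000000000000000000000000000) (nat_lit 0x0) (nat_lit 0xc0008003000000012000f800f40000000000000000000000) := T_36 (nat_lit 125) (nat_lit 175) (nat_lit 5) (nat_lit 6) (nat_lit 7) L100013 (by decide +kernel)
theorem L100015 : W_36 (nat_lit 10) (nat_lit 0x2000300008001400080000000000000000000000000000000) (nat_lit 0x0) (nat_lit 0x20001c0008003000000012000f800f40000000000000000000000) := T_36 (nat_lit 192) (nat_lit 209) (nat_lit 5) (nat_lit 6) (nat_lit 8) L100014 (by decide +kernel)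
theorem L100016 : W_36 (nat_lit 11) (nat_lit 0x2000300008001000080000000000000000000000000000000) (nat_lit 0x0) (nat_lit 0xc00070001c00080076000e0013000f800f40000000000000000000000) := Q_36 (nat_lit 142) (C_36 L99957 (C_36 L100003 (C_36 L99602 (C_36 L100006 (C_36 L100015 N_36))))) (by decide +kernel)
theorem L100017 : W_36 (nat_lit 2) (nat_lit 0x4000200030003d001000080000000000000000000000000000000) (nat_lit 0x0) (nat_lit 0xc0040000000000000000000000000000000000000000) := D_36 (nat_lit 175) (nat_lit 174) (nat_lit 162) (nat_lit 2) (nat_lit 4) (nat_lit 10) (nat_lit 1) (nat_lit 9) (nat_lit 9) (by decide +kernel)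
theorem L100018 : W_36 (nat_lit 3) (nat_lit 0x4000200030001d001000080000000000000000000000000000000) (nat_lit 0x0) (nat_lit 0xc0060000000000004000000000000000000000000000) := T_36 (nat_lit 161) (nat_lit 110) (nat_lit 5) (nat_lit 8) (nat_lit 6) L100017 (by decide +kernel)
theorem L100019 : W_36 (nat_lit 4) (nat_lit 0x4000200030000d001000080000000000000000000000000000000) (nat_lit 0x0) (nat_lit 0xc0070000800000004000000000000000000000000000) := T_36 (nat_lit 160) (nat_lit 143) (nat_lit 6) (nat_lit 6) (nat_lit 12) L100018 (by decide +kernel)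
theorem L100020 : W_36 (nat_lit 5) (nat_lit 0x4000200030000c001000080000000000000000000000000000000) (nat_lit 0x0) (nat_lit 0xc0073000800000004000000000000000000000000000) := T_36 (nat_lit 156) (nat_lit 157) (nat_lit 3) (nat_lit 3) (nat_lit 9) L100019 (by decide +kernel)
theorem L100021 : W_36 (nat_lit 6) (nat_lit 0x40002000300008001000080000000000000000000000000000000) (nat_lit 0x0) (nat_lit 0xc0077000a00000004000000000000000000000000000) := T_36 (nat_lit 158) (nat_lit 141) (nat_lit 4) (nat_lit 6) (nat_lit 12) L100020 (by decide +kernel)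
theorem L100022 : W_36 (nat_lit 8) (nat_lit 0x2000300008001000080000000000000000000000000000000) (nat_lit 0x0) (nat_lit 0x14001e0001c000c0077000e00000004000000000000000000000000000) := Q_36 (nat_lit 210) (C_36 L99718 (C_36 L99992 (C_36 L100021 N_36))) (by decide +kernel)
theorem L100023 : W_36 (nat_lit 2) (nat_lit 0x34003000080016000a0003000080000000000000000000000) (nat_lit 0x0) (nat_lit 0x800040002000000000000000000) := D_36 (nat_lit 90) (nat_lit 73) (nat_lit 107) (nat_lit 4) (nat_lit 6) (nat_lit 8) (nat_lit 4) (nat_lit 6) (nat_lit 9) (by decide +kernel)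
theorem L100024 : W_36 (nat_lit 3) (nat_lit 0x34003000080016000a0003000000000000000000000000000) (nat_lit 0x0) (nat_lit 0x40000000000008000c0002000000000000000000) := T_36 (nat_lit 91) (nat_lit 158) (nat_lit 5) (nat_lit 6) (nat_lit 5) L100023 (by decide +kernel)
theorem L100025 : W_36 (nat_lit 4) (nat_lit 0x34003000080016000a0001000000000000000000000000000) (nat_lit 0x0) (nat_lit 0x40000000000028001c0002000000000000000000) := T_36 (nat_lit 109) (nat_lit 92) (nat_lit 6) (nat_lit 6) (nat_lit 9) L100024 (by decide +kernel)
theorem L100026 : W_36 (nat_lit 5) (nat_lit 0x34003000080016000a0000000000000000000000000000000) (nat_lit 0x0) (nat_lit 0x140000000000038001c0002000000000000000000) := T_36 (nat_lit 108) (nat_lit 160) (nat_lit 7) (nat_lit 6) (nat_lit 6) L100025 (by decide +kernel)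
theorem L100027 : W_36 (nat_lit 6) (nat_lit 0x30003000080016000a0000000000000000000000000000000) (nat_lit 0x0) (nat_lit 0xc000000140000000000038001c0002000000000000000000) := T_36 (nat_lit 190) (nat_lit 191) (nat_lit 2) (nat_lit 3) (nat_lit 11) L100026 (by decide +kernel)
theorem L100028 : W_36 (nat_lit 7) (nat_lit 0x3000300008001600080000000000000000000000000000000) (nat_lit 0x0) (nat_lit 0xc000800140000000200038001c0002000000000000000000) := T_36 (nat_lit 125) (nat_lit 175) (nat_lit 5) (nat_lit 6) (nat_lit 7) L100027 (by decide +kernel)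
theorem L100029 : W_36 (nat_lit 8) (nat_lit 0x2000300008001600080000000000000000000000000000000) (nat_lit 0x0) (nat_lit 0x20001c000800140000000200038001c0002000000000000000000) := T_36 (nat_lit 192) (nat_lit 209) (nat_lit 5) (nat_lit 6) (nat_lit 8) L100028 (by decide +kernel)
theorem L100030 : W_36 (nat_lit 9) (nat_lit 0x2000300008001400080000000000000000000000000000000) (nat_lit 0x0) (nat_lit 0x20001c000800140002000300038001c0002000000000000000000) := T_36 (nat_lit 141) (nat_lit 124) (nat_lit 4) (nat_lit 6) (nat_lit 11) L100029 (by decide +kernel)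
theorem L100031 : W_36 (nat_lit 8) (nat_lit 0x2000300008001400080000000000000000000000000000000) (nat_lit 0x0) (nat_lit 0x20001000000017000b8011e000000000000000000000000000000) := T_36 (nat_lit 192) (nat_lit 209) (nat_lit 5) (nat_lit 6) (nat_lit 8) L99739 (by decide +kernel)
theorem L100032 : W_36 (nat_lit 2) (nat_lit 0x200030002c001e00080000000000000000000000000000000) (nat_lit 0x0) (nat_lit 0x10000100000004000000000000000000000000000) := D_36 (nat_lit 160) (nat_lit 140) (nat_lit 110) (nat_lit 3) (nat_lit 4) (nat_lit 8) (nat_lit 5) (nat_lit 8) (nat_lit 6) (by decide +kernel)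
theorem L100033 : W_36 (nat_lit 3) (nat_lit 0x200030000c001e00080000000000000000000000000000000) (nat_lit 0x0) (nat_lit 0x70000100000004000000000000000000000000000) := T_36 (nat_lit 161) (nat_lit 162) (nat_lit 3) (nat_lit 5) (nat_lit 8) L100032 (by decide +kernel)
theorem L100034 : W_36 (nat_lit 4) (nat_lit 0x2000300008001e00080000000000000000000000000000000) (nat_lit 0x0) (nat_lit 0x76000100000004000000000000000000000000000) := T_36 (nat_lit 158) (nat_lit 157) (nat_lit 1) (nat_lit 8) (nat_lit 8) L100033 (by decide +kernel)
theorem L100035 : W_36 (nat_lit 5) (nat_lit 0x2000300008001600080000000000000000000000000000000) (nat_lit 0x0) (nat_lit 0x76000900100004000000000000000000000000000) := T_36 (nat_lit 143) (nat_lit 128) (nat_lit 2) (nat_lit 5) (nat_lit 8) L100034 (by decide +kernel)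
theorem L100036 : W_36 (nat_lit 6) (nat_lit 0x2000300008001400080000000000000000000000000000000) (nat_lit 0x0) (nat_lit 0x76000b00110004000000000000000000000000000) := T_36 (nat_lit 141) (nat_lit 124) (nat_lit 4) (nat_lit 6) (nat_lit 11) L100035 (by decide +kernel)
theorem L100037 : W_36 (nat_lit 11) (nat_lit 0x2000300008001000080000000000000000000000000000000) (nat_lit 0x0) (nat_lit 0x30001c00080077000f8013e00f800fc0002000000000000000000) := Q_36 (nat_lit 142) (C_36 L100015 (C_36 L100006 (C_36 L100030 (C_36 L100031 (C_36 L100036 N_36))))) (by decide +kernel)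
theorem L100038 : W_36 (nat_lit 12) (nat_lit 0x300008001000080000000000000000000000000000000) (nat_lit 0x0) (nat_lit 0x28001c001f0003c000c0077000f8013e00f800fc0002000000000000000000) := Q_36 (nat_lit 193) (C_36 L99733 (C_36 L99993 (C_36 L99720 (C_36 L99998 (C_36 L100016 (C_36 L100022 (C_36 L100037 N_36))))))) (by decide +kernel)
theorem L100039 : W_36 (nat_lit 3) (nat_lit 0x300078001000080000000000000000000000000000000) (nat_lit 0x0) (nat_lit 0x80004000000000000600020000000000000000000000000000000) := T_36 (nat_lit 194) (nat_lit 211) (nat_lit 6) (nat_lit 7) (nat_lit 12) L75268 (by decide +kernel)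
theorem L100040 : W_36 (nat_lit 4) (nat_lit 0x300038001000080000000000000000000000000000000) (nat_lit 0x0) (nat_lit 0x800040000000c0000600020000000000000000000000000000000) := T_36 (nat_lit 162) (nat_lit 163) (nat_lit 1) (nat_lit 10) (nat_lit 9) L100039 (by decide +kernel)
theorem L100041 : W_36 (nat_lit 5) (nat_lit 0x300018001000080000000000000000000000000000000) (nat_lit 0x0) (nat_lit 0x800040000000e0000600020004000000000000000000000000000) := T_36 (nat_lit 161) (nat_lit 110) (nat_lit 5) (nat_lit 8) (nat_lit 6) L100040 (by decide +kernel)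
theorem L100042 : W_36 (nat_lit 2) (nat_lit 0x300018001000080004000200028000000000000000000) (nat_lit 0x0) (nat_lit 0x10001400000000000000) := D_36 (nat_lit 76) (nat_lit 58) (nat_lit 60) (nat_lit 4) (nat_lit 8) (nat_lit 7) (nat_lit 6) (nat_lit 8) (nat_lit 7) (by decide +kernel)
theorem L100043 : W_36 (nat_lit 3) (nat_lit 0x300018001000080004000200008000000000000000000) (nat_lit 0x0) (nat_lit 0x400030001400000000000000) := T_36 (nat_lit 77) (nat_lit 94) (nat_lit 6) (nat_lit 8) (nat_lit 8) L100042 (by decide +kernel)
theorem L100044 : W_36 (nat_lit 4) (nat_lit 0x300018001000080004000200000000000000000000000) (nat_lit 0x0) (nat_lit 0x500038001400000000000000) := T_36 (nat_lit 75) (nat_lit 92) (nat_lit 4) (nat_lit 8) (nat_lit 8) L100043 (by decide +kernel)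
theorem L100045 : W_36 (nat_lit 5) (nat_lit 0x300018001000080004000000000000000000000000000) (nat_lit 0x0) (nat_lit 0x800000000000700038001400000000000000) := T_36 (nat_lit 93) (nat_lit 143) (nat_lit 5) (nat_lit 8) (nat_lit 5) L100044 (by decide +kernel)
theorem L100046 : W_36 (nat_lit 6) (nat_lit 0x300018001000080000000000000000000000000000000) (nat_lit 0x0) (nat_lit 0x20000800000004000700038001400000000000000) := T_36 (nat_lit 110) (nat_lit 161) (nat_lit 5) (nat_lit 8) (nat_lit 6) L100045 (by decide +kernel)
theorem L100047 : W_36 (nat_lit 7) (nat_lit 0x300008001000080000000000000000000000000000000) (nat_lit 0x0) (nat_lit 0x10000800040000000f0000e00020004000700038001400000000000000) := Q_36 (nat_lit 160) (C_36 L99985 (C_36 L99961 (C_36 L100041 (C_36 L100046 N_36)))) (by decide +kernel)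
theorem L100048 : W_36 (nat_lit 2) (nat_lit 0x4000300018001000080000000000000000000000000000000) (nat_lit 0x0) (nat_lit 0x1000080000000000020000000000000000000000000000000000000000) := D_36 (nat_lit 211) (nat_lit 228) (nat_lit 161) (nat_lit 4) (nat_lit 7) (nat_lit 13) (nat_lit 6) (nat_lit 7) (nat_lit 12) (by decide +kernel)
theorem L100049 : W_36 (nat_lit 3) (nat_lit 0x300018001000080000000000000000000000000000000) (nat_lit 0x0) (nat_lit 0x1000080004000000020000800000000000000000000000000000000000) := T_36 (nat_lit 194) (nat_lit 143) (nat_lit 6) (nat_lit 7) (nat_lit 11) L100048 (by decide +kernel)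
theorem L100050 : W_36 (nat_lit 2) (nat_lit 0x2000300018001000080000000000000000000000000000000) (nat_lit 0x0) (nat_lit 0x40004000000000000800000000000000000000000000000000000) := D_36 (nat_lit 143) (nat_lit 194) (nat_lit 210) (nat_lit 6) (nat_lit 7) (nat_lit 11) (nat_lit 6) (nat_lit 6) (nat_lit 12) (by decide +kernel)
theorem L100051 : W_36 (nat_lit 2) (nat_lit 0xe000200034001e001100080000000000000000000000000000000) (nat_lit 0x0) (nat_lit 0x1800080000000000000000000000000000000000000000000) := D_36 (nat_lit 192) (nat_lit 175) (nat_lit 191) (nat_lit 4) (nat_lit 5) (nat_lit 12) (nat_lit 7) (nat_lit 4) (nat_lit 8) (by decide +kernel)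
theorem L100052 : W_36 (nat_lit 3) (nat_lit 0xe000200034001e001000080000000000000000000000000000000) (nat_lit 0x0) (nat_lit 0x1800080000000180000000000000000000000000000000000) := T_36 (nat_lit 140) (nat_lit 139) (nat_lit 0) (nat_lit 7) (nat_lit 9) L100051 (by decide +kernel)
theorem L100053 : W_36 (nat_lit 4) (nat_lit 0xe000200030001e001000080000000000000000000000000000000) (nat_lit 0x0) (nat_lit 0x18000e0000000180000000000000000000000000000000000) := T_36 (nat_lit 174) (nat_lit 173) (nat_lit 1) (nat_lit 7) (nat_lit 9) L100052 (by decide +kernel)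
theorem L100054 : W_36 (nat_lit 5) (nat_lit 0xe000200030001c001000080000000000000000000000000000000) (nat_lit 0x0) (nat_lit 0x18000e0003000180000000000000000000000000000000000) := T_36 (nat_lit 157) (nat_lit 156) (nat_lit 3) (nat_lit 3) (nat_lit 9) L100053 (by decide +kernel)
theorem L100055 : W_36 (nat_lit 6) (nat_lit 0xe0002000300018001000080000000000000000000000000000000) (nat_lit 0x0) (nat_lit 0x18000e0007000380000000000000000000000000000000000) := T_36 (nat_lit 158) (nat_lit 141) (nat_lit 4) (nat_lit 6) (nat_lit 12) L100054 (by decide +kernel)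
theorem L100056 : W_36 (nat_lit 7) (nat_lit 0x60002000300018001000080000000000000000000000000000000) (nat_lit 0x0) (nat_lit 0x10000800018000e0007000380000000000000000000000000000000000) := T_36 (nat_lit 211) (nat_lit 228) (nat_lit 7) (nat_lit 6) (nat_lit 9) L100055 (by decide +kernel)
theorem L100057 : W_36 (nat_lit 8) (nat_lit 0x40002000300018001000080000000000000000000000000000000) (nat_lit 0x0) (nat_lit 0x14000a00018000e0007000380000000000000000000000000000000000) := T_36 (nat_lit 209) (nat_lit 226) (nat_lit 5) (nat_lit 6) (nat_lit 9) L100056 (by decide +kernel)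
theorem L100058 : W_36 (nat_lit 9) (nat_lit 0x2000300018001000080000000000000000000000000000000) (nat_lit 0x0) (nat_lit 0x1c000e00018000e0007000380000000000000000000000000000000000) := T_36 (nat_lit 210) (nat_lit 227) (nat_lit 6) (nat_lit 6) (nat_lit 13) L100057 (by decide +kernel)
theorem L100059 : W_36 (nat_lit 5) (nat_lit 0x6000300018001000080000000000000000000000000000000) (nat_lit 0x0) (nat_lit 0x3000780009800000000000000000000000000000000000000000000000) := T_36 (nat_lit 211) (nat_lit 228) (nat_lit 4) (nat_lit 7) (nat_lit 13) L14870 (by decide +kernel)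
theorem L100060 : W_36 (nat_lit 6) (nat_lit 0x2000300018001000080000000000000000000000000000000) (nat_lit 0x0) (nat_lit 0x300078000d800000000000800000000000000000000000000000000000) := T_36 (nat_lit 194) (nat_lit 143) (nat_lit 6) (nat_lit 7) (nat_lit 11) L100059 (by decide +kernel)
theorem L100061 : W_36 (nat_lit 10) (nat_lit 0x300018001000080000000000000000000000000000000) (nat_lit 0x0) (nat_lit 0x3c007e000f8000e0007000b80000000000000000000000000000000000) := Q_36 (nat_lit 193) (C_36 L100050 (C_36 L100058 (C_36 L100060 N_36))) (by decide +kernel)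
theorem L100062 : W_36 (nat_lit 11) (nat_lit 0x300008001000080000000000000000000000000000000) (nat_lit 0x0) (nat_lit 0x3c007e000f8000e0077000b80000004000700038001400000000000000) := Q_36 (nat_lit 160) (C_36 L100046 (C_36 L100049 (C_36 L99972 (C_36 L100061 N_36)))) (by decide +kernel)
theorem L100063 : W_36 (nat_lit 13) (nat_lit 0x300000001000080000000000000000000000000000000) (nat_lit 0x0) (nat_lit 0x3c003e007f800fc000e00ff000f8013e00f800fc003a001400000000000000) := Q_36 (nat_lit 159) (C_36 L99955 (C_36 L99959 (C_36 L99983 (C_36 L99986 (C_36 L100038 (C_36 L100047 (C_36 L100062 N_36))))))) (by decide +kernel)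
theorem L100064 : W_36 (nat_lit 9) (nat_lit 0x4000300000001000080000000000000000000000000000000) (nat_lit 0x0) (nat_lit 0x10000800eb003c001ec000400020000000000000000000000000000000) := T_36 (nat_lit 178) (nat_lit 161) (nat_lit 5) (nat_lit 8) (nat_lit 7) L99877 (by decide +kernel)
theorem L100065 : W_36 (nat_lit 2) (nat_lit 0x4000300010001000080000000000000000000000000000000) (nat_lit 0x0) (nat_lit 0x80000000000020000000000004000000000000000000000000000) := D_36 (nat_lit 161) (nat_lit 110) (nat_lit 211) (nat_lit 5) (nat_lit 8) (nat_lit 6) (nat_lit 6) (nat_lit 7) (nat_lit 12) (by decide +kernel)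
theorem L100066 : W_36 (nat_lit 3) (nat_lit 0x4000300000001000080000000000000000000000000000000) (nat_lit 0x0) (nat_lit 0x80000000000030000800000004000000000000000000000000000) := T_36 (nat_lit 160) (nat_lit 143) (nat_lit 6) (nat_lit 7) (nat_lit 11) L100065 (by decide +kernel)
theorem L100067 : W_36 (nat_lit 2) (nat_lit 0x4000300010001000080000000000000000000000000000000) (nat_lit 0x0) (nat_lit 0x400020000000000004000000000000000000000000000) := D_36 (nat_lit 161) (nat_lit 110) (nat_lit 178) (nat_lit 5) (nat_lit 8) (nat_lit 6) (nat_lit 5) (nat_lit 8) (nat_lit 7) (by decide +kernel)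
theorem L100068 : W_36 (nat_lit 3) (nat_lit 0x4000300000001000080000000000000000000000000000000) (nat_lit 0x0) (nat_lit 0x400030000800000004000000000000000000000000000) := T_36 (nat_lit 160) (nat_lit 143) (nat_lit 6) (nat_lit 7) (nat_lit 11) L100067 (by decide +kernel)
theorem L100069 : W_36 (nat_lit 12) (nat_lit 0x4000300000001000080000000000000000000000000000000) (nat_lit 0x0) (nat_lit 0x3c007f800ac00ce001f000f80138000400000000000000000000000000) := Q_36 (nat_lit 159) (C_36 L99546 (C_36 L99836 (C_36 L14840 (C_36 L14838 N_36)))) (by decide +kernel)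
theorem L100070 : W_36 (nat_lit 13) (nat_lit 0x300000001000080000000000000000000000000000000) (nat_lit 0x0) (nat_lit 0x3c007f80efc03ce01ff000f80138004400000000000000000000000000) := Q_36 (nat_lit 194) (C_36 L100064 (C_36 L100066 (C_36 L100068 (C_36 L100069 N_36)))) (by decide +kernel)
theorem L100071 : W_36 (nat_lit 14) (nat_lit 0x380000001000080000000000000000000000000000000) (nat_lit 0x0) (nat_lit 0x200030003c00c400ee00060013800f8005e0000000000000000000000) := Q_36 (nat_lit 178) (C_36 L76572 (C_36 L74450 (C_36 L99853 (C_36 L99867 N_36)))) (by decide +kernel)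
theorem L100072 : W_36 (nat_lit 4) (nat_lit 0x3c0000001000080000000000000000000000000000000) (nat_lit 0x0) (nat_lit 0x1c00400007000000000000000000000000000000000000000) := T_36 (nat_lit 191) (nat_lit 190) (nat_lit 1) (nat_lit 7) (nat_lit 10) L73082 (by decide +kernel)
theorem L100073 : W_36 (nat_lit 2) (nat_lit 0x1000000004003f0016001100080000000000000000000000000000000) (nat_lit 0x0) (nat_lit 0x20003000000000000000000000000000000000000000000000000) := D_36 (nat_lit 192) (nat_lit 193) (nat_lit 209) (nat_lit 3) (nat_lit 2) (nat_lit 10) (nat_lit 4) (nat_lit 5) (nat_lit 12) (by decide +kernel)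
theorem L100074 : W_36 (nat_lit 3) (nat_lit 0x1000000004003f0016001000080000000000000000000000000000000) (nat_lit 0x0) (nat_lit 0x20003000000000000100008000000000000000000000000000000) := T_36 (nat_lit 140) (nat_lit 123) (nat_lit 5) (nat_lit 4) (nat_lit 7) L100073 (by decide +kernel)
theorem L100075 : W_36 (nat_lit 4) (nat_lit 0x1000000004003e0016001000080000000000000000000000000000000) (nat_lit 0x0) (nat_lit 0x20003000018000000100008000000000000000000000000000000) := T_36 (nat_lit 172) (nat_lit 171) (nat_lit 2) (nat_lit 1) (nat_lit 10) L100074 (by decide +kernel)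
theorem L100076 : W_36 (nat_lit 5) (nat_lit 0x4003e0016001000080000000000000000000000000000000) (nat_lit 0x0) (nat_lit 0x100028003000018000000100008000000000000000000000000000000) := T_36 (nat_lit 224) (nat_lit 207) (nat_lit 6) (nat_lit 3) (nat_lit 13) L100075 (by decide +kernel)
theorem L100077 : W_36 (nat_lit 6) (nat_lit 0x4003e0012001000080000000000000000000000000000000) (nat_lit 0x0) (nat_lit 0x100028003000418004000100008000000000000000000000000000000) := T_36 (nat_lit 158) (nat_lit 178) (nat_lit 0) (nat_lit 8) (nat_lit 10) L100076 (by decide +kernel)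
theorem L100078 : W_36 (nat_lit 7) (nat_lit 0x3e0012001000080000000000000000000000000000000) (nat_lit 0x0) (nat_lit 0x100028003600418004000100008000000000000000000000000000000) := T_36 (nat_lit 190) (nat_lit 189) (nat_lit 1) (nat_lit 6) (nat_lit 10) L100077 (by decide +kernel)
theorem L100079 : W_36 (nat_lit 8) (nat_lit 0x3c0012001000080000000000000000000000000000000) (nat_lit 0x0) (nat_lit 0x10002800360043800c000100008000000000000000000000000000000) := T_36 (nat_lit 173) (nat_lit 159) (nat_lit 2) (nat_lit 3) (nat_lit 10) L100078 (by decide +kernel)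
theorem L100080 : W_36 (nat_lit 9) (nat_lit 0x3c0002001000080000000000000000000000000000000) (nat_lit 0x0) (nat_lit 0x10002800360043803c000100008000000000000000000000000000000) := T_36 (nat_lit 160) (nat_lit 161) (nat_lit 2) (nat_lit 4) (nat_lit 10) L100079 (by decide +kernel)
theorem L100081 : W_36 (nat_lit 10) (nat_lit 0x3c0000001000080000000000000000000000000000000) (nat_lit 0x0) (nat_lit 0x10002800360043803f000100008000000000000000000000000000000) := T_36 (nat_lit 157) (nat_lit 156) (nat_lit 0) (nat_lit 7) (nat_lit 10) L100080 (by decide +kernel)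
theorem L100082 : W_36 (nat_lit 11) (nat_lit 0x380000001000080000000000000000000000000000000) (nat_lit 0x0) (nat_lit 0x100028003e00c7803f000100008000000000000000000000000000000) := Q_36 (nat_lit 174) (C_36 L71633 (C_36 L100072 (C_36 L100081 (C_36 L74840 N_36)))) (by decide +kernel)
theorem L100083 : W_36 (nat_lit 2) (nat_lit 0x4003c0011001000080000000000000000000000000000000) (nat_lit 0x0) (nat_lit 0x200020000800000000000000000000000000000000000000) := D_36 (nat_lit 173) (nat_lit 155) (nat_lit 189) (nat_lit 0) (nat_lit 6) (nat_lit 10) (nat_lit 1) (nat_lit 6) (nat_lit 10) (by decide +kernel)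
theorem L100084 : W_36 (nat_lit 3) (nat_lit 0x3c0011001000080000000000000000000000000000000) (nat_lit 0x0) (nat_lit 0xe00020000800000000000000000000000000000000000000) := T_36 (nat_lit 190) (nat_lit 191) (nat_lit 1) (nat_lit 7) (nat_lit 10) L100083 (by decide +kernel)
theorem L100085 : W_36 (nat_lit 4) (nat_lit 0x3c0010001000080000000000000000000000000000000) (nat_lit 0x0) (nat_lit 0xe00020003800000000000000000000000000000000000000) := T_36 (nat_lit 156) (nat_lit 157) (nat_lit 0) (nat_lit 7) (nat_lit 10) L100084 (by decide +kernel)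
theorem L100086 : W_36 (nat_lit 5) (nat_lit 0x3c0000001000080000000000000000000000000000000) (nat_lit 0x0) (nat_lit 0xe00020033800000000000000000000000000000000000000) := T_36 (nat_lit 160) (nat_lit 161) (nat_lit 2) (nat_lit 4) (nat_lit 10) L100085 (by decide +kernel)
theorem L100087 : W_36 (nat_lit 2) (nat_lit 0x8003c0014001200080000000000000000000000000000000) (nat_lit 0x0) (nat_lit 0x200010001000000000000000000000000000000000000000000000000) := D_36 (nat_lit 208) (nat_lit 225) (nat_lit 192) (nat_lit 6) (nat_lit 4) (nat_lit 13) (nat_lit 5) (nat_lit 5) (nat_lit 8) (by decide +kernel)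
theorem L100088 : W_36 (nat_lit 3) (nat_lit 0x8003c0014001000080000000000000000000000000000000) (nat_lit 0x0) (nat_lit 0x200010001000000000000200010000000000000000000000000000000) := T_36 (nat_lit 141) (nat_lit 124) (nat_lit 5) (nat_lit 5) (nat_lit 7) L100087 (by decide +kernel)
theorem L100089 : W_36 (nat_lit 4) (nat_lit 0x3c0014001000080000000000000000000000000000000) (nat_lit 0x0) (nat_lit 0x200010001c00000000000200010000000000000000000000000000000) := T_36 (nat_lit 191) (nat_lit 190) (nat_lit 1) (nat_lit 7) (nat_lit 10) L100088 (by decide +kernel)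
theorem L100090 : W_36 (nat_lit 5) (nat_lit 0x3c0004001000080000000000000000000000000000000) (nat_lit 0x0) (nat_lit 0x200010001c00000030000200010000000000000000000000000000000) := T_36 (nat_lit 160) (nat_lit 161) (nat_lit 2) (nat_lit 4) (nat_lit 10) L100089 (by decide +kernel)
theorem L100091 : W_36 (nat_lit 7) (nat_lit 0x3c0000001000080000000000000000000000000000000) (nat_lit 0x0) (nat_lit 0x200030001c0000003f000b80018000000000000000000000000000000) := Q_36 (nat_lit 158) (C_36 L100090 (C_36 L72301 (C_36 L74847 N_36))) (by decide +kernel)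
theorem L100092 : W_36 (nat_lit 5) (nat_lit 0x3c0012001000080000000000000000000000000000000) (nat_lit 0x0) (nat_lit 0x2000100002000c000980008000000000000000000000000000000) := T_36 (nat_lit 159) (nat_lit 173) (nat_lit 2) (nat_lit 3) (nat_lit 10) L72347 (by decide +kernel)
theorem L100093 : W_36 (nat_lit 6) (nat_lit 0x3c0002001000080000000000000000000000000000000) (nat_lit 0x0) (nat_lit 0x2000100002003c000980008000000000000000000000000000000) := T_36 (nat_lit 160) (nat_lit 161) (nat_lit 2) (nat_lit 4) (nat_lit 10) L100092 (by decide +kernel)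
theorem L100094 : W_36 (nat_lit 7) (nat_lit 0x3c0000001000080000000000000000000000000000000) (nat_lit 0x0) (nat_lit 0x2000100002003f000980008000000000000000000000000000000) := T_36 (nat_lit 157) (nat_lit 156) (nat_lit 0) (nat_lit 7) (nat_lit 10) L100093 (by decide +kernel)
theorem L100095 : W_36 (nat_lit 11) (nat_lit 0x380000001000080000000000000000000000000000000) (nat_lit 0x0) (nat_lit 0x200030003f0007803fc00b80018000000000000000000000000000000) := Q_36 (nat_lit 174) (C_36 L71633 (C_36 L100086 (C_36 L71636 (C_36 L71645 (C_36 L100091 (C_36 L100094 N_36)))))) (by decide +kernel)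
theorem L100096 : W_36 (nat_lit 2) (nat_lit 0x380020001000080000000000000000000000000000000) (nat_lit 0x0) (nat_lit 0x40010000000000004000000000000000000000000000) := D_36 (nat_lit 160) (nat_lit 174) (nat_lit 110) (nat_lit 2) (nat_lit 4) (nat_lit 10) (nat_lit 5) (nat_lit 8) (nat_lit 6) (by decide +kernel)
theorem L100097 : W_36 (nat_lit 2) (nat_lit 0x8003c0020001000080000000000000000000000000000000) (nat_lit 0x0) (nat_lit 0x1000400040000000000000000000000000000000000000000) := D_36 (nat_lit 178) (nat_lit 162) (nat_lit 192) (nat_lit 2) (nat_lit 5) (nat_lit 10) (nat_lit 1) (nat_lit 8) (nat_lit 10) (by decide +kernel)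
theorem L100098 : W_36 (nat_lit 3) (nat_lit 0x3c0020001000080000000000000000000000000000000) (nat_lit 0x0) (nat_lit 0x1c00400040000000000000000000000000000000000000000) := T_36 (nat_lit 191) (nat_lit 190) (nat_lit 1) (nat_lit 7) (nat_lit 10) L100097 (by decide +kernel)
theorem L100099 : W_36 (nat_lit 4) (nat_lit 0x380020001000080000000000000000000000000000000) (nat_lit 0x0) (nat_lit 0x1c00440050000000000000000000000000000000000000000) := T_36 (nat_lit 174) (nat_lit 160) (nat_lit 2) (nat_lit 4) (nat_lit 10) L100098 (by decide +kernel)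
theorem L100100 : W_36 (nat_lit 13) (nat_lit 0x380020001000080000000000000000000000000000000) (nat_lit 0x0) (nat_lit 0x200010001c0044004600020013800f8005e0000000000000000000000) := T_36 (nat_lit 178) (nat_lit 162) (nat_lit 2) (nat_lit 5) (nat_lit 10) L76458 (by decide +kernel)
theorem L100101 : W_36 (nat_lit 6) (nat_lit 0x380020001000080000000000000000000000000000000) (nat_lit 0x0) (nat_lit 0x800040003800c00046000200000000000000000000000000000000000) := T_36 (nat_lit 178) (nat_lit 162) (nat_lit 2) (nat_lit 5) (nat_lit 10) L99843 (by decide +kernel)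
theorem L100102 : W_36 (nat_lit 14) (nat_lit 0x380000001000080000000000000000000000000000000) (nat_lit 0x0) (nat_lit 0xa00050003c00c4007600020013800f8005e0000000000000000000000) := Q_36 (nat_lit 161) (C_36 L100096 (C_36 L100099 (C_36 L100100 (C_36 L100101 N_36)))) (by decide +kernel)
theorem L100103 : W_36 (nat_lit 7) (nat_lit 0x380020001000080000000000000000000000000000000) (nat_lit 0x0) (nat_lit 0x20001800c0004e000400120008000000000000000000000000000) := T_36 (nat_lit 178) (nat_lit 162) (nat_lit 2) (nat_lit 5) (nat_lit 10) L99850 (by decide +kernel)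
theorem L100104 : W_36 (nat_lit 14) (nat_lit 0x380000001000080000000000000000000000000000000) (nat_lit 0x0) (nat_lit 0x200030001c00c4007e00060013800f8005e0000000000000000000000) := Q_36 (nat_lit 161) (C_36 L100099 (C_36 L100100 (C_36 L100096 (C_36 L100103 N_36)))) (by decide +kernel)
theorem L100105 : W_36 (nat_lit 2) (nat_lit 0x780024001000080008000000000000000000000000000) (nat_lit 0x0) (nat_lit 0x10000000000004000400000000000000000000000) := D_36 (nat_lit 110) (nat_lit 160) (nat_lit 94) (nat_lit 5) (nat_lit 8) (nat_lit 6) (nat_lit 6) (nat_lit 8) (nat_lit 9) (by decide +kernel)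
theorem L100106 : W_36 (nat_lit 3) (nat_lit 0x780024001000080000000000000000000000000000000) (nat_lit 0x0) (nat_lit 0x1000000010000c000400000000000000000000000) := T_36 (nat_lit 111) (nat_lit 128) (nat_lit 6) (nat_lit 8) (nat_lit 10) L100105 (by decide +kernel)
theorem L100107 : W_36 (nat_lit 4) (nat_lit 0x780020001000080000000000000000000000000000000) (nat_lit 0x0) (nat_lit 0x1600000010000c000400000000000000000000000) := T_36 (nat_lit 158) (nat_lit 157) (nat_lit 0) (nat_lit 8) (nat_lit 10) L100106 (by decide +kernel)
theorem L100108 : W_36 (nat_lit 5) (nat_lit 0x780000001000080000000000000000000000000000000) (nat_lit 0x0) (nat_lit 0x7600000010000c000400000000000000000000000) := T_36 (nat_lit 161) (nat_lit 162) (nat_lit 2) (nat_lit 5) (nat_lit 10) L100107 (by decide +kernel)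
theorem L100109 : W_36 (nat_lit 6) (nat_lit 0x380000001000080000000000000000000000000000000) (nat_lit 0x0) (nat_lit 0x20003800c000fe00040012000c000400000000000000000000000) := Q_36 (nat_lit 178) (C_36 L76572 (C_36 L74450 (C_36 L100108 N_36))) (by decide +kernel)
theorem L100110 : W_36 (nat_lit 2) (nat_lit 0x200030007e0002001000088000000000000000000000000000000) (nat_lit 0x0) (nat_lit 0x18000400000000000000000000000000000000000) := D_36 (nat_lit 159) (nat_lit 160) (nat_lit 142) (nat_lit 2) (nat_lit 3) (nat_lit 10) (nat_lit 5) (nat_lit 6) (nat_lit 8) (by decide +kernel)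
theorem L100111 : W_36 (nat_lit 3) (nat_lit 0x30007e0002001000088000000000000000000000000000000) (nat_lit 0x0) (nat_lit 0x400020000000000018000400000000000000000000000000000000000) := T_36 (nat_lit 209) (nat_lit 226) (nat_lit 4) (nat_lit 5) (nat_lit 13) L100110 (by decide +kernel)
theorem L100112 : W_36 (nat_lit 4) (nat_lit 0x30007c0002001000088000000000000000000000000000000) (nat_lit 0x0) (nat_lit 0x400020000000030018000400000000000000000000000000000000000) := T_36 (nat_lit 173) (nat_lit 172) (nat_lit 3) (nat_lit 2) (nat_lit 10) L100111 (by decide +kernel)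
theorem L100113 : W_36 (nat_lit 5) (nat_lit 0x30007c0002001000080000000000000000000000000000000) (nat_lit 0x0) (nat_lit 0x400020000000030018000500008000000000000000000000000000000) := T_36 (nat_lit 123) (nat_lit 140) (nat_lit 7) (nat_lit 4) (nat_lit 7) L100112 (by decide +kernel)
theorem L100114 : W_36 (nat_lit 6) (nat_lit 0x10007c0002001000080000000000000000000000000000000) (nat_lit 0x0) (nat_lit 0x400020002000830018000500008000000000000000000000000000000) := T_36 (nat_lit 193) (nat_lit 179) (nat_lit 1) (nat_lit 9) (nat_lit 10) L100113 (by decide +kernel)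
theorem L100115 : W_36 (nat_lit 7) (nat_lit 0x7c0002001000080000000000000000000000000000000) (nat_lit 0x0) (nat_lit 0x400020003800830018000500008000000000000000000000000000000) := T_36 (nat_lit 192) (nat_lit 191) (nat_lit 1) (nat_lit 8) (nat_lit 10) L100114 (by decide +kernel)
theorem L100116 : W_36 (nat_lit 8) (nat_lit 0x3c0002001000080000000000000000000000000000000) (nat_lit 0x0) (nat_lit 0x400020003800c3001c000500008000000000000000000000000000000) := T_36 (nat_lit 178) (nat_lit 158) (nat_lit 0) (nat_lit 8) (nat_lit 10) L100115 (by decide +kernel)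
theorem L100117 : W_36 (nat_lit 9) (nat_lit 0x3c0000001000080000000000000000000000000000000) (nat_lit 0x0) (nat_lit 0x400020003800c3001f000500008000000000000000000000000000000) := T_36 (nat_lit 157) (nat_lit 156) (nat_lit 0) (nat_lit 7) (nat_lit 10) L100116 (by decide +kernel)
theorem L100118 : W_36 (nat_lit 10) (nat_lit 0x380000001000080000000000000000000000000000000) (nat_lit 0x0) (nat_lit 0x400020003f00c7001fc00500008000000000000000000000000000000) := Q_36 (nat_lit 174) (C_36 L13237 (C_36 L71636 (C_36 L74822 (C_36 L13197 (C_36 L100072 (C_36 L100117 N_36)))))) (by decide +kernel)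
theorem L100119 : W_36 (nat_lit 11) (nat_lit 0x780020001000080000000000000000000000000000000) (nat_lit 0x0) (nat_lit 0x300080000e00020013800f8005e0000000000000000000000) := T_36 (nat_lit 158) (nat_lit 157) (nat_lit 0) (nat_lit 8) (nat_lit 10) L99862 (by decide +kernel)
theorem L100120 : W_36 (nat_lit 12) (nat_lit 0x380020001000080000000000000000000000000000000) (nat_lit 0x0) (nat_lit 0x3000c0004e00020013800f8005e0000000000000000000000) := T_36 (nat_lit 178) (nat_lit 162) (nat_lit 2) (nat_lit 5) (nat_lit 10) L100119 (by decide +kernel)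
theorem L100121 : W_36 (nat_lit 13) (nat_lit 0x380000001000080000000000000000000000000000000) (nat_lit 0x0) (nat_lit 0x3000c4007f00020013800f8005e0000000000000000000000) := Q_36 (nat_lit 161) (C_36 L100096 (C_36 L74244 (C_36 L100120 N_36))) (by decide +kernel)
theorem L100122 : W_36 (nat_lit 2) (nat_lit 0x380060001000080004000500000000000000000000000) (nat_lit 0x0) (nat_lit 0x200028000000000000000000) := D_36 (nat_lit 93) (nat_lit 77) (nat_lit 75) (nat_lit 6) (nat_lit 8) (nat_lit 8) (nat_lit 4) (nat_lit 8) (nat_lit 8) (by decide +kernel)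
theorem L100123 : W_36 (nat_lit 3) (nat_lit 0x380060001000080004000400000000000000000000000) (nat_lit 0x0) (nat_lit 0x2000300028000000000000000000) := T_36 (nat_lit 92) (nat_lit 109) (nat_lit 4) (nat_lit 8) (nat_lit 9) L100122 (by decide +kernel)
theorem L100124 : W_36 (nat_lit 4) (nat_lit 0x380060001000080004000000000000000000000000000) (nat_lit 0x0) (nat_lit 0xa000700028000000000000000000) := T_36 (nat_lit 94) (nat_lit 111) (nat_lit 6) (nat_lit 8) (nat_lit 9) L100123 (by decide +kernel)
theorem L100125 : W_36 (nat_lit 5) (nat_lit 0x380060001000080000000000000000000000000000000) (nat_lit 0x0) (nat_lit 0x80000000000000000e000700028000000000000000000) := T_36 (nat_lit 110) (nat_lit 179) (nat_lit 7) (nat_lit 8) (nat_lit 6) L100124 (by decide +kernel)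
theorem L100126 : W_36 (nat_lit 6) (nat_lit 0x380020001000080000000000000000000000000000000) (nat_lit 0x0) (nat_lit 0xc0004000000000000e000700028000000000000000000) := T_36 (nat_lit 162) (nat_lit 178) (nat_lit 2) (nat_lit 5) (nat_lit 10) L100125 (by decide +kernel)
theorem L100127 : W_36 (nat_lit 7) (nat_lit 0x380000001000080000000000000000000000000000000) (nat_lit 0x0) (nat_lit 0x1c00c4007000000000000e000700028000000000000000000) := Q_36 (nat_lit 161) (C_36 L100099 (C_36 L100096 (C_36 L100126 N_36))) (by decide +kernel)
theorem L100128 : W_36 (nat_lit 7) (nat_lit 0x380000001000080000000000000000000000000000000) (nat_lit 0x0) (nat_lit 0xc4007700000000000e000700028000000000000000000) := Q_36 (nat_lit 161) (C_36 L100126 (C_36 L74244 (C_36 L100096 N_36))) (by decide +kernel)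
theorem L100129 : W_36 (nat_lit 15) (nat_lit 0x300000001000080000000000000000000000000000000) (nat_lit 0x0) (nat_lit 0xf00078003f00cf80ffc00f8013800f8007e0028000000000000000000) := Q_36 (nat_lit 175) (C_36 L100071 (C_36 L100082 (C_36 L100095 (C_36 L100102 (C_36 L100104 (C_36 L100109 (C_36 L100118 (C_36 L100121 (C_36 L100127 (C_36 L100128 N_36)))))))))) (by decide +kernel)
theorem L100130 : W_36 (nat_lit 13) (nat_lit 0x4000300000001000080000000000000000000000000000000) (nat_lit 0x0) (nat_lit 0x3c007f800b801c000de000e00138000000000000000000000000000000) := Q_36 (nat_lit 159) (C_36 L99546 (C_36 L99767 (C_36 L14840 (C_36 L14838 N_36)))) (by decide +kernel)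
theorem L100131 : W_36 (nat_lit 14) (nat_lit 0x300000001000080000000000000000000000000000000) (nat_lit 0x0) (nat_lit 0x3c007f80ef803c001fe000e00138004000000000000000000000000000) := Q_36 (nat_lit 194) (C_36 L100064 (C_36 L100068 (C_36 L100066 (C_36 L100130 N_36)))) (by decide +kernel)
theorem L100132 : W_36 (nat_lit 4) (nat_lit 0x4000300008001000080000000000000000000000000000000) (nat_lit 0x0) (nat_lit 0x3001c00024000000000000000000000000000000000000000) := T_36 (nat_lit 178) (nat_lit 161) (nat_lit 5) (nat_lit 8) (nat_lit 7) L99749 (by decide +kernel)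
theorem L100133 : W_36 (nat_lit 2) (nat_lit 0x100000000400070000c0010000a0000000000000000000000000000000) (nat_lit 0x0) (nat_lit 0x80003000000000000000000000000000000000000000) := D_36 (nat_lit 157) (nat_lit 175) (nat_lit 156) (nat_lit 0) (nat_lit 8) (nat_lit 10) (nat_lit 3) (nat_lit 3) (nat_lit 9) (by decide +kernel)
theorem L100134 : W_36 (nat_lit 3) (nat_lit 0x10000000040007000080010000a0000000000000000000000000000000) (nat_lit 0x0) (nat_lit 0x880007000000000000000000000000000000000000000) := T_36 (nat_lit 158) (nat_lit 179) (nat_lit 0) (nat_lit 9) (nat_lit 10) L100133 (by decide +kernel)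
theorem L100135 : W_36 (nat_lit 4) (nat_lit 0x10000000040003000080010000a0000000000000000000000000000000) (nat_lit 0x0) (nat_lit 0xc80027000000000000000000000000000000000000000) := T_36 (nat_lit 178) (nat_lit 161) (nat_lit 5) (nat_lit 8) (nat_lit 7) L100134 (by decide +kernel)
theorem L100136 : W_36 (nat_lit 5) (nat_lit 0x1000000004000300008001000080000000000000000000000000000000) (nat_lit 0x0) (nat_lit 0xc80027000400020000000000000000000000000000000) := T_36 (nat_lit 125) (nat_lit 142) (nat_lit 7) (nat_lit 6) (nat_lit 7) L100135 (by decide +kernel)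
theorem L100137 : W_36 (nat_lit 6) (nat_lit 0x4000300008001000080000000000000000000000000000000) (nat_lit 0x0) (nat_lit 0x1000080000000c80027000400020000000000000000000000000000000) := T_36 (nat_lit 228) (nat_lit 211) (nat_lit 4) (nat_lit 7) (nat_lit 13) L100136 (by decide +kernel)
theorem L100138 : W_36 (nat_lit 7) (nat_lit 0x4000300000001000080000000000000000000000000000000) (nat_lit 0x0) (nat_lit 0x1000080003001c8002f000400020000000000000000000000000000000) := Q_36 (nat_lit 159) (C_36 L14840 (C_36 L100132 (C_36 L100137 N_36))) (by decide +kernel)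
theorem L100139 : W_36 (nat_lit 13) (nat_lit 0x300000001000080000000000000000000000000000000) (nat_lit 0x0) (nat_lit 0x3c007f800fc01ce003f000f80138004400000000000000000000000000) := Q_36 (nat_lit 194) (C_36 L100138 (C_36 L100066 (C_36 L100068 (C_36 L100069 N_36)))) (by decide +kernel)
theorem L100140 : W_36 (nat_lit 7) (nat_lit 0x300000001000080000000000000000000000000000000) (nat_lit 0x0) (nat_lit 0x4000c801f000000000000e000700028000000000000000000) := Q_36 (nat_lit 161) (C_36 L99915 (C_36 L99937 (C_36 L99920 N_36))) (by decide +kernel)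
theorem L100141 : W_36 (nat_lit 16) (nat_lit 0x200000001000080000000000000000000000000000000) (nat_lit 0x0) (nat_lit 0x3c003f007f80eff03df81ffc00f8013e00fc00fe003a001400000000000000) := Q_36 (nat_lit 176) (C_36 L99839 (C_36 L99910 (C_36 L99938 (C_36 L100063 (C_36 L100070 (C_36 L100129 (C_36 L100131 (C_36 L100139 (C_36 L100140 N_36))))))))) (by decide +kernel)
end Crest.Agent.Helper32.Snaky.R1_0
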