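import Crest.Agent.Helper32.Snaky.Gen.R1_0_p28
set_option autoImplicit false
set_option maxRecDepth 100000
set_option linter.all false
set_option Elab.async false
namespace Crest.Agent.Helper32.Snaky.R1_0
@[reducible] def W_37 (d M Bz Z : Nat) : Prop := Crest.Agent.Helper32.Snaky.Wins (nat_lit 17) d M Bz Z
theorem D_37 {d M Bz Z : Nat} (m t1 t2 o1 x1 y1 o2 x2 y2 : Nat) (h : Crest.Agent.Helper32.Snaky.chkDoubleC (nat_lit 17) d M Bz Z m t1 t2 o1 x1 y1 o2 x2 y2 = true) : W_37 d M Bz Z := Crest.Agent.Helper32.Snaky.doubleC m t1 t2 o1 x1 y1 o2 x2 y2 h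
theorem T_37 {d M Bz Z cd cM cBz cZ : Nat} (m t o x y : Nat) (child : W_37 cd cM cBz cZ) (h : Crest.Agent.Helper32.Snaky.chkThreatC (nat_lit 17) d M Bz Z cd cM cBz cZ m t o x y = true) : W_37 d M Bz Z := Crest.Agent.Helper32.Snaky.threatC m t o x y child h
theorem Q_37 {d M Bz Z : Nat} (m : Nat) {l : List Crest.Agent.Helper32.Snaky.Spec} (kids : Crest.Agent.Helper32.Snaky.AllWins (nat_lit 17) l) (h : Crest.Agent.Helper32.Snaky.chkQuiet d M Bz Z m l = true) : W_37 d M Bz Z := Crest.Agent.Helper32.Snaky.quiet m kids h
theorem C_37 {cd cM cBz cZ : Nat} {l : List Crest.Agent.Helper32.Snaky.Spec} (h : W_37 cd cM cBz cZ) (hl : Crest.Agent.Helper32.Snaky.AllWins (nat_lit 17) l) : Crest.Agent.Helper32.Snaky.AllWins (nat_lit 17) ((cd, cM, cBz, cZ) :: l) := Crest.Agent.Helper32.Snaky.AllWins.cons h hl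
theorem N_37 : Crest.Agent.Helper32.Snaky.AllWins (nat_lit 17) [] := Crest.Agent.Helper32.Snaky.AllWins.nil
theorem L96448 : W_37 (nat_lit 2) (nat_lit 0x60001000280016001200080000000000000000000000000000000) (nat_lit 0x0) (nat_lit 0x200010000800000000000000000000000000000000000000000000000) := D_37 (nat_lit 208) (nat_lit 225) (nat_lit 191) (nat_lit 5) (nat_lit 5) (nat_lit 9) (nat_lit 5) (nat_lit 5) (nat_lit 8) (by decide +kernel)
theorem L96449 : W_37 (nat_lit 3) (nat_lit 0x60001000280016001000080000000000000000000000000000000) (nat_lit 0x0) (nat_lit 0x200010002800000000000200000000000000000000000000000000000) := T_37 (nat_lit 141) (nat_lit 193) (nat_lit 7) (nat_lit 5) (nat_lit 8) L96448 (by decide +kernel)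
theorem L96450 : W_37 (nat_lit 4) (nat_lit 0x20001000280016001000080000000000000000000000000000000) (nat_lit 0x0) (nat_lit 0xa00050002800000000000200000000000000000000000000000000000) := T_37 (nat_lit 210) (nat_lit 227) (nat_lit 7) (nat_lit 5) (nat_lit 9) L96449 (by decide +kernel)
theorem L96451 : W_37 (nat_lit 5) (nat_lit 0x20001000280014001000080000000000000000000000000000000) (nat_lit 0x0) (nat_lit 0xa00050002800000002000300000000000000000000000000000000000) := T_37 (nat_lit 157) (nat_lit 140) (nat_lit 4) (nat_lit 5) (nat_lit 12) L96450 (by decide +kernel)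
theorem L96452 : W_37 (nat_lit 2) (nat_lit 0x30001000280014001200080000000000000000000000000000000) (nat_lit 0x0) (nat_lit 0x2000100008000000000000000000000000000000) := D_37 (nat_lit 140) (nat_lit 123) (nat_lit 157) (nat_lit 4) (nat_lit 5) (nat_lit 11) (nat_lit 4) (nat_lit 5) (nat_lit 12) (by decide +kernel)
theorem L96453 : W_37 (nat_lit 3) (nat_lit 0x30001000280014001000080000000000000000000000000000000) (nat_lit 0x0) (nat_lit 0x800000002000300008000000000000000000000000000000) := T_37 (nat_lit 141) (nat_lit 191) (nat_lit 5) (nat_lit 5) (nat_lit 8) L96452 (by decide +kernel)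
theorem L96454 : W_37 (nat_lit 4) (nat_lit 0x20001000280014001000080000000000000000000000000000000) (nat_lit 0x0) (nat_lit 0x200010000800000002000300008000000000000000000000000000000) := T_37 (nat_lit 208) (nat_lit 225) (nat_lit 5) (nat_lit 5) (nat_lit 9) L96453 (by decide +kernel)
theorem L96455 : W_37 (nat_lit 2) (nat_lit 0x40003000100028001c001000080000000000000000000000000000000) (nat_lit 0x0) (nat_lit 0x10000800040000000000000000000000000000000000000000000000000000) := D_37 (nat_lit 227) (nat_lit 210) (nat_lit 244) (nat_lit 7) (nat_lit 5) (nat_lit 9) (nat_lit 7) (nat_lit 5) (nat_lit 10) (by decide +kernel)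
theorem L96456 : W_37 (nat_lit 3) (nat_lit 0x3000100028001c001000080000000000000000000000000000000) (nat_lit 0x0) (nat_lit 0x10000c00040000000100000000000000000000000000000000000000000000) := T_37 (nat_lit 226) (nat_lit 176) (nat_lit 6) (nat_lit 5) (nat_lit 13) L96455 (by decide +kernel)
theorem L96457 : W_37 (nat_lit 4) (nat_lit 0x2000100028001c001000080000000000000000000000000000000) (nat_lit 0x0) (nat_lit 0x10000e00050000000100000000000000000000000000000000000000000000) := T_37 (nat_lit 208) (nat_lit 225) (nat_lit 5) (nat_lit 5) (nat_lit 9) L96456 (by decide +kernel)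
theorem L96458 : W_37 (nat_lit 5) (nat_lit 0x20001000280014001000080000000000000000000000000000000) (nat_lit 0x0) (nat_lit 0x10000e00050000000100008000400000000000000000000000000000000000) := T_37 (nat_lit 159) (nat_lit 142) (nat_lit 6) (nat_lit 5) (nat_lit 12) L96457 (by decide +kernel)
theorem L96459 : W_37 (nat_lit 3) (nat_lit 0x20001000280016001000080000000000000000000000000000000) (nat_lit 0x0) (nat_lit 0x400000000000100009000400000000000000000000000000000000000) := T_37 (nat_lit 159) (nat_lit 142) (nat_lit 6) (nat_lit 5) (nat_lit 12) L64168 (by decide +kernel)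
theorem L96460 : W_37 (nat_lit 4) (nat_lit 0x20001000280014001000080000000000000000000000000000000) (nat_lit 0x0) (nat_lit 0x40000000000010000b000500000000000000000000000000000000000) := T_37 (nat_lit 157) (nat_lit 140) (nat_lit 4) (nat_lit 5) (nat_lit 12) L96459 (by decide +kernel)
theorem L96461 : W_37 (nat_lit 6) (nat_lit 0x1000280014001000080000000000000000000000000000000) (nat_lit 0x0) (nat_lit 0x10000e0007000280010000b000700008000000000000000000000000000000) := Q_37 (nat_lit 209) (C_37 L96451 (C_37 L96454 (C_37 L96458 (C_37 L96460 N_37)))) (by decide +kernel)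
theorem L96462 : W_37 (nat_lit 2) (nat_lit 0x2000100028001e001000080000000000000000000000000000000) (nat_lit 0x0) (nat_lit 0x400000000000060000000000000000000000000000000000000000000) := D_37 (nat_lit 174) (nat_lit 173) (nat_lit 226) (nat_lit 1) (nat_lit 7) (nat_lit 9) (nat_lit 4) (nat_lit 5) (nat_lit 13) (by decide +kernel)
theorem L96463 : W_37 (nat_lit 3) (nat_lit 0x20001000280016001000080000000000000000000000000000000) (nat_lit 0x0) (nat_lit 0x400000000000060008000400000000000000000000000000000000000) := T_37 (nat_lit 159) (nat_lit 142) (nat_lit 6) (nat_lit 5) (nat_lit 12) L96462 (by decide +kernel)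
theorem L96464 : W_37 (nat_lit 4) (nat_lit 0x20001000280014001000080000000000000000000000000000000) (nat_lit 0x0) (nat_lit 0x40000000000006000a000500000000000000000000000000000000000) := T_37 (nat_lit 157) (nat_lit 140) (nat_lit 4) (nat_lit 5) (nat_lit 12) L96463 (by decide +kernel)
theorem L96465 : W_37 (nat_lit 2) (nat_lit 0x6000100028001c001200080000000000000000000000000000000) (nat_lit 0x0) (nat_lit 0x200010000800000000000000000000000000000000000000000000000) := D_37 (nat_lit 208) (nat_lit 191) (nat_lit 225) (nat_lit 5) (nat_lit 5) (nat_lit 8) (nat_lit 5) (nat_lit 5) (nat_lit 9) (by decide +kernel)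
theorem L96466 : W_37 (nat_lit 3) (nat_lit 0x6000100028001c001000080000000000000000000000000000000) (nat_lit 0x0) (nat_lit 0x200010002800000000000200000000000000000000000000000000000) := T_37 (nat_lit 141) (nat_lit 193) (nat_lit 7) (nat_lit 5) (nat_lit 8) L96465 (by decide +kernel)
theorem L96467 : W_37 (nat_lit 4) (nat_lit 0x2000100028001c001000080000000000000000000000000000000) (nat_lit 0x0) (nat_lit 0xa00050002800000000000200000000000000000000000000000000000) := T_37 (nat_lit 210) (nat_lit 227) (nat_lit 7) (nat_lit 5) (nat_lit 9) L96466 (by decide +kernel)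
theorem L96468 : W_37 (nat_lit 5) (nat_lit 0x20001000280014001000080000000000000000000000000000000) (nat_lit 0x0) (nat_lit 0xa00050002800000008000600000000000000000000000000000000000) := T_37 (nat_lit 159) (nat_lit 142) (nat_lit 6) (nat_lit 5) (nat_lit 12) L96467 (by decide +kernel)
theorem L96469 : W_37 (nat_lit 6) (nat_lit 0x1000280014001000080000000000000000000000000000000) (nat_lit 0x0) (nat_lit 0xe0007000280006000a000700008000000000000000000000000000000) := Q_37 (nat_lit 209) (C_37 L96454 (C_37 L96464 (C_37 L96468 N_37))) (by decide +kernel)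
theorem L96470 : W_37 (nat_lit 6) (nat_lit 0x1000280014001000080000000000000000000000000000000) (nat_lit 0x0) (nat_lit 0x10000e0007000080016000a000700008000000000000000000000000000000) := Q_37 (nat_lit 209) (C_37 L96454 (C_37 L96464 (C_37 L96458 N_37))) (by decide +kernel)
theorem L96471 : W_37 (nat_lit 2) (nat_lit 0x400060001000280016001000080000000000000000000000000000000) (nat_lit 0x0) (nat_lit 0x4000200010000000000000000000000000000000000000000000000000000) := D_37 (nat_lit 225) (nat_lit 208) (nat_lit 242) (nat_lit 5) (nat_lit 5) (nat_lit 9) (nat_lit 5) (nat_lit 5) (nat_lit 10) (by decide +kernel)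
theorem L96472 : W_37 (nat_lit 3) (nat_lit 0x60001000280016001000080000000000000000000000000000000) (nat_lit 0x0) (nat_lit 0x4000600010000000040000000000000000000000000000000000000000000) := T_37 (nat_lit 226) (nat_lit 174) (nat_lit 4) (nat_lit 5) (nat_lit 13) L96471 (by decide +kernel)
theorem L96473 : W_37 (nat_lit 4) (nat_lit 0x20001000280016001000080000000000000000000000000000000) (nat_lit 0x0) (nat_lit 0x4000e00050000000040000000000000000000000000000000000000000000) := T_37 (nat_lit 210) (nat_lit 227) (nat_lit 7) (nat_lit 5) (nat_lit 9) L96472 (by decide +kernel)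
theorem L96474 : W_37 (nat_lit 5) (nat_lit 0x20001000280014001000080000000000000000000000000000000) (nat_lit 0x0) (nat_lit 0x4000e00050000000040002000100000000000000000000000000000000000) := T_37 (nat_lit 157) (nat_lit 140) (nat_lit 4) (nat_lit 5) (nat_lit 12) L96473 (by decide +kernel)
theorem L96475 : W_37 (nat_lit 2) (nat_lit 0x30001000280014001200080000000000000000000000000000000) (nat_lit 0x0) (nat_lit 0x800040002000000000000000000000000000000000000000000000000) := D_37 (nat_lit 210) (nat_lit 227) (nat_lit 193) (nat_lit 7) (nat_lit 5) (nat_lit 9) (nat_lit 7) (nat_lit 5) (nat_lit 8) (by decide +kernel)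
theorem L96476 : W_37 (nat_lit 3) (nat_lit 0x30001000280014001000080000000000000000000000000000000) (nat_lit 0x0) (nat_lit 0x800040002800000000000200000000000000000000000000000000000) := T_37 (nat_lit 141) (nat_lit 191) (nat_lit 5) (nat_lit 5) (nat_lit 8) L96475 (by decide +kernel)
theorem L96477 : W_37 (nat_lit 4) (nat_lit 0x20001000280014001000080000000000000000000000000000000) (nat_lit 0x0) (nat_lit 0xa00050002800000000000200000000000000000000000000000000000) := T_37 (nat_lit 208) (nat_lit 225) (nat_lit 5) (nat_lit 5) (nat_lit 9) L96476 (by decide +kernel)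
theorem L96478 : W_37 (nat_lit 6) (nat_lit 0x1000280014001000080000000000000000000000000000000) (nat_lit 0x0) (nat_lit 0x4000e00070002800040002000300008000000000000000000000000000000) := Q_37 (nat_lit 209) (C_37 L96454 (C_37 L96474 (C_37 L96477 (C_37 L64789 N_37)))) (by decide +kernel)
theorem L96479 : W_37 (nat_lit 6) (nat_lit 0x1000280014001000080000000000000000000000000000000) (nat_lit 0x0) (nat_lit 0x14000e0007000000017000b000500000000000000000000000000000000000) := Q_37 (nat_lit 209) (C_37 L96474 (C_37 L96460 (C_37 L96458 (C_37 L64210 N_37)))) (by decide +kernel)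
theorem L96480 : W_37 (nat_lit 9) (nat_lit 0x1000280014001000080000000000000000000000000000000) (nat_lit 0x0) (nat_lit 0x20003000280014000a00078003e000c00000000000000000000000000) := Q_37 (nat_lit 141) (C_37 L63036 (C_37 L62818 (C_37 L62950 (C_37 L64192 (C_37 L64197 N_37))))) (by decide +kernel)
theorem L96481 : W_37 (nat_lit 7) (nat_lit 0x1000280014001000080000000000000000000000000000000) (nat_lit 0x0) (nat_lit 0x30002800140008000780038000c00000000000000000000000000) := Q_37 (nat_lit 141) (C_37 L62818 (C_37 L64197 (C_37 L62950 N_37))) (by decide +kernel)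
theorem L96482 : W_37 (nat_lit 2) (nat_lit 0x3000280014001600090000000000000000000000000000000) (nat_lit 0x0) (nat_lit 0x10000800040000000000000000000000000000000000000000000) := D_37 (nat_lit 191) (nat_lit 174) (nat_lit 208) (nat_lit 5) (nat_lit 5) (nat_lit 7) (nat_lit 5) (nat_lit 5) (nat_lit 8) (by decide +kernel)
theorem L96483 : W_37 (nat_lit 3) (nat_lit 0x3000280014001600080000000000000000000000000000000) (nat_lit 0x0) (nat_lit 0x10000800140000000000010000000000000000000000000000000) := T_37 (nat_lit 124) (nat_lit 176) (nat_lit 7) (nat_lit 5) (nat_lit 7) L96482 (by decide +kernel)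
theorem L96484 : W_37 (nat_lit 4) (nat_lit 0x1000280014001600080000000000000000000000000000000) (nat_lit 0x0) (nat_lit 0x50002800140000000000010000000000000000000000000000000) := T_37 (nat_lit 193) (nat_lit 210) (nat_lit 7) (nat_lit 5) (nat_lit 8) L96483 (by decide +kernel)
theorem L96485 : W_37 (nat_lit 5) (nat_lit 0x1000280014001200080000000000000000000000000000000) (nat_lit 0x0) (nat_lit 0x50002800140000000400030000000000000000000000000000000) := T_37 (nat_lit 142) (nat_lit 125) (nat_lit 6) (nat_lit 5) (nat_lit 11) L96484 (by decide +kernel)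
theorem L96486 : W_37 (nat_lit 2) (nat_lit 0x1800280015001780084000000000000000000000000000000) (nat_lit 0x0) (nat_lit 0x60002000000000000000000000000000000000000000) := D_37 (nat_lit 174) (nat_lit 157) (nat_lit 173) (nat_lit 4) (nat_lit 4) (nat_lit 11) (nat_lit 7) (nat_lit 3) (nat_lit 7) (by decide +kernel)
theorem L96487 : W_37 (nat_lit 3) (nat_lit 0x1800280015001780080000000000000000000000000000000) (nat_lit 0x0) (nat_lit 0x60002000000006000000000000000000000000000000) := T_37 (nat_lit 122) (nat_lit 121) (nat_lit 0) (nat_lit 6) (nat_lit 8) L96486 (by decide +kernel)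
theorem L96488 : W_37 (nat_lit 4) (nat_lit 0x1800280014001780080000000000000000000000000000000) (nat_lit 0x0) (nat_lit 0x60003800000006000000000000000000000000000000) := T_37 (nat_lit 156) (nat_lit 155) (nat_lit 1) (nat_lit 6) (nat_lit 8) L96487 (by decide +kernel)
theorem L96489 : W_37 (nat_lit 5) (nat_lit 0x1800280014001700080000000000000000000000000000000) (nat_lit 0x0) (nat_lit 0x6000b800080006000000000000000000000000000000) := T_37 (nat_lit 139) (nat_lit 159) (nat_lit 3) (nat_lit 3) (nat_lit 8) L96488 (by decide +kernel)
theorem L96490 : W_37 (nat_lit 6) (nat_lit 0x1800280014001300080000000000000000000000000000000) (nat_lit 0x0) (nat_lit 0x6000b800480026000000000000000000000000000000) := T_37 (nat_lit 142) (nat_lit 125) (nat_lit 6) (nat_lit 5) (nat_lit 11) L96489 (by decide +kernel)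
theorem L96491 : W_37 (nat_lit 7) (nat_lit 0x1800280014001200080000000000000000000000000000000) (nat_lit 0x0) (nat_lit 0x6000b80058002e000000000000000000000000000000) := T_37 (nat_lit 140) (nat_lit 123) (nat_lit 4) (nat_lit 5) (nat_lit 11) L96490 (by decide +kernel)
theorem L96492 : W_37 (nat_lit 8) (nat_lit 0x1000280014001200080000000000000000000000000000000) (nat_lit 0x0) (nat_lit 0x1000080006000b80058002e000000000000000000000000000000) := T_37 (nat_lit 191) (nat_lit 208) (nat_lit 5) (nat_lit 5) (nat_lit 8) L96491 (by decide +kernel)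
theorem L96493 : W_37 (nat_lit 9) (nat_lit 0x1000280014001000080000000000000000000000000000000) (nat_lit 0x0) (nat_lit 0x5000280016000b80078003e001400000000000000000000000000) := Q_37 (nat_lit 141) (C_37 L62818 (C_37 L64220 (C_37 L96485 (C_37 L96492 N_37)))) (by decide +kernel)
theorem L96494 : W_37 (nat_lit 2) (nat_lit 0x30002c00140013400b0000000000000000000000000000000) (nat_lit 0x0) (nat_lit 0x20000000000002000000000000800000000000000000000000000) := D_37 (nat_lit 157) (nat_lit 107) (nat_lit 209) (nat_lit 5) (nat_lit 5) (nat_lit 6) (nat_lit 4) (nat_lit 5) (nat_lit 12) (by decide +kernel)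
theorem L96495 : W_37 (nat_lit 3) (nat_lit 0x30002800140013400b0000000000000000000000000000000) (nat_lit 0x0) (nat_lit 0x20000800040002000000000000800000000000000000000000000) := T_37 (nat_lit 174) (nat_lit 191) (nat_lit 5) (nat_lit 5) (nat_lit 7) L96494 (by decide +kernel)
theorem L96496 : W_37 (nat_lit 4) (nat_lit 0x30002800140013000b0000000000000000000000000000000) (nat_lit 0x0) (nat_lit 0x200008000400020000c0000000800000000000000000000000000) := T_37 (nat_lit 138) (nat_lit 139) (nat_lit 2) (nat_lit 2) (nat_lit 8) L96495 (by decide +kernel)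
theorem L96497 : W_37 (nat_lit 5) (nat_lit 0x3000280014001300090000000000000000000000000000000) (nat_lit 0x0) (nat_lit 0x200008000400020000c0020001800000000000000000000000000) := T_37 (nat_lit 125) (nat_lit 108) (nat_lit 6) (nat_lit 5) (nat_lit 10) L96496 (by decide +kernel)
theorem L96498 : W_37 (nat_lit 6) (nat_lit 0x3000280014001300080000000000000000000000000000000) (nat_lit 0x0) (nat_lit 0x200008001400020000c0030001800000000000000000000000000) := T_37 (nat_lit 124) (nat_lit 176) (nat_lit 7) (nat_lit 5) (nat_lit 7) L96497 (by decide +kernel)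
theorem L96499 : W_37 (nat_lit 7) (nat_lit 0x1000280014001300080000000000000000000000000000000) (nat_lit 0x0) (nat_lit 0x600028001400020000c0030001800000000000000000000000000) := T_37 (nat_lit 193) (nat_lit 210) (nat_lit 7) (nat_lit 5) (nat_lit 8) L96498 (by decide +kernel)
theorem L96500 : W_37 (nat_lit 8) (nat_lit 0x1000280014001200080000000000000000000000000000000) (nat_lit 0x0) (nat_lit 0x600028001400020001c0038001800000000000000000000000000) := T_37 (nat_lit 140) (nat_lit 123) (nat_lit 4) (nat_lit 5) (nat_lit 11) L96499 (by decide +kernel)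
theorem L96501 : W_37 (nat_lit 2) (nat_lit 0x30002c0014001600090000800000000000000000000000000) (nat_lit 0x0) (nat_lit 0x8000400020000000000000000000000) := D_37 (nat_lit 106) (nat_lit 89) (nat_lit 123) (nat_lit 4) (nat_lit 5) (nat_lit 9) (nat_lit 4) (nat_lit 5) (nat_lit 10) (by decide +kernel)
theorem L96502 : W_37 (nat_lit 3) (nat_lit 0x30002c0014001600090000000000000000000000000000000) (nat_lit 0x0) (nat_lit 0x2000000008000c00020000000000000000000000) := T_37 (nat_lit 107) (nat_lit 157) (nat_lit 5) (nat_lit 5) (nat_lit 6) L96501 (by decide +kernel)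
theorem L96503 : W_37 (nat_lit 4) (nat_lit 0x3000280014001600090000000000000000000000000000000) (nat_lit 0x0) (nat_lit 0x800040002000000008000c00020000000000000000000000) := T_37 (nat_lit 174) (nat_lit 191) (nat_lit 5) (nat_lit 5) (nat_lit 7) L96502 (by decide +kernel)
theorem L96504 : W_37 (nat_lit 5) (nat_lit 0x3000280014001600080000000000000000000000000000000) (nat_lit 0x0) (nat_lit 0x800140002000000018000c00020000000000000000000000) := T_37 (nat_lit 124) (nat_lit 176) (nat_lit 7) (nat_lit 5) (nat_lit 7) L96503 (by decide +kernel)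
theorem L96505 : W_37 (nat_lit 6) (nat_lit 0x1000280014001600080000000000000000000000000000000) (nat_lit 0x0) (nat_lit 0x40002800140002000000018000c00020000000000000000000000) := T_37 (nat_lit 193) (nat_lit 210) (nat_lit 7) (nat_lit 5) (nat_lit 8) L96504 (by decide +kernel)
theorem L96506 : W_37 (nat_lit 7) (nat_lit 0x1000280014001200080000000000000000000000000000000) (nat_lit 0x0) (nat_lit 0x40002800140002000400038000c00020000000000000000000000) := T_37 (nat_lit 142) (nat_lit 125) (nat_lit 6) (nat_lit 5) (nat_lit 11) L96505 (by decide +kernel)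
theorem L96507 : W_37 (nat_lit 2) (nat_lit 0x30002c0014001300090000000000000000000000000000000) (nat_lit 0x0) (nat_lit 0x20000000000002000000000000800000000000000000000000000) := D_37 (nat_lit 157) (nat_lit 107) (nat_lit 209) (nat_lit 5) (nat_lit 5) (nat_lit 6) (nat_lit 4) (nat_lit 5) (nat_lit 12) (by decide +kernel)
theorem L96508 : W_37 (nat_lit 3) (nat_lit 0x3000280014001300090000000000000000000000000000000) (nat_lit 0x0) (nat_lit 0x20000800040002000000000000800000000000000000000000000) := T_37 (nat_lit 174) (nat_lit 191) (nat_lit 5) (nat_lit 5) (nat_lit 7) L96507 (by decide +kernel)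
theorem L96509 : W_37 (nat_lit 4) (nat_lit 0x3000280014001300080000000000000000000000000000000) (nat_lit 0x0) (nat_lit 0x20000800140002000000010000800000000000000000000000000) := T_37 (nat_lit 124) (nat_lit 176) (nat_lit 7) (nat_lit 5) (nat_lit 7) L96508 (by decide +kernel)
theorem L96510 : W_37 (nat_lit 5) (nat_lit 0x1000280014001300080000000000000000000000000000000) (nat_lit 0x0) (nat_lit 0x60002800140002000000010000800000000000000000000000000) := T_37 (nat_lit 193) (nat_lit 210) (nat_lit 7) (nat_lit 5) (nat_lit 8) L96509 (by decide +kernel)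
theorem L96511 : W_37 (nat_lit 6) (nat_lit 0x1000280014001200080000000000000000000000000000000) (nat_lit 0x0) (nat_lit 0x60002800140002000100018000800000000000000000000000000) := T_37 (nat_lit 140) (nat_lit 123) (nat_lit 4) (nat_lit 5) (nat_lit 11) L96510 (by decide +kernel)
theorem L96512 : W_37 (nat_lit 2) (nat_lit 0x30002c0014001600090000800000000000000000000000000) (nat_lit 0x0) (nat_lit 0x20000000000008000000000000000040000000000000000000000) := D_37 (nat_lit 159) (nat_lit 209) (nat_lit 90) (nat_lit 6) (nat_lit 5) (nat_lit 12) (nat_lit 7) (nat_lit 5) (nat_lit 5) (by decide +kernel)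
theorem L96513 : W_37 (nat_lit 3) (nat_lit 0x30002c0014001600090000000000000000000000000000000) (nat_lit 0x0) (nat_lit 0x2000000000000a000000000000800040000000000000000000000) := T_37 (nat_lit 107) (nat_lit 157) (nat_lit 5) (nat_lit 5) (nat_lit 6) L96512 (by decide +kernel)
theorem L96514 : W_37 (nat_lit 4) (nat_lit 0x3000280014001600090000000000000000000000000000000) (nat_lit 0x0) (nat_lit 0x2000080004000a000000000000800040000000000000000000000) := T_37 (nat_lit 174) (nat_lit 191) (nat_lit 5) (nat_lit 5) (nat_lit 7) L96513 (by decide +kernel)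
theorem L96515 : W_37 (nat_lit 5) (nat_lit 0x3000280014001600080000000000000000000000000000000) (nat_lit 0x0) (nat_lit 0x2000080014000a000000010000800040000000000000000000000) := T_37 (nat_lit 124) (nat_lit 176) (nat_lit 7) (nat_lit 5) (nat_lit 7) L96514 (by decide +kernel)
theorem L96516 : W_37 (nat_lit 6) (nat_lit 0x1000280014001600080000000000000000000000000000000) (nat_lit 0x0) (nat_lit 0x6000280014000a000000010000800040000000000000000000000) := T_37 (nat_lit 193) (nat_lit 210) (nat_lit 7) (nat_lit 5) (nat_lit 8) L96515 (by decide +kernel)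
theorem L96517 : W_37 (nat_lit 7) (nat_lit 0x1000280014001200080000000000000000000000000000000) (nat_lit 0x0) (nat_lit 0x6000280014000a000400030000800040000000000000000000000) := T_37 (nat_lit 142) (nat_lit 125) (nat_lit 6) (nat_lit 5) (nat_lit 11) L96516 (by decide +kernel)
theorem L96518 : W_37 (nat_lit 9) (nat_lit 0x1000280014001000080000000000000000000000000000000) (nat_lit 0x0) (nat_lit 0x6000280014000a0007c0038001c00060000000000000000000000) := Q_37 (nat_lit 141) (C_37 L64220 (C_37 L62950 (C_37 L96500 (C_37 L96506 (C_37 L96511 (C_37 L96517 N_37)))))) (by decide +kernel)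
theorem L96519 : W_37 (nat_lit 2) (nat_lit 0x6801600010002c001c001200080000000000000000000000000000000) (nat_lit 0x0) (nat_lit 0x8000000000000800000000000000010000000000000000000000000000000) := D_37 (nat_lit 191) (nat_lit 124) (nat_lit 243) (nat_lit 5) (nat_lit 5) (nat_lit 7) (nat_lit 4) (nat_lit 5) (nat_lit 14) (by decide +kernel)
theorem L96520 : W_37 (nat_lit 3) (nat_lit 0x68016000100028001c001200080000000000000000000000000000000) (nat_lit 0x0) (nat_lit 0x8000000000000800040002000000010000000000000000000000000000000) := T_37 (nat_lit 174) (nat_lit 157) (nat_lit 4) (nat_lit 5) (nat_lit 13) L96519 (by decide +kernel)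
theorem L96521 : W_37 (nat_lit 4) (nat_lit 0x68006000100028001c001200080000000000000000000000000000000) (nat_lit 0x0) (nat_lit 0x8000000180000800040002000000010000000000000000000000000000000) := T_37 (nat_lit 212) (nat_lit 211) (nat_lit 1) (nat_lit 8) (nat_lit 12) L96520 (by decide +kernel)
theorem L96522 : W_37 (nat_lit 5) (nat_lit 0x60006000100028001c001200080000000000000000000000000000000) (nat_lit 0x0) (nat_lit 0x8000180180000800040002000000010000000000000000000000000000000) := T_37 (nat_lit 223) (nat_lit 224) (nat_lit 2) (nat_lit 2) (nat_lit 13) L96521 (by decide +kernel)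
theorem L96523 : W_37 (nat_lit 6) (nat_lit 0x40006000100028001c001200080000000000000000000000000000000) (nat_lit 0x0) (nat_lit 0xc000380180000800040002000000010000000000000000000000000000000) := T_37 (nat_lit 225) (nat_lit 242) (nat_lit 5) (nat_lit 5) (nat_lit 10) L96522 (by decide +kernel)
theorem L96524 : W_37 (nat_lit 7) (nat_lit 0x6000100028001c001200080000000000000000000000000000000) (nat_lit 0x0) (nat_lit 0xc000780180000800140002000000010000000000000000000000000000000) := T_37 (nat_lit 226) (nat_lit 176) (nat_lit 6) (nat_lit 5) (nat_lit 13) L96523 (by decide +kernel)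
theorem L96525 : W_37 (nat_lit 8) (nat_lit 0x6000100028001c001000080000000000000000000000000000000) (nat_lit 0x0) (nat_lit 0xc000780180002800140002000200010000000000000000000000000000000) := T_37 (nat_lit 141) (nat_lit 193) (nat_lit 7) (nat_lit 5) (nat_lit 8) L96524 (by decide +kernel)
theorem L96526 : W_37 (nat_lit 9) (nat_lit 0x2000100028001c001000080000000000000000000000000000000) (nat_lit 0x0) (nat_lit 0xc000f801c0002800140002000200010000000000000000000000000000000) := T_37 (nat_lit 210) (nat_lit 227) (nat_lit 7) (nat_lit 5) (nat_lit 9) L96525 (by decide +kernel)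
theorem L96527 : W_37 (nat_lit 10) (nat_lit 0x20001000280014001000080000000000000000000000000000000) (nat_lit 0x0) (nat_lit 0xc000f801c000280014000a000600010000000000000000000000000000000) := T_37 (nat_lit 159) (nat_lit 142) (nat_lit 6) (nat_lit 5) (nat_lit 12) L96526 (by decide +kernel)
theorem L96528 : W_37 (nat_lit 2) (nat_lit 0x6000180028001c001200090000000000000000000000000000000) (nat_lit 0x0) (nat_lit 0x400000000000100000000000000000800000000000000000000000000) := D_37 (nat_lit 176) (nat_lit 226) (nat_lit 107) (nat_lit 6) (nat_lit 5) (nat_lit 13) (nat_lit 7) (nat_lit 5) (nat_lit 6) (by decide +kernel)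
theorem L96529 : W_37 (nat_lit 3) (nat_lit 0x6000180028001c001200080000000000000000000000000000000) (nat_lit 0x0) (nat_lit 0x400000000000140000000000010000800000000000000000000000000) := T_37 (nat_lit 124) (nat_lit 174) (nat_lit 5) (nat_lit 5) (nat_lit 7) L96528 (by decide +kernel)
theorem L96530 : W_37 (nat_lit 4) (nat_lit 0x6000100028001c001200080000000000000000000000000000000) (nat_lit 0x0) (nat_lit 0x400010000800140000000000010000800000000000000000000000000) := T_37 (nat_lit 191) (nat_lit 208) (nat_lit 5) (nat_lit 5) (nat_lit 8) L96529 (by decide +kernel)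
theorem L96531 : W_37 (nat_lit 5) (nat_lit 0x6000100028001c001000080000000000000000000000000000000) (nat_lit 0x0) (nat_lit 0x400010002800140000000200010000800000000000000000000000000) := T_37 (nat_lit 141) (nat_lit 193) (nat_lit 7) (nat_lit 5) (nat_lit 8) L96530 (by decide +kernel)
theorem L96532 : W_37 (nat_lit 6) (nat_lit 0x2000100028001c001000080000000000000000000000000000000) (nat_lit 0x0) (nat_lit 0xc00050002800140000000200010000800000000000000000000000000) := T_37 (nat_lit 210) (nat_lit 227) (nat_lit 7) (nat_lit 5) (nat_lit 9) L96531 (by decide +kernel)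
theorem L96533 : W_37 (nat_lit 7) (nat_lit 0x20001000280014001000080000000000000000000000000000000) (nat_lit 0x0) (nat_lit 0xc00050002800140008000600010000800000000000000000000000000) := T_37 (nat_lit 159) (nat_lit 142) (nat_lit 6) (nat_lit 5) (nat_lit 12) L96532 (by decide +kernel)
theorem L96534 : W_37 (nat_lit 11) (nat_lit 0x1000280014001000080000000000000000000000000000000) (nat_lit 0x0) (nat_lit 0x1c000f801f000280014000a000600030000800000000000000000000000000) := Q_37 (nat_lit 209) (C_37 L96477 (C_37 L96458 (C_37 L64215 (C_37 L96527 (C_37 L96533 N_37))))) (by decide +kernel)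
theorem L96535 : W_37 (nat_lit 12) (nat_lit 0x280014001000080000000000000000000000000000000) (nat_lit 0x0) (nat_lit 0x1c000f801f000380017000b8007c003e001c00060000000000000000000000) := Q_37 (nat_lit 192) (C_37 L96461 (C_37 L96469 (C_37 L96470 (C_37 L96478 (C_37 L96479 (C_37 L96480 (C_37 L96481 (C_37 L96493 (C_37 L96518 (C_37 L96534 N_37)))))))))) (by decide +kernel)
theorem L96536 : W_37 (nat_lit 2) (nat_lit 0x800040000000780014001000080000000000000000000000000000000) (nat_lit 0x0) (nat_lit 0x20001800000000000000000000000000000000000000000000000) := D_37 (nat_lit 192) (nat_lit 191) (nat_lit 209) (nat_lit 1) (nat_lit 8) (nat_lit 10) (nat_lit 7) (nat_lit 5) (nat_lit 9) (by decide +kernel)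
theorem L96537 : W_37 (nat_lit 3) (nat_lit 0x40000000780014001000080000000000000000000000000000000) (nat_lit 0x0) (nat_lit 0x800020003800000000000000000000000000000000000000000000000) := T_37 (nat_lit 227) (nat_lit 193) (nat_lit 6) (nat_lit 6) (nat_lit 13) L96536 (by decide +kernel)
theorem L96538 : W_37 (nat_lit 4) (nat_lit 0x40000000380014001000080000000000000000000000000000000) (nat_lit 0x0) (nat_lit 0x800020003800400002000000000000000000000000000000000000000) := T_37 (nat_lit 178) (nat_lit 157) (nat_lit 0) (nat_lit 8) (nat_lit 10) L96537 (by decide +kernel)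
theorem L96539 : W_37 (nat_lit 7) (nat_lit 0x800040000000780014001000080000000000000000000000000000000) (nat_lit 0x0) (nat_lit 0x1f40078001c000000000000000000000000000000000000000000000000) := T_37 (nat_lit 211) (nat_lit 194) (nat_lit 5) (nat_lit 7) (nat_lit 9) L64000 (by decide +kernel)
theorem L96540 : W_37 (nat_lit 8) (nat_lit 0x40000000780014001000080000000000000000000000000000000) (nat_lit 0x0) (nat_lit 0x1fc0078001e000000000000000000000000000000000000000000000000) := T_37 (nat_lit 227) (nat_lit 193) (nat_lit 6) (nat_lit 6) (nat_lit 13) L96539 (by decide +kernel)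
theorem L96541 : W_37 (nat_lit 9) (nat_lit 0x40000000380014001000080000000000000000000000000000000) (nat_lit 0x0) (nat_lit 0x1fc0078001e000400002000000000000000000000000000000000000000) := T_37 (nat_lit 178) (nat_lit 157) (nat_lit 0) (nat_lit 8) (nat_lit 10) L96540 (by decide +kernel)
theorem L96542 : W_37 (nat_lit 2) (nat_lit 0x400090007800140012000a8000000000000000000000000000000) (nat_lit 0x0) (nat_lit 0x10001400000000000000000000000000) := D_37 (nat_lit 124) (nat_lit 108) (nat_lit 106) (nat_lit 6) (nat_lit 5) (nat_lit 10) (nat_lit 4) (nat_lit 5) (nat_lit 10) (by decide +kernel)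
theorem L96543 : W_37 (nat_lit 3) (nat_lit 0x400090007800140012000a0000000000000000000000000000000) (nat_lit 0x0) (nat_lit 0x100018001400000000000000000000000000) := T_37 (nat_lit 123) (nat_lit 140) (nat_lit 4) (nat_lit 5) (nat_lit 11) L96542 (by decide +kernel)
theorem L96544 : W_37 (nat_lit 4) (nat_lit 0x40009000780014001200080000000000000000000000000000000) (nat_lit 0x0) (nat_lit 0x500038001400000000000000000000000000) := T_37 (nat_lit 125) (nat_lit 142) (nat_lit 6) (nat_lit 5) (nat_lit 11) L96543 (by decide +kernel)
theorem L96545 : W_37 (nat_lit 5) (nat_lit 0x40009000780014001000080000000000000000000000000000000) (nat_lit 0x0) (nat_lit 0x2000000000000700038001400000000000000000000000000) := T_37 (nat_lit 141) (nat_lit 193) (nat_lit 7) (nat_lit 5) (nat_lit 8) L96544 (by decide +kernel)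
theorem L96546 : W_37 (nat_lit 6) (nat_lit 0x40001000780014001000080000000000000000000000000000000) (nat_lit 0x0) (nat_lit 0x1a000000000000700038001400000000000000000000000000) := T_37 (nat_lit 195) (nat_lit 196) (nat_lit 3) (nat_lit 5) (nat_lit 10) L96545 (by decide +kernel)
theorem L96547 : W_37 (nat_lit 7) (nat_lit 0x40000000780014001000080000000000000000000000000000000) (nat_lit 0x0) (nat_lit 0x1b800000000000700038001400000000000000000000000000) := T_37 (nat_lit 192) (nat_lit 191) (nat_lit 1) (nat_lit 8) (nat_lit 10) L96546 (by decide +kernel)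
theorem L96548 : W_37 (nat_lit 8) (nat_lit 0x40000000380014001000080000000000000000000000000000000) (nat_lit 0x0) (nat_lit 0x1b800400002000700038001400000000000000000000000000) := T_37 (nat_lit 178) (nat_lit 157) (nat_lit 0) (nat_lit 8) (nat_lit 10) L96547 (by decide +kernel)
theorem L96549 : W_37 (nat_lit 10) (nat_lit 0x380014001000080000000000000000000000000000000) (nat_lit 0x0) (nat_lit 0x1fe007f001f800400002000700038001400000000000000000000000000) := Q_37 (nat_lit 210) (C_37 L96538 (C_37 L63995 (C_37 L63993 (C_37 L96541 (C_37 L96548 N_37))))) (by decide +kernel)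
theorem L96550 : W_37 (nat_lit 2) (nat_lit 0x40003e0016001000080000000000000000000000000000000) (nat_lit 0x0) (nat_lit 0xe00000000000000000000000000000000000000000000000) := D_37 (nat_lit 190) (nat_lit 191) (nat_lit 189) (nat_lit 1) (nat_lit 7) (nat_lit 10) (nat_lit 1) (nat_lit 6) (nat_lit 10) (by decide +kernel)
theorem L96551 : W_37 (nat_lit 3) (nat_lit 0x40003c0016001000080000000000000000000000000000000) (nat_lit 0x0) (nat_lit 0x2e00020000000000000000000000000000000000000000000) := T_37 (nat_lit 173) (nat_lit 193) (nat_lit 3) (nat_lit 3) (nat_lit 10) L96550 (by decide +kernel)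
theorem L96552 : W_37 (nat_lit 4) (nat_lit 0x3c0016001000080000000000000000000000000000000) (nat_lit 0x0) (nat_lit 0xee00020000000000000000000000000000000000000000000) := T_37 (nat_lit 194) (nat_lit 195) (nat_lit 3) (nat_lit 4) (nat_lit 10) L96551 (by decide +kernel)
theorem L96553 : W_37 (nat_lit 5) (nat_lit 0x3c0014001000080000000000000000000000000000000) (nat_lit 0x0) (nat_lit 0xee00020003000000000000000000000000000000000000000) := T_37 (nat_lit 157) (nat_lit 156) (nat_lit 0) (nat_lit 7) (nat_lit 10) L96552 (by decide +kernel)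
theorem L96554 : W_37 (nat_lit 2) (nat_lit 0x400060003c0016001000080000000000000000000000000000000) (nat_lit 0x0) (nat_lit 0x1000000000000200010000000000000000000000000000000) := D_37 (nat_lit 141) (nat_lit 124) (nat_lit 192) (nat_lit 7) (nat_lit 5) (nat_lit 7) (nat_lit 7) (nat_lit 5) (nat_lit 8) (by decide +kernel)
theorem L96555 : W_37 (nat_lit 3) (nat_lit 0x60003c0016001000080000000000000000000000000000000) (nat_lit 0x0) (nat_lit 0x800040001000000000000200010000000000000000000000000000000) := T_37 (nat_lit 210) (nat_lit 227) (nat_lit 6) (nat_lit 6) (nat_lit 13) L96554 (by decide +kernel)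
theorem L96556 : W_37 (nat_lit 4) (nat_lit 0x40003c0016001000080000000000000000000000000000000) (nat_lit 0x0) (nat_lit 0x800040003000020000000200010000000000000000000000000000000) := T_37 (nat_lit 193) (nat_lit 173) (nat_lit 3) (nat_lit 3) (nat_lit 10) L96555 (by decide +kernel)
theorem L96557 : W_37 (nat_lit 5) (nat_lit 0x3c0016001000080000000000000000000000000000000) (nat_lit 0x0) (nat_lit 0x80004000f000020000000200010000000000000000000000000000000) := T_37 (nat_lit 194) (nat_lit 195) (nat_lit 3) (nat_lit 4) (nat_lit 10) L96556 (by decide +kernel)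
theorem L96558 : W_37 (nat_lit 6) (nat_lit 0x3c0014001000080000000000000000000000000000000) (nat_lit 0x0) (nat_lit 0x80004000f000020003000200010000000000000000000000000000000) := T_37 (nat_lit 157) (nat_lit 156) (nat_lit 0) (nat_lit 7) (nat_lit 10) L96557 (by decide +kernel)
theorem L96559 : W_37 (nat_lit 7) (nat_lit 0x380014001000080000000000000000000000000000000) (nat_lit 0x0) (nat_lit 0xa0005000ff00078003000200010000000000000000000000000000000) := Q_37 (nat_lit 174) (C_37 L96553 (C_37 L74850 (C_37 L64284 (C_37 L64282 (C_37 L96558 N_37))))) (by decide +kernel)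
theorem L96560 : W_37 (nat_lit 7) (nat_lit 0x380014001000080000000000000000000000000000000) (nat_lit 0x0) (nat_lit 0xa0005000ff00470001c00200010000000000000000000000000000000) := Q_37 (nat_lit 174) (C_37 L64282 (C_37 L64301 (C_37 L64306 (C_37 L64308 N_37)))) (by decide +kernel)
theorem L96561 : W_37 (nat_lit 11) (nat_lit 0x280014001000080000000000000000000000000000000) (nat_lit 0x0) (nat_lit 0x1fe007f001ff00578003c00700038001400000000000000000000000000) := Q_37 (nat_lit 176) (C_37 L96549 (C_37 L96559 (C_37 L64294 (C_37 L96560 N_37)))) (by decide +kernel)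
theorem L96562 : W_37 (nat_lit 5) (nat_lit 0x1000280014001000080000000000000000000000000000000) (nat_lit 0x0) (nat_lit 0xa0007000280040000a000700028000000000000000000000000000000) := Q_37 (nat_lit 209) (C_37 L64789 (C_37 L64215 (C_37 L64233 N_37))) (by decide +kernel)
theorem L96563 : W_37 (nat_lit 6) (nat_lit 0x1000280014001000080000000000000000000000000000000) (nat_lit 0x0) (nat_lit 0x4000e0007000080044000a000700020000000000000000000000000000000) := Q_37 (nat_lit 209) (C_37 L96474 (C_37 L64233 (C_37 L64215 N_37))) (by decide +kernel)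
theorem L96564 : W_37 (nat_lit 2) (nat_lit 0xa0002000100028001c001000080000000000000000000000000000000) (nat_lit 0x0) (nat_lit 0x14000400000000000000000000000000000000000000000000000000000000) := D_37 (nat_lit 226) (nat_lit 244) (nat_lit 242) (nat_lit 7) (nat_lit 5) (nat_lit 10) (nat_lit 5) (nat_lit 5) (nat_lit 10) (by decide +kernel)
theorem L96565 : W_37 (nat_lit 3) (nat_lit 0x80002000100028001c001000080000000000000000000000000000000) (nat_lit 0x0) (nat_lit 0x14000600010000000000000000000000000000000000000000000000000000) := T_37 (nat_lit 225) (nat_lit 208) (nat_lit 5) (nat_lit 5) (nat_lit 9) L96564 (by decide +kernel)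
theorem L96566 : W_37 (nat_lit 4) (nat_lit 0x2000100028001c001000080000000000000000000000000000000) (nat_lit 0x0) (nat_lit 0x14000e00050000000000000000000000000000000000000000000000000000) := T_37 (nat_lit 227) (nat_lit 210) (nat_lit 7) (nat_lit 5) (nat_lit 9) L96565 (by decide +kernel)
theorem L96567 : W_37 (nat_lit 5) (nat_lit 0x20001000280014001000080000000000000000000000000000000) (nat_lit 0x0) (nat_lit 0x14000e00050000000000008000400000000000000000000000000000000000) := T_37 (nat_lit 159) (nat_lit 142) (nat_lit 6) (nat_lit 5) (nat_lit 12) L96566 (by decide +kernel)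
theorem L96568 : W_37 (nat_lit 6) (nat_lit 0x1000280014001000080000000000000000000000000000000) (nat_lit 0x0) (nat_lit 0x14000e0007000000044000a000500000000000000000000000000000000000) := Q_37 (nat_lit 209) (C_37 L96474 (C_37 L64233 (C_37 L96567 N_37))) (by decide +kernel)
theorem L96569 : W_37 (nat_lit 11) (nat_lit 0x1000280014001000080000000000000000000000000000000) (nat_lit 0x0) (nat_lit 0xb000680046000b8007c003e000c00040000000000000000000000) := Q_37 (nat_lit 141) (C_37 L62818 (C_37 L96492 (C_37 L62950 (C_37 L64242 (C_37 L64251 N_37))))) (by decide +kernel)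
theorem L96570 : W_37 (nat_lit 2) (nat_lit 0x780028001400160009a000000000000000000000000000000) (nat_lit 0x0) (nat_lit 0xa0000000000008000000000000000000000000000000000000000) := D_37 (nat_lit 159) (nat_lit 209) (nat_lit 211) (nat_lit 6) (nat_lit 5) (nat_lit 12) (nat_lit 4) (nat_lit 7) (nat_lit 12) (by decide +kernel)
theorem L96571 : W_37 (nat_lit 3) (nat_lit 0x380028001400160009a000000000000000000000000000000) (nat_lit 0x0) (nat_lit 0xa0004000400008000000000000000000000000000000000000000) := T_37 (nat_lit 194) (nat_lit 178) (nat_lit 2) (nat_lit 4) (nat_lit 11) L96570 (by decide +kernel)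
theorem L96572 : W_37 (nat_lit 4) (nat_lit 0x3800280014001600098000000000000000000000000000000) (nat_lit 0x0) (nat_lit 0xa0004000400008000000006000000000000000000000000000000) := T_37 (nat_lit 121) (nat_lit 122) (nat_lit 3) (nat_lit 2) (nat_lit 7) L96571 (by decide +kernel)
theorem L96573 : W_37 (nat_lit 5) (nat_lit 0x3800280014001600090000000000000000000000000000000) (nat_lit 0x0) (nat_lit 0xa000400040000800000000e000400000000000000000000000000) := T_37 (nat_lit 123) (nat_lit 106) (nat_lit 4) (nat_lit 5) (nat_lit 10) L96572 (by decide +kernel)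
theorem L96574 : W_37 (nat_lit 6) (nat_lit 0x3800280014001600080000000000000000000000000000000) (nat_lit 0x0) (nat_lit 0xa000400044000800000001e000400000000000000000000000000) := T_37 (nat_lit 124) (nat_lit 174) (nat_lit 5) (nat_lit 5) (nat_lit 7) L96573 (by decide +kernel)
theorem L96575 : W_37 (nat_lit 7) (nat_lit 0x3000280014001600080000000000000000000000000000000) (nat_lit 0x0) (nat_lit 0xb000480044000800000001e000400000000000000000000000000) := T_37 (nat_lit 191) (nat_lit 208) (nat_lit 5) (nat_lit 5) (nat_lit 8) L96574 (by decide +kernel)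
theorem L96576 : W_37 (nat_lit 8) (nat_lit 0x3000280014001200080000000000000000000000000000000) (nat_lit 0x0) (nat_lit 0xb000480044000800040003e000400000000000000000000000000) := T_37 (nat_lit 142) (nat_lit 125) (nat_lit 6) (nat_lit 5) (nat_lit 11) L96575 (by decide +kernel)
theorem L96577 : W_37 (nat_lit 9) (nat_lit 0x1000280014001200080000000000000000000000000000000) (nat_lit 0x0) (nat_lit 0xf000680044000800040003e000400000000000000000000000000) := T_37 (nat_lit 193) (nat_lit 210) (nat_lit 7) (nat_lit 5) (nat_lit 8) L96576 (by decide +kernel)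
theorem L96578 : W_37 (nat_lit 10) (nat_lit 0x1000280014001000080000000000000000000000000000000) (nat_lit 0x0) (nat_lit 0x2000f000680044000800078003e000400000000000000000000000000) := Q_37 (nat_lit 141) (C_37 L62818 (C_37 L62950 (C_37 L96577 (C_37 L64992 N_37)))) (by decide +kernel)
theorem L96579 : W_37 (nat_lit 9) (nat_lit 0x1000280014001000080000000000000000000000000000000) (nat_lit 0x0) (nat_lit 0x5000280006000bc007c003f001400000000000000000000000000) := Q_37 (nat_lit 141) (C_37 L62818 (C_37 L96492 (C_37 L64266 (C_37 L64399 N_37)))) (by decide +kernel)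
theorem L96580 : W_37 (nat_lit 2) (nat_lit 0x30002800160013000b0000000000000000000000000000000) (nat_lit 0x0) (nat_lit 0x800040000000000000000800000000000000000000000000) := D_37 (nat_lit 174) (nat_lit 191) (nat_lit 107) (nat_lit 6) (nat_lit 4) (nat_lit 11) (nat_lit 5) (nat_lit 5) (nat_lit 6) (by decide +kernel)
theorem L96581 : W_37 (nat_lit 3) (nat_lit 0x30002800160013000a0000000000000000000000000000000) (nat_lit 0x0) (nat_lit 0x800040000000000010001800000000000000000000000000) := T_37 (nat_lit 124) (nat_lit 108) (nat_lit 6) (nat_lit 5) (nat_lit 10) L96580 (by decide +kernel)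
theorem L96582 : W_37 (nat_lit 4) (nat_lit 0x3000280016001300080000000000000000000000000000000) (nat_lit 0x0) (nat_lit 0x800040000000400030001800000000000000000000000000) := T_37 (nat_lit 125) (nat_lit 142) (nat_lit 6) (nat_lit 5) (nat_lit 11) L96581 (by decide +kernel)
theorem L96583 : W_37 (nat_lit 5) (nat_lit 0x3000280014001300080000000000000000000000000000000) (nat_lit 0x0) (nat_lit 0x20000800040002000400030001800000000000000000000000000) := T_37 (nat_lit 157) (nat_lit 209) (nat_lit 4) (nat_lit 5) (nat_lit 12) L96582 (by decide +kernel)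
theorem L96584 : W_37 (nat_lit 6) (nat_lit 0x1000280014001300080000000000000000000000000000000) (nat_lit 0x0) (nat_lit 0x60002800040002000400030001800000000000000000000000000) := T_37 (nat_lit 193) (nat_lit 210) (nat_lit 7) (nat_lit 5) (nat_lit 8) L96583 (by decide +kernel)
theorem L96585 : W_37 (nat_lit 7) (nat_lit 0x1000280014001200080000000000000000000000000000000) (nat_lit 0x0) (nat_lit 0x60002800040002000500038001800000000000000000000000000) := T_37 (nat_lit 140) (nat_lit 123) (nat_lit 4) (nat_lit 5) (nat_lit 11) L96584 (by decide +kernel)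
theorem L96586 : W_37 (nat_lit 2) (nat_lit 0x3000280016001300080000000000000000000000000000000) (nat_lit 0x0) (nat_lit 0x400008000080000000000000000000000000000000000) := D_37 (nat_lit 159) (nat_lit 178) (nat_lit 139) (nat_lit 3) (nat_lit 4) (nat_lit 9) (nat_lit 0) (nat_lit 7) (nat_lit 9) (by decide +kernel)
theorem L96587 : W_37 (nat_lit 3) (nat_lit 0x3000280014001300080000000000000000000000000000000) (nat_lit 0x0) (nat_lit 0x2000000040000a000080000000000000000000000000000000000) := T_37 (nat_lit 157) (nat_lit 209) (nat_lit 4) (nat_lit 5) (nat_lit 12) L96586 (by decide +kernel)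
theorem L96588 : W_37 (nat_lit 4) (nat_lit 0x3000280014001200080000000000000000000000000000000) (nat_lit 0x0) (nat_lit 0x2000000040000a000180008000000000000000000000000000000) := T_37 (nat_lit 140) (nat_lit 123) (nat_lit 4) (nat_lit 5) (nat_lit 11) L96587 (by decide +kernel)
theorem L96589 : W_37 (nat_lit 5) (nat_lit 0x1000280014001200080000000000000000000000000000000) (nat_lit 0x0) (nat_lit 0x6000200040000a000180008000000000000000000000000000000) := T_37 (nat_lit 193) (nat_lit 210) (nat_lit 7) (nat_lit 5) (nat_lit 8) L96588 (by decide +kernel)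
theorem L96590 : W_37 (nat_lit 10) (nat_lit 0x1000280014001000080000000000000000000000000000000) (nat_lit 0x0) (nat_lit 0xe000680046000bc007c003f001800000000000000000000000000) := Q_37 (nat_lit 141) (C_37 L96585 (C_37 L62950 (C_37 L96589 (C_37 L64266 (C_37 L64275 N_37))))) (by decide +kernel)
theorem L96591 : W_37 (nat_lit 6) (nat_lit 0x1000280014001000080000000000000000000000000000000) (nat_lit 0x0) (nat_lit 0x14000e00070002800000008000600020000000000000000000000000000000) := Q_37 (nat_lit 209) (C_37 L96477 (C_37 L96567 (C_37 L64215 (C_37 L64166 N_37)))) (by decide +kernel)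
theorem L96592 : W_37 (nat_lit 12) (nat_lit 0x280014001000080000000000000000000000000000000) (nat_lit 0x0) (nat_lit 0x14000e000f000780046000bc007c003f001c00040000000000000000000000) := Q_37 (nat_lit 192) (C_37 L96478 (C_37 L96562 (C_37 L96563 (C_37 L96568 (C_37 L96569 (C_37 L96578 (C_37 L96579 (C_37 L96590 (C_37 L96591 N_37))))))))) (by decide +kernel)
theorem L96593 : W_37 (nat_lit 6) (nat_lit 0x2c0016001000080000000000000000000000000000000) (nat_lit 0x0) (nat_lit 0x80004000f000120001000200010000000000000000000000000000000) := T_37 (nat_lit 176) (nat_lit 156) (nat_lit 0) (nat_lit 7) (nat_lit 10) L96557 (by decide +kernel)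
theorem L96594 : W_37 (nat_lit 2) (nat_lit 0x2c001f4013000bc000000000000000000000000000000) (nat_lit 0x0) (nat_lit 0x400003000000000000000000000000000000) := D_37 (nat_lit 121) (nat_lit 142) (nat_lit 120) (nat_lit 3) (nat_lit 2) (nat_lit 7) (nat_lit 3) (nat_lit 1) (nat_lit 7) (by decide +kernel)
theorem L96595 : W_37 (nat_lit 3) (nat_lit 0x2c001f4013000b8000000000000000000000000000000) (nat_lit 0x0) (nat_lit 0x400007000200000000000000000000000000) := T_37 (nat_lit 122) (nat_lit 105) (nat_lit 4) (nat_lit 4) (nat_lit 10) L96594 (by decide +kernel)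
theorem L96596 : W_37 (nat_lit 4) (nat_lit 0x2c001f401300098000000000000000000000000000000) (nat_lit 0x0) (nat_lit 0x400027001200000000000000000000000000) := T_37 (nat_lit 125) (nat_lit 108) (nat_lit 6) (nat_lit 5) (nat_lit 10) L96595 (by decide +kernel)
theorem L96597 : W_37 (nat_lit 5) (nat_lit 0x2c001f401100098000000000000000000000000000000) (nat_lit 0x0) (nat_lit 0x800000000000600027001200000000000000000000000000) := T_37 (nat_lit 141) (nat_lit 191) (nat_lit 6) (nat_lit 4) (nat_lit 11) L96596 (by decide +kernel)
theorem L96598 : W_37 (nat_lit 6) (nat_lit 0x2c001f401100088000000000000000000000000000000) (nat_lit 0x0) (nat_lit 0x800000000000600037001a00000000000000000000000000) := T_37 (nat_lit 124) (nat_lit 107) (nat_lit 6) (nat_lit 4) (nat_lit 10) L96597 (by decide +kernel)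
theorem L96599 : W_37 (nat_lit 7) (nat_lit 0x2c001f401100080000000000000000000000000000000) (nat_lit 0x0) (nat_lit 0x80000000000060003f001e00000000000000000000000000) := T_37 (nat_lit 123) (nat_lit 106) (nat_lit 7) (nat_lit 4) (nat_lit 6) L96598 (by decide +kernel)
theorem L96600 : W_37 (nat_lit 8) (nat_lit 0x2c001f001100080000000000000000000000000000000) (nat_lit 0x0) (nat_lit 0x800000000c0060003f001e00000000000000000000000000) := T_37 (nat_lit 154) (nat_lit 155) (nat_lit 3) (nat_lit 1) (nat_lit 9) L96599 (by decide +kernel)
theorem L96601 : W_37 (nat_lit 9) (nat_lit 0x2c001e001100080000000000000000000000000000000) (nat_lit 0x0) (nat_lit 0x800100001c0060003f001e00000000000000000000000000) := T_37 (nat_lit 156) (nat_lit 176) (nat_lit 3) (nat_lit 3) (nat_lit 9) L96600 (by decide +kernel)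
theorem L96602 : W_37 (nat_lit 10) (nat_lit 0x2c001e001000080000000000000000000000000000000) (nat_lit 0x0) (nat_lit 0x800100001c0078003f001e00000000000000000000000000) := T_37 (nat_lit 140) (nat_lit 139) (nat_lit 0) (nat_lit 7) (nat_lit 9) L96601 (by decide +kernel)
theorem L96603 : W_37 (nat_lit 11) (nat_lit 0x2c0016001000080000000000000000000000000000000) (nat_lit 0x0) (nat_lit 0x800120009c0078003f001e00000000000000000000000000) := T_37 (nat_lit 159) (nat_lit 173) (nat_lit 1) (nat_lit 7) (nat_lit 9) L96602 (by decide +kernel)
theorem L96604 : W_37 (nat_lit 3) (nat_lit 0x3c0016001000080000000000000000000000000000000) (nat_lit 0x0) (nat_lit 0x200010000c00000000000200000000000000000000000000000000000) := T_37 (nat_lit 191) (nat_lit 190) (nat_lit 1) (nat_lit 7) (nat_lit 10) L74848 (by decide +kernel)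
theorem L96605 : W_37 (nat_lit 4) (nat_lit 0x2c0016001000080000000000000000000000000000000) (nat_lit 0x0) (nat_lit 0x200010000c00100001000200000000000000000000000000000000000) := T_37 (nat_lit 176) (nat_lit 156) (nat_lit 0) (nat_lit 7) (nat_lit 10) L96604 (by decide +kernel)
theorem L96606 : W_37 (nat_lit 12) (nat_lit 0x280016001000080000000000000000000000000000000) (nat_lit 0x0) (nat_lit 0xa0007000fc00160009c0078003f001e00000000000000000000000000) := Q_37 (nat_lit 174) (C_37 L96593 (C_37 L64068 (C_37 L96603 (C_37 L96605 N_37)))) (by decide +kernel)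
theorem L96607 : W_37 (nat_lit 13) (nat_lit 0x280014001000080000000000000000000000000000000) (nat_lit 0x0) (nat_lit 0xa0007000fc0056000bc0078003f001e00000000000000000000000000) := Q_37 (nat_lit 157) (C_37 L96606 (C_37 L64322 (C_37 L64323 (C_37 L64279 N_37)))) (by decide +kernel)
theorem L96608 : W_37 (nat_lit 5) (nat_lit 0x280016001000080000000000000000000000000000000) (nat_lit 0x0) (nat_lit 0x200030001c00160009000380008000000000000000000000000000000) := Q_37 (nat_lit 174) (C_37 L96605 (C_37 L64068 N_37)) (by decide +kernel)
theorem L96609 : W_37 (nat_lit 6) (nat_lit 0x280014001000080000000000000000000000000000000) (nat_lit 0x0) (nat_lit 0x200030001c0056000b800380008000000000000000000000000000000) := Q_37 (nat_lit 157) (C_37 L96608 (C_37 L64322 (C_37 L64323 (C_37 L64279 N_37)))) (by decide +kernel)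
theorem L96610 : W_37 (nat_lit 2) (nat_lit 0x2c001e0013000bc000000000000000000000000000000) (nat_lit 0x0) (nat_lit 0x400003000000000000000000000000000000) := D_37 (nat_lit 121) (nat_lit 142) (nat_lit 120) (nat_lit 3) (nat_lit 2) (nat_lit 7) (nat_lit 3) (nat_lit 1) (nat_lit 7) (by decide +kernel)
theorem L96611 : W_37 (nat_lit 3) (nat_lit 0x2c001e0013000b8000000000000000000000000000000) (nat_lit 0x0) (nat_lit 0x400007000200000000000000000000000000) := T_37 (nat_lit 122) (nat_lit 105) (nat_lit 4) (nat_lit 4) (nat_lit 10) L96610 (by decide +kernel)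
theorem L96612 : W_37 (nat_lit 4) (nat_lit 0x2c001e001300098000000000000000000000000000000) (nat_lit 0x0) (nat_lit 0x400027001200000000000000000000000000) := T_37 (nat_lit 125) (nat_lit 108) (nat_lit 6) (nat_lit 5) (nat_lit 10) L96611 (by decide +kernel)
theorem L96613 : W_37 (nat_lit 5) (nat_lit 0x2c001e001100098000000000000000000000000000000) (nat_lit 0x0) (nat_lit 0x800000000000600027001200000000000000000000000000) := T_37 (nat_lit 141) (nat_lit 191) (nat_lit 6) (nat_lit 4) (nat_lit 11) L96612 (by decide +kernel)
theorem L96614 : W_37 (nat_lit 6) (nat_lit 0x2c001e001100088000000000000000000000000000000) (nat_lit 0x0) (nat_lit 0x800000000000600037001a00000000000000000000000000) := T_37 (nat_lit 124) (nat_lit 107) (nat_lit 6) (nat_lit 4) (nat_lit 10) L96613 (by decide +kernel)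
theorem L96615 : W_37 (nat_lit 7) (nat_lit 0x2c001e001100080000000000000000000000000000000) (nat_lit 0x0) (nat_lit 0x80000000000060003f001e00000000000000000000000000) := T_37 (nat_lit 123) (nat_lit 106) (nat_lit 7) (nat_lit 4) (nat_lit 6) L96614 (by decide +kernel)
theorem L96616 : W_37 (nat_lit 8) (nat_lit 0x2c001e001000080000000000000000000000000000000) (nat_lit 0x0) (nat_lit 0x80000000000078003f001e00000000000000000000000000) := T_37 (nat_lit 140) (nat_lit 139) (nat_lit 0) (nat_lit 7) (nat_lit 9) L96615 (by decide +kernel)
theorem L96617 : W_37 (nat_lit 9) (nat_lit 0x2c0016001000080000000000000000000000000000000) (nat_lit 0x0) (nat_lit 0x80002000800078003f001e00000000000000000000000000) := T_37 (nat_lit 159) (nat_lit 173) (nat_lit 1) (nat_lit 7) (nat_lit 9) L96616 (by decide +kernel)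
theorem L96618 : W_37 (nat_lit 2) (nat_lit 0x40003c001e001100080000000000000000000000000000000) (nat_lit 0x0) (nat_lit 0x1000080000000000000000400000000000000000000000000000000000) := D_37 (nat_lit 211) (nat_lit 142) (nat_lit 228) (nat_lit 4) (nat_lit 7) (nat_lit 12) (nat_lit 4) (nat_lit 7) (nat_lit 13) (by decide +kernel)
theorem L96619 : W_37 (nat_lit 3) (nat_lit 0x3c001e001100080000000000000000000000000000000) (nat_lit 0x0) (nat_lit 0x100008000c000000000000400000000000000000000000000000000000) := T_37 (nat_lit 194) (nat_lit 195) (nat_lit 3) (nat_lit 4) (nat_lit 10) L96618 (by decide +kernel)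
theorem L96620 : W_37 (nat_lit 4) (nat_lit 0x2c001e001100080000000000000000000000000000000) (nat_lit 0x0) (nat_lit 0x100008000c000100001000400000000000000000000000000000000000) := T_37 (nat_lit 176) (nat_lit 156) (nat_lit 3) (nat_lit 3) (nat_lit 9) L96619 (by decide +kernel)
theorem L96621 : W_37 (nat_lit 5) (nat_lit 0x2c001e001000080000000000000000000000000000000) (nat_lit 0x0) (nat_lit 0x100008000c000100001000580000000000000000000000000000000000) := T_37 (nat_lit 140) (nat_lit 139) (nat_lit 0) (nat_lit 7) (nat_lit 9) L96620 (by decide +kernel)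
theorem L96622 : W_37 (nat_lit 6) (nat_lit 0x2c0016001000080000000000000000000000000000000) (nat_lit 0x0) (nat_lit 0x100008000c000120009000580000000000000000000000000000000000) := T_37 (nat_lit 159) (nat_lit 173) (nat_lit 1) (nat_lit 7) (nat_lit 9) L96621 (by decide +kernel)
theorem L96623 : W_37 (nat_lit 10) (nat_lit 0x280016001000080000000000000000000000000000000) (nat_lit 0x0) (nat_lit 0x120009000cc0016000900078003f001e00000000000000000000000000) := Q_37 (nat_lit 174) (C_37 L96605 (C_37 L96617 (C_37 L96622 N_37))) (by decide +kernel)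
theorem L96624 : W_37 (nat_lit 9) (nat_lit 0x28001e001000080000000000000000000000000000000) (nat_lit 0x0) (nat_lit 0x80006000000078003f001e00000000000000000000000000) := T_37 (nat_lit 174) (nat_lit 173) (nat_lit 1) (nat_lit 7) (nat_lit 9) L96616 (by decide +kernel)
theorem L96625 : W_37 (nat_lit 10) (nat_lit 0x280016001000080000000000000000000000000000000) (nat_lit 0x0) (nat_lit 0x80046000800078003f001e00000000000000000000000000) := T_37 (nat_lit 159) (nat_lit 178) (nat_lit 3) (nat_lit 4) (nat_lit 9) L96624 (by decide +kernel)
theorem L96626 : W_37 (nat_lit 11) (nat_lit 0x280014001000080000000000000000000000000000000) (nat_lit 0x0) (nat_lit 0x120009000cc0056000b80078003f001e00000000000000000000000000) := Q_37 (nat_lit 157) (C_37 L96623 (C_37 L64322 (C_37 L96625 (C_37 L64279 N_37)))) (by decide +kernel)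
theorem L96627 : W_37 (nat_lit 9) (nat_lit 0x280016001000080000000000000000000000000000000) (nat_lit 0x0) (nat_lit 0x70007800ff00178009000180008000000000000000000000000000000) := Q_37 (nat_lit 174) (C_37 L64313 (C_37 L64068 (C_37 L64320 N_37))) (by decide +kernel)
theorem L96628 : W_37 (nat_lit 10) (nat_lit 0x280014001000080000000000000000000000000000000) (nat_lit 0x0) (nat_lit 0x70007800ff0057800b800180008000000000000000000000000000000) := Q_37 (nat_lit 157) (C_37 L96627 (C_37 L64322 (C_37 L64323 (C_37 L64279 N_37)))) (by decide +kernel)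
theorem L96629 : W_37 (nat_lit 6) (nat_lit 0x1000280014001000080000000000000000000000000000000) (nat_lit 0x0) (nat_lit 0x14000e0007000080040000a000700008000000000000000000000000000000) := Q_37 (nat_lit 209) (C_37 L96454 (C_37 L96567 (C_37 L64233 N_37))) (by decide +kernel)
theorem L96630 : W_37 (nat_lit 5) (nat_lit 0x1000280014001000080000000000000000000000000000000) (nat_lit 0x0) (nat_lit 0xa0007000280050000a000300008000000000000000000000000000000) := Q_37 (nat_lit 209) (C_37 L64789 (C_37 L96454 (C_37 L64328 (C_37 L96477 N_37)))) (by decide +kernel)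
theorem L96631 : W_37 (nat_lit 7) (nat_lit 0x1000280014001000080000000000000000000000000000000) (nat_lit 0x0) (nat_lit 0x14000e0007000000050000a000500000000000000000000000000000000000) := Q_37 (nat_lit 209) (C_37 L64349 (C_37 L96567 (C_37 L64328 N_37))) (by decide +kernel)
theorem L96632 : W_37 (nat_lit 2) (nat_lit 0x200030002800140013400b0000000000000000000000000000000) (nat_lit 0x0) (nat_lit 0x200010000800000000000000000000000000000000000000000000000) := D_37 (nat_lit 208) (nat_lit 191) (nat_lit 225) (nat_lit 5) (nat_lit 5) (nat_lit 8) (nat_lit 5) (nat_lit 5) (nat_lit 9) (by decide +kernel)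
theorem L96633 : W_37 (nat_lit 3) (nat_lit 0x30002800140013400b0000000000000000000000000000000) (nat_lit 0x0) (nat_lit 0x200030000800000002000000000000000000000000000000000000000) := T_37 (nat_lit 209) (nat_lit 157) (nat_lit 4) (nat_lit 5) (nat_lit 12) L96632 (by decide +kernel)
theorem L96634 : W_37 (nat_lit 4) (nat_lit 0x30002800140013000b0000000000000000000000000000000) (nat_lit 0x0) (nat_lit 0x2000300008000000020000c0000000000000000000000000000000000) := T_37 (nat_lit 138) (nat_lit 139) (nat_lit 2) (nat_lit 2) (nat_lit 8) L96633 (by decide +kernel)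
theorem L96635 : W_37 (nat_lit 5) (nat_lit 0x3000280014001300090000000000000000000000000000000) (nat_lit 0x0) (nat_lit 0x2000300008000000020000c0020001000000000000000000000000000) := T_37 (nat_lit 125) (nat_lit 108) (nat_lit 6) (nat_lit 5) (nat_lit 10) L96634 (by decide +kernel)
theorem L96636 : W_37 (nat_lit 6) (nat_lit 0x3000280014001300080000000000000000000000000000000) (nat_lit 0x0) (nat_lit 0x2000300008001000020000c0030001000000000000000000000000000) := T_37 (nat_lit 124) (nat_lit 176) (nat_lit 7) (nat_lit 5) (nat_lit 7) L96635 (by decide +kernel)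
theorem L96637 : W_37 (nat_lit 7) (nat_lit 0x1000280014001300080000000000000000000000000000000) (nat_lit 0x0) (nat_lit 0x2000700028001000020000c0030001000000000000000000000000000) := T_37 (nat_lit 193) (nat_lit 210) (nat_lit 7) (nat_lit 5) (nat_lit 8) L96636 (by decide +kernel)
theorem L96638 : W_37 (nat_lit 8) (nat_lit 0x1000280014001200080000000000000000000000000000000) (nat_lit 0x0) (nat_lit 0x2000700028001000020001c0038001000000000000000000000000000) := T_37 (nat_lit 140) (nat_lit 123) (nat_lit 4) (nat_lit 5) (nat_lit 11) L96637 (by decide +kernel)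
theorem L96639 : W_37 (nat_lit 2) (nat_lit 0x1800680014001200080000000000000000000000000000000) (nat_lit 0x0) (nat_lit 0x40006000000000000000000000000000000000000000000000000) := D_37 (nat_lit 193) (nat_lit 194) (nat_lit 210) (nat_lit 2) (nat_lit 4) (nat_lit 11) (nat_lit 7) (nat_lit 5) (nat_lit 8) (by decide +kernel)
theorem L96640 : W_37 (nat_lit 3) (nat_lit 0x1800280014001200080000000000000000000000000000000) (nat_lit 0x0) (nat_lit 0x40006000500000000000000000000000000000000000000000000) := T_37 (nat_lit 178) (nat_lit 176) (nat_lit 1) (nat_lit 8) (nat_lit 10) L96639 (by decide +kernel)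
theorem L96641 : W_37 (nat_lit 4) (nat_lit 0x1000280014001200080000000000000000000000000000000) (nat_lit 0x0) (nat_lit 0x50006800500000000000000000000000000000000000000000000) := T_37 (nat_lit 191) (nat_lit 208) (nat_lit 5) (nat_lit 5) (nat_lit 8) L96640 (by decide +kernel)
theorem L96642 : W_37 (nat_lit 9) (nat_lit 0x1000280014001000080000000000000000000000000000000) (nat_lit 0x0) (nat_lit 0x2000700068005000020007c0038001000000000000000000000000000) := Q_37 (nat_lit 141) (C_37 L64220 (C_37 L63036 (C_37 L96638 (C_37 L96641 N_37)))) (by decide +kernel)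
theorem L96643 : W_37 (nat_lit 2) (nat_lit 0x1000680016001100080000000000000000000000000000000) (nat_lit 0x0) (nat_lit 0x200008000400000000000000000000000000) := D_37 (nat_lit 123) (nat_lit 141) (nat_lit 106) (nat_lit 4) (nat_lit 5) (nat_lit 11) (nat_lit 7) (nat_lit 4) (nat_lit 6) (by decide +kernel)
theorem L96644 : W_37 (nat_lit 3) (nat_lit 0x1000680016001000080000000000000000000000000000000) (nat_lit 0x0) (nat_lit 0x20000000000000000300008000400000000000000000000000000) := T_37 (nat_lit 140) (nat_lit 209) (nat_lit 4) (nat_lit 5) (nat_lit 12) L96643 (by decide +kernel)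
theorem L96645 : W_37 (nat_lit 4) (nat_lit 0x1000280016001000080000000000000000000000000000000) (nat_lit 0x0) (nat_lit 0x20000000500000000300008000400000000000000000000000000) := T_37 (nat_lit 178) (nat_lit 176) (nat_lit 0) (nat_lit 8) (nat_lit 10) L96644 (by decide +kernel)
theorem L96646 : W_37 (nat_lit 4) (nat_lit 0x1000280016001000080000000000000000000000000000000) (nat_lit 0x0) (nat_lit 0x400020000000100009000500000000000000000000000000000000000) := T_37 (nat_lit 209) (nat_lit 140) (nat_lit 4) (nat_lit 5) (nat_lit 12) L96459 (by decide +kernel)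
theorem L96647 : W_37 (nat_lit 3) (nat_lit 0x1000280016001000080000000000000000000000000000000) (nat_lit 0x0) (nat_lit 0x20000000400008000500000000000000000000000000000000000) := T_37 (nat_lit 209) (nat_lit 140) (nat_lit 4) (nat_lit 5) (nat_lit 12) L64232 (by decide +kernel)
theorem L96648 : W_37 (nat_lit 2) (nat_lit 0x1000280016001000080000000000000000000000000000000) (nat_lit 0x0) (nat_lit 0x500008000000000000000000000000000000000000000) := D_37 (nat_lit 178) (nat_lit 159) (nat_lit 176) (nat_lit 3) (nat_lit 4) (nat_lit 9) (nat_lit 0) (nat_lit 8) (nat_lit 10) (by decide +kernel)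
theorem L96649 : W_37 (nat_lit 5) (nat_lit 0x1000280014001000080000000000000000000000000000000) (nat_lit 0x0) (nat_lit 0x40002000000050000b000700008000400000000000000000000000000) := Q_37 (nat_lit 157) (C_37 L96645 (C_37 L96646 (C_37 L96647 (C_37 L96648 N_37)))) (by decide +kernel)
theorem L96650 : W_37 (nat_lit 11) (nat_lit 0x1000280014001000080000000000000000000000000000000) (nat_lit 0x0) (nat_lit 0x50006e00520009c007c002f000000000000000000000000000000) := Q_37 (nat_lit 141) (C_37 L96641 (C_37 L64266 (C_37 L64359 N_37))) (by decide +kernel)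
theorem L96651 : W_37 (nat_lit 12) (nat_lit 0x280014001000080000000000000000000000000000000) (nat_lit 0x0) (nat_lit 0x14000e00070007e0052000bc007c003f001400000000000000000000000000) := Q_37 (nat_lit 192) (C_37 L96591 (C_37 L96629 (C_37 L96630 (C_37 L96631 (C_37 L96642 (C_37 L96649 (C_37 L96650 N_37))))))) (by decide +kernel)
theorem L96652 : W_37 (nat_lit 2) (nat_lit 0x28001f001100080000000000000000000000000000000) (nat_lit 0x0) (nat_lit 0x70000000000000000000000000000000000000000000) := D_37 (nat_lit 173) (nat_lit 172) (nat_lit 174) (nat_lit 1) (nat_lit 6) (nat_lit 9) (nat_lit 1) (nat_lit 7) (nat_lit 9) (by decide +kernel)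
theorem L96653 : W_37 (nat_lit 3) (nat_lit 0x28001e001100080000000000000000000000000000000) (nat_lit 0x0) (nat_lit 0x170001000000000000000000000000000000000000000) := T_37 (nat_lit 156) (nat_lit 176) (nat_lit 3) (nat_lit 3) (nat_lit 9) L96652 (by decide +kernel)
theorem L96654 : W_37 (nat_lit 4) (nat_lit 0x28001e001000080000000000000000000000000000000) (nat_lit 0x0) (nat_lit 0x170001000180000000000000000000000000000000000) := T_37 (nat_lit 140) (nat_lit 139) (nat_lit 0) (nat_lit 7) (nat_lit 9) L96653 (by decide +kernel)
theorem L96655 : W_37 (nat_lit 2) (nat_lit 0x2a001f001100088000000000000000000000000000000) (nat_lit 0x0) (nat_lit 0x20001000000000000200000000000000000000000000000000000) := D_37 (nat_lit 192) (nat_lit 209) (nat_lit 141) (nat_lit 4) (nat_lit 5) (nat_lit 12) (nat_lit 4) (nat_lit 5) (nat_lit 11) (by decide +kernel)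
theorem L96656 : W_37 (nat_lit 3) (nat_lit 0x2a001f001100080000000000000000000000000000000) (nat_lit 0x0) (nat_lit 0x20001000000000000200008000400000000000000000000000000) := T_37 (nat_lit 123) (nat_lit 106) (nat_lit 7) (nat_lit 4) (nat_lit 6) L96655 (by decide +kernel)
theorem L96657 : W_37 (nat_lit 4) (nat_lit 0x28001f001100080000000000000000000000000000000) (nat_lit 0x0) (nat_lit 0x20001000030000000200008000400000000000000000000000000) := T_37 (nat_lit 173) (nat_lit 172) (nat_lit 1) (nat_lit 6) (nat_lit 9) L96656 (by decide +kernel)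
theorem L96658 : W_37 (nat_lit 5) (nat_lit 0x28001e001100080000000000000000000000000000000) (nat_lit 0x0) (nat_lit 0x20001000130001000200008000400000000000000000000000000) := T_37 (nat_lit 156) (nat_lit 176) (nat_lit 3) (nat_lit 3) (nat_lit 9) L96657 (by decide +kernel)
theorem L96659 : W_37 (nat_lit 6) (nat_lit 0x28001e001000080000000000000000000000000000000) (nat_lit 0x0) (nat_lit 0x20001000130001000380008000400000000000000000000000000) := T_37 (nat_lit 140) (nat_lit 139) (nat_lit 0) (nat_lit 7) (nat_lit 9) L96658 (by decide +kernel)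
theorem L96660 : W_37 (nat_lit 2) (nat_lit 0x28001f001000080000000000000000000000000000000) (nat_lit 0x0) (nat_lit 0x1c0000000000000000000000000000000000) := D_37 (nat_lit 139) (nat_lit 138) (nat_lit 140) (nat_lit 0) (nat_lit 6) (nat_lit 9) (nat_lit 0) (nat_lit 7) (nat_lit 9) (by decide +kernel)
theorem L96661 : W_37 (nat_lit 3) (nat_lit 0x28001e001000080000000000000000000000000000000) (nat_lit 0x0) (nat_lit 0x1000010001c0000000000000000000000000000000000) := T_37 (nat_lit 156) (nat_lit 176) (nat_lit 3) (nat_lit 3) (nat_lit 9) L96660 (by decide +kernel)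
theorem L96662 : W_37 (nat_lit 2) (nat_lit 0x40003c001e001000080000000000000000000000000000000) (nat_lit 0x0) (nat_lit 0x1000080000000000000000400000000000000000000000000000000000) := D_37 (nat_lit 211) (nat_lit 142) (nat_lit 228) (nat_lit 4) (nat_lit 7) (nat_lit 12) (nat_lit 4) (nat_lit 7) (nat_lit 13) (by decide +kernel)
theorem L96663 : W_37 (nat_lit 3) (nat_lit 0x3c001e001000080000000000000000000000000000000) (nat_lit 0x0) (nat_lit 0x100008000c000000000000400000000000000000000000000000000000) := T_37 (nat_lit 194) (nat_lit 195) (nat_lit 3) (nat_lit 4) (nat_lit 10) L96662 (by decide +kernel)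
theorem L96664 : W_37 (nat_lit 4) (nat_lit 0x2c001e001000080000000000000000000000000000000) (nat_lit 0x0) (nat_lit 0x100008000c000100001000400000000000000000000000000000000000) := T_37 (nat_lit 176) (nat_lit 156) (nat_lit 3) (nat_lit 3) (nat_lit 9) L96663 (by decide +kernel)
theorem L96665 : W_37 (nat_lit 5) (nat_lit 0x28001e001000080000000000000000000000000000000) (nat_lit 0x0) (nat_lit 0x100008000c000160001000400000000000000000000000000000000000) := T_37 (nat_lit 174) (nat_lit 173) (nat_lit 1) (nat_lit 7) (nat_lit 9) L96664 (by decide +kernel)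
theorem L96666 : W_37 (nat_lit 7) (nat_lit 0x280016001000080000000000000000000000000000000) (nat_lit 0x0) (nat_lit 0x10000a000d0001700090007c0008000400000000000000000000000000) := Q_37 (nat_lit 159) (C_37 L63968 (C_37 L96654 (C_37 L96659 (C_37 L96661 (C_37 L96665 N_37))))) (by decide +kernel)
theorem L96667 : W_37 (nat_lit 8) (nat_lit 0x280014001000080000000000000000000000000000000) (nat_lit 0x0) (nat_lit 0x10000a000d00057000b8007c0008000400000000000000000000000000) := Q_37 (nat_lit 157) (C_37 L96666 (C_37 L64323 (C_37 L64279 (C_37 L64322 N_37)))) (by decide +kernel)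
theorem L96668 : W_37 (nat_lit 6) (nat_lit 0x380014001000080000000000000000000000000000000) (nat_lit 0x0) (nat_lit 0xa0005000fe00460000000200010000000000000000000000000000000) := Q_37 (nat_lit 174) (C_37 L64282 (C_37 L64308 (C_37 L64301 N_37))) (by decide +kernel)
theorem L96669 : W_37 (nat_lit 2) (nat_lit 0x100008003e0014001000080000000000000000000000000000000) (nat_lit 0x0) (nat_lit 0x2000200010000000000000000000000000000000) := D_37 (nat_lit 141) (nat_lit 124) (nat_lit 157) (nat_lit 5) (nat_lit 5) (nat_lit 7) (nat_lit 6) (nat_lit 4) (nat_lit 12) (by decide +kernel)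
theorem L96670 : W_37 (nat_lit 3) (nat_lit 0x8003e0014001000080000000000000000000000000000000) (nat_lit 0x0) (nat_lit 0x200010000000000002000200010000000000000000000000000000000) := T_37 (nat_lit 208) (nat_lit 225) (nat_lit 6) (nat_lit 4) (nat_lit 13) L96669 (by decide +kernel)
theorem L96671 : W_37 (nat_lit 4) (nat_lit 0x8003c0014001000080000000000000000000000000000000) (nat_lit 0x0) (nat_lit 0x20001000000002000a000200010000000000000000000000000000000) := T_37 (nat_lit 173) (nat_lit 159) (nat_lit 2) (nat_lit 3) (nat_lit 10) L96670 (by decide +kernel)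
theorem L96672 : W_37 (nat_lit 5) (nat_lit 0x3c0014001000080000000000000000000000000000000) (nat_lit 0x0) (nat_lit 0x200010000c0002000a000200010000000000000000000000000000000) := T_37 (nat_lit 191) (nat_lit 190) (nat_lit 1) (nat_lit 7) (nat_lit 10) L96671 (by decide +kernel)
theorem L96673 : W_37 (nat_lit 2) (nat_lit 0x100048003c0014001000080000000000000000000000000000000) (nat_lit 0x0) (nat_lit 0x2000200010000000000000000000000000000000) := D_37 (nat_lit 141) (nat_lit 124) (nat_lit 157) (nat_lit 5) (nat_lit 5) (nat_lit 7) (nat_lit 6) (nat_lit 4) (nat_lit 12) (by decide +kernel)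
theorem L96674 : W_37 (nat_lit 3) (nat_lit 0x48003c0014001000080000000000000000000000000000000) (nat_lit 0x0) (nat_lit 0x200010000000000002000200010000000000000000000000000000000) := T_37 (nat_lit 208) (nat_lit 225) (nat_lit 6) (nat_lit 4) (nat_lit 13) L96673 (by decide +kernel)
theorem L96675 : W_37 (nat_lit 4) (nat_lit 0x8003c0014001000080000000000000000000000000000000) (nat_lit 0x0) (nat_lit 0x20001000c000000002000200010000000000000000000000000000000) := T_37 (nat_lit 194) (nat_lit 195) (nat_lit 3) (nat_lit 4) (nat_lit 10) L96674 (by decide +kernel)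
theorem L96676 : W_37 (nat_lit 5) (nat_lit 0x3c0014001000080000000000000000000000000000000) (nat_lit 0x0) (nat_lit 0x20001000cc00000002000200010000000000000000000000000000000) := T_37 (nat_lit 191) (nat_lit 190) (nat_lit 1) (nat_lit 7) (nat_lit 10) L96675 (by decide +kernel)
theorem L96677 : W_37 (nat_lit 6) (nat_lit 0x380014001000080000000000000000000000000000000) (nat_lit 0x0) (nat_lit 0xa0005000fe0006000a000200010000000000000000000000000000000) := Q_37 (nat_lit 174) (C_37 L64282 (C_37 L64308 (C_37 L96672 (C_37 L96676 N_37)))) (by decide +kernel)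
theorem L96678 : W_37 (nat_lit 4) (nat_lit 0x38001e001000080000000000000000000000000000000) (nat_lit 0x0) (nat_lit 0x20001000060000000180008000000000000000000000000000000) := T_37 (nat_lit 174) (nat_lit 173) (nat_lit 2) (nat_lit 3) (nat_lit 10) L72019 (by decide +kernel)
theorem L96679 : W_37 (nat_lit 5) (nat_lit 0x38001c001000080000000000000000000000000000000) (nat_lit 0x0) (nat_lit 0x20001000460002000180008000000000000000000000000000000) := T_37 (nat_lit 157) (nat_lit 178) (nat_lit 3) (nat_lit 4) (nat_lit 9) L96678 (by decide +kernel)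
theorem L96680 : W_37 (nat_lit 6) (nat_lit 0x380014001000080000000000000000000000000000000) (nat_lit 0x0) (nat_lit 0x200030001c0046000a000780038000000000000000000000000000000) := Q_37 (nat_lit 159) (C_37 L64436 (C_37 L64424 (C_37 L64428 (C_37 L96679 N_37)))) (by decide +kernel)
theorem L96681 : W_37 (nat_lit 6) (nat_lit 0x380014001000080000000000000000000000000000000) (nat_lit 0x0) (nat_lit 0x10000a000d00046000a000780008000400000000000000000000000000) := Q_37 (nat_lit 159) (C_37 L96679 (C_37 L64442 (C_37 L64437 N_37))) (by decide +kernel)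
theorem L96682 : W_37 (nat_lit 11) (nat_lit 0x280014001000080000000000000000000000000000000) (nat_lit 0x0) (nat_lit 0x1fe007f001fe0056000a000780038001400000000000000000000000000) := Q_37 (nat_lit 176) (C_37 L96668 (C_37 L96677 (C_37 L96680 (C_37 L64420 (C_37 L96549 (C_37 L96681 N_37)))))) (by decide +kernel)
theorem L96683 : W_37 (nat_lit 2) (nat_lit 0x380014001200098000800000000000000000000000000) (nat_lit 0x0) (nat_lit 0x20001000080000000000000000000000) := D_37 (nat_lit 108) (nat_lit 91) (nat_lit 125) (nat_lit 6) (nat_lit 5) (nat_lit 9) (nat_lit 6) (nat_lit 5) (nat_lit 10) (by decide +kernel)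
theorem L96684 : W_37 (nat_lit 3) (nat_lit 0x380014001200098000000000000000000000000000000) (nat_lit 0x0) (nat_lit 0x8000000020001800080000000000000000000000) := T_37 (nat_lit 107) (nat_lit 159) (nat_lit 7) (nat_lit 5) (nat_lit 6) L96683 (by decide +kernel)
theorem L96685 : W_37 (nat_lit 4) (nat_lit 0x280014001200098000000000000000000000000000000) (nat_lit 0x0) (nat_lit 0x2000100008000000020001800080000000000000000000000) := T_37 (nat_lit 176) (nat_lit 193) (nat_lit 7) (nat_lit 5) (nat_lit 7) L96684 (by decide +kernel)
theorem L96686 : W_37 (nat_lit 5) (nat_lit 0x280014001200090000000000000000000000000000000) (nat_lit 0x0) (nat_lit 0x2000100008000000028001c00080000000000000000000000) := T_37 (nat_lit 123) (nat_lit 106) (nat_lit 4) (nat_lit 5) (nat_lit 10) L96685 (by decide +kernel)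
theorem L96687 : W_37 (nat_lit 2) (nat_lit 0x280014001200090001400000000000000000000000000) (nat_lit 0x0) (nat_lit 0x8000a0000000000000000000000) := D_37 (nat_lit 107) (nat_lit 91) (nat_lit 89) (nat_lit 6) (nat_lit 5) (nat_lit 9) (nat_lit 4) (nat_lit 5) (nat_lit 9) (by decide +kernel)
theorem L96688 : W_37 (nat_lit 3) (nat_lit 0x280014001200090001000000000000000000000000000) (nat_lit 0x0) (nat_lit 0x8000c000a0000000000000000000000) := T_37 (nat_lit 106) (nat_lit 123) (nat_lit 4) (nat_lit 5) (nat_lit 10) L96687 (by decide +kernel)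
theorem L96689 : W_37 (nat_lit 4) (nat_lit 0x280014001200090000000000000000000000000000000) (nat_lit 0x0) (nat_lit 0x28001c000a0000000000000000000000) := T_37 (nat_lit 108) (nat_lit 125) (nat_lit 6) (nat_lit 5) (nat_lit 10) L96688 (by decide +kernel)
theorem L96690 : W_37 (nat_lit 2) (nat_lit 0x38001c001200098000000000000000000000000000000) (nat_lit 0x0) (nat_lit 0x800060000000000000000000000000000000000000000000) := D_37 (nat_lit 174) (nat_lit 191) (nat_lit 173) (nat_lit 5) (nat_lit 5) (nat_lit 7) (nat_lit 2) (nat_lit 3) (nat_lit 10) (by decide +kernel)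
theorem L96691 : W_37 (nat_lit 3) (nat_lit 0x380014001200098000000000000000000000000000000) (nat_lit 0x0) (nat_lit 0x800060008000000000000800000000000000000000000000) := T_37 (nat_lit 159) (nat_lit 107) (nat_lit 7) (nat_lit 5) (nat_lit 6) L96690 (by decide +kernel)
theorem L96692 : W_37 (nat_lit 4) (nat_lit 0x280014001200098000000000000000000000000000000) (nat_lit 0x0) (nat_lit 0x2800160008000000000000800000000000000000000000000) := T_37 (nat_lit 176) (nat_lit 193) (nat_lit 7) (nat_lit 5) (nat_lit 7) L96691 (by decide +kernel)
theorem L96693 : W_37 (nat_lit 5) (nat_lit 0x280014001200090000000000000000000000000000000) (nat_lit 0x0) (nat_lit 0x2800160008000000008000c00000000000000000000000000) := T_37 (nat_lit 123) (nat_lit 106) (nat_lit 4) (nat_lit 5) (nat_lit 10) L96692 (by decide +kernel)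
theorem L96694 : W_37 (nat_lit 2) (nat_lit 0x40003c00140012000b8000000000000000000000000000000) (nat_lit 0x0) (nat_lit 0x20008000400000000000000000000000000000000000) := D_37 (nat_lit 159) (nat_lit 173) (nat_lit 142) (nat_lit 2) (nat_lit 3) (nat_lit 10) (nat_lit 7) (nat_lit 6) (nat_lit 7) (by decide +kernel)
theorem L96695 : W_37 (nat_lit 3) (nat_lit 0x3c00140012000b8000000000000000000000000000000) (nat_lit 0x0) (nat_lit 0xc000020008000400000000000000000000000000000000000) := T_37 (nat_lit 194) (nat_lit 195) (nat_lit 3) (nat_lit 4) (nat_lit 10) L96694 (by decide +kernel)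
theorem L96696 : W_37 (nat_lit 4) (nat_lit 0x3800140012000b8000000000000000000000000000000) (nat_lit 0x0) (nat_lit 0xc800060008000400000000000000000000000000000000000) := T_37 (nat_lit 174) (nat_lit 191) (nat_lit 5) (nat_lit 5) (nat_lit 7) L96695 (by decide +kernel)
theorem L96697 : W_37 (nat_lit 5) (nat_lit 0x2800140012000b8000000000000000000000000000000) (nat_lit 0x0) (nat_lit 0xe800160008000400000000000000000000000000000000000) := T_37 (nat_lit 176) (nat_lit 193) (nat_lit 7) (nat_lit 5) (nat_lit 7) L96696 (by decide +kernel)
theorem L96698 : W_37 (nat_lit 6) (nat_lit 0x2800140012000b0000000000000000000000000000000) (nat_lit 0x0) (nat_lit 0xe800160008000400008000400000000000000000000000000) := T_37 (nat_lit 123) (nat_lit 106) (nat_lit 4) (nat_lit 5) (nat_lit 10) L96697 (by decide +kernel)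
theorem L96699 : W_37 (nat_lit 7) (nat_lit 0x280014001200090000000000000000000000000000000) (nat_lit 0x0) (nat_lit 0xe800160008000400028001400000000000000000000000000) := T_37 (nat_lit 125) (nat_lit 108) (nat_lit 6) (nat_lit 5) (nat_lit 10) L96698 (by decide +kernel)
theorem L96700 : W_37 (nat_lit 2) (nat_lit 0x3c00140012000b0000000000000000000000000000000) (nat_lit 0x0) (nat_lit 0x20008000000000000800000000000000000000000000) := D_37 (nat_lit 159) (nat_lit 107) (nat_lit 173) (nat_lit 7) (nat_lit 5) (nat_lit 6) (nat_lit 2) (nat_lit 3) (nat_lit 10) (by decide +kernel)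
theorem L96701 : W_37 (nat_lit 3) (nat_lit 0x2c00140012000b0000000000000000000000000000000) (nat_lit 0x0) (nat_lit 0x2000120008000000000000800000000000000000000000000) := T_37 (nat_lit 176) (nat_lit 193) (nat_lit 7) (nat_lit 5) (nat_lit 7) L96700 (by decide +kernel)
theorem L96702 : W_37 (nat_lit 4) (nat_lit 0x2c0014001200090000000000000000000000000000000) (nat_lit 0x0) (nat_lit 0x2000120008000000020001800000000000000000000000000) := T_37 (nat_lit 125) (nat_lit 108) (nat_lit 6) (nat_lit 5) (nat_lit 10) L96701 (by decide +kernel)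
theorem L96703 : W_37 (nat_lit 5) (nat_lit 0x280014001200090000000000000000000000000000000) (nat_lit 0x0) (nat_lit 0x2800160008000000020001800000000000000000000000000) := T_37 (nat_lit 174) (nat_lit 191) (nat_lit 5) (nat_lit 5) (nat_lit 7) L96702 (by decide +kernel)
theorem L96704 : W_37 (nat_lit 8) (nat_lit 0x280014001200080000000000000000000000000000000) (nat_lit 0x0) (nat_lit 0xe800160008000400038001c000a0000000000000000000000) := Q_37 (nat_lit 124) (C_37 L96686 (C_37 L96689 (C_37 L96693 (C_37 L96699 (C_37 L96703 N_37))))) (by decide +kernel)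
theorem L96705 : W_37 (nat_lit 9) (nat_lit 0x280014001200080000000000000000000000000000000) (nat_lit 0x0) (nat_lit 0x50003800040009c005c003f001400000000000000000000000000) := Q_37 (nat_lit 192) (C_37 L64399 (C_37 L62818 (C_37 L64266 N_37))) (by decide +kernel)
theorem L96706 : W_37 (nat_lit 11) (nat_lit 0x280014001200080000000000000000000000000000000) (nat_lit 0x0) (nat_lit 0x30001e005600098005c003f001400000000000000000000000000) := Q_37 (nat_lit 192) (C_37 L64359 (C_37 L64399 (C_37 L62818 (C_37 L62950 N_37)))) (by decide +kernel)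
theorem L96707 : W_37 (nat_lit 2) (nat_lit 0x10002800140012000b8000000000000000000000000000000) (nat_lit 0x0) (nat_lit 0x40002000100000000000000000000000000000000000000000000) := D_37 (nat_lit 193) (nat_lit 176) (nat_lit 210) (nat_lit 7) (nat_lit 5) (nat_lit 7) (nat_lit 7) (nat_lit 5) (nat_lit 8) (by decide +kernel)
theorem L96708 : W_37 (nat_lit 3) (nat_lit 0x2800140012000b8000000000000000000000000000000) (nat_lit 0x0) (nat_lit 0x40003000100000000100000000000000000000000000000000000) := T_37 (nat_lit 192) (nat_lit 140) (nat_lit 4) (nat_lit 5) (nat_lit 11) L96707 (by decide +kernel)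
theorem L96709 : W_37 (nat_lit 4) (nat_lit 0x280014001200098000000000000000000000000000000) (nat_lit 0x0) (nat_lit 0x40003000100000000100020001000000000000000000000000000) := T_37 (nat_lit 125) (nat_lit 108) (nat_lit 6) (nat_lit 5) (nat_lit 10) L96708 (by decide +kernel)
theorem L96710 : W_37 (nat_lit 5) (nat_lit 0x280014001200090000000000000000000000000000000) (nat_lit 0x0) (nat_lit 0x40003000100000000100028001400000000000000000000000000) := T_37 (nat_lit 123) (nat_lit 106) (nat_lit 4) (nat_lit 5) (nat_lit 10) L96709 (by decide +kernel)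
theorem L96711 : W_37 (nat_lit 6) (nat_lit 0x280014001200080000000000000000000000000000000) (nat_lit 0x0) (nat_lit 0x40003800160008000100038001c000a0000000000000000000000) := Q_37 (nat_lit 124) (C_37 L96703 (C_37 L96689 (C_37 L96693 (C_37 L96710 N_37)))) (by decide +kernel)
theorem L96712 : W_37 (nat_lit 6) (nat_lit 0x280014001200080000000000000000000000000000000) (nat_lit 0x0) (nat_lit 0x50007800540000000500038001000000000000000000000000000) := Q_37 (nat_lit 192) (C_37 L96641 (C_37 L64399 (C_37 L64220 N_37))) (by decide +kernel)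
theorem L96713 : W_37 (nat_lit 11) (nat_lit 0x280014001200080000000000000000000000000000000) (nat_lit 0x0) (nat_lit 0x50007e00520009c005c002f000000000000000000000000000000) := Q_37 (nat_lit 192) (C_37 L64359 (C_37 L64266 (C_37 L96641 N_37))) (by decide +kernel)
theorem L96714 : W_37 (nat_lit 2) (nat_lit 0x100038001c001200098000000000000000000000000000000) (nat_lit 0x0) (nat_lit 0x20000000000000000400020000000000000000000000000000000) := D_37 (nat_lit 142) (nat_lit 125) (nat_lit 209) (nat_lit 6) (nat_lit 5) (nat_lit 11) (nat_lit 6) (nat_lit 5) (nat_lit 12) (by decide +kernel)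
theorem L96715 : W_37 (nat_lit 3) (nat_lit 0x38001c001200098000000000000000000000000000000) (nat_lit 0x0) (nat_lit 0x20001000000000000500020000000000000000000000000000000) := T_37 (nat_lit 192) (nat_lit 140) (nat_lit 4) (nat_lit 5) (nat_lit 11) L96714 (by decide +kernel)
theorem L96716 : W_37 (nat_lit 4) (nat_lit 0x380014001200098000000000000000000000000000000) (nat_lit 0x0) (nat_lit 0x20001000000008000500020000800000000000000000000000000) := T_37 (nat_lit 159) (nat_lit 107) (nat_lit 7) (nat_lit 5) (nat_lit 6) L96715 (by decide +kernel)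
theorem L96717 : W_37 (nat_lit 5) (nat_lit 0x280014001200098000000000000000000000000000000) (nat_lit 0x0) (nat_lit 0x20003000100008000500020000800000000000000000000000000) := T_37 (nat_lit 176) (nat_lit 193) (nat_lit 7) (nat_lit 5) (nat_lit 7) L96716 (by decide +kernel)
theorem L96718 : W_37 (nat_lit 6) (nat_lit 0x280014001200090000000000000000000000000000000) (nat_lit 0x0) (nat_lit 0x20003000100008000500028000c00000000000000000000000000) := T_37 (nat_lit 123) (nat_lit 106) (nat_lit 4) (nat_lit 5) (nat_lit 10) L96717 (by decide +kernel)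
theorem L96719 : W_37 (nat_lit 2) (nat_lit 0x38001c0012000b0000000000000000000000000000000) (nat_lit 0x0) (nat_lit 0x5000000000000400000000000000000000000000000000000) := D_37 (nat_lit 142) (nat_lit 192) (nat_lit 194) (nat_lit 6) (nat_lit 5) (nat_lit 11) (nat_lit 7) (nat_lit 6) (nat_lit 7) (by decide +kernel)
theorem L96720 : W_37 (nat_lit 3) (nat_lit 0x3800140012000b0000000000000000000000000000000) (nat_lit 0x0) (nat_lit 0x5000000008000400000000800000000000000000000000000) := T_37 (nat_lit 159) (nat_lit 107) (nat_lit 7) (nat_lit 5) (nat_lit 6) L96719 (by decide +kernel)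
theorem L96721 : W_37 (nat_lit 4) (nat_lit 0x2800140012000b0000000000000000000000000000000) (nat_lit 0x0) (nat_lit 0x7000100008000400000000800000000000000000000000000) := T_37 (nat_lit 176) (nat_lit 193) (nat_lit 7) (nat_lit 5) (nat_lit 7) L96720 (by decide +kernel)
theorem L96722 : W_37 (nat_lit 5) (nat_lit 0x280014001200090000000000000000000000000000000) (nat_lit 0x0) (nat_lit 0x7000100008000400020001800000000000000000000000000) := T_37 (nat_lit 125) (nat_lit 108) (nat_lit 6) (nat_lit 5) (nat_lit 10) L96721 (by decide +kernel)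
theorem L96723 : W_37 (nat_lit 2) (nat_lit 0x380014001300098000800080000000000000000000000) (nat_lit 0x0) (nat_lit 0x40006000000000000000000) := D_37 (nat_lit 90) (nat_lit 74) (nat_lit 73) (nat_lit 6) (nat_lit 5) (nat_lit 8) (nat_lit 5) (nat_lit 5) (nat_lit 4) (by decide +kernel)
theorem L96724 : W_37 (nat_lit 3) (nat_lit 0x380014001200098000800080000000000000000000000) (nat_lit 0x0) (nat_lit 0x1000000000000100000000000040006000000000000000000) := T_37 (nat_lit 140) (nat_lit 192) (nat_lit 4) (nat_lit 5) (nat_lit 11) L96723 (by decide +kernel)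
theorem L96725 : W_37 (nat_lit 4) (nat_lit 0x380014001200098000800000000000000000000000000) (nat_lit 0x0) (nat_lit 0x10000000000001000000010000c0006000000000000000000) := T_37 (nat_lit 91) (nat_lit 108) (nat_lit 6) (nat_lit 5) (nat_lit 9) L96724 (by decide +kernel)
theorem L96726 : W_37 (nat_lit 5) (nat_lit 0x380014001200098000000000000000000000000000000) (nat_lit 0x0) (nat_lit 0x10000000080001000000018000c0006000000000000000000) := T_37 (nat_lit 107) (nat_lit 159) (nat_lit 7) (nat_lit 5) (nat_lit 6) L96725 (by decide +kernel)
theorem L96727 : W_37 (nat_lit 6) (nat_lit 0x280014001200098000000000000000000000000000000) (nat_lit 0x0) (nat_lit 0x30001000080001000000018000c0006000000000000000000) := T_37 (nat_lit 176) (nat_lit 193) (nat_lit 7) (nat_lit 5) (nat_lit 7) L96726 (by decide +kernel)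
theorem L96728 : W_37 (nat_lit 7) (nat_lit 0x280014001200090000000000000000000000000000000) (nat_lit 0x0) (nat_lit 0x3000100008000100008001c000c0006000000000000000000) := T_37 (nat_lit 123) (nat_lit 106) (nat_lit 4) (nat_lit 5) (nat_lit 10) L96727 (by decide +kernel)
theorem L96729 : W_37 (nat_lit 8) (nat_lit 0x280014001200080000000000000000000000000000000) (nat_lit 0x0) (nat_lit 0x60007000100008000500038001c000e0006000000000000000000) := Q_37 (nat_lit 124) (C_37 L96710 (C_37 L96689 (C_37 L96718 (C_37 L96722 (C_37 L96728 N_37))))) (by decide +kernel)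
theorem L96730 : W_37 (nat_lit 8) (nat_lit 0x280014001200080000000000000000000000000000000) (nat_lit 0x0) (nat_lit 0x4000e00070007800540008000500018000400000000000000000000000000) := Q_37 (nat_lit 192) (C_37 L96641 (C_37 L62818 (C_37 L64376 (C_37 L64379 N_37)))) (by decide +kernel)
theorem L96731 : W_37 (nat_lit 5) (nat_lit 0x280014001200080000000000000000000000000000000) (nat_lit 0x0) (nat_lit 0x50007800540000000400030001000000000000000000000000000) := Q_37 (nat_lit 192) (C_37 L96641 (C_37 L64399 (C_37 L64363 N_37))) (by decide +kernel)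
theorem L96732 : W_37 (nat_lit 12) (nat_lit 0x280014001000080000000000000000000000000000000) (nat_lit 0x0) (nat_lit 0x4000e0007000fe00560009c007c003f001c000e0006000000000000000000) := Q_37 (nat_lit 141) (C_37 L96704 (C_37 L96705 (C_37 L96706 (C_37 L96711 (C_37 L96712 (C_37 L96713 (C_37 L96729 (C_37 L96730 (C_37 L96731 N_37))))))))) (by decide +kernel)
theorem L96733 : W_37 (nat_lit 2) (nat_lit 0x380016001000080000000000000000000000000000000) (nat_lit 0x0) (nat_lit 0x9800000000000000000000000000000000000000) := D_37 (nat_lit 156) (nat_lit 159) (nat_lit 155) (nat_lit 3) (nat_lit 3) (nat_lit 9) (nat_lit 3) (nat_lit 2) (nat_lit 9) (by decide +kernel)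
theorem L96734 : W_37 (nat_lit 2) (nat_lit 0x28001e001100088000000000000000000000000000000) (nat_lit 0x0) (nat_lit 0x20001000000000000200000000000000000000000000000000000) := D_37 (nat_lit 192) (nat_lit 209) (nat_lit 141) (nat_lit 4) (nat_lit 5) (nat_lit 12) (nat_lit 4) (nat_lit 5) (nat_lit 11) (by decide +kernel)
theorem L96735 : W_37 (nat_lit 3) (nat_lit 0x28001e001100080000000000000000000000000000000) (nat_lit 0x0) (nat_lit 0x20001000000000000200008000400000000000000000000000000) := T_37 (nat_lit 123) (nat_lit 106) (nat_lit 7) (nat_lit 4) (nat_lit 6) L96734 (by decide +kernel)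
theorem L96736 : W_37 (nat_lit 5) (nat_lit 0x1000280016001000080000000000000000000000000000000) (nat_lit 0x0) (nat_lit 0x4000e00070000000040000000100000000000000000000000000000000000) := T_37 (nat_lit 209) (nat_lit 140) (nat_lit 4) (nat_lit 5) (nat_lit 12) L96473 (by decide +kernel)
theorem L96737 : W_37 (nat_lit 4) (nat_lit 0x28001e001000080000000000000000000000000000000) (nat_lit 0x0) (nat_lit 0x20001000000000000380008000400000000000000000000000000) := T_37 (nat_lit 140) (nat_lit 139) (nat_lit 0) (nat_lit 7) (nat_lit 9) L96735 (by decide +kernel)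
theorem L96738 : W_37 (nat_lit 2) (nat_lit 0x2d001f801240080000000000000000000000000000000) (nat_lit 0x0) (nat_lit 0x800000000000000010000800000000000000000000000000) := D_37 (nat_lit 124) (nat_lit 107) (nat_lit 191) (nat_lit 5) (nat_lit 5) (nat_lit 6) (nat_lit 5) (nat_lit 5) (nat_lit 7) (by decide +kernel)
theorem L96739 : W_37 (nat_lit 3) (nat_lit 0x2d001f801040080000000000000000000000000000000) (nat_lit 0x0) (nat_lit 0x800000000000600010000800000000000000000000000000) := T_37 (nat_lit 141) (nat_lit 142) (nat_lit 2) (nat_lit 2) (nat_lit 9) L96738 (by decide +kernel)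
theorem L96740 : W_37 (nat_lit 4) (nat_lit 0x29001f801040080000000000000000000000000000000) (nat_lit 0x0) (nat_lit 0x800040000400600010000800000000000000000000000000) := T_37 (nat_lit 174) (nat_lit 154) (nat_lit 3) (nat_lit 1) (nat_lit 9) L96739 (by decide +kernel)
theorem L96741 : W_37 (nat_lit 5) (nat_lit 0x28001f801040080000000000000000000000000000000) (nat_lit 0x0) (nat_lit 0x800058000400600010000800000000000000000000000000) := T_37 (nat_lit 172) (nat_lit 171) (nat_lit 1) (nat_lit 5) (nat_lit 9) L96740 (by decide +kernel)
theorem L96742 : W_37 (nat_lit 6) (nat_lit 0x28001f001040080000000000000000000000000000000) (nat_lit 0x0) (nat_lit 0x800058000c00620010000800000000000000000000000000) := T_37 (nat_lit 155) (nat_lit 137) (nat_lit 0) (nat_lit 5) (nat_lit 9) L96741 (by decide +kernel)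
theorem L96743 : W_37 (nat_lit 7) (nat_lit 0x28001f001000080000000000000000000000000000000) (nat_lit 0x0) (nat_lit 0x800058000c006e0010000800000000000000000000000000) := T_37 (nat_lit 138) (nat_lit 139) (nat_lit 0) (nat_lit 6) (nat_lit 9) L96742 (by decide +kernel)
theorem L96744 : W_37 (nat_lit 8) (nat_lit 0x28001e001000080000000000000000000000000000000) (nat_lit 0x0) (nat_lit 0x800158001c006e0010000800000000000000000000000000) := T_37 (nat_lit 156) (nat_lit 176) (nat_lit 3) (nat_lit 3) (nat_lit 9) L96743 (by decide +kernel)
theorem L96745 : W_37 (nat_lit 2) (nat_lit 0x48003c0014001200080000000000000000000000000000000) (nat_lit 0x0) (nat_lit 0x200010001000000000000000000000000000000000000000000000000) := D_37 (nat_lit 208) (nat_lit 225) (nat_lit 192) (nat_lit 6) (nat_lit 4) (nat_lit 13) (nat_lit 5) (nat_lit 5) (nat_lit 8) (by decide +kernel)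
theorem L96746 : W_37 (nat_lit 3) (nat_lit 0x48003c0014001000080000000000000000000000000000000) (nat_lit 0x0) (nat_lit 0x200010001000000000000200010000000000000000000000000000000) := T_37 (nat_lit 141) (nat_lit 124) (nat_lit 5) (nat_lit 5) (nat_lit 7) L96745 (by decide +kernel)
theorem L96747 : W_37 (nat_lit 4) (nat_lit 0x40003c0014001000080000000000000000000000000000000) (nat_lit 0x0) (nat_lit 0x200010001c00000000000200010000000000000000000000000000000) := T_37 (nat_lit 191) (nat_lit 190) (nat_lit 1) (nat_lit 7) (nat_lit 10) L96746 (by decide +kernel)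
theorem L96748 : W_37 (nat_lit 5) (nat_lit 0x4000380014001000080000000000000000000000000000000) (nat_lit 0x0) (nat_lit 0x200010009c00040000000200010000000000000000000000000000000) := T_37 (nat_lit 174) (nat_lit 195) (nat_lit 3) (nat_lit 4) (nat_lit 10) L96747 (by decide +kernel)
theorem L96749 : W_37 (nat_lit 5) (nat_lit 0x1000280014001000080000000000000000000000000000000) (nat_lit 0x0) (nat_lit 0x50006800540000000700038001400000000000000000000000000) := Q_37 (nat_lit 141) (C_37 L64399 (C_37 L64363 (C_37 L64379 (C_37 L96641 N_37)))) (by decide +kernel)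
theorem L96750 : W_37 (nat_lit 10) (nat_lit 0x280014001000080000000000000000000000000000000) (nat_lit 0x0) (nat_lit 0x14000e0007000780054000b0007c0038001400000000000000000000000000) := Q_37 (nat_lit 192) (C_37 L96591 (C_37 L96649 (C_37 L96630 (C_37 L96631 (C_37 L96642 (C_37 L96749 N_37)))))) (by decide +kernel)
theorem L96751 : W_37 (nat_lit 3) (nat_lit 0x380014001000080000000000000000000000000000000) (nat_lit 0x0) (nat_lit 0x40000b800000000000000000000000000000000000000) := T_37 (nat_lit 157) (nat_lit 178) (nat_lit 0) (nat_lit 8) (nat_lit 10) L96733 (by decide +kernel)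
theorem L96752 : W_37 (nat_lit 7) (nat_lit 0x280014001000080000000000000000000000000000000) (nat_lit 0x0) (nat_lit 0xa0005001fe0056000b800200010000000000000000000000000000000) := Q_37 (nat_lit 176) (C_37 L96677 (C_37 L64420 (C_37 L64294 (C_37 L96751 (C_37 L96668 N_37))))) (by decide +kernel)
theorem L96753 : W_37 (nat_lit 14) (nat_lit 0x200014001000080000000000000000000000000000000) (nat_lit 0x0) (nat_lit 0x1c01ff807f801ff005f800bc007c003f001e000e0006000000000000000000) := Q_37 (nat_lit 175) (C_37 L96535 (C_37 L96561 (C_37 L96592 (C_37 L96607 (C_37 L96609 (C_37 L96626 (C_37 L96628 (C_37 L96651 (C_37 L96667 (C_37 L96682 (C_37 L96732 (C_37 L96750 (C_37 L96752 N_37))))))))))))) (by decide +kernel)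
theorem L96754 : W_37 (nat_lit 2) (nat_lit 0x3000280016001300080000000000000000000000000000000) (nat_lit 0x0) (nat_lit 0xc00020000000000000000000000000000000) := D_37 (nat_lit 142) (nat_lit 125) (nat_lit 143) (nat_lit 6) (nat_lit 5) (nat_lit 11) (nat_lit 1) (nat_lit 8) (nat_lit 8) (by decide +kernel)
theorem L96755 : W_37 (nat_lit 3) (nat_lit 0x3000280014001300080000000000000000000000000000000) (nat_lit 0x0) (nat_lit 0x20000000000002000c00020000000000000000000000000000000) := T_37 (nat_lit 157) (nat_lit 209) (nat_lit 4) (nat_lit 5) (nat_lit 12) L96754 (by decide +kernel)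
theorem L96756 : W_37 (nat_lit 4) (nat_lit 0x1000280014001300080000000000000000000000000000000) (nat_lit 0x0) (nat_lit 0x60002000000002000c00020000000000000000000000000000000) := T_37 (nat_lit 193) (nat_lit 210) (nat_lit 7) (nat_lit 5) (nat_lit 8) L96755 (by decide +kernel)
theorem L96757 : W_37 (nat_lit 5) (nat_lit 0x1000280014001200080000000000000000000000000000000) (nat_lit 0x0) (nat_lit 0x60002000000002000d00028000000000000000000000000000000) := T_37 (nat_lit 140) (nat_lit 123) (nat_lit 4) (nat_lit 5) (nat_lit 11) L96756 (by decide +kernel)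
theorem L96758 : W_37 (nat_lit 8) (nat_lit 0x280014001200080000000000000000000000000000000) (nat_lit 0x0) (nat_lit 0x200070003800040002000d00038001c00000000000000000000000000) := Q_37 (nat_lit 192) (C_37 L64399 (C_37 L63036 (C_37 L96585 (C_37 L62818 (C_37 L96757 N_37))))) (by decide +kernel)
theorem L96759 : W_37 (nat_lit 2) (nat_lit 0x280016001200080000000000000000000000000000000) (nat_lit 0x0) (nat_lit 0x8000c00000000000000000000000000000000000) := D_37 (nat_lit 143) (nat_lit 142) (nat_lit 159) (nat_lit 1) (nat_lit 8) (nat_lit 8) (nat_lit 2) (nat_lit 4) (nat_lit 9) (by decide +kernel)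
theorem L96760 : W_37 (nat_lit 3) (nat_lit 0x28001e001200080000000000000000000000000000000) (nat_lit 0x0) (nat_lit 0x10000800060000000000010000000000000000000000000000000) := T_37 (nat_lit 174) (nat_lit 173) (nat_lit 1) (nat_lit 7) (nat_lit 9) L63008 (by decide +kernel)
theorem L96761 : W_37 (nat_lit 4) (nat_lit 0x280016001200080000000000000000000000000000000) (nat_lit 0x0) (nat_lit 0x10000800460008000000010000000000000000000000000000000) := T_37 (nat_lit 159) (nat_lit 178) (nat_lit 3) (nat_lit 4) (nat_lit 9) L96760 (by decide +kernel)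
theorem L96762 : W_37 (nat_lit 5) (nat_lit 0x280014001200080000000000000000000000000000000) (nat_lit 0x0) (nat_lit 0x3000180046000a000d00038000000000000000000000000000000) := Q_37 (nat_lit 157) (C_37 L96759 (C_37 L96761 (C_37 L63913 N_37))) (by decide +kernel)
theorem L96763 : W_37 (nat_lit 2) (nat_lit 0x10002800140012000b8000000000000000000000000000000) (nat_lit 0x0) (nat_lit 0x10000800040000000000000000000000000000000000000000000) := D_37 (nat_lit 191) (nat_lit 174) (nat_lit 208) (nat_lit 5) (nat_lit 5) (nat_lit 7) (nat_lit 5) (nat_lit 5) (nat_lit 8) (by decide +kernel)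
theorem L96764 : W_37 (nat_lit 3) (nat_lit 0x2800140012000b8000000000000000000000000000000) (nat_lit 0x0) (nat_lit 0x10001800040000000100000000000000000000000000000000000) := T_37 (nat_lit 192) (nat_lit 140) (nat_lit 4) (nat_lit 5) (nat_lit 11) L96763 (by decide +kernel)
theorem L96765 : W_37 (nat_lit 4) (nat_lit 0x280014001200098000000000000000000000000000000) (nat_lit 0x0) (nat_lit 0x10001800040000000100020001000000000000000000000000000) := T_37 (nat_lit 125) (nat_lit 108) (nat_lit 6) (nat_lit 5) (nat_lit 10) L96764 (by decide +kernel)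
theorem L96766 : W_37 (nat_lit 5) (nat_lit 0x280014001200090000000000000000000000000000000) (nat_lit 0x0) (nat_lit 0x10001800040000000100028001400000000000000000000000000) := T_37 (nat_lit 123) (nat_lit 106) (nat_lit 4) (nat_lit 5) (nat_lit 10) L96765 (by decide +kernel)
theorem L96767 : W_37 (nat_lit 2) (nat_lit 0x2c00160012000b0000000000000000000000000000000) (nat_lit 0x0) (nat_lit 0x420008000000000000000000000000000000000000000) := D_37 (nat_lit 159) (nat_lit 178) (nat_lit 173) (nat_lit 3) (nat_lit 4) (nat_lit 9) (nat_lit 1) (nat_lit 7) (nat_lit 9) (by decide +kernel)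
theorem L96768 : W_37 (nat_lit 3) (nat_lit 0x2c00140012000b0000000000000000000000000000000) (nat_lit 0x0) (nat_lit 0x42000a000000000000800000000000000000000000000) := T_37 (nat_lit 157) (nat_lit 107) (nat_lit 5) (nat_lit 5) (nat_lit 6) L96767 (by decide +kernel)
theorem L96769 : W_37 (nat_lit 4) (nat_lit 0x2800140012000b0000000000000000000000000000000) (nat_lit 0x0) (nat_lit 0x80046000a000000000000800000000000000000000000000) := T_37 (nat_lit 174) (nat_lit 191) (nat_lit 5) (nat_lit 5) (nat_lit 7) L96768 (by decide +kernel)
theorem L96770 : W_37 (nat_lit 5) (nat_lit 0x280014001200090000000000000000000000000000000) (nat_lit 0x0) (nat_lit 0x80046000a000000020001800000000000000000000000000) := T_37 (nat_lit 125) (nat_lit 108) (nat_lit 6) (nat_lit 5) (nat_lit 10) L96769 (by decide +kernel)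
theorem L96771 : W_37 (nat_lit 6) (nat_lit 0x280014001200080000000000000000000000000000000) (nat_lit 0x0) (nat_lit 0x1000180046000a000100038001c000a0000000000000000000000) := Q_37 (nat_lit 124) (C_37 L96689 (C_37 L96766 (C_37 L62945 (C_37 L96770 N_37)))) (by decide +kernel)
theorem L96772 : W_37 (nat_lit 2) (nat_lit 0x2c00140016800bc000200000000000000000000000000) (nat_lit 0x0) (nat_lit 0xa000100000000000000000000000000000000000) := D_37 (nat_lit 140) (nat_lit 159) (nat_lit 157) (nat_lit 3) (nat_lit 3) (nat_lit 8) (nat_lit 4) (nat_lit 4) (nat_lit 10) (by decide +kernel)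
theorem L96773 : W_37 (nat_lit 3) (nat_lit 0x2c00140016800bc000000000000000000000000000000) (nat_lit 0x0) (nat_lit 0xa000100000000300000000000000000000000000) := T_37 (nat_lit 105) (nat_lit 104) (nat_lit 0) (nat_lit 6) (nat_lit 7) L96772 (by decide +kernel)
theorem L96774 : W_37 (nat_lit 4) (nat_lit 0x2c00140016000bc000000000000000000000000000000) (nat_lit 0x0) (nat_lit 0xa0001c0000000300000000000000000000000000) := T_37 (nat_lit 139) (nat_lit 138) (nat_lit 1) (nat_lit 6) (nat_lit 7) L96773 (by decide +kernel)
theorem L96775 : W_37 (nat_lit 5) (nat_lit 0x2c001400160009c000000000000000000000000000000) (nat_lit 0x0) (nat_lit 0xa0001c0020001300000000000000000000000000) := T_37 (nat_lit 125) (nat_lit 108) (nat_lit 6) (nat_lit 5) (nat_lit 10) L96774 (by decide +kernel)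
theorem L96776 : W_37 (nat_lit 6) (nat_lit 0x2c0014001600098000000000000000000000000000000) (nat_lit 0x0) (nat_lit 0xa0001c0026001300000000000000000000000000) := T_37 (nat_lit 122) (nat_lit 121) (nat_lit 3) (nat_lit 2) (nat_lit 7) L96775 (by decide +kernel)
theorem L96777 : W_37 (nat_lit 7) (nat_lit 0x280014001600098000000000000000000000000000000) (nat_lit 0x0) (nat_lit 0x80004000a0001c0026001300000000000000000000000000) := T_37 (nat_lit 174) (nat_lit 191) (nat_lit 5) (nat_lit 5) (nat_lit 7) L96776 (by decide +kernel)
theorem L96778 : W_37 (nat_lit 8) (nat_lit 0x280014001200098000000000000000000000000000000) (nat_lit 0x0) (nat_lit 0x80004000a000dc0026001300000000000000000000000000) := T_37 (nat_lit 142) (nat_lit 143) (nat_lit 0) (nat_lit 8) (nat_lit 8) L96777 (by decide +kernel)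
theorem L96779 : W_37 (nat_lit 9) (nat_lit 0x280014001200090000000000000000000000000000000) (nat_lit 0x0) (nat_lit 0x80004000a000dc002e001700000000000000000000000000) := T_37 (nat_lit 123) (nat_lit 106) (nat_lit 4) (nat_lit 5) (nat_lit 10) L96778 (by decide +kernel)
theorem L96780 : W_37 (nat_lit 10) (nat_lit 0x280014001200080000000000000000000000000000000) (nat_lit 0x0) (nat_lit 0x80046000a000dc003e001f000a0000000000000000000000) := Q_37 (nat_lit 124) (C_37 L62945 (C_37 L96770 (C_37 L96689 (C_37 L96779 N_37)))) (by decide +kernel)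
theorem L96781 : W_37 (nat_lit 9) (nat_lit 0x280014001200080000000000000000000000000000000) (nat_lit 0x0) (nat_lit 0x20007000380040000bc00dc002f000000000000000000000000000000) := Q_37 (nat_lit 192) (C_37 L96757 (C_37 L62950 (C_37 L96589 (C_37 L64266 (C_37 L64992 N_37))))) (by decide +kernel)
theorem L96782 : W_37 (nat_lit 2) (nat_lit 0x2c001e001300080000000000000000000000000000000) (nat_lit 0x0) (nat_lit 0x1000000000000000008000400000000000000000000000000) := D_37 (nat_lit 123) (nat_lit 192) (nat_lit 106) (nat_lit 7) (nat_lit 4) (nat_lit 7) (nat_lit 7) (nat_lit 4) (nat_lit 6) (by decide +kernel)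
theorem L96783 : W_37 (nat_lit 3) (nat_lit 0x2c001e001200080000000000000000000000000000000) (nat_lit 0x0) (nat_lit 0x1000000000000180008000400000000000000000000000000) := T_37 (nat_lit 140) (nat_lit 139) (nat_lit 0) (nat_lit 7) (nat_lit 9) L96782 (by decide +kernel)
theorem L96784 : W_37 (nat_lit 4) (nat_lit 0x28001e001200080000000000000000000000000000000) (nat_lit 0x0) (nat_lit 0x1000060000000180008000400000000000000000000000000) := T_37 (nat_lit 174) (nat_lit 173) (nat_lit 1) (nat_lit 7) (nat_lit 9) L96783 (by decide +kernel)
theorem L96785 : W_37 (nat_lit 5) (nat_lit 0x280016001200080000000000000000000000000000000) (nat_lit 0x0) (nat_lit 0x1000460008000180008000400000000000000000000000000) := T_37 (nat_lit 159) (nat_lit 178) (nat_lit 3) (nat_lit 4) (nat_lit 9) L96784 (by decide +kernel)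
theorem L96786 : W_37 (nat_lit 6) (nat_lit 0x280014001200080000000000000000000000000000000) (nat_lit 0x0) (nat_lit 0x2000100046000a000d80028000400000000000000000000000000) := Q_37 (nat_lit 157) (C_37 L63913 (C_37 L96785 (C_37 L96759 N_37))) (by decide +kernel)
theorem L96787 : W_37 (nat_lit 2) (nat_lit 0x280014001600080000000000000000000000000000000) (nat_lit 0x0) (nat_lit 0x2000800100000000000000000000000000000000) := D_37 (nat_lit 143) (nat_lit 157) (nat_lit 128) (nat_lit 1) (nat_lit 8) (nat_lit 8) (nat_lit 2) (nat_lit 5) (nat_lit 8) (by decide +kernel)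
theorem L96788 : W_37 (nat_lit 5) (nat_lit 0x280014001600080000000000000000000000000000000) (nat_lit 0x0) (nat_lit 0x200070003800000008000000020000000000000000000000000000000) := T_37 (nat_lit 192) (nat_lit 125) (nat_lit 6) (nat_lit 5) (nat_lit 11) L64991 (by decide +kernel)
theorem L96789 : W_37 (nat_lit 6) (nat_lit 0x280014001200080000000000000000000000000000000) (nat_lit 0x0) (nat_lit 0x20007000380000000a000c00120000000000000000000000000000000) := Q_37 (nat_lit 142) (C_37 L96787 (C_37 L96788 N_37)) (by decide +kernel)
theorem L96790 : W_37 (nat_lit 2) (nat_lit 0x3800280014001600090000d000c0000000000000000000000) (nat_lit 0x0) (nat_lit 0x2000800100000000000000000000000000000000) := D_37 (nat_lit 143) (nat_lit 128) (nat_lit 157) (nat_lit 2) (nat_lit 5) (nat_lit 8) (nat_lit 1) (nat_lit 8) (nat_lit 8) (by decide +kernel)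
theorem L96791 : W_37 (nat_lit 3) (nat_lit 0x3800280014001200090000d000c0000000000000000000000) (nat_lit 0x0) (nat_lit 0xa000c00100000000000000000000000000000000) := T_37 (nat_lit 142) (nat_lit 159) (nat_lit 7) (nat_lit 5) (nat_lit 5) L96790 (by decide +kernel)
theorem L96792 : W_37 (nat_lit 4) (nat_lit 0x3800280014001200090000c000c0000000000000000000000) (nat_lit 0x0) (nat_lit 0xa000c00100000300000000000000000000000000) := T_37 (nat_lit 104) (nat_lit 105) (nat_lit 2) (nat_lit 2) (nat_lit 6) L96791 (by decide +kernel)
theorem L96793 : W_37 (nat_lit 5) (nat_lit 0x3800280014001200090000c00080000000000000000000000) (nat_lit 0x0) (nat_lit 0xa000c00100000300040004000000000000000000) := T_37 (nat_lit 90) (nat_lit 74) (nat_lit 6) (nat_lit 5) (nat_lit 8) L96792 (by decide +kernel)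
theorem L96794 : W_37 (nat_lit 6) (nat_lit 0x3800280014001200090000c00000000000000000000000000) (nat_lit 0x0) (nat_lit 0xa000c001000013000c0004000000000000000000) := T_37 (nat_lit 91) (nat_lit 108) (nat_lit 6) (nat_lit 5) (nat_lit 9) L96793 (by decide +kernel)
theorem L96795 : W_37 (nat_lit 7) (nat_lit 0x3800280014001200090000400000000000000000000000000) (nat_lit 0x0) (nat_lit 0xa000c00100001b000e0004000000000000000000) := T_37 (nat_lit 107) (nat_lit 89) (nat_lit 4) (nat_lit 5) (nat_lit 9) L96794 (by decide +kernel)
theorem L96796 : W_37 (nat_lit 8) (nat_lit 0x3800280014001200090000000000000000000000000000000) (nat_lit 0x0) (nat_lit 0xa000c00108001f000e0004000000000000000000) := T_37 (nat_lit 106) (nat_lit 123) (nat_lit 4) (nat_lit 5) (nat_lit 10) L96795 (by decide +kernel)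
theorem L96797 : W_37 (nat_lit 9) (nat_lit 0x3800280014001200080000000000000000000000000000000) (nat_lit 0x0) (nat_lit 0x4000a000c00118001f000e0004000000000000000000) := T_37 (nat_lit 124) (nat_lit 174) (nat_lit 5) (nat_lit 5) (nat_lit 7) L96796 (by decide +kernel)
theorem L96798 : W_37 (nat_lit 10) (nat_lit 0x3000280014001200080000000000000000000000000000000) (nat_lit 0x0) (nat_lit 0x1000080004000a000c00118001f000e0004000000000000000000) := T_37 (nat_lit 191) (nat_lit 208) (nat_lit 5) (nat_lit 5) (nat_lit 8) L96797 (by decide +kernel)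
theorem L96799 : W_37 (nat_lit 11) (nat_lit 0x1000280014001200080000000000000000000000000000000) (nat_lit 0x0) (nat_lit 0x5000280004000a000c00118001f000e0004000000000000000000) := T_37 (nat_lit 193) (nat_lit 210) (nat_lit 7) (nat_lit 5) (nat_lit 8) L96798 (by decide +kernel)
theorem L96800 : W_37 (nat_lit 2) (nat_lit 0x6000180028001c001200090000000000000000000000000000000) (nat_lit 0x0) (nat_lit 0x400002000100000000000000000000000000000000000) := D_37 (nat_lit 157) (nat_lit 178) (nat_lit 140) (nat_lit 3) (nat_lit 4) (nat_lit 9) (nat_lit 4) (nat_lit 5) (nat_lit 12) (by decide +kernel)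
theorem L96801 : W_37 (nat_lit 3) (nat_lit 0x60001800280014001200090000000000000000000000000000000) (nat_lit 0x0) (nat_lit 0x40000a000500000000000000000000000000000000000) := T_37 (nat_lit 159) (nat_lit 142) (nat_lit 6) (nat_lit 5) (nat_lit 12) L96800 (by decide +kernel)
theorem L96802 : W_37 (nat_lit 4) (nat_lit 0x40001800280014001200090000000000000000000000000000000) (nat_lit 0x0) (nat_lit 0x80002000000040000a000500000000000000000000000000000000000) := T_37 (nat_lit 209) (nat_lit 227) (nat_lit 7) (nat_lit 5) (nat_lit 9) L96801 (by decide +kernel)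
theorem L96803 : W_37 (nat_lit 5) (nat_lit 0x1800280014001200090000000000000000000000000000000) (nat_lit 0x0) (nat_lit 0x80006000200040000a000500000000000000000000000000000000000) := T_37 (nat_lit 210) (nat_lit 193) (nat_lit 7) (nat_lit 5) (nat_lit 8) L96802 (by decide +kernel)
theorem L96804 : W_37 (nat_lit 6) (nat_lit 0x1800280014001200080000000000000000000000000000000) (nat_lit 0x0) (nat_lit 0x80006000200044000a000500010000000000000000000000000000000) := T_37 (nat_lit 124) (nat_lit 174) (nat_lit 5) (nat_lit 5) (nat_lit 7) L96803 (by decide +kernel)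
theorem L96805 : W_37 (nat_lit 7) (nat_lit 0x1000280014001200080000000000000000000000000000000) (nat_lit 0x0) (nat_lit 0x80007000280044000a000500010000000000000000000000000000000) := T_37 (nat_lit 191) (nat_lit 208) (nat_lit 5) (nat_lit 5) (nat_lit 8) L96804 (by decide +kernel)
theorem L96806 : W_37 (nat_lit 12) (nat_lit 0x280014001200080000000000000000000000000000000) (nat_lit 0x0) (nat_lit 0x80007000380044000a000d80118001f000e0004000000000000000000) := Q_37 (nat_lit 192) (C_37 L62818 (C_37 L96589 (C_37 L96799 (C_37 L96805 N_37)))) (by decide +kernel)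
theorem L96807 : W_37 (nat_lit 13) (nat_lit 0x280014001000080000000000000000000000000000000) (nat_lit 0x0) (nat_lit 0xa0007000380046000bc00fc013f001f000e0004000000000000000000) := Q_37 (nat_lit 141) (C_37 L96705 (C_37 L96758 (C_37 L96762 (C_37 L96771 (C_37 L96780 (C_37 L96781 (C_37 L96786 (C_37 L96789 (C_37 L96806 N_37))))))))) (by decide +kernel)
theorem L96808 : W_37 (nat_lit 9) (nat_lit 0x280016001000080000000000000000000000000000000) (nat_lit 0x0) (nat_lit 0x800158009c00ee0010000800000000000000000000000000) := T_37 (nat_lit 159) (nat_lit 143) (nat_lit 2) (nat_lit 4) (nat_lit 9) L96744 (by decide +kernel)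
theorem L96809 : W_37 (nat_lit 11) (nat_lit 0x280014001000080000000000000000000000000000000) (nat_lit 0x0) (nat_lit 0x80057800bc00fe003f001e00000000000000000000000000) := Q_37 (nat_lit 157) (C_37 L64279 (C_37 L96625 (C_37 L96808 (C_37 L64322 N_37)))) (by decide +kernel)
theorem L96810 : W_37 (nat_lit 4) (nat_lit 0x280016001000080000000000000000000000000000000) (nat_lit 0x0) (nat_lit 0x1000090009c0000000000000000000000000000000000) := T_37 (nat_lit 159) (nat_lit 143) (nat_lit 2) (nat_lit 4) (nat_lit 9) L96661 (by decide +kernel)
theorem L96811 : W_37 (nat_lit 6) (nat_lit 0x280014001000080000000000000000000000000000000) (nat_lit 0x0) (nat_lit 0x2000100056000b8009c0008000000000000000000000000000000) := Q_37 (nat_lit 157) (C_37 L64279 (C_37 L96810 (C_37 L64323 N_37))) (by decide +kernel)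
theorem L96812 : W_37 (nat_lit 2) (nat_lit 0x3800280014001f00080000000200000000000000000000000) (nat_lit 0x0) (nat_lit 0x400500000000000000000000000000000000000000000000) := D_37 (nat_lit 176) (nat_lit 190) (nat_lit 178) (nat_lit 2) (nat_lit 3) (nat_lit 11) (nat_lit 1) (nat_lit 8) (nat_lit 10) (by decide +kernel)
theorem L96813 : W_37 (nat_lit 3) (nat_lit 0x3000280014001f00080000000200000000000000000000000) (nat_lit 0x0) (nat_lit 0x10000c00500000000000000000000000000000000000000000000) := T_37 (nat_lit 191) (nat_lit 208) (nat_lit 5) (nat_lit 5) (nat_lit 8) L96812 (by decide +kernel)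
theorem L96814 : W_37 (nat_lit 4) (nat_lit 0x3000280014001f00080000000000000000000000000000000) (nat_lit 0x0) (nat_lit 0x10000c00500000000000000004000200000000000000000000000) := T_37 (nat_lit 93) (nat_lit 110) (nat_lit 5) (nat_lit 8) (nat_lit 5) L96813 (by decide +kernel)
theorem L96815 : W_37 (nat_lit 5) (nat_lit 0x1000280014001f00080000000000000000000000000000000) (nat_lit 0x0) (nat_lit 0x50002c00500000000000000004000200000000000000000000000) := T_37 (nat_lit 193) (nat_lit 210) (nat_lit 7) (nat_lit 5) (nat_lit 8) L96814 (by decide +kernel)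
theorem L96816 : W_37 (nat_lit 6) (nat_lit 0x1000280014001700080000000000000000000000000000000) (nat_lit 0x0) (nat_lit 0x50002c00500000000800100004000200000000000000000000000) := T_37 (nat_lit 143) (nat_lit 128) (nat_lit 2) (nat_lit 5) (nat_lit 8) L96815 (by decide +kernel)
theorem L96817 : W_37 (nat_lit 7) (nat_lit 0x1000280014001300080000000000000000000000000000000) (nat_lit 0x0) (nat_lit 0x50002c00500000000c00120004000200000000000000000000000) := T_37 (nat_lit 142) (nat_lit 125) (nat_lit 6) (nat_lit 5) (nat_lit 11) L96816 (by decide +kernel)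
theorem L96818 : W_37 (nat_lit 8) (nat_lit 0x1000280014001200080000000000000000000000000000000) (nat_lit 0x0) (nat_lit 0x50002c00500000000d00128004000200000000000000000000000) := T_37 (nat_lit 140) (nat_lit 123) (nat_lit 4) (nat_lit 5) (nat_lit 11) L96817 (by decide +kernel)
theorem L96819 : W_37 (nat_lit 9) (nat_lit 0x280014001200080000000000000000000000000000000) (nat_lit 0x0) (nat_lit 0x50003c00540000000d00138005400200000000000000000000000) := Q_37 (nat_lit 192) (C_37 L64399 (C_37 L64363 (C_37 L64379 (C_37 L96818 N_37)))) (by decide +kernel)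
theorem L96820 : W_37 (nat_lit 6) (nat_lit 0x280014001200080000000000000000000000000000000) (nat_lit 0x0) (nat_lit 0x200070003800140002000500038001400000000000000000000000000) := Q_37 (nat_lit 192) (C_37 L64399 (C_37 L64363 (C_37 L64379 (C_37 L63036 N_37)))) (by decide +kernel)
theorem L96821 : W_37 (nat_lit 6) (nat_lit 0x280014001200080000000000000000000000000000000) (nat_lit 0x0) (nat_lit 0x10001800040002000100038001c000a0000000000000000000000) := Q_37 (nat_lit 124) (C_37 L62945 (C_37 L96689 (C_37 L96766 (C_37 L51634 N_37)))) (by decide +kernel)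
theorem L96822 : W_37 (nat_lit 2) (nat_lit 0x3c0014001a000b8000000200000000000000000000000) (nat_lit 0x0) (nat_lit 0x400003000000000000000000000000000000000000000) := D_37 (nat_lit 157) (nat_lit 178) (nat_lit 156) (nat_lit 0) (nat_lit 8) (nat_lit 10) (nat_lit 0) (nat_lit 7) (nat_lit 10) (by decide +kernel)
theorem L96823 : W_37 (nat_lit 3) (nat_lit 0x2c0014001a000b8000000200000000000000000000000) (nat_lit 0x0) (nat_lit 0x2000500003000000000000000000000000000000000000000) := T_37 (nat_lit 176) (nat_lit 193) (nat_lit 7) (nat_lit 5) (nat_lit 7) L96822 (by decide +kernel)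
theorem L96824 : W_37 (nat_lit 4) (nat_lit 0x2c0014001a00098000000200000000000000000000000) (nat_lit 0x0) (nat_lit 0x2000500003000000020001000000000000000000000000000) := T_37 (nat_lit 125) (nat_lit 108) (nat_lit 6) (nat_lit 5) (nat_lit 10) L96823 (by decide +kernel)
theorem L96825 : W_37 (nat_lit 5) (nat_lit 0x2c0014001a00098000000000000000000000000000000) (nat_lit 0x0) (nat_lit 0x2000500003000000020005000200000000000000000000000) := T_37 (nat_lit 93) (nat_lit 110) (nat_lit 5) (nat_lit 8) (nat_lit 5) L96824 (by decide +kernel)
theorem L96826 : W_37 (nat_lit 6) (nat_lit 0x280014001a00098000000000000000000000000000000) (nat_lit 0x0) (nat_lit 0x2800540003000000020005000200000000000000000000000) := T_37 (nat_lit 174) (nat_lit 191) (nat_lit 5) (nat_lit 5) (nat_lit 7) L96825 (by decide +kernel)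
theorem L96827 : W_37 (nat_lit 7) (nat_lit 0x280014001200098000000000000000000000000000000) (nat_lit 0x0) (nat_lit 0x2800540003000c00020005000200000000000000000000000) := T_37 (nat_lit 143) (nat_lit 142) (nat_lit 0) (nat_lit 8) (nat_lit 8) L96826 (by decide +kernel)
theorem L96828 : W_37 (nat_lit 8) (nat_lit 0x280014001200090000000000000000000000000000000) (nat_lit 0x0) (nat_lit 0x2800540003000c00028005400200000000000000000000000) := T_37 (nat_lit 123) (nat_lit 106) (nat_lit 4) (nat_lit 5) (nat_lit 10) L96827 (by decide +kernel)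
theorem L96829 : W_37 (nat_lit 9) (nat_lit 0x280014001200080000000000000000000000000000000) (nat_lit 0x0) (nat_lit 0x2800540003000c00038005c002a0000000000000000000000) := Q_37 (nat_lit 124) (C_37 L51634 (C_37 L96689 (C_37 L62945 (C_37 L96828 N_37)))) (by decide +kernel)
theorem L96830 : W_37 (nat_lit 9) (nat_lit 0x280014001200080000000000000000000000000000000) (nat_lit 0x0) (nat_lit 0x200070003c00500002000d00138005400200000000000000000000000) := Q_37 (nat_lit 192) (C_37 L63036 (C_37 L96818 (C_37 L64379 (C_37 L64363 N_37)))) (by decide +kernel)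
theorem L96831 : W_37 (nat_lit 2) (nat_lit 0x7800140016000b0000000000000000000000000000000) (nat_lit 0x0) (nat_lit 0x800108000000000000000000000000000000) := D_37 (nat_lit 143) (nat_lit 128) (nat_lit 123) (nat_lit 2) (nat_lit 5) (nat_lit 8) (nat_lit 0) (nat_lit 8) (nat_lit 8) (by decide +kernel)
theorem L96832 : W_37 (nat_lit 3) (nat_lit 0x7800140012000b0000000000000000000000000000000) (nat_lit 0x0) (nat_lit 0x1000000000000c00108000000000000000000000000000000) := T_37 (nat_lit 142) (nat_lit 192) (nat_lit 6) (nat_lit 5) (nat_lit 11) L96831 (by decide +kernel)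
theorem L96833 : W_37 (nat_lit 4) (nat_lit 0x3800140012000b0000000000000000000000000000000) (nat_lit 0x0) (nat_lit 0x1000400002000c00108000000000000000000000000000000) := T_37 (nat_lit 178) (nat_lit 157) (nat_lit 0) (nat_lit 8) (nat_lit 10) L96832 (by decide +kernel)
theorem L96834 : W_37 (nat_lit 5) (nat_lit 0x2800140012000b0000000000000000000000000000000) (nat_lit 0x0) (nat_lit 0x3000500002000c00108000000000000000000000000000000) := T_37 (nat_lit 176) (nat_lit 193) (nat_lit 7) (nat_lit 5) (nat_lit 7) L96833 (by decide +kernel)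
theorem L96835 : W_37 (nat_lit 6) (nat_lit 0x280014001200090000000000000000000000000000000) (nat_lit 0x0) (nat_lit 0x3000500002000c00128001000000000000000000000000000) := T_37 (nat_lit 125) (nat_lit 108) (nat_lit 6) (nat_lit 5) (nat_lit 10) L96834 (by decide +kernel)
theorem L96836 : W_37 (nat_lit 2) (nat_lit 0x3800160012000b0000000000000000000000000000000) (nat_lit 0x0) (nat_lit 0x1000000000000c00000000000000000000000000000000000) := D_37 (nat_lit 142) (nat_lit 192) (nat_lit 143) (nat_lit 6) (nat_lit 5) (nat_lit 11) (nat_lit 1) (nat_lit 8) (nat_lit 8) (by decide +kernel)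
theorem L96837 : W_37 (nat_lit 3) (nat_lit 0x3800140012000b0000000000000000000000000000000) (nat_lit 0x0) (nat_lit 0x1000400002000c00000000000000000000000000000000000) := T_37 (nat_lit 157) (nat_lit 178) (nat_lit 0) (nat_lit 8) (nat_lit 10) L96836 (by decide +kernel)
theorem L96838 : W_37 (nat_lit 4) (nat_lit 0x2800140012000b0000000000000000000000000000000) (nat_lit 0x0) (nat_lit 0x3000500002000c00000000000000000000000000000000000) := T_37 (nat_lit 176) (nat_lit 193) (nat_lit 7) (nat_lit 5) (nat_lit 7) L96837 (by decide +kernel)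
theorem L96839 : W_37 (nat_lit 5) (nat_lit 0x280014001200090000000000000000000000000000000) (nat_lit 0x0) (nat_lit 0x3000500002000c00020001000000000000000000000000000) := T_37 (nat_lit 125) (nat_lit 108) (nat_lit 6) (nat_lit 5) (nat_lit 10) L96838 (by decide +kernel)
theorem L96840 : W_37 (nat_lit 7) (nat_lit 0x280014001200080000000000000000000000000000000) (nat_lit 0x0) (nat_lit 0x40003000500002000d00138001c000a0000000000000000000000) := Q_37 (nat_lit 124) (C_37 L96689 (C_37 L96710 (C_37 L64125 (C_37 L96835 (C_37 L96839 N_37))))) (by decide +kernel)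
theorem L96841 : W_37 (nat_lit 9) (nat_lit 0x280014001200080000000000000000000000000000000) (nat_lit 0x0) (nat_lit 0x70003c00540002000d00138004c00220000000000000000000000) := Q_37 (nat_lit 192) (C_37 L62818 (C_37 L96818 (C_37 L96757 (C_37 L96506 (C_37 L96485 N_37))))) (by decide +kernel)
theorem L96842 : W_37 (nat_lit 9) (nat_lit 0x280014001200080000000000000000000000000000000) (nat_lit 0x0) (nat_lit 0x200070003c00540002000dc0138005800200000000000000000000000) := Q_37 (nat_lit 192) (C_37 L64399 (C_37 L96818 (C_37 L96638 (C_37 L96757 (C_37 L96511 N_37))))) (by decide +kernel)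
theorem L96843 : W_37 (nat_lit 2) (nat_lit 0x3000280014001200090000000000000000000000000000000) (nat_lit 0x0) (nat_lit 0x10000800040000000000000000000000000000000000000000000) := D_37 (nat_lit 191) (nat_lit 174) (nat_lit 208) (nat_lit 5) (nat_lit 5) (nat_lit 7) (nat_lit 5) (nat_lit 5) (nat_lit 8) (by decide +kernel)
theorem L96844 : W_37 (nat_lit 3) (nat_lit 0x3000280014001200080000000000000000000000000000000) (nat_lit 0x0) (nat_lit 0x10000800140000000000010000000000000000000000000000000) := T_37 (nat_lit 124) (nat_lit 176) (nat_lit 7) (nat_lit 5) (nat_lit 7) L96843 (by decide +kernel)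
theorem L96845 : W_37 (nat_lit 4) (nat_lit 0x1000280014001200080000000000000000000000000000000) (nat_lit 0x0) (nat_lit 0x50002800140000000000010000000000000000000000000000000) := T_37 (nat_lit 193) (nat_lit 210) (nat_lit 7) (nat_lit 5) (nat_lit 8) L96844 (by decide +kernel)
theorem L96846 : W_37 (nat_lit 2) (nat_lit 0x40001800680014001300080000000000000000000000000000000) (nat_lit 0x0) (nat_lit 0x800020000000000002000000000000000000000000000000000000000) := D_37 (nat_lit 209) (nat_lit 157) (nat_lit 227) (nat_lit 4) (nat_lit 5) (nat_lit 12) (nat_lit 7) (nat_lit 5) (nat_lit 9) (by decide +kernel)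
theorem L96847 : W_37 (nat_lit 3) (nat_lit 0x1800680014001300080000000000000000000000000000000) (nat_lit 0x0) (nat_lit 0x800060002000000002000000000000000000000000000000000000000) := T_37 (nat_lit 210) (nat_lit 193) (nat_lit 7) (nat_lit 5) (nat_lit 8) L96846 (by decide +kernel)
theorem L96848 : W_37 (nat_lit 4) (nat_lit 0x1800680014001200080000000000000000000000000000000) (nat_lit 0x0) (nat_lit 0x800060002000000002000100008000000000000000000000000000000) := T_37 (nat_lit 140) (nat_lit 123) (nat_lit 4) (nat_lit 5) (nat_lit 11) L96847 (by decide +kernel)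
theorem L96849 : W_37 (nat_lit 5) (nat_lit 0x1800280014001200080000000000000000000000000000000) (nat_lit 0x0) (nat_lit 0x800060002000500002000100008000000000000000000000000000000) := T_37 (nat_lit 178) (nat_lit 176) (nat_lit 1) (nat_lit 8) (nat_lit 10) L96848 (by decide +kernel)
theorem L96850 : W_37 (nat_lit 6) (nat_lit 0x1000280014001200080000000000000000000000000000000) (nat_lit 0x0) (nat_lit 0x800070002800500002000100008000000000000000000000000000000) := T_37 (nat_lit 191) (nat_lit 208) (nat_lit 5) (nat_lit 5) (nat_lit 8) L96849 (by decide +kernel)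
theorem L96851 : W_37 (nat_lit 7) (nat_lit 0x280014001200080000000000000000000000000000000) (nat_lit 0x0) (nat_lit 0x800070003800540002000100018000400000000000000000000000000) := Q_37 (nat_lit 192) (C_37 L62818 (C_37 L64379 (C_37 L96845 (C_37 L96850 N_37)))) (by decide +kernel)
theorem L96852 : W_37 (nat_lit 2) (nat_lit 0x1800680014001600080000000000000000000000000000000) (nat_lit 0x0) (nat_lit 0x2000800100000000000000000000000000000000) := D_37 (nat_lit 143) (nat_lit 128) (nat_lit 157) (nat_lit 2) (nat_lit 5) (nat_lit 8) (nat_lit 1) (nat_lit 8) (nat_lit 8) (by decide +kernel)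
theorem L96853 : W_37 (nat_lit 3) (nat_lit 0x1800680014001200080000000000000000000000000000000) (nat_lit 0x0) (nat_lit 0x2000c00120000000000000000000000000000000) := T_37 (nat_lit 142) (nat_lit 125) (nat_lit 6) (nat_lit 5) (nat_lit 11) L96852 (by decide +kernel)
theorem L96854 : W_37 (nat_lit 4) (nat_lit 0x1800280014001200080000000000000000000000000000000) (nat_lit 0x0) (nat_lit 0x500002000c00120000000000000000000000000000000) := T_37 (nat_lit 178) (nat_lit 176) (nat_lit 1) (nat_lit 8) (nat_lit 10) L96853 (by decide +kernel)
theorem L96855 : W_37 (nat_lit 5) (nat_lit 0x1000280014001200080000000000000000000000000000000) (nat_lit 0x0) (nat_lit 0x10000800500002000c00120000000000000000000000000000000) := T_37 (nat_lit 191) (nat_lit 208) (nat_lit 5) (nat_lit 5) (nat_lit 8) L96854 (by decide +kernel)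
theorem L96856 : W_37 (nat_lit 9) (nat_lit 0x280014001200080000000000000000000000000000000) (nat_lit 0x0) (nat_lit 0xa00070003c00500002000d00128004000200000000000000000000000) := Q_37 (nat_lit 192) (C_37 L63036 (C_37 L96850 (C_37 L96757 (C_37 L96818 (C_37 L96855 N_37))))) (by decide +kernel)
theorem L96857 : W_37 (nat_lit 6) (nat_lit 0x280014001200080000000000000000000000000000000) (nat_lit 0x0) (nat_lit 0x50003800540002000c00130001000000000000000000000000000) := Q_37 (nat_lit 192) (C_37 L96855 (C_37 L96845 (C_37 L64399 (C_37 L64363 N_37)))) (by decide +kernel)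
theorem L96858 : W_37 (nat_lit 10) (nat_lit 0x280014001000080000000000000000000000000000000) (nat_lit 0x0) (nat_lit 0xa00070003c00540003000fc0138005c002a0000000000000000000000) := Q_37 (nat_lit 141) (C_37 L96819 (C_37 L96758 (C_37 L96820 (C_37 L96821 (C_37 L96829 (C_37 L96830 (C_37 L96840 (C_37 L96841 (C_37 L96842 (C_37 L96851 (C_37 L96856 (C_37 L96857 N_37)))))))))))) (by decide +kernel)
theorem L96859 : W_37 (nat_lit 2) (nat_lit 0x3800168012000b8000000000000000000000000000000) (nat_lit 0x0) (nat_lit 0x1000000000000500000000000000000000000000000000000) := D_37 (nat_lit 192) (nat_lit 142) (nat_lit 140) (nat_lit 6) (nat_lit 5) (nat_lit 11) (nat_lit 4) (nat_lit 5) (nat_lit 11) (by decide +kernel)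
theorem L96860 : W_37 (nat_lit 3) (nat_lit 0x3800168012000b0000000000000000000000000000000) (nat_lit 0x0) (nat_lit 0x1000000000000500008000400000000000000000000000000) := T_37 (nat_lit 123) (nat_lit 106) (nat_lit 4) (nat_lit 5) (nat_lit 10) L96859 (by decide +kernel)
theorem L96861 : W_37 (nat_lit 4) (nat_lit 0x380016801200090000000000000000000000000000000) (nat_lit 0x0) (nat_lit 0x1000000000000500028001400000000000000000000000000) := T_37 (nat_lit 125) (nat_lit 108) (nat_lit 6) (nat_lit 5) (nat_lit 10) L96860 (by decide +kernel)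
theorem L96862 : W_37 (nat_lit 5) (nat_lit 0x380016801200080000000000000000000000000000000) (nat_lit 0x0) (nat_lit 0x3000000000000500038001400000000000000000000000000) := T_37 (nat_lit 124) (nat_lit 193) (nat_lit 7) (nat_lit 5) (nat_lit 7) L96861 (by decide +kernel)
theorem L96863 : W_37 (nat_lit 6) (nat_lit 0x380016001200080000000000000000000000000000000) (nat_lit 0x0) (nat_lit 0x3000000001800500038001400000000000000000000000000) := T_37 (nat_lit 155) (nat_lit 156) (nat_lit 3) (nat_lit 2) (nat_lit 9) L96862 (by decide +kernel)
theorem L96864 : W_37 (nat_lit 7) (nat_lit 0x280016001200080000000000000000000000000000000) (nat_lit 0x0) (nat_lit 0x3000500001800500038001400000000000000000000000000) := T_37 (nat_lit 176) (nat_lit 178) (nat_lit 0) (nat_lit 8) (nat_lit 10) L96863 (by decide +kernel)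
theorem L96865 : W_37 (nat_lit 2) (nat_lit 0x380016801200098001800000000000000000000000000) (nat_lit 0x0) (nat_lit 0x1000000000000100000000000040000000000000000000000) := D_37 (nat_lit 140) (nat_lit 90) (nat_lit 192) (nat_lit 5) (nat_lit 5) (nat_lit 5) (nat_lit 4) (nat_lit 5) (nat_lit 11) (by decide +kernel)
theorem L96866 : W_37 (nat_lit 3) (nat_lit 0x380016801200098001000000000000000000000000000) (nat_lit 0x0) (nat_lit 0x10000000000001000000008000c0000000000000000000000) := T_37 (nat_lit 107) (nat_lit 91) (nat_lit 6) (nat_lit 5) (nat_lit 9) L96865 (by decide +kernel)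
theorem L96867 : W_37 (nat_lit 4) (nat_lit 0x380016801200090001000000000000000000000000000) (nat_lit 0x0) (nat_lit 0x1000000000000100008000c000c0000000000000000000000) := T_37 (nat_lit 123) (nat_lit 106) (nat_lit 4) (nat_lit 5) (nat_lit 10) L96866 (by decide +kernel)
theorem L96868 : W_37 (nat_lit 5) (nat_lit 0x380016801200090000000000000000000000000000000) (nat_lit 0x0) (nat_lit 0x1000000000000100028001c000c0000000000000000000000) := T_37 (nat_lit 108) (nat_lit 125) (nat_lit 6) (nat_lit 5) (nat_lit 10) L96867 (by decide +kernel)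
theorem L96869 : W_37 (nat_lit 6) (nat_lit 0x380016801200080000000000000000000000000000000) (nat_lit 0x0) (nat_lit 0x3000000000000100038001c000c0000000000000000000000) := T_37 (nat_lit 124) (nat_lit 193) (nat_lit 7) (nat_lit 5) (nat_lit 7) L96868 (by decide +kernel)
theorem L96870 : W_37 (nat_lit 7) (nat_lit 0x380016001200080000000000000000000000000000000) (nat_lit 0x0) (nat_lit 0x3000000001800100038001c000c0000000000000000000000) := T_37 (nat_lit 155) (nat_lit 156) (nat_lit 3) (nat_lit 2) (nat_lit 9) L96869 (by decide +kernel)
theorem L96871 : W_37 (nat_lit 8) (nat_lit 0x280016001200080000000000000000000000000000000) (nat_lit 0x0) (nat_lit 0x3000500001800100038001c000c0000000000000000000000) := T_37 (nat_lit 176) (nat_lit 178) (nat_lit 0) (nat_lit 8) (nat_lit 10) L96870 (by decide +kernel)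
theorem L96872 : W_37 (nat_lit 2) (nat_lit 0x380016001a000b0000d00240000000000000000000000) (nat_lit 0x0) (nat_lit 0x180004000000000000000000) := D_37 (nat_lit 91) (nat_lit 92) (nat_lit 74) (nat_lit 1) (nat_lit 8) (nat_lit 5) (nat_lit 6) (nat_lit 5) (nat_lit 8) (by decide +kernel)
theorem L96873 : W_37 (nat_lit 3) (nat_lit 0x380016001a000b0000d00200000000000000000000000) (nat_lit 0x0) (nat_lit 0x1000000000001c0004000000000000000000) := T_37 (nat_lit 90) (nat_lit 140) (nat_lit 5) (nat_lit 5) (nat_lit 5) L96872 (by decide +kernel)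
theorem L96874 : W_37 (nat_lit 4) (nat_lit 0x380016001a000b0000c00200000000000000000000000) (nat_lit 0x0) (nat_lit 0x1000000003001c0004000000000000000000) := T_37 (nat_lit 104) (nat_lit 105) (nat_lit 3) (nat_lit 2) (nat_lit 6) L96873 (by decide +kernel)
theorem L96875 : W_37 (nat_lit 5) (nat_lit 0x380016001a000b0000400200000000000000000000000) (nat_lit 0x0) (nat_lit 0x100000000b001e0004000000000000000000) := T_37 (nat_lit 107) (nat_lit 89) (nat_lit 4) (nat_lit 5) (nat_lit 9) L96874 (by decide +kernel)
theorem L96876 : W_37 (nat_lit 6) (nat_lit 0x380016001a000b0000400000000000000000000000000) (nat_lit 0x0) (nat_lit 0x100000004b003e0004000000000000000000) := T_37 (nat_lit 93) (nat_lit 110) (nat_lit 5) (nat_lit 8) (nat_lit 5) L96875 (by decide +kernel)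
theorem L96877 : W_37 (nat_lit 7) (nat_lit 0x380016001a000b0000000000000000000000000000000) (nat_lit 0x0) (nat_lit 0x100008004f003e0004000000000000000000) := T_37 (nat_lit 106) (nat_lit 123) (nat_lit 4) (nat_lit 5) (nat_lit 10) L96876 (by decide +kernel)
theorem L96878 : W_37 (nat_lit 8) (nat_lit 0x380016001a00090000000000000000000000000000000) (nat_lit 0x0) (nat_lit 0x100028005f003e0004000000000000000000) := T_37 (nat_lit 125) (nat_lit 108) (nat_lit 6) (nat_lit 5) (nat_lit 10) L96877 (by decide +kernel)
theorem L96879 : W_37 (nat_lit 9) (nat_lit 0x380016001a00080000000000000000000000000000000) (nat_lit 0x0) (nat_lit 0x2000000000000100038005f003e0004000000000000000000) := T_37 (nat_lit 124) (nat_lit 193) (nat_lit 7) (nat_lit 5) (nat_lit 7) L96878 (by decide +kernel)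
theorem L96880 : W_37 (nat_lit 10) (nat_lit 0x380016001200080000000000000000000000000000000) (nat_lit 0x0) (nat_lit 0x2000000000000d00038005f003e0004000000000000000000) := T_37 (nat_lit 143) (nat_lit 142) (nat_lit 1) (nat_lit 8) (nat_lit 8) L96879 (by decide +kernel)
theorem L96881 : W_37 (nat_lit 11) (nat_lit 0x280016001200080000000000000000000000000000000) (nat_lit 0x0) (nat_lit 0x2000500000000d00038005f003e0004000000000000000000) := T_37 (nat_lit 176) (nat_lit 178) (nat_lit 0) (nat_lit 8) (nat_lit 10) L96880 (by decide +kernel)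
theorem L96882 : W_37 (nat_lit 2) (nat_lit 0x380016001a00090001400200000000000000000000000) (nat_lit 0x0) (nat_lit 0x8000a0000000000000000000000) := D_37 (nat_lit 107) (nat_lit 91) (nat_lit 89) (nat_lit 6) (nat_lit 5) (nat_lit 9) (nat_lit 4) (nat_lit 5) (nat_lit 9) (by decide +kernel)
theorem L96883 : W_37 (nat_lit 3) (nat_lit 0x380016001a00090001000200000000000000000000000) (nat_lit 0x0) (nat_lit 0x8000c000a0000000000000000000000) := T_37 (nat_lit 106) (nat_lit 123) (nat_lit 4) (nat_lit 5) (nat_lit 10) L96882 (by decide +kernel)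
theorem L96884 : W_37 (nat_lit 4) (nat_lit 0x380016001a00090000000200000000000000000000000) (nat_lit 0x0) (nat_lit 0x28001c000a0000000000000000000000) := T_37 (nat_lit 108) (nat_lit 125) (nat_lit 6) (nat_lit 5) (nat_lit 10) L96883 (by decide +kernel)
theorem L96885 : W_37 (nat_lit 5) (nat_lit 0x380016001a00080000000200000000000000000000000) (nat_lit 0x0) (nat_lit 0x2000000000000000038001c000a0000000000000000000000) := T_37 (nat_lit 124) (nat_lit 193) (nat_lit 7) (nat_lit 5) (nat_lit 7) L96884 (by decide +kernel)
theorem L96886 : W_37 (nat_lit 6) (nat_lit 0x380016001a00080000000000000000000000000000000) (nat_lit 0x0) (nat_lit 0x2000000000000000038005c002a0000000000000000000000) := T_37 (nat_lit 93) (nat_lit 110) (nat_lit 5) (nat_lit 8) (nat_lit 5) L96885 (by decide +kernel)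
theorem L96887 : W_37 (nat_lit 7) (nat_lit 0x280016001a00080000000000000000000000000000000) (nat_lit 0x0) (nat_lit 0x2000500000000000038005c002a0000000000000000000000) := T_37 (nat_lit 176) (nat_lit 178) (nat_lit 0) (nat_lit 8) (nat_lit 10) L96886 (by decide +kernel)
theorem L96888 : W_37 (nat_lit 8) (nat_lit 0x280016001200080000000000000000000000000000000) (nat_lit 0x0) (nat_lit 0x2000500000000c00038005c002a0000000000000000000000) := T_37 (nat_lit 143) (nat_lit 142) (nat_lit 1) (nat_lit 8) (nat_lit 8) L96887 (by decide +kernel)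
theorem L96889 : W_37 (nat_lit 2) (nat_lit 0x380016801b00098004800000000000000000000000000) (nat_lit 0x0) (nat_lit 0x3000080000000000000000000000) := D_37 (nat_lit 108) (nat_lit 91) (nat_lit 109) (nat_lit 6) (nat_lit 5) (nat_lit 9) (nat_lit 1) (nat_lit 8) (nat_lit 6) (by decide +kernel)
theorem L96890 : W_37 (nat_lit 3) (nat_lit 0x380016801b00098004000000000000000000000000000) (nat_lit 0x0) (nat_lit 0x38000c0000000000000000000000) := T_37 (nat_lit 107) (nat_lit 90) (nat_lit 5) (nat_lit 5) (nat_lit 5) L96889 (by decide +kernel)
theorem L96891 : W_37 (nat_lit 4) (nat_lit 0x380016001b00098004000000000000000000000000000) (nat_lit 0x0) (nat_lit 0x18000000000038000c0000000000000000000000) := T_37 (nat_lit 155) (nat_lit 156) (nat_lit 3) (nat_lit 2) (nat_lit 9) L96890 (by decide +kernel)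
theorem L96892 : W_37 (nat_lit 5) (nat_lit 0x380016001a00098004000000000000000000000000000) (nat_lit 0x0) (nat_lit 0x10000000018001000000038000c0000000000000000000000) := T_37 (nat_lit 140) (nat_lit 192) (nat_lit 4) (nat_lit 5) (nat_lit 11) L96891 (by decide +kernel)
theorem L96893 : W_37 (nat_lit 6) (nat_lit 0x380016001a00098000000000000000000000000000000) (nat_lit 0x0) (nat_lit 0x10000000018001000000078002c0000000000000000000000) := T_37 (nat_lit 110) (nat_lit 93) (nat_lit 5) (nat_lit 8) (nat_lit 5) L96892 (by decide +kernel)
theorem L96894 : W_37 (nat_lit 7) (nat_lit 0x380016001a00090000000000000000000000000000000) (nat_lit 0x0) (nat_lit 0x1000000001800100008007c002c0000000000000000000000) := T_37 (nat_lit 123) (nat_lit 106) (nat_lit 4) (nat_lit 5) (nat_lit 10) L96893 (by decide +kernel)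
theorem L96895 : W_37 (nat_lit 8) (nat_lit 0x380016001a00080000000000000000000000000000000) (nat_lit 0x0) (nat_lit 0x3000000001800100018007c002c0000000000000000000000) := T_37 (nat_lit 124) (nat_lit 193) (nat_lit 7) (nat_lit 5) (nat_lit 7) L96894 (by decide +kernel)
theorem L96896 : W_37 (nat_lit 9) (nat_lit 0x380016001200080000000000000000000000000000000) (nat_lit 0x0) (nat_lit 0x3000000001800d00018007c002c0000000000000000000000) := T_37 (nat_lit 143) (nat_lit 142) (nat_lit 1) (nat_lit 8) (nat_lit 8) L96895 (by decide +kernel)
theorem L96897 : W_37 (nat_lit 10) (nat_lit 0x280016001200080000000000000000000000000000000) (nat_lit 0x0) (nat_lit 0x3000500001800d00018007c002c0000000000000000000000) := T_37 (nat_lit 176) (nat_lit 178) (nat_lit 0) (nat_lit 8) (nat_lit 10) L96896 (by decide +kernel)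
theorem L96898 : W_37 (nat_lit 2) (nat_lit 0x380016801a00090001800240000000000000000000000) (nat_lit 0x0) (nat_lit 0x400020001000000000000000000) := D_37 (nat_lit 89) (nat_lit 72) (nat_lit 106) (nat_lit 4) (nat_lit 5) (nat_lit 8) (nat_lit 4) (nat_lit 5) (nat_lit 9) (by decide +kernel)
theorem L96899 : W_37 (nat_lit 3) (nat_lit 0x380016801a00090001800200000000000000000000000) (nat_lit 0x0) (nat_lit 0x100000000400060001000000000000000000) := T_37 (nat_lit 90) (nat_lit 140) (nat_lit 5) (nat_lit 5) (nat_lit 5) L96898 (by decide +kernel)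
theorem L96900 : W_37 (nat_lit 4) (nat_lit 0x380016801a00090001000200000000000000000000000) (nat_lit 0x0) (nat_lit 0x100000000c000e0001000000000000000000) := T_37 (nat_lit 107) (nat_lit 91) (nat_lit 6) (nat_lit 5) (nat_lit 9) L96899 (by decide +kernel)
theorem L96901 : W_37 (nat_lit 5) (nat_lit 0x380016001a00090001000200000000000000000000000) (nat_lit 0x0) (nat_lit 0x1800100000000c000e0001000000000000000000) := T_37 (nat_lit 155) (nat_lit 156) (nat_lit 3) (nat_lit 2) (nat_lit 9) L96900 (by decide +kernel)
theorem L96902 : W_37 (nat_lit 6) (nat_lit 0x380016001a00090000000200000000000000000000000) (nat_lit 0x0) (nat_lit 0x1800100020001c000e0001000000000000000000) := T_37 (nat_lit 108) (nat_lit 125) (nat_lit 6) (nat_lit 5) (nat_lit 10) L96901 (by decide +kernel)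
theorem L96903 : W_37 (nat_lit 7) (nat_lit 0x380016001a00080000000200000000000000000000000) (nat_lit 0x0) (nat_lit 0x2000000001800100030001c000e0001000000000000000000) := T_37 (nat_lit 124) (nat_lit 193) (nat_lit 7) (nat_lit 5) (nat_lit 7) L96902 (by decide +kernel)
theorem L96904 : W_37 (nat_lit 8) (nat_lit 0x380016001a00080000000000000000000000000000000) (nat_lit 0x0) (nat_lit 0x2000000001800100030005c002e0001000000000000000000) := T_37 (nat_lit 93) (nat_lit 110) (nat_lit 5) (nat_lit 8) (nat_lit 5) L96903 (by decide +kernel)
theorem L96905 : W_37 (nat_lit 9) (nat_lit 0x280016001a00080000000000000000000000000000000) (nat_lit 0x0) (nat_lit 0x2000500001800100030005c002e0001000000000000000000) := T_37 (nat_lit 176) (nat_lit 178) (nat_lit 0) (nat_lit 8) (nat_lit 10) L96904 (by decide +kernel)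
theorem L96906 : W_37 (nat_lit 10) (nat_lit 0x280016001200080000000000000000000000000000000) (nat_lit 0x0) (nat_lit 0x2000500001800d00030005c002e0001000000000000000000) := T_37 (nat_lit 143) (nat_lit 142) (nat_lit 1) (nat_lit 8) (nat_lit 8) L96905 (by decide +kernel)
theorem L96907 : W_37 (nat_lit 12) (nat_lit 0x280016001000080000000000000000000000000000000) (nat_lit 0x0) (nat_lit 0x20003000500001800f00038007f003e0005000000000000000000) := Q_37 (nat_lit 141) (C_37 L63913 (C_37 L96864 (C_37 L96871 (C_37 L96881 (C_37 L96888 (C_37 L96897 (C_37 L96906 N_37))))))) (by decide +kernel)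
theorem L96908 : W_37 (nat_lit 2) (nat_lit 0x280016001000080000000000000000000000000000000) (nat_lit 0x0) (nat_lit 0x400008000800000000000000000000000000000000000) := D_37 (nat_lit 159) (nat_lit 143) (nat_lit 178) (nat_lit 2) (nat_lit 4) (nat_lit 9) (nat_lit 3) (nat_lit 4) (nat_lit 9) (by decide +kernel)
theorem L96909 : W_37 (nat_lit 13) (nat_lit 0x280014001000080000000000000000000000000000000) (nat_lit 0x0) (nat_lit 0x2000300050000b800fc0038007f003e0005000000000000000000) := Q_37 (nat_lit 157) (C_37 L96907 (C_37 L96810 (C_37 L64322 (C_37 L96908 N_37)))) (by decide +kernel)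
theorem L96910 : W_37 (nat_lit 2) (nat_lit 0x380016001200090000000000000000000000000000000) (nat_lit 0x0) (nat_lit 0x800040000000000000000800000000000000000000000000) := D_37 (nat_lit 174) (nat_lit 107) (nat_lit 191) (nat_lit 5) (nat_lit 5) (nat_lit 6) (nat_lit 5) (nat_lit 5) (nat_lit 7) (by decide +kernel)
theorem L96911 : W_37 (nat_lit 3) (nat_lit 0x380016001200080000000000000000000000000000000) (nat_lit 0x0) (nat_lit 0x2800040000000000010000800000000000000000000000000) := T_37 (nat_lit 124) (nat_lit 193) (nat_lit 7) (nat_lit 5) (nat_lit 7) L96910 (by decide +kernel)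
theorem L96912 : W_37 (nat_lit 4) (nat_lit 0x280016001200080000000000000000000000000000000) (nat_lit 0x0) (nat_lit 0x2800540000000000010000800000000000000000000000000) := T_37 (nat_lit 176) (nat_lit 178) (nat_lit 0) (nat_lit 8) (nat_lit 10) L96911 (by decide +kernel)
theorem L96913 : W_37 (nat_lit 9) (nat_lit 0x280016001000080000000000000000000000000000000) (nat_lit 0x0) (nat_lit 0x20003800540000000f00038005c002a0000000000000000000000) := Q_37 (nat_lit 141) (C_37 L63913 (C_37 L96888 (C_37 L96912 N_37))) (by decide +kernel)
theorem L96914 : W_37 (nat_lit 5) (nat_lit 0x280016001000080000000000000000000000000000000) (nat_lit 0x0) (nat_lit 0x20001000000008000b80008000400000000000000000000000000) := T_37 (nat_lit 159) (nat_lit 143) (nat_lit 2) (nat_lit 4) (nat_lit 9) L96737 (by decide +kernel)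
theorem L96915 : W_37 (nat_lit 11) (nat_lit 0x280014001000080000000000000000000000000000000) (nat_lit 0x0) (nat_lit 0x2000380056000a000f8003f005e002a0000000000000000000000) := Q_37 (nat_lit 157) (C_37 L96913 (C_37 L96908 (C_37 L96625 (C_37 L96914 N_37)))) (by decide +kernel)
theorem L96916 : W_37 (nat_lit 2) (nat_lit 0x4003e0015001a800b8000000200000000000000000000000) (nat_lit 0x0) (nat_lit 0x40006000000000000000000000000000000) := D_37 (nat_lit 138) (nat_lit 121) (nat_lit 122) (nat_lit 4) (nat_lit 3) (nat_lit 11) (nat_lit 1) (nat_lit 6) (nat_lit 7) (by decide +kernel)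
theorem L96917 : W_37 (nat_lit 3) (nat_lit 0x4003e0015001a000b8000000200000000000000000000000) (nat_lit 0x0) (nat_lit 0x1c0006000000000000000000000000000000) := T_37 (nat_lit 139) (nat_lit 140) (nat_lit 6) (nat_lit 3) (nat_lit 11) L96916 (by decide +kernel)
theorem L96918 : W_37 (nat_lit 4) (nat_lit 0x4003e0014001a000b8000000200000000000000000000000) (nat_lit 0x0) (nat_lit 0x18001c0006000000000000000000000000000000) := T_37 (nat_lit 156) (nat_lit 155) (nat_lit 0) (nat_lit 6) (nat_lit 10) L96917 (by decide +kernel)
theorem L96919 : W_37 (nat_lit 5) (nat_lit 0x3e0014001a000b8000000200000000000000000000000) (nat_lit 0x0) (nat_lit 0x6000000018001c0006000000000000000000000000000000) := T_37 (nat_lit 190) (nat_lit 189) (nat_lit 1) (nat_lit 6) (nat_lit 10) L96918 (by decide +kernel)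
theorem L96920 : W_37 (nat_lit 6) (nat_lit 0x3c0014001a000b8000000200000000000000000000000) (nat_lit 0x0) (nat_lit 0x6000200098001c0006000000000000000000000000000000) := T_37 (nat_lit 173) (nat_lit 159) (nat_lit 2) (nat_lit 3) (nat_lit 10) L96919 (by decide +kernel)
theorem L96921 : W_37 (nat_lit 7) (nat_lit 0x380014001a000b8000000200000000000000000000000) (nat_lit 0x0) (nat_lit 0xe000600098001c0006000000000000000000000000000000) := T_37 (nat_lit 174) (nat_lit 191) (nat_lit 5) (nat_lit 5) (nat_lit 7) L96920 (by decide +kernel)
theorem L96922 : W_37 (nat_lit 8) (nat_lit 0x280014001a000b8000000200000000000000000000000) (nat_lit 0x0) (nat_lit 0x2e001600098001c0006000000000000000000000000000000) := T_37 (nat_lit 176) (nat_lit 193) (nat_lit 7) (nat_lit 5) (nat_lit 7) L96921 (by decide +kernel)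
theorem L96923 : W_37 (nat_lit 9) (nat_lit 0x280014001a000b8000000000000000000000000000000) (nat_lit 0x0) (nat_lit 0x2e001600098001c0006004000200000000000000000000000) := T_37 (nat_lit 93) (nat_lit 110) (nat_lit 5) (nat_lit 8) (nat_lit 5) L96922 (by decide +kernel)
theorem L96924 : W_37 (nat_lit 10) (nat_lit 0x280014001a00098000000000000000000000000000000) (nat_lit 0x0) (nat_lit 0x2e001600098001c0026005000200000000000000000000000) := T_37 (nat_lit 125) (nat_lit 108) (nat_lit 6) (nat_lit 5) (nat_lit 10) L96923 (by decide +kernel)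
theorem L96925 : W_37 (nat_lit 11) (nat_lit 0x280014001200098000000000000000000000000000000) (nat_lit 0x0) (nat_lit 0x2e00160009800dc0026005000200000000000000000000000) := T_37 (nat_lit 143) (nat_lit 142) (nat_lit 0) (nat_lit 8) (nat_lit 8) L96924 (by decide +kernel)
theorem L96926 : W_37 (nat_lit 12) (nat_lit 0x280014001200090000000000000000000000000000000) (nat_lit 0x0) (nat_lit 0x2e00160009800dc002e005400200000000000000000000000) := T_37 (nat_lit 123) (nat_lit 106) (nat_lit 4) (nat_lit 5) (nat_lit 10) L96925 (by decide +kernel)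
theorem L96927 : W_37 (nat_lit 13) (nat_lit 0x280014001200080000000000000000000000000000000) (nat_lit 0x0) (nat_lit 0x2e00160009800dc003e005c002a0000000000000000000000) := Q_37 (nat_lit 124) (C_37 L96689 (C_37 L96703 (C_37 L96693 (C_37 L96926 N_37)))) (by decide +kernel)
theorem L96928 : W_37 (nat_lit 11) (nat_lit 0x280014001200080000000000000000000000000000000) (nat_lit 0x0) (nat_lit 0x50003e00520009c00dc013f005400200000000000000000000000) := Q_37 (nat_lit 192) (C_37 L96818 (C_37 L64359 (C_37 L64363 (C_37 L64266 (C_37 L64379 N_37))))) (by decide +kernel)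
theorem L96929 : W_37 (nat_lit 6) (nat_lit 0x280014001200080000000000000000000000000000000) (nat_lit 0x0) (nat_lit 0x40003000100008000d00038001c000a0000000000000000000000) := Q_37 (nat_lit 124) (C_37 L64125 (C_37 L96689 (C_37 L63615 N_37))) (by decide +kernel)
theorem L96930 : W_37 (nat_lit 11) (nat_lit 0x280014001200080000000000000000000000000000000) (nat_lit 0x0) (nat_lit 0x50003e00560009c005c003f000000000000000000000000000000) := Q_37 (nat_lit 192) (C_37 L96845 (C_37 L64359 (C_37 L64266 N_37))) (by decide +kernel)
theorem L96931 : W_37 (nat_lit 2) (nat_lit 0x2003e0014801a000b8000000200000000000000000000000) (nat_lit 0x0) (nat_lit 0x100010000400000000000000000000000000000000000000) := D_37 (nat_lit 172) (nat_lit 188) (nat_lit 154) (nat_lit 1) (nat_lit 5) (nat_lit 10) (nat_lit 0) (nat_lit 5) (nat_lit 10) (by decide +kernel)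
theorem L96932 : W_37 (nat_lit 3) (nat_lit 0x2003e0014001a000b8000000200000000000000000000000) (nat_lit 0x0) (nat_lit 0x100010001c00000000000000000000000000000000000000) := T_37 (nat_lit 155) (nat_lit 156) (nat_lit 0) (nat_lit 6) (nat_lit 10) L96931 (by decide +kernel)
theorem L96933 : W_37 (nat_lit 4) (nat_lit 0x3e0014001a000b8000000200000000000000000000000) (nat_lit 0x0) (nat_lit 0x700010001c00000000000000000000000000000000000000) := T_37 (nat_lit 189) (nat_lit 190) (nat_lit 1) (nat_lit 6) (nat_lit 10) L96932 (by decide +kernel)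
theorem L96934 : W_37 (nat_lit 5) (nat_lit 0x3c0014001a000b8000000200000000000000000000000) (nat_lit 0x0) (nat_lit 0x700030009c00000000000000000000000000000000000000) := T_37 (nat_lit 173) (nat_lit 159) (nat_lit 2) (nat_lit 3) (nat_lit 10) L96933 (by decide +kernel)
theorem L96935 : W_37 (nat_lit 6) (nat_lit 0x380014001a000b8000000200000000000000000000000) (nat_lit 0x0) (nat_lit 0xf00070009c00000000000000000000000000000000000000) := T_37 (nat_lit 174) (nat_lit 191) (nat_lit 5) (nat_lit 5) (nat_lit 7) L96934 (by decide +kernel)
theorem L96936 : W_37 (nat_lit 7) (nat_lit 0x280014001a000b8000000200000000000000000000000) (nat_lit 0x0) (nat_lit 0x2f00170009c00000000000000000000000000000000000000) := T_37 (nat_lit 176) (nat_lit 193) (nat_lit 7) (nat_lit 5) (nat_lit 7) L96935 (by decide +kernel)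
theorem L96937 : W_37 (nat_lit 8) (nat_lit 0x280014001a000b8000000000000000000000000000000) (nat_lit 0x0) (nat_lit 0x2f00170009c00000000004000200000000000000000000000) := T_37 (nat_lit 93) (nat_lit 110) (nat_lit 5) (nat_lit 8) (nat_lit 5) L96936 (by decide +kernel)
theorem L96938 : W_37 (nat_lit 9) (nat_lit 0x280014001a00098000000000000000000000000000000) (nat_lit 0x0) (nat_lit 0x2f00170009c00000020005000200000000000000000000000) := T_37 (nat_lit 125) (nat_lit 108) (nat_lit 6) (nat_lit 5) (nat_lit 10) L96937 (by decide +kernel)
theorem L96939 : W_37 (nat_lit 10) (nat_lit 0x280014001200098000000000000000000000000000000) (nat_lit 0x0) (nat_lit 0x2f00170009c00c00020005000200000000000000000000000) := T_37 (nat_lit 143) (nat_lit 142) (nat_lit 0) (nat_lit 8) (nat_lit 8) L96938 (by decide +kernel)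
theorem L96940 : W_37 (nat_lit 11) (nat_lit 0x280014001200090000000000000000000000000000000) (nat_lit 0x0) (nat_lit 0x2f00170009c00c00028005400200000000000000000000000) := T_37 (nat_lit 123) (nat_lit 106) (nat_lit 4) (nat_lit 5) (nat_lit 10) L96939 (by decide +kernel)
theorem L96941 : W_37 (nat_lit 12) (nat_lit 0x280014001200080000000000000000000000000000000) (nat_lit 0x0) (nat_lit 0x2f00170009c00c00038005c002a0000000000000000000000) := Q_37 (nat_lit 124) (C_37 L96689 (C_37 L63615 (C_37 L96703 (C_37 L96693 (C_37 L96940 N_37))))) (by decide +kernel)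
theorem L96942 : W_37 (nat_lit 8) (nat_lit 0x280014001200080000000000000000000000000000000) (nat_lit 0x0) (nat_lit 0x4000e00070003800140008000500018000400000000000000000000000000) := Q_37 (nat_lit 192) (C_37 L96845 (C_37 L62818 (C_37 L64379 (C_37 L64376 N_37)))) (by decide +kernel)
theorem L96943 : W_37 (nat_lit 2) (nat_lit 0x3800280014001300080000000000000000000000000000000) (nat_lit 0x0) (nat_lit 0x400500000000000000000000000000000000000000000000) := D_37 (nat_lit 176) (nat_lit 190) (nat_lit 178) (nat_lit 2) (nat_lit 3) (nat_lit 11) (nat_lit 1) (nat_lit 8) (nat_lit 10) (by decide +kernel)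
theorem L96944 : W_37 (nat_lit 3) (nat_lit 0x3000280014001300080000000000000000000000000000000) (nat_lit 0x0) (nat_lit 0x10000c00500000000000000000000000000000000000000000000) := T_37 (nat_lit 191) (nat_lit 208) (nat_lit 5) (nat_lit 5) (nat_lit 8) L96943 (by decide +kernel)
theorem L96945 : W_37 (nat_lit 4) (nat_lit 0x1000280014001300080000000000000000000000000000000) (nat_lit 0x0) (nat_lit 0x50002c00500000000000000000000000000000000000000000000) := T_37 (nat_lit 193) (nat_lit 210) (nat_lit 7) (nat_lit 5) (nat_lit 8) L96944 (by decide +kernel)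
theorem L96946 : W_37 (nat_lit 5) (nat_lit 0x1000280014001200080000000000000000000000000000000) (nat_lit 0x0) (nat_lit 0x50002c00500000000100008000000000000000000000000000000) := T_37 (nat_lit 140) (nat_lit 123) (nat_lit 4) (nat_lit 5) (nat_lit 11) L96945 (by decide +kernel)
theorem L96947 : W_37 (nat_lit 11) (nat_lit 0x280014001200080000000000000000000000000000000) (nat_lit 0x0) (nat_lit 0x4000e00070003e00520009c00dc012f004000200000000000000000000000) := Q_37 (nat_lit 192) (C_37 L96818 (C_37 L64359 (C_37 L64376 (C_37 L64266 (C_37 L96946 (C_37 L64992 N_37)))))) (by decide +kernel)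
theorem L96948 : W_37 (nat_lit 6) (nat_lit 0x280014001200080000000000000000000000000000000) (nat_lit 0x0) (nat_lit 0x200070003800140008000400030001000000000000000000000000000) := Q_37 (nat_lit 192) (C_37 L96845 (C_37 L64399 (C_37 L64363 (C_37 L64992 N_37)))) (by decide +kernel)
theorem L96949 : W_37 (nat_lit 14) (nat_lit 0x280014001000080000000000000000000000000000000) (nat_lit 0x0) (nat_lit 0x4000e00070003f00570009c00fc013f005c002a0000000000000000000000) := Q_37 (nat_lit 141) (C_37 L96819 (C_37 L96711 (C_37 L96705 (C_37 L96706 (C_37 L96927 (C_37 L96928 (C_37 L96929 (C_37 L96930 (C_37 L96941 (C_37 L96942 (C_37 L96947 (C_37 L96948 N_37)))))))))))) (by decide +kernel)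
theorem L96950 : W_37 (nat_lit 10) (nat_lit 0x280014001000080000000000000000000000000000000) (nat_lit 0x0) (nat_lit 0x80055800bc00ee0010000800000000000000000000000000) := Q_37 (nat_lit 157) (C_37 L64279 (C_37 L96908 (C_37 L96808 N_37))) (by decide +kernel)
theorem L96951 : W_37 (nat_lit 4) (nat_lit 0x2c001e001000080000000000000000000000000000000) (nat_lit 0x0) (nat_lit 0x10000c00100001000200010000000000000000000000000000000) := T_37 (nat_lit 176) (nat_lit 156) (nat_lit 3) (nat_lit 3) (nat_lit 9) L64426 (by decide +kernel)
theorem L96952 : W_37 (nat_lit 5) (nat_lit 0x28001e001000080000000000000000000000000000000) (nat_lit 0x0) (nat_lit 0x10000c00160001000200010000000000000000000000000000000) := T_37 (nat_lit 174) (nat_lit 173) (nat_lit 1) (nat_lit 7) (nat_lit 9) L96951 (by decide +kernel)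
theorem L96953 : W_37 (nat_lit 6) (nat_lit 0x280016001000080000000000000000000000000000000) (nat_lit 0x0) (nat_lit 0x10000c00160009000a00010000000000000000000000000000000) := T_37 (nat_lit 159) (nat_lit 143) (nat_lit 2) (nat_lit 4) (nat_lit 9) L96952 (by decide +kernel)
theorem L96954 : W_37 (nat_lit 10) (nat_lit 0x280014001000080000000000000000000000000000000) (nat_lit 0x0) (nat_lit 0x30003c0056000b800f00038005c002a0000000000000000000000) := Q_37 (nat_lit 157) (C_37 L96913 (C_37 L96908 (C_37 L64279 (C_37 L96953 N_37)))) (by decide +kernel)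
theorem L96955 : W_37 (nat_lit 15) (nat_lit 0x200014001000080000000000000000000000000000000) (nat_lit 0x0) (nat_lit 0x1c000f801f0003f005f800bc00fe013f007f003e0005000000000000000000) := Q_37 (nat_lit 175) (C_37 L96609 (C_37 L96535 (C_37 L96807 (C_37 L96809 (C_37 L96811 (C_37 L96858 (C_37 L96909 (C_37 L96915 (C_37 L96949 (C_37 L96950 (C_37 L96954 N_37))))))))))) (by decide +kernel)
theorem L96956 : W_37 (nat_lit 9) (nat_lit 0x280014001200080000000000000000000000000000000) (nat_lit 0x0) (nat_lit 0x4000e0007000380010000bc005c002f000000000000000000000000000000) := Q_37 (nat_lit 192) (C_37 L63036 (C_37 L64376 (C_37 L63488 (C_37 L64266 (C_37 L64992 N_37))))) (by decide +kernel)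
theorem L96957 : W_37 (nat_lit 10) (nat_lit 0x200014001200080000000000000000000000000000000) (nat_lit 0x0) (nat_lit 0x4000e0007000f8001e000bc005c003f001c000e0006000000000000000000) := Q_37 (nat_lit 175) (C_37 L96948 (C_37 L96821 (C_37 L96704 (C_37 L96729 (C_37 L96942 (C_37 L96956 N_37)))))) (by decide +kernel)
theorem L96958 : W_37 (nat_lit 2) (nat_lit 0x800240016001a00080000000000000000000000000000000) (nat_lit 0x0) (nat_lit 0x100010000800000000000000000000000000) := D_37 (nat_lit 124) (nat_lit 107) (nat_lit 140) (nat_lit 5) (nat_lit 5) (nat_lit 6) (nat_lit 6) (nat_lit 4) (nat_lit 11) (by decide +kernel)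
theorem L96959 : W_37 (nat_lit 3) (nat_lit 0x240016001a00080000000000000000000000000000000) (nat_lit 0x0) (nat_lit 0x10000800000000000100010000800000000000000000000000000) := T_37 (nat_lit 191) (nat_lit 208) (nat_lit 6) (nat_lit 4) (nat_lit 12) L96958 (by decide +kernel)
theorem L96960 : W_37 (nat_lit 4) (nat_lit 0x240016001200080000000000000000000000000000000) (nat_lit 0x0) (nat_lit 0x10000800000000000d00010000800000000000000000000000000) := T_37 (nat_lit 143) (nat_lit 142) (nat_lit 1) (nat_lit 8) (nat_lit 8) L96959 (by decide +kernel)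
theorem L96961 : W_37 (nat_lit 2) (nat_lit 0x800240016001200080000000000000000000000000000000) (nat_lit 0x0) (nat_lit 0x100010000800000000000000000000000000) := D_37 (nat_lit 124) (nat_lit 107) (nat_lit 140) (nat_lit 5) (nat_lit 5) (nat_lit 6) (nat_lit 6) (nat_lit 4) (nat_lit 11) (by decide +kernel)
theorem L96962 : W_37 (nat_lit 3) (nat_lit 0x240016001200080000000000000000000000000000000) (nat_lit 0x0) (nat_lit 0x10000800000000000100010000800000000000000000000000000) := T_37 (nat_lit 191) (nat_lit 208) (nat_lit 6) (nat_lit 4) (nat_lit 12) L96961 (by decide +kernel)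
theorem L96963 : W_37 (nat_lit 2) (nat_lit 0x10002c0017001600080000800000000000000000000000000) (nat_lit 0x0) (nat_lit 0x400020000000000000000100000000000000000000000000000000000) := D_37 (nat_lit 209) (nat_lit 226) (nat_lit 140) (nat_lit 4) (nat_lit 5) (nat_lit 13) (nat_lit 4) (nat_lit 5) (nat_lit 12) (by decide +kernel)
theorem L96964 : W_37 (nat_lit 3) (nat_lit 0x2c0017001600080000800000000000000000000000000) (nat_lit 0x0) (nat_lit 0x400020001000000000000100020000000000000000000000000000000) := T_37 (nat_lit 192) (nat_lit 125) (nat_lit 6) (nat_lit 5) (nat_lit 11) L96963 (by decide +kernel)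
theorem L96965 : W_37 (nat_lit 4) (nat_lit 0x240017001600080000800000000000000000000000000) (nat_lit 0x0) (nat_lit 0x400020001000180000000100020000000000000000000000000000000) := T_37 (nat_lit 175) (nat_lit 176) (nat_lit 0) (nat_lit 7) (nat_lit 10) L96964 (by decide +kernel)
theorem L96966 : W_37 (nat_lit 5) (nat_lit 0x240016001600080000800000000000000000000000000) (nat_lit 0x0) (nat_lit 0x400020001000180001800100020000000000000000000000000000000) := T_37 (nat_lit 156) (nat_lit 155) (nat_lit 2) (nat_lit 2) (nat_lit 9) L96965 (by decide +kernel)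
theorem L96967 : W_37 (nat_lit 6) (nat_lit 0x240016001200080000800000000000000000000000000) (nat_lit 0x0) (nat_lit 0x400020001000180001800d00020000000000000000000000000000000) := T_37 (nat_lit 142) (nat_lit 143) (nat_lit 1) (nat_lit 8) (nat_lit 8) L96966 (by decide +kernel)
theorem L96968 : W_37 (nat_lit 7) (nat_lit 0x240016001200080000000000000000000000000000000) (nat_lit 0x0) (nat_lit 0x400020001000180001800d00030000800000000000000000000000000) := T_37 (nat_lit 107) (nat_lit 124) (nat_lit 5) (nat_lit 5) (nat_lit 6) L96967 (by decide +kernel)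
theorem L96969 : W_37 (nat_lit 2) (nat_lit 0x800240016001a00080000000000000000000000000000000) (nat_lit 0x0) (nat_lit 0x80000000100010000000000000000000000000000000) := D_37 (nat_lit 124) (nat_lit 140) (nat_lit 175) (nat_lit 6) (nat_lit 4) (nat_lit 11) (nat_lit 5) (nat_lit 5) (nat_lit 7) (by decide +kernel)
theorem L96970 : W_37 (nat_lit 3) (nat_lit 0x240016001a00080000000000000000000000000000000) (nat_lit 0x0) (nat_lit 0x10000800080000000100010000000000000000000000000000000) := T_37 (nat_lit 191) (nat_lit 208) (nat_lit 6) (nat_lit 4) (nat_lit 12) L96969 (by decide +kernel)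
theorem L96971 : W_37 (nat_lit 4) (nat_lit 0x240016001200080000000000000000000000000000000) (nat_lit 0x0) (nat_lit 0x10000800080000000d00010000000000000000000000000000000) := T_37 (nat_lit 143) (nat_lit 142) (nat_lit 1) (nat_lit 8) (nat_lit 8) L96970 (by decide +kernel)
theorem L96972 : W_37 (nat_lit 2) (nat_lit 0x240016001a00090000000000000000000000000000000) (nat_lit 0x0) (nat_lit 0x10000800080000000000000000000000000000000000000000000) := D_37 (nat_lit 191) (nat_lit 208) (nat_lit 175) (nat_lit 6) (nat_lit 4) (nat_lit 12) (nat_lit 5) (nat_lit 5) (nat_lit 7) (by decide +kernel)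
theorem L96973 : W_37 (nat_lit 3) (nat_lit 0x240016001a00080000000000000000000000000000000) (nat_lit 0x0) (nat_lit 0x10000800080000000000010000800000000000000000000000000) := T_37 (nat_lit 124) (nat_lit 107) (nat_lit 5) (nat_lit 5) (nat_lit 6) L96972 (by decide +kernel)
theorem L96974 : W_37 (nat_lit 4) (nat_lit 0x240016001200080000000000000000000000000000000) (nat_lit 0x0) (nat_lit 0x10000800080000000c00010000800000000000000000000000000) := T_37 (nat_lit 143) (nat_lit 142) (nat_lit 1) (nat_lit 8) (nat_lit 8) L96973 (by decide +kernel)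
theorem L96975 : W_37 (nat_lit 2) (nat_lit 0x100010002c0017001600080000000000000000000000000000000) (nat_lit 0x0) (nat_lit 0x200020000000000000000100000000000000000000000000000000000) := D_37 (nat_lit 209) (nat_lit 225) (nat_lit 140) (nat_lit 5) (nat_lit 5) (nat_lit 9) (nat_lit 4) (nat_lit 5) (nat_lit 12) (by decide +kernel)
theorem L96976 : W_37 (nat_lit 3) (nat_lit 0x100000002c0017001600080000000000000000000000000000000) (nat_lit 0x0) (nat_lit 0x200020001000000000000100020000000000000000000000000000000) := T_37 (nat_lit 192) (nat_lit 125) (nat_lit 6) (nat_lit 5) (nat_lit 11) L96975 (by decide +kernel)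
theorem L96977 : W_37 (nat_lit 4) (nat_lit 0x10000000240017001600080000000000000000000000000000000) (nat_lit 0x0) (nat_lit 0x200020001000180000000100020000000000000000000000000000000) := T_37 (nat_lit 175) (nat_lit 176) (nat_lit 0) (nat_lit 7) (nat_lit 10) L96976 (by decide +kernel)
theorem L96978 : W_37 (nat_lit 5) (nat_lit 0x10000000240016001600080000000000000000000000000000000) (nat_lit 0x0) (nat_lit 0x200020001000180001800100020000000000000000000000000000000) := T_37 (nat_lit 156) (nat_lit 155) (nat_lit 2) (nat_lit 2) (nat_lit 9) L96977 (by decide +kernel)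
theorem L96979 : W_37 (nat_lit 6) (nat_lit 0x240016001600080000000000000000000000000000000) (nat_lit 0x0) (nat_lit 0x200030001800180001800100020000000000000000000000000000000) := T_37 (nat_lit 208) (nat_lit 191) (nat_lit 6) (nat_lit 4) (nat_lit 12) L96978 (by decide +kernel)
theorem L96980 : W_37 (nat_lit 7) (nat_lit 0x240016001200080000000000000000000000000000000) (nat_lit 0x0) (nat_lit 0x200030001800180001800d00020000000000000000000000000000000) := T_37 (nat_lit 142) (nat_lit 143) (nat_lit 1) (nat_lit 8) (nat_lit 8) L96979 (by decide +kernel)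
theorem L96981 : W_37 (nat_lit 8) (nat_lit 0x200016001200080000000000000000000000000000000) (nat_lit 0x0) (nat_lit 0x6000300018001c0001800d00030000800000000000000000000000000) := Q_37 (nat_lit 174) (C_37 L96960 (C_37 L96962 (C_37 L96968 (C_37 L96971 (C_37 L96974 (C_37 L96980 N_37)))))) (by decide +kernel)
theorem L96982 : W_37 (nat_lit 2) (nat_lit 0x24001f001300080000000000000000000000000000000) (nat_lit 0x0) (nat_lit 0xc00400000000000000000000000000000000000) := D_37 (nat_lit 155) (nat_lit 142) (nat_lit 154) (nat_lit 2) (nat_lit 2) (nat_lit 9) (nat_lit 2) (nat_lit 1) (nat_lit 9) (by decide +kernel)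
theorem L96983 : W_37 (nat_lit 3) (nat_lit 0x24001e001300080000000000000000000000000000000) (nat_lit 0x0) (nat_lit 0x100001c00400000000000000000000000000000000000) := T_37 (nat_lit 156) (nat_lit 176) (nat_lit 3) (nat_lit 3) (nat_lit 9) L96982 (by decide +kernel)
theorem L96984 : W_37 (nat_lit 4) (nat_lit 0x24001e001200080000000000000000000000000000000) (nat_lit 0x0) (nat_lit 0x100001c00580000000000000000000000000000000000) := T_37 (nat_lit 140) (nat_lit 139) (nat_lit 0) (nat_lit 7) (nat_lit 9) L96983 (by decide +kernel)
theorem L96985 : W_37 (nat_lit 5) (nat_lit 0x240016001200080000000000000000000000000000000) (nat_lit 0x0) (nat_lit 0x120009c00580000000000000000000000000000000000) := T_37 (nat_lit 159) (nat_lit 173) (nat_lit 1) (nat_lit 7) (nat_lit 9) L96984 (by decide +kernel)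
theorem L96986 : W_37 (nat_lit 2) (nat_lit 0x1000000024001f801200080000800000000000000000000000000) (nat_lit 0x0) (nat_lit 0xe0000000000000000000000000000000000) := D_37 (nat_lit 138) (nat_lit 139) (nat_lit 137) (nat_lit 0) (nat_lit 6) (nat_lit 9) (nat_lit 0) (nat_lit 5) (nat_lit 9) (by decide +kernel)
theorem L96987 : W_37 (nat_lit 3) (nat_lit 0x1000000024001f001200080000800000000000000000000000000) (nat_lit 0x0) (nat_lit 0x8004e0000000000000000000000000000000000) := T_37 (nat_lit 155) (nat_lit 142) (nat_lit 2) (nat_lit 2) (nat_lit 9) L96986 (by decide +kernel)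
theorem L96988 : W_37 (nat_lit 4) (nat_lit 0x1000000024001e001200080000800000000000000000000000000) (nat_lit 0x0) (nat_lit 0x1000018004e0000000000000000000000000000000000) := T_37 (nat_lit 156) (nat_lit 176) (nat_lit 3) (nat_lit 3) (nat_lit 9) L96987 (by decide +kernel)
theorem L96989 : W_37 (nat_lit 5) (nat_lit 0x10000000240016001200080000800000000000000000000000000) (nat_lit 0x0) (nat_lit 0x1200098004e0000000000000000000000000000000000) := T_37 (nat_lit 159) (nat_lit 173) (nat_lit 1) (nat_lit 7) (nat_lit 9) L96988 (by decide +kernel)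
theorem L96990 : W_37 (nat_lit 6) (nat_lit 0x240016001200080000800000000000000000000000000) (nat_lit 0x0) (nat_lit 0x100008001200098004e0000000000000000000000000000000000) := T_37 (nat_lit 208) (nat_lit 191) (nat_lit 6) (nat_lit 4) (nat_lit 12) L96989 (by decide +kernel)
theorem L96991 : W_37 (nat_lit 7) (nat_lit 0x240016001200080000000000000000000000000000000) (nat_lit 0x0) (nat_lit 0x100008001200098004e0010000800000000000000000000000000) := T_37 (nat_lit 107) (nat_lit 124) (nat_lit 5) (nat_lit 5) (nat_lit 6) L96990 (by decide +kernel)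
theorem L96992 : W_37 (nat_lit 8) (nat_lit 0x200016001200080000000000000000000000000000000) (nat_lit 0x0) (nat_lit 0x10000800160009c005e0010000800000000000000000000000000) := Q_37 (nat_lit 174) (C_37 L96962 (C_37 L96985 (C_37 L96991 N_37))) (by decide +kernel)
theorem L96993 : W_37 (nat_lit 2) (nat_lit 0x24001f001200080000000000000000000000000000000) (nat_lit 0x0) (nat_lit 0x1c0000000000000000000000000000000000) := D_37 (nat_lit 139) (nat_lit 138) (nat_lit 140) (nat_lit 0) (nat_lit 6) (nat_lit 9) (nat_lit 0) (nat_lit 7) (nat_lit 9) (by decide +kernel)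
theorem L96994 : W_37 (nat_lit 3) (nat_lit 0x24001e001200080000000000000000000000000000000) (nat_lit 0x0) (nat_lit 0x1000010001c0000000000000000000000000000000000) := T_37 (nat_lit 156) (nat_lit 176) (nat_lit 3) (nat_lit 3) (nat_lit 9) L96993 (by decide +kernel)
theorem L96995 : W_37 (nat_lit 4) (nat_lit 0x20001e001200080000000000000000000000000000000) (nat_lit 0x0) (nat_lit 0x1600010001c0000000000000000000000000000000000) := T_37 (nat_lit 174) (nat_lit 173) (nat_lit 1) (nat_lit 7) (nat_lit 9) L96994 (by decide +kernel)
theorem L96996 : W_37 (nat_lit 5) (nat_lit 0x200016001200080000000000000000000000000000000) (nat_lit 0x0) (nat_lit 0x1600090009c0000000000000000000000000000000000) := T_37 (nat_lit 159) (nat_lit 143) (nat_lit 2) (nat_lit 4) (nat_lit 9) L96995 (by decide +kernel)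
theorem L96997 : W_37 (nat_lit 9) (nat_lit 0x200014001200080000000000000000000000000000000) (nat_lit 0x0) (nat_lit 0x6000300018001e000bc00de0030000800000000000000000000000000) := Q_37 (nat_lit 157) (C_37 L96981 (C_37 L96992 (C_37 L63580 (C_37 L96996 N_37)))) (by decide +kernel)
theorem L96998 : W_37 (nat_lit 2) (nat_lit 0x4000380014001200090000000000000000000000000000000) (nat_lit 0x0) (nat_lit 0x8800040000000000000000000000000000000000000000000) := D_37 (nat_lit 174) (nat_lit 195) (nat_lit 191) (nat_lit 3) (nat_lit 4) (nat_lit 10) (nat_lit 5) (nat_lit 5) (nat_lit 7) (by decide +kernel)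
theorem L96999 : W_37 (nat_lit 3) (nat_lit 0x4000280014001200090000000000000000000000000000000) (nat_lit 0x0) (nat_lit 0xa800140000000000000000000000000000000000000000000) := T_37 (nat_lit 176) (nat_lit 193) (nat_lit 7) (nat_lit 5) (nat_lit 7) L96998 (by decide +kernel)
theorem L97000 : W_37 (nat_lit 4) (nat_lit 0x280014001200090000000000000000000000000000000) (nat_lit 0x0) (nat_lit 0xe800140000000800000000000000000000000000000000000) := T_37 (nat_lit 194) (nat_lit 143) (nat_lit 6) (nat_lit 7) (nat_lit 11) L96999 (by decide +kernel)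
theorem L97001 : W_37 (nat_lit 5) (nat_lit 0x280014001200080000000000000000000000000000000) (nat_lit 0x0) (nat_lit 0xe80014000a000800038001c000a0000000000000000000000) := Q_37 (nat_lit 124) (C_37 L51634 (C_37 L63615 (C_37 L62945 (C_37 L97000 N_37)))) (by decide +kernel)
theorem L97002 : W_37 (nat_lit 7) (nat_lit 0x5800280014001200080000000000000000000000000000000) (nat_lit 0x0) (nat_lit 0x2000000013800bc00180008000000000000000000000000000000) := T_37 (nat_lit 140) (nat_lit 123) (nat_lit 4) (nat_lit 5) (nat_lit 11) L36406 (by decide +kernel)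
theorem L97003 : W_37 (nat_lit 8) (nat_lit 0x5000280014001200080000000000000000000000000000000) (nat_lit 0x0) (nat_lit 0x3000080013800bc00180008000000000000000000000000000000) := T_37 (nat_lit 191) (nat_lit 208) (nat_lit 5) (nat_lit 5) (nat_lit 8) L97002 (by decide +kernel)
theorem L97004 : W_37 (nat_lit 9) (nat_lit 0x1000280014001200080000000000000000000000000000000) (nat_lit 0x0) (nat_lit 0x3000480013800bc00980008000000000000000000000000000000) := T_37 (nat_lit 194) (nat_lit 143) (nat_lit 6) (nat_lit 7) (nat_lit 11) L97003 (by decide +kernel)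
theorem L97005 : W_37 (nat_lit 2) (nat_lit 0x7800280014001200080000000000000000000000000000000) (nat_lit 0x0) (nat_lit 0x400100000000000010000000000000000000000000000000) := D_37 (nat_lit 176) (nat_lit 124) (nat_lit 190) (nat_lit 7) (nat_lit 5) (nat_lit 7) (nat_lit 2) (nat_lit 3) (nat_lit 11) (by decide +kernel)
theorem L97006 : W_37 (nat_lit 3) (nat_lit 0x5800280014001200080000000000000000000000000000000) (nat_lit 0x0) (nat_lit 0x40002400100000000000010000000000000000000000000000000) := T_37 (nat_lit 193) (nat_lit 210) (nat_lit 7) (nat_lit 5) (nat_lit 8) L97005 (by decide +kernel)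
theorem L97007 : W_37 (nat_lit 4) (nat_lit 0x1800280014001200080000000000000000000000000000000) (nat_lit 0x0) (nat_lit 0x40006400100000000800010000000000000000000000000000000) := T_37 (nat_lit 194) (nat_lit 143) (nat_lit 6) (nat_lit 7) (nat_lit 11) L97006 (by decide +kernel)
theorem L97008 : W_37 (nat_lit 5) (nat_lit 0x1000280014001200080000000000000000000000000000000) (nat_lit 0x0) (nat_lit 0x50006c00100000000800010000000000000000000000000000000) := T_37 (nat_lit 191) (nat_lit 208) (nat_lit 5) (nat_lit 5) (nat_lit 8) L97007 (by decide +kernel)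
theorem L97009 : W_37 (nat_lit 10) (nat_lit 0x280014001200080000000000000000000000000000000) (nat_lit 0x0) (nat_lit 0x200070007c0013800bc00980018000400000000000000000000000000) := Q_37 (nat_lit 192) (C_37 L63488 (C_37 L97004 (C_37 L64379 (C_37 L97008 N_37)))) (by decide +kernel)
theorem L97010 : W_37 (nat_lit 2) (nat_lit 0x4000380014001200090000800000000000000000000000000) (nat_lit 0x0) (nat_lit 0x8000040002000000000000000000000000000000000000000) := D_37 (nat_lit 174) (nat_lit 157) (nat_lit 195) (nat_lit 5) (nat_lit 5) (nat_lit 6) (nat_lit 3) (nat_lit 4) (nat_lit 10) (by decide +kernel)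
theorem L97011 : W_37 (nat_lit 3) (nat_lit 0x4000380014001200090000000000000000000000000000000) (nat_lit 0x0) (nat_lit 0x800004000a000000000000800000000000000000000000000) := T_37 (nat_lit 107) (nat_lit 159) (nat_lit 7) (nat_lit 5) (nat_lit 6) L97010 (by decide +kernel)
theorem L97012 : W_37 (nat_lit 4) (nat_lit 0x4000280014001200090000000000000000000000000000000) (nat_lit 0x0) (nat_lit 0xa00014000a000000000000800000000000000000000000000) := T_37 (nat_lit 176) (nat_lit 193) (nat_lit 7) (nat_lit 5) (nat_lit 7) L97011 (by decide +kernel)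
theorem L97013 : W_37 (nat_lit 5) (nat_lit 0x280014001200090000000000000000000000000000000) (nat_lit 0x0) (nat_lit 0xe00014000a000800000000800000000000000000000000000) := T_37 (nat_lit 194) (nat_lit 143) (nat_lit 6) (nat_lit 7) (nat_lit 11) L97012 (by decide +kernel)
theorem L97014 : W_37 (nat_lit 6) (nat_lit 0x280014001200080000000000000000000000000000000) (nat_lit 0x0) (nat_lit 0x4000f00014000a000900038001c000a0000000000000000000000) := Q_37 (nat_lit 124) (C_37 L96710 (C_37 L96689 (C_37 L63615 (C_37 L97013 N_37)))) (by decide +kernel)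
theorem L97015 : W_37 (nat_lit 2) (nat_lit 0xf0002800140013000b0000000000000000000000000000000) (nat_lit 0x0) (nat_lit 0x30000000000002000000000000000000000000000000000000000) := D_37 (nat_lit 209) (nat_lit 208) (nat_lit 157) (nat_lit 1) (nat_lit 8) (nat_lit 11) (nat_lit 4) (nat_lit 5) (nat_lit 12) (by decide +kernel)
theorem L97016 : W_37 (nat_lit 3) (nat_lit 0xf0002800140012000b0000000000000000000000000000000) (nat_lit 0x0) (nat_lit 0x30000000000002000100008000000000000000000000000000000) := T_37 (nat_lit 140) (nat_lit 123) (nat_lit 4) (nat_lit 5) (nat_lit 11) L97015 (by decide +kernel)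
theorem L97017 : W_37 (nat_lit 4) (nat_lit 0x70002800140012000b0000000000000000000000000000000) (nat_lit 0x0) (nat_lit 0x30008000040002000100008000000000000000000000000000000) := T_37 (nat_lit 195) (nat_lit 174) (nat_lit 0) (nat_lit 8) (nat_lit 11) L97016 (by decide +kernel)
theorem L97018 : W_37 (nat_lit 5) (nat_lit 0x30002800140012000b0000000000000000000000000000000) (nat_lit 0x0) (nat_lit 0x3000c000040002000900008000000000000000000000000000000) := T_37 (nat_lit 194) (nat_lit 143) (nat_lit 6) (nat_lit 7) (nat_lit 11) L97017 (by decide +kernel)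
theorem L97019 : W_37 (nat_lit 6) (nat_lit 0x3000280014001200090000000000000000000000000000000) (nat_lit 0x0) (nat_lit 0x3000c000040002000900028001000000000000000000000000000) := T_37 (nat_lit 125) (nat_lit 108) (nat_lit 6) (nat_lit 5) (nat_lit 10) L97018 (by decide +kernel)
theorem L97020 : W_37 (nat_lit 7) (nat_lit 0x3000280014001200080000000000000000000000000000000) (nat_lit 0x0) (nat_lit 0x3000c000140002000900038001000000000000000000000000000) := T_37 (nat_lit 124) (nat_lit 176) (nat_lit 7) (nat_lit 5) (nat_lit 7) L97019 (by decide +kernel)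
theorem L97021 : W_37 (nat_lit 8) (nat_lit 0x1000280014001200080000000000000000000000000000000) (nat_lit 0x0) (nat_lit 0x7000e000140002000900038001000000000000000000000000000) := T_37 (nat_lit 193) (nat_lit 210) (nat_lit 7) (nat_lit 5) (nat_lit 8) L97020 (by decide +kernel)
theorem L97022 : W_37 (nat_lit 10) (nat_lit 0x280014001200080000000000000000000000000000000) (nat_lit 0x0) (nat_lit 0x20007000fc0017800bc00980038001800000000000000000000000000) := Q_37 (nat_lit 192) (C_37 L97008 (C_37 L97004 (C_37 L63488 (C_37 L97021 (C_37 L96511 N_37))))) (by decide +kernel)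
theorem L97023 : W_37 (nat_lit 2) (nat_lit 0xf000280014001300080000000000000000000000000000000) (nat_lit 0x0) (nat_lit 0x30000000000002000000000000000000000000000000000000000) := D_37 (nat_lit 209) (nat_lit 208) (nat_lit 157) (nat_lit 1) (nat_lit 8) (nat_lit 11) (nat_lit 4) (nat_lit 5) (nat_lit 12) (by decide +kernel)
theorem L97024 : W_37 (nat_lit 3) (nat_lit 0xf000280014001200080000000000000000000000000000000) (nat_lit 0x0) (nat_lit 0x30000000000002000100008000000000000000000000000000000) := T_37 (nat_lit 140) (nat_lit 123) (nat_lit 4) (nat_lit 5) (nat_lit 11) L97023 (by decide +kernel)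
theorem L97025 : W_37 (nat_lit 4) (nat_lit 0x7000280014001200080000000000000000000000000000000) (nat_lit 0x0) (nat_lit 0x30008000040002000100008000000000000000000000000000000) := T_37 (nat_lit 195) (nat_lit 174) (nat_lit 0) (nat_lit 8) (nat_lit 11) L97024 (by decide +kernel)
theorem L97026 : W_37 (nat_lit 5) (nat_lit 0x5000280014001200080000000000000000000000000000000) (nat_lit 0x0) (nat_lit 0x7000a000040002000100008000000000000000000000000000000) := T_37 (nat_lit 193) (nat_lit 210) (nat_lit 7) (nat_lit 5) (nat_lit 8) L97025 (by decide +kernel)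
theorem L97027 : W_37 (nat_lit 6) (nat_lit 0x1000280014001200080000000000000000000000000000000) (nat_lit 0x0) (nat_lit 0x7000e000040002000900008000000000000000000000000000000) := T_37 (nat_lit 194) (nat_lit 143) (nat_lit 6) (nat_lit 7) (nat_lit 11) L97026 (by decide +kernel)
theorem L97028 : W_37 (nat_lit 3) (nat_lit 0x5800280014001300080000000000000000000000000000000) (nat_lit 0x0) (nat_lit 0x4000a000060000000000000000000000000000000000000000000) := T_37 (nat_lit 193) (nat_lit 210) (nat_lit 7) (nat_lit 5) (nat_lit 8) L36116 (by decide +kernel)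
theorem L97029 : W_37 (nat_lit 4) (nat_lit 0x1800280014001300080000000000000000000000000000000) (nat_lit 0x0) (nat_lit 0x4000e000060000000800000000000000000000000000000000000) := T_37 (nat_lit 194) (nat_lit 143) (nat_lit 6) (nat_lit 7) (nat_lit 11) L97028 (by decide +kernel)
theorem L97030 : W_37 (nat_lit 5) (nat_lit 0x1000280014001300080000000000000000000000000000000) (nat_lit 0x0) (nat_lit 0x5000e800060000000800000000000000000000000000000000000) := T_37 (nat_lit 191) (nat_lit 208) (nat_lit 5) (nat_lit 5) (nat_lit 8) L97029 (by decide +kernel)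
theorem L97031 : W_37 (nat_lit 6) (nat_lit 0x1000280014001200080000000000000000000000000000000) (nat_lit 0x0) (nat_lit 0x5000e800060000000900008000000000000000000000000000000) := T_37 (nat_lit 140) (nat_lit 123) (nat_lit 4) (nat_lit 5) (nat_lit 11) L97030 (by decide +kernel)
theorem L97032 : W_37 (nat_lit 2) (nat_lit 0x12000f000280014001300080000000000000000000000000000000) (nat_lit 0x0) (nat_lit 0x2000080000800000000000000000000000000000000000000000000000) := D_37 (nat_lit 211) (nat_lit 191) (nat_lit 229) (nat_lit 3) (nat_lit 4) (nat_lit 11) (nat_lit 7) (nat_lit 7) (nat_lit 9) (by decide +kernel)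
theorem L97033 : W_37 (nat_lit 3) (nat_lit 0x2000f000280014001300080000000000000000000000000000000) (nat_lit 0x0) (nat_lit 0x2000380000800000000000000000000000000000000000000000000000) := T_37 (nat_lit 212) (nat_lit 213) (nat_lit 3) (nat_lit 5) (nat_lit 11) L97032 (by decide +kernel)
theorem L97034 : W_37 (nat_lit 4) (nat_lit 0xf000280014001300080000000000000000000000000000000) (nat_lit 0x0) (nat_lit 0x20003a0000800000002000000000000000000000000000000000000000) := T_37 (nat_lit 209) (nat_lit 157) (nat_lit 4) (nat_lit 5) (nat_lit 12) L97033 (by decide +kernel)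
theorem L97035 : W_37 (nat_lit 5) (nat_lit 0x7000280014001300080000000000000000000000000000000) (nat_lit 0x0) (nat_lit 0x20003a0008800040002000000000000000000000000000000000000000) := T_37 (nat_lit 195) (nat_lit 174) (nat_lit 0) (nat_lit 8) (nat_lit 11) L97034 (by decide +kernel)
theorem L97036 : W_37 (nat_lit 6) (nat_lit 0x3000280014001300080000000000000000000000000000000) (nat_lit 0x0) (nat_lit 0x20003a000c800040002000800000000000000000000000000000000000) := T_37 (nat_lit 194) (nat_lit 143) (nat_lit 6) (nat_lit 7) (nat_lit 11) L97035 (by decide +kernel)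
theorem L97037 : W_37 (nat_lit 7) (nat_lit 0x3000280014001200080000000000000000000000000000000) (nat_lit 0x0) (nat_lit 0x20003a000c800040002000900008000000000000000000000000000000) := T_37 (nat_lit 140) (nat_lit 123) (nat_lit 4) (nat_lit 5) (nat_lit 11) L97036 (by decide +kernel)
theorem L97038 : W_37 (nat_lit 8) (nat_lit 0x1000280014001200080000000000000000000000000000000) (nat_lit 0x0) (nat_lit 0x20003e000e800040002000900008000000000000000000000000000000) := T_37 (nat_lit 193) (nat_lit 210) (nat_lit 7) (nat_lit 5) (nat_lit 8) L97037 (by decide +kernel)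
theorem L97039 : W_37 (nat_lit 2) (nat_lit 0x8003c002a0014001200080000000000000000000000000000000) (nat_lit 0x0) (nat_lit 0x4000040000000800000000000000000000000000000000000) := D_37 (nat_lit 194) (nat_lit 143) (nat_lit 174) (nat_lit 6) (nat_lit 7) (nat_lit 11) (nat_lit 0) (nat_lit 7) (nat_lit 11) (by decide +kernel)
theorem L97040 : W_37 (nat_lit 3) (nat_lit 0x8003c00280014001200080000000000000000000000000000000) (nat_lit 0x0) (nat_lit 0x4000070000000800000000000000000000000000000000000) := T_37 (nat_lit 173) (nat_lit 172) (nat_lit 0) (nat_lit 6) (nat_lit 11) L97039 (by decide +kernel)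
theorem L97041 : W_37 (nat_lit 4) (nat_lit 0x3c00280014001200080000000000000000000000000000000) (nat_lit 0x0) (nat_lit 0xc004000070000000800000000000000000000000000000000000) := T_37 (nat_lit 207) (nat_lit 206) (nat_lit 1) (nat_lit 6) (nat_lit 11) L97040 (by decide +kernel)
theorem L97042 : W_37 (nat_lit 5) (nat_lit 0x3800280014001200080000000000000000000000000000000) (nat_lit 0x0) (nat_lit 0xc004400170000000800000000000000000000000000000000000) := T_37 (nat_lit 190) (nat_lit 176) (nat_lit 2) (nat_lit 3) (nat_lit 11) L97041 (by decide +kernel)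
theorem L97043 : W_37 (nat_lit 6) (nat_lit 0x1800280014001200080000000000000000000000000000000) (nat_lit 0x0) (nat_lit 0x4c006400170000000800000000000000000000000000000000000) := T_37 (nat_lit 193) (nat_lit 210) (nat_lit 7) (nat_lit 5) (nat_lit 8) L97042 (by decide +kernel)
theorem L97044 : W_37 (nat_lit 7) (nat_lit 0x1000280014001200080000000000000000000000000000000) (nat_lit 0x0) (nat_lit 0x5c006c00170000000800000000000000000000000000000000000) := T_37 (nat_lit 191) (nat_lit 208) (nat_lit 5) (nat_lit 5) (nat_lit 8) L97043 (by decide +kernel)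
theorem L97045 : W_37 (nat_lit 10) (nat_lit 0x280014001200080000000000000000000000000000000) (nat_lit 0x0) (nat_lit 0x22003fc00fc0017800bc00980008000000000000000000000000000000) := Q_37 (nat_lit 192) (C_37 L63488 (C_37 L97004 (C_37 L97027 (C_37 L97031 (C_37 L97038 (C_37 L97044 N_37)))))) (by decide +kernel)
theorem L97046 : W_37 (nat_lit 6) (nat_lit 0x280014001200080000000000000000000000000000000) (nat_lit 0x0) (nat_lit 0xe80014000a000800030001800080000000000000000000000) := Q_37 (nat_lit 124) (C_37 L97000 (C_37 L51634 (C_37 L97013 (C_37 L63615 N_37)))) (by decide +kernel)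
theorem L97047 : W_37 (nat_lit 11) (nat_lit 0x200014001200080000000000000000000000000000000) (nat_lit 0x0) (nat_lit 0x22003fc00fc001f800bc00980038001c000a0000000000000000000000) := Q_37 (nat_lit 175) (C_37 L96711 (C_37 L96821 (C_37 L97001 (C_37 L97009 (C_37 L97014 (C_37 L97022 (C_37 L97045 (C_37 L97046 N_37)))))))) (by decide +kernel)
theorem L97048 : W_37 (nat_lit 2) (nat_lit 0x200014001a00090000000000000000000000000000000) (nat_lit 0x0) (nat_lit 0x400108000000000000000000000000000000) := D_37 (nat_lit 142) (nat_lit 123) (nat_lit 128) (nat_lit 0) (nat_lit 8) (nat_lit 8) (nat_lit 2) (nat_lit 5) (nat_lit 8) (by decide +kernel)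
theorem L97049 : W_37 (nat_lit 3) (nat_lit 0x200014001200090000000000000000000000000000000) (nat_lit 0x0) (nat_lit 0x4000000000000c00108000000000000000000000000000000) := T_37 (nat_lit 143) (nat_lit 194) (nat_lit 6) (nat_lit 7) (nat_lit 11) L97048 (by decide +kernel)
theorem L97050 : W_37 (nat_lit 8) (nat_lit 0x200014001200090000000000000000000000000000000) (nat_lit 0x0) (nat_lit 0x300038001c0008000500028001c000c0006000000000000000000) := Q_37 (nat_lit 175) (C_37 L96766 (C_37 L63615 (C_37 L96718 (C_37 L96728 N_37)))) (by decide +kernel)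
theorem L97051 : W_37 (nat_lit 2) (nat_lit 0x4000200014001200090001c00000000000000000000000000) (nat_lit 0x0) (nat_lit 0x80000000000028000000000000000000000000000000) := D_37 (nat_lit 175) (nat_lit 125) (nat_lit 123) (nat_lit 6) (nat_lit 5) (nat_lit 10) (nat_lit 4) (nat_lit 5) (nat_lit 10) (by decide +kernel)
theorem L97052 : W_37 (nat_lit 3) (nat_lit 0x4000200014001200090001800000000000000000000000000) (nat_lit 0x0) (nat_lit 0x80000000000028000400020000000000000000000000) := T_37 (nat_lit 106) (nat_lit 89) (nat_lit 4) (nat_lit 5) (nat_lit 9) L97051 (by decide +kernel)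
theorem L97053 : W_37 (nat_lit 4) (nat_lit 0x4000200014001200090000800000000000000000000000000) (nat_lit 0x0) (nat_lit 0x800000000000280014000a0000000000000000000000) := T_37 (nat_lit 108) (nat_lit 91) (nat_lit 6) (nat_lit 5) (nat_lit 9) L97052 (by decide +kernel)
theorem L97054 : W_37 (nat_lit 5) (nat_lit 0x200014001200090000800000000000000000000000000) (nat_lit 0x0) (nat_lit 0x40000800000008000280014000a0000000000000000000000) := T_37 (nat_lit 194) (nat_lit 143) (nat_lit 6) (nat_lit 7) (nat_lit 11) L97053 (by decide +kernel)
theorem L97055 : W_37 (nat_lit 2) (nat_lit 0x28001c001200090001800000000000000000000000000) (nat_lit 0x0) (nat_lit 0x8000400020000000000000000000000) := D_37 (nat_lit 106) (nat_lit 89) (nat_lit 123) (nat_lit 4) (nat_lit 5) (nat_lit 9) (nat_lit 4) (nat_lit 5) (nat_lit 10) (by decide +kernel)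
theorem L97056 : W_37 (nat_lit 3) (nat_lit 0x20001c001200090001800000000000000000000000000) (nat_lit 0x0) (nat_lit 0x80000000000028000400020000000000000000000000) := T_37 (nat_lit 175) (nat_lit 125) (nat_lit 6) (nat_lit 5) (nat_lit 10) L97055 (by decide +kernel)
theorem L97057 : W_37 (nat_lit 4) (nat_lit 0x200014001200090001800000000000000000000000000) (nat_lit 0x0) (nat_lit 0x180008000000028000400020000000000000000000000) := T_37 (nat_lit 159) (nat_lit 176) (nat_lit 7) (nat_lit 5) (nat_lit 6) L97056 (by decide +kernel)
theorem L97058 : W_37 (nat_lit 5) (nat_lit 0x200014001200090000800000000000000000000000000) (nat_lit 0x0) (nat_lit 0x1800080000000280014000a0000000000000000000000) := T_37 (nat_lit 108) (nat_lit 91) (nat_lit 6) (nat_lit 5) (nat_lit 9) L97057 (by decide +kernel)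
theorem L97059 : W_37 (nat_lit 2) (nat_lit 0x20001c001a00094003e00208000000000000000000000) (nat_lit 0x0) (nat_lit 0x20000100004000000000000000000000) := D_37 (nat_lit 104) (nat_lit 125) (nat_lit 86) (nat_lit 3) (nat_lit 2) (nat_lit 6) (nat_lit 0) (nat_lit 5) (nat_lit 6) (by decide +kernel)
theorem L97060 : W_37 (nat_lit 3) (nat_lit 0x20001c001a00094003e00200000000000000000000000) (nat_lit 0x0) (nat_lit 0x2000010001c000000000000000000000) := T_37 (nat_lit 87) (nat_lit 88) (nat_lit 0) (nat_lit 6) (nat_lit 6) L97059 (by decide +kernel)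
theorem L97061 : W_37 (nat_lit 4) (nat_lit 0x20001c001a00094003c00200000000000000000000000) (nat_lit 0x0) (nat_lit 0x2200030001c000000000000000000000) := T_37 (nat_lit 105) (nat_lit 121) (nat_lit 1) (nat_lit 6) (nat_lit 6) L97060 (by decide +kernel)
theorem L97062 : W_37 (nat_lit 5) (nat_lit 0x20001c001a00090003c00200000000000000000000000) (nat_lit 0x0) (nat_lit 0x2e00030001c000000000000000000000) := T_37 (nat_lit 122) (nat_lit 123) (nat_lit 1) (nat_lit 7) (nat_lit 6) L97061 (by decide +kernel)
theorem L97063 : W_37 (nat_lit 6) (nat_lit 0x20001c001a00090001c00200000000000000000000000) (nat_lit 0x0) (nat_lit 0x2e00230011c000000000000000000000) := T_37 (nat_lit 109) (nat_lit 92) (nat_lit 2) (nat_lit 4) (nat_lit 6) L97062 (by decide +kernel)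
theorem L97064 : W_37 (nat_lit 7) (nat_lit 0x20001c001a00090000c00200000000000000000000000) (nat_lit 0x0) (nat_lit 0x2e00330019c000000000000000000000) := T_37 (nat_lit 108) (nat_lit 91) (nat_lit 6) (nat_lit 5) (nat_lit 9) L97063 (by decide +kernel)
theorem L97065 : W_37 (nat_lit 8) (nat_lit 0x20001c001a00090000c00000000000000000000000000) (nat_lit 0x0) (nat_lit 0x2e00730039c000000000000000000000) := T_37 (nat_lit 93) (nat_lit 110) (nat_lit 5) (nat_lit 8) (nat_lit 5) L97064 (by decide +kernel)
theorem L97066 : W_37 (nat_lit 9) (nat_lit 0x200014001a00090000c00000000000000000000000000) (nat_lit 0x0) (nat_lit 0x10000800000002e00730039c000000000000000000000) := T_37 (nat_lit 159) (nat_lit 176) (nat_lit 7) (nat_lit 5) (nat_lit 6) L97065 (by decide +kernel)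
theorem L97067 : W_37 (nat_lit 10) (nat_lit 0x200014001200090000c00000000000000000000000000) (nat_lit 0x0) (nat_lit 0x400010000800080002e00730039c000000000000000000000) := T_37 (nat_lit 143) (nat_lit 194) (nat_lit 6) (nat_lit 7) (nat_lit 11) L97066 (by decide +kernel)
theorem L97068 : W_37 (nat_lit 11) (nat_lit 0x200014001200090000800000000000000000000000000) (nat_lit 0x0) (nat_lit 0x400010000800080002e0077003bc000000000000000000000) := T_37 (nat_lit 106) (nat_lit 89) (nat_lit 4) (nat_lit 5) (nat_lit 9) L97067 (by decide +kernel)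
theorem L97069 : W_37 (nat_lit 2) (nat_lit 0x4000280014001200090000c00000000000000000000000000) (nat_lit 0x0) (nat_lit 0x2000100008000000000000000000000000000000000000000) := D_37 (nat_lit 176) (nat_lit 159) (nat_lit 193) (nat_lit 7) (nat_lit 5) (nat_lit 6) (nat_lit 7) (nat_lit 5) (nat_lit 7) (by decide +kernel)
theorem L97070 : W_37 (nat_lit 3) (nat_lit 0x4000200014001200090000c00000000000000000000000000) (nat_lit 0x0) (nat_lit 0x2000180008000000008000000000000000000000000000000) := T_37 (nat_lit 175) (nat_lit 123) (nat_lit 4) (nat_lit 5) (nat_lit 10) L97069 (by decide +kernel)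
theorem L97071 : W_37 (nat_lit 4) (nat_lit 0x200014001200090000c00000000000000000000000000) (nat_lit 0x0) (nat_lit 0x6000180008000800008000000000000000000000000000000) := T_37 (nat_lit 194) (nat_lit 143) (nat_lit 6) (nat_lit 7) (nat_lit 11) L97070 (by decide +kernel)
theorem L97072 : W_37 (nat_lit 5) (nat_lit 0x200014001200090000800000000000000000000000000) (nat_lit 0x0) (nat_lit 0x6000180008000800008000400020000000000000000000000) := T_37 (nat_lit 106) (nat_lit 89) (nat_lit 4) (nat_lit 5) (nat_lit 9) L97071 (by decide +kernel)
theorem L97073 : W_37 (nat_lit 2) (nat_lit 0x50002d001c00120009a001800000000000000000000000000) (nat_lit 0x0) (nat_lit 0x4000a000000000000000000000000000000000000000000000000) := D_37 (nat_lit 193) (nat_lit 195) (nat_lit 210) (nat_lit 0) (nat_lit 8) (nat_lit 11) (nat_lit 7) (nat_lit 5) (nat_lit 8) (by decide +kernel)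
theorem L97074 : W_37 (nat_lit 3) (nat_lit 0x40002d001c00120009a001800000000000000000000000000) (nat_lit 0x0) (nat_lit 0x4000b000000000000100000000000000000000000000000000000) := T_37 (nat_lit 192) (nat_lit 140) (nat_lit 4) (nat_lit 5) (nat_lit 11) L97073 (by decide +kernel)
theorem L97075 : W_37 (nat_lit 4) (nat_lit 0x40002d001c001200098001800000000000000000000000000) (nat_lit 0x0) (nat_lit 0x4000b000000000000100006000000000000000000000000000000) := T_37 (nat_lit 121) (nat_lit 122) (nat_lit 2) (nat_lit 2) (nat_lit 7) L97074 (by decide +kernel)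
theorem L97076 : W_37 (nat_lit 5) (nat_lit 0x40002d001c001200090001800000000000000000000000000) (nat_lit 0x0) (nat_lit 0x4000b00000000000010000e000400000000000000000000000000) := T_37 (nat_lit 123) (nat_lit 106) (nat_lit 4) (nat_lit 5) (nat_lit 10) L97075 (by decide +kernel)
theorem L97077 : W_37 (nat_lit 6) (nat_lit 0x40002c001c001200090001800000000000000000000000000) (nat_lit 0x0) (nat_lit 0x4000b00003000000010000e000400000000000000000000000000) := T_37 (nat_lit 172) (nat_lit 173) (nat_lit 2) (nat_lit 2) (nat_lit 10) L97076 (by decide +kernel)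
theorem L97078 : W_37 (nat_lit 7) (nat_lit 0x400028001c001200090001800000000000000000000000000) (nat_lit 0x0) (nat_lit 0x4000b80007000000010000e000400000000000000000000000000) := T_37 (nat_lit 174) (nat_lit 191) (nat_lit 5) (nat_lit 5) (nat_lit 7) L97077 (by decide +kernel)
theorem L97079 : W_37 (nat_lit 8) (nat_lit 0x400020001c001200090001800000000000000000000000000) (nat_lit 0x0) (nat_lit 0x4000b8000f000000010002e000400000000000000000000000000) := T_37 (nat_lit 175) (nat_lit 125) (nat_lit 6) (nat_lit 5) (nat_lit 10) L97078 (by decide +kernel)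
theorem L97080 : W_37 (nat_lit 9) (nat_lit 0x400020001c001200090000800000000000000000000000000) (nat_lit 0x0) (nat_lit 0x4000b8000f000000010002e001400080000000000000000000000) := T_37 (nat_lit 108) (nat_lit 91) (nat_lit 6) (nat_lit 5) (nat_lit 9) L97079 (by decide +kernel)
theorem L97081 : W_37 (nat_lit 10) (nat_lit 0x20001c001200090000800000000000000000000000000) (nat_lit 0x0) (nat_lit 0x4000f8000f000000090002e001400080000000000000000000000) := T_37 (nat_lit 194) (nat_lit 143) (nat_lit 6) (nat_lit 7) (nat_lit 11) L97080 (by decide +kernel)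
theorem L97082 : W_37 (nat_lit 11) (nat_lit 0x200014001200090000800000000000000000000000000) (nat_lit 0x0) (nat_lit 0x4000f8001f000800090002e001400080000000000000000000000) := T_37 (nat_lit 159) (nat_lit 176) (nat_lit 7) (nat_lit 5) (nat_lit 6) L97081 (by decide +kernel)
theorem L97083 : W_37 (nat_lit 2) (nat_lit 0x2d001c001a00090005800000000000000000000000000) (nat_lit 0x0) (nat_lit 0x108002000000000000000000000000000) := D_37 (nat_lit 109) (nat_lit 128) (nat_lit 123) (nat_lit 3) (nat_lit 5) (nat_lit 6) (nat_lit 1) (nat_lit 8) (nat_lit 6) (by decide +kernel)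
theorem L97084 : W_37 (nat_lit 3) (nat_lit 0x2d001c001a00090001800000000000000000000000000) (nat_lit 0x0) (nat_lit 0x108006000200000000000000000000000) := T_37 (nat_lit 110) (nat_lit 93) (nat_lit 5) (nat_lit 8) (nat_lit 5) L97083 (by decide +kernel)
theorem L97085 : W_37 (nat_lit 4) (nat_lit 0x2d001c001200090001800000000000000000000000000) (nat_lit 0x0) (nat_lit 0x4000000000000800108006000200000000000000000000000) := T_37 (nat_lit 143) (nat_lit 194) (nat_lit 6) (nat_lit 7) (nat_lit 11) L97084 (by decide +kernel)
theorem L97086 : W_37 (nat_lit 5) (nat_lit 0x2c001c001200090001800000000000000000000000000) (nat_lit 0x0) (nat_lit 0x4000030000000800108006000200000000000000000000000) := T_37 (nat_lit 172) (nat_lit 173) (nat_lit 2) (nat_lit 2) (nat_lit 10) L97085 (by decide +kernel)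
theorem L97087 : W_37 (nat_lit 6) (nat_lit 0x28001c001200090001800000000000000000000000000) (nat_lit 0x0) (nat_lit 0x4800070000000800108006000200000000000000000000000) := T_37 (nat_lit 174) (nat_lit 191) (nat_lit 5) (nat_lit 5) (nat_lit 7) L97086 (by decide +kernel)
theorem L97088 : W_37 (nat_lit 7) (nat_lit 0x20001c001200090001800000000000000000000000000) (nat_lit 0x0) (nat_lit 0x48000f0000000800128006000200000000000000000000000) := T_37 (nat_lit 175) (nat_lit 125) (nat_lit 6) (nat_lit 5) (nat_lit 10) L97087 (by decide +kernel)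
theorem L97089 : W_37 (nat_lit 8) (nat_lit 0x200014001200090001800000000000000000000000000) (nat_lit 0x0) (nat_lit 0x48001f0008000800128006000200000000000000000000000) := T_37 (nat_lit 159) (nat_lit 176) (nat_lit 7) (nat_lit 5) (nat_lit 6) L97088 (by decide +kernel)
theorem L97090 : W_37 (nat_lit 9) (nat_lit 0x200014001200090000800000000000000000000000000) (nat_lit 0x0) (nat_lit 0x48001f0008000800128007000280000000000000000000000) := T_37 (nat_lit 108) (nat_lit 91) (nat_lit 6) (nat_lit 5) (nat_lit 9) L97089 (by decide +kernel)
theorem L97091 : W_37 (nat_lit 2) (nat_lit 0x4000580028001c001200090001c00000000000000000000000000) (nat_lit 0x0) (nat_lit 0x8000a0000000000000000000000000000000000000000000000000000) := D_37 (nat_lit 227) (nat_lit 211) (nat_lit 209) (nat_lit 5) (nat_lit 7) (nat_lit 9) (nat_lit 7) (nat_lit 5) (nat_lit 9) (by decide +kernel)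
theorem L97092 : W_37 (nat_lit 3) (nat_lit 0x580028001c001200090001c00000000000000000000000000) (nat_lit 0x0) (nat_lit 0x8000e0002000000000000000000000000000000000000000000000000) := T_37 (nat_lit 210) (nat_lit 193) (nat_lit 7) (nat_lit 5) (nat_lit 8) L97091 (by decide +kernel)
theorem L97093 : W_37 (nat_lit 4) (nat_lit 0x480028001c001200090001c00000000000000000000000000) (nat_lit 0x0) (nat_lit 0x8000f0003000000000000000000000000000000000000000000000000) := T_37 (nat_lit 192) (nat_lit 208) (nat_lit 5) (nat_lit 5) (nat_lit 8) L97092 (by decide +kernel)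
theorem L97094 : W_37 (nat_lit 5) (nat_lit 0x400028001c001200090001c00000000000000000000000000) (nat_lit 0x0) (nat_lit 0x8000f0003800040000000000000000000000000000000000000000000) := T_37 (nat_lit 191) (nat_lit 174) (nat_lit 5) (nat_lit 5) (nat_lit 7) L97093 (by decide +kernel)
theorem L97095 : W_37 (nat_lit 6) (nat_lit 0x400020001c001200090001c00000000000000000000000000) (nat_lit 0x0) (nat_lit 0x8000f00038000c0000000000020000000000000000000000000000000) := T_37 (nat_lit 175) (nat_lit 125) (nat_lit 6) (nat_lit 5) (nat_lit 10) L97094 (by decide +kernel)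
theorem L97096 : W_37 (nat_lit 7) (nat_lit 0x400020001c001200090000c00000000000000000000000000) (nat_lit 0x0) (nat_lit 0x8000f00038000c0000000000020001000080000000000000000000000) := T_37 (nat_lit 108) (nat_lit 91) (nat_lit 6) (nat_lit 5) (nat_lit 9) L97095 (by decide +kernel)
theorem L97097 : W_37 (nat_lit 8) (nat_lit 0x4000200014001200090000c00000000000000000000000000) (nat_lit 0x0) (nat_lit 0x8000f00038001c0008000000020001000080000000000000000000000) := T_37 (nat_lit 159) (nat_lit 176) (nat_lit 7) (nat_lit 5) (nat_lit 6) L97096 (by decide +kernel)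
theorem L97098 : W_37 (nat_lit 9) (nat_lit 0x4000200014001200090000800000000000000000000000000) (nat_lit 0x0) (nat_lit 0x8000f00038001c00080000000200014000a0000000000000000000000) := T_37 (nat_lit 106) (nat_lit 89) (nat_lit 4) (nat_lit 5) (nat_lit 9) L97097 (by decide +kernel)
theorem L97099 : W_37 (nat_lit 10) (nat_lit 0x200014001200090000800000000000000000000000000) (nat_lit 0x0) (nat_lit 0x8000f00078001c00080008000200014000a0000000000000000000000) := T_37 (nat_lit 194) (nat_lit 143) (nat_lit 6) (nat_lit 7) (nat_lit 11) L97098 (by decide +kernel)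
theorem L97100 : W_37 (nat_lit 12) (nat_lit 0x200014001200090000000000000000000000000000000) (nat_lit 0x0) (nat_lit 0x8000f000f8001f000800090012e007f003bc000000000000000000000) := Q_37 (nat_lit 107) (C_37 L97054 (C_37 L97058 (C_37 L97068 (C_37 L97072 (C_37 L97082 (C_37 L97090 (C_37 L97099 N_37))))))) (by decide +kernel)
theorem L97101 : W_37 (nat_lit 2) (nat_lit 0x40002c0014001200090001c00000000000000000000000000) (nat_lit 0x0) (nat_lit 0xa000100000000000000000000000000000000000000000000) := D_37 (nat_lit 176) (nat_lit 195) (nat_lit 193) (nat_lit 3) (nat_lit 4) (nat_lit 10) (nat_lit 7) (nat_lit 5) (nat_lit 7) (by decide +kernel)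
theorem L97102 : W_37 (nat_lit 3) (nat_lit 0x4000280014001200090001c00000000000000000000000000) (nat_lit 0x0) (nat_lit 0xa800140000000000000000000000000000000000000000000) := T_37 (nat_lit 174) (nat_lit 191) (nat_lit 5) (nat_lit 5) (nat_lit 7) L97101 (by decide +kernel)
theorem L97103 : W_37 (nat_lit 4) (nat_lit 0x4000200014001200090001c00000000000000000000000000) (nat_lit 0x0) (nat_lit 0xa8001c0000000000020000000000000000000000000000000) := T_37 (nat_lit 175) (nat_lit 125) (nat_lit 6) (nat_lit 5) (nat_lit 10) L97102 (by decide +kernel)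
theorem L97104 : W_37 (nat_lit 5) (nat_lit 0x4000200014001200090001800000000000000000000000000) (nat_lit 0x0) (nat_lit 0xa8001c0000000000020000400020000000000000000000000) := T_37 (nat_lit 106) (nat_lit 89) (nat_lit 4) (nat_lit 5) (nat_lit 9) L97103 (by decide +kernel)
theorem L97105 : W_37 (nat_lit 6) (nat_lit 0x4000200014001200090000800000000000000000000000000) (nat_lit 0x0) (nat_lit 0xa8001c00000000000200014000a0000000000000000000000) := T_37 (nat_lit 108) (nat_lit 91) (nat_lit 6) (nat_lit 5) (nat_lit 9) L97104 (by decide +kernel)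
theorem L97106 : W_37 (nat_lit 7) (nat_lit 0x200014001200090000800000000000000000000000000) (nat_lit 0x0) (nat_lit 0xe8001c00000008000200014000a0000000000000000000000) := T_37 (nat_lit 194) (nat_lit 143) (nat_lit 6) (nat_lit 7) (nat_lit 11) L97105 (by decide +kernel)
theorem L97107 : W_37 (nat_lit 2) (nat_lit 0x20001c001200090001800000000000000000000000000) (nat_lit 0x0) (nat_lit 0x400020000000040000000000000000000000) := D_37 (nat_lit 142) (nat_lit 90) (nat_lit 125) (nat_lit 7) (nat_lit 5) (nat_lit 5) (nat_lit 7) (nat_lit 6) (nat_lit 6) (by decide +kernel)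
theorem L97108 : W_37 (nat_lit 3) (nat_lit 0x200014001200090001800000000000000000000000000) (nat_lit 0x0) (nat_lit 0x100008000400020000000040000000000000000000000) := T_37 (nat_lit 159) (nat_lit 176) (nat_lit 7) (nat_lit 5) (nat_lit 6) L97107 (by decide +kernel)
theorem L97109 : W_37 (nat_lit 4) (nat_lit 0x200014001200090000800000000000000000000000000) (nat_lit 0x0) (nat_lit 0x1000080004000200010000c0000000000000000000000) := T_37 (nat_lit 108) (nat_lit 91) (nat_lit 6) (nat_lit 5) (nat_lit 9) L97108 (by decide +kernel)
theorem L97110 : W_37 (nat_lit 2) (nat_lit 0x40005800280014001200090001c00000000000000000000000000) (nat_lit 0x0) (nat_lit 0x8000a0000000000000000000000000000000000000000000000000000) := D_37 (nat_lit 227) (nat_lit 211) (nat_lit 209) (nat_lit 5) (nat_lit 7) (nat_lit 9) (nat_lit 7) (nat_lit 5) (nat_lit 9) (by decide +kernel)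
theorem L97111 : W_37 (nat_lit 3) (nat_lit 0x5800280014001200090001c00000000000000000000000000) (nat_lit 0x0) (nat_lit 0x8000e0002000000000000000000000000000000000000000000000000) := T_37 (nat_lit 210) (nat_lit 193) (nat_lit 7) (nat_lit 5) (nat_lit 8) L97110 (by decide +kernel)
theorem L97112 : W_37 (nat_lit 4) (nat_lit 0x4800280014001200090001c00000000000000000000000000) (nat_lit 0x0) (nat_lit 0x8000f0003000000000000000000000000000000000000000000000000) := T_37 (nat_lit 192) (nat_lit 208) (nat_lit 5) (nat_lit 5) (nat_lit 8) L97111 (by decide +kernel)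
theorem L97113 : W_37 (nat_lit 5) (nat_lit 0x4800280014001200090001800000000000000000000000000) (nat_lit 0x0) (nat_lit 0x8000f0003000000000000000000000400020000000000000000000000) := T_37 (nat_lit 106) (nat_lit 89) (nat_lit 4) (nat_lit 5) (nat_lit 9) L97112 (by decide +kernel)
theorem L97114 : W_37 (nat_lit 6) (nat_lit 0x4000280014001200090001800000000000000000000000000) (nat_lit 0x0) (nat_lit 0x8000f0003800040000000000000000400020000000000000000000000) := T_37 (nat_lit 191) (nat_lit 174) (nat_lit 5) (nat_lit 5) (nat_lit 7) L97113 (by decide +kernel)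
theorem L97115 : W_37 (nat_lit 7) (nat_lit 0x4000200014001200090001800000000000000000000000000) (nat_lit 0x0) (nat_lit 0x8000f00038000c0000000000020000400020000000000000000000000) := T_37 (nat_lit 175) (nat_lit 125) (nat_lit 6) (nat_lit 5) (nat_lit 10) L97114 (by decide +kernel)
theorem L97116 : W_37 (nat_lit 8) (nat_lit 0x200014001200090001800000000000000000000000000) (nat_lit 0x0) (nat_lit 0x8000f00078000c0000000800020000400020000000000000000000000) := T_37 (nat_lit 194) (nat_lit 143) (nat_lit 6) (nat_lit 7) (nat_lit 11) L97115 (by decide +kernel)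
theorem L97117 : W_37 (nat_lit 9) (nat_lit 0x200014001200090000800000000000000000000000000) (nat_lit 0x0) (nat_lit 0x8000f00078000c00000008000200014000a0000000000000000000000) := T_37 (nat_lit 108) (nat_lit 91) (nat_lit 6) (nat_lit 5) (nat_lit 9) L97116 (by decide +kernel)
theorem L97118 : W_37 (nat_lit 2) (nat_lit 0x400020001c001200090000c00000000000000000000000000) (nat_lit 0x0) (nat_lit 0x80000000000000000400000000000040000000000000000000000) := D_37 (nat_lit 142) (nat_lit 90) (nat_lit 211) (nat_lit 7) (nat_lit 5) (nat_lit 5) (nat_lit 4) (nat_lit 7) (nat_lit 12) (by decide +kernel)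
theorem L97119 : W_37 (nat_lit 3) (nat_lit 0x4000200014001200090000c00000000000000000000000000) (nat_lit 0x0) (nat_lit 0x80000000100008000400000000000040000000000000000000000) := T_37 (nat_lit 159) (nat_lit 176) (nat_lit 7) (nat_lit 5) (nat_lit 6) L97118 (by decide +kernel)
theorem L97120 : W_37 (nat_lit 4) (nat_lit 0x200014001200090000c00000000000000000000000000) (nat_lit 0x0) (nat_lit 0x80004000100008000c00000000000040000000000000000000000) := T_37 (nat_lit 194) (nat_lit 143) (nat_lit 6) (nat_lit 7) (nat_lit 11) L97119 (by decide +kernel)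
theorem L97121 : W_37 (nat_lit 5) (nat_lit 0x200014001200090000800000000000000000000000000) (nat_lit 0x0) (nat_lit 0x80004000100008000c00000000400060000000000000000000000) := T_37 (nat_lit 106) (nat_lit 89) (nat_lit 4) (nat_lit 5) (nat_lit 9) L97120 (by decide +kernel)
theorem L97122 : W_37 (nat_lit 10) (nat_lit 0x200014001200090000000000000000000000000000000) (nat_lit 0x0) (nat_lit 0x8000f000f8001c0008000c00020001c000e0000000000000000000000) := Q_37 (nat_lit 107) (C_37 L97106 (C_37 L97109 (C_37 L97117 (C_37 L97121 N_37)))) (by decide +kernel)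
theorem L97123 : W_37 (nat_lit 13) (nat_lit 0x200014001200080000000000000000000000000000000) (nat_lit 0x0) (nat_lit 0x8000f000f8001f0008000d0013e007f003fc006000000000000000000) := Q_37 (nat_lit 124) (C_37 L97049 (C_37 L97050 (C_37 L97100 (C_37 L97122 N_37)))) (by decide +kernel)
theorem L97124 : W_37 (nat_lit 14) (nat_lit 0x200014001000080000000000000000000000000000000) (nat_lit 0x0) (nat_lit 0x4002e003fc00fc001f800bc00fe013f007f003fc006000000000000000000) := Q_37 (nat_lit 141) (C_37 L96957 (C_37 L64483 (C_37 L96997 (C_37 L97047 (C_37 L97123 N_37))))) (by decide +kernel)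
theorem L97125 : W_37 (nat_lit 2) (nat_lit 0x280008000400020001c001000080000000000000000000000000000000) (nat_lit 0x0) (nat_lit 0x50001000000000000000000000000000000000000000000000000000000000) := D_37 (nat_lit 228) (nat_lit 244) (nat_lit 246) (nat_lit 5) (nat_lit 7) (nat_lit 10) (nat_lit 7) (nat_lit 7) (nat_lit 10) (by decide +kernel)
theorem L97126 : W_37 (nat_lit 3) (nat_lit 0x80008000400020001c001000080000000000000000000000000000000) (nat_lit 0x0) (nat_lit 0x50003000100000000000000000000000000000000000000000000000000000) := T_37 (nat_lit 229) (nat_lit 212) (nat_lit 7) (nat_lit 7) (nat_lit 9) L97125 (by decide +kernel)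
theorem L97127 : W_37 (nat_lit 4) (nat_lit 0x8000400020001c001000080000000000000000000000000000000) (nat_lit 0x0) (nat_lit 0x50003800140000000000000000000000000000000000000000000000000000) := T_37 (nat_lit 227) (nat_lit 210) (nat_lit 5) (nat_lit 7) (nat_lit 9) L97126 (by decide +kernel)
theorem L97128 : W_37 (nat_lit 5) (nat_lit 0x400020001c001000080000000000000000000000000000000) (nat_lit 0x0) (nat_lit 0x500038001c0000000000000000400000000000000000000000000000000000) := T_37 (nat_lit 211) (nat_lit 142) (nat_lit 4) (nat_lit 7) (nat_lit 12) L97127 (by decide +kernel)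
theorem L97129 : W_37 (nat_lit 6) (nat_lit 0x20001c001000080000000000000000000000000000000) (nat_lit 0x0) (nat_lit 0x500038001c0004000000000000c00000000000000000000000000000000000) := T_37 (nat_lit 194) (nat_lit 143) (nat_lit 6) (nat_lit 7) (nat_lit 11) L97128 (by decide +kernel)
theorem L97130 : W_37 (nat_lit 7) (nat_lit 0x200014001000080000000000000000000000000000000) (nat_lit 0x0) (nat_lit 0x500038001c000400047000b000dc0000000000000000000000000000000000) := Q_37 (nat_lit 159) (C_37 L63963 (C_37 L64447 (C_37 L97129 N_37))) (by decide +kernel)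
theorem L97131 : W_37 (nat_lit 2) (nat_lit 0x2c0016001a00080000000200000000000000000000000) (nat_lit 0x0) (nat_lit 0x10000800000000000000010000000000000000000000000000000) := D_37 (nat_lit 191) (nat_lit 208) (nat_lit 124) (nat_lit 6) (nat_lit 4) (nat_lit 12) (nat_lit 5) (nat_lit 5) (nat_lit 7) (by decide +kernel)
theorem L97132 : W_37 (nat_lit 3) (nat_lit 0x2c0016001800080000000200000000000000000000000) (nat_lit 0x0) (nat_lit 0x10000800000000000600010000000000000000000000000000000) := T_37 (nat_lit 141) (nat_lit 142) (nat_lit 1) (nat_lit 8) (nat_lit 8) L97131 (by decide +kernel)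
theorem L97133 : W_37 (nat_lit 4) (nat_lit 0x2c0016001800080000000000000000000000000000000) (nat_lit 0x0) (nat_lit 0x10000800000000000600010004000200000000000000000000000) := T_37 (nat_lit 93) (nat_lit 110) (nat_lit 5) (nat_lit 8) (nat_lit 5) L97132 (by decide +kernel)
theorem L97134 : W_37 (nat_lit 5) (nat_lit 0x2c0016001000080000000000000000000000000000000) (nat_lit 0x0) (nat_lit 0x10004800000000000e00010004000200000000000000000000000) := T_37 (nat_lit 143) (nat_lit 194) (nat_lit 6) (nat_lit 7) (nat_lit 11) L97133 (by decide +kernel)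
theorem L97135 : W_37 (nat_lit 9) (nat_lit 0x280016001000080000000000000000000000000000000) (nat_lit 0x0) (nat_lit 0x70007800ff00178001000e00010004000200000000000000000000000) := Q_37 (nat_lit 174) (C_37 L96605 (C_37 L64320 (C_37 L97134 (C_37 L64313 N_37)))) (by decide +kernel)
theorem L97136 : W_37 (nat_lit 2) (nat_lit 0x30005000280016001200080000000000000000000000000000000) (nat_lit 0x0) (nat_lit 0x4000a000000000000000000000000000000000000000000000000) := D_37 (nat_lit 193) (nat_lit 195) (nat_lit 210) (nat_lit 1) (nat_lit 8) (nat_lit 11) (nat_lit 7) (nat_lit 5) (nat_lit 8) (by decide +kernel)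
theorem L97137 : W_37 (nat_lit 3) (nat_lit 0x30005000280016001000080000000000000000000000000000000) (nat_lit 0x0) (nat_lit 0x4000a800000000000200000000000000000000000000000000000) := T_37 (nat_lit 141) (nat_lit 191) (nat_lit 5) (nat_lit 5) (nat_lit 8) L97136 (by decide +kernel)
theorem L97138 : W_37 (nat_lit 4) (nat_lit 0x20005000280016001000080000000000000000000000000000000) (nat_lit 0x0) (nat_lit 0x20005000a800000000000200000000000000000000000000000000000) := T_37 (nat_lit 208) (nat_lit 225) (nat_lit 5) (nat_lit 5) (nat_lit 9) L97137 (by decide +kernel)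
theorem L97139 : W_37 (nat_lit 5) (nat_lit 0x5000280016001000080000000000000000000000000000000) (nat_lit 0x0) (nat_lit 0x20007000a800000000000300000000000000000000000000000000000) := T_37 (nat_lit 209) (nat_lit 140) (nat_lit 4) (nat_lit 5) (nat_lit 12) L97138 (by decide +kernel)
theorem L97140 : W_37 (nat_lit 6) (nat_lit 0x1000280016001000080000000000000000000000000000000) (nat_lit 0x0) (nat_lit 0x20007000e800000000000b00000000000000000000000000000000000) := T_37 (nat_lit 194) (nat_lit 143) (nat_lit 6) (nat_lit 7) (nat_lit 11) L97139 (by decide +kernel)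
theorem L97141 : W_37 (nat_lit 2) (nat_lit 0x2c0003400d000280016801600080000000000000000000000000000000) (nat_lit 0x0) (nat_lit 0x40000000100000000400000000000000000000000000000000000000000000) := D_37 (nat_lit 212) (nat_lit 178) (nat_lit 246) (nat_lit 4) (nat_lit 8) (nat_lit 13) (nat_lit 4) (nat_lit 8) (nat_lit 14) (by decide +kernel)
theorem L97142 : W_37 (nat_lit 3) (nat_lit 0xc0003400d000280016801600080000000000000000000000000000000) (nat_lit 0x0) (nat_lit 0x40003000100000000400000000000000000000000000000000000000000000) := T_37 (nat_lit 229) (nat_lit 228) (nat_lit 0) (nat_lit 8) (nat_lit 13) L97141 (by decide +kernel)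
theorem L97143 : W_37 (nat_lit 4) (nat_lit 0xc0003000d000280016801600080000000000000000000000000000000) (nat_lit 0x0) (nat_lit 0x4000300010c000000400000000000000000000000000000000000000000000) := T_37 (nat_lit 206) (nat_lit 207) (nat_lit 3) (nat_lit 2) (nat_lit 12) L97142 (by decide +kernel)
theorem L97144 : W_37 (nat_lit 5) (nat_lit 0x40003000d000280016801600080000000000000000000000000000000) (nat_lit 0x0) (nat_lit 0x5000380010c000000400000000000000000000000000000000000000000000) := T_37 (nat_lit 227) (nat_lit 244) (nat_lit 7) (nat_lit 5) (nat_lit 10) L97143 (by decide +kernel)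
theorem L97145 : W_37 (nat_lit 6) (nat_lit 0x3000d000280016801600080000000000000000000000000000000) (nat_lit 0x0) (nat_lit 0x50003c0010c000000440000000000000000000000000000000000000000000) := T_37 (nat_lit 226) (nat_lit 174) (nat_lit 4) (nat_lit 5) (nat_lit 13) L97144 (by decide +kernel)
theorem L97146 : W_37 (nat_lit 7) (nat_lit 0x3000d000280016001600080000000000000000000000000000000) (nat_lit 0x0) (nat_lit 0x50003c0010c000000440001800000000000000000000000000000000000000) := T_37 (nat_lit 155) (nat_lit 156) (nat_lit 2) (nat_lit 2) (nat_lit 9) L97145 (by decide +kernel)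
theorem L97147 : W_37 (nat_lit 8) (nat_lit 0x3000d000280016001200080000000000000000000000000000000) (nat_lit 0x0) (nat_lit 0x50003c0010c000000440001800400020000000000000000000000000000000) := T_37 (nat_lit 142) (nat_lit 125) (nat_lit 6) (nat_lit 5) (nat_lit 11) L97146 (by decide +kernel)
theorem L97148 : W_37 (nat_lit 9) (nat_lit 0x30005000280016001200080000000000000000000000000000000) (nat_lit 0x0) (nat_lit 0x50003c0010c00a000440001800400020000000000000000000000000000000) := T_37 (nat_lit 195) (nat_lit 193) (nat_lit 1) (nat_lit 8) (nat_lit 11) L97147 (by decide +kernel)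
theorem L97149 : W_37 (nat_lit 10) (nat_lit 0x30005000280016001000080000000000000000000000000000000) (nat_lit 0x0) (nat_lit 0x50003c0010c00a800440001800600020000000000000000000000000000000) := T_37 (nat_lit 141) (nat_lit 191) (nat_lit 5) (nat_lit 5) (nat_lit 8) L97148 (by decide +kernel)
theorem L97150 : W_37 (nat_lit 11) (nat_lit 0x20005000280016001000080000000000000000000000000000000) (nat_lit 0x0) (nat_lit 0x50003e0011c00a800440001800600020000000000000000000000000000000) := T_37 (nat_lit 208) (nat_lit 225) (nat_lit 5) (nat_lit 5) (nat_lit 9) L97149 (by decide +kernel)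
theorem L97151 : W_37 (nat_lit 12) (nat_lit 0x20001000280016001000080000000000000000000000000000000) (nat_lit 0x0) (nat_lit 0x50003e0011c00e800440001800e00020000000000000000000000000000000) := T_37 (nat_lit 194) (nat_lit 143) (nat_lit 6) (nat_lit 7) (nat_lit 11) L97150 (by decide +kernel)
theorem L97152 : W_37 (nat_lit 13) (nat_lit 0x1000280016001000080000000000000000000000000000000) (nat_lit 0x0) (nat_lit 0x50003e0013c00e800440001800f00020000000000000000000000000000000) := T_37 (nat_lit 209) (nat_lit 140) (nat_lit 4) (nat_lit 5) (nat_lit 12) L97151 (by decide +kernel)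
theorem L97153 : W_37 (nat_lit 2) (nat_lit 0x3800280016001a00090000000200000000000000000000000) (nat_lit 0x0) (nat_lit 0x100008000400000000000000000000000000) := D_37 (nat_lit 123) (nat_lit 140) (nat_lit 106) (nat_lit 4) (nat_lit 5) (nat_lit 11) (nat_lit 4) (nat_lit 5) (nat_lit 10) (by decide +kernel)
theorem L97154 : W_37 (nat_lit 3) (nat_lit 0x3800280016001a00080000000200000000000000000000000) (nat_lit 0x0) (nat_lit 0x40000000100018000400000000000000000000000000) := T_37 (nat_lit 124) (nat_lit 174) (nat_lit 5) (nat_lit 5) (nat_lit 7) L97153 (by decide +kernel)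
theorem L97155 : W_37 (nat_lit 4) (nat_lit 0x3000280016001a00080000000200000000000000000000000) (nat_lit 0x0) (nat_lit 0x10000800040000000100018000400000000000000000000000000) := T_37 (nat_lit 191) (nat_lit 208) (nat_lit 5) (nat_lit 5) (nat_lit 8) L97154 (by decide +kernel)
theorem L97156 : W_37 (nat_lit 5) (nat_lit 0x1000280016001a00080000000200000000000000000000000) (nat_lit 0x0) (nat_lit 0x50002800040000000100018000400000000000000000000000000) := T_37 (nat_lit 193) (nat_lit 210) (nat_lit 7) (nat_lit 5) (nat_lit 8) L97155 (by decide +kernel)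
theorem L97157 : W_37 (nat_lit 6) (nat_lit 0x1000280016001800080000000200000000000000000000000) (nat_lit 0x0) (nat_lit 0x50002800040000000700018000400000000000000000000000000) := T_37 (nat_lit 141) (nat_lit 142) (nat_lit 1) (nat_lit 8) (nat_lit 8) L97156 (by decide +kernel)
theorem L97158 : W_37 (nat_lit 7) (nat_lit 0x1000280016001800080000000000000000000000000000000) (nat_lit 0x0) (nat_lit 0x50002800040000000700018004400200000000000000000000000) := T_37 (nat_lit 93) (nat_lit 110) (nat_lit 5) (nat_lit 8) (nat_lit 5) L97157 (by decide +kernel)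
theorem L97159 : W_37 (nat_lit 8) (nat_lit 0x1000280016001000080000000000000000000000000000000) (nat_lit 0x0) (nat_lit 0x50006800040000000f00018004400200000000000000000000000) := T_37 (nat_lit 143) (nat_lit 194) (nat_lit 6) (nat_lit 7) (nat_lit 11) L97158 (by decide +kernel)
theorem L97160 : W_37 (nat_lit 2) (nat_lit 0x400020005000280016001000080000000000000000000000000000000) (nat_lit 0x0) (nat_lit 0x10000800040000000000000000000000000000000000000000000000000000) := D_37 (nat_lit 227) (nat_lit 210) (nat_lit 244) (nat_lit 7) (nat_lit 5) (nat_lit 9) (nat_lit 7) (nat_lit 5) (nat_lit 10) (by decide +kernel)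
theorem L97161 : W_37 (nat_lit 3) (nat_lit 0x20005000280016001000080000000000000000000000000000000) (nat_lit 0x0) (nat_lit 0x10000c00040000000040000000000000000000000000000000000000000000) := T_37 (nat_lit 226) (nat_lit 174) (nat_lit 4) (nat_lit 5) (nat_lit 13) L97160 (by decide +kernel)
theorem L97162 : W_37 (nat_lit 4) (nat_lit 0x5000280016001000080000000000000000000000000000000) (nat_lit 0x0) (nat_lit 0x10000c00060000000040000000100000000000000000000000000000000000) := T_37 (nat_lit 209) (nat_lit 140) (nat_lit 4) (nat_lit 5) (nat_lit 12) L97161 (by decide +kernel)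
theorem L97163 : W_37 (nat_lit 5) (nat_lit 0x1000280016001000080000000000000000000000000000000) (nat_lit 0x0) (nat_lit 0x10000c00060004000040000000900000000000000000000000000000000000) := T_37 (nat_lit 194) (nat_lit 143) (nat_lit 6) (nat_lit 7) (nat_lit 11) L97162 (by decide +kernel)
theorem L97164 : W_37 (nat_lit 2) (nat_lit 0x3800280016001a00090001400200000000000000000000000) (nat_lit 0x0) (nat_lit 0x8000a0000000000000000000000) := D_37 (nat_lit 107) (nat_lit 91) (nat_lit 89) (nat_lit 6) (nat_lit 5) (nat_lit 9) (nat_lit 4) (nat_lit 5) (nat_lit 9) (by decide +kernel)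
theorem L97165 : W_37 (nat_lit 3) (nat_lit 0x3800280016001a00090001000200000000000000000000000) (nat_lit 0x0) (nat_lit 0x8000c000a0000000000000000000000) := T_37 (nat_lit 106) (nat_lit 123) (nat_lit 4) (nat_lit 5) (nat_lit 10) L97164 (by decide +kernel)
theorem L97166 : W_37 (nat_lit 4) (nat_lit 0x3800280016001a00090000000200000000000000000000000) (nat_lit 0x0) (nat_lit 0x28001c000a0000000000000000000000) := T_37 (nat_lit 108) (nat_lit 125) (nat_lit 6) (nat_lit 5) (nat_lit 10) L97165 (by decide +kernel)
theorem L97167 : W_37 (nat_lit 5) (nat_lit 0x3800280016001a00080000000200000000000000000000000) (nat_lit 0x0) (nat_lit 0x40000000000038001c000a0000000000000000000000) := T_37 (nat_lit 124) (nat_lit 174) (nat_lit 5) (nat_lit 5) (nat_lit 7) L97166 (by decide +kernel)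
theorem L97168 : W_37 (nat_lit 6) (nat_lit 0x3000280016001a00080000000200000000000000000000000) (nat_lit 0x0) (nat_lit 0x10000800040000000000038001c000a0000000000000000000000) := T_37 (nat_lit 191) (nat_lit 208) (nat_lit 5) (nat_lit 5) (nat_lit 8) L97167 (by decide +kernel)
theorem L97169 : W_37 (nat_lit 7) (nat_lit 0x1000280016001a00080000000200000000000000000000000) (nat_lit 0x0) (nat_lit 0x50002800040000000000038001c000a0000000000000000000000) := T_37 (nat_lit 193) (nat_lit 210) (nat_lit 7) (nat_lit 5) (nat_lit 8) L97168 (by decide +kernel)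
theorem L97170 : W_37 (nat_lit 8) (nat_lit 0x1000280016001800080000000200000000000000000000000) (nat_lit 0x0) (nat_lit 0x50002800040000000600038001c000a0000000000000000000000) := T_37 (nat_lit 141) (nat_lit 142) (nat_lit 1) (nat_lit 8) (nat_lit 8) L97169 (by decide +kernel)
theorem L97171 : W_37 (nat_lit 9) (nat_lit 0x1000280016001800080000000000000000000000000000000) (nat_lit 0x0) (nat_lit 0x50002800040000000600038005c002a0000000000000000000000) := T_37 (nat_lit 93) (nat_lit 110) (nat_lit 5) (nat_lit 8) (nat_lit 5) L97170 (by decide +kernel)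
theorem L97172 : W_37 (nat_lit 10) (nat_lit 0x1000280016001000080000000000000000000000000000000) (nat_lit 0x0) (nat_lit 0x50006800040000000e00038005c002a0000000000000000000000) := T_37 (nat_lit 143) (nat_lit 194) (nat_lit 6) (nat_lit 7) (nat_lit 11) L97171 (by decide +kernel)
theorem L97173 : W_37 (nat_lit 14) (nat_lit 0x280016001000080000000000000000000000000000000) (nat_lit 0x0) (nat_lit 0x54003e0017c00f800440001800f00038005c002a0000000000000000000000) := Q_37 (nat_lit 192) (C_37 L96736 (C_37 L97140 (C_37 L97152 (C_37 L97159 (C_37 L97163 (C_37 L97172 N_37)))))) (by decide +kernel)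
theorem L97174 : W_37 (nat_lit 15) (nat_lit 0x200016001000080000000000000000000000000000000) (nat_lit 0x0) (nat_lit 0x54003f0017c00ff005f8001800f00038007f003e0005000000000000000000) := Q_37 (nat_lit 175) (C_37 L96913 (C_37 L64279 (C_37 L97135 (C_37 L97173 (C_37 L96907 N_37))))) (by decide +kernel)
theorem L97175 : W_37 (nat_lit 16) (nat_lit 0x200014001000080000000000000000000000000000000) (nat_lit 0x0) (nat_lit 0x54003f0017c00ff005f800b800fc0038007f003e0005000000000000000000) := Q_37 (nat_lit 157) (C_37 L97174 (C_37 L64042 (C_37 L64446 N_37))) (by decide +kernel)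
theorem L97176 : W_37 (nat_lit 5) (nat_lit 0x4000380016001000080000000000000000000000000000000) (nat_lit 0x0) (nat_lit 0x80004000b000060000000200010000000000000000000000000000000) := T_37 (nat_lit 174) (nat_lit 195) (nat_lit 3) (nat_lit 4) (nat_lit 10) L96556 (by decide +kernel)
theorem L97177 : W_37 (nat_lit 6) (nat_lit 0x4000300016001000080000000000000000000000000000000) (nat_lit 0x0) (nat_lit 0x80004000b0004e0000000200010000000000000000000000000000000) := T_37 (nat_lit 175) (nat_lit 178) (nat_lit 0) (nat_lit 8) (nat_lit 10) L97176 (by decide +kernel)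
theorem L97178 : W_37 (nat_lit 7) (nat_lit 0x300016001000080000000000000000000000000000000) (nat_lit 0x0) (nat_lit 0x80004000f0004e0000000a00010000000000000000000000000000000) := T_37 (nat_lit 194) (nat_lit 143) (nat_lit 6) (nat_lit 7) (nat_lit 11) L97177 (by decide +kernel)
theorem L97179 : W_37 (nat_lit 2) (nat_lit 0x300016001000080000000000000000000000000000000) (nat_lit 0x0) (nat_lit 0x480008000000000000000000000000000000000000000) := D_37 (nat_lit 178) (nat_lit 175) (nat_lit 159) (nat_lit 0) (nat_lit 8) (nat_lit 10) (nat_lit 3) (nat_lit 4) (nat_lit 9) (by decide +kernel)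
theorem L97180 : W_37 (nat_lit 2) (nat_lit 0x300016001000080000000000000000000000000000000) (nat_lit 0x0) (nat_lit 0x4000000008000800000000000000000000000000000000000) := D_37 (nat_lit 143) (nat_lit 194) (nat_lit 159) (nat_lit 6) (nat_lit 7) (nat_lit 11) (nat_lit 2) (nat_lit 4) (nat_lit 9) (by decide +kernel)
theorem L97181 : W_37 (nat_lit 8) (nat_lit 0x300014001000080000000000000000000000000000000) (nat_lit 0x0) (nat_lit 0x80004000f0004e000a000a00010000000000000000000000000000000) := Q_37 (nat_lit 157) (C_37 L97178 (C_37 L97179 (C_37 L97180 N_37))) (by decide +kernel)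
theorem L97182 : W_37 (nat_lit 2) (nat_lit 0x300017001000080000000000000000000000000000000) (nat_lit 0x0) (nat_lit 0xc0000800000000000000000000000000000000000000) := D_37 (nat_lit 175) (nat_lit 155) (nat_lit 174) (nat_lit 3) (nat_lit 2) (nat_lit 9) (nat_lit 0) (nat_lit 7) (nat_lit 10) (by decide +kernel)
theorem L97183 : W_37 (nat_lit 3) (nat_lit 0x300016001000080000000000000000000000000000000) (nat_lit 0x0) (nat_lit 0xc0009800000000000000000000000000000000000000) := T_37 (nat_lit 156) (nat_lit 159) (nat_lit 3) (nat_lit 3) (nat_lit 9) L97182 (by decide +kernel)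
theorem L97184 : W_37 (nat_lit 2) (nat_lit 0x300016001000080000000000000000000000000000000) (nat_lit 0x0) (nat_lit 0x400009000000000000000000000000000000000000000) := D_37 (nat_lit 159) (nat_lit 156) (nat_lit 178) (nat_lit 3) (nat_lit 3) (nat_lit 9) (nat_lit 3) (nat_lit 4) (nat_lit 9) (by decide +kernel)
theorem L97185 : W_37 (nat_lit 4) (nat_lit 0x300014001000080000000000000000000000000000000) (nat_lit 0x0) (nat_lit 0x4c000b800000000000000000000000000000000000000) := Q_37 (nat_lit 157) (C_37 L64545 (C_37 L97183 (C_37 L97184 (C_37 L97179 N_37)))) (by decide +kernel)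
theorem L97186 : W_37 (nat_lit 6) (nat_lit 0x380014001000080000000000000000000000000000000) (nat_lit 0x0) (nat_lit 0x20001000dc00040000000a00010000000000000000000000000000000) := T_37 (nat_lit 194) (nat_lit 143) (nat_lit 6) (nat_lit 7) (nat_lit 11) L96748 (by decide +kernel)
theorem L97187 : W_37 (nat_lit 2) (nat_lit 0x4003c0014001000080000000000000000000000000000000) (nat_lit 0x0) (nat_lit 0x200020008000000000000000000000000000000000000000) := D_37 (nat_lit 173) (nat_lit 159) (nat_lit 189) (nat_lit 2) (nat_lit 3) (nat_lit 10) (nat_lit 1) (nat_lit 6) (nat_lit 10) (by decide +kernel)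
theorem L97188 : W_37 (nat_lit 3) (nat_lit 0x3c0014001000080000000000000000000000000000000) (nat_lit 0x0) (nat_lit 0xe00020008000000000000000000000000000000000000000) := T_37 (nat_lit 190) (nat_lit 191) (nat_lit 1) (nat_lit 7) (nat_lit 10) L97187 (by decide +kernel)
theorem L97189 : W_37 (nat_lit 2) (nat_lit 0x2003e0014801000080000000000000000000000000000000) (nat_lit 0x0) (nat_lit 0x100010000400000000000000000000000000000000000000) := D_37 (nat_lit 172) (nat_lit 188) (nat_lit 154) (nat_lit 1) (nat_lit 5) (nat_lit 10) (nat_lit 0) (nat_lit 5) (nat_lit 10) (by decide +kernel)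
theorem L97190 : W_37 (nat_lit 3) (nat_lit 0x2003e0014001000080000000000000000000000000000000) (nat_lit 0x0) (nat_lit 0x100010001c00000000000000000000000000000000000000) := T_37 (nat_lit 155) (nat_lit 156) (nat_lit 0) (nat_lit 6) (nat_lit 10) L97189 (by decide +kernel)
theorem L97191 : W_37 (nat_lit 4) (nat_lit 0x3e0014001000080000000000000000000000000000000) (nat_lit 0x0) (nat_lit 0x700010001c00000000000000000000000000000000000000) := T_37 (nat_lit 189) (nat_lit 190) (nat_lit 1) (nat_lit 6) (nat_lit 10) L97190 (by decide +kernel)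
theorem L97192 : W_37 (nat_lit 5) (nat_lit 0x3c0014001000080000000000000000000000000000000) (nat_lit 0x0) (nat_lit 0x700030009c00000000000000000000000000000000000000) := T_37 (nat_lit 173) (nat_lit 159) (nat_lit 2) (nat_lit 3) (nat_lit 10) L97191 (by decide +kernel)
theorem L97193 : W_37 (nat_lit 2) (nat_lit 0x12003f0014801000080000000000000000000000000000000) (nat_lit 0x0) (nat_lit 0x800408000000000000000000000000000000000000000000) := D_37 (nat_lit 191) (nat_lit 171) (nat_lit 178) (nat_lit 3) (nat_lit 1) (nat_lit 10) (nat_lit 1) (nat_lit 8) (nat_lit 10) (by decide +kernel)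
theorem L97194 : W_37 (nat_lit 3) (nat_lit 0x2003f0014801000080000000000000000000000000000000) (nat_lit 0x0) (nat_lit 0x3800408000000000000000000000000000000000000000000) := T_37 (nat_lit 192) (nat_lit 193) (nat_lit 3) (nat_lit 2) (nat_lit 10) L97193 (by decide +kernel)
theorem L97195 : W_37 (nat_lit 4) (nat_lit 0x3f0014801000080000000000000000000000000000000) (nat_lit 0x0) (nat_lit 0x3b00408000000000000000000000000000000000000000000) := T_37 (nat_lit 189) (nat_lit 188) (nat_lit 1) (nat_lit 5) (nat_lit 10) L97194 (by decide +kernel)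
theorem L97196 : W_37 (nat_lit 5) (nat_lit 0x3e0014801000080000000000000000000000000000000) (nat_lit 0x0) (nat_lit 0x3b00418000400000000000000000000000000000000000000) := T_37 (nat_lit 172) (nat_lit 154) (nat_lit 0) (nat_lit 5) (nat_lit 10) L97195 (by decide +kernel)
theorem L97197 : W_37 (nat_lit 6) (nat_lit 0x3e0014001000080000000000000000000000000000000) (nat_lit 0x0) (nat_lit 0x3b00418001c00000000000000000000000000000000000000) := T_37 (nat_lit 155) (nat_lit 156) (nat_lit 0) (nat_lit 6) (nat_lit 10) L97196 (by decide +kernel)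
theorem L97198 : W_37 (nat_lit 7) (nat_lit 0x3c0014001000080000000000000000000000000000000) (nat_lit 0x0) (nat_lit 0x3b00438009c00000000000000000000000000000000000000) := T_37 (nat_lit 173) (nat_lit 159) (nat_lit 2) (nat_lit 3) (nat_lit 10) L97197 (by decide +kernel)
theorem L97199 : W_37 (nat_lit 8) (nat_lit 0x380014001000080000000000000000000000000000000) (nat_lit 0x0) (nat_lit 0x200010003f00478009c00200000000000000000000000000000000000) := Q_37 (nat_lit 174) (C_37 L64301 (C_37 L97188 (C_37 L97192 (C_37 L97198 N_37)))) (by decide +kernel)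
theorem L97200 : W_37 (nat_lit 6) (nat_lit 0x4000380014001000080000000000000000000000000000000) (nat_lit 0x0) (nat_lit 0xa700070001c00000000000000000000000000000000000000) := T_37 (nat_lit 174) (nat_lit 195) (nat_lit 3) (nat_lit 4) (nat_lit 10) L64305 (by decide +kernel)
theorem L97201 : W_37 (nat_lit 7) (nat_lit 0x380014001000080000000000000000000000000000000) (nat_lit 0x0) (nat_lit 0xe700070001c00800000000000000000000000000000000000) := T_37 (nat_lit 194) (nat_lit 143) (nat_lit 6) (nat_lit 7) (nat_lit 11) L97200 (by decide +kernel)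
theorem L97202 : W_37 (nat_lit 2) (nat_lit 0x10000c0004000380014001000080000000000000000000000000000000) (nat_lit 0x0) (nat_lit 0x40002000100000000000000000000000000000000000000000000000000000) := D_37 (nat_lit 229) (nat_lit 212) (nat_lit 246) (nat_lit 7) (nat_lit 7) (nat_lit 9) (nat_lit 7) (nat_lit 7) (nat_lit 10) (by decide +kernel)
theorem L97203 : W_37 (nat_lit 3) (nat_lit 0xc0004000380014001000080000000000000000000000000000000) (nat_lit 0x0) (nat_lit 0x40003000100000000000008000000000000000000000000000000000000000) := T_37 (nat_lit 228) (nat_lit 159) (nat_lit 4) (nat_lit 7) (nat_lit 13) L97202 (by decide +kernel)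
theorem L97204 : W_37 (nat_lit 4) (nat_lit 0x40004000380014001000080000000000000000000000000000000) (nat_lit 0x0) (nat_lit 0x40003800180000000000008000000000000000000000000000000000000000) := T_37 (nat_lit 211) (nat_lit 227) (nat_lit 5) (nat_lit 7) (nat_lit 9) L97203 (by decide +kernel)
theorem L97205 : W_37 (nat_lit 5) (nat_lit 0x40000000380014001000080000000000000000000000000000000) (nat_lit 0x0) (nat_lit 0x40003800180004000000008000800000000000000000000000000000000000) := T_37 (nat_lit 194) (nat_lit 143) (nat_lit 6) (nat_lit 7) (nat_lit 11) L97204 (by decide +kernel)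
theorem L97206 : W_37 (nat_lit 2) (nat_lit 0x40002000380014001800080000000000000000000000000000000) (nat_lit 0x0) (nat_lit 0x1000000000000200010000000000000000000000000000000) := D_37 (nat_lit 141) (nat_lit 192) (nat_lit 124) (nat_lit 7) (nat_lit 5) (nat_lit 8) (nat_lit 7) (nat_lit 5) (nat_lit 7) (by decide +kernel)
theorem L97207 : W_37 (nat_lit 3) (nat_lit 0x40000000380014001800080000000000000000000000000000000) (nat_lit 0x0) (nat_lit 0x3000000008000200010000000000000000000000000000000) := T_37 (nat_lit 193) (nat_lit 159) (nat_lit 6) (nat_lit 6) (nat_lit 12) L97206 (by decide +kernel)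
theorem L97208 : W_37 (nat_lit 4) (nat_lit 0x40000000380014001000080000000000000000000000000000000) (nat_lit 0x0) (nat_lit 0x7000000008000a00010000000000000000000000000000000) := T_37 (nat_lit 143) (nat_lit 194) (nat_lit 6) (nat_lit 7) (nat_lit 11) L97207 (by decide +kernel)
theorem L97209 : W_37 (nat_lit 6) (nat_lit 0x380014001000080000000000000000000000000000000) (nat_lit 0x0) (nat_lit 0x400038001c0007000000008000a00010000000000000000000000000000000) := Q_37 (nat_lit 210) (C_37 L97205 (C_37 L63995 (C_37 L97208 N_37))) (by decide +kernel)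
theorem L97210 : W_37 (nat_lit 9) (nat_lit 0x300014001000080000000000000000000000000000000) (nat_lit 0x0) (nat_lit 0x40003a001d000ff004f8009c00a00010000000000000000000000000000000) := Q_37 (nat_lit 175) (C_37 L96668 (C_37 L97186 (C_37 L97199 (C_37 L97201 (C_37 L97209 N_37))))) (by decide +kernel)
theorem L97211 : W_37 (nat_lit 6) (nat_lit 0x400030001c001000080000000000000000000000000000000) (nat_lit 0x0) (nat_lit 0x38003c0003800000000000200000000000000000000000000000000000) := T_37 (nat_lit 211) (nat_lit 228) (nat_lit 4) (nat_lit 7) (nat_lit 13) L74553 (by decide +kernel)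
theorem L97212 : W_37 (nat_lit 7) (nat_lit 0x30001c001000080000000000000000000000000000000) (nat_lit 0x0) (nat_lit 0x38003c0007800000000000a00000000000000000000000000000000000) := T_37 (nat_lit 194) (nat_lit 143) (nat_lit 6) (nat_lit 7) (nat_lit 11) L97211 (by decide +kernel)
theorem L97213 : W_37 (nat_lit 2) (nat_lit 0x2000800048003c001d001200080000000000000000000000000000000) (nat_lit 0x0) (nat_lit 0x800040002000000000000000000000000000000000000000000000000) := D_37 (nat_lit 210) (nat_lit 227) (nat_lit 193) (nat_lit 5) (nat_lit 7) (nat_lit 9) (nat_lit 4) (nat_lit 6) (nat_lit 12) (by decide +kernel)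
theorem L97214 : W_37 (nat_lit 3) (nat_lit 0x2000800048003c001d001000080000000000000000000000000000000) (nat_lit 0x0) (nat_lit 0x800040002000000000000200010000000000000000000000000000000) := T_37 (nat_lit 141) (nat_lit 124) (nat_lit 5) (nat_lit 5) (nat_lit 7) L97213 (by decide +kernel)
theorem L97215 : W_37 (nat_lit 4) (nat_lit 0x2000000048003c001d001000080000000000000000000000000000000) (nat_lit 0x0) (nat_lit 0x18000c0002000000000000200010000000000000000000000000000000) := T_37 (nat_lit 211) (nat_lit 228) (nat_lit 4) (nat_lit 7) (nat_lit 13) L97214 (by decide +kernel)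
theorem L97216 : W_37 (nat_lit 5) (nat_lit 0x48003c001d001000080000000000000000000000000000000) (nat_lit 0x0) (nat_lit 0x1a000d0002000000000000200010000000000000000000000000000000) := T_37 (nat_lit 225) (nat_lit 208) (nat_lit 6) (nat_lit 4) (nat_lit 13) L97215 (by decide +kernel)
theorem L97217 : W_37 (nat_lit 6) (nat_lit 0x8003c001d001000080000000000000000000000000000000) (nat_lit 0x0) (nat_lit 0x1a000d000e000000000000200010000000000000000000000000000000) := T_37 (nat_lit 194) (nat_lit 195) (nat_lit 3) (nat_lit 4) (nat_lit 10) L97216 (by decide +kernel)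
theorem L97218 : W_37 (nat_lit 7) (nat_lit 0x3c001d001000080000000000000000000000000000000) (nat_lit 0x0) (nat_lit 0x1a000d000ec00000000000200010000000000000000000000000000000) := T_37 (nat_lit 191) (nat_lit 190) (nat_lit 1) (nat_lit 7) (nat_lit 10) L97217 (by decide +kernel)
theorem L97219 : W_37 (nat_lit 8) (nat_lit 0x38001d001000080000000000000000000000000000000) (nat_lit 0x0) (nat_lit 0x1a000d000ec00060000000200010000000000000000000000000000000) := T_37 (nat_lit 174) (nat_lit 173) (nat_lit 2) (nat_lit 3) (nat_lit 10) L97218 (by decide +kernel)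
theorem L97220 : W_37 (nat_lit 9) (nat_lit 0x38001c001000080000000000000000000000000000000) (nat_lit 0x0) (nat_lit 0x1a000d000ec00060003000200010000000000000000000000000000000) := T_37 (nat_lit 156) (nat_lit 157) (nat_lit 3) (nat_lit 3) (nat_lit 9) L97219 (by decide +kernel)
theorem L97221 : W_37 (nat_lit 2) (nat_lit 0x2001800058003c001d001000080000000000000000000000000000000) (nat_lit 0x0) (nat_lit 0x800060000000000000000000000000000000000000000000000000000) := D_37 (nat_lit 210) (nat_lit 209) (nat_lit 227) (nat_lit 0) (nat_lit 8) (nat_lit 12) (nat_lit 5) (nat_lit 7) (nat_lit 9) (by decide +kernel)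
theorem L97222 : W_37 (nat_lit 3) (nat_lit 0x2001800048003c001d001000080000000000000000000000000000000) (nat_lit 0x0) (nat_lit 0x800060003000000000000000000000000000000000000000000000000) := T_37 (nat_lit 192) (nat_lit 193) (nat_lit 3) (nat_lit 4) (nat_lit 11) L97221 (by decide +kernel)
theorem L97223 : W_37 (nat_lit 4) (nat_lit 0x2000800048003c001d001000080000000000000000000000000000000) (nat_lit 0x0) (nat_lit 0x2800160003000000000000000000000000000000000000000000000000) := T_37 (nat_lit 212) (nat_lit 229) (nat_lit 7) (nat_lit 7) (nat_lit 9) L97222 (by decide +kernel)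
theorem L97224 : W_37 (nat_lit 5) (nat_lit 0x800048003c001d001000080000000000000000000000000000000) (nat_lit 0x0) (nat_lit 0x2a00170003000000000000000000000000000000000000000000000000) := T_37 (nat_lit 225) (nat_lit 208) (nat_lit 6) (nat_lit 4) (nat_lit 13) L97223 (by decide +kernel)
theorem L97225 : W_37 (nat_lit 6) (nat_lit 0x48003c001d001000080000000000000000000000000000000) (nat_lit 0x0) (nat_lit 0x3a001f0003000000000000000000000000000000000000000000000000) := T_37 (nat_lit 211) (nat_lit 228) (nat_lit 4) (nat_lit 7) (nat_lit 13) L97224 (by decide +kernel)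
theorem L97226 : W_37 (nat_lit 7) (nat_lit 0x40003c001d001000080000000000000000000000000000000) (nat_lit 0x0) (nat_lit 0x3a001f0003c00000000000000000000000000000000000000000000000) := T_37 (nat_lit 191) (nat_lit 190) (nat_lit 1) (nat_lit 7) (nat_lit 10) L97225 (by decide +kernel)
theorem L97227 : W_37 (nat_lit 8) (nat_lit 0x3c001d001000080000000000000000000000000000000) (nat_lit 0x0) (nat_lit 0x3a001f000fc00000000000000000000000000000000000000000000000) := T_37 (nat_lit 194) (nat_lit 195) (nat_lit 3) (nat_lit 4) (nat_lit 10) L97226 (by decide +kernel)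
theorem L97228 : W_37 (nat_lit 9) (nat_lit 0x3c001c001000080000000000000000000000000000000) (nat_lit 0x0) (nat_lit 0x3a001f000fc00000003000000000000000000000000000000000000000) := T_37 (nat_lit 156) (nat_lit 157) (nat_lit 3) (nat_lit 3) (nat_lit 9) L97227 (by decide +kernel)
theorem L97229 : W_37 (nat_lit 10) (nat_lit 0x38001c001000080000000000000000000000000000000) (nat_lit 0x0) (nat_lit 0x3a001f000fc00060003000000000000000000000000000000000000000) := T_37 (nat_lit 174) (nat_lit 173) (nat_lit 2) (nat_lit 3) (nat_lit 10) L97228 (by decide +kernel)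
theorem L97230 : W_37 (nat_lit 5) (nat_lit 0x38001c001000080000000000000000000000000000000) (nat_lit 0x0) (nat_lit 0x20001000000003000380008000400000000000000000000000000) := T_37 (nat_lit 157) (nat_lit 156) (nat_lit 3) (nat_lit 3) (nat_lit 9) L63983 (by decide +kernel)
theorem L97231 : W_37 (nat_lit 11) (nat_lit 0x30001c001000080000000000000000000000000000000) (nat_lit 0x0) (nat_lit 0x3a001f000fc000e0003000380018000400000000000000000000000000) := Q_37 (nat_lit 175) (C_37 L64424 (C_37 L97220 (C_37 L97229 (C_37 L97230 N_37)))) (by decide +kernel)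
theorem L97232 : W_37 (nat_lit 2) (nat_lit 0x30001c001000080000000000000000000000000000000) (nat_lit 0x0) (nat_lit 0x3000800000000000000000000000000000000000) := D_37 (nat_lit 157) (nat_lit 156) (nat_lit 143) (nat_lit 3) (nat_lit 3) (nat_lit 9) (nat_lit 2) (nat_lit 4) (nat_lit 9) (by decide +kernel)
theorem L97233 : W_37 (nat_lit 12) (nat_lit 0x300014001000080000000000000000000000000000000) (nat_lit 0x0) (nat_lit 0x3a003f000fc000e000b000b80018000400000000000000000000000000) := Q_37 (nat_lit 159) (C_37 L97212 (C_37 L97231 (C_37 L97232 N_37))) (by decide +kernel)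
theorem L97234 : W_37 (nat_lit 2) (nat_lit 0x30001c001000080000000000000000000000000000000) (nat_lit 0x0) (nat_lit 0x400003000000000000000000000000000000000000000) := D_37 (nat_lit 157) (nat_lit 156) (nat_lit 178) (nat_lit 3) (nat_lit 3) (nat_lit 9) (nat_lit 3) (nat_lit 4) (nat_lit 9) (by decide +kernel)
theorem L97235 : W_37 (nat_lit 8) (nat_lit 0x300014001000080000000000000000000000000000000) (nat_lit 0x0) (nat_lit 0x38003c000780040000b000a00000000000000000000000000000000000) := Q_37 (nat_lit 159) (C_37 L97212 (C_37 L97232 (C_37 L97234 N_37))) (by decide +kernel)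
theorem L97236 : W_37 (nat_lit 2) (nat_lit 0x10000f000780014001000080000000000000000000000000000000) (nat_lit 0x0) (nat_lit 0x800040000000000000000200000000000000000000000000000000000) := D_37 (nat_lit 210) (nat_lit 227) (nat_lit 141) (nat_lit 6) (nat_lit 6) (nat_lit 13) (nat_lit 7) (nat_lit 5) (nat_lit 8) (by decide +kernel)
theorem L97237 : W_37 (nat_lit 3) (nat_lit 0x10000d000780014001000080000000000000000000000000000000) (nat_lit 0x0) (nat_lit 0x800240002000000000000200000000000000000000000000000000000) := T_37 (nat_lit 193) (nat_lit 213) (nat_lit 3) (nat_lit 5) (nat_lit 11) L97236 (by decide +kernel)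
theorem L97238 : W_37 (nat_lit 4) (nat_lit 0x10000c000780014001000080000000000000000000000000000000) (nat_lit 0x0) (nat_lit 0x800240003800000000000200000000000000000000000000000000000) := T_37 (nat_lit 192) (nat_lit 191) (nat_lit 1) (nat_lit 8) (nat_lit 10) L97237 (by decide +kernel)
theorem L97239 : W_37 (nat_lit 5) (nat_lit 0xc000780014001000080000000000000000000000000000000) (nat_lit 0x0) (nat_lit 0x2800340003800000000000200000000000000000000000000000000000) := T_37 (nat_lit 212) (nat_lit 229) (nat_lit 4) (nat_lit 8) (nat_lit 13) L97238 (by decide +kernel)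
theorem L97240 : W_37 (nat_lit 6) (nat_lit 0x4000780014001000080000000000000000000000000000000) (nat_lit 0x0) (nat_lit 0x280034001b800000000000200000000000000000000000000000000000) := T_37 (nat_lit 195) (nat_lit 196) (nat_lit 3) (nat_lit 5) (nat_lit 10) L97239 (by decide +kernel)
theorem L97241 : W_37 (nat_lit 7) (nat_lit 0x780014001000080000000000000000000000000000000) (nat_lit 0x0) (nat_lit 0x280034001f800000000000a00000000000000000000000000000000000) := T_37 (nat_lit 194) (nat_lit 143) (nat_lit 6) (nat_lit 7) (nat_lit 11) L97240 (by decide +kernel)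
theorem L97242 : W_37 (nat_lit 8) (nat_lit 0x380014001000080000000000000000000000000000000) (nat_lit 0x0) (nat_lit 0x280034001f800400002000a00000000000000000000000000000000000) := T_37 (nat_lit 178) (nat_lit 157) (nat_lit 0) (nat_lit 8) (nat_lit 10) L97241 (by decide +kernel)
theorem L97243 : W_37 (nat_lit 9) (nat_lit 0x300014001000080000000000000000000000000000000) (nat_lit 0x0) (nat_lit 0x2a0035001ff004f0003c00a00010000000000000000000000000000000) := Q_37 (nat_lit 175) (C_37 L97201 (C_37 L96668 (C_37 L64294 (C_37 L97242 N_37)))) (by decide +kernel)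
theorem L97244 : W_37 (nat_lit 13) (nat_lit 0x200014001000080000000000000000000000000000000) (nat_lit 0x0) (nat_lit 0x40003a003f001ff005f800bc00b80018000400000000000000000000000000) := Q_37 (nat_lit 176) (C_37 L97181 (C_37 L97185 (C_37 L97210 (C_37 L97233 (C_37 L97235 (C_37 L97243 N_37)))))) (by decide +kernel)
theorem L97245 : W_37 (nat_lit 2) (nat_lit 0x280014001e00090000000200000000000000000000000) (nat_lit 0x0) (nat_lit 0x1000000000000000020001000000000000000000000000000) := D_37 (nat_lit 125) (nat_lit 192) (nat_lit 108) (nat_lit 6) (nat_lit 5) (nat_lit 11) (nat_lit 6) (nat_lit 5) (nat_lit 10) (by decide +kernel)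
theorem L97246 : W_37 (nat_lit 3) (nat_lit 0x280014001e00080000000200000000000000000000000) (nat_lit 0x0) (nat_lit 0x1000000000000000038001000000000000000000000000000) := T_37 (nat_lit 124) (nat_lit 123) (nat_lit 0) (nat_lit 8) (nat_lit 8) L97245 (by decide +kernel)
theorem L97247 : W_37 (nat_lit 4) (nat_lit 0x280014001a00080000000200000000000000000000000) (nat_lit 0x0) (nat_lit 0x1000000000000400138001000000000000000000000000000) := T_37 (nat_lit 142) (nat_lit 128) (nat_lit 2) (nat_lit 5) (nat_lit 8) L97246 (by decide +kernel)
theorem L97248 : W_37 (nat_lit 5) (nat_lit 0x280014001a00080000000000000000000000000000000) (nat_lit 0x0) (nat_lit 0x1000000000000400138005000200000000000000000000000) := T_37 (nat_lit 93) (nat_lit 110) (nat_lit 5) (nat_lit 8) (nat_lit 5) L97247 (by decide +kernel)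
theorem L97249 : W_37 (nat_lit 6) (nat_lit 0x280014001200080000000000000000000000000000000) (nat_lit 0x0) (nat_lit 0x5000000000000c00138005000200000000000000000000000) := T_37 (nat_lit 143) (nat_lit 194) (nat_lit 6) (nat_lit 7) (nat_lit 11) L97248 (by decide +kernel)
theorem L97250 : W_37 (nat_lit 6) (nat_lit 0x280014001200080000000000000000000000000000000) (nat_lit 0x0) (nat_lit 0x5000f800140000000900038001400000000000000000000000000) := Q_37 (nat_lit 124) (C_37 L96766 (C_37 L97000 (C_37 L96710 N_37))) (by decide +kernel)
theorem L97251 : W_37 (nat_lit 2) (nat_lit 0x3c0014001e00090005800020000000000000000000000) (nat_lit 0x0) (nat_lit 0x2000040001000000000000000000) := D_37 (nat_lit 90) (nat_lit 72) (nat_lit 109) (nat_lit 4) (nat_lit 5) (nat_lit 8) (nat_lit 0) (nat_lit 8) (nat_lit 6) (by decide +kernel)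
theorem L97252 : W_37 (nat_lit 3) (nat_lit 0x3c0014001e00090005800000000000000000000000000) (nat_lit 0x0) (nat_lit 0x2400060001000000000000000000) := T_37 (nat_lit 89) (nat_lit 106) (nat_lit 4) (nat_lit 5) (nat_lit 9) L97251 (by decide +kernel)
theorem L97253 : W_37 (nat_lit 4) (nat_lit 0x3c0014001e00090005000000000000000000000000000) (nat_lit 0x0) (nat_lit 0x2c000e0001000000000000000000) := T_37 (nat_lit 107) (nat_lit 91) (nat_lit 6) (nat_lit 5) (nat_lit 9) L97252 (by decide +kernel)
theorem L97254 : W_37 (nat_lit 5) (nat_lit 0x380014001e00090005000000000000000000000000000) (nat_lit 0x0) (nat_lit 0x800040000000000000002c000e0001000000000000000000) := T_37 (nat_lit 174) (nat_lit 191) (nat_lit 5) (nat_lit 5) (nat_lit 7) L97253 (by decide +kernel)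
theorem L97255 : W_37 (nat_lit 6) (nat_lit 0x380014001e00090004000000000000000000000000000) (nat_lit 0x0) (nat_lit 0x800040000000000020003c000e0001000000000000000000) := T_37 (nat_lit 108) (nat_lit 125) (nat_lit 6) (nat_lit 5) (nat_lit 10) L97254 (by decide +kernel)
theorem L97256 : W_37 (nat_lit 7) (nat_lit 0x280014001e00090004000000000000000000000000000) (nat_lit 0x0) (nat_lit 0x2800140000000000020003c000e0001000000000000000000) := T_37 (nat_lit 176) (nat_lit 193) (nat_lit 7) (nat_lit 5) (nat_lit 7) L97255 (by decide +kernel)
theorem L97257 : W_37 (nat_lit 8) (nat_lit 0x280014001e00080004000000000000000000000000000) (nat_lit 0x0) (nat_lit 0x2800140000000000038003c000e0001000000000000000000) := T_37 (nat_lit 124) (nat_lit 123) (nat_lit 0) (nat_lit 8) (nat_lit 8) L97256 (by decide +kernel)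
theorem L97258 : W_37 (nat_lit 9) (nat_lit 0x280014001a00080004000000000000000000000000000) (nat_lit 0x0) (nat_lit 0x2800140000000400138003c000e0001000000000000000000) := T_37 (nat_lit 142) (nat_lit 128) (nat_lit 2) (nat_lit 5) (nat_lit 8) L97257 (by decide +kernel)
theorem L97259 : W_37 (nat_lit 10) (nat_lit 0x280014001a00080000000000000000000000000000000) (nat_lit 0x0) (nat_lit 0x2800140000000400138007c002e0001000000000000000000) := T_37 (nat_lit 110) (nat_lit 93) (nat_lit 5) (nat_lit 8) (nat_lit 5) L97258 (by decide +kernel)
theorem L97260 : W_37 (nat_lit 11) (nat_lit 0x280014001200080000000000000000000000000000000) (nat_lit 0x0) (nat_lit 0x6800140000000c00138007c002e0001000000000000000000) := T_37 (nat_lit 143) (nat_lit 194) (nat_lit 6) (nat_lit 7) (nat_lit 11) L97259 (by decide +kernel)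
theorem L97261 : W_37 (nat_lit 2) (nat_lit 0x1000280014001e00090000000200000000000000000000000) (nat_lit 0x0) (nat_lit 0x10000800040000000000000000000000000000000000000000000) := D_37 (nat_lit 191) (nat_lit 208) (nat_lit 174) (nat_lit 5) (nat_lit 5) (nat_lit 8) (nat_lit 5) (nat_lit 5) (nat_lit 7) (by decide +kernel)
theorem L97262 : W_37 (nat_lit 3) (nat_lit 0x280014001e00090000000200000000000000000000000) (nat_lit 0x0) (nat_lit 0x10001800040000000000020000000000000000000000000000000) := T_37 (nat_lit 192) (nat_lit 125) (nat_lit 6) (nat_lit 5) (nat_lit 11) L97261 (by decide +kernel)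
theorem L97263 : W_37 (nat_lit 4) (nat_lit 0x280014001e00080000000200000000000000000000000) (nat_lit 0x0) (nat_lit 0x10001800040000000000038000000000000000000000000000000) := T_37 (nat_lit 124) (nat_lit 123) (nat_lit 0) (nat_lit 8) (nat_lit 8) L97262 (by decide +kernel)
theorem L97264 : W_37 (nat_lit 5) (nat_lit 0x280014001a00080000000200000000000000000000000) (nat_lit 0x0) (nat_lit 0x10001800040000000400138000000000000000000000000000000) := T_37 (nat_lit 142) (nat_lit 128) (nat_lit 2) (nat_lit 5) (nat_lit 8) L97263 (by decide +kernel)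
theorem L97265 : W_37 (nat_lit 6) (nat_lit 0x280014001a00080000000000000000000000000000000) (nat_lit 0x0) (nat_lit 0x10001800040000000400138004000200000000000000000000000) := T_37 (nat_lit 93) (nat_lit 110) (nat_lit 5) (nat_lit 8) (nat_lit 5) L97264 (by decide +kernel)
theorem L97266 : W_37 (nat_lit 7) (nat_lit 0x280014001200080000000000000000000000000000000) (nat_lit 0x0) (nat_lit 0x10005800040000000c00138004000200000000000000000000000) := T_37 (nat_lit 143) (nat_lit 194) (nat_lit 6) (nat_lit 7) (nat_lit 11) L97265 (by decide +kernel)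
theorem L97267 : W_37 (nat_lit 2) (nat_lit 0x800380014001e00090000000200000000000000000000000) (nat_lit 0x0) (nat_lit 0x10001000400000000000000000000000000000000000000000000) := D_37 (nat_lit 192) (nat_lit 178) (nat_lit 208) (nat_lit 1) (nat_lit 8) (nat_lit 10) (nat_lit 5) (nat_lit 5) (nat_lit 8) (by decide +kernel)
theorem L97268 : W_37 (nat_lit 3) (nat_lit 0x380014001e00090000000200000000000000000000000) (nat_lit 0x0) (nat_lit 0x10001800440000000000000000000000000000000000000000000) := T_37 (nat_lit 191) (nat_lit 174) (nat_lit 5) (nat_lit 5) (nat_lit 7) L97267 (by decide +kernel)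
theorem L97269 : W_37 (nat_lit 4) (nat_lit 0x280014001e00090000000200000000000000000000000) (nat_lit 0x0) (nat_lit 0x10003800540000000000000000000000000000000000000000000) := T_37 (nat_lit 176) (nat_lit 193) (nat_lit 7) (nat_lit 5) (nat_lit 7) L97268 (by decide +kernel)
theorem L97270 : W_37 (nat_lit 5) (nat_lit 0x280014001e00080000000200000000000000000000000) (nat_lit 0x0) (nat_lit 0x10003800540000000000018000000000000000000000000000000) := T_37 (nat_lit 124) (nat_lit 123) (nat_lit 0) (nat_lit 8) (nat_lit 8) L97269 (by decide +kernel)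
theorem L97271 : W_37 (nat_lit 6) (nat_lit 0x280014001a00080000000200000000000000000000000) (nat_lit 0x0) (nat_lit 0x10003800540000000400118000000000000000000000000000000) := T_37 (nat_lit 142) (nat_lit 128) (nat_lit 2) (nat_lit 5) (nat_lit 8) L97270 (by decide +kernel)
theorem L97272 : W_37 (nat_lit 7) (nat_lit 0x280014001a00080000000000000000000000000000000) (nat_lit 0x0) (nat_lit 0x10003800540000000400118004000200000000000000000000000) := T_37 (nat_lit 93) (nat_lit 110) (nat_lit 5) (nat_lit 8) (nat_lit 5) L97271 (by decide +kernel)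
theorem L97273 : W_37 (nat_lit 8) (nat_lit 0x280014001200080000000000000000000000000000000) (nat_lit 0x0) (nat_lit 0x10007800540000000c00118004000200000000000000000000000) := T_37 (nat_lit 143) (nat_lit 194) (nat_lit 6) (nat_lit 7) (nat_lit 11) L97272 (by decide +kernel)
theorem L97274 : W_37 (nat_lit 2) (nat_lit 0x1800380014001e00080000000200000000000000000000000) (nat_lit 0x0) (nat_lit 0x40002400000000000000000000000000000000000000000000000) := D_37 (nat_lit 193) (nat_lit 210) (nat_lit 190) (nat_lit 7) (nat_lit 5) (nat_lit 8) (nat_lit 2) (nat_lit 3) (nat_lit 11) (by decide +kernel)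
theorem L97275 : W_37 (nat_lit 3) (nat_lit 0x1800280014001e00080000000200000000000000000000000) (nat_lit 0x0) (nat_lit 0x40002400500000000000000000000000000000000000000000000) := T_37 (nat_lit 176) (nat_lit 178) (nat_lit 1) (nat_lit 8) (nat_lit 10) L97274 (by decide +kernel)
theorem L97276 : W_37 (nat_lit 4) (nat_lit 0x1000280014001e00080000000200000000000000000000000) (nat_lit 0x0) (nat_lit 0x50002c00500000000000000000000000000000000000000000000) := T_37 (nat_lit 191) (nat_lit 208) (nat_lit 5) (nat_lit 5) (nat_lit 8) L97275 (by decide +kernel)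
theorem L97277 : W_37 (nat_lit 5) (nat_lit 0x280014001e00080000000200000000000000000000000) (nat_lit 0x0) (nat_lit 0x50003c00500000000000020000000000000000000000000000000) := T_37 (nat_lit 192) (nat_lit 125) (nat_lit 6) (nat_lit 5) (nat_lit 11) L97276 (by decide +kernel)
theorem L97278 : W_37 (nat_lit 6) (nat_lit 0x280014001a00080000000200000000000000000000000) (nat_lit 0x0) (nat_lit 0x50003c00500000000400120000000000000000000000000000000) := T_37 (nat_lit 142) (nat_lit 128) (nat_lit 2) (nat_lit 5) (nat_lit 8) L97277 (by decide +kernel)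
theorem L97279 : W_37 (nat_lit 7) (nat_lit 0x280014001a00080000000000000000000000000000000) (nat_lit 0x0) (nat_lit 0x50003c00500000000400120004000200000000000000000000000) := T_37 (nat_lit 93) (nat_lit 110) (nat_lit 5) (nat_lit 8) (nat_lit 5) L97278 (by decide +kernel)
theorem L97280 : W_37 (nat_lit 8) (nat_lit 0x280014001200080000000000000000000000000000000) (nat_lit 0x0) (nat_lit 0x50007c00500000000c00120004000200000000000000000000000) := T_37 (nat_lit 143) (nat_lit 194) (nat_lit 6) (nat_lit 7) (nat_lit 11) L97279 (by decide +kernel)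
theorem L97281 : W_37 (nat_lit 12) (nat_lit 0x280014001000080000000000000000000000000000000) (nat_lit 0x0) (nat_lit 0x5000fc00540000000f00138007c002e0001000000000000000000) := Q_37 (nat_lit 141) (C_37 L96819 (C_37 L96731 (C_37 L97249 (C_37 L97250 (C_37 L97260 (C_37 L97266 (C_37 L97273 (C_37 L97280 N_37)))))))) (by decide +kernel)
theorem L97282 : W_37 (nat_lit 2) (nat_lit 0x280014001a00080000000000000000000000000000000) (nat_lit 0x0) (nat_lit 0x2000400100000000000000000000000000000000) := D_37 (nat_lit 142) (nat_lit 157) (nat_lit 128) (nat_lit 1) (nat_lit 8) (nat_lit 8) (nat_lit 2) (nat_lit 5) (nat_lit 8) (by decide +kernel)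
theorem L97283 : W_37 (nat_lit 3) (nat_lit 0x280014001200080000000000000000000000000000000) (nat_lit 0x0) (nat_lit 0x4000000002000c00100000000000000000000000000000000) := T_37 (nat_lit 143) (nat_lit 194) (nat_lit 6) (nat_lit 7) (nat_lit 11) L97282 (by decide +kernel)
theorem L97284 : W_37 (nat_lit 12) (nat_lit 0x280014001000080000000000000000000000000000000) (nat_lit 0x0) (nat_lit 0x5000f800140002000f00138007c002e0001000000000000000000) := Q_37 (nat_lit 141) (C_37 L97266 (C_37 L97250 (C_37 L96821 (C_37 L97260 (C_37 L97249 (C_37 L97283 N_37)))))) (by decide +kernel)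
theorem L97285 : W_37 (nat_lit 8) (nat_lit 0x280014001000080000000000000000000000000000000) (nat_lit 0x0) (nat_lit 0x10005800040002000f00138005c002a0000000000000000000000) := Q_37 (nat_lit 141) (C_37 L97266 (C_37 L97283 (C_37 L96821 N_37))) (by decide +kernel)
theorem L97286 : W_37 (nat_lit 9) (nat_lit 0x280014001000080000000000000000000000000000000) (nat_lit 0x0) (nat_lit 0x2a0035001ff00570003c00a00010000000000000000000000000000000) := Q_37 (nat_lit 176) (C_37 L97201 (C_37 L97242 (C_37 L96668 (C_37 L64294 N_37)))) (by decide +kernel)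
theorem L97287 : W_37 (nat_lit 2) (nat_lit 0x380016801a000b0000d00240000000000000000000000) (nat_lit 0x0) (nat_lit 0x180004000000000000000000) := D_37 (nat_lit 91) (nat_lit 92) (nat_lit 74) (nat_lit 1) (nat_lit 8) (nat_lit 5) (nat_lit 6) (nat_lit 5) (nat_lit 8) (by decide +kernel)
theorem L97288 : W_37 (nat_lit 3) (nat_lit 0x380016801a000b0000d00200000000000000000000000) (nat_lit 0x0) (nat_lit 0x1000000000001c0004000000000000000000) := T_37 (nat_lit 90) (nat_lit 140) (nat_lit 5) (nat_lit 5) (nat_lit 5) L97287 (by decide +kernel)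
theorem L97289 : W_37 (nat_lit 4) (nat_lit 0x380016801a000b0000c00200000000000000000000000) (nat_lit 0x0) (nat_lit 0x1000000003001c0004000000000000000000) := T_37 (nat_lit 104) (nat_lit 105) (nat_lit 3) (nat_lit 2) (nat_lit 6) L97288 (by decide +kernel)
theorem L97290 : W_37 (nat_lit 5) (nat_lit 0x380016801a000b0000400200000000000000000000000) (nat_lit 0x0) (nat_lit 0x100000000b001e0004000000000000000000) := T_37 (nat_lit 107) (nat_lit 89) (nat_lit 4) (nat_lit 5) (nat_lit 9) L97289 (by decide +kernel)
theorem L97291 : W_37 (nat_lit 6) (nat_lit 0x380016801a000b0000000200000000000000000000000) (nat_lit 0x0) (nat_lit 0x100008000f001e0004000000000000000000) := T_37 (nat_lit 106) (nat_lit 123) (nat_lit 4) (nat_lit 5) (nat_lit 10) L97290 (by decide +kernel)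
theorem L97292 : W_37 (nat_lit 7) (nat_lit 0x380016801a00090000000200000000000000000000000) (nat_lit 0x0) (nat_lit 0x100028001f001e0004000000000000000000) := T_37 (nat_lit 125) (nat_lit 108) (nat_lit 6) (nat_lit 5) (nat_lit 10) L97291 (by decide +kernel)
theorem L97293 : W_37 (nat_lit 8) (nat_lit 0x380016801a00080000000200000000000000000000000) (nat_lit 0x0) (nat_lit 0x2000000000000100038001f001e0004000000000000000000) := T_37 (nat_lit 124) (nat_lit 193) (nat_lit 7) (nat_lit 5) (nat_lit 7) L97292 (by decide +kernel)
theorem L97294 : W_37 (nat_lit 9) (nat_lit 0x380016801a00080000000000000000000000000000000) (nat_lit 0x0) (nat_lit 0x2000000000000100038005f003e0004000000000000000000) := T_37 (nat_lit 93) (nat_lit 110) (nat_lit 5) (nat_lit 8) (nat_lit 5) L97293 (by decide +kernel)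
theorem L97295 : W_37 (nat_lit 10) (nat_lit 0x380016801800080000000000000000000000000000000) (nat_lit 0x0) (nat_lit 0x2000000000000700038005f003e0004000000000000000000) := T_37 (nat_lit 141) (nat_lit 142) (nat_lit 1) (nat_lit 8) (nat_lit 8) L97294 (by decide +kernel)
theorem L97296 : W_37 (nat_lit 11) (nat_lit 0x380016001800080000000000000000000000000000000) (nat_lit 0x0) (nat_lit 0x2000000001800700038005f003e0004000000000000000000) := T_37 (nat_lit 155) (nat_lit 156) (nat_lit 3) (nat_lit 2) (nat_lit 9) L97295 (by decide +kernel)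
theorem L97297 : W_37 (nat_lit 12) (nat_lit 0x380016001000080000000000000000000000000000000) (nat_lit 0x0) (nat_lit 0x6000000001800f00038005f003e0004000000000000000000) := T_37 (nat_lit 143) (nat_lit 194) (nat_lit 6) (nat_lit 7) (nat_lit 11) L97296 (by decide +kernel)
theorem L97298 : W_37 (nat_lit 13) (nat_lit 0x380014001000080000000000000000000000000000000) (nat_lit 0x0) (nat_lit 0x6000400003800f00038005f003e0004000000000000000000) := T_37 (nat_lit 157) (nat_lit 178) (nat_lit 0) (nat_lit 8) (nat_lit 10) L97297 (by decide +kernel)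
theorem L97299 : W_37 (nat_lit 2) (nat_lit 0x4000780014001000080000000000000000000000000000000) (nat_lit 0x0) (nat_lit 0x18000040000000000000000000000000000000000000000000) := D_37 (nat_lit 195) (nat_lit 174) (nat_lit 196) (nat_lit 3) (nat_lit 4) (nat_lit 10) (nat_lit 3) (nat_lit 5) (nat_lit 10) (by decide +kernel)
theorem L97300 : W_37 (nat_lit 3) (nat_lit 0x780014001000080000000000000000000000000000000) (nat_lit 0x0) (nat_lit 0x1c000040000000800000000000000000000000000000000000) := T_37 (nat_lit 194) (nat_lit 143) (nat_lit 6) (nat_lit 7) (nat_lit 11) L97299 (by decide +kernel)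
theorem L97301 : W_37 (nat_lit 4) (nat_lit 0x380014001000080000000000000000000000000000000) (nat_lit 0x0) (nat_lit 0x1c000440002000800000000000000000000000000000000000) := T_37 (nat_lit 178) (nat_lit 157) (nat_lit 0) (nat_lit 8) (nat_lit 10) L97300 (by decide +kernel)
theorem L97302 : W_37 (nat_lit 14) (nat_lit 0x280014001000080000000000000000000000000000000) (nat_lit 0x0) (nat_lit 0x1e700570003c00f00038005f003e0004000000000000000000) := Q_37 (nat_lit 176) (C_37 L97201 (C_37 L64294 (C_37 L97298 (C_37 L97301 N_37)))) (by decide +kernel)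
theorem L97303 : W_37 (nat_lit 2) (nat_lit 0x80012000f000780014001000080000000000000000000000000000000) (nat_lit 0x0) (nat_lit 0x18000400000000000000000000000000000000000000000000000000000000) := D_37 (nat_lit 226) (nat_lit 244) (nat_lit 243) (nat_lit 7) (nat_lit 5) (nat_lit 10) (nat_lit 6) (nat_lit 5) (nat_lit 14) (by decide +kernel)
theorem L97304 : W_37 (nat_lit 3) (nat_lit 0x12000f000780014001000080000000000000000000000000000000) (nat_lit 0x0) (nat_lit 0x18000c00040000000000000000000000000000000000000000000000000000) := T_37 (nat_lit 227) (nat_lit 210) (nat_lit 7) (nat_lit 5) (nat_lit 9) L97303 (by decide +kernel)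
theorem L97305 : W_37 (nat_lit 4) (nat_lit 0x10000f000780014001000080000000000000000000000000000000) (nat_lit 0x0) (nat_lit 0x18000c00070000000000000000000000000000000000000000000000000000) := T_37 (nat_lit 209) (nat_lit 208) (nat_lit 1) (nat_lit 8) (nat_lit 11) L97304 (by decide +kernel)
theorem L97306 : W_37 (nat_lit 5) (nat_lit 0x10000d000780014001000080000000000000000000000000000000) (nat_lit 0x0) (nat_lit 0x18000c00270002000000000000000000000000000000000000000000000000) := T_37 (nat_lit 193) (nat_lit 213) (nat_lit 3) (nat_lit 5) (nat_lit 11) L97305 (by decide +kernel)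
theorem L97307 : W_37 (nat_lit 6) (nat_lit 0x10000c000780014001000080000000000000000000000000000000) (nat_lit 0x0) (nat_lit 0x18000c00270003800000000000000000000000000000000000000000000000) := T_37 (nat_lit 192) (nat_lit 191) (nat_lit 1) (nat_lit 8) (nat_lit 10) L97306 (by decide +kernel)
theorem L97308 : W_37 (nat_lit 7) (nat_lit 0xc000780014001000080000000000000000000000000000000) (nat_lit 0x0) (nat_lit 0x18002c00370003800000000000000000000000000000000000000000000000) := T_37 (nat_lit 212) (nat_lit 229) (nat_lit 4) (nat_lit 8) (nat_lit 13) L97307 (by decide +kernel)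
theorem L97309 : W_37 (nat_lit 8) (nat_lit 0x4000780014001000080000000000000000000000000000000) (nat_lit 0x0) (nat_lit 0x18002c0037001b800000000000000000000000000000000000000000000000) := T_37 (nat_lit 195) (nat_lit 196) (nat_lit 3) (nat_lit 5) (nat_lit 10) L97308 (by decide +kernel)
theorem L97310 : W_37 (nat_lit 9) (nat_lit 0x780014001000080000000000000000000000000000000) (nat_lit 0x0) (nat_lit 0x18002c0037001f800000000000800000000000000000000000000000000000) := T_37 (nat_lit 194) (nat_lit 143) (nat_lit 6) (nat_lit 7) (nat_lit 11) L97309 (by decide +kernel)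
theorem L97311 : W_37 (nat_lit 10) (nat_lit 0x380014001000080000000000000000000000000000000) (nat_lit 0x0) (nat_lit 0x18002c0037001f800400002000800000000000000000000000000000000000) := T_37 (nat_lit 178) (nat_lit 157) (nat_lit 0) (nat_lit 8) (nat_lit 10) L97310 (by decide +kernel)
theorem L97312 : W_37 (nat_lit 11) (nat_lit 0x280014001000080000000000000000000000000000000) (nat_lit 0x0) (nat_lit 0x18002c0037001ff00570003c00800000000000000000000000000000000000) := Q_37 (nat_lit 176) (C_37 L97201 (C_37 L97301 (C_37 L64294 (C_37 L97311 N_37)))) (by decide +kernel)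
theorem L97313 : W_37 (nat_lit 6) (nat_lit 0x280014001200080000000000000000000000000000000) (nat_lit 0x0) (nat_lit 0x200070003800100002000500038001000000000000000000000000000) := Q_37 (nat_lit 192) (C_37 L63036 (C_37 L63488 (C_37 L64363 N_37))) (by decide +kernel)
theorem L97314 : W_37 (nat_lit 2) (nat_lit 0x20005000280014001300080000000000000000000000000000000) (nat_lit 0x0) (nat_lit 0x200010000800000000000000000000000000000000000000000000000) := D_37 (nat_lit 208) (nat_lit 191) (nat_lit 225) (nat_lit 5) (nat_lit 5) (nat_lit 8) (nat_lit 5) (nat_lit 5) (nat_lit 9) (by decide +kernel)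
theorem L97315 : W_37 (nat_lit 3) (nat_lit 0x5000280014001300080000000000000000000000000000000) (nat_lit 0x0) (nat_lit 0x200030000800000002000000000000000000000000000000000000000) := T_37 (nat_lit 209) (nat_lit 157) (nat_lit 4) (nat_lit 5) (nat_lit 12) L97314 (by decide +kernel)
theorem L97316 : W_37 (nat_lit 4) (nat_lit 0x1000280014001300080000000000000000000000000000000) (nat_lit 0x0) (nat_lit 0x200030004800000002000800000000000000000000000000000000000) := T_37 (nat_lit 194) (nat_lit 143) (nat_lit 6) (nat_lit 7) (nat_lit 11) L97315 (by decide +kernel)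
theorem L97317 : W_37 (nat_lit 5) (nat_lit 0x1000280014001200080000000000000000000000000000000) (nat_lit 0x0) (nat_lit 0x200030004800000002000900008000000000000000000000000000000) := T_37 (nat_lit 140) (nat_lit 123) (nat_lit 4) (nat_lit 5) (nat_lit 11) L97316 (by decide +kernel)
theorem L97318 : W_37 (nat_lit 14) (nat_lit 0x280014001200080000000000000000000000000000000) (nat_lit 0x0) (nat_lit 0x8001f003e001f000fc00500002000900018000400000000000000000000000000) := Q_37 (nat_lit 192) (C_37 L64504 (C_37 L63488 (C_37 L97317 (C_37 L64379 (C_37 L97008 N_37))))) (by decide +kernel)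
theorem L97319 : W_37 (nat_lit 15) (nat_lit 0x280014001000080000000000000000000000000000000) (nat_lit 0x0) (nat_lit 0x8001f003e001f000fc00500002000f00138005400200000000000000000000000) := Q_37 (nat_lit 141) (C_37 L97280 (C_37 L97283 (C_37 L97313 (C_37 L97318 N_37)))) (by decide +kernel)
theorem L97320 : W_37 (nat_lit 16) (nat_lit 0x200014001000080000000000000000000000000000000) (nat_lit 0x0) (nat_lit 0x8001f01fe007f001ff005f8003c00fc0138007f003e0005000000000000000000) := Q_37 (nat_lit 175) (C_37 L96561 (C_37 L97281 (C_37 L97284 (C_37 L97285 (C_37 L96858 (C_37 L97286 (C_37 L97302 (C_37 L97312 (C_37 L97319 N_37))))))))) (by decide +kernel)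
theorem L97321 : W_37 (nat_lit 2) (nat_lit 0x20001f001000080000000000000000000000000000000) (nat_lit 0x0) (nat_lit 0x1c0000000000000000000000000000000000) := D_37 (nat_lit 139) (nat_lit 140) (nat_lit 138) (nat_lit 0) (nat_lit 7) (nat_lit 9) (nat_lit 0) (nat_lit 6) (nat_lit 9) (by decide +kernel)
theorem L97322 : W_37 (nat_lit 3) (nat_lit 0x20001e001000080000000000000000000000000000000) (nat_lit 0x0) (nat_lit 0x1000010001c0000000000000000000000000000000000) := T_37 (nat_lit 156) (nat_lit 176) (nat_lit 3) (nat_lit 3) (nat_lit 9) L97321 (by decide +kernel)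
theorem L97323 : W_37 (nat_lit 4) (nat_lit 0x20001c001000080000000000000000000000000000000) (nat_lit 0x0) (nat_lit 0x5000030001c0000000000000000000000000000000000) := T_37 (nat_lit 157) (nat_lit 178) (nat_lit 3) (nat_lit 4) (nat_lit 9) L97322 (by decide +kernel)
theorem L97324 : W_37 (nat_lit 7) (nat_lit 0x200014001000080000000000000000000000000000000) (nat_lit 0x0) (nat_lit 0x500038001c000400050000b000dc0000000000000000000000000000000000) := Q_37 (nat_lit 159) (C_37 L97323 (C_37 L97129 N_37)) (by decide +kernel)
theorem L97325 : W_37 (nat_lit 7) (nat_lit 0x280016001000080000000000000000000000000000000) (nat_lit 0x0) (nat_lit 0x20001000ef00178001000e00010004000200000000000000000000000) := Q_37 (nat_lit 174) (C_37 L97134 (C_37 L64313 (C_37 L96605 N_37))) (by decide +kernel)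
theorem L97326 : W_37 (nat_lit 2) (nat_lit 0x400020005000280016001000080000000000000000000000000000000) (nat_lit 0x0) (nat_lit 0x4000200010000000000000000000000000000000000000000000000000000) := D_37 (nat_lit 225) (nat_lit 208) (nat_lit 242) (nat_lit 5) (nat_lit 5) (nat_lit 9) (nat_lit 5) (nat_lit 5) (nat_lit 10) (by decide +kernel)
theorem L97327 : W_37 (nat_lit 3) (nat_lit 0x20005000280016001000080000000000000000000000000000000) (nat_lit 0x0) (nat_lit 0x4000600010000000040000000000000000000000000000000000000000000) := T_37 (nat_lit 226) (nat_lit 174) (nat_lit 4) (nat_lit 5) (nat_lit 13) L97326 (by decide +kernel)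
theorem L97328 : W_37 (nat_lit 4) (nat_lit 0x5000280016001000080000000000000000000000000000000) (nat_lit 0x0) (nat_lit 0x4000600030000000040000000100000000000000000000000000000000000) := T_37 (nat_lit 209) (nat_lit 140) (nat_lit 4) (nat_lit 5) (nat_lit 12) L97327 (by decide +kernel)
theorem L97329 : W_37 (nat_lit 5) (nat_lit 0x1000280016001000080000000000000000000000000000000) (nat_lit 0x0) (nat_lit 0x4000600030004000040000000900000000000000000000000000000000000) := T_37 (nat_lit 194) (nat_lit 143) (nat_lit 6) (nat_lit 7) (nat_lit 11) L97328 (by decide +kernel)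
theorem L97330 : W_37 (nat_lit 4) (nat_lit 0x1000280016001000080000000000000000000000000000000) (nat_lit 0x0) (nat_lit 0x4000600030000000040000000100000000000000000000000000000000000) := T_37 (nat_lit 209) (nat_lit 140) (nat_lit 4) (nat_lit 5) (nat_lit 12) L64063 (by decide +kernel)
theorem L97331 : W_37 (nat_lit 2) (nat_lit 0x30005800280016001000080000000000000000000000000000000) (nat_lit 0x0) (nat_lit 0xa000400000000000000000000000000000000000000000000) := D_37 (nat_lit 193) (nat_lit 195) (nat_lit 178) (nat_lit 1) (nat_lit 8) (nat_lit 11) (nat_lit 2) (nat_lit 4) (nat_lit 11) (by decide +kernel)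
theorem L97332 : W_37 (nat_lit 3) (nat_lit 0x30005000280016001000080000000000000000000000000000000) (nat_lit 0x0) (nat_lit 0xa800400000000200000000000000000000000000000000000) := T_37 (nat_lit 191) (nat_lit 141) (nat_lit 5) (nat_lit 5) (nat_lit 8) L97331 (by decide +kernel)
theorem L97333 : W_37 (nat_lit 4) (nat_lit 0x20005000280016001000080000000000000000000000000000000) (nat_lit 0x0) (nat_lit 0x20001000a800400000000200000000000000000000000000000000000) := T_37 (nat_lit 208) (nat_lit 225) (nat_lit 5) (nat_lit 5) (nat_lit 9) L97332 (by decide +kernel)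
theorem L97334 : W_37 (nat_lit 5) (nat_lit 0x20001000280016001000080000000000000000000000000000000) (nat_lit 0x0) (nat_lit 0x20001000e800400000000a00000000000000000000000000000000000) := T_37 (nat_lit 194) (nat_lit 143) (nat_lit 6) (nat_lit 7) (nat_lit 11) L97333 (by decide +kernel)
theorem L97335 : W_37 (nat_lit 6) (nat_lit 0x1000280016001000080000000000000000000000000000000) (nat_lit 0x0) (nat_lit 0x20003000e800400000000b00000000000000000000000000000000000) := T_37 (nat_lit 209) (nat_lit 140) (nat_lit 4) (nat_lit 5) (nat_lit 12) L97334 (by decide +kernel)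
theorem L97336 : W_37 (nat_lit 2) (nat_lit 0x1800280016001a00090000000200000000000000000000000) (nat_lit 0x0) (nat_lit 0x100008000400000000000000000000000000) := D_37 (nat_lit 123) (nat_lit 140) (nat_lit 106) (nat_lit 4) (nat_lit 5) (nat_lit 11) (nat_lit 4) (nat_lit 5) (nat_lit 10) (by decide +kernel)
theorem L97337 : W_37 (nat_lit 3) (nat_lit 0x1800280016001a00080000000200000000000000000000000) (nat_lit 0x0) (nat_lit 0x40000000100018000400000000000000000000000000) := T_37 (nat_lit 124) (nat_lit 174) (nat_lit 5) (nat_lit 5) (nat_lit 7) L97336 (by decide +kernel)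
theorem L97338 : W_37 (nat_lit 4) (nat_lit 0x1000280016001a00080000000200000000000000000000000) (nat_lit 0x0) (nat_lit 0x10000800040000000100018000400000000000000000000000000) := T_37 (nat_lit 191) (nat_lit 208) (nat_lit 5) (nat_lit 5) (nat_lit 8) L97337 (by decide +kernel)
theorem L97339 : W_37 (nat_lit 5) (nat_lit 0x1000280016001800080000000200000000000000000000000) (nat_lit 0x0) (nat_lit 0x10000800040000000700018000400000000000000000000000000) := T_37 (nat_lit 141) (nat_lit 142) (nat_lit 1) (nat_lit 8) (nat_lit 8) L97338 (by decide +kernel)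
theorem L97340 : W_37 (nat_lit 6) (nat_lit 0x1000280016001800080000000000000000000000000000000) (nat_lit 0x0) (nat_lit 0x10000800040000000700018004400200000000000000000000000) := T_37 (nat_lit 93) (nat_lit 110) (nat_lit 5) (nat_lit 8) (nat_lit 5) L97339 (by decide +kernel)
theorem L97341 : W_37 (nat_lit 7) (nat_lit 0x1000280016001000080000000000000000000000000000000) (nat_lit 0x0) (nat_lit 0x10004800040000000f00018004400200000000000000000000000) := T_37 (nat_lit 143) (nat_lit 194) (nat_lit 6) (nat_lit 7) (nat_lit 11) L97340 (by decide +kernel)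
theorem L97342 : W_37 (nat_lit 2) (nat_lit 0xd002c00120005000280016001000080000000000000000000000000000000) (nat_lit 0x0) (nat_lit 0x40000000000008000400000000000000000000000000000000000000000000) := D_37 (nat_lit 195) (nat_lit 246) (nat_lit 178) (nat_lit 4) (nat_lit 8) (nat_lit 14) (nat_lit 4) (nat_lit 8) (nat_lit 13) (by decide +kernel)
theorem L97343 : W_37 (nat_lit 3) (nat_lit 0xd002c00020005000280016001000080000000000000000000000000000000) (nat_lit 0x0) (nat_lit 0x40000000180008000400000000000000000000000000000000000000000000) := T_37 (nat_lit 212) (nat_lit 211) (nat_lit 7) (nat_lit 7) (nat_lit 9) L97342 (by decide +kernel)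
theorem L97344 : W_37 (nat_lit 4) (nat_lit 0xd000c00020005000280016001000080000000000000000000000000000000) (nat_lit 0x0) (nat_lit 0x40003000180008000400000000000000000000000000000000000000000000) := T_37 (nat_lit 229) (nat_lit 228) (nat_lit 1) (nat_lit 8) (nat_lit 13) L97343 (by decide +kernel)
theorem L97345 : W_37 (nat_lit 5) (nat_lit 0xc000c00020005000280016001000080000000000000000000000000000000) (nat_lit 0x0) (nat_lit 0x43003000180008000400000000000000000000000000000000000000000000) := T_37 (nat_lit 240) (nat_lit 241) (nat_lit 2) (nat_lit 2) (nat_lit 14) L97344 (by decide +kernel)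
theorem L97346 : W_37 (nat_lit 6) (nat_lit 0x4000c00020005000280016001000080000000000000000000000000000000) (nat_lit 0x0) (nat_lit 0x8004b003000180008000400000000000000000000000000000000000000000000) := T_37 (nat_lit 243) (nat_lit 259) (nat_lit 5) (nat_lit 5) (nat_lit 11) L97345 (by decide +kernel)
theorem L97347 : W_37 (nat_lit 7) (nat_lit 0x4000400020005000280016001000080000000000000000000000000000000) (nat_lit 0x0) (nat_lit 0x8005b003800180008000400000000000000000000000000000000000000000000) := T_37 (nat_lit 227) (nat_lit 244) (nat_lit 7) (nat_lit 5) (nat_lit 10) L97346 (by decide +kernel)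
theorem L97348 : W_37 (nat_lit 8) (nat_lit 0x400020005000280016001000080000000000000000000000000000000) (nat_lit 0x0) (nat_lit 0x8005f003a00180008000400000000000000000000000000000000000000000000) := T_37 (nat_lit 242) (nat_lit 225) (nat_lit 5) (nat_lit 5) (nat_lit 10) L97347 (by decide +kernel)
theorem L97349 : W_37 (nat_lit 9) (nat_lit 0x20005000280016001000080000000000000000000000000000000) (nat_lit 0x0) (nat_lit 0x8005f003e00180008000440000000000000000000000000000000000000000000) := T_37 (nat_lit 226) (nat_lit 174) (nat_lit 4) (nat_lit 5) (nat_lit 13) L97348 (by decide +kernel)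
theorem L97350 : W_37 (nat_lit 10) (nat_lit 0x5000280016001000080000000000000000000000000000000) (nat_lit 0x0) (nat_lit 0x8005f003e001a0008000440000000100000000000000000000000000000000000) := T_37 (nat_lit 209) (nat_lit 140) (nat_lit 4) (nat_lit 5) (nat_lit 12) L97349 (by decide +kernel)
theorem L97351 : W_37 (nat_lit 11) (nat_lit 0x1000280016001000080000000000000000000000000000000) (nat_lit 0x0) (nat_lit 0x8005f003e001a000c000440000000900000000000000000000000000000000000) := T_37 (nat_lit 194) (nat_lit 143) (nat_lit 6) (nat_lit 7) (nat_lit 11) L97350 (by decide +kernel)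
theorem L97352 : W_37 (nat_lit 2) (nat_lit 0x1800280016001a00090001400200000000000000000000000) (nat_lit 0x0) (nat_lit 0x8000a0000000000000000000000) := D_37 (nat_lit 107) (nat_lit 91) (nat_lit 89) (nat_lit 6) (nat_lit 5) (nat_lit 9) (nat_lit 4) (nat_lit 5) (nat_lit 9) (by decide +kernel)
theorem L97353 : W_37 (nat_lit 3) (nat_lit 0x1800280016001a00090001000200000000000000000000000) (nat_lit 0x0) (nat_lit 0x8000c000a0000000000000000000000) := T_37 (nat_lit 106) (nat_lit 123) (nat_lit 4) (nat_lit 5) (nat_lit 10) L97352 (by decide +kernel)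
theorem L97354 : W_37 (nat_lit 4) (nat_lit 0x1800280016001a00090000000200000000000000000000000) (nat_lit 0x0) (nat_lit 0x28001c000a0000000000000000000000) := T_37 (nat_lit 108) (nat_lit 125) (nat_lit 6) (nat_lit 5) (nat_lit 10) L97353 (by decide +kernel)
theorem L97355 : W_37 (nat_lit 5) (nat_lit 0x1800280016001a00080000000200000000000000000000000) (nat_lit 0x0) (nat_lit 0x40000000000038001c000a0000000000000000000000) := T_37 (nat_lit 124) (nat_lit 174) (nat_lit 5) (nat_lit 5) (nat_lit 7) L97354 (by decide +kernel)
theorem L97356 : W_37 (nat_lit 6) (nat_lit 0x1000280016001a00080000000200000000000000000000000) (nat_lit 0x0) (nat_lit 0x10000800040000000000038001c000a0000000000000000000000) := T_37 (nat_lit 191) (nat_lit 208) (nat_lit 5) (nat_lit 5) (nat_lit 8) L97355 (by decide +kernel)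
theorem L97357 : W_37 (nat_lit 7) (nat_lit 0x1000280016001800080000000200000000000000000000000) (nat_lit 0x0) (nat_lit 0x10000800040000000600038001c000a0000000000000000000000) := T_37 (nat_lit 141) (nat_lit 142) (nat_lit 1) (nat_lit 8) (nat_lit 8) L97356 (by decide +kernel)
theorem L97358 : W_37 (nat_lit 8) (nat_lit 0x1000280016001800080000000000000000000000000000000) (nat_lit 0x0) (nat_lit 0x10000800040000000600038005c002a0000000000000000000000) := T_37 (nat_lit 93) (nat_lit 110) (nat_lit 5) (nat_lit 8) (nat_lit 5) L97357 (by decide +kernel)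
theorem L97359 : W_37 (nat_lit 9) (nat_lit 0x1000280016001000080000000000000000000000000000000) (nat_lit 0x0) (nat_lit 0x10004800040000000e00038005c002a0000000000000000000000) := T_37 (nat_lit 143) (nat_lit 194) (nat_lit 6) (nat_lit 7) (nat_lit 11) L97358 (by decide +kernel)
theorem L97360 : W_37 (nat_lit 12) (nat_lit 0x280016001000080000000000000000000000000000000) (nat_lit 0x0) (nat_lit 0x8005f003e001b000f800440000000f00038005c002a0000000000000000000000) := Q_37 (nat_lit 192) (C_37 L97329 (C_37 L97330 (C_37 L97335 (C_37 L97341 (C_37 L97351 (C_37 L97359 N_37)))))) (by decide +kernel)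
theorem L97361 : W_37 (nat_lit 13) (nat_lit 0x200016001000080000000000000000000000000000000) (nat_lit 0x0) (nat_lit 0x8005f003e001b000ff005f8001800f00038007f003e0005000000000000000000) := Q_37 (nat_lit 175) (C_37 L96913 (C_37 L64279 (C_37 L97325 (C_37 L97360 (C_37 L96907 N_37))))) (by decide +kernel)
theorem L97362 : W_37 (nat_lit 14) (nat_lit 0x200014001000080000000000000000000000000000000) (nat_lit 0x0) (nat_lit 0x8005f003e001b000ff005f800b800fc0038007f003e0005000000000000000000) := Q_37 (nat_lit 157) (C_37 L64042 (C_37 L64446 (C_37 L97361 N_37))) (by decide +kernel)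
theorem L97363 : W_37 (nat_lit 2) (nat_lit 0xa00000002c001e001700098001000000000000000000000000000) (nat_lit 0x0) (nat_lit 0x6000200000000000000000000000000) := D_37 (nat_lit 122) (nat_lit 121) (nat_lit 105) (nat_lit 3) (nat_lit 2) (nat_lit 7) (nat_lit 4) (nat_lit 4) (nat_lit 10) (by decide +kernel)
theorem L97364 : W_37 (nat_lit 3) (nat_lit 0xa00000002c001e001500098001000000000000000000000000000) (nat_lit 0x0) (nat_lit 0x800000000000200006000200000000000000000000000000) := T_37 (nat_lit 141) (nat_lit 191) (nat_lit 6) (nat_lit 4) (nat_lit 11) L97363 (by decide +kernel)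
theorem L97365 : W_37 (nat_lit 4) (nat_lit 0xa00000002c001e001500088001000000000000000000000000000) (nat_lit 0x0) (nat_lit 0x800000000000200016000a00000000000000000000000000) := T_37 (nat_lit 124) (nat_lit 107) (nat_lit 6) (nat_lit 4) (nat_lit 10) L97364 (by decide +kernel)
theorem L97366 : W_37 (nat_lit 5) (nat_lit 0xa00000002c001e001500080001000000000000000000000000000) (nat_lit 0x0) (nat_lit 0x80000000000020001e000e00000000000000000000000000) := T_37 (nat_lit 123) (nat_lit 106) (nat_lit 7) (nat_lit 4) (nat_lit 6) L97365 (by decide +kernel)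
theorem L97367 : W_37 (nat_lit 6) (nat_lit 0xa00000002c001e001400080001000000000000000000000000000) (nat_lit 0x0) (nat_lit 0x80000000000038001e000e00000000000000000000000000) := T_37 (nat_lit 140) (nat_lit 139) (nat_lit 0) (nat_lit 7) (nat_lit 9) L97366 (by decide +kernel)
theorem L97368 : W_37 (nat_lit 7) (nat_lit 0xa000000028001e001400080001000000000000000000000000000) (nat_lit 0x0) (nat_lit 0x80006000000038001e000e00000000000000000000000000) := T_37 (nat_lit 174) (nat_lit 173) (nat_lit 1) (nat_lit 7) (nat_lit 9) L97367 (by decide +kernel)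
theorem L97369 : W_37 (nat_lit 8) (nat_lit 0xa000000028001c001400080001000000000000000000000000000) (nat_lit 0x0) (nat_lit 0x80046000200038001e000e00000000000000000000000000) := T_37 (nat_lit 157) (nat_lit 178) (nat_lit 3) (nat_lit 4) (nat_lit 9) L97368 (by decide +kernel)
theorem L97370 : W_37 (nat_lit 9) (nat_lit 0xa000000028001c001400080000000000000000000000000000000) (nat_lit 0x0) (nat_lit 0x80046000200038003e001e00000000000000000000000000) := T_37 (nat_lit 108) (nat_lit 125) (nat_lit 7) (nat_lit 6) (nat_lit 6) L97369 (by decide +kernel)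
theorem L97371 : W_37 (nat_lit 10) (nat_lit 0x8000000028001c001400080000000000000000000000000000000) (nat_lit 0x0) (nat_lit 0x2000180046000200038003e001e00000000000000000000000000) := T_37 (nat_lit 209) (nat_lit 192) (nat_lit 6) (nat_lit 5) (nat_lit 12) L97370 (by decide +kernel)
theorem L97372 : W_37 (nat_lit 11) (nat_lit 0x28001c001400080000000000000000000000000000000) (nat_lit 0x0) (nat_lit 0xa000580046000200038003e001e00000000000000000000000000) := T_37 (nat_lit 211) (nat_lit 194) (nat_lit 4) (nat_lit 7) (nat_lit 12) L97371 (by decide +kernel)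
theorem L97373 : W_37 (nat_lit 2) (nat_lit 0x800000002c001e00150009c001000000000000000000000000000) (nat_lit 0x0) (nat_lit 0x800000000000200002000000000000000000000000000000) := D_37 (nat_lit 141) (nat_lit 191) (nat_lit 121) (nat_lit 6) (nat_lit 4) (nat_lit 11) (nat_lit 3) (nat_lit 2) (nat_lit 7) (by decide +kernel)
theorem L97374 : W_37 (nat_lit 3) (nat_lit 0x800000002c001e00150008c001000000000000000000000000000) (nat_lit 0x0) (nat_lit 0x800000000000200012000800000000000000000000000000) := T_37 (nat_lit 124) (nat_lit 107) (nat_lit 6) (nat_lit 4) (nat_lit 10) L97373 (by decide +kernel)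
theorem L97375 : W_37 (nat_lit 4) (nat_lit 0x800000002c001e001500088001000000000000000000000000000) (nat_lit 0x0) (nat_lit 0x800000000000200016000a00000000000000000000000000) := T_37 (nat_lit 122) (nat_lit 105) (nat_lit 4) (nat_lit 4) (nat_lit 10) L97374 (by decide +kernel)
theorem L97376 : W_37 (nat_lit 5) (nat_lit 0x800000002c001e001500088000000000000000000000000000000) (nat_lit 0x0) (nat_lit 0x800000000000200036001a00000000000000000000000000) := T_37 (nat_lit 108) (nat_lit 125) (nat_lit 7) (nat_lit 6) (nat_lit 6) L97375 (by decide +kernel)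
theorem L97377 : W_37 (nat_lit 6) (nat_lit 0x800000002c001e001500080000000000000000000000000000000) (nat_lit 0x0) (nat_lit 0x80000000000020003e001e00000000000000000000000000) := T_37 (nat_lit 123) (nat_lit 106) (nat_lit 7) (nat_lit 4) (nat_lit 6) L97376 (by decide +kernel)
theorem L97378 : W_37 (nat_lit 7) (nat_lit 0x2c001e001500080000000000000000000000000000000) (nat_lit 0x0) (nat_lit 0x8000480000000000020003e001e00000000000000000000000000) := T_37 (nat_lit 211) (nat_lit 194) (nat_lit 4) (nat_lit 7) (nat_lit 12) L97377 (by decide +kernel)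
theorem L97379 : W_37 (nat_lit 8) (nat_lit 0x2c001e001400080000000000000000000000000000000) (nat_lit 0x0) (nat_lit 0x8000480000000000038003e001e00000000000000000000000000) := T_37 (nat_lit 140) (nat_lit 139) (nat_lit 0) (nat_lit 7) (nat_lit 9) L97378 (by decide +kernel)
theorem L97380 : W_37 (nat_lit 9) (nat_lit 0x28001e001400080000000000000000000000000000000) (nat_lit 0x0) (nat_lit 0x8000480006000000038003e001e00000000000000000000000000) := T_37 (nat_lit 174) (nat_lit 173) (nat_lit 1) (nat_lit 7) (nat_lit 9) L97379 (by decide +kernel)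
theorem L97381 : W_37 (nat_lit 10) (nat_lit 0x28001c001400080000000000000000000000000000000) (nat_lit 0x0) (nat_lit 0x8000480046000200038003e001e00000000000000000000000000) := T_37 (nat_lit 157) (nat_lit 178) (nat_lit 3) (nat_lit 4) (nat_lit 9) L97380 (by decide +kernel)
theorem L97382 : W_37 (nat_lit 2) (nat_lit 0x10002c001e001400080000000000000000000000000000000) (nat_lit 0x0) (nat_lit 0x180008000000000000000000000000000000) := D_37 (nat_lit 140) (nat_lit 139) (nat_lit 123) (nat_lit 0) (nat_lit 7) (nat_lit 9) (nat_lit 7) (nat_lit 4) (nat_lit 7) (by decide +kernel)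
theorem L97383 : W_37 (nat_lit 3) (nat_lit 0x100028001e001400080000000000000000000000000000000) (nat_lit 0x0) (nat_lit 0x60000000180008000000000000000000000000000000) := T_37 (nat_lit 174) (nat_lit 173) (nat_lit 1) (nat_lit 7) (nat_lit 9) L97382 (by decide +kernel)
theorem L97384 : W_37 (nat_lit 4) (nat_lit 0x100028001c001400080000000000000000000000000000000) (nat_lit 0x0) (nat_lit 0x460002000180008000000000000000000000000000000) := T_37 (nat_lit 157) (nat_lit 178) (nat_lit 3) (nat_lit 4) (nat_lit 9) L97383 (by decide +kernel)
theorem L97385 : W_37 (nat_lit 5) (nat_lit 0x28001c001400080000000000000000000000000000000) (nat_lit 0x0) (nat_lit 0x20001000460002000180008000000000000000000000000000000) := T_37 (nat_lit 192) (nat_lit 209) (nat_lit 6) (nat_lit 5) (nat_lit 12) L97384 (by decide +kernel)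
theorem L97386 : W_37 (nat_lit 12) (nat_lit 0x20001c001400080000000000000000000000000000000) (nat_lit 0x0) (nat_lit 0xa00058004e000200038003e001e00000000000000000000000000) := Q_37 (nat_lit 175) (C_37 L97372 (C_37 L97381 (C_37 L64660 (C_37 L97385 N_37)))) (by decide +kernel)
theorem L97387 : W_37 (nat_lit 2) (nat_lit 0x8003c001e0015000a0000400000000000000000000000000) (nat_lit 0x0) (nat_lit 0x200010000800000000000000000000000000) := D_37 (nat_lit 124) (nat_lit 107) (nat_lit 141) (nat_lit 4) (nat_lit 6) (nat_lit 10) (nat_lit 6) (nat_lit 4) (nat_lit 11) (by decide +kernel)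
theorem L97388 : W_37 (nat_lit 3) (nat_lit 0x3c001e0015000a0000400000000000000000000000000) (nat_lit 0x0) (nat_lit 0xc00000000000200010000800000000000000000000000000) := T_37 (nat_lit 191) (nat_lit 190) (nat_lit 1) (nat_lit 7) (nat_lit 10) L97387 (by decide +kernel)
theorem L97389 : W_37 (nat_lit 4) (nat_lit 0x3c001e0015000a0000000000000000000000000000000) (nat_lit 0x0) (nat_lit 0xc00000000000200018000c00000000000000000000000000) := T_37 (nat_lit 106) (nat_lit 123) (nat_lit 7) (nat_lit 4) (nat_lit 6) L97388 (by decide +kernel)
theorem L97390 : W_37 (nat_lit 5) (nat_lit 0x34001e0015000a0000000000000000000000000000000) (nat_lit 0x0) (nat_lit 0x1c00080000000200018000c00000000000000000000000000) := T_37 (nat_lit 175) (nat_lit 192) (nat_lit 5) (nat_lit 6) (nat_lit 7) L97389 (by decide +kernel)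
theorem L97391 : W_37 (nat_lit 6) (nat_lit 0x24001e0015000a0000000000000000000000000000000) (nat_lit 0x0) (nat_lit 0x5c00180000000200018000c00000000000000000000000000) := T_37 (nat_lit 176) (nat_lit 194) (nat_lit 7) (nat_lit 6) (nat_lit 7) L97390 (by decide +kernel)
theorem L97392 : W_37 (nat_lit 7) (nat_lit 0x24001e0014000a0000000000000000000000000000000) (nat_lit 0x0) (nat_lit 0x5c00180000000380018000c00000000000000000000000000) := T_37 (nat_lit 140) (nat_lit 139) (nat_lit 0) (nat_lit 7) (nat_lit 9) L97391 (by decide +kernel)
theorem L97393 : W_37 (nat_lit 8) (nat_lit 0x20001e0014000a0000000000000000000000000000000) (nat_lit 0x0) (nat_lit 0x5c001e0000000380018000c00000000000000000000000000) := T_37 (nat_lit 174) (nat_lit 173) (nat_lit 1) (nat_lit 7) (nat_lit 9) L97392 (by decide +kernel)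
theorem L97394 : W_37 (nat_lit 9) (nat_lit 0x20001c0014000a0000000000000000000000000000000) (nat_lit 0x0) (nat_lit 0x5c005e0002000380018000c00000000000000000000000000) := T_37 (nat_lit 157) (nat_lit 178) (nat_lit 3) (nat_lit 4) (nat_lit 9) L97393 (by decide +kernel)
theorem L97395 : W_37 (nat_lit 10) (nat_lit 0x20001c001400080000000000000000000000000000000) (nat_lit 0x0) (nat_lit 0x5c005e0002000380038001c00000000000000000000000000) := T_37 (nat_lit 125) (nat_lit 108) (nat_lit 7) (nat_lit 6) (nat_lit 6) L97394 (by decide +kernel)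
theorem L97396 : W_37 (nat_lit 10) (nat_lit 0x20001c001400080000000000000000000000000000000) (nat_lit 0x0) (nat_lit 0x200018004e000200038003e001e00000000000000000000000000) := Q_37 (nat_lit 175) (C_37 L97385 (C_37 L64720 (C_37 L64660 N_37))) (by decide +kernel)
theorem L97397 : W_37 (nat_lit 2) (nat_lit 0x40003c001e001500080000000000000000000000000000000) (nat_lit 0x0) (nat_lit 0x20001000000000000000008000000000000000000000000000000) := D_37 (nat_lit 192) (nat_lit 209) (nat_lit 123) (nat_lit 6) (nat_lit 5) (nat_lit 12) (nat_lit 7) (nat_lit 4) (nat_lit 7) (by decide +kernel)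
theorem L97398 : W_37 (nat_lit 3) (nat_lit 0x400034001e001500080000000000000000000000000000000) (nat_lit 0x0) (nat_lit 0x20009000080000000000008000000000000000000000000000000) := T_37 (nat_lit 175) (nat_lit 195) (nat_lit 3) (nat_lit 4) (nat_lit 10) L97397 (by decide +kernel)
theorem L97399 : W_37 (nat_lit 4) (nat_lit 0x400024001e001500080000000000000000000000000000000) (nat_lit 0x0) (nat_lit 0x20009000180000000000028000000000000000000000000000000) := T_37 (nat_lit 176) (nat_lit 125) (nat_lit 7) (nat_lit 6) (nat_lit 7) L97398 (by decide +kernel)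
theorem L97400 : W_37 (nat_lit 5) (nat_lit 0x400024001e001400080000000000000000000000000000000) (nat_lit 0x0) (nat_lit 0x20009000180000000180028000000000000000000000000000000) := T_37 (nat_lit 140) (nat_lit 139) (nat_lit 0) (nat_lit 7) (nat_lit 9) L97399 (by decide +kernel)
theorem L97401 : W_37 (nat_lit 6) (nat_lit 0x400020001e001400080000000000000000000000000000000) (nat_lit 0x0) (nat_lit 0x200090001e0000000180028000000000000000000000000000000) := T_37 (nat_lit 174) (nat_lit 173) (nat_lit 1) (nat_lit 7) (nat_lit 9) L97400 (by decide +kernel)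
theorem L97402 : W_37 (nat_lit 7) (nat_lit 0x400020001c001400080000000000000000000000000000000) (nat_lit 0x0) (nat_lit 0x200090005e0002000180028000000000000000000000000000000) := T_37 (nat_lit 157) (nat_lit 178) (nat_lit 3) (nat_lit 4) (nat_lit 9) L97401 (by decide +kernel)
theorem L97403 : W_37 (nat_lit 8) (nat_lit 0x20001c001400080000000000000000000000000000000) (nat_lit 0x0) (nat_lit 0xa000d0005e0002000180028000000000000000000000000000000) := T_37 (nat_lit 194) (nat_lit 211) (nat_lit 4) (nat_lit 7) (nat_lit 12) L97402 (by decide +kernel)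
theorem L97404 : W_37 (nat_lit 2) (nat_lit 0xa000100024001e001400080000000000000000000000000000000) (nat_lit 0x0) (nat_lit 0x800000000000180000000000000000000000000000000000) := D_37 (nat_lit 140) (nat_lit 139) (nat_lit 191) (nat_lit 0) (nat_lit 7) (nat_lit 9) (nat_lit 7) (nat_lit 4) (nat_lit 8) (by decide +kernel)
theorem L97405 : W_37 (nat_lit 3) (nat_lit 0xa000100020001e001400080000000000000000000000000000000) (nat_lit 0x0) (nat_lit 0x800060000000180000000000000000000000000000000000) := T_37 (nat_lit 174) (nat_lit 173) (nat_lit 1) (nat_lit 7) (nat_lit 9) L97404 (by decide +kernel)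
theorem L97406 : W_37 (nat_lit 4) (nat_lit 0xa000100020001c001400080000000000000000000000000000000) (nat_lit 0x0) (nat_lit 0x800460002000180000000000000000000000000000000000) := T_37 (nat_lit 157) (nat_lit 178) (nat_lit 3) (nat_lit 4) (nat_lit 9) L97405 (by decide +kernel)
theorem L97407 : W_37 (nat_lit 5) (nat_lit 0x8000100020001c001400080000000000000000000000000000000) (nat_lit 0x0) (nat_lit 0x200008004e0002000180000000000000000000000000000000000) := T_37 (nat_lit 209) (nat_lit 175) (nat_lit 6) (nat_lit 5) (nat_lit 12) L97406 (by decide +kernel)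
theorem L97408 : W_37 (nat_lit 6) (nat_lit 0x100020001c001400080000000000000000000000000000000) (nat_lit 0x0) (nat_lit 0xa00048004e0002000180000000000000000000000000000000000) := T_37 (nat_lit 211) (nat_lit 194) (nat_lit 4) (nat_lit 7) (nat_lit 12) L97407 (by decide +kernel)
theorem L97409 : W_37 (nat_lit 2) (nat_lit 0x2000100034001e001400080000000000000000000000000000000) (nat_lit 0x0) (nat_lit 0x800000000000180000000000000000000000000000000000) := D_37 (nat_lit 140) (nat_lit 139) (nat_lit 191) (nat_lit 0) (nat_lit 7) (nat_lit 9) (nat_lit 7) (nat_lit 4) (nat_lit 8) (by decide +kernel)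
theorem L97410 : W_37 (nat_lit 3) (nat_lit 0x2000100030001e001400080000000000000000000000000000000) (nat_lit 0x0) (nat_lit 0x800060000000180000000000000000000000000000000000) := T_37 (nat_lit 174) (nat_lit 173) (nat_lit 1) (nat_lit 7) (nat_lit 9) L97409 (by decide +kernel)
theorem L97411 : W_37 (nat_lit 4) (nat_lit 0x2000100030001c001400080000000000000000000000000000000) (nat_lit 0x0) (nat_lit 0x800460002000180000000000000000000000000000000000) := T_37 (nat_lit 157) (nat_lit 178) (nat_lit 3) (nat_lit 4) (nat_lit 9) L97410 (by decide +kernel)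
theorem L97412 : W_37 (nat_lit 5) (nat_lit 0x2000100020001c001400080000000000000000000000000000000) (nat_lit 0x0) (nat_lit 0x2800560002000180000000000000000000000000000000000) := T_37 (nat_lit 176) (nat_lit 193) (nat_lit 5) (nat_lit 6) (nat_lit 8) L97411 (by decide +kernel)
theorem L97413 : W_37 (nat_lit 6) (nat_lit 0x100020001c001400080000000000000000000000000000000) (nat_lit 0x0) (nat_lit 0x200028005e0002000180000000000000000000000000000000000) := T_37 (nat_lit 209) (nat_lit 175) (nat_lit 6) (nat_lit 5) (nat_lit 12) L97412 (by decide +kernel)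
theorem L97414 : W_37 (nat_lit 4) (nat_lit 0x100024001e001500080000000000000000000000000000000) (nat_lit 0x0) (nat_lit 0xb0004800000000000200010000000000000000000000000000000) := T_37 (nat_lit 211) (nat_lit 194) (nat_lit 4) (nat_lit 7) (nat_lit 12) L64687 (by decide +kernel)
theorem L97415 : W_37 (nat_lit 5) (nat_lit 0x100024001e001400080000000000000000000000000000000) (nat_lit 0x0) (nat_lit 0xb0004800000000000380010000000000000000000000000000000) := T_37 (nat_lit 140) (nat_lit 139) (nat_lit 0) (nat_lit 7) (nat_lit 9) L97414 (by decide +kernel)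
theorem L97416 : W_37 (nat_lit 6) (nat_lit 0x100020001e001400080000000000000000000000000000000) (nat_lit 0x0) (nat_lit 0xb0004800060000000380010000000000000000000000000000000) := T_37 (nat_lit 174) (nat_lit 173) (nat_lit 1) (nat_lit 7) (nat_lit 9) L97415 (by decide +kernel)
theorem L97417 : W_37 (nat_lit 7) (nat_lit 0x100020001c001400080000000000000000000000000000000) (nat_lit 0x0) (nat_lit 0xb0004800460002000380010000000000000000000000000000000) := T_37 (nat_lit 157) (nat_lit 178) (nat_lit 3) (nat_lit 4) (nat_lit 9) L97416 (by decide +kernel)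
theorem L97418 : W_37 (nat_lit 7) (nat_lit 0x8000100024001e001400080000000000000000000000000000000) (nat_lit 0x0) (nat_lit 0x48002c00180000000380018000800000000000000000000000000) := T_37 (nat_lit 140) (nat_lit 139) (nat_lit 0) (nat_lit 7) (nat_lit 9) L64696 (by decide +kernel)
theorem L97419 : W_37 (nat_lit 8) (nat_lit 0x8000100020001e001400080000000000000000000000000000000) (nat_lit 0x0) (nat_lit 0x48002c001e0000000380018000800000000000000000000000000) := T_37 (nat_lit 174) (nat_lit 173) (nat_lit 1) (nat_lit 7) (nat_lit 9) L97418 (by decide +kernel)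
theorem L97420 : W_37 (nat_lit 9) (nat_lit 0x8000100020001c001400080000000000000000000000000000000) (nat_lit 0x0) (nat_lit 0x48002c005e0002000380018000800000000000000000000000000) := T_37 (nat_lit 157) (nat_lit 178) (nat_lit 3) (nat_lit 4) (nat_lit 9) L97419 (by decide +kernel)
theorem L97421 : W_37 (nat_lit 10) (nat_lit 0x100020001c001400080000000000000000000000000000000) (nat_lit 0x0) (nat_lit 0xc8006c005e0002000380018000800000000000000000000000000) := T_37 (nat_lit 211) (nat_lit 194) (nat_lit 4) (nat_lit 7) (nat_lit 12) L97420 (by decide +kernel)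
theorem L97422 : W_37 (nat_lit 11) (nat_lit 0x20001c001400080000000000000000000000000000000) (nat_lit 0x0) (nat_lit 0x7f801fc005e0002000380018000800000000000000000000000000) := Q_37 (nat_lit 192) (C_37 L97408 (C_37 L64681 (C_37 L97413 (C_37 L97417 (C_37 L97421 N_37))))) (by decide +kernel)
theorem L97423 : W_37 (nat_lit 13) (nat_lit 0x20001c001000080000000000000000000000000000000) (nat_lit 0x0) (nat_lit 0x7f801fc005e000200078003e001e00000000000000000000000000) := Q_37 (nat_lit 142) (C_37 L63953 (C_37 L97386 (C_37 L97395 (C_37 L97396 (C_37 L97403 (C_37 L97422 N_37)))))) (by decide +kernel)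
theorem L97424 : W_37 (nat_lit 14) (nat_lit 0x200014001000080000000000000000000000000000000) (nat_lit 0x0) (nat_lit 0x500038007f801fc005e000a000f8003e001e00000000000000000000000000) := Q_37 (nat_lit 159) (C_37 L97423 (C_37 L97129 (C_37 L64447 (C_37 L64723 N_37)))) (by decide +kernel)
theorem L97425 : W_37 (nat_lit 10) (nat_lit 0x280016001000080000000000000000000000000000000) (nat_lit 0x0) (nat_lit 0x14000e0007000f800440000000f00038005c002a0000000000000000000000) := Q_37 (nat_lit 192) (C_37 L97359 (C_37 L97335 (C_37 L97330 (C_37 L97163 N_37)))) (by decide +kernel)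
theorem L97426 : W_37 (nat_lit 13) (nat_lit 0x200016001000080000000000000000000000000000000) (nat_lit 0x0) (nat_lit 0x14000e0007000ff005f8001800f00038007f003e0005000000000000000000) := Q_37 (nat_lit 175) (C_37 L97325 (C_37 L64279 (C_37 L97425 (C_37 L96907 N_37)))) (by decide +kernel)
theorem L97427 : W_37 (nat_lit 14) (nat_lit 0x200014001000080000000000000000000000000000000) (nat_lit 0x0) (nat_lit 0x14000e0007000ff005f800b800fc0038007f003e0005000000000000000000) := Q_37 (nat_lit 157) (C_37 L64042 (C_37 L64446 (C_37 L97426 N_37))) (by decide +kernel)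
theorem L97428 : W_37 (nat_lit 2) (nat_lit 0x200070002c0016001000080000000000000000000000000000000) (nat_lit 0x0) (nat_lit 0x800420000000000000000000000000000000000000000000) := D_37 (nat_lit 191) (nat_lit 173) (nat_lit 178) (nat_lit 0) (nat_lit 7) (nat_lit 11) (nat_lit 2) (nat_lit 4) (nat_lit 11) (by decide +kernel)
theorem L97429 : W_37 (nat_lit 3) (nat_lit 0x200050002c0016001000080000000000000000000000000000000) (nat_lit 0x0) (nat_lit 0xa800420000000000000000000000000000000000000000000) := T_37 (nat_lit 193) (nat_lit 195) (nat_lit 0) (nat_lit 8) (nat_lit 11) L97428 (by decide +kernel)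
theorem L97430 : W_37 (nat_lit 4) (nat_lit 0x20005000280016001000080000000000000000000000000000000) (nat_lit 0x0) (nat_lit 0x40000000a800460000000000000000000000000000000000000000000) := T_37 (nat_lit 174) (nat_lit 226) (nat_lit 4) (nat_lit 5) (nat_lit 13) L97429 (by decide +kernel)
theorem L97431 : W_37 (nat_lit 5) (nat_lit 0x20001000280016001000080000000000000000000000000000000) (nat_lit 0x0) (nat_lit 0x40000000e800460000000800000000000000000000000000000000000) := T_37 (nat_lit 194) (nat_lit 143) (nat_lit 6) (nat_lit 7) (nat_lit 11) L97430 (by decide +kernel)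
theorem L97432 : W_37 (nat_lit 6) (nat_lit 0x1000280016001000080000000000000000000000000000000) (nat_lit 0x0) (nat_lit 0x40002000e800460000000900000000000000000000000000000000000) := T_37 (nat_lit 209) (nat_lit 140) (nat_lit 4) (nat_lit 5) (nat_lit 12) L97431 (by decide +kernel)
theorem L97433 : W_37 (nat_lit 10) (nat_lit 0x280016001000080000000000000000000000000000000) (nat_lit 0x0) (nat_lit 0x400060003000f800460000000f00038005c002a0000000000000000000000) := Q_37 (nat_lit 192) (C_37 L97359 (C_37 L97335 (C_37 L97330 (C_37 L97432 N_37)))) (by decide +kernel)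
theorem L97434 : W_37 (nat_lit 13) (nat_lit 0x200016001000080000000000000000000000000000000) (nat_lit 0x0) (nat_lit 0x400060003000ff005f8001800f00038007f003e0005000000000000000000) := Q_37 (nat_lit 175) (C_37 L97325 (C_37 L64279 (C_37 L97433 (C_37 L96907 N_37)))) (by decide +kernel)
theorem L97435 : W_37 (nat_lit 14) (nat_lit 0x200014001000080000000000000000000000000000000) (nat_lit 0x0) (nat_lit 0x400060003000ff005f800b800fc0038007f003e0005000000000000000000) := Q_37 (nat_lit 157) (C_37 L64042 (C_37 L64446 (C_37 L97434 N_37))) (by decide +kernel)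
theorem L97436 : W_37 (nat_lit 12) (nat_lit 0x200014001200080000000000000000000000000000000) (nat_lit 0x0) (nat_lit 0x4000e0007000fe005e0009c005c003f001c000e0006000000000000000000) := Q_37 (nat_lit 175) (C_37 L96731 (C_37 L96948 (C_37 L96705 (C_37 L96706 (C_37 L96711 (C_37 L96704 (C_37 L96729 (C_37 L96942 (C_37 L96713 N_37))))))))) (by decide +kernel)
theorem L97437 : W_37 (nat_lit 2) (nat_lit 0x7000280014001200080000000000000000000000000000000) (nat_lit 0x0) (nat_lit 0x10000800400000000000000000000000000000000000000000000) := D_37 (nat_lit 191) (nat_lit 178) (nat_lit 208) (nat_lit 2) (nat_lit 4) (nat_lit 11) (nat_lit 5) (nat_lit 5) (nat_lit 8) (by decide +kernel)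
theorem L97438 : W_37 (nat_lit 3) (nat_lit 0x5000280014001200080000000000000000000000000000000) (nat_lit 0x0) (nat_lit 0x50002800400000000000000000000000000000000000000000000) := T_37 (nat_lit 193) (nat_lit 210) (nat_lit 7) (nat_lit 5) (nat_lit 8) L97437 (by decide +kernel)
theorem L97439 : W_37 (nat_lit 4) (nat_lit 0x1000280014001200080000000000000000000000000000000) (nat_lit 0x0) (nat_lit 0x50006800400000000800000000000000000000000000000000000) := T_37 (nat_lit 194) (nat_lit 143) (nat_lit 6) (nat_lit 7) (nat_lit 11) L97438 (by decide +kernel)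
theorem L97440 : W_37 (nat_lit 2) (nat_lit 0x10000f000280014001300080000000000000000000000000000000) (nat_lit 0x0) (nat_lit 0x40002000000000000400000000000000000000000000000000000000000000) := D_37 (nat_lit 229) (nat_lit 178) (nat_lit 246) (nat_lit 4) (nat_lit 8) (nat_lit 13) (nat_lit 4) (nat_lit 8) (nat_lit 14) (by decide +kernel)
theorem L97441 : W_37 (nat_lit 3) (nat_lit 0xf000280014001300080000000000000000000000000000000) (nat_lit 0x0) (nat_lit 0x40002000300000000400000000000000000000000000000000000000000000) := T_37 (nat_lit 212) (nat_lit 213) (nat_lit 3) (nat_lit 5) (nat_lit 11) L97440 (by decide +kernel)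
theorem L97442 : W_37 (nat_lit 4) (nat_lit 0xf000280014001200080000000000000000000000000000000) (nat_lit 0x0) (nat_lit 0x40002000300000000400000000100008000000000000000000000000000000) := T_37 (nat_lit 140) (nat_lit 123) (nat_lit 4) (nat_lit 5) (nat_lit 11) L97441 (by decide +kernel)
theorem L97443 : W_37 (nat_lit 5) (nat_lit 0x7000280014001200080000000000000000000000000000000) (nat_lit 0x0) (nat_lit 0x40002000300008000440000000100008000000000000000000000000000000) := T_37 (nat_lit 195) (nat_lit 174) (nat_lit 0) (nat_lit 8) (nat_lit 11) L97442 (by decide +kernel)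
theorem L97444 : W_37 (nat_lit 6) (nat_lit 0x5000280014001200080000000000000000000000000000000) (nat_lit 0x0) (nat_lit 0x4000200034000a000440000000100008000000000000000000000000000000) := T_37 (nat_lit 193) (nat_lit 210) (nat_lit 7) (nat_lit 5) (nat_lit 8) L97443 (by decide +kernel)
theorem L97445 : W_37 (nat_lit 7) (nat_lit 0x1000280014001200080000000000000000000000000000000) (nat_lit 0x0) (nat_lit 0x4000200034000e000440000000900008000000000000000000000000000000) := T_37 (nat_lit 194) (nat_lit 143) (nat_lit 6) (nat_lit 7) (nat_lit 11) L97444 (by decide +kernel)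
theorem L97446 : W_37 (nat_lit 8) (nat_lit 0x280014001200080000000000000000000000000000000) (nat_lit 0x0) (nat_lit 0x4000200035000f800460000000900018000400000000000000000000000000) := Q_37 (nat_lit 192) (C_37 L62818 (C_37 L97031 (C_37 L97439 (C_37 L97445 N_37)))) (by decide +kernel)
theorem L97447 : W_37 (nat_lit 2) (nat_lit 0x2c0014001e00090001800220000000000000000000000) (nat_lit 0x0) (nat_lit 0x8000000000000000040001000000000000000000) := D_37 (nat_lit 90) (nat_lit 159) (nat_lit 72) (nat_lit 7) (nat_lit 5) (nat_lit 5) (nat_lit 4) (nat_lit 5) (nat_lit 8) (by decide +kernel)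
theorem L97448 : W_37 (nat_lit 3) (nat_lit 0x2c0014001e00090001800200000000000000000000000) (nat_lit 0x0) (nat_lit 0x8000000000000400060001000000000000000000) := T_37 (nat_lit 89) (nat_lit 106) (nat_lit 4) (nat_lit 5) (nat_lit 9) L97447 (by decide +kernel)
theorem L97449 : W_37 (nat_lit 4) (nat_lit 0x2c0014001e00090001000200000000000000000000000) (nat_lit 0x0) (nat_lit 0x8000000000000c000e0001000000000000000000) := T_37 (nat_lit 107) (nat_lit 91) (nat_lit 6) (nat_lit 5) (nat_lit 9) L97448 (by decide +kernel)
theorem L97450 : W_37 (nat_lit 5) (nat_lit 0x280014001e00090001000200000000000000000000000) (nat_lit 0x0) (nat_lit 0x800040008000000000000c000e0001000000000000000000) := T_37 (nat_lit 174) (nat_lit 191) (nat_lit 5) (nat_lit 5) (nat_lit 7) L97449 (by decide +kernel)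
theorem L97451 : W_37 (nat_lit 6) (nat_lit 0x280014001e00090000000200000000000000000000000) (nat_lit 0x0) (nat_lit 0x800040008000000020001c000e0001000000000000000000) := T_37 (nat_lit 108) (nat_lit 125) (nat_lit 6) (nat_lit 5) (nat_lit 10) L97450 (by decide +kernel)
theorem L97452 : W_37 (nat_lit 7) (nat_lit 0x280014001e00080000000200000000000000000000000) (nat_lit 0x0) (nat_lit 0x800040008000000038001c000e0001000000000000000000) := T_37 (nat_lit 124) (nat_lit 123) (nat_lit 0) (nat_lit 8) (nat_lit 8) L97451 (by decide +kernel)
theorem L97453 : W_37 (nat_lit 8) (nat_lit 0x280014001a00080000000200000000000000000000000) (nat_lit 0x0) (nat_lit 0x800040008000400138001c000e0001000000000000000000) := T_37 (nat_lit 142) (nat_lit 128) (nat_lit 2) (nat_lit 5) (nat_lit 8) L97452 (by decide +kernel)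
theorem L97454 : W_37 (nat_lit 9) (nat_lit 0x280014001a00080000000000000000000000000000000) (nat_lit 0x0) (nat_lit 0x800040008000400138005c002e0001000000000000000000) := T_37 (nat_lit 93) (nat_lit 110) (nat_lit 5) (nat_lit 8) (nat_lit 5) L97453 (by decide +kernel)
theorem L97455 : W_37 (nat_lit 10) (nat_lit 0x280014001200080000000000000000000000000000000) (nat_lit 0x0) (nat_lit 0x4800040008000c00138005c002e0001000000000000000000) := T_37 (nat_lit 143) (nat_lit 194) (nat_lit 6) (nat_lit 7) (nat_lit 11) L97454 (by decide +kernel)
theorem L97456 : W_37 (nat_lit 2) (nat_lit 0x380028001c001e00080000000200000000000000000000000) (nat_lit 0x0) (nat_lit 0x180008000000000000000000000000000000) := D_37 (nat_lit 140) (nat_lit 123) (nat_lit 139) (nat_lit 4) (nat_lit 5) (nat_lit 11) (nat_lit 3) (nat_lit 3) (nat_lit 8) (by decide +kernel)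
theorem L97457 : W_37 (nat_lit 3) (nat_lit 0x3800280014001e00080000000200000000000000000000000) (nat_lit 0x0) (nat_lit 0x20000000000008000180008000000000000000000000000000000) := T_37 (nat_lit 159) (nat_lit 209) (nat_lit 6) (nat_lit 5) (nat_lit 12) L97456 (by decide +kernel)
theorem L97458 : W_37 (nat_lit 4) (nat_lit 0x1800280014001e00080000000200000000000000000000000) (nat_lit 0x0) (nat_lit 0x60002000000008000180008000000000000000000000000000000) := T_37 (nat_lit 193) (nat_lit 210) (nat_lit 7) (nat_lit 5) (nat_lit 8) L97457 (by decide +kernel)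
theorem L97459 : W_37 (nat_lit 5) (nat_lit 0x1000280014001e00080000000200000000000000000000000) (nat_lit 0x0) (nat_lit 0x70002800000008000180008000000000000000000000000000000) := T_37 (nat_lit 191) (nat_lit 208) (nat_lit 5) (nat_lit 5) (nat_lit 8) L97458 (by decide +kernel)
theorem L97460 : W_37 (nat_lit 6) (nat_lit 0x280014001e00080000000200000000000000000000000) (nat_lit 0x0) (nat_lit 0x70003800000008000180028000000000000000000000000000000) := T_37 (nat_lit 192) (nat_lit 125) (nat_lit 6) (nat_lit 5) (nat_lit 11) L97459 (by decide +kernel)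
theorem L97461 : W_37 (nat_lit 7) (nat_lit 0x280014001a00080000000200000000000000000000000) (nat_lit 0x0) (nat_lit 0x70003800000008000580128000000000000000000000000000000) := T_37 (nat_lit 142) (nat_lit 128) (nat_lit 2) (nat_lit 5) (nat_lit 8) L97460 (by decide +kernel)
theorem L97462 : W_37 (nat_lit 8) (nat_lit 0x280014001a00080000000000000000000000000000000) (nat_lit 0x0) (nat_lit 0x70003800000008000580128004000200000000000000000000000) := T_37 (nat_lit 93) (nat_lit 110) (nat_lit 5) (nat_lit 8) (nat_lit 5) L97461 (by decide +kernel)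
theorem L97463 : W_37 (nat_lit 9) (nat_lit 0x280014001200080000000000000000000000000000000) (nat_lit 0x0) (nat_lit 0x70007800000008000d80128004000200000000000000000000000) := T_37 (nat_lit 143) (nat_lit 194) (nat_lit 6) (nat_lit 7) (nat_lit 11) L97462 (by decide +kernel)
theorem L97464 : W_37 (nat_lit 2) (nat_lit 0x40001800280014001e00090000000200000000000000000000000) (nat_lit 0x0) (nat_lit 0x800020000000000008000000000000000000000000000000000000000) := D_37 (nat_lit 209) (nat_lit 159) (nat_lit 227) (nat_lit 6) (nat_lit 5) (nat_lit 12) (nat_lit 7) (nat_lit 5) (nat_lit 9) (by decide +kernel)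
theorem L97465 : W_37 (nat_lit 3) (nat_lit 0x1800280014001e00090000000200000000000000000000000) (nat_lit 0x0) (nat_lit 0x800060002000000008000000000000000000000000000000000000000) := T_37 (nat_lit 210) (nat_lit 193) (nat_lit 7) (nat_lit 5) (nat_lit 8) L97464 (by decide +kernel)
theorem L97466 : W_37 (nat_lit 4) (nat_lit 0x1800280014001e00080000000200000000000000000000000) (nat_lit 0x0) (nat_lit 0x800060002000040008000000010000000000000000000000000000000) := T_37 (nat_lit 124) (nat_lit 174) (nat_lit 5) (nat_lit 5) (nat_lit 7) L97465 (by decide +kernel)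
theorem L97467 : W_37 (nat_lit 5) (nat_lit 0x1000280014001e00080000000200000000000000000000000) (nat_lit 0x0) (nat_lit 0x800070002800040008000000010000000000000000000000000000000) := T_37 (nat_lit 191) (nat_lit 208) (nat_lit 5) (nat_lit 5) (nat_lit 8) L97466 (by decide +kernel)
theorem L97468 : W_37 (nat_lit 6) (nat_lit 0x280014001e00080000000200000000000000000000000) (nat_lit 0x0) (nat_lit 0x800070003800040008000000030000000000000000000000000000000) := T_37 (nat_lit 192) (nat_lit 125) (nat_lit 6) (nat_lit 5) (nat_lit 11) L97467 (by decide +kernel)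
theorem L97469 : W_37 (nat_lit 7) (nat_lit 0x280014001a00080000000200000000000000000000000) (nat_lit 0x0) (nat_lit 0x800070003800040008000400130000000000000000000000000000000) := T_37 (nat_lit 142) (nat_lit 128) (nat_lit 2) (nat_lit 5) (nat_lit 8) L97468 (by decide +kernel)
theorem L97470 : W_37 (nat_lit 8) (nat_lit 0x280014001a00080000000000000000000000000000000) (nat_lit 0x0) (nat_lit 0x800070003800040008000400130004000200000000000000000000000) := T_37 (nat_lit 93) (nat_lit 110) (nat_lit 5) (nat_lit 8) (nat_lit 5) L97469 (by decide +kernel)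
theorem L97471 : W_37 (nat_lit 9) (nat_lit 0x280014001200080000000000000000000000000000000) (nat_lit 0x0) (nat_lit 0x800070007800040008000c00130004000200000000000000000000000) := T_37 (nat_lit 143) (nat_lit 194) (nat_lit 6) (nat_lit 7) (nat_lit 11) L97470 (by decide +kernel)
theorem L97472 : W_37 (nat_lit 11) (nat_lit 0x200014001200080000000000000000000000000000000) (nat_lit 0x0) (nat_lit 0x4000280037000f8004e0009c00dc013f005c002e0001000000000000000000) := Q_37 (nat_lit 175) (C_37 L96705 (C_37 L97266 (C_37 L97446 (C_37 L97455 (C_37 L97249 (C_37 L97463 (C_37 L97471 N_37))))))) (by decide +kernel)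
theorem L97473 : W_37 (nat_lit 13) (nat_lit 0x200014001200080000000000000000000000000000000) (nat_lit 0x0) (nat_lit 0x4000e00070003f005f0009c00dc013f005c002a0000000000000000000000) := Q_37 (nat_lit 175) (C_37 L96948 (C_37 L96705 (C_37 L96706 (C_37 L96711 (C_37 L96941 (C_37 L96819 (C_37 L96947 (C_37 L96929 (C_37 L96942 N_37))))))))) (by decide +kernel)
theorem L97474 : W_37 (nat_lit 2) (nat_lit 0x100018000400020001c001200080000000000000000000000000000000) (nat_lit 0x0) (nat_lit 0x10000800040000000000000000000000000000000000000000000000000000) := D_37 (nat_lit 227) (nat_lit 210) (nat_lit 244) (nat_lit 5) (nat_lit 7) (nat_lit 9) (nat_lit 5) (nat_lit 7) (nat_lit 10) (by decide +kernel)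
theorem L97475 : W_37 (nat_lit 3) (nat_lit 0x18000400020001c001200080000000000000000000000000000000) (nat_lit 0x0) (nat_lit 0x10001800040000000100000000000000000000000000000000000000000000) := T_37 (nat_lit 228) (nat_lit 176) (nat_lit 4) (nat_lit 7) (nat_lit 13) L97474 (by decide +kernel)
theorem L97476 : W_37 (nat_lit 4) (nat_lit 0x8000400020001c001200080000000000000000000000000000000) (nat_lit 0x0) (nat_lit 0x10003800140000000100000000000000000000000000000000000000000000) := T_37 (nat_lit 212) (nat_lit 229) (nat_lit 7) (nat_lit 7) (nat_lit 9) L97475 (by decide +kernel)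
theorem L97477 : W_37 (nat_lit 5) (nat_lit 0x80004000200014001200080000000000000000000000000000000) (nat_lit 0x0) (nat_lit 0x10003800140000000100008000400000000000000000000000000000000000) := T_37 (nat_lit 159) (nat_lit 142) (nat_lit 4) (nat_lit 7) (nat_lit 12) L97476 (by decide +kernel)
theorem L97478 : W_37 (nat_lit 2) (nat_lit 0x2800080004000200014001200080000000000000000000000000000000) (nat_lit 0x0) (nat_lit 0x50001000000000000000000000000000000000000000000000000000000000) := D_37 (nat_lit 228) (nat_lit 244) (nat_lit 246) (nat_lit 5) (nat_lit 7) (nat_lit 10) (nat_lit 7) (nat_lit 7) (nat_lit 10) (by decide +kernel)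
theorem L97479 : W_37 (nat_lit 3) (nat_lit 0x800080004000200014001200080000000000000000000000000000000) (nat_lit 0x0) (nat_lit 0x50003000100000000000000000000000000000000000000000000000000000) := T_37 (nat_lit 229) (nat_lit 212) (nat_lit 7) (nat_lit 7) (nat_lit 9) L97478 (by decide +kernel)
theorem L97480 : W_37 (nat_lit 4) (nat_lit 0x80004000200014001200080000000000000000000000000000000) (nat_lit 0x0) (nat_lit 0x50003800140000000000000000000000000000000000000000000000000000) := T_37 (nat_lit 227) (nat_lit 210) (nat_lit 5) (nat_lit 7) (nat_lit 9) L97479 (by decide +kernel)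
theorem L97481 : W_37 (nat_lit 2) (nat_lit 0x1c000600020001c001200080000000000000000000000000000000) (nat_lit 0x0) (nat_lit 0x200001800000000000000000000000000000000000000000000000) := D_37 (nat_lit 192) (nat_lit 191) (nat_lit 213) (nat_lit 3) (nat_lit 4) (nat_lit 11) (nat_lit 0) (nat_lit 9) (nat_lit 12) (by decide +kernel)
theorem L97482 : W_37 (nat_lit 3) (nat_lit 0x1c000400020001c001200080000000000000000000000000000000) (nat_lit 0x0) (nat_lit 0x200003800100000000000000000000000000000000000000000000) := T_37 (nat_lit 193) (nat_lit 176) (nat_lit 4) (nat_lit 6) (nat_lit 12) L97481 (by decide +kernel)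
theorem L97483 : W_37 (nat_lit 4) (nat_lit 0x1c0004000200014001200080000000000000000000000000000000) (nat_lit 0x0) (nat_lit 0x200003800100008000400000000000000000000000000000000000) := T_37 (nat_lit 159) (nat_lit 142) (nat_lit 4) (nat_lit 7) (nat_lit 12) L97482 (by decide +kernel)
theorem L97484 : W_37 (nat_lit 5) (nat_lit 0xc0004000200014001200080000000000000000000000000000000) (nat_lit 0x0) (nat_lit 0x2000300003800100008000400000000000000000000000000000000000) := T_37 (nat_lit 212) (nat_lit 229) (nat_lit 7) (nat_lit 7) (nat_lit 9) L97483 (by decide +kernel)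
theorem L97485 : W_37 (nat_lit 6) (nat_lit 0x80004000200014001200080000000000000000000000000000000) (nat_lit 0x0) (nat_lit 0x2800340003800100008000400000000000000000000000000000000000) := T_37 (nat_lit 210) (nat_lit 227) (nat_lit 5) (nat_lit 7) (nat_lit 9) L97484 (by decide +kernel)
theorem L97486 : W_37 (nat_lit 2) (nat_lit 0x3000100018000400020001c001200080000000000000000000000000000000) (nat_lit 0x0) (nat_lit 0x400000000000000008000400000000000000000000000000000000000000000000) := D_37 (nat_lit 195) (nat_lit 178) (nat_lit 262) (nat_lit 6) (nat_lit 7) (nat_lit 14) (nat_lit 6) (nat_lit 7) (nat_lit 15) (by decide +kernel)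
theorem L97487 : W_37 (nat_lit 3) (nat_lit 0x1000100018000400020001c001200080000000000000000000000000000000) (nat_lit 0x0) (nat_lit 0x600020000000000008000400000000000000000000000000000000000000000000) := T_37 (nat_lit 245) (nat_lit 261) (nat_lit 5) (nat_lit 7) (nat_lit 11) L97486 (by decide +kernel)
theorem L97488 : W_37 (nat_lit 4) (nat_lit 0x100018000400020001c001200080000000000000000000000000000000) (nat_lit 0x0) (nat_lit 0x600030000800000008000400000000000000000000000000000000000000000000) := T_37 (nat_lit 244) (nat_lit 227) (nat_lit 5) (nat_lit 7) (nat_lit 10) L97487 (by decide +kernel)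
theorem L97489 : W_37 (nat_lit 5) (nat_lit 0x18000400020001c001200080000000000000000000000000000000) (nat_lit 0x0) (nat_lit 0x600030001800000008000500000000000000000000000000000000000000000000) := T_37 (nat_lit 228) (nat_lit 176) (nat_lit 4) (nat_lit 7) (nat_lit 13) L97488 (by decide +kernel)
theorem L97490 : W_37 (nat_lit 6) (nat_lit 0x8000400020001c001200080000000000000000000000000000000) (nat_lit 0x0) (nat_lit 0x600030003800100008000500000000000000000000000000000000000000000000) := T_37 (nat_lit 212) (nat_lit 229) (nat_lit 7) (nat_lit 7) (nat_lit 9) L97489 (by decide +kernel)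
theorem L97491 : W_37 (nat_lit 7) (nat_lit 0x80004000200014001200080000000000000000000000000000000) (nat_lit 0x0) (nat_lit 0x600030003800100008000500008000400000000000000000000000000000000000) := T_37 (nat_lit 159) (nat_lit 142) (nat_lit 4) (nat_lit 7) (nat_lit 12) L97490 (by decide +kernel)
theorem L97492 : W_37 (nat_lit 2) (nat_lit 0xc000400020001c001200080000000000000000000000000000000) (nat_lit 0x0) (nat_lit 0x1000000002000100000000000000000000000000000000000000000000) := D_37 (nat_lit 176) (nat_lit 193) (nat_lit 228) (nat_lit 4) (nat_lit 6) (nat_lit 12) (nat_lit 4) (nat_lit 7) (nat_lit 13) (by decide +kernel)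
theorem L97493 : W_37 (nat_lit 3) (nat_lit 0x8000400020001c001200080000000000000000000000000000000) (nat_lit 0x0) (nat_lit 0x1800040002000100000000000000000000000000000000000000000000) := T_37 (nat_lit 210) (nat_lit 227) (nat_lit 5) (nat_lit 7) (nat_lit 9) L97492 (by decide +kernel)
theorem L97494 : W_37 (nat_lit 4) (nat_lit 0x80004000200014001200080000000000000000000000000000000) (nat_lit 0x0) (nat_lit 0x1800040002000100008000400000000000000000000000000000000000) := T_37 (nat_lit 159) (nat_lit 142) (nat_lit 4) (nat_lit 7) (nat_lit 12) L97493 (by decide +kernel)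
theorem L97495 : W_37 (nat_lit 2) (nat_lit 0x38000600030001c001200080000800000000000000000000000000) (nat_lit 0x0) (nat_lit 0x9800000000000000000000000000000000000000000000000) := D_37 (nat_lit 192) (nat_lit 191) (nat_lit 195) (nat_lit 3) (nat_lit 4) (nat_lit 11) (nat_lit 3) (nat_lit 5) (nat_lit 11) (by decide +kernel)
theorem L97496 : W_37 (nat_lit 3) (nat_lit 0x18000600030001c001200080000800000000000000000000000000) (nat_lit 0x0) (nat_lit 0x600009800000000000000000000000000000000000000000000000) := T_37 (nat_lit 213) (nat_lit 214) (nat_lit 0) (nat_lit 10) (nat_lit 12) L97495 (by decide +kernel)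
theorem L97497 : W_37 (nat_lit 4) (nat_lit 0x18000600030001c001200080000000000000000000000000000000) (nat_lit 0x0) (nat_lit 0x600009800000000000000010000800000000000000000000000000) := T_37 (nat_lit 107) (nat_lit 124) (nat_lit 7) (nat_lit 5) (nat_lit 6) L97496 (by decide +kernel)
theorem L97498 : W_37 (nat_lit 5) (nat_lit 0x18000400030001c001200080000000000000000000000000000000) (nat_lit 0x0) (nat_lit 0x64000b800000000000000010000800000000000000000000000000) := T_37 (nat_lit 193) (nat_lit 210) (nat_lit 4) (nat_lit 6) (nat_lit 12) L97497 (by decide +kernel)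
theorem L97499 : W_37 (nat_lit 6) (nat_lit 0x18000400020001c001200080000000000000000000000000000000) (nat_lit 0x0) (nat_lit 0x100064000b800100000000000010000800000000000000000000000000) := T_37 (nat_lit 176) (nat_lit 228) (nat_lit 4) (nat_lit 7) (nat_lit 13) L97498 (by decide +kernel)
theorem L97500 : W_37 (nat_lit 7) (nat_lit 0x8000400020001c001200080000000000000000000000000000000) (nat_lit 0x0) (nat_lit 0x300074000b800100000000000010000800000000000000000000000000) := T_37 (nat_lit 212) (nat_lit 229) (nat_lit 7) (nat_lit 7) (nat_lit 9) L97499 (by decide +kernel)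
theorem L97501 : W_37 (nat_lit 8) (nat_lit 0x80004000200014001200080000000000000000000000000000000) (nat_lit 0x0) (nat_lit 0x300074000b800100008000400010000800000000000000000000000000) := T_37 (nat_lit 159) (nat_lit 142) (nat_lit 4) (nat_lit 7) (nat_lit 12) L97500 (by decide +kernel)
theorem L97502 : W_37 (nat_lit 9) (nat_lit 0x4000200014001200080000000000000000000000000000000) (nat_lit 0x0) (nat_lit 0x6000700038007c000b800500008000400010000800000000000000000000000000) := Q_37 (nat_lit 211) (C_37 L97477 (C_37 L97480 (C_37 L97485 (C_37 L97491 (C_37 L97494 (C_37 L97501 N_37)))))) (by decide +kernel)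
theorem L97503 : W_37 (nat_lit 10) (nat_lit 0x200014001200080000000000000000000000000000000) (nat_lit 0x0) (nat_lit 0x6000700038007c000f800500008000c00010000800000000000000000000000000) := T_37 (nat_lit 194) (nat_lit 143) (nat_lit 6) (nat_lit 7) (nat_lit 11) L97502 (by decide +kernel)
theorem L97504 : W_37 (nat_lit 2) (nat_lit 0x20001c001200098000c00040000000000000000000000) (nat_lit 0x0) (nat_lit 0x100000000000000002000100000000000000) := D_37 (nat_lit 73) (nat_lit 56) (nat_lit 140) (nat_lit 5) (nat_lit 5) (nat_lit 3) (nat_lit 5) (nat_lit 5) (nat_lit 4) (by decide +kernel)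
theorem L97505 : W_37 (nat_lit 3) (nat_lit 0x20001c001200090000c00040000000000000000000000) (nat_lit 0x0) (nat_lit 0x80000000100008000000000002000100000000000000) := T_37 (nat_lit 123) (nat_lit 175) (nat_lit 4) (nat_lit 5) (nat_lit 10) L97504 (by decide +kernel)
theorem L97506 : W_37 (nat_lit 4) (nat_lit 0x20001c001200090000c00000000000000000000000000) (nat_lit 0x0) (nat_lit 0x80000000500008000000040002000100000000000000) := T_37 (nat_lit 90) (nat_lit 142) (nat_lit 7) (nat_lit 5) (nat_lit 5) L97505 (by decide +kernel)
theorem L97507 : W_37 (nat_lit 5) (nat_lit 0x200014001200090000c00000000000000000000000000) (nat_lit 0x0) (nat_lit 0x180008000500008000000040002000100000000000000) := T_37 (nat_lit 159) (nat_lit 176) (nat_lit 7) (nat_lit 5) (nat_lit 6) L97506 (by decide +kernel)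
theorem L97508 : W_37 (nat_lit 6) (nat_lit 0x200014001200090000800000000000000000000000000) (nat_lit 0x0) (nat_lit 0x180008000500008000400060002000100000000000000) := T_37 (nat_lit 106) (nat_lit 89) (nat_lit 4) (nat_lit 5) (nat_lit 9) L97507 (by decide +kernel)
theorem L97509 : W_37 (nat_lit 7) (nat_lit 0x200014001200090000000000000000000000000000000) (nat_lit 0x0) (nat_lit 0x180008000500028001c000e0002000100000000000000) := Q_37 (nat_lit 107) (C_37 L97109 (C_37 L63643 (C_37 L97508 N_37))) (by decide +kernel)
theorem L97510 : W_37 (nat_lit 2) (nat_lit 0x4000380014001200090000c00000000000000000000000000) (nat_lit 0x0) (nat_lit 0x8800040000000000000000000000000000000000000000000) := D_37 (nat_lit 174) (nat_lit 195) (nat_lit 191) (nat_lit 3) (nat_lit 4) (nat_lit 10) (nat_lit 5) (nat_lit 5) (nat_lit 7) (by decide +kernel)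
theorem L97511 : W_37 (nat_lit 3) (nat_lit 0x4000300014001200090000c00000000000000000000000000) (nat_lit 0x0) (nat_lit 0x88000c0000000000008000000000000000000000000000000) := T_37 (nat_lit 175) (nat_lit 123) (nat_lit 4) (nat_lit 5) (nat_lit 10) L97510 (by decide +kernel)
theorem L97512 : W_37 (nat_lit 4) (nat_lit 0x4000300014001200090000800000000000000000000000000) (nat_lit 0x0) (nat_lit 0x88000c0000000000008000400020000000000000000000000) := T_37 (nat_lit 106) (nat_lit 89) (nat_lit 4) (nat_lit 5) (nat_lit 9) L97511 (by decide +kernel)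
theorem L97513 : W_37 (nat_lit 5) (nat_lit 0x4000200014001200090000800000000000000000000000000) (nat_lit 0x0) (nat_lit 0x88001c0008000000008000400020000000000000000000000) := T_37 (nat_lit 176) (nat_lit 159) (nat_lit 7) (nat_lit 5) (nat_lit 6) L97512 (by decide +kernel)
theorem L97514 : W_37 (nat_lit 6) (nat_lit 0x200014001200090000800000000000000000000000000) (nat_lit 0x0) (nat_lit 0xc8001c0008000800008000400020000000000000000000000) := T_37 (nat_lit 194) (nat_lit 143) (nat_lit 6) (nat_lit 7) (nat_lit 11) L97513 (by decide +kernel)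
theorem L97515 : W_37 (nat_lit 2) (nat_lit 0x40002c0014001200090001c00000000000000000000000000) (nat_lit 0x0) (nat_lit 0x8000100008000000000000000000000000000000000000000) := D_37 (nat_lit 176) (nat_lit 195) (nat_lit 159) (nat_lit 3) (nat_lit 4) (nat_lit 10) (nat_lit 7) (nat_lit 5) (nat_lit 6) (by decide +kernel)
theorem L97516 : W_37 (nat_lit 3) (nat_lit 0x2c0014001200090001c00000000000000000000000000) (nat_lit 0x0) (nat_lit 0xc000100008000800000000000000000000000000000000000) := T_37 (nat_lit 194) (nat_lit 143) (nat_lit 6) (nat_lit 7) (nat_lit 11) L97515 (by decide +kernel)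
theorem L97517 : W_37 (nat_lit 4) (nat_lit 0x280014001200090001c00000000000000000000000000) (nat_lit 0x0) (nat_lit 0xc800140008000800000000000000000000000000000000000) := T_37 (nat_lit 174) (nat_lit 191) (nat_lit 5) (nat_lit 5) (nat_lit 7) L97516 (by decide +kernel)
theorem L97518 : W_37 (nat_lit 5) (nat_lit 0x200014001200090001c00000000000000000000000000) (nat_lit 0x0) (nat_lit 0xc8001c0008000800020000000000000000000000000000000) := T_37 (nat_lit 175) (nat_lit 125) (nat_lit 6) (nat_lit 5) (nat_lit 10) L97517 (by decide +kernel)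
theorem L97519 : W_37 (nat_lit 6) (nat_lit 0x200014001200090001800000000000000000000000000) (nat_lit 0x0) (nat_lit 0xc8001c0008000800020000400020000000000000000000000) := T_37 (nat_lit 106) (nat_lit 89) (nat_lit 4) (nat_lit 5) (nat_lit 9) L97518 (by decide +kernel)
theorem L97520 : W_37 (nat_lit 7) (nat_lit 0x200014001200090000800000000000000000000000000) (nat_lit 0x0) (nat_lit 0xc8001c00080008000200014000a0000000000000000000000) := T_37 (nat_lit 108) (nat_lit 91) (nat_lit 6) (nat_lit 5) (nat_lit 9) L97519 (by decide +kernel)
theorem L97521 : W_37 (nat_lit 12) (nat_lit 0x200014001200090000000000000000000000000000000) (nat_lit 0x0) (nat_lit 0xc8001f000800080012e007f003bc000000000000000000000) := Q_37 (nat_lit 107) (C_37 L63643 (C_37 L97068 (C_37 L97514 (C_37 L97090 (C_37 L97520 N_37))))) (by decide +kernel)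
theorem L97522 : W_37 (nat_lit 2) (nat_lit 0x40002000140012000b0001800060000000000000000000000) (nat_lit 0x0) (nat_lit 0x8000400000000000000002000000000000000000) := D_37 (nat_lit 142) (nat_lit 159) (nat_lit 73) (nat_lit 7) (nat_lit 5) (nat_lit 5) (nat_lit 7) (nat_lit 5) (nat_lit 4) (by decide +kernel)
theorem L97523 : W_37 (nat_lit 3) (nat_lit 0x40002000140012000b0001800020000000000000000000000) (nat_lit 0x0) (nat_lit 0x8000400000000000040003000000000000000000) := T_37 (nat_lit 90) (nat_lit 72) (nat_lit 4) (nat_lit 5) (nat_lit 8) L97522 (by decide +kernel)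
theorem L97524 : W_37 (nat_lit 4) (nat_lit 0x4000200014001200090001800020000000000000000000000) (nat_lit 0x0) (nat_lit 0x80008000400020000000040003000000000000000000) := T_37 (nat_lit 125) (nat_lit 175) (nat_lit 6) (nat_lit 5) (nat_lit 10) L97523 (by decide +kernel)
theorem L97525 : W_37 (nat_lit 5) (nat_lit 0x4000200014001200090001800000000000000000000000000) (nat_lit 0x0) (nat_lit 0x80008000400020000400060003000000000000000000) := T_37 (nat_lit 89) (nat_lit 106) (nat_lit 4) (nat_lit 5) (nat_lit 9) L97524 (by decide +kernel)
theorem L97526 : W_37 (nat_lit 6) (nat_lit 0x4000200014001200090000800000000000000000000000000) (nat_lit 0x0) (nat_lit 0x800080004000200014000e0003000000000000000000) := T_37 (nat_lit 108) (nat_lit 91) (nat_lit 6) (nat_lit 5) (nat_lit 9) L97525 (by decide +kernel)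
theorem L97527 : W_37 (nat_lit 7) (nat_lit 0x200014001200090000800000000000000000000000000) (nat_lit 0x0) (nat_lit 0x4000080008000c000200014000e0003000000000000000000) := T_37 (nat_lit 194) (nat_lit 143) (nat_lit 6) (nat_lit 7) (nat_lit 11) L97526 (by decide +kernel)
theorem L97528 : W_37 (nat_lit 2) (nat_lit 0x40002000140012000b0001800060000000000000000000000) (nat_lit 0x0) (nat_lit 0x400000000000000002000100000000000000) := D_37 (nat_lit 73) (nat_lit 56) (nat_lit 142) (nat_lit 7) (nat_lit 5) (nat_lit 3) (nat_lit 7) (nat_lit 5) (nat_lit 4) (by decide +kernel)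
theorem L97529 : W_37 (nat_lit 3) (nat_lit 0x40002000140012000b0001800020000000000000000000000) (nat_lit 0x0) (nat_lit 0x400000000000040003000100000000000000) := T_37 (nat_lit 90) (nat_lit 72) (nat_lit 4) (nat_lit 5) (nat_lit 8) L97528 (by decide +kernel)
theorem L97530 : W_37 (nat_lit 4) (nat_lit 0x40002000140012000b0001800000000000000000000000000) (nat_lit 0x0) (nat_lit 0x400000000400060003000100000000000000) := T_37 (nat_lit 89) (nat_lit 106) (nat_lit 4) (nat_lit 5) (nat_lit 9) L97529 (by decide +kernel)
theorem L97531 : W_37 (nat_lit 5) (nat_lit 0x4000200014001200090001800000000000000000000000000) (nat_lit 0x0) (nat_lit 0x80000000400020000400060003000100000000000000) := T_37 (nat_lit 125) (nat_lit 175) (nat_lit 6) (nat_lit 5) (nat_lit 10) L97530 (by decide +kernel)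
theorem L97532 : W_37 (nat_lit 6) (nat_lit 0x200014001200090001800000000000000000000000000) (nat_lit 0x0) (nat_lit 0x4000080000000c00020000400060003000100000000000000) := T_37 (nat_lit 194) (nat_lit 143) (nat_lit 6) (nat_lit 7) (nat_lit 11) L97531 (by decide +kernel)
theorem L97533 : W_37 (nat_lit 7) (nat_lit 0x200014001200090000800000000000000000000000000) (nat_lit 0x0) (nat_lit 0x4000080000000c000200014000e0003000100000000000000) := T_37 (nat_lit 108) (nat_lit 91) (nat_lit 6) (nat_lit 5) (nat_lit 9) L97532 (by decide +kernel)
theorem L97534 : W_37 (nat_lit 8) (nat_lit 0x200014001200090000000000000000000000000000000) (nat_lit 0x0) (nat_lit 0x8000c8001c0008000c00020001c000e0003000100000000000000) := Q_37 (nat_lit 107) (C_37 L97520 (C_37 L97109 (C_37 L97527 (C_37 L97533 (C_37 L97121 N_37))))) (by decide +kernel)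
theorem L97535 : W_37 (nat_lit 13) (nat_lit 0x200014001200080000000000000000000000000000000) (nat_lit 0x0) (nat_lit 0x8000c8001f0008000d0013e007f003fc003000100000000000000) := Q_37 (nat_lit 124) (C_37 L97509 (C_37 L97049 (C_37 L97521 (C_37 L97534 N_37)))) (by decide +kernel)
theorem L97536 : W_37 (nat_lit 2) (nat_lit 0x40003c0014001200090000000000000000000000000000000) (nat_lit 0x0) (nat_lit 0x20008000000000000800000000000000000000000000) := D_37 (nat_lit 159) (nat_lit 173) (nat_lit 107) (nat_lit 2) (nat_lit 3) (nat_lit 10) (nat_lit 7) (nat_lit 5) (nat_lit 6) (by decide +kernel)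
theorem L97537 : W_37 (nat_lit 3) (nat_lit 0x40002c0014001200090000000000000000000000000000000) (nat_lit 0x0) (nat_lit 0x8000120008000000000000800000000000000000000000000) := T_37 (nat_lit 176) (nat_lit 195) (nat_lit 3) (nat_lit 4) (nat_lit 10) L97536 (by decide +kernel)
theorem L97538 : W_37 (nat_lit 4) (nat_lit 0x4000280014001200090000000000000000000000000000000) (nat_lit 0x0) (nat_lit 0x8800160008000000000000800000000000000000000000000) := T_37 (nat_lit 174) (nat_lit 191) (nat_lit 5) (nat_lit 5) (nat_lit 7) L97537 (by decide +kernel)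
theorem L97539 : W_37 (nat_lit 5) (nat_lit 0x280014001200090000000000000000000000000000000) (nat_lit 0x0) (nat_lit 0xc800160008000800000000800000000000000000000000000) := T_37 (nat_lit 194) (nat_lit 143) (nat_lit 6) (nat_lit 7) (nat_lit 11) L97538 (by decide +kernel)
theorem L97540 : W_37 (nat_lit 6) (nat_lit 0x280014001200080000000000000000000000000000000) (nat_lit 0x0) (nat_lit 0x1000d800160008000900038001c000a0000000000000000000000) := Q_37 (nat_lit 124) (C_37 L96689 (C_37 L96766 (C_37 L97539 N_37))) (by decide +kernel)
theorem L97541 : W_37 (nat_lit 6) (nat_lit 0x280014001200080000000000000000000000000000000) (nat_lit 0x0) (nat_lit 0xe800160008000800038001c000a0000000000000000000000) := Q_37 (nat_lit 124) (C_37 L97539 (C_37 L63615 (C_37 L96689 (C_37 L97000 N_37)))) (by decide +kernel)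
theorem L97542 : W_37 (nat_lit 2) (nat_lit 0xa0005a0038001c0012000b8000000000000000000000000000000) (nat_lit 0x0) (nat_lit 0x800140000000000000000000000000000000000000000000000000000) := D_37 (nat_lit 210) (nat_lit 227) (nat_lit 212) (nat_lit 7) (nat_lit 5) (nat_lit 9) (nat_lit 0) (nat_lit 8) (nat_lit 12) (by decide +kernel)
theorem L97543 : W_37 (nat_lit 3) (nat_lit 0x20005a0038001c0012000b8000000000000000000000000000000) (nat_lit 0x0) (nat_lit 0x18001c0000000000000000000000000000000000000000000000000000) := T_37 (nat_lit 211) (nat_lit 228) (nat_lit 4) (nat_lit 7) (nat_lit 13) L97542 (by decide +kernel)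
theorem L97544 : W_37 (nat_lit 4) (nat_lit 0x5a0038001c0012000b8000000000000000000000000000000) (nat_lit 0x0) (nat_lit 0x1c001e0000000000000000000000000000000000000000000000000000) := T_37 (nat_lit 209) (nat_lit 226) (nat_lit 6) (nat_lit 5) (nat_lit 13) L97543 (by decide +kernel)
theorem L97545 : W_37 (nat_lit 5) (nat_lit 0x5a003800140012000b8000000000000000000000000000000) (nat_lit 0x0) (nat_lit 0x1c001e0000000000008000000000000800000000000000000000000000) := T_37 (nat_lit 159) (nat_lit 107) (nat_lit 7) (nat_lit 5) (nat_lit 6) L97544 (by decide +kernel)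
theorem L97546 : W_37 (nat_lit 6) (nat_lit 0x5a00380014001200098000000000000000000000000000000) (nat_lit 0x0) (nat_lit 0x1c001e0000000000008000000020001800000000000000000000000000) := T_37 (nat_lit 125) (nat_lit 108) (nat_lit 6) (nat_lit 5) (nat_lit 10) L97545 (by decide +kernel)
theorem L97547 : W_37 (nat_lit 7) (nat_lit 0x5a00380014001200088000000000000000000000000000000) (nat_lit 0x0) (nat_lit 0x1c001e0000000000008000000030001c00000000000000000000000000) := T_37 (nat_lit 124) (nat_lit 106) (nat_lit 4) (nat_lit 5) (nat_lit 10) L97546 (by decide +kernel)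
theorem L97548 : W_37 (nat_lit 8) (nat_lit 0x5800380014001200088000000000000000000000000000000) (nat_lit 0x0) (nat_lit 0x1c001e0000600000008000000030001c00000000000000000000000000) := T_37 (nat_lit 189) (nat_lit 190) (nat_lit 2) (nat_lit 2) (nat_lit 11) L97547 (by decide +kernel)
theorem L97549 : W_37 (nat_lit 9) (nat_lit 0x5800380014001200080000000000000000000000000000000) (nat_lit 0x0) (nat_lit 0x1c001e0000600000008000100038001c00000000000000000000000000) := T_37 (nat_lit 123) (nat_lit 140) (nat_lit 4) (nat_lit 5) (nat_lit 11) L97548 (by decide +kernel)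
theorem L97550 : W_37 (nat_lit 10) (nat_lit 0x5800280014001200080000000000000000000000000000000) (nat_lit 0x0) (nat_lit 0x1c001e0000600500008000100038001c00000000000000000000000000) := T_37 (nat_lit 176) (nat_lit 178) (nat_lit 1) (nat_lit 8) (nat_lit 10) L97549 (by decide +kernel)
theorem L97551 : W_37 (nat_lit 11) (nat_lit 0x5000280014001200080000000000000000000000000000000) (nat_lit 0x0) (nat_lit 0x1c001f0000e00500008000100038001c00000000000000000000000000) := T_37 (nat_lit 191) (nat_lit 208) (nat_lit 5) (nat_lit 5) (nat_lit 8) L97550 (by decide +kernel)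
theorem L97552 : W_37 (nat_lit 12) (nat_lit 0x1000280014001200080000000000000000000000000000000) (nat_lit 0x0) (nat_lit 0x1c001f0004e00500008000900038001c00000000000000000000000000) := T_37 (nat_lit 194) (nat_lit 143) (nat_lit 6) (nat_lit 7) (nat_lit 11) L97551 (by decide +kernel)
theorem L97553 : W_37 (nat_lit 2) (nat_lit 0x5800280014001300080000000000000000000000000000000) (nat_lit 0x0) (nat_lit 0x2000500000000000000000000000000000000000000000000) := D_37 (nat_lit 178) (nat_lit 193) (nat_lit 176) (nat_lit 2) (nat_lit 4) (nat_lit 11) (nat_lit 1) (nat_lit 8) (nat_lit 10) (by decide +kernel)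
theorem L97554 : W_37 (nat_lit 3) (nat_lit 0x5000280014001300080000000000000000000000000000000) (nat_lit 0x0) (nat_lit 0x10002800500000000000000000000000000000000000000000000) := T_37 (nat_lit 191) (nat_lit 208) (nat_lit 5) (nat_lit 5) (nat_lit 8) L97553 (by decide +kernel)
theorem L97555 : W_37 (nat_lit 4) (nat_lit 0x1000280014001300080000000000000000000000000000000) (nat_lit 0x0) (nat_lit 0x10006800500000000800000000000000000000000000000000000) := T_37 (nat_lit 194) (nat_lit 143) (nat_lit 6) (nat_lit 7) (nat_lit 11) L97554 (by decide +kernel)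
theorem L97556 : W_37 (nat_lit 5) (nat_lit 0x1000280014001200080000000000000000000000000000000) (nat_lit 0x0) (nat_lit 0x10006800500000000900008000000000000000000000000000000) := T_37 (nat_lit 140) (nat_lit 123) (nat_lit 4) (nat_lit 5) (nat_lit 11) L97555 (by decide +kernel)
theorem L97557 : W_37 (nat_lit 13) (nat_lit 0x280014001200080000000000000000000000000000000) (nat_lit 0x0) (nat_lit 0x1c001f0007e00500008000900038001c00000000000000000000000000) := Q_37 (nat_lit 192) (C_37 L97552 (C_37 L96946 (C_37 L97008 (C_37 L97439 (C_37 L97556 (C_37 L64379 N_37)))))) (by decide +kernel)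
theorem L97558 : W_37 (nat_lit 2) (nat_lit 0x4000380014001200090000800000000000000000000000000) (nat_lit 0x0) (nat_lit 0x8000400020000000000000000000000) := D_37 (nat_lit 106) (nat_lit 89) (nat_lit 123) (nat_lit 4) (nat_lit 5) (nat_lit 9) (nat_lit 4) (nat_lit 5) (nat_lit 10) (by decide +kernel)
theorem L97559 : W_37 (nat_lit 3) (nat_lit 0x4000380014001200090000000000000000000000000000000) (nat_lit 0x0) (nat_lit 0x8000000008000c00020000000000000000000000) := T_37 (nat_lit 107) (nat_lit 159) (nat_lit 7) (nat_lit 5) (nat_lit 6) L97558 (by decide +kernel)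
theorem L97560 : W_37 (nat_lit 4) (nat_lit 0x4000280014001200090000000000000000000000000000000) (nat_lit 0x0) (nat_lit 0x2000100008000000008000c00020000000000000000000000) := T_37 (nat_lit 176) (nat_lit 193) (nat_lit 7) (nat_lit 5) (nat_lit 7) L97559 (by decide +kernel)
theorem L97561 : W_37 (nat_lit 5) (nat_lit 0x280014001200090000000000000000000000000000000) (nat_lit 0x0) (nat_lit 0x6000100008000800008000c00020000000000000000000000) := T_37 (nat_lit 194) (nat_lit 143) (nat_lit 6) (nat_lit 7) (nat_lit 11) L97560 (by decide +kernel)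
theorem L97562 : W_37 (nat_lit 6) (nat_lit 0x280014001200080000000000000000000000000000000) (nat_lit 0x0) (nat_lit 0x40007000100008000900038001c000a0000000000000000000000) := Q_37 (nat_lit 124) (C_37 L96689 (C_37 L63615 (C_37 L96710 (C_37 L97561 N_37)))) (by decide +kernel)
theorem L97563 : W_37 (nat_lit 2) (nat_lit 0x58002800140012000b0000000000000000000000000000000) (nat_lit 0x0) (nat_lit 0x40002000400000000000000000000000000000000000000000000) := D_37 (nat_lit 193) (nat_lit 178) (nat_lit 210) (nat_lit 2) (nat_lit 4) (nat_lit 11) (nat_lit 7) (nat_lit 5) (nat_lit 8) (by decide +kernel)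
theorem L97564 : W_37 (nat_lit 3) (nat_lit 0x48002800140012000b0000000000000000000000000000000) (nat_lit 0x0) (nat_lit 0x50003000400000000000000000000000000000000000000000000) := T_37 (nat_lit 192) (nat_lit 208) (nat_lit 5) (nat_lit 5) (nat_lit 8) L97563 (by decide +kernel)
theorem L97565 : W_37 (nat_lit 4) (nat_lit 0x40002800140012000b0000000000000000000000000000000) (nat_lit 0x0) (nat_lit 0x50003800440000000000000000000000000000000000000000000) := T_37 (nat_lit 191) (nat_lit 174) (nat_lit 5) (nat_lit 5) (nat_lit 7) L97564 (by decide +kernel)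
theorem L97566 : W_37 (nat_lit 5) (nat_lit 0x4000280014001200090000000000000000000000000000000) (nat_lit 0x0) (nat_lit 0x50003800440000000000020001000000000000000000000000000) := T_37 (nat_lit 125) (nat_lit 108) (nat_lit 6) (nat_lit 5) (nat_lit 10) L97565 (by decide +kernel)
theorem L97567 : W_37 (nat_lit 6) (nat_lit 0x280014001200090000000000000000000000000000000) (nat_lit 0x0) (nat_lit 0x50007800440000000800020001000000000000000000000000000) := T_37 (nat_lit 194) (nat_lit 143) (nat_lit 6) (nat_lit 7) (nat_lit 11) L97566 (by decide +kernel)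
theorem L97568 : W_37 (nat_lit 7) (nat_lit 0x280014001200080000000000000000000000000000000) (nat_lit 0x0) (nat_lit 0x5000f800560008000800030001800080000000000000000000000) := Q_37 (nat_lit 124) (C_37 L97539 (C_37 L63615 (C_37 L97567 N_37))) (by decide +kernel)
theorem L97569 : W_37 (nat_lit 2) (nat_lit 0x5800380014001200080000000000000000000000000000000) (nat_lit 0x0) (nat_lit 0x8400040000000000000000000000000000000000000000000) := D_37 (nat_lit 174) (nat_lit 190) (nat_lit 195) (nat_lit 1) (nat_lit 7) (nat_lit 10) (nat_lit 3) (nat_lit 4) (nat_lit 10) (by decide +kernel)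
theorem L97570 : W_37 (nat_lit 3) (nat_lit 0x5800280014001200080000000000000000000000000000000) (nat_lit 0x0) (nat_lit 0x8400540000000000000000000000000000000000000000000) := T_37 (nat_lit 176) (nat_lit 178) (nat_lit 1) (nat_lit 8) (nat_lit 10) L97569 (by decide +kernel)
theorem L97571 : W_37 (nat_lit 4) (nat_lit 0x5000280014001200080000000000000000000000000000000) (nat_lit 0x0) (nat_lit 0x10008c00540000000000000000000000000000000000000000000) := T_37 (nat_lit 191) (nat_lit 208) (nat_lit 5) (nat_lit 5) (nat_lit 8) L97570 (by decide +kernel)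
theorem L97572 : W_37 (nat_lit 5) (nat_lit 0x1000280014001200080000000000000000000000000000000) (nat_lit 0x0) (nat_lit 0x1000cc00540000000800000000000000000000000000000000000) := T_37 (nat_lit 194) (nat_lit 143) (nat_lit 6) (nat_lit 7) (nat_lit 11) L97571 (by decide +kernel)
theorem L97573 : W_37 (nat_lit 8) (nat_lit 0x280014001200080000000000000000000000000000000) (nat_lit 0x0) (nat_lit 0x4000200035c00fc00570000000900008000000000000000000000000000000) := Q_37 (nat_lit 192) (C_37 L97572 (C_37 L96946 (C_37 L97044 (C_37 L97445 N_37)))) (by decide +kernel)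
theorem L97574 : W_37 (nat_lit 14) (nat_lit 0x200014001200080000000000000000000000000000000) (nat_lit 0x0) (nat_lit 0x40003c003fc00fe005f0008000900038001c000a0000000000000000000000) := Q_37 (nat_lit 175) (C_37 L96711 (C_37 L97446 (C_37 L97540 (C_37 L97541 (C_37 L97557 (C_37 L97562 (C_37 L97568 (C_37 L97573 N_37)))))))) (by decide +kernel)
theorem L97575 : W_37 (nat_lit 12) (nat_lit 0x200014001200080000000000000000000000000000000) (nat_lit 0x0) (nat_lit 0x4000200035c00fc005f0000000d00138007c002e0001000000000000000000) := Q_37 (nat_lit 175) (C_37 L96731 (C_37 L97573 (C_37 L97266 (C_37 L96819 (C_37 L97260 (C_37 L97280 (C_37 L97249 N_37))))))) (by decide +kernel)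
theorem L97576 : W_37 (nat_lit 2) (nat_lit 0x10000f00028001c00120009a005800000000000000000000000000) (nat_lit 0x0) (nat_lit 0x40002000000000000400000000000000000000000000000000000000000000) := D_37 (nat_lit 229) (nat_lit 178) (nat_lit 246) (nat_lit 4) (nat_lit 8) (nat_lit 13) (nat_lit 4) (nat_lit 8) (nat_lit 14) (by decide +kernel)
theorem L97577 : W_37 (nat_lit 3) (nat_lit 0xf00028001c00120009a005800000000000000000000000000) (nat_lit 0x0) (nat_lit 0x40002000300000000400000000000000000000000000000000000000000000) := T_37 (nat_lit 212) (nat_lit 213) (nat_lit 3) (nat_lit 5) (nat_lit 11) L97576 (by decide +kernel)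
theorem L97578 : W_37 (nat_lit 4) (nat_lit 0x700028001c00120009a005800000000000000000000000000) (nat_lit 0x0) (nat_lit 0x40002000300008000440000000000000000000000000000000000000000000) := T_37 (nat_lit 195) (nat_lit 174) (nat_lit 0) (nat_lit 8) (nat_lit 11) L97577 (by decide +kernel)
theorem L97579 : W_37 (nat_lit 5) (nat_lit 0x500028001c00120009a005800000000000000000000000000) (nat_lit 0x0) (nat_lit 0x4000200034000a000440000000000000000000000000000000000000000000) := T_37 (nat_lit 193) (nat_lit 210) (nat_lit 7) (nat_lit 5) (nat_lit 8) L97578 (by decide +kernel)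
theorem L97580 : W_37 (nat_lit 6) (nat_lit 0x500028001c00120009a001800000000000000000000000000) (nat_lit 0x0) (nat_lit 0x4000200034000a000440000000000000006000000000000000000000000000) := T_37 (nat_lit 110) (nat_lit 109) (nat_lit 1) (nat_lit 8) (nat_lit 6) L97579 (by decide +kernel)
theorem L97581 : W_37 (nat_lit 7) (nat_lit 0x400028001c00120009a001800000000000000000000000000) (nat_lit 0x0) (nat_lit 0x4000200034000b000440000000100000006000000000000000000000000000) := T_37 (nat_lit 192) (nat_lit 140) (nat_lit 4) (nat_lit 5) (nat_lit 11) L97580 (by decide +kernel)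
theorem L97582 : W_37 (nat_lit 8) (nat_lit 0x400028001c001200098001800000000000000000000000000) (nat_lit 0x0) (nat_lit 0x4000200034000b000440000000100006006000000000000000000000000000) := T_37 (nat_lit 121) (nat_lit 122) (nat_lit 2) (nat_lit 2) (nat_lit 7) L97581 (by decide +kernel)
theorem L97583 : W_37 (nat_lit 9) (nat_lit 0x400028001c001200090001800000000000000000000000000) (nat_lit 0x0) (nat_lit 0x4000200034000b00044000000010000e006400000000000000000000000000) := T_37 (nat_lit 123) (nat_lit 106) (nat_lit 4) (nat_lit 5) (nat_lit 10) L97582 (by decide +kernel)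
theorem L97584 : W_37 (nat_lit 10) (nat_lit 0x400020001c001200090001800000000000000000000000000) (nat_lit 0x0) (nat_lit 0x4000200034000b0004c000000010002e006400000000000000000000000000) := T_37 (nat_lit 175) (nat_lit 125) (nat_lit 6) (nat_lit 5) (nat_lit 10) L97583 (by decide +kernel)
theorem L97585 : W_37 (nat_lit 11) (nat_lit 0x400020001c001200090000800000000000000000000000000) (nat_lit 0x0) (nat_lit 0x4000200034000b0004c000000010002e007400080000000000000000000000) := T_37 (nat_lit 108) (nat_lit 91) (nat_lit 6) (nat_lit 5) (nat_lit 9) L97584 (by decide +kernel)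
theorem L97586 : W_37 (nat_lit 12) (nat_lit 0x4000200014001200090000800000000000000000000000000) (nat_lit 0x0) (nat_lit 0x4000200034000b0005c000800010002e007400080000000000000000000000) := T_37 (nat_lit 159) (nat_lit 176) (nat_lit 7) (nat_lit 5) (nat_lit 6) L97585 (by decide +kernel)
theorem L97587 : W_37 (nat_lit 13) (nat_lit 0x200014001200090000800000000000000000000000000) (nat_lit 0x0) (nat_lit 0x4000200034000f0005c000800090002e007400080000000000000000000000) := T_37 (nat_lit 194) (nat_lit 143) (nat_lit 6) (nat_lit 7) (nat_lit 11) L97586 (by decide +kernel)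
theorem L97588 : W_37 (nat_lit 2) (nat_lit 0x4000280014001200090001800000000000000000000000000) (nat_lit 0x0) (nat_lit 0x2000100008000000000000000000000000000000000000000) := D_37 (nat_lit 176) (nat_lit 159) (nat_lit 193) (nat_lit 7) (nat_lit 5) (nat_lit 6) (nat_lit 7) (nat_lit 5) (nat_lit 7) (by decide +kernel)
theorem L97589 : W_37 (nat_lit 3) (nat_lit 0x4000200014001200090001800000000000000000000000000) (nat_lit 0x0) (nat_lit 0x2000180008000000020000000000000000000000000000000) := T_37 (nat_lit 175) (nat_lit 125) (nat_lit 6) (nat_lit 5) (nat_lit 10) L97588 (by decide +kernel)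
theorem L97590 : W_37 (nat_lit 4) (nat_lit 0x200014001200090001800000000000000000000000000) (nat_lit 0x0) (nat_lit 0x6000180008000800020000000000000000000000000000000) := T_37 (nat_lit 194) (nat_lit 143) (nat_lit 6) (nat_lit 7) (nat_lit 11) L97589 (by decide +kernel)
theorem L97591 : W_37 (nat_lit 5) (nat_lit 0x200014001200090000800000000000000000000000000) (nat_lit 0x0) (nat_lit 0x6000180008000800020001000080000000000000000000000) := T_37 (nat_lit 108) (nat_lit 91) (nat_lit 6) (nat_lit 5) (nat_lit 9) L97590 (by decide +kernel)
theorem L97592 : W_37 (nat_lit 14) (nat_lit 0x200014001200090000000000000000000000000000000) (nat_lit 0x0) (nat_lit 0x4000200034000f0005c000800090002e007f003bc000000000000000000000) := Q_37 (nat_lit 107) (C_37 L63643 (C_37 L97068 (C_37 L97072 (C_37 L97587 (C_37 L97591 N_37))))) (by decide +kernel)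
theorem L97593 : W_37 (nat_lit 8) (nat_lit 0x200014001200090000000000000000000000000000000) (nat_lit 0x0) (nat_lit 0x80006000180008000c00020001c000e0003000100000000000000) := Q_37 (nat_lit 107) (C_37 L97533 (C_37 L97591 (C_37 L97109 (C_37 L97121 N_37)))) (by decide +kernel)
theorem L97594 : W_37 (nat_lit 15) (nat_lit 0x200014001200080000000000000000000000000000000) (nat_lit 0x0) (nat_lit 0x400020003c000f0005c0008000d0013e007f003fc003000100000000000000) := Q_37 (nat_lit 124) (C_37 L97509 (C_37 L97049 (C_37 L97592 (C_37 L97593 N_37)))) (by decide +kernel)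
theorem L97595 : W_37 (nat_lit 2) (nat_lit 0x2003e0014801e000b0000000200000000000000000000000) (nat_lit 0x0) (nat_lit 0x100010000400000000000000000000000000000000000000) := D_37 (nat_lit 172) (nat_lit 188) (nat_lit 154) (nat_lit 1) (nat_lit 5) (nat_lit 10) (nat_lit 0) (nat_lit 5) (nat_lit 10) (by decide +kernel)
theorem L97596 : W_37 (nat_lit 3) (nat_lit 0x2003e0014001e000b0000000200000000000000000000000) (nat_lit 0x0) (nat_lit 0x100010001c00000000000000000000000000000000000000) := T_37 (nat_lit 155) (nat_lit 156) (nat_lit 0) (nat_lit 6) (nat_lit 10) L97595 (by decide +kernel)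
theorem L97597 : W_37 (nat_lit 4) (nat_lit 0x3e0014001e000b0000000200000000000000000000000) (nat_lit 0x0) (nat_lit 0x700010001c00000000000000000000000000000000000000) := T_37 (nat_lit 189) (nat_lit 190) (nat_lit 1) (nat_lit 6) (nat_lit 10) L97596 (by decide +kernel)
theorem L97598 : W_37 (nat_lit 5) (nat_lit 0x3c0014001e000b0000000200000000000000000000000) (nat_lit 0x0) (nat_lit 0x700030009c00000000000000000000000000000000000000) := T_37 (nat_lit 173) (nat_lit 159) (nat_lit 2) (nat_lit 3) (nat_lit 10) L97597 (by decide +kernel)
theorem L97599 : W_37 (nat_lit 6) (nat_lit 0x380014001e000b0000000200000000000000000000000) (nat_lit 0x0) (nat_lit 0xf00070009c00000000000000000000000000000000000000) := T_37 (nat_lit 174) (nat_lit 191) (nat_lit 5) (nat_lit 5) (nat_lit 7) L97598 (by decide +kernel)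
theorem L97600 : W_37 (nat_lit 7) (nat_lit 0x380014001e00090000000200000000000000000000000) (nat_lit 0x0) (nat_lit 0xf00070009c00000020001000000000000000000000000000) := T_37 (nat_lit 125) (nat_lit 108) (nat_lit 6) (nat_lit 5) (nat_lit 10) L97599 (by decide +kernel)
theorem L97601 : W_37 (nat_lit 8) (nat_lit 0x280014001e00090000000200000000000000000000000) (nat_lit 0x0) (nat_lit 0x2f00170009c00000020001000000000000000000000000000) := T_37 (nat_lit 176) (nat_lit 193) (nat_lit 7) (nat_lit 5) (nat_lit 7) L97600 (by decide +kernel)
theorem L97602 : W_37 (nat_lit 9) (nat_lit 0x280014001e00080000000200000000000000000000000) (nat_lit 0x0) (nat_lit 0x2f00170009c00000038001000000000000000000000000000) := T_37 (nat_lit 124) (nat_lit 123) (nat_lit 0) (nat_lit 8) (nat_lit 8) L97601 (by decide +kernel)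
theorem L97603 : W_37 (nat_lit 10) (nat_lit 0x280014001a00080000000200000000000000000000000) (nat_lit 0x0) (nat_lit 0x2f00170009c00400138001000000000000000000000000000) := T_37 (nat_lit 142) (nat_lit 128) (nat_lit 2) (nat_lit 5) (nat_lit 8) L97602 (by decide +kernel)
theorem L97604 : W_37 (nat_lit 11) (nat_lit 0x280014001a00080000000000000000000000000000000) (nat_lit 0x0) (nat_lit 0x2f00170009c00400138005000200000000000000000000000) := T_37 (nat_lit 93) (nat_lit 110) (nat_lit 5) (nat_lit 8) (nat_lit 5) L97603 (by decide +kernel)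
theorem L97605 : W_37 (nat_lit 12) (nat_lit 0x280014001200080000000000000000000000000000000) (nat_lit 0x0) (nat_lit 0x6f00170009c00c00138005000200000000000000000000000) := T_37 (nat_lit 143) (nat_lit 194) (nat_lit 6) (nat_lit 7) (nat_lit 11) L97604 (by decide +kernel)
theorem L97606 : W_37 (nat_lit 13) (nat_lit 0x200014001200080000000000000000000000000000000) (nat_lit 0x0) (nat_lit 0x40002a0037c00ff005f0009c00d80138005000200000000000000000000000) := Q_37 (nat_lit 175) (C_37 L96948 (C_37 L97573 (C_37 L97471 (C_37 L97266 (C_37 L97605 (C_37 L97463 (C_37 L97249 N_37))))))) (by decide +kernel)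
theorem L97607 : W_37 (nat_lit 2) (nat_lit 0x18000700030001c001200080000000000000000000000000000000) (nat_lit 0x0) (nat_lit 0x600008000000000000000000000000000000000000000000000000) := D_37 (nat_lit 213) (nat_lit 214) (nat_lit 195) (nat_lit 0) (nat_lit 10) (nat_lit 12) (nat_lit 3) (nat_lit 5) (nat_lit 11) (by decide +kernel)
theorem L97608 : W_37 (nat_lit 3) (nat_lit 0x18000600030001c001200080000000000000000000000000000000) (nat_lit 0x0) (nat_lit 0x600009800000000000000000000000000000000000000000000000) := T_37 (nat_lit 192) (nat_lit 191) (nat_lit 3) (nat_lit 4) (nat_lit 11) L97607 (by decide +kernel)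
theorem L97609 : W_37 (nat_lit 4) (nat_lit 0x18000400030001c001200080000000000000000000000000000000) (nat_lit 0x0) (nat_lit 0x64000b800000000000000000000000000000000000000000000000) := T_37 (nat_lit 193) (nat_lit 210) (nat_lit 4) (nat_lit 6) (nat_lit 12) L97608 (by decide +kernel)
theorem L97610 : W_37 (nat_lit 5) (nat_lit 0x18000400020001c001200080000000000000000000000000000000) (nat_lit 0x0) (nat_lit 0x100064000b800100000000000000000000000000000000000000000000) := T_37 (nat_lit 176) (nat_lit 228) (nat_lit 4) (nat_lit 7) (nat_lit 13) L97609 (by decide +kernel)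
theorem L97611 : W_37 (nat_lit 6) (nat_lit 0x8000400020001c001200080000000000000000000000000000000) (nat_lit 0x0) (nat_lit 0x300074000b800100000000000000000000000000000000000000000000) := T_37 (nat_lit 212) (nat_lit 229) (nat_lit 7) (nat_lit 7) (nat_lit 9) L97610 (by decide +kernel)
theorem L97612 : W_37 (nat_lit 7) (nat_lit 0x80004000200014001200080000000000000000000000000000000) (nat_lit 0x0) (nat_lit 0x300074000b800100008000400000000000000000000000000000000000) := T_37 (nat_lit 159) (nat_lit 142) (nat_lit 4) (nat_lit 7) (nat_lit 12) L97611 (by decide +kernel)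
theorem L97613 : W_37 (nat_lit 8) (nat_lit 0x4000200014001200080000000000000000000000000000000) (nat_lit 0x0) (nat_lit 0x6000700038007c000b800500008000400000000000000000000000000000000000) := Q_37 (nat_lit 211) (C_37 L97491 (C_37 L97494 (C_37 L97480 (C_37 L97485 (C_37 L97612 N_37))))) (by decide +kernel)
theorem L97614 : W_37 (nat_lit 9) (nat_lit 0x200014001200080000000000000000000000000000000) (nat_lit 0x0) (nat_lit 0x6000700038007c000f800500008000c00000000000000000000000000000000000) := T_37 (nat_lit 194) (nat_lit 143) (nat_lit 6) (nat_lit 7) (nat_lit 11) L97613 (by decide +kernel)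
theorem L97615 : W_37 (nat_lit 16) (nat_lit 0x200014001000080000000000000000000000000000000) (nat_lit 0x0) (nat_lit 0x600074003e007fc00ff005f0009c00fc013f007f003fc007000100000000000000) := Q_37 (nat_lit 141) (C_37 L97436 (C_37 L97123 (C_37 L97472 (C_37 L97473 (C_37 L97503 (C_37 L97535 (C_37 L97574 (C_37 L97575 (C_37 L97594 (C_37 L97606 (C_37 L97614 N_37))))))))))) (by decide +kernel)
theorem L97616 : W_37 (nat_lit 7) (nat_lit 0x200014001000080000000000000000000000000000000) (nat_lit 0x0) (nat_lit 0x500038001c000400057000b000c00000000000000000000000000000000000) := Q_37 (nat_lit 159) (C_37 L63959 (C_37 L97129 N_37)) (by decide +kernel)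
theorem L97617 : W_37 (nat_lit 17) (nat_lit 0x200010001000080000000000000000000000000000000) (nat_lit 0x0) (nat_lit 0x68007f01ff807fc01ff005f800fc00fe013f007f003fc007000100000000000000) := Q_37 (nat_lit 158) (C_37 L96753 (C_37 L96955 (C_37 L97124 (C_37 L97130 (C_37 L97175 (C_37 L97244 (C_37 L97320 (C_37 L97324 (C_37 L97362 (C_37 L97424 (C_37 L97427 (C_37 L97435 (C_37 L97615 (C_37 L97616 N_37)))))))))))))) (by decide +kernel)
theorem L97618 : W_37 (nat_lit 2) (nat_lit 0x200030001000080000000000000000000000000000000) (nat_lit 0x0) (nat_lit 0x80004000400000000000000000000000000000000000000000000) := D_37 (nat_lit 194) (nat_lit 178) (nat_lit 211) (nat_lit 5) (nat_lit 8) (nat_lit 7) (nat_lit 6) (nat_lit 7) (nat_lit 12) (by decide +kernel)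
theorem L97619 : W_37 (nat_lit 3) (nat_lit 0x200010001000080000000000000000000000000000000) (nat_lit 0x0) (nat_lit 0x80004000400020000000000004000000000000000000000000000) := T_37 (nat_lit 161) (nat_lit 110) (nat_lit 5) (nat_lit 8) (nat_lit 6) L97618 (by decide +kernel)
theorem L97620 : W_37 (nat_lit 2) (nat_lit 0x200010001000080004000000000000000000000000000) (nat_lit 0x0) (nat_lit 0x4000000000000800000000000200000000000000000000000) := D_37 (nat_lit 143) (nat_lit 93) (nat_lit 194) (nat_lit 5) (nat_lit 8) (nat_lit 5) (nat_lit 6) (nat_lit 7) (nat_lit 11) (by decide +kernel)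
theorem L97621 : W_37 (nat_lit 3) (nat_lit 0x200010001000080000000000000000000000000000000) (nat_lit 0x0) (nat_lit 0x4000000020000800000004000200000000000000000000000) := T_37 (nat_lit 110) (nat_lit 161) (nat_lit 5) (nat_lit 8) (nat_lit 6) L97620 (by decide +kernel)
theorem L97622 : W_37 (nat_lit 18) (nat_lit 0x200000001000080000000000000000000000000000000) (nat_lit 0x0) (nat_lit 0x68007f01ff807fc01ff005f803fc00fe013f007f007fc03f001500000000000000) := Q_37 (nat_lit 160) (C_37 L97617 (C_37 L64726 (C_37 L97619 (C_37 L97621 (C_37 L96446 N_37))))) (by decide +kernel)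
end Crest.Agent.Helper32.Snaky.R1_0
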