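import Crest.Agent.Helper32.Snaky.Gen.R1_0_p1
set_option autoImplicit false
set_option maxRecDepth 100000
set_option linter.all false
set_option Elab.async false
namespace Crest.Agent.Helper32.Snaky.R1_0
@[reducible] def W_39 (d M Bz Z : Nat) : Prop := Crest.Agent.Helper32.Snaky.Wins (nat_lit 17) d M Bz Z
theorem D_39 {d M Bz Z : Nat} (m t1 t2 o1 x1 y1 o2 x2 y2 : Nat) (h : Crest.Agent.Helper32.Snaky.chkDoubleC (nat_lit 17) d M Bz Z m t1 t2 o1 x1 y1 o2 x2 y2 = true) : W_39 d M Bz Z := Crest.Agent.Helper32.Snaky.doubleC m t1 t2 o1 x1 y1 o2 x2 y2 h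
theorem T_39 {d M Bz Z cd cM cBz cZ : Nat} (m t o x y : Nat) (child : W_39 cd cM cBz cZ) (h : Crest.Agent.Helper32.Snaky.chkThreatC (nat_lit 17) d M Bz Z cd cM cBz cZ m t o x y = true) : W_39 d M Bz Z := Crest.Agent.Helper32.Snaky.threatC m t o x y child h
theorem Q_39 {d M Bz Z : Nat} (m : Nat) {l : List Crest.Agent.Helper32.Snaky.Spec} (kids : Crest.Agent.Helper32.Snaky.AllWins (nat_lit 17) l) (h : Crest.Agent.Helper32.Snaky.chkQuiet d M Bz Z m l = true) : W_39 d M Bz Z := Crest.Agent.Helper32.Snaky.quiet m kids h
theorem C_39 {cd cM cBz cZ : Nat} {l : List Crest.Agent.Helper32.Snaky.Spec} (h : W_39 cd cM cBz cZ) (hl : Crest.Agent.Helper32.Snaky.AllWins (nat_lit 17) l) : Crest.Agent.Helper32.Snaky.AllWins (nat_lit 17) ((cd, cM, cBz, cZ) :: l) := Crest.Agent.Helper32.Snaky.AllWins.cons h hl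
theorem N_39 : Crest.Agent.Helper32.Snaky.AllWins (nat_lit 17) [] := Crest.Agent.Helper32.Snaky.AllWins.nil
theorem L100529 : W_39 (nat_lit 2) (nat_lit 0x8000400020009000180000000000000000000000000000000) (nat_lit 0x0) (nat_lit 0x200010000800000000000000000000000000000000000000000000) := D_39 (nat_lit 196) (nat_lit 179) (nat_lit 213) (nat_lit 7) (nat_lit 8) (nat_lit 7) (nat_lit 7) (nat_lit 8) (nat_lit 8) (by decide +kernel)
theorem L100530 : W_39 (nat_lit 2) (nat_lit 0xc000400120019000980040000000000000000000000000000) (nat_lit 0x0) (nat_lit 0x40002000200000000000000000000000000000000000000000) := D_39 (nat_lit 181) (nat_lit 198) (nat_lit 165) (nat_lit 6) (nat_lit 11) (nat_lit 11) (nat_lit 5) (nat_lit 12) (nat_lit 6) (by decide +kernel)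
theorem L100531 : W_39 (nat_lit 3) (nat_lit 0xc000400120019000980000000000000000000000000000000) (nat_lit 0x0) (nat_lit 0x40002000200000000000040002000000000000000000000000) := T_39 (nat_lit 114) (nat_lit 97) (nat_lit 5) (nat_lit 12) (nat_lit 5) L100530 (by decide +kernel)
theorem L100532 : W_39 (nat_lit 4) (nat_lit 0x8000400120019000980000000000000000000000000000000) (nat_lit 0x0) (nat_lit 0x80044002000200000000000040002000000000000000000000000) := T_39 (nat_lit 194) (nat_lit 211) (nat_lit 5) (nat_lit 8) (nat_lit 8) L100531 (by decide +kernel)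
theorem L100533 : W_39 (nat_lit 2) (nat_lit 0x8002400120019000980000000000000000000000000000000) (nat_lit 0x0) (nat_lit 0x600040000000000000000000000000000) := D_39 (nat_lit 130) (nat_lit 129) (nat_lit 114) (nat_lit 3) (nat_lit 8) (nat_lit 7) (nat_lit 6) (nat_lit 11) (nat_lit 10) (by decide +kernel)
theorem L100534 : W_39 (nat_lit 3) (nat_lit 0x8000400120019000980000000000000000000000000000000) (nat_lit 0x0) (nat_lit 0x40002000000000000600040000000000000000000000000000) := T_39 (nat_lit 181) (nat_lit 198) (nat_lit 6) (nat_lit 11) (nat_lit 11) L100533 (by decide +kernel)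
theorem L100535 : W_39 (nat_lit 2) (nat_lit 0xc00040032001d000b800d0000000000000000000000000000) (nat_lit 0x0) (nat_lit 0x8000c00000000000000000000000000000000000000000) := D_39 (nat_lit 166) (nat_lit 167) (nat_lit 183) (nat_lit 0) (nat_lit 14) (nat_lit 9) (nat_lit 7) (nat_lit 12) (nat_lit 6) (by decide +kernel)
theorem L100536 : W_39 (nat_lit 3) (nat_lit 0xc00040012001d000b800d0000000000000000000000000000) (nat_lit 0x0) (nat_lit 0x8000e00000000000000004000000000000000000000000) := T_39 (nat_lit 165) (nat_lit 98) (nat_lit 6) (nat_lit 12) (nat_lit 9) L100535 (by decide +kernel)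
theorem L100537 : W_39 (nat_lit 4) (nat_lit 0xc00040012001d000b80050000000000000000000000000000) (nat_lit 0x0) (nat_lit 0x8000e000000000000a0004000000000000000000000000) := T_39 (nat_lit 115) (nat_lit 113) (nat_lit 1) (nat_lit 13) (nat_lit 6) L100536 (by decide +kernel)
theorem L100538 : W_39 (nat_lit 5) (nat_lit 0xc00040012001d000b80040000000000000000000000000000) (nat_lit 0x0) (nat_lit 0x8000e000000000000b0004800000000000000000000000) := T_39 (nat_lit 112) (nat_lit 95) (nat_lit 7) (nat_lit 10) (nat_lit 5) L100537 (by decide +kernel)
theorem L100539 : W_39 (nat_lit 6) (nat_lit 0xc000400120019000b80040000000000000000000000000000) (nat_lit 0x0) (nat_lit 0x8000e000240000000b0004800000000000000000000000) := T_39 (nat_lit 146) (nat_lit 149) (nat_lit 0) (nat_lit 13) (nat_lit 8) L100538 (by decide +kernel)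
theorem L100540 : W_39 (nat_lit 7) (nat_lit 0xc000400120019000980040000000000000000000000000000) (nat_lit 0x0) (nat_lit 0x8000e000240006000b0004800000000000000000000000) := T_39 (nat_lit 129) (nat_lit 130) (nat_lit 3) (nat_lit 8) (nat_lit 7) L100539 (by decide +kernel)
theorem L100541 : W_39 (nat_lit 8) (nat_lit 0xc000400120019000980000000000000000000000000000000) (nat_lit 0x0) (nat_lit 0x8000e000240006000f0006800000000000000000000000) := T_39 (nat_lit 114) (nat_lit 97) (nat_lit 5) (nat_lit 12) (nat_lit 5) L100540 (by decide +kernel)
theorem L100542 : W_39 (nat_lit 9) (nat_lit 0x8000400120019000980000000000000000000000000000000) (nat_lit 0x0) (nat_lit 0x80004008000e000240006000f0006800000000000000000000000) := T_39 (nat_lit 194) (nat_lit 211) (nat_lit 5) (nat_lit 8) (nat_lit 8) L100541 (by decide +kernel)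
theorem L100543 : W_39 (nat_lit 2) (nat_lit 0xc02e400320019001d80000000000000000000000000000000) (nat_lit 0x0) (nat_lit 0x4006000000000000000000000000000000000) := D_39 (nat_lit 133) (nat_lit 134) (nat_lit 146) (nat_lit 1) (nat_lit 15) (nat_lit 7) (nat_lit 1) (nat_lit 14) (nat_lit 7) (by decide +kernel)
theorem L100544 : W_39 (nat_lit 3) (nat_lit 0xc02e400320019000d80000000000000000000000000000000) (nat_lit 0x0) (nat_lit 0x4007000080000000000000000000000000000) := T_39 (nat_lit 132) (nat_lit 115) (nat_lit 6) (nat_lit 12) (nat_lit 10) L100543 (by decide +kernel)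
theorem L100545 : W_39 (nat_lit 4) (nat_lit 0xc00e400320019000d80000000000000000000000000000000) (nat_lit 0x0) (nat_lit 0x30000000004007000080000000000000000000000000000) := T_39 (nat_lit 185) (nat_lit 184) (nat_lit 0) (nat_lit 15) (nat_lit 10) L100544 (by decide +kernel)
theorem L100546 : W_39 (nat_lit 5) (nat_lit 0xc006400320019000d80000000000000000000000000000000) (nat_lit 0x0) (nat_lit 0x100038000000004007000080000000000000000000000000000) := T_39 (nat_lit 183) (nat_lit 200) (nat_lit 7) (nat_lit 12) (nat_lit 7) L100545 (by decide +kernel)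
theorem L100547 : W_39 (nat_lit 6) (nat_lit 0xc006400120019000d80000000000000000000000000000000) (nat_lit 0x0) (nat_lit 0x1000380002000040070000a0000000000000000000000000000) := T_39 (nat_lit 165) (nat_lit 113) (nat_lit 7) (nat_lit 11) (nat_lit 6) L100546 (by decide +kernel)
theorem L100548 : W_39 (nat_lit 7) (nat_lit 0xc002400120019000d80000000000000000000000000000000) (nat_lit 0x0) (nat_lit 0x18003c0002000040070000a0000000000000000000000000000) := T_39 (nat_lit 182) (nat_lit 199) (nat_lit 7) (nat_lit 11) (nat_lit 7) L100547 (by decide +kernel)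
theorem L100549 : W_39 (nat_lit 8) (nat_lit 0xc000400120019000d80000000000000000000000000000000) (nat_lit 0x0) (nat_lit 0x1c003e0002000040070000a0000000000000000000000000000) := T_39 (nat_lit 181) (nat_lit 198) (nat_lit 6) (nat_lit 11) (nat_lit 11) L100548 (by decide +kernel)
theorem L100550 : W_39 (nat_lit 9) (nat_lit 0x8000400120019000d80000000000000000000000000000000) (nat_lit 0x0) (nat_lit 0x801c403e0002000040070000a0000000000000000000000000000) := T_39 (nat_lit 194) (nat_lit 211) (nat_lit 5) (nat_lit 8) (nat_lit 8) L100549 (by decide +kernel)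
theorem L100551 : W_39 (nat_lit 10) (nat_lit 0x8000400120019000980000000000000000000000000000000) (nat_lit 0x0) (nat_lit 0x801c403e0002000040076000a0000000000000000000000000000) := T_39 (nat_lit 130) (nat_lit 129) (nat_lit 3) (nat_lit 8) (nat_lit 7) L100550 (by decide +kernel)
theorem L100552 : W_39 (nat_lit 2) (nat_lit 0x8002c00020019000180000000000000000000000000000000) (nat_lit 0x0) (nat_lit 0x4001000010000000000000000000000000000000000000000) := D_39 (nat_lit 180) (nat_lit 160) (nat_lit 194) (nat_lit 0) (nat_lit 11) (nat_lit 10) (nat_lit 1) (nat_lit 11) (nat_lit 10) (by decide +kernel)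
theorem L100553 : W_39 (nat_lit 3) (nat_lit 0x8002400020019000180000000000000000000000000000000) (nat_lit 0x0) (nat_lit 0x14001800010000000000000000000000000000000000000000) := T_39 (nat_lit 179) (nat_lit 196) (nat_lit 7) (nat_lit 8) (nat_lit 7) L100552 (by decide +kernel)
theorem L100554 : W_39 (nat_lit 2) (nat_lit 0x7c00240002001d000380000000000000000000000000000000) (nat_lit 0x0) (nat_lit 0x1c00000000000000000000000000000000000000000000000000000) := D_39 (nat_lit 215) (nat_lit 216) (nat_lit 214) (nat_lit 3) (nat_lit 8) (nat_lit 11) (nat_lit 3) (nat_lit 7) (nat_lit 11) (by decide +kernel)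
theorem L100555 : W_39 (nat_lit 3) (nat_lit 0x5c00240002001d000380000000000000000000000000000000) (nat_lit 0x0) (nat_lit 0x1c00020004000000000000000000000000000000000000000000000) := T_39 (nat_lit 197) (nat_lit 182) (nat_lit 2) (nat_lit 8) (nat_lit 11) L100554 (by decide +kernel)
theorem L100556 : W_39 (nat_lit 4) (nat_lit 0x1c00240002001d000380000000000000000000000000000000) (nat_lit 0x0) (nat_lit 0x1c00060004000100000000000000000000000000000000000000000) := T_39 (nat_lit 198) (nat_lit 164) (nat_lit 4) (nat_lit 11) (nat_lit 11) L100555 (by decide +kernel)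
theorem L100557 : W_39 (nat_lit 5) (nat_lit 0xc00240002001d000380000000000000000000000000000000) (nat_lit 0x0) (nat_lit 0x1c00070004800100000000000000000000000000000000000000000) := T_39 (nat_lit 196) (nat_lit 179) (nat_lit 7) (nat_lit 8) (nat_lit 7) L100556 (by decide +kernel)
theorem L100558 : W_39 (nat_lit 6) (nat_lit 0xc002400020019000380000000000000000000000000000000) (nat_lit 0x0) (nat_lit 0x1c00070004800100024000000000000000000000000000000000000) := T_39 (nat_lit 146) (nat_lit 149) (nat_lit 0) (nat_lit 13) (nat_lit 8) L100557 (by decide +kernel)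
theorem L100559 : W_39 (nat_lit 7) (nat_lit 0xc002400020019000180000000000000000000000000000000) (nat_lit 0x0) (nat_lit 0x1c00070004800100024000600000000000000000000000000000000) := T_39 (nat_lit 129) (nat_lit 130) (nat_lit 3) (nat_lit 8) (nat_lit 7) L100558 (by decide +kernel)
theorem L100560 : W_39 (nat_lit 8) (nat_lit 0x8002400020019000180000000000000000000000000000000) (nat_lit 0x0) (nat_lit 0x1c80074004800100024000600000000000000000000000000000000) := T_39 (nat_lit 194) (nat_lit 211) (nat_lit 5) (nat_lit 8) (nat_lit 8) L100559 (by decide +kernel)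
theorem L100561 : W_39 (nat_lit 2) (nat_lit 0x8003c00120039000380000000000000000000000000000000) (nat_lit 0x0) (nat_lit 0xc0000000000000000800000000000000000000000000000000) := D_39 (nat_lit 198) (nat_lit 199) (nat_lit 131) (nat_lit 3) (nat_lit 8) (nat_lit 10) (nat_lit 6) (nat_lit 11) (nat_lit 11) (by decide +kernel)
theorem L100562 : W_39 (nat_lit 3) (nat_lit 0x8003c00020039000380000000000000000000000000000000) (nat_lit 0x0) (nat_lit 0xc0000000300000000800000000000000000000000000000000) := T_39 (nat_lit 164) (nat_lit 165) (nat_lit 2) (nat_lit 8) (nat_lit 10) L100561 (by decide +kernel)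
theorem L100563 : W_39 (nat_lit 4) (nat_lit 0x8003c00020019000380000000000000000000000000000000) (nat_lit 0x0) (nat_lit 0xc0000000300024000800000000000000000000000000000000) := T_39 (nat_lit 149) (nat_lit 146) (nat_lit 0) (nat_lit 13) (nat_lit 8) L100562 (by decide +kernel)
theorem L100564 : W_39 (nat_lit 5) (nat_lit 0x8003c00020019000180000000000000000000000000000000) (nat_lit 0x0) (nat_lit 0xc0000000300024000e00000000000000000000000000000000) := T_39 (nat_lit 129) (nat_lit 130) (nat_lit 3) (nat_lit 8) (nat_lit 7) L100563 (by decide +kernel)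
theorem L100565 : W_39 (nat_lit 6) (nat_lit 0x8002c00020019000180000000000000000000000000000000) (nat_lit 0x0) (nat_lit 0xc0001000310024000e00000000000000000000000000000000) := T_39 (nat_lit 180) (nat_lit 160) (nat_lit 0) (nat_lit 11) (nat_lit 10) L100564 (by decide +kernel)
theorem L100566 : W_39 (nat_lit 7) (nat_lit 0x8002400020019000180000000000000000000000000000000) (nat_lit 0x0) (nat_lit 0xd0001800310024000e00000000000000000000000000000000) := T_39 (nat_lit 179) (nat_lit 196) (nat_lit 7) (nat_lit 8) (nat_lit 7) L100565 (by decide +kernel)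
theorem L100567 : W_39 (nat_lit 2) (nat_lit 0x800048002400120019000380000000000000000000000000000000) (nat_lit 0x0) (nat_lit 0x20001000080000000000000000000000000000000000000000000000000) := D_39 (nat_lit 216) (nat_lit 233) (nat_lit 199) (nat_lit 7) (nat_lit 11) (nat_lit 9) (nat_lit 7) (nat_lit 11) (nat_lit 8) (by decide +kernel)
theorem L100568 : W_39 (nat_lit 3) (nat_lit 0x48002400120019000380000000000000000000000000000000) (nat_lit 0x0) (nat_lit 0x20001800080000000200000000000000000000000000000000000000000) := T_39 (nat_lit 215) (nat_lit 165) (nat_lit 6) (nat_lit 11) (nat_lit 12) L100567 (by decide +kernel)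
theorem L100569 : W_39 (nat_lit 4) (nat_lit 0x8002400120019000380000000000000000000000000000000) (nat_lit 0x0) (nat_lit 0x200018000c0000000200000000800000000000000000000000000000000) := T_39 (nat_lit 198) (nat_lit 131) (nat_lit 6) (nat_lit 11) (nat_lit 11) L100568 (by decide +kernel)
theorem L100570 : W_39 (nat_lit 5) (nat_lit 0x8002400120019000180000000000000000000000000000000) (nat_lit 0x0) (nat_lit 0x200018000c0000000200000000e00000000000000000000000000000000) := T_39 (nat_lit 129) (nat_lit 130) (nat_lit 3) (nat_lit 8) (nat_lit 7) L100569 (by decide +kernel)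
theorem L100571 : W_39 (nat_lit 2) (nat_lit 0xc002400120019000380000000000000000000000000000000) (nat_lit 0x0) (nat_lit 0x40000000000024000000000000000000000000000000000000) := D_39 (nat_lit 146) (nat_lit 149) (nat_lit 198) (nat_lit 0) (nat_lit 13) (nat_lit 8) (nat_lit 4) (nat_lit 11) (nat_lit 11) (by decide +kernel)
theorem L100572 : W_39 (nat_lit 3) (nat_lit 0xc002400120019000180000000000000000000000000000000) (nat_lit 0x0) (nat_lit 0x40000000000024000600000000000000000000000000000000) := T_39 (nat_lit 129) (nat_lit 130) (nat_lit 3) (nat_lit 8) (nat_lit 7) L100571 (by decide +kernel)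
theorem L100573 : W_39 (nat_lit 4) (nat_lit 0x8002400120019000180000000000000000000000000000000) (nat_lit 0x0) (nat_lit 0x80044000000000024000600000000000000000000000000000000) := T_39 (nat_lit 194) (nat_lit 211) (nat_lit 5) (nat_lit 8) (nat_lit 8) L100572 (by decide +kernel)
theorem L100574 : W_39 (nat_lit 2) (nat_lit 0xc006400120019000580020000000000000000000000000000) (nat_lit 0x0) (nat_lit 0x800040002000000000000000000000000) := D_39 (nat_lit 114) (nat_lit 131) (nat_lit 97) (nat_lit 6) (nat_lit 11) (nat_lit 10) (nat_lit 6) (nat_lit 11) (nat_lit 9) (by decide +kernel)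
theorem L100575 : W_39 (nat_lit 3) (nat_lit 0xc006400120019000580000000000000000000000000000000) (nat_lit 0x0) (nat_lit 0x200000000800060002000000000000000000000000) := T_39 (nat_lit 113) (nat_lit 165) (nat_lit 7) (nat_lit 11) (nat_lit 6) L100574 (by decide +kernel)
theorem L100576 : W_39 (nat_lit 4) (nat_lit 0xc002400120019000580000000000000000000000000000000) (nat_lit 0x0) (nat_lit 0x80004000200000000800060002000000000000000000000000) := T_39 (nat_lit 182) (nat_lit 199) (nat_lit 7) (nat_lit 11) (nat_lit 7) L100575 (by decide +kernel)
theorem L100577 : W_39 (nat_lit 5) (nat_lit 0x8002400120019000580000000000000000000000000000000) (nat_lit 0x0) (nat_lit 0x80084004000200000000800060002000000000000000000000000) := T_39 (nat_lit 194) (nat_lit 211) (nat_lit 5) (nat_lit 8) (nat_lit 8) L100576 (by decide +kernel)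
theorem L100578 : W_39 (nat_lit 6) (nat_lit 0x8002400120019000180000000000000000000000000000000) (nat_lit 0x0) (nat_lit 0x80084004000200000000e00060002000000000000000000000000) := T_39 (nat_lit 130) (nat_lit 129) (nat_lit 3) (nat_lit 8) (nat_lit 7) L100577 (by decide +kernel)
theorem L100579 : W_39 (nat_lit 2) (nat_lit 0x80004c002400120019000180000000000000000000000000000000) (nat_lit 0x0) (nat_lit 0x20001000080000000000000000000000000000000000000000000000000) := D_39 (nat_lit 216) (nat_lit 233) (nat_lit 199) (nat_lit 7) (nat_lit 11) (nat_lit 9) (nat_lit 7) (nat_lit 11) (nat_lit 8) (by decide +kernel)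
theorem L100580 : W_39 (nat_lit 3) (nat_lit 0x4c002400120019000180000000000000000000000000000000) (nat_lit 0x0) (nat_lit 0x20001800080000000200000000000000000000000000000000000000000) := T_39 (nat_lit 215) (nat_lit 165) (nat_lit 6) (nat_lit 11) (nat_lit 12) L100579 (by decide +kernel)
theorem L100581 : W_39 (nat_lit 4) (nat_lit 0xc002400120019000180000000000000000000000000000000) (nat_lit 0x0) (nat_lit 0x200018000c0000000200000000800000000000000000000000000000000) := T_39 (nat_lit 198) (nat_lit 131) (nat_lit 6) (nat_lit 11) (nat_lit 11) L100580 (by decide +kernel)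
theorem L100582 : W_39 (nat_lit 5) (nat_lit 0x8002400120019000180000000000000000000000000000000) (nat_lit 0x0) (nat_lit 0x200018800c4000000200000000800000000000000000000000000000000) := T_39 (nat_lit 194) (nat_lit 211) (nat_lit 5) (nat_lit 8) (nat_lit 8) L100581 (by decide +kernel)
theorem L100583 : W_39 (nat_lit 7) (nat_lit 0x8002400020019000180000000000000000000000000000000) (nat_lit 0x0) (nat_lit 0x200018800c4004000300024000e00060002000000000000000000000000) := Q_39 (nat_lit 164) (C_39 L100570 (C_39 L100573 (C_39 L100578 (C_39 L100582 N_39)))) (by decide +kernel)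
theorem L100584 : W_39 (nat_lit 9) (nat_lit 0x8000400020019000180000000000000000000000000000000) (nat_lit 0x0) (nat_lit 0x20001c800f4007800310024000e00060002000000000000000000000000) := Q_39 (nat_lit 181) (C_39 L100553 (C_39 L100560 (C_39 L100566 (C_39 L100583 N_39)))) (by decide +kernel)
theorem L100585 : W_39 (nat_lit 2) (nat_lit 0x180008000c0006001d000380000000000000000000000000000000) (nat_lit 0x0) (nat_lit 0x90000000000010000000000000000000000000000) := D_39 (nat_lit 163) (nat_lit 112) (nat_lit 160) (nat_lit 5) (nat_lit 10) (nat_lit 6) (nat_lit 2) (nat_lit 7) (nat_lit 9) (by decide +kernel)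
theorem L100586 : W_39 (nat_lit 3) (nat_lit 0x180008000c0002001d000380000000000000000000000000000000) (nat_lit 0x0) (nat_lit 0x20000000000000000d0000000000010000000000000000000000000000) := T_39 (nat_lit 162) (nat_lit 229) (nat_lit 6) (nat_lit 8) (nat_lit 13) L100585 (by decide +kernel)
theorem L100587 : W_39 (nat_lit 4) (nat_lit 0x80008000c0002001d000380000000000000000000000000000000) (nat_lit 0x0) (nat_lit 0x30001000000000000d0000000000010000000000000000000000000000) := T_39 (nat_lit 212) (nat_lit 228) (nat_lit 5) (nat_lit 8) (nat_lit 9) L100586 (by decide +kernel)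
theorem L100588 : W_39 (nat_lit 5) (nat_lit 0x8000c0002001d000380000000000000000000000000000000) (nat_lit 0x0) (nat_lit 0x30001800040000000d0000000000010000000000000000000000000000) := T_39 (nat_lit 211) (nat_lit 194) (nat_lit 5) (nat_lit 8) (nat_lit 8) L100587 (by decide +kernel)
theorem L100589 : W_39 (nat_lit 6) (nat_lit 0x800040002001d000380000000000000000000000000000000) (nat_lit 0x0) (nat_lit 0x30001800140008000d0000000000010000000000000000000000000000) := T_39 (nat_lit 179) (nat_lit 196) (nat_lit 7) (nat_lit 8) (nat_lit 7) L100588 (by decide +kernel)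
theorem L100590 : W_39 (nat_lit 7) (nat_lit 0x8000400020019000380000000000000000000000000000000) (nat_lit 0x0) (nat_lit 0x30001800140008000d0024000000010000000000000000000000000000) := T_39 (nat_lit 146) (nat_lit 149) (nat_lit 0) (nat_lit 13) (nat_lit 8) L100589 (by decide +kernel)
theorem L100591 : W_39 (nat_lit 8) (nat_lit 0x8000400020019000180000000000000000000000000000000) (nat_lit 0x0) (nat_lit 0x30001800140008000d0024000600010000000000000000000000000000) := T_39 (nat_lit 129) (nat_lit 130) (nat_lit 3) (nat_lit 8) (nat_lit 7) L100590 (by decide +kernel)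
theorem L100592 : W_39 (nat_lit 2) (nat_lit 0xd002c0012001d000380000000000000000000000000000000) (nat_lit 0x0) (nat_lit 0xc0000000000010000000000000000000000000000) := D_39 (nat_lit 163) (nat_lit 162) (nat_lit 112) (nat_lit 2) (nat_lit 8) (nat_lit 9) (nat_lit 7) (nat_lit 10) (nat_lit 6) (by decide +kernel)
theorem L100593 : W_39 (nat_lit 3) (nat_lit 0xd002c0002001d000380000000000000000000000000000000) (nat_lit 0x0) (nat_lit 0x400000001c0000000000010000000000000000000000000000) := T_39 (nat_lit 164) (nat_lit 198) (nat_lit 4) (nat_lit 11) (nat_lit 11) L100592 (by decide +kernel)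
theorem L100594 : W_39 (nat_lit 4) (nat_lit 0xd000c0002001d000380000000000000000000000000000000) (nat_lit 0x0) (nat_lit 0x400030001c0000000000010000000000000000000000000000) := T_39 (nat_lit 181) (nat_lit 180) (nat_lit 1) (nat_lit 11) (nat_lit 10) L100593 (by decide +kernel)
theorem L100595 : W_39 (nat_lit 5) (nat_lit 0xc000c0002001d000380000000000000000000000000000000) (nat_lit 0x0) (nat_lit 0x430030001c0000000000010000000000000000000000000000) := T_39 (nat_lit 192) (nat_lit 193) (nat_lit 2) (nat_lit 5) (nat_lit 11) L100594 (by decide +kernel)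
theorem L100596 : W_39 (nat_lit 6) (nat_lit 0xc00040002001d000380000000000000000000000000000000) (nat_lit 0x0) (nat_lit 0x530038001c0000000000010000000000000000000000000000) := T_39 (nat_lit 179) (nat_lit 196) (nat_lit 7) (nat_lit 8) (nat_lit 7) L100595 (by decide +kernel)
theorem L100597 : W_39 (nat_lit 7) (nat_lit 0xc000400020019000380000000000000000000000000000000) (nat_lit 0x0) (nat_lit 0x530038001c0024000000010000000000000000000000000000) := T_39 (nat_lit 146) (nat_lit 149) (nat_lit 0) (nat_lit 13) (nat_lit 8) L100596 (by decide +kernel)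
theorem L100598 : W_39 (nat_lit 8) (nat_lit 0xc000400020019000180000000000000000000000000000000) (nat_lit 0x0) (nat_lit 0x530038001c0024000600010000000000000000000000000000) := T_39 (nat_lit 129) (nat_lit 130) (nat_lit 3) (nat_lit 8) (nat_lit 7) L100597 (by decide +kernel)
theorem L100599 : W_39 (nat_lit 9) (nat_lit 0x8000400020019000180000000000000000000000000000000) (nat_lit 0x0) (nat_lit 0x800570038001c0024000600010000000000000000000000000000) := T_39 (nat_lit 194) (nat_lit 211) (nat_lit 5) (nat_lit 8) (nat_lit 8) L100598 (by decide +kernel)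
theorem L100600 : W_39 (nat_lit 2) (nat_lit 0x8000c001a0019000580020000000000000000000000000000) (nat_lit 0x0) (nat_lit 0x4000200000000000000001000000000000000000000000) := D_39 (nat_lit 165) (nat_lit 182) (nat_lit 96) (nat_lit 7) (nat_lit 11) (nat_lit 6) (nat_lit 7) (nat_lit 11) (nat_lit 5) (by decide +kernel)
theorem L100601 : W_39 (nat_lit 3) (nat_lit 0x8000c001a0019000580000000000000000000000000000000) (nat_lit 0x0) (nat_lit 0x5000200000000000020001000000000000000000000000) := T_39 (nat_lit 113) (nat_lit 180) (nat_lit 5) (nat_lit 11) (nat_lit 6) L100600 (by decide +kernel)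
theorem L100602 : W_39 (nat_lit 4) (nat_lit 0x80004001a0019000580000000000000000000000000000000) (nat_lit 0x0) (nat_lit 0x10005800200000000000020001000000000000000000000000) := T_39 (nat_lit 179) (nat_lit 196) (nat_lit 7) (nat_lit 8) (nat_lit 7) L100601 (by decide +kernel)
theorem L100603 : W_39 (nat_lit 5) (nat_lit 0x8000400120019000580000000000000000000000000000000) (nat_lit 0x0) (nat_lit 0x100058002c0000000000020001000000000000000000000000) := T_39 (nat_lit 163) (nat_lit 162) (nat_lit 2) (nat_lit 8) (nat_lit 9) L100602 (by decide +kernel)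
theorem L100604 : W_39 (nat_lit 6) (nat_lit 0x8000400120019000180000000000000000000000000000000) (nat_lit 0x0) (nat_lit 0x100058002c0000000600020001000000000000000000000000) := T_39 (nat_lit 130) (nat_lit 129) (nat_lit 3) (nat_lit 8) (nat_lit 7) L100603 (by decide +kernel)
theorem L100605 : W_39 (nat_lit 2) (nat_lit 0x8000c007a003d001180000000000000000000000000000000) (nat_lit 0x0) (nat_lit 0x4000000000000000080004000000000000000000000000) := D_39 (nat_lit 115) (nat_lit 182) (nat_lit 98) (nat_lit 5) (nat_lit 13) (nat_lit 6) (nat_lit 5) (nat_lit 13) (nat_lit 5) (by decide +kernel)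
theorem L100606 : W_39 (nat_lit 3) (nat_lit 0x8000c007a003d000180000000000000000000000000000000) (nat_lit 0x0) (nat_lit 0x4000000000003000080004000000000000000000000000) := T_39 (nat_lit 132) (nat_lit 133) (nat_lit 2) (nat_lit 10) (nat_lit 8) L100605 (by decide +kernel)
theorem L100607 : W_39 (nat_lit 4) (nat_lit 0x8000c005a003d000180000000000000000000000000000000) (nat_lit 0x0) (nat_lit 0x5000200000003000080004000000000000000000000000) := T_39 (nat_lit 165) (nat_lit 180) (nat_lit 1) (nat_lit 13) (nat_lit 9) L100606 (by decide +kernel)
theorem L100608 : W_39 (nat_lit 5) (nat_lit 0x8000c001a003d000180000000000000000000000000000000) (nat_lit 0x0) (nat_lit 0x5000e00000003000080004000000000000000000000000) := T_39 (nat_lit 166) (nat_lit 167) (nat_lit 3) (nat_lit 10) (nat_lit 8) L100607 (by decide +kernel)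
theorem L100609 : W_39 (nat_lit 6) (nat_lit 0x8000c001a0039000180000000000000000000000000000000) (nat_lit 0x0) (nat_lit 0x5000e00004003200080004000000000000000000000000) := T_39 (nat_lit 146) (nat_lit 129) (nat_lit 0) (nat_lit 13) (nat_lit 8) L100608 (by decide +kernel)
theorem L100610 : W_39 (nat_lit 7) (nat_lit 0x8000c001a0019000180000000000000000000000000000000) (nat_lit 0x0) (nat_lit 0x5000e00064003200080004000000000000000000000000) := T_39 (nat_lit 149) (nat_lit 150) (nat_lit 1) (nat_lit 14) (nat_lit 8) L100609 (by decide +kernel)
theorem L100611 : W_39 (nat_lit 8) (nat_lit 0x8000c00120019000180000000000000000000000000000000) (nat_lit 0x0) (nat_lit 0x5000ec0064003200080004000000000000000000000000) := T_39 (nat_lit 163) (nat_lit 162) (nat_lit 2) (nat_lit 8) (nat_lit 9) L100610 (by decide +kernel)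
theorem L100612 : W_39 (nat_lit 9) (nat_lit 0x8000400120019000180000000000000000000000000000000) (nat_lit 0x0) (nat_lit 0x10005800ec0064003200080004000000000000000000000000) := T_39 (nat_lit 179) (nat_lit 196) (nat_lit 7) (nat_lit 8) (nat_lit 7) L100611 (by decide +kernel)
theorem L100613 : W_39 (nat_lit 2) (nat_lit 0x80004001a0019000380000000000000000000000000000000) (nat_lit 0x0) (nat_lit 0x64000000000000000000000000000000000000) := D_39 (nat_lit 149) (nat_lit 146) (nat_lit 150) (nat_lit 0) (nat_lit 13) (nat_lit 8) (nat_lit 1) (nat_lit 14) (nat_lit 8) (by decide +kernel)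
theorem L100614 : W_39 (nat_lit 3) (nat_lit 0x80004001a0019000180000000000000000000000000000000) (nat_lit 0x0) (nat_lit 0x64000600000000000000000000000000000000) := T_39 (nat_lit 129) (nat_lit 130) (nat_lit 3) (nat_lit 8) (nat_lit 7) L100613 (by decide +kernel)
theorem L100615 : W_39 (nat_lit 4) (nat_lit 0x8000400120019000180000000000000000000000000000000) (nat_lit 0x0) (nat_lit 0xc0064000600000000000000000000000000000000) := T_39 (nat_lit 163) (nat_lit 162) (nat_lit 2) (nat_lit 8) (nat_lit 9) L100614 (by decide +kernel)
theorem L100616 : W_39 (nat_lit 2) (nat_lit 0x8002c0012001d000380000000800000000000000000000000) (nat_lit 0x0) (nat_lit 0x1000210000000000000000000000000000000000000000) := D_39 (nat_lit 180) (nat_lit 165) (nat_lit 160) (nat_lit 2) (nat_lit 8) (nat_lit 10) (nat_lit 0) (nat_lit 11) (nat_lit 10) (by decide +kernel)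
theorem L100617 : W_39 (nat_lit 3) (nat_lit 0x8000c0012001d000380000000800000000000000000000000) (nat_lit 0x0) (nat_lit 0x40003000210000000000000000000000000000000000000000) := T_39 (nat_lit 181) (nat_lit 198) (nat_lit 4) (nat_lit 11) (nat_lit 11) L100616 (by decide +kernel)
theorem L100618 : W_39 (nat_lit 4) (nat_lit 0x8000c0012001d000380000000000000000000000000000000) (nat_lit 0x0) (nat_lit 0x40003000210000000000010000800000000000000000000000) := T_39 (nat_lit 95) (nat_lit 112) (nat_lit 7) (nat_lit 10) (nat_lit 5) L100617 (by decide +kernel)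
theorem L100619 : W_39 (nat_lit 5) (nat_lit 0x800040012001d000380000000000000000000000000000000) (nat_lit 0x0) (nat_lit 0x50003800210000000000010000800000000000000000000000) := T_39 (nat_lit 179) (nat_lit 196) (nat_lit 7) (nat_lit 8) (nat_lit 7) L100618 (by decide +kernel)
theorem L100620 : W_39 (nat_lit 6) (nat_lit 0x8000400120019000380000000000000000000000000000000) (nat_lit 0x0) (nat_lit 0x50003800210024000000010000800000000000000000000000) := T_39 (nat_lit 146) (nat_lit 149) (nat_lit 0) (nat_lit 13) (nat_lit 8) L100619 (by decide +kernel)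
theorem L100621 : W_39 (nat_lit 7) (nat_lit 0x8000400120019000180000000000000000000000000000000) (nat_lit 0x0) (nat_lit 0x50003800210024000600010000800000000000000000000000) := T_39 (nat_lit 129) (nat_lit 130) (nat_lit 3) (nat_lit 8) (nat_lit 7) L100620 (by decide +kernel)
theorem L100622 : W_39 (nat_lit 2) (nat_lit 0x8002c00120019000180000000000000000000000000000000) (nat_lit 0x0) (nat_lit 0x1000210000000000000000000000000000000000000000) := D_39 (nat_lit 180) (nat_lit 165) (nat_lit 160) (nat_lit 2) (nat_lit 8) (nat_lit 10) (nat_lit 0) (nat_lit 11) (nat_lit 10) (by decide +kernel)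
theorem L100623 : W_39 (nat_lit 3) (nat_lit 0x8002400120019000180000000000000000000000000000000) (nat_lit 0x0) (nat_lit 0x10001800210000000000000000000000000000000000000000) := T_39 (nat_lit 179) (nat_lit 196) (nat_lit 7) (nat_lit 8) (nat_lit 7) L100622 (by decide +kernel)
theorem L100624 : W_39 (nat_lit 2) (nat_lit 0x800048002400120019000180000000000000000000000000000000) (nat_lit 0x0) (nat_lit 0x20001000080000000000000000000000000000000000000000000000000) := D_39 (nat_lit 216) (nat_lit 233) (nat_lit 199) (nat_lit 7) (nat_lit 11) (nat_lit 9) (nat_lit 7) (nat_lit 11) (nat_lit 8) (by decide +kernel)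
theorem L100625 : W_39 (nat_lit 3) (nat_lit 0x48002400120019000180000000000000000000000000000000) (nat_lit 0x0) (nat_lit 0x20001800080000000200000000000000000000000000000000000000000) := T_39 (nat_lit 215) (nat_lit 165) (nat_lit 6) (nat_lit 11) (nat_lit 12) L100624 (by decide +kernel)
theorem L100626 : W_39 (nat_lit 4) (nat_lit 0x8002400120019000180000000000000000000000000000000) (nat_lit 0x0) (nat_lit 0x200018000c0000000200000000800000000000000000000000000000000) := T_39 (nat_lit 198) (nat_lit 131) (nat_lit 6) (nat_lit 11) (nat_lit 11) L100625 (by decide +kernel)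
theorem L100627 : W_39 (nat_lit 2) (nat_lit 0x8003c00120019000180000000000000000000000000000000) (nat_lit 0x0) (nat_lit 0xc0000000000000000800000000000000000000000000000000) := D_39 (nat_lit 198) (nat_lit 131) (nat_lit 199) (nat_lit 6) (nat_lit 11) (nat_lit 11) (nat_lit 3) (nat_lit 8) (nat_lit 10) (by decide +kernel)
theorem L100628 : W_39 (nat_lit 3) (nat_lit 0x8002c00120019000180000000000000000000000000000000) (nat_lit 0x0) (nat_lit 0xc0001000010000000800000000000000000000000000000000) := T_39 (nat_lit 180) (nat_lit 160) (nat_lit 0) (nat_lit 11) (nat_lit 10) L100627 (by decide +kernel)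
theorem L100629 : W_39 (nat_lit 4) (nat_lit 0x8002400120019000180000000000000000000000000000000) (nat_lit 0x0) (nat_lit 0xd0001800010000000800000000000000000000000000000000) := T_39 (nat_lit 179) (nat_lit 196) (nat_lit 7) (nat_lit 8) (nat_lit 7) L100628 (by decide +kernel)
theorem L100630 : W_39 (nat_lit 5) (nat_lit 0x8000400120019000180000000000000000000000000000000) (nat_lit 0x0) (nat_lit 0x200018000d0003800210000000800000000000000000000000000000000) := Q_39 (nat_lit 181) (C_39 L100623 (C_39 L100626 (C_39 L100629 N_39))) (by decide +kernel)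
theorem L100631 : W_39 (nat_lit 10) (nat_lit 0x8000400020019000180000000000000000000000000000000) (nat_lit 0x0) (nat_lit 0x200018000d0007800fd0064003e000b0005800000000000000000000000) := Q_39 (nat_lit 164) (C_39 L100604 (C_39 L100612 (C_39 L100615 (C_39 L100621 (C_39 L100630 N_39))))) (by decide +kernel)
theorem L100632 : W_39 (nat_lit 2) (nat_lit 0xc0004001a0059000580020000000000000000000000000000) (nat_lit 0x0) (nat_lit 0x4000200000000000000001000000000000000000000000) := D_39 (nat_lit 165) (nat_lit 182) (nat_lit 96) (nat_lit 7) (nat_lit 11) (nat_lit 6) (nat_lit 7) (nat_lit 11) (nat_lit 5) (by decide +kernel)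
theorem L100633 : W_39 (nat_lit 3) (nat_lit 0xc0004001a0059000580000000000000000000000000000000) (nat_lit 0x0) (nat_lit 0x5000200000000000020001000000000000000000000000) := T_39 (nat_lit 113) (nat_lit 180) (nat_lit 5) (nat_lit 11) (nat_lit 6) L100632 (by decide +kernel)
theorem L100634 : W_39 (nat_lit 4) (nat_lit 0xc0004001a0019000580000000000000000000000000000000) (nat_lit 0x0) (nat_lit 0x5000200060000000020001000000000000000000000000) := T_39 (nat_lit 150) (nat_lit 149) (nat_lit 1) (nat_lit 14) (nat_lit 8) L100633 (by decide +kernel)
theorem L100635 : W_39 (nat_lit 5) (nat_lit 0xc0004001a0019000180000000000000000000000000000000) (nat_lit 0x0) (nat_lit 0x5000200060000600020001000000000000000000000000) := T_39 (nat_lit 130) (nat_lit 129) (nat_lit 3) (nat_lit 8) (nat_lit 7) L100634 (by decide +kernel)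
theorem L100636 : W_39 (nat_lit 6) (nat_lit 0xc000400120019000180000000000000000000000000000000) (nat_lit 0x0) (nat_lit 0x50002c0060000600020001000000000000000000000000) := T_39 (nat_lit 163) (nat_lit 162) (nat_lit 2) (nat_lit 8) (nat_lit 9) L100635 (by decide +kernel)
theorem L100637 : W_39 (nat_lit 7) (nat_lit 0x8000400120019000180000000000000000000000000000000) (nat_lit 0x0) (nat_lit 0x800040050002c0060000600020001000000000000000000000000) := T_39 (nat_lit 194) (nat_lit 211) (nat_lit 5) (nat_lit 8) (nat_lit 8) L100636 (by decide +kernel)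
theorem L100638 : W_39 (nat_lit 2) (nat_lit 0xc0084005a003d001980000002000000000000000000000000) (nat_lit 0x0) (nat_lit 0x200010000200000000000000000000000000000000000000000) := D_39 (nat_lit 184) (nat_lit 201) (nat_lit 165) (nat_lit 7) (nat_lit 13) (nat_lit 7) (nat_lit 3) (nat_lit 10) (nat_lit 9) (by decide +kernel)
theorem L100639 : W_39 (nat_lit 3) (nat_lit 0xc0084005a003d000980000002000000000000000000000000) (nat_lit 0x0) (nat_lit 0x200010000200000003000000000000000000000000000000000) := T_39 (nat_lit 132) (nat_lit 133) (nat_lit 2) (nat_lit 10) (nat_lit 8) L100638 (by decide +kernel)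
theorem L100640 : W_39 (nat_lit 4) (nat_lit 0xc0004005a003d000980000002000000000000000000000000) (nat_lit 0x0) (nat_lit 0x300018000200000003000000000000000000000000000000000) := T_39 (nat_lit 183) (nat_lit 200) (nat_lit 4) (nat_lit 13) (nat_lit 11) L100639 (by decide +kernel)
theorem L100641 : W_39 (nat_lit 5) (nat_lit 0xc0004001a003d000980000002000000000000000000000000) (nat_lit 0x0) (nat_lit 0x300018000e00000003000000000000000000000000000000000) := T_39 (nat_lit 166) (nat_lit 167) (nat_lit 3) (nat_lit 10) (nat_lit 8) L100640 (by decide +kernel)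
theorem L100642 : W_39 (nat_lit 6) (nat_lit 0xc0004001a0039000980000002000000000000000000000000) (nat_lit 0x0) (nat_lit 0x300018000e00004003200000000000000000000000000000000) := T_39 (nat_lit 146) (nat_lit 129) (nat_lit 0) (nat_lit 13) (nat_lit 8) L100641 (by decide +kernel)
theorem L100643 : W_39 (nat_lit 7) (nat_lit 0xc0004001a0019000980000002000000000000000000000000) (nat_lit 0x0) (nat_lit 0x300018000e00064003200000000000000000000000000000000) := T_39 (nat_lit 149) (nat_lit 150) (nat_lit 1) (nat_lit 14) (nat_lit 8) L100642 (by decide +kernel)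
theorem L100644 : W_39 (nat_lit 8) (nat_lit 0xc000400120019000980000002000000000000000000000000) (nat_lit 0x0) (nat_lit 0x300018000ec0064003200000000000000000000000000000000) := T_39 (nat_lit 163) (nat_lit 162) (nat_lit 2) (nat_lit 8) (nat_lit 9) L100643 (by decide +kernel)
theorem L100645 : W_39 (nat_lit 9) (nat_lit 0xc000400120019000980000000000000000000000000000000) (nat_lit 0x0) (nat_lit 0x300018000ec0064003200040002000000000000000000000000) := T_39 (nat_lit 97) (nat_lit 114) (nat_lit 5) (nat_lit 12) (nat_lit 5) L100644 (by decide +kernel)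
theorem L100646 : W_39 (nat_lit 10) (nat_lit 0x8000400120019000980000000000000000000000000000000) (nat_lit 0x0) (nat_lit 0x80304018000ec0064003200040002000000000000000000000000) := T_39 (nat_lit 194) (nat_lit 211) (nat_lit 5) (nat_lit 8) (nat_lit 8) L100645 (by decide +kernel)
theorem L100647 : W_39 (nat_lit 2) (nat_lit 0x8002400160019000980000000000000000000000000000000) (nat_lit 0x0) (nat_lit 0x200000000000040002000000000000000000000000) := D_39 (nat_lit 114) (nat_lit 97) (nat_lit 165) (nat_lit 5) (nat_lit 12) (nat_lit 5) (nat_lit 5) (nat_lit 12) (nat_lit 6) (by decide +kernel)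
theorem L100648 : W_39 (nat_lit 3) (nat_lit 0x8000400160019000980000000000000000000000000000000) (nat_lit 0x0) (nat_lit 0x40002000200000000000040002000000000000000000000000) := T_39 (nat_lit 181) (nat_lit 198) (nat_lit 6) (nat_lit 11) (nat_lit 11) L100647 (by decide +kernel)
theorem L100649 : W_39 (nat_lit 4) (nat_lit 0x8000400120019000980000000000000000000000000000000) (nat_lit 0x0) (nat_lit 0x400020002c0000000000040002000000000000000000000000) := T_39 (nat_lit 162) (nat_lit 163) (nat_lit 2) (nat_lit 8) (nat_lit 9) L100648 (by decide +kernel)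
theorem L100650 : W_39 (nat_lit 2) (nat_lit 0x4c0084005a003d001980000000000000000000000000000000) (nat_lit 0x0) (nat_lit 0x200010000200000000000000000000000000000000000000000) := D_39 (nat_lit 184) (nat_lit 201) (nat_lit 165) (nat_lit 7) (nat_lit 13) (nat_lit 7) (nat_lit 3) (nat_lit 10) (nat_lit 9) (by decide +kernel)
theorem L100651 : W_39 (nat_lit 3) (nat_lit 0x4c0084005a003d000980000000000000000000000000000000) (nat_lit 0x0) (nat_lit 0x200010000200000003000000000000000000000000000000000) := T_39 (nat_lit 132) (nat_lit 133) (nat_lit 2) (nat_lit 10) (nat_lit 8) L100650 (by decide +kernel)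
theorem L100652 : W_39 (nat_lit 4) (nat_lit 0x4c0004005a003d000980000000000000000000000000000000) (nat_lit 0x0) (nat_lit 0x300018000200000003000000000000000000000000000000000) := T_39 (nat_lit 183) (nat_lit 200) (nat_lit 4) (nat_lit 13) (nat_lit 11) L100651 (by decide +kernel)
theorem L100653 : W_39 (nat_lit 5) (nat_lit 0x4c0004001a003d000980000000000000000000000000000000) (nat_lit 0x0) (nat_lit 0x300018000e00000003000000000000000000000000000000000) := T_39 (nat_lit 166) (nat_lit 167) (nat_lit 3) (nat_lit 10) (nat_lit 8) L100652 (by decide +kernel)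
theorem L100654 : W_39 (nat_lit 6) (nat_lit 0x4c0004001a0039000980000000000000000000000000000000) (nat_lit 0x0) (nat_lit 0x300018000e00004003200000000000000000000000000000000) := T_39 (nat_lit 146) (nat_lit 129) (nat_lit 0) (nat_lit 13) (nat_lit 8) L100653 (by decide +kernel)
theorem L100655 : W_39 (nat_lit 7) (nat_lit 0x4c0004001a0019000980000000000000000000000000000000) (nat_lit 0x0) (nat_lit 0x300018000e00064003200000000000000000000000000000000) := T_39 (nat_lit 149) (nat_lit 150) (nat_lit 1) (nat_lit 14) (nat_lit 8) L100654 (by decide +kernel)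
theorem L100656 : W_39 (nat_lit 8) (nat_lit 0xc0004001a0019000980000000000000000000000000000000) (nat_lit 0x0) (nat_lit 0x34001a000e00064003200000000000000000000000000000000) := T_39 (nat_lit 198) (nat_lit 181) (nat_lit 6) (nat_lit 11) (nat_lit 11) L100655 (by decide +kernel)
theorem L100657 : W_39 (nat_lit 9) (nat_lit 0xc000400120019000980000000000000000000000000000000) (nat_lit 0x0) (nat_lit 0x34001a000ec0064003200000000000000000000000000000000) := T_39 (nat_lit 163) (nat_lit 162) (nat_lit 2) (nat_lit 8) (nat_lit 9) L100656 (by decide +kernel)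
theorem L100658 : W_39 (nat_lit 10) (nat_lit 0x8000400120019000980000000000000000000000000000000) (nat_lit 0x0) (nat_lit 0x8034401a000ec0064003200000000000000000000000000000000) := T_39 (nat_lit 194) (nat_lit 211) (nat_lit 5) (nat_lit 8) (nat_lit 8) L100657 (by decide +kernel)
theorem L100659 : W_39 (nat_lit 2) (nat_lit 0x1800680014001a0039000980000002000000000000000000000000) (nat_lit 0x0) (nat_lit 0x800000000000000004000200000000000000000000000000000000) := D_39 (nat_lit 146) (nat_lit 129) (nat_lit 215) (nat_lit 0) (nat_lit 13) (nat_lit 8) (nat_lit 7) (nat_lit 10) (nat_lit 8) (by decide +kernel)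
theorem L100660 : W_39 (nat_lit 3) (nat_lit 0x1800680004001a0039000980000002000000000000000000000000) (nat_lit 0x0) (nat_lit 0xc00000001000000004000200000000000000000000000000000000) := T_39 (nat_lit 180) (nat_lit 214) (nat_lit 6) (nat_lit 10) (nat_lit 12) L100659 (by decide +kernel)
theorem L100661 : W_39 (nat_lit 4) (nat_lit 0x1800680004001a0019000980000002000000000000000000000000) (nat_lit 0x0) (nat_lit 0xc00000001000000064000200000000000000000000000000000000) := T_39 (nat_lit 149) (nat_lit 150) (nat_lit 1) (nat_lit 14) (nat_lit 8) L100660 (by decide +kernel)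
theorem L100662 : W_39 (nat_lit 5) (nat_lit 0x1800480004001a0019000980000002000000000000000000000000) (nat_lit 0x0) (nat_lit 0xc00030001000000064000200000000000000000000000000000000) := T_39 (nat_lit 197) (nat_lit 196) (nat_lit 1) (nat_lit 11) (nat_lit 11) L100661 (by decide +kernel)
theorem L100663 : W_39 (nat_lit 6) (nat_lit 0x800480004001a0019000980000002000000000000000000000000) (nat_lit 0x0) (nat_lit 0x1000d00030001000000064000200000000000000000000000000000000) := T_39 (nat_lit 212) (nat_lit 228) (nat_lit 5) (nat_lit 8) (nat_lit 9) L100662 (by decide +kernel)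
theorem L100664 : W_39 (nat_lit 7) (nat_lit 0x80048000400120019000980000002000000000000000000000000) (nat_lit 0x0) (nat_lit 0x1000d000300010000c0064000200000000000000000000000000000000) := T_39 (nat_lit 163) (nat_lit 162) (nat_lit 2) (nat_lit 8) (nat_lit 9) L100663 (by decide +kernel)
theorem L100665 : W_39 (nat_lit 8) (nat_lit 0x48000400120019000980000002000000000000000000000000) (nat_lit 0x0) (nat_lit 0x1000d800340010000c0064000200000000000000000000000000000000) := T_39 (nat_lit 211) (nat_lit 194) (nat_lit 5) (nat_lit 8) (nat_lit 8) L100664 (by decide +kernel)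
theorem L100666 : W_39 (nat_lit 9) (nat_lit 0x48000400120019000980000000000000000000000000000000) (nat_lit 0x0) (nat_lit 0x1000d800340010000c0064000200040002000000000000000000000000) := T_39 (nat_lit 97) (nat_lit 114) (nat_lit 5) (nat_lit 12) (nat_lit 5) L100665 (by decide +kernel)
theorem L100667 : W_39 (nat_lit 10) (nat_lit 0x8000400120019000980000000000000000000000000000000) (nat_lit 0x0) (nat_lit 0x1000d800740030000c0064000200040002000000000000000000000000) := T_39 (nat_lit 198) (nat_lit 181) (nat_lit 6) (nat_lit 11) (nat_lit 11) L100666 (by decide +kernel)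
theorem L100668 : W_39 (nat_lit 11) (nat_lit 0x8000400120019000180000000000000000000000000000000) (nat_lit 0x0) (nat_lit 0x1000d8037401b000ec0064003a00040002000000000000000000000000) := Q_39 (nat_lit 131) (C_39 L100646 (C_39 L100532 (C_39 L100649 (C_39 L100658 (C_39 L100667 N_39))))) (by decide +kernel)
theorem L100669 : W_39 (nat_lit 11) (nat_lit 0x8000400120019000180000000000000000000000000000000) (nat_lit 0x0) (nat_lit 0x801c403e000e00024007e000f0006800000000000000000000000) := Q_39 (nat_lit 131) (C_39 L100542 (C_39 L100551 (C_39 L100534 (C_39 L100532 N_39)))) (by decide +kernel)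
theorem L100670 : W_39 (nat_lit 4) (nat_lit 0x4c000400120019000180000000000000000000000000000000) (nat_lit 0x0) (nat_lit 0x20001800080002000200000000800000000000000000000000000000000) := T_39 (nat_lit 181) (nat_lit 131) (nat_lit 6) (nat_lit 11) (nat_lit 11) L100580 (by decide +kernel)
theorem L100671 : W_39 (nat_lit 5) (nat_lit 0x48000400120019000180000000000000000000000000000000) (nat_lit 0x0) (nat_lit 0x20001880084002000200000000800000000000000000000000000000000) := T_39 (nat_lit 194) (nat_lit 211) (nat_lit 5) (nat_lit 8) (nat_lit 8) L100670 (by decide +kernel)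
theorem L100672 : W_39 (nat_lit 4) (nat_lit 0x48000400120019000180000000000000000000000000000000) (nat_lit 0x0) (nat_lit 0x20001800080002000200000000800000000000000000000000000000000) := T_39 (nat_lit 181) (nat_lit 131) (nat_lit 6) (nat_lit 11) (nat_lit 11) L100625 (by decide +kernel)
theorem L100673 : W_39 (nat_lit 2) (nat_lit 0xec002400160019000180000000000000000000000000000000) (nat_lit 0x0) (nat_lit 0x10005000000000000000000000000000000000000000000000) := D_39 (nat_lit 196) (nat_lit 182) (nat_lit 180) (nat_lit 2) (nat_lit 8) (nat_lit 11) (nat_lit 2) (nat_lit 7) (nat_lit 11) (by decide +kernel)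
theorem L100674 : W_39 (nat_lit 3) (nat_lit 0xcc002400160019000180000000000000000000000000000000) (nat_lit 0x0) (nat_lit 0x400030005000000000000000000000000000000000000000000000) := T_39 (nat_lit 197) (nat_lit 214) (nat_lit 5) (nat_lit 11) (nat_lit 8) L100673 (by decide +kernel)
theorem L100675 : W_39 (nat_lit 4) (nat_lit 0x4c002400160019000180000000000000000000000000000000) (nat_lit 0x0) (nat_lit 0x14000b0005000000000000000000000000000000000000000000000) := T_39 (nat_lit 199) (nat_lit 216) (nat_lit 7) (nat_lit 11) (nat_lit 8) L100674 (by decide +kernel)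
theorem L100676 : W_39 (nat_lit 5) (nat_lit 0x4c000400160019000180000000000000000000000000000000) (nat_lit 0x0) (nat_lit 0x14000b0007000000000000800000000000000000000000000000000) := T_39 (nat_lit 181) (nat_lit 131) (nat_lit 6) (nat_lit 11) (nat_lit 11) L100675 (by decide +kernel)
theorem L100677 : W_39 (nat_lit 6) (nat_lit 0x48000400160019000180000000000000000000000000000000) (nat_lit 0x0) (nat_lit 0x14800b4007000000000000800000000000000000000000000000000) := T_39 (nat_lit 194) (nat_lit 211) (nat_lit 5) (nat_lit 8) (nat_lit 8) L100676 (by decide +kernel)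
theorem L100678 : W_39 (nat_lit 7) (nat_lit 0x48000400120019000180000000000000000000000000000000) (nat_lit 0x0) (nat_lit 0x14800b40070000c0000000800000000000000000000000000000000) := T_39 (nat_lit 162) (nat_lit 163) (nat_lit 2) (nat_lit 8) (nat_lit 9) L100677 (by decide +kernel)
theorem L100679 : W_39 (nat_lit 2) (nat_lit 0x1800680014001a0059000180000000000000000000000000000000) (nat_lit 0x0) (nat_lit 0x800000000000000004000400000000000000000000000000000000) := D_39 (nat_lit 146) (nat_lit 215) (nat_lit 130) (nat_lit 7) (nat_lit 10) (nat_lit 8) (nat_lit 6) (nat_lit 10) (nat_lit 11) (by decide +kernel)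
theorem L100680 : W_39 (nat_lit 3) (nat_lit 0x1800680004001a0059000180000000000000000000000000000000) (nat_lit 0x0) (nat_lit 0xc00000001000000004000400000000000000000000000000000000) := T_39 (nat_lit 180) (nat_lit 214) (nat_lit 6) (nat_lit 10) (nat_lit 12) L100679 (by decide +kernel)
theorem L100681 : W_39 (nat_lit 4) (nat_lit 0x1800480004001a0059000180000000000000000000000000000000) (nat_lit 0x0) (nat_lit 0xc00030001000000004000400000000000000000000000000000000) := T_39 (nat_lit 197) (nat_lit 196) (nat_lit 1) (nat_lit 11) (nat_lit 11) L100680 (by decide +kernel)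
theorem L100682 : W_39 (nat_lit 5) (nat_lit 0x800480004001a0059000180000000000000000000000000000000) (nat_lit 0x0) (nat_lit 0x1000d00030001000000004000400000000000000000000000000000000) := T_39 (nat_lit 212) (nat_lit 228) (nat_lit 5) (nat_lit 8) (nat_lit 9) L100681 (by decide +kernel)
theorem L100683 : W_39 (nat_lit 6) (nat_lit 0x800480004001a0019000180000000000000000000000000000000) (nat_lit 0x0) (nat_lit 0x1000d00030001000000064000400000000000000000000000000000000) := T_39 (nat_lit 150) (nat_lit 149) (nat_lit 1) (nat_lit 14) (nat_lit 8) L100682 (by decide +kernel)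
theorem L100684 : W_39 (nat_lit 7) (nat_lit 0x480004001a0019000180000000000000000000000000000000) (nat_lit 0x0) (nat_lit 0x1000d80034001000000064000400000000000000000000000000000000) := T_39 (nat_lit 211) (nat_lit 194) (nat_lit 5) (nat_lit 8) (nat_lit 8) L100683 (by decide +kernel)
theorem L100685 : W_39 (nat_lit 8) (nat_lit 0x48000400120019000180000000000000000000000000000000) (nat_lit 0x0) (nat_lit 0x1000d800340010000c0064000400000000000000000000000000000000) := T_39 (nat_lit 163) (nat_lit 162) (nat_lit 2) (nat_lit 8) (nat_lit 9) L100684 (by decide +kernel)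
theorem L100686 : W_39 (nat_lit 9) (nat_lit 0x8000400120019000180000000000000000000000000000000) (nat_lit 0x0) (nat_lit 0x21001d800f40070002c0064000c00000000000000000000000000000000) := Q_39 (nat_lit 198) (C_39 L100671 (C_39 L100672 (C_39 L100678 (C_39 L100685 N_39)))) (by decide +kernel)
theorem L100687 : W_39 (nat_lit 2) (nat_lit 0xc0004001a0019000580020000000000000000000000000000) (nat_lit 0x0) (nat_lit 0x200004000000000001000000000000000000000000) := D_39 (nat_lit 96) (nat_lit 146) (nat_lit 165) (nat_lit 5) (nat_lit 11) (nat_lit 5) (nat_lit 7) (nat_lit 11) (nat_lit 5) (by decide +kernel)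
theorem L100688 : W_39 (nat_lit 3) (nat_lit 0xc0004001a0019000580000000000000000000000000000000) (nat_lit 0x0) (nat_lit 0x1000200004000000020001000000000000000000000000) := T_39 (nat_lit 113) (nat_lit 180) (nat_lit 5) (nat_lit 11) (nat_lit 6) L100687 (by decide +kernel)
theorem L100689 : W_39 (nat_lit 4) (nat_lit 0xc000400120019000580000000000000000000000000000000) (nat_lit 0x0) (nat_lit 0x10002c0004000000020001000000000000000000000000) := T_39 (nat_lit 163) (nat_lit 162) (nat_lit 2) (nat_lit 8) (nat_lit 9) L100688 (by decide +kernel)
theorem L100690 : W_39 (nat_lit 5) (nat_lit 0xc000400120019000180000000000000000000000000000000) (nat_lit 0x0) (nat_lit 0x10002c0004000600020001000000000000000000000000) := T_39 (nat_lit 130) (nat_lit 129) (nat_lit 3) (nat_lit 8) (nat_lit 7) L100689 (by decide +kernel)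
theorem L100691 : W_39 (nat_lit 6) (nat_lit 0x8000400120019000180000000000000000000000000000000) (nat_lit 0x0) (nat_lit 0x800040010002c0004000600020001000000000000000000000000) := T_39 (nat_lit 194) (nat_lit 211) (nat_lit 5) (nat_lit 8) (nat_lit 8) L100690 (by decide +kernel)
theorem L100692 : W_39 (nat_lit 12) (nat_lit 0x8000400020019000180000000000000000000000000000000) (nat_lit 0x0) (nat_lit 0x21001d803f403f000fc0064007e000f0007800000000000000000000000) := Q_39 (nat_lit 164) (C_39 L100637 (C_39 L100668 (C_39 L100615 (C_39 L100669 (C_39 L100686 (C_39 L100691 N_39)))))) (by decide +kernel)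
theorem L100693 : W_39 (nat_lit 2) (nat_lit 0x180008000c00120019000380000000000000000000000000000000) (nat_lit 0x0) (nat_lit 0x20000000000000000c0000000000000000000000000000000000000000) := D_39 (nat_lit 162) (nat_lit 163) (nat_lit 229) (nat_lit 2) (nat_lit 8) (nat_lit 9) (nat_lit 6) (nat_lit 8) (nat_lit 13) (by decide +kernel)
theorem L100694 : W_39 (nat_lit 3) (nat_lit 0x180008000400120019000380000000000000000000000000000000) (nat_lit 0x0) (nat_lit 0x20000000100008000c0000000000000000000000000000000000000000) := T_39 (nat_lit 179) (nat_lit 196) (nat_lit 7) (nat_lit 8) (nat_lit 7) L100693 (by decide +kernel)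
theorem L100695 : W_39 (nat_lit 4) (nat_lit 0x80008000400120019000380000000000000000000000000000000) (nat_lit 0x0) (nat_lit 0x30001000100008000c0000000000000000000000000000000000000000) := T_39 (nat_lit 212) (nat_lit 228) (nat_lit 5) (nat_lit 8) (nat_lit 9) L100694 (by decide +kernel)
theorem L100696 : W_39 (nat_lit 5) (nat_lit 0x80008000400120019000180000000000000000000000000000000) (nat_lit 0x0) (nat_lit 0x30001000100008000c0000000600000000000000000000000000000000) := T_39 (nat_lit 129) (nat_lit 130) (nat_lit 3) (nat_lit 8) (nat_lit 7) L100695 (by decide +kernel)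
theorem L100697 : W_39 (nat_lit 6) (nat_lit 0x8000400120019000180000000000000000000000000000000) (nat_lit 0x0) (nat_lit 0x30001800140008000c0000000600000000000000000000000000000000) := T_39 (nat_lit 211) (nat_lit 194) (nat_lit 5) (nat_lit 8) (nat_lit 8) L100696 (by decide +kernel)
theorem L100698 : W_39 (nat_lit 8) (nat_lit 0x8000400020019000180000000000000000000000000000000) (nat_lit 0x0) (nat_lit 0x230019800d40078003d0060000e00020001000000000000000000000000) := Q_39 (nat_lit 164) (C_39 L100630 (C_39 L100637 (C_39 L100697 N_39))) (by decide +kernel)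
theorem L100699 : W_39 (nat_lit 2) (nat_lit 0x1000c8002c00160019000180000000000000000000000000000000) (nat_lit 0x0) (nat_lit 0x1000080004000000000000000000000000000000000000000000000000) := D_39 (nat_lit 211) (nat_lit 194) (nat_lit 228) (nat_lit 5) (nat_lit 8) (nat_lit 8) (nat_lit 5) (nat_lit 8) (nat_lit 9) (by decide +kernel)
theorem L100700 : W_39 (nat_lit 3) (nat_lit 0xc8002c00160019000180000000000000000000000000000000) (nat_lit 0x0) (nat_lit 0x3000180004000000000000000000000000000000000000000000000000) := T_39 (nat_lit 212) (nat_lit 229) (nat_lit 6) (nat_lit 8) (nat_lit 13) L100699 (by decide +kernel)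
theorem L100701 : W_39 (nat_lit 4) (nat_lit 0xc8002400160019000180000000000000000000000000000000) (nat_lit 0x0) (nat_lit 0x3000180004001800000000000000000000000000000000000000000000) := T_39 (nat_lit 179) (nat_lit 180) (nat_lit 3) (nat_lit 8) (nat_lit 10) L100700 (by decide +kernel)
theorem L100702 : W_39 (nat_lit 5) (nat_lit 0x48002400160019000180000000000000000000000000000000) (nat_lit 0x0) (nat_lit 0x3001180084001800000000000000000000000000000000000000000000) := T_39 (nat_lit 199) (nat_lit 216) (nat_lit 7) (nat_lit 11) (nat_lit 8) L100701 (by decide +kernel)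
theorem L100703 : W_39 (nat_lit 6) (nat_lit 0x8002400160019000180000000000000000000000000000000) (nat_lit 0x0) (nat_lit 0x30011800c4001800000000000800000000000000000000000000000000) := T_39 (nat_lit 198) (nat_lit 131) (nat_lit 6) (nat_lit 11) (nat_lit 11) L100702 (by decide +kernel)
theorem L100704 : W_39 (nat_lit 7) (nat_lit 0x8002400120019000180000000000000000000000000000000) (nat_lit 0x0) (nat_lit 0x30011800c40018000c0000000800000000000000000000000000000000) := T_39 (nat_lit 162) (nat_lit 163) (nat_lit 2) (nat_lit 8) (nat_lit 9) L100703 (by decide +kernel)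
theorem L100705 : W_39 (nat_lit 2) (nat_lit 0x180008002c00160019000180000000000000000000000000000000) (nat_lit 0x0) (nat_lit 0x1000210000000000000000000000000000000000000000) := D_39 (nat_lit 180) (nat_lit 165) (nat_lit 160) (nat_lit 2) (nat_lit 8) (nat_lit 10) (nat_lit 0) (nat_lit 11) (nat_lit 10) (by decide +kernel)
theorem L100706 : W_39 (nat_lit 3) (nat_lit 0x180008002400160019000180000000000000000000000000000000) (nat_lit 0x0) (nat_lit 0x2000000000001800210000000000000000000000000000000000000000) := T_39 (nat_lit 179) (nat_lit 229) (nat_lit 6) (nat_lit 8) (nat_lit 13) L100705 (by decide +kernel)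
theorem L100707 : W_39 (nat_lit 4) (nat_lit 0x80008002400160019000180000000000000000000000000000000) (nat_lit 0x0) (nat_lit 0x3000100000001800210000000000000000000000000000000000000000) := T_39 (nat_lit 212) (nat_lit 228) (nat_lit 5) (nat_lit 8) (nat_lit 9) L100706 (by decide +kernel)
theorem L100708 : W_39 (nat_lit 5) (nat_lit 0x80008002400120019000180000000000000000000000000000000) (nat_lit 0x0) (nat_lit 0x30001000000018002d0000000000000000000000000000000000000000) := T_39 (nat_lit 162) (nat_lit 163) (nat_lit 2) (nat_lit 8) (nat_lit 9) L100707 (by decide +kernel)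
theorem L100709 : W_39 (nat_lit 6) (nat_lit 0x8002400120019000180000000000000000000000000000000) (nat_lit 0x0) (nat_lit 0x30001800040018002d0000000000000000000000000000000000000000) := T_39 (nat_lit 211) (nat_lit 194) (nat_lit 5) (nat_lit 8) (nat_lit 8) L100708 (by decide +kernel)
theorem L100710 : W_39 (nat_lit 8) (nat_lit 0x8000400120019000180000000000000000000000000000000) (nat_lit 0x0) (nat_lit 0x230019800c40038002d0000000800000000000000000000000000000000) := Q_39 (nat_lit 181) (C_39 L100626 (C_39 L100704 (C_39 L100709 N_39))) (by decide +kernel)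
theorem L100711 : W_39 (nat_lit 12) (nat_lit 0x8000400020019000180000000000000000000000000000000) (nat_lit 0x0) (nat_lit 0x230019801c403f800fd0064007e000f0007800000000000000000000000) := Q_39 (nat_lit 164) (C_39 L100637 (C_39 L100710 (C_39 L100669 (C_39 L100615 N_39)))) (by decide +kernel)
theorem L100712 : W_39 (nat_lit 2) (nat_lit 0x180008000c000e0019000180000000000000000000000000000000) (nat_lit 0x0) (nat_lit 0x10024000000000000000000000000000000000000) := D_39 (nat_lit 146) (nat_lit 160) (nat_lit 149) (nat_lit 2) (nat_lit 7) (nat_lit 9) (nat_lit 1) (nat_lit 13) (nat_lit 8) (by decide +kernel)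
theorem L100713 : W_39 (nat_lit 3) (nat_lit 0x180008000c00060019000180000000000000000000000000000000) (nat_lit 0x0) (nat_lit 0x190024000000000000000000000000000000000000) := T_39 (nat_lit 163) (nat_lit 164) (nat_lit 2) (nat_lit 8) (nat_lit 9) L100712 (by decide +kernel)
theorem L100714 : W_39 (nat_lit 4) (nat_lit 0x180008000c00020019000180000000000000000000000000000000) (nat_lit 0x0) (nat_lit 0x20000000000000001d0024000000000000000000000000000000000000) := T_39 (nat_lit 162) (nat_lit 229) (nat_lit 6) (nat_lit 8) (nat_lit 13) L100713 (by decide +kernel)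
theorem L100715 : W_39 (nat_lit 5) (nat_lit 0x80008000c00020019000180000000000000000000000000000000) (nat_lit 0x0) (nat_lit 0x30001000000000001d0024000000000000000000000000000000000000) := T_39 (nat_lit 212) (nat_lit 228) (nat_lit 5) (nat_lit 8) (nat_lit 9) L100714 (by decide +kernel)
theorem L100716 : W_39 (nat_lit 6) (nat_lit 0x80008000400020019000180000000000000000000000000000000) (nat_lit 0x0) (nat_lit 0x30001000100008001d0024000000000000000000000000000000000000) := T_39 (nat_lit 179) (nat_lit 196) (nat_lit 7) (nat_lit 8) (nat_lit 7) L100715 (by decide +kernel)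
theorem L100717 : W_39 (nat_lit 7) (nat_lit 0x8000400020019000180000000000000000000000000000000) (nat_lit 0x0) (nat_lit 0x30001800140008001d0024000000000000000000000000000000000000) := T_39 (nat_lit 211) (nat_lit 194) (nat_lit 5) (nat_lit 8) (nat_lit 8) L100716 (by decide +kernel)
theorem L100718 : W_39 (nat_lit 2) (nat_lit 0x180008000c000e0019000380000000000000000000000000000000) (nat_lit 0x0) (nat_lit 0x10004000000010000000000000000000000000000) := D_39 (nat_lit 146) (nat_lit 160) (nat_lit 112) (nat_lit 2) (nat_lit 7) (nat_lit 9) (nat_lit 5) (nat_lit 10) (nat_lit 6) (by decide +kernel)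
theorem L100719 : W_39 (nat_lit 3) (nat_lit 0x180008000c00060019000380000000000000000000000000000000) (nat_lit 0x0) (nat_lit 0x190004000000010000000000000000000000000000) := T_39 (nat_lit 163) (nat_lit 164) (nat_lit 2) (nat_lit 8) (nat_lit 9) L100718 (by decide +kernel)
theorem L100720 : W_39 (nat_lit 4) (nat_lit 0x180008000c00020019000380000000000000000000000000000000) (nat_lit 0x0) (nat_lit 0x20000000000000001d0004000000010000000000000000000000000000) := T_39 (nat_lit 162) (nat_lit 229) (nat_lit 6) (nat_lit 8) (nat_lit 13) L100719 (by decide +kernel)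
theorem L100721 : W_39 (nat_lit 5) (nat_lit 0x80008000c00020019000380000000000000000000000000000000) (nat_lit 0x0) (nat_lit 0x30001000000000001d0004000000010000000000000000000000000000) := T_39 (nat_lit 212) (nat_lit 228) (nat_lit 5) (nat_lit 8) (nat_lit 9) L100720 (by decide +kernel)
theorem L100722 : W_39 (nat_lit 6) (nat_lit 0x8000c00020019000380000000000000000000000000000000) (nat_lit 0x0) (nat_lit 0x30001800040000001d0004000000010000000000000000000000000000) := T_39 (nat_lit 211) (nat_lit 194) (nat_lit 5) (nat_lit 8) (nat_lit 8) L100721 (by decide +kernel)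
theorem L100723 : W_39 (nat_lit 7) (nat_lit 0x8000c00020019000180000000000000000000000000000000) (nat_lit 0x0) (nat_lit 0x30001800040000001d0004000600010000000000000000000000000000) := T_39 (nat_lit 129) (nat_lit 130) (nat_lit 3) (nat_lit 8) (nat_lit 7) L100722 (by decide +kernel)
theorem L100724 : W_39 (nat_lit 8) (nat_lit 0x8000400020019000180000000000000000000000000000000) (nat_lit 0x0) (nat_lit 0x30001800140008001d0004000600010000000000000000000000000000) := T_39 (nat_lit 179) (nat_lit 196) (nat_lit 7) (nat_lit 8) (nat_lit 7) L100723 (by decide +kernel)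
theorem L100725 : W_39 (nat_lit 13) (nat_lit 0x8000400020009000180000000000000000000000000000000) (nat_lit 0x0) (nat_lit 0x23001d803f703f800fd0074007e000f0007800000000000000000000000) := Q_39 (nat_lit 148) (C_39 L100584 (C_39 L100591 (C_39 L100599 (C_39 L100631 (C_39 L100692 (C_39 L100698 (C_39 L100711 (C_39 L100717 (C_39 L100724 N_39))))))))) (by decide +kernel)
theorem L100726 : W_39 (nat_lit 2) (nat_lit 0x280008000400020009000180000000000000000000000000000000) (nat_lit 0x0) (nat_lit 0x5000100000000000000000000000000000000000000000000000000000) := D_39 (nat_lit 212) (nat_lit 228) (nat_lit 230) (nat_lit 5) (nat_lit 8) (nat_lit 9) (nat_lit 7) (nat_lit 8) (nat_lit 9) (by decide +kernel)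
theorem L100727 : W_39 (nat_lit 3) (nat_lit 0x80008000400020009000180000000000000000000000000000000) (nat_lit 0x0) (nat_lit 0x5000300010000000000000000000000000000000000000000000000000) := T_39 (nat_lit 213) (nat_lit 196) (nat_lit 7) (nat_lit 8) (nat_lit 8) L100726 (by decide +kernel)
theorem L100728 : W_39 (nat_lit 4) (nat_lit 0x8000400020009000180000000000000000000000000000000) (nat_lit 0x0) (nat_lit 0x5000380014000000000000000000000000000000000000000000000000) := T_39 (nat_lit 211) (nat_lit 194) (nat_lit 5) (nat_lit 8) (nat_lit 8) L100727 (by decide +kernel)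
theorem L100729 : W_39 (nat_lit 2) (nat_lit 0xc000400120009000780020000000000000000000000000000) (nat_lit 0x0) (nat_lit 0x2000000000000000010000800000000000000000000000) := D_39 (nat_lit 112) (nat_lit 181) (nat_lit 95) (nat_lit 4) (nat_lit 11) (nat_lit 10) (nat_lit 4) (nat_lit 11) (nat_lit 9) (by decide +kernel)
theorem L100730 : W_39 (nat_lit 3) (nat_lit 0xc000400120009000780000000000000000000000000000000) (nat_lit 0x0) (nat_lit 0x2000000000000000070000800000000000000000000000) := T_39 (nat_lit 113) (nat_lit 114) (nat_lit 2) (nat_lit 8) (nat_lit 7) L100729 (by decide +kernel)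
theorem L100731 : W_39 (nat_lit 4) (nat_lit 0xc000400120009000580000000000000000000000000000000) (nat_lit 0x0) (nat_lit 0x2000000010000200070000800000000000000000000000) := T_39 (nat_lit 129) (nat_lit 148) (nat_lit 3) (nat_lit 8) (nat_lit 7) L100730 (by decide +kernel)
theorem L100732 : W_39 (nat_lit 5) (nat_lit 0x8000400120009000580000000000000000000000000000000) (nat_lit 0x0) (nat_lit 0x80004002000000010000200070000800000000000000000000000) := T_39 (nat_lit 194) (nat_lit 211) (nat_lit 5) (nat_lit 8) (nat_lit 8) L100731 (by decide +kernel)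
theorem L100733 : W_39 (nat_lit 2) (nat_lit 0x8000400120009000780020000000000000000000000000000) (nat_lit 0x0) (nat_lit 0x2000000000000000010000800000000000000000000000) := D_39 (nat_lit 112) (nat_lit 181) (nat_lit 95) (nat_lit 4) (nat_lit 11) (nat_lit 10) (nat_lit 4) (nat_lit 11) (nat_lit 9) (by decide +kernel)
theorem L100734 : W_39 (nat_lit 3) (nat_lit 0x8000400120009000780000000000000000000000000000000) (nat_lit 0x0) (nat_lit 0x2000000000000000070000800000000000000000000000) := T_39 (nat_lit 113) (nat_lit 114) (nat_lit 2) (nat_lit 8) (nat_lit 7) L100733 (by decide +kernel)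
theorem L100735 : W_39 (nat_lit 4) (nat_lit 0x8000400120009000580000000000000000000000000000000) (nat_lit 0x0) (nat_lit 0x2000000010000200070000800000000000000000000000) := T_39 (nat_lit 129) (nat_lit 148) (nat_lit 3) (nat_lit 8) (nat_lit 7) L100734 (by decide +kernel)
theorem L100736 : W_39 (nat_lit 2) (nat_lit 0xc000400320009000780020001800080000000000000000000) (nat_lit 0x0) (nat_lit 0x2000100008000000000000000) := D_39 (nat_lit 80) (nat_lit 97) (nat_lit 63) (nat_lit 6) (nat_lit 11) (nat_lit 8) (nat_lit 6) (nat_lit 11) (nat_lit 7) (by decide +kernel)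
theorem L100737 : W_39 (nat_lit 3) (nat_lit 0xc000400320009000780020001800000000000000000000000) (nat_lit 0x0) (nat_lit 0x4000000000002000180008000000000000000) := T_39 (nat_lit 79) (nat_lit 146) (nat_lit 5) (nat_lit 11) (nat_lit 4) L100736 (by decide +kernel)
theorem L100738 : W_39 (nat_lit 4) (nat_lit 0xc000400320009000780020000800000000000000000000000) (nat_lit 0x0) (nat_lit 0x40000000000030001c0008000000000000000) := T_39 (nat_lit 96) (nat_lit 78) (nat_lit 4) (nat_lit 11) (nat_lit 8) L100737 (by decide +kernel)
theorem L100739 : W_39 (nat_lit 5) (nat_lit 0xc000400120009000780020000800000000000000000000000) (nat_lit 0x0) (nat_lit 0x40002000040000000000030001c0008000000000000000) := T_39 (nat_lit 165) (nat_lit 182) (nat_lit 7) (nat_lit 11) (nat_lit 6) L100738 (by decide +kernel)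
theorem L100740 : W_39 (nat_lit 6) (nat_lit 0xc000400120009000780020000000000000000000000000000) (nat_lit 0x0) (nat_lit 0x40002000040000000100038001c0008000000000000000) := T_39 (nat_lit 95) (nat_lit 112) (nat_lit 4) (nat_lit 11) (nat_lit 9) L100739 (by decide +kernel)
theorem L100741 : W_39 (nat_lit 7) (nat_lit 0xc000400120009000780000000000000000000000000000000) (nat_lit 0x0) (nat_lit 0x40002000040000000700038001c0008000000000000000) := T_39 (nat_lit 113) (nat_lit 114) (nat_lit 2) (nat_lit 8) (nat_lit 7) L100740 (by decide +kernel)
theorem L100742 : W_39 (nat_lit 8) (nat_lit 0x8000400120009000780000000000000000000000000000000) (nat_lit 0x0) (nat_lit 0x800040040002000040000000700038001c0008000000000000000) := T_39 (nat_lit 194) (nat_lit 211) (nat_lit 5) (nat_lit 8) (nat_lit 8) L100741 (by decide +kernel)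
theorem L100743 : W_39 (nat_lit 9) (nat_lit 0x8000400120009000580000000000000000000000000000000) (nat_lit 0x0) (nat_lit 0x800040040002000140002000700038001c0008000000000000000) := T_39 (nat_lit 129) (nat_lit 148) (nat_lit 3) (nat_lit 8) (nat_lit 7) L100742 (by decide +kernel)
theorem L100744 : W_39 (nat_lit 2) (nat_lit 0xc002400120009000580000000000000000000000000000000) (nat_lit 0x0) (nat_lit 0x20001800000000000000000000000000000000000000000000) := D_39 (nat_lit 180) (nat_lit 179) (nat_lit 197) (nat_lit 1) (nat_lit 11) (nat_lit 10) (nat_lit 5) (nat_lit 11) (nat_lit 7) (by decide +kernel)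
theorem L100745 : W_39 (nat_lit 3) (nat_lit 0x8002400120009000580000000000000000000000000000000) (nat_lit 0x0) (nat_lit 0x80024001800000000000000000000000000000000000000000000) := T_39 (nat_lit 194) (nat_lit 211) (nat_lit 5) (nat_lit 8) (nat_lit 8) L100744 (by decide +kernel)
theorem L100746 : W_39 (nat_lit 2) (nat_lit 0x48002400120009000d80000000000000000000000000000000) (nat_lit 0x0) (nat_lit 0x1000080004000000000000000000000000000000000000000000000) := D_39 (nat_lit 199) (nat_lit 216) (nat_lit 182) (nat_lit 7) (nat_lit 11) (nat_lit 8) (nat_lit 7) (nat_lit 11) (nat_lit 7) (by decide +kernel)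
theorem L100747 : W_39 (nat_lit 3) (nat_lit 0x8002400120009000d80000000000000000000000000000000) (nat_lit 0x0) (nat_lit 0x10000c0004000000010000000000000000000000000000000000000) := T_39 (nat_lit 198) (nat_lit 148) (nat_lit 6) (nat_lit 11) (nat_lit 11) L100746 (by decide +kernel)
theorem L100748 : W_39 (nat_lit 4) (nat_lit 0x8002400120009000580000000000000000000000000000000) (nat_lit 0x0) (nat_lit 0x10000c0004000000010000800040000000000000000000000000000) := T_39 (nat_lit 131) (nat_lit 114) (nat_lit 6) (nat_lit 11) (nat_lit 10) L100747 (by decide +kernel)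
theorem L100749 : W_39 (nat_lit 5) (nat_lit 0x8000400120009000580000000000000000000000000000000) (nat_lit 0x0) (nat_lit 0x10800e4007800000010000800040000000000000000000000000000) := Q_39 (nat_lit 181) (C_39 L100745 (C_39 L100748 N_39)) (by decide +kernel)
theorem L100750 : W_39 (nat_lit 2) (nat_lit 0xc006400120009000780000000000000000000000000000000) (nat_lit 0x0) (nat_lit 0x800060000000000000000000000000000) := D_39 (nat_lit 114) (nat_lit 131) (nat_lit 113) (nat_lit 6) (nat_lit 11) (nat_lit 10) (nat_lit 2) (nat_lit 8) (nat_lit 7) (by decide +kernel)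
theorem L100751 : W_39 (nat_lit 3) (nat_lit 0xc006400120009000580000000000000000000000000000000) (nat_lit 0x0) (nat_lit 0xa00070000000000000000000000000000) := T_39 (nat_lit 129) (nat_lit 112) (nat_lit 4) (nat_lit 11) (nat_lit 10) L100750 (by decide +kernel)
theorem L100752 : W_39 (nat_lit 4) (nat_lit 0xc002400120009000580000000000000000000000000000000) (nat_lit 0x0) (nat_lit 0x80004000000000000a00070000000000000000000000000000) := T_39 (nat_lit 182) (nat_lit 199) (nat_lit 7) (nat_lit 11) (nat_lit 7) L100751 (by decide +kernel)
theorem L100753 : W_39 (nat_lit 5) (nat_lit 0x8002400120009000580000000000000000000000000000000) (nat_lit 0x0) (nat_lit 0x80084004000000000000a00070000000000000000000000000000) := T_39 (nat_lit 194) (nat_lit 211) (nat_lit 5) (nat_lit 8) (nat_lit 8) L100752 (by decide +kernel)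
theorem L100754 : W_39 (nat_lit 2) (nat_lit 0x8007400120009000580000000000000000000000000000000) (nat_lit 0x0) (nat_lit 0x800210000000000000000000000000000000000000000) := D_39 (nat_lit 179) (nat_lit 165) (nat_lit 160) (nat_lit 2) (nat_lit 8) (nat_lit 10) (nat_lit 0) (nat_lit 11) (nat_lit 10) (by decide +kernel)
theorem L100755 : W_39 (nat_lit 3) (nat_lit 0x8006400120009000580000000000000000000000000000000) (nat_lit 0x0) (nat_lit 0x20001800210000000000000000000000000000000000000000) := T_39 (nat_lit 180) (nat_lit 197) (nat_lit 5) (nat_lit 11) (nat_lit 7) L100754 (by decide +kernel)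
theorem L100756 : W_39 (nat_lit 4) (nat_lit 0x8002400120009000580000000000000000000000000000000) (nat_lit 0x0) (nat_lit 0xa0005800210000000000000000000000000000000000000000) := T_39 (nat_lit 182) (nat_lit 199) (nat_lit 7) (nat_lit 11) (nat_lit 7) L100755 (by decide +kernel)
theorem L100757 : W_39 (nat_lit 6) (nat_lit 0x8000400120009000580000000000000000000000000000000) (nat_lit 0x0) (nat_lit 0x800a4007800210000000a00070000000000000000000000000000) := Q_39 (nat_lit 181) (C_39 L100745 (C_39 L100753 (C_39 L100756 N_39))) (by decide +kernel)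
theorem L100758 : W_39 (nat_lit 2) (nat_lit 0xc002400120009000780000000000000000000000000000000) (nat_lit 0x0) (nat_lit 0x20001800000000000000000000000000000000000000000000) := D_39 (nat_lit 180) (nat_lit 179) (nat_lit 197) (nat_lit 1) (nat_lit 11) (nat_lit 10) (nat_lit 5) (nat_lit 11) (nat_lit 7) (by decide +kernel)
theorem L100759 : W_39 (nat_lit 3) (nat_lit 0xc000400120009000780000000000000000000000000000000) (nat_lit 0x0) (nat_lit 0x20003800000000000000010000000000000000000000000000) := T_39 (nat_lit 181) (nat_lit 112) (nat_lit 4) (nat_lit 11) (nat_lit 10) L100758 (by decide +kernel)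
theorem L100760 : W_39 (nat_lit 4) (nat_lit 0xc000400120009000580000000000000000000000000000000) (nat_lit 0x0) (nat_lit 0x20003800000010000200010000000000000000000000000000) := T_39 (nat_lit 129) (nat_lit 148) (nat_lit 3) (nat_lit 8) (nat_lit 7) L100759 (by decide +kernel)
theorem L100761 : W_39 (nat_lit 5) (nat_lit 0x8000400120009000580000000000000000000000000000000) (nat_lit 0x0) (nat_lit 0x80024003800000010000200010000000000000000000000000000) := T_39 (nat_lit 194) (nat_lit 211) (nat_lit 5) (nat_lit 8) (nat_lit 8) L100760 (by decide +kernel)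
theorem L100762 : W_39 (nat_lit 10) (nat_lit 0x8000400120009000180000000000000000000000000000000) (nat_lit 0x0) (nat_lit 0x10800e4007800210014000e000700038001c0008000000000000000) := Q_39 (nat_lit 130) (C_39 L100732 (C_39 L100735 (C_39 L100743 (C_39 L100749 (C_39 L100757 (C_39 L100761 N_39)))))) (by decide +kernel)
theorem L100763 : W_39 (nat_lit 2) (nat_lit 0x160001a00080024001e000d000180000000000000000000000000000000) (nat_lit 0x0) (nat_lit 0x800040000000000000000200000000000000000000000000000000) := D_39 (nat_lit 198) (nat_lit 215) (nat_lit 129) (nat_lit 4) (nat_lit 11) (nat_lit 12) (nat_lit 4) (nat_lit 11) (nat_lit 11) (by decide +kernel)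
theorem L100764 : W_39 (nat_lit 3) (nat_lit 0x160001a00080004001e000d000180000000000000000000000000000000) (nat_lit 0x0) (nat_lit 0x800040006000000000000200000000000000000000000000000000) := T_39 (nat_lit 181) (nat_lit 182) (nat_lit 3) (nat_lit 8) (nat_lit 9) L100763 (by decide +kernel)
theorem L100765 : W_39 (nat_lit 4) (nat_lit 0x160001a00080004001e0009000180000000000000000000000000000000) (nat_lit 0x0) (nat_lit 0x800040006000010004000200000000000000000000000000000000) := T_39 (nat_lit 146) (nat_lit 160) (nat_lit 2) (nat_lit 7) (nat_lit 9) L100764 (by decide +kernel)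
theorem L100766 : W_39 (nat_lit 5) (nat_lit 0x160001a0008000400160009000180000000000000000000000000000000) (nat_lit 0x0) (nat_lit 0x800040006000090014000200000000000000000000000000000000) := T_39 (nat_lit 163) (nat_lit 148) (nat_lit 2) (nat_lit 8) (nat_lit 9) L100765 (by decide +kernel)
theorem L100767 : W_39 (nat_lit 6) (nat_lit 0x60001a0008000400160009000180000000000000000000000000000000) (nat_lit 0x0) (nat_lit 0x18000800040006000090014000200000000000000000000000000000000) := T_39 (nat_lit 232) (nat_lit 231) (nat_lit 0) (nat_lit 11) (nat_lit 13) L100766 (by decide +kernel)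
theorem L100768 : W_39 (nat_lit 7) (nat_lit 0x60001a0008000400120009000180000000000000000000000000000000) (nat_lit 0x0) (nat_lit 0x180008000400068000d0014000200000000000000000000000000000000) := T_39 (nat_lit 162) (nat_lit 179) (nat_lit 6) (nat_lit 8) (nat_lit 13) L100767 (by decide +kernel)
theorem L100769 : W_39 (nat_lit 8) (nat_lit 0x6000180008000400120009000180000000000000000000000000000000) (nat_lit 0x0) (nat_lit 0x180008600400068000d0014000200000000000000000000000000000000) := T_39 (nat_lit 209) (nat_lit 210) (nat_lit 3) (nat_lit 5) (nat_lit 12) L100768 (by decide +kernel)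
theorem L100770 : W_39 (nat_lit 9) (nat_lit 0x4000180008000400120009000180000000000000000000000000000000) (nat_lit 0x0) (nat_lit 0x8001a0008600400068000d0014000200000000000000000000000000000000) := T_39 (nat_lit 229) (nat_lit 247) (nat_lit 7) (nat_lit 8) (nat_lit 10) L100769 (by decide +kernel)
theorem L100771 : W_39 (nat_lit 10) (nat_lit 0x180008000400120009000180000000000000000000000000000000) (nat_lit 0x0) (nat_lit 0x8001e000a600400068000d0014000200000000000000000000000000000000) := T_39 (nat_lit 230) (nat_lit 213) (nat_lit 7) (nat_lit 8) (nat_lit 9) L100770 (by decide +kernel)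
theorem L100772 : W_39 (nat_lit 11) (nat_lit 0x80008000400120009000180000000000000000000000000000000) (nat_lit 0x0) (nat_lit 0x8001f000b600400068000d0014000200000000000000000000000000000000) := T_39 (nat_lit 212) (nat_lit 228) (nat_lit 5) (nat_lit 8) (nat_lit 9) L100771 (by decide +kernel)
theorem L100773 : W_39 (nat_lit 12) (nat_lit 0x8000400120009000180000000000000000000000000000000) (nat_lit 0x0) (nat_lit 0x8001f000be00440068000d0014000200000000000000000000000000000000) := T_39 (nat_lit 211) (nat_lit 194) (nat_lit 5) (nat_lit 8) (nat_lit 8) L100772 (by decide +kernel)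
theorem L100774 : W_39 (nat_lit 2) (nat_lit 0x4000180008000400160019000180000000000000000000000000000000) (nat_lit 0x0) (nat_lit 0x80002000000000000800000000000000000000000000000000000000000000) := D_39 (nat_lit 229) (nat_lit 179) (nat_lit 247) (nat_lit 6) (nat_lit 8) (nat_lit 13) (nat_lit 7) (nat_lit 8) (nat_lit 10) (by decide +kernel)
theorem L100775 : W_39 (nat_lit 3) (nat_lit 0x180008000400160019000180000000000000000000000000000000) (nat_lit 0x0) (nat_lit 0x80006000200000000800000000000000000000000000000000000000000000) := T_39 (nat_lit 230) (nat_lit 213) (nat_lit 7) (nat_lit 8) (nat_lit 9) L100774 (by decide +kernel)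
theorem L100776 : W_39 (nat_lit 4) (nat_lit 0x80008000400160019000180000000000000000000000000000000) (nat_lit 0x0) (nat_lit 0x80007000300000000800000000000000000000000000000000000000000000) := T_39 (nat_lit 212) (nat_lit 228) (nat_lit 5) (nat_lit 8) (nat_lit 9) L100775 (by decide +kernel)
theorem L100777 : W_39 (nat_lit 5) (nat_lit 0x80008000400120019000180000000000000000000000000000000) (nat_lit 0x0) (nat_lit 0x800070003000000008000c0000000000000000000000000000000000000000) := T_39 (nat_lit 162) (nat_lit 163) (nat_lit 2) (nat_lit 8) (nat_lit 9) L100776 (by decide +kernel)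
theorem L100778 : W_39 (nat_lit 6) (nat_lit 0x8000400120019000180000000000000000000000000000000) (nat_lit 0x0) (nat_lit 0x800070003800040008000c0000000000000000000000000000000000000000) := T_39 (nat_lit 211) (nat_lit 194) (nat_lit 5) (nat_lit 8) (nat_lit 8) L100777 (by decide +kernel)
theorem L100779 : W_39 (nat_lit 12) (nat_lit 0x8000400120009000180000000000000000000000000000000) (nat_lit 0x0) (nat_lit 0x800070003801c403f800ec0074007e000f0007800000000000000000000000) := Q_39 (nat_lit 148) (C_39 L100637 (C_39 L100778 (C_39 L100669 (C_39 L100615 N_39)))) (by decide +kernel)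
theorem L100780 : W_39 (nat_lit 2) (nat_lit 0x80004001a0059000580020000000000000000000000000000) (nat_lit 0x0) (nat_lit 0x4000200000000000000001000000000000000000000000) := D_39 (nat_lit 165) (nat_lit 182) (nat_lit 96) (nat_lit 7) (nat_lit 11) (nat_lit 6) (nat_lit 7) (nat_lit 11) (nat_lit 5) (by decide +kernel)
theorem L100781 : W_39 (nat_lit 3) (nat_lit 0x80004001a0059000580000000000000000000000000000000) (nat_lit 0x0) (nat_lit 0x5000200000000000020001000000000000000000000000) := T_39 (nat_lit 113) (nat_lit 180) (nat_lit 5) (nat_lit 11) (nat_lit 6) L100780 (by decide +kernel)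
theorem L100782 : W_39 (nat_lit 4) (nat_lit 0x80004001a0019000580000000000000000000000000000000) (nat_lit 0x0) (nat_lit 0x5000200060000000020001000000000000000000000000) := T_39 (nat_lit 150) (nat_lit 149) (nat_lit 1) (nat_lit 14) (nat_lit 8) L100781 (by decide +kernel)
theorem L100783 : W_39 (nat_lit 5) (nat_lit 0x8000400120019000580000000000000000000000000000000) (nat_lit 0x0) (nat_lit 0x50002c0060000000020001000000000000000000000000) := T_39 (nat_lit 163) (nat_lit 162) (nat_lit 2) (nat_lit 8) (nat_lit 9) L100782 (by decide +kernel)
theorem L100784 : W_39 (nat_lit 6) (nat_lit 0x8000400120019000180000000000000000000000000000000) (nat_lit 0x0) (nat_lit 0x50002c0060000600020001000000000000000000000000) := T_39 (nat_lit 130) (nat_lit 129) (nat_lit 3) (nat_lit 8) (nat_lit 7) L100783 (by decide +kernel)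
theorem L100785 : W_39 (nat_lit 2) (nat_lit 0x80044003600190009800e0000000000000000000000000000) (nat_lit 0x0) (nat_lit 0x100008000400000000000000000000000000000000000000000) := D_39 (nat_lit 183) (nat_lit 200) (nat_lit 166) (nat_lit 7) (nat_lit 12) (nat_lit 7) (nat_lit 7) (nat_lit 12) (nat_lit 6) (by decide +kernel)
theorem L100786 : W_39 (nat_lit 3) (nat_lit 0x80004003600190009800e0000000000000000000000000000) (nat_lit 0x0) (nat_lit 0x10000c000400000001000000000000000000000000000000000) := T_39 (nat_lit 182) (nat_lit 132) (nat_lit 6) (nat_lit 12) (nat_lit 10) L100785 (by decide +kernel)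
theorem L100787 : W_39 (nat_lit 4) (nat_lit 0x8000400360019000980060000000000000000000000000000) (nat_lit 0x0) (nat_lit 0x10000c000400000001000080004000000000000000000000000) := T_39 (nat_lit 115) (nat_lit 98) (nat_lit 6) (nat_lit 12) (nat_lit 9) L100786 (by decide +kernel)
theorem L100788 : W_39 (nat_lit 5) (nat_lit 0x8000400360019000980040000000000000000000000000000) (nat_lit 0x0) (nat_lit 0x10000c0004000000010000a0005000000000000000000000000) := T_39 (nat_lit 113) (nat_lit 96) (nat_lit 4) (nat_lit 12) (nat_lit 9) L100787 (by decide +kernel)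
theorem L100789 : W_39 (nat_lit 6) (nat_lit 0x8000400160019000980040000000000000000000000000000) (nat_lit 0x0) (nat_lit 0x10000e0006000000010000a0005000000000000000000000000) := T_39 (nat_lit 165) (nat_lit 181) (nat_lit 5) (nat_lit 12) (nat_lit 6) L100788 (by decide +kernel)
theorem L100790 : W_39 (nat_lit 7) (nat_lit 0x8000400160019000980000000000000000000000000000000) (nat_lit 0x0) (nat_lit 0x10000e0006000000010000e0007000000000000000000000000) := T_39 (nat_lit 114) (nat_lit 97) (nat_lit 5) (nat_lit 12) (nat_lit 5) L100789 (by decide +kernel)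
theorem L100791 : W_39 (nat_lit 8) (nat_lit 0x8000400120019000980000000000000000000000000000000) (nat_lit 0x0) (nat_lit 0x10000e0006c00000010000e0007000000000000000000000000) := T_39 (nat_lit 162) (nat_lit 163) (nat_lit 2) (nat_lit 8) (nat_lit 9) L100790 (by decide +kernel)
theorem L100792 : W_39 (nat_lit 2) (nat_lit 0x8000400120019000980040000000000000000000000000000) (nat_lit 0x0) (nat_lit 0x40002000200000000000000000000000000000000000000000) := D_39 (nat_lit 181) (nat_lit 198) (nat_lit 165) (nat_lit 6) (nat_lit 11) (nat_lit 11) (nat_lit 5) (nat_lit 12) (nat_lit 6) (by decide +kernel)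
theorem L100793 : W_39 (nat_lit 3) (nat_lit 0x8000400120019000980000000000000000000000000000000) (nat_lit 0x0) (nat_lit 0x40002000200000000000040002000000000000000000000000) := T_39 (nat_lit 114) (nat_lit 97) (nat_lit 5) (nat_lit 12) (nat_lit 5) L100792 (by decide +kernel)
theorem L100794 : W_39 (nat_lit 2) (nat_lit 0x80084005a003d001980000002000000000000000000000000) (nat_lit 0x0) (nat_lit 0x200010000200000000000000000000000000000000000000000) := D_39 (nat_lit 184) (nat_lit 201) (nat_lit 165) (nat_lit 7) (nat_lit 13) (nat_lit 7) (nat_lit 3) (nat_lit 10) (nat_lit 9) (by decide +kernel)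
theorem L100795 : W_39 (nat_lit 3) (nat_lit 0x80084005a003d000980000002000000000000000000000000) (nat_lit 0x0) (nat_lit 0x200010000200000003000000000000000000000000000000000) := T_39 (nat_lit 132) (nat_lit 133) (nat_lit 2) (nat_lit 10) (nat_lit 8) L100794 (by decide +kernel)
theorem L100796 : W_39 (nat_lit 4) (nat_lit 0x80004005a003d000980000002000000000000000000000000) (nat_lit 0x0) (nat_lit 0x300018000200000003000000000000000000000000000000000) := T_39 (nat_lit 183) (nat_lit 200) (nat_lit 4) (nat_lit 13) (nat_lit 11) L100795 (by decide +kernel)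
theorem L100797 : W_39 (nat_lit 5) (nat_lit 0x80004001a003d000980000002000000000000000000000000) (nat_lit 0x0) (nat_lit 0x300018000e00000003000000000000000000000000000000000) := T_39 (nat_lit 166) (nat_lit 167) (nat_lit 3) (nat_lit 10) (nat_lit 8) L100796 (by decide +kernel)
theorem L100798 : W_39 (nat_lit 6) (nat_lit 0x80004001a0039000980000002000000000000000000000000) (nat_lit 0x0) (nat_lit 0x300018000e00004003200000000000000000000000000000000) := T_39 (nat_lit 146) (nat_lit 129) (nat_lit 0) (nat_lit 13) (nat_lit 8) L100797 (by decide +kernel)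
theorem L100799 : W_39 (nat_lit 7) (nat_lit 0x80004001a0019000980000002000000000000000000000000) (nat_lit 0x0) (nat_lit 0x300018000e00064003200000000000000000000000000000000) := T_39 (nat_lit 149) (nat_lit 150) (nat_lit 1) (nat_lit 14) (nat_lit 8) L100798 (by decide +kernel)
theorem L100800 : W_39 (nat_lit 8) (nat_lit 0x80004001a0019000980000000000000000000000000000000) (nat_lit 0x0) (nat_lit 0x300018000e00064003200040002000000000000000000000000) := T_39 (nat_lit 97) (nat_lit 114) (nat_lit 5) (nat_lit 12) (nat_lit 5) L100799 (by decide +kernel)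
theorem L100801 : W_39 (nat_lit 9) (nat_lit 0x8000400120019000980000000000000000000000000000000) (nat_lit 0x0) (nat_lit 0x300018000ec0064003200040002000000000000000000000000) := T_39 (nat_lit 163) (nat_lit 162) (nat_lit 2) (nat_lit 8) (nat_lit 9) L100800 (by decide +kernel)
theorem L100802 : W_39 (nat_lit 2) (nat_lit 0x480084005a003d001980000000000000000000000000000000) (nat_lit 0x0) (nat_lit 0x200010000200000000000000000000000000000000000000000) := D_39 (nat_lit 184) (nat_lit 201) (nat_lit 165) (nat_lit 7) (nat_lit 13) (nat_lit 7) (nat_lit 3) (nat_lit 10) (nat_lit 9) (by decide +kernel)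
theorem L100803 : W_39 (nat_lit 3) (nat_lit 0x480084005a003d000980000000000000000000000000000000) (nat_lit 0x0) (nat_lit 0x200010000200000003000000000000000000000000000000000) := T_39 (nat_lit 132) (nat_lit 133) (nat_lit 2) (nat_lit 10) (nat_lit 8) L100802 (by decide +kernel)
theorem L100804 : W_39 (nat_lit 4) (nat_lit 0x480004005a003d000980000000000000000000000000000000) (nat_lit 0x0) (nat_lit 0x300018000200000003000000000000000000000000000000000) := T_39 (nat_lit 183) (nat_lit 200) (nat_lit 4) (nat_lit 13) (nat_lit 11) L100803 (by decide +kernel)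
theorem L100805 : W_39 (nat_lit 5) (nat_lit 0x480004001a003d000980000000000000000000000000000000) (nat_lit 0x0) (nat_lit 0x300018000e00000003000000000000000000000000000000000) := T_39 (nat_lit 166) (nat_lit 167) (nat_lit 3) (nat_lit 10) (nat_lit 8) L100804 (by decide +kernel)
theorem L100806 : W_39 (nat_lit 6) (nat_lit 0x480004001a0039000980000000000000000000000000000000) (nat_lit 0x0) (nat_lit 0x300018000e00004003200000000000000000000000000000000) := T_39 (nat_lit 146) (nat_lit 129) (nat_lit 0) (nat_lit 13) (nat_lit 8) L100805 (by decide +kernel)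
theorem L100807 : W_39 (nat_lit 7) (nat_lit 0x480004001a0019000980000000000000000000000000000000) (nat_lit 0x0) (nat_lit 0x300018000e00064003200000000000000000000000000000000) := T_39 (nat_lit 149) (nat_lit 150) (nat_lit 1) (nat_lit 14) (nat_lit 8) L100806 (by decide +kernel)
theorem L100808 : W_39 (nat_lit 8) (nat_lit 0x48000400120019000980000000000000000000000000000000) (nat_lit 0x0) (nat_lit 0x300018000ec0064003200000000000000000000000000000000) := T_39 (nat_lit 163) (nat_lit 162) (nat_lit 2) (nat_lit 8) (nat_lit 9) L100807 (by decide +kernel)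
theorem L100809 : W_39 (nat_lit 9) (nat_lit 0x8000400120019000980000000000000000000000000000000) (nat_lit 0x0) (nat_lit 0x34001a000ec0064003200000000000000000000000000000000) := T_39 (nat_lit 198) (nat_lit 181) (nat_lit 6) (nat_lit 11) (nat_lit 11) L100808 (by decide +kernel)
theorem L100810 : W_39 (nat_lit 2) (nat_lit 0x800a4005a003d001980000002000000000000000000000000) (nat_lit 0x0) (nat_lit 0x80014000000000000000000000000000000000000000000000) := D_39 (nat_lit 182) (nat_lit 199) (nat_lit 184) (nat_lit 5) (nat_lit 13) (nat_lit 7) (nat_lit 0) (nat_lit 14) (nat_lit 10) (by decide +kernel)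
theorem L100811 : W_39 (nat_lit 3) (nat_lit 0x80024005a003d001980000002000000000000000000000000) (nat_lit 0x0) (nat_lit 0x18001c000000000000000000000000000000000000000000000) := T_39 (nat_lit 183) (nat_lit 200) (nat_lit 4) (nat_lit 13) (nat_lit 11) L100810 (by decide +kernel)
theorem L100812 : W_39 (nat_lit 4) (nat_lit 0x80024005a003d000980000002000000000000000000000000) (nat_lit 0x0) (nat_lit 0x18001c000000000003000000000000000000000000000000000) := T_39 (nat_lit 132) (nat_lit 133) (nat_lit 2) (nat_lit 10) (nat_lit 8) L100811 (by decide +kernel)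
theorem L100813 : W_39 (nat_lit 5) (nat_lit 0x80024001a003d000980000002000000000000000000000000) (nat_lit 0x0) (nat_lit 0x18001c000c00000003000000000000000000000000000000000) := T_39 (nat_lit 166) (nat_lit 167) (nat_lit 3) (nat_lit 10) (nat_lit 8) L100812 (by decide +kernel)
theorem L100814 : W_39 (nat_lit 6) (nat_lit 0x80024001a0039000980000002000000000000000000000000) (nat_lit 0x0) (nat_lit 0x18001c000c00004003200000000000000000000000000000000) := T_39 (nat_lit 146) (nat_lit 129) (nat_lit 0) (nat_lit 13) (nat_lit 8) L100813 (by decide +kernel)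
theorem L100815 : W_39 (nat_lit 7) (nat_lit 0x80004001a0039000980000002000000000000000000000000) (nat_lit 0x0) (nat_lit 0x1c001e000c00004003200000000000000000000000000000000) := T_39 (nat_lit 181) (nat_lit 198) (nat_lit 6) (nat_lit 11) (nat_lit 11) L100814 (by decide +kernel)
theorem L100816 : W_39 (nat_lit 8) (nat_lit 0x80004001a0019000980000002000000000000000000000000) (nat_lit 0x0) (nat_lit 0x1c001e000c00064003200000000000000000000000000000000) := T_39 (nat_lit 149) (nat_lit 150) (nat_lit 1) (nat_lit 14) (nat_lit 8) L100815 (by decide +kernel)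
theorem L100817 : W_39 (nat_lit 9) (nat_lit 0x80004001a0019000980000000000000000000000000000000) (nat_lit 0x0) (nat_lit 0x1c001e000c00064003200040002000000000000000000000000) := T_39 (nat_lit 97) (nat_lit 114) (nat_lit 5) (nat_lit 12) (nat_lit 5) L100816 (by decide +kernel)
theorem L100818 : W_39 (nat_lit 10) (nat_lit 0x8000400120019000980000000000000000000000000000000) (nat_lit 0x0) (nat_lit 0x1c001e000cc0064003200040002000000000000000000000000) := T_39 (nat_lit 163) (nat_lit 162) (nat_lit 2) (nat_lit 8) (nat_lit 9) L100817 (by decide +kernel)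
theorem L100819 : W_39 (nat_lit 11) (nat_lit 0x8000400120019000180000000000000000000000000000000) (nat_lit 0x0) (nat_lit 0x3c001e000ec0064003a000e0007000000000000000000000000) := Q_39 (nat_lit 131) (C_39 L100649 (C_39 L100791 (C_39 L100793 (C_39 L100801 (C_39 L100809 (C_39 L100818 N_39)))))) (by decide +kernel)
theorem L100820 : W_39 (nat_lit 2) (nat_lit 0x8003400120019000580000000000000000000000000000000) (nat_lit 0x0) (nat_lit 0x800210000000000000000000000000000000000000000) := D_39 (nat_lit 179) (nat_lit 165) (nat_lit 160) (nat_lit 2) (nat_lit 8) (nat_lit 10) (nat_lit 0) (nat_lit 11) (nat_lit 10) (by decide +kernel)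
theorem L100821 : W_39 (nat_lit 3) (nat_lit 0x8002400120019000580000000000000000000000000000000) (nat_lit 0x0) (nat_lit 0x20001800210000000000000000000000000000000000000000) := T_39 (nat_lit 180) (nat_lit 197) (nat_lit 5) (nat_lit 11) (nat_lit 7) L100820 (by decide +kernel)
theorem L100822 : W_39 (nat_lit 4) (nat_lit 0x8002400120019000180000000000000000000000000000000) (nat_lit 0x0) (nat_lit 0x20001800210000000600000000000000000000000000000000) := T_39 (nat_lit 130) (nat_lit 129) (nat_lit 3) (nat_lit 8) (nat_lit 7) L100821 (by decide +kernel)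
theorem L100823 : W_39 (nat_lit 2) (nat_lit 0x8002400120019000380000000000000000000000000000000) (nat_lit 0x0) (nat_lit 0x40000000000024000000000000000000000000000000000000) := D_39 (nat_lit 146) (nat_lit 149) (nat_lit 198) (nat_lit 0) (nat_lit 13) (nat_lit 8) (nat_lit 4) (nat_lit 11) (nat_lit 11) (by decide +kernel)
theorem L100824 : W_39 (nat_lit 3) (nat_lit 0x8002400120019000180000000000000000000000000000000) (nat_lit 0x0) (nat_lit 0x40000000000024000600000000000000000000000000000000) := T_39 (nat_lit 129) (nat_lit 130) (nat_lit 3) (nat_lit 8) (nat_lit 7) L100823 (by decide +kernel)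
theorem L100825 : W_39 (nat_lit 5) (nat_lit 0x8000400120019000180000000000000000000000000000000) (nat_lit 0x0) (nat_lit 0x200018000e0003800210024000e00000000000000000000000000000000) := Q_39 (nat_lit 181) (C_39 L100626 (C_39 L100822 (C_39 L100824 N_39))) (by decide +kernel)
theorem L100826 : W_39 (nat_lit 2) (nat_lit 0x8002400120009000580060000000000000000000000000000) (nat_lit 0x0) (nat_lit 0x80004000200000000000000000000000000000000000000000) := D_39 (nat_lit 182) (nat_lit 199) (nat_lit 165) (nat_lit 7) (nat_lit 11) (nat_lit 7) (nat_lit 7) (nat_lit 11) (nat_lit 6) (by decide +kernel)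
theorem L100827 : W_39 (nat_lit 3) (nat_lit 0x8000400120009000580060000000000000000000000000000) (nat_lit 0x0) (nat_lit 0x80006000200000000800000000000000000000000000000000) := T_39 (nat_lit 181) (nat_lit 131) (nat_lit 6) (nat_lit 11) (nat_lit 10) L100826 (by decide +kernel)
theorem L100828 : W_39 (nat_lit 4) (nat_lit 0x8000400120009000580020000000000000000000000000000) (nat_lit 0x0) (nat_lit 0x80006000200000000800040002000000000000000000000000) := T_39 (nat_lit 114) (nat_lit 97) (nat_lit 6) (nat_lit 11) (nat_lit 9) L100827 (by decide +kernel)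
theorem L100829 : W_39 (nat_lit 2) (nat_lit 0x80004003a0009000580020000000000000000000000000000) (nat_lit 0x0) (nat_lit 0x800040010000000000000000000000000000000000000) := D_39 (nat_lit 162) (nat_lit 148) (nat_lit 179) (nat_lit 2) (nat_lit 8) (nat_lit 9) (nat_lit 1) (nat_lit 12) (nat_lit 9) (by decide +kernel)
theorem L100830 : W_39 (nat_lit 3) (nat_lit 0x8000400320009000580020000000000000000000000000000) (nat_lit 0x0) (nat_lit 0x18000c0010000000000000000000000000000000000000) := T_39 (nat_lit 163) (nat_lit 180) (nat_lit 5) (nat_lit 11) (nat_lit 6) L100829 (by decide +kernel)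
theorem L100831 : W_39 (nat_lit 4) (nat_lit 0x8000400120009000580020000000000000000000000000000) (nat_lit 0x0) (nat_lit 0x58002c0010000000000000000000000000000000000000) := T_39 (nat_lit 165) (nat_lit 182) (nat_lit 7) (nat_lit 11) (nat_lit 6) L100830 (by decide +kernel)
theorem L100832 : W_39 (nat_lit 2) (nat_lit 0x80004001e0009000580020000000000000000000000000000) (nat_lit 0x0) (nat_lit 0x10004000000000001000000000000000000000000) := D_39 (nat_lit 146) (nat_lit 160) (nat_lit 96) (nat_lit 2) (nat_lit 7) (nat_lit 9) (nat_lit 5) (nat_lit 11) (nat_lit 5) (by decide +kernel)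
theorem L100833 : W_39 (nat_lit 3) (nat_lit 0x80004001a0009000580020000000000000000000000000000) (nat_lit 0x0) (nat_lit 0x50014000000000001000000000000000000000000) := T_39 (nat_lit 162) (nat_lit 148) (nat_lit 2) (nat_lit 8) (nat_lit 9) L100832 (by decide +kernel)
theorem L100834 : W_39 (nat_lit 4) (nat_lit 0x8000400120009000580020000000000000000000000000000) (nat_lit 0x0) (nat_lit 0x10000d0014000000000001000000000000000000000000) := T_39 (nat_lit 163) (nat_lit 180) (nat_lit 5) (nat_lit 11) (nat_lit 6) L100833 (by decide +kernel)
theorem L100835 : W_39 (nat_lit 5) (nat_lit 0x8000400120009000580000000000000000000000000000000) (nat_lit 0x0) (nat_lit 0x800078002d0014000800060003000000000000000000000000) := Q_39 (nat_lit 113) (C_39 L100828 (C_39 L100831 (C_39 L100834 N_39))) (by decide +kernel)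
theorem L100836 : W_39 (nat_lit 2) (nat_lit 0x80004003e0009000780020000000000000000000000000000) (nat_lit 0x0) (nat_lit 0x10004000000000001000000000000000000000000) := D_39 (nat_lit 146) (nat_lit 96) (nat_lit 160) (nat_lit 5) (nat_lit 11) (nat_lit 5) (nat_lit 2) (nat_lit 7) (nat_lit 9) (by decide +kernel)
theorem L100837 : W_39 (nat_lit 3) (nat_lit 0x80004003a0009000780020000000000000000000000000000) (nat_lit 0x0) (nat_lit 0x800050004000000000001000000000000000000000000) := T_39 (nat_lit 162) (nat_lit 179) (nat_lit 1) (nat_lit 12) (nat_lit 9) L100836 (by decide +kernel)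
theorem L100838 : W_39 (nat_lit 4) (nat_lit 0x80004001a0009000780020000000000000000000000000000) (nat_lit 0x0) (nat_lit 0x4800250004000000000001000000000000000000000000) := T_39 (nat_lit 165) (nat_lit 182) (nat_lit 7) (nat_lit 11) (nat_lit 6) L100837 (by decide +kernel)
theorem L100839 : W_39 (nat_lit 5) (nat_lit 0x8000400120009000780020000000000000000000000000000) (nat_lit 0x0) (nat_lit 0x58002d0004000000000001000000000000000000000000) := T_39 (nat_lit 163) (nat_lit 180) (nat_lit 5) (nat_lit 11) (nat_lit 6) L100838 (by decide +kernel)
theorem L100840 : W_39 (nat_lit 6) (nat_lit 0x8000400120009000780000000000000000000000000000000) (nat_lit 0x0) (nat_lit 0x58002d0004000000060001000000000000000000000000) := T_39 (nat_lit 113) (nat_lit 114) (nat_lit 2) (nat_lit 8) (nat_lit 7) L100839 (by decide +kernel)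
theorem L100841 : W_39 (nat_lit 7) (nat_lit 0x8000400120009000580000000000000000000000000000000) (nat_lit 0x0) (nat_lit 0x58002d0014000200060001000000000000000000000000) := T_39 (nat_lit 129) (nat_lit 148) (nat_lit 3) (nat_lit 8) (nat_lit 7) L100840 (by decide +kernel)
theorem L100842 : W_39 (nat_lit 2) (nat_lit 0x8000400120009000580020000000000000000000000000000) (nat_lit 0x0) (nat_lit 0x200040002000000000000000000000000) := D_39 (nat_lit 114) (nat_lit 129) (nat_lit 97) (nat_lit 2) (nat_lit 8) (nat_lit 7) (nat_lit 6) (nat_lit 11) (nat_lit 9) (by decide +kernel)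
theorem L100843 : W_39 (nat_lit 2) (nat_lit 0x80024001a0009000580030000000000000000000000000000) (nat_lit 0x0) (nat_lit 0x4000240000000000000000000000000000000000000000) := D_39 (nat_lit 182) (nat_lit 162) (nat_lit 165) (nat_lit 3) (nat_lit 8) (nat_lit 9) (nat_lit 7) (nat_lit 11) (nat_lit 6) (by decide +kernel)
theorem L100844 : W_39 (nat_lit 3) (nat_lit 0x80004001a0009000580030000000000000000000000000000) (nat_lit 0x0) (nat_lit 0x6000240000000200000000000000000000000000000000) := T_39 (nat_lit 181) (nat_lit 129) (nat_lit 4) (nat_lit 11) (nat_lit 10) L100843 (by decide +kernel)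
theorem L100845 : W_39 (nat_lit 4) (nat_lit 0x80004001a0009000580020000000000000000000000000000) (nat_lit 0x0) (nat_lit 0x6000240000000200010000800000000000000000000000) := T_39 (nat_lit 112) (nat_lit 95) (nat_lit 4) (nat_lit 11) (nat_lit 9) L100844 (by decide +kernel)
theorem L100846 : W_39 (nat_lit 5) (nat_lit 0x8000400120009000580020000000000000000000000000000) (nat_lit 0x0) (nat_lit 0x70002c0000000200010000800000000000000000000000) := T_39 (nat_lit 163) (nat_lit 180) (nat_lit 5) (nat_lit 11) (nat_lit 6) L100845 (by decide +kernel)
theorem L100847 : W_39 (nat_lit 6) (nat_lit 0x8000400120009000580000000000000000000000000000000) (nat_lit 0x0) (nat_lit 0x800070002c0000000a00070002800000000000000000000000) := Q_39 (nat_lit 113) (C_39 L100828 (C_39 L100842 (C_39 L100846 N_39))) (by decide +kernel)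
theorem L100848 : W_39 (nat_lit 2) (nat_lit 0x48002400120009000780000000000000000000000000000000) (nat_lit 0x0) (nat_lit 0x400020001000000000000000000000000000000000000000000000) := D_39 (nat_lit 197) (nat_lit 214) (nat_lit 180) (nat_lit 5) (nat_lit 11) (nat_lit 8) (nat_lit 5) (nat_lit 11) (nat_lit 7) (by decide +kernel)
theorem L100849 : W_39 (nat_lit 3) (nat_lit 0x8002400120009000780000000000000000000000000000000) (nat_lit 0x0) (nat_lit 0x400060001000000004000000000000000000000000000000000000) := T_39 (nat_lit 198) (nat_lit 146) (nat_lit 4) (nat_lit 11) (nat_lit 11) L100848 (by decide +kernel)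
theorem L100850 : W_39 (nat_lit 4) (nat_lit 0x8000400120009000780000000000000000000000000000000) (nat_lit 0x0) (nat_lit 0x400060003000000004000000010000000000000000000000000000) := T_39 (nat_lit 181) (nat_lit 112) (nat_lit 4) (nat_lit 11) (nat_lit 10) L100849 (by decide +kernel)
theorem L100851 : W_39 (nat_lit 5) (nat_lit 0x8000400120009000580000000000000000000000000000000) (nat_lit 0x0) (nat_lit 0x400060003000000014000200010000000000000000000000000000) := T_39 (nat_lit 129) (nat_lit 148) (nat_lit 3) (nat_lit 8) (nat_lit 7) L100850 (by decide +kernel)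
theorem L100852 : W_39 (nat_lit 8) (nat_lit 0x8000400120009000180000000000000000000000000000000) (nat_lit 0x0) (nat_lit 0x4000e00078002d0014000e00070003800000000000000000000000) := Q_39 (nat_lit 130) (C_39 L100835 (C_39 L100735 (C_39 L100841 (C_39 L100847 (C_39 L100851 N_39))))) (by decide +kernel)
theorem L100853 : W_39 (nat_lit 2) (nat_lit 0x10000780048000400160019000180000000000000000000000000000000) (nat_lit 0x0) (nat_lit 0x20000800080000000000000000000000000000000000000000000000000) := D_39 (nat_lit 215) (nat_lit 199) (nat_lit 233) (nat_lit 2) (nat_lit 8) (nat_lit 12) (nat_lit 3) (nat_lit 8) (nat_lit 12) (by decide +kernel)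
theorem L100854 : W_39 (nat_lit 3) (nat_lit 0x780048000400160019000180000000000000000000000000000000) (nat_lit 0x0) (nat_lit 0x38000800080000000000000000000000000000000000000000000000000) := T_39 (nat_lit 232) (nat_lit 231) (nat_lit 3) (nat_lit 7) (nat_lit 12) L100853 (by decide +kernel)
theorem L100855 : W_39 (nat_lit 4) (nat_lit 0x380048000400160019000180000000000000000000000000000000) (nat_lit 0x0) (nat_lit 0x38000c000a0000000000000000000000000000000000000000000000000) := T_39 (nat_lit 214) (nat_lit 197) (nat_lit 2) (nat_lit 7) (nat_lit 12) L100854 (by decide +kernel)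
theorem L100856 : W_39 (nat_lit 5) (nat_lit 0x180048000400160019000180000000000000000000000000000000) (nat_lit 0x0) (nat_lit 0x3c000e000a0000000000000000000000000000000000000000000000000) := T_39 (nat_lit 213) (nat_lit 230) (nat_lit 7) (nat_lit 8) (nat_lit 9) L100855 (by decide +kernel)
theorem L100857 : W_39 (nat_lit 6) (nat_lit 0x80048000400160019000180000000000000000000000000000000) (nat_lit 0x0) (nat_lit 0x3d000f000a0000000000000000000000000000000000000000000000000) := T_39 (nat_lit 212) (nat_lit 228) (nat_lit 5) (nat_lit 8) (nat_lit 9) L100856 (by decide +kernel)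
theorem L100858 : W_39 (nat_lit 7) (nat_lit 0x80048000400120019000180000000000000000000000000000000) (nat_lit 0x0) (nat_lit 0x3d000f000a00000000c0000000000000000000000000000000000000000) := T_39 (nat_lit 162) (nat_lit 163) (nat_lit 2) (nat_lit 8) (nat_lit 9) L100857 (by decide +kernel)
theorem L100859 : W_39 (nat_lit 8) (nat_lit 0x48000400120019000180000000000000000000000000000000) (nat_lit 0x0) (nat_lit 0x3d000f800a40000000c0000000000000000000000000000000000000000) := T_39 (nat_lit 211) (nat_lit 194) (nat_lit 5) (nat_lit 8) (nat_lit 8) L100858 (by decide +kernel)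
theorem L100860 : W_39 (nat_lit 2) (nat_lit 0xe8002400160019000180000000000000000000000000000000) (nat_lit 0x0) (nat_lit 0x5000000000000400000000000000000000000000000000) := D_39 (nat_lit 130) (nat_lit 182) (nat_lit 180) (nat_lit 7) (nat_lit 11) (nat_lit 7) (nat_lit 5) (nat_lit 11) (nat_lit 7) (by decide +kernel)
theorem L100861 : W_39 (nat_lit 3) (nat_lit 0xc8002400160019000180000000000000000000000000000000) (nat_lit 0x0) (nat_lit 0x400020005000000000000400000000000000000000000000000000) := T_39 (nat_lit 197) (nat_lit 214) (nat_lit 5) (nat_lit 11) (nat_lit 8) L100860 (by decide +kernel)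
theorem L100862 : W_39 (nat_lit 4) (nat_lit 0x48002400160019000180000000000000000000000000000000) (nat_lit 0x0) (nat_lit 0x14000a0005000000000000400000000000000000000000000000000) := T_39 (nat_lit 199) (nat_lit 216) (nat_lit 7) (nat_lit 11) (nat_lit 8) L100861 (by decide +kernel)
theorem L100863 : W_39 (nat_lit 5) (nat_lit 0x48000400160019000180000000000000000000000000000000) (nat_lit 0x0) (nat_lit 0x14000a0007000000000000c00000000000000000000000000000000) := T_39 (nat_lit 181) (nat_lit 131) (nat_lit 6) (nat_lit 11) (nat_lit 11) L100862 (by decide +kernel)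
theorem L100864 : W_39 (nat_lit 6) (nat_lit 0x48000400120019000180000000000000000000000000000000) (nat_lit 0x0) (nat_lit 0x14000a00070000c0000000c00000000000000000000000000000000) := T_39 (nat_lit 162) (nat_lit 163) (nat_lit 2) (nat_lit 8) (nat_lit 9) L100863 (by decide +kernel)
theorem L100865 : W_39 (nat_lit 2) (nat_lit 0x80004c002400160019000180000000000000000000000000000000) (nat_lit 0x0) (nat_lit 0x8000400020000000000000000000000000000000000000000000000000) := D_39 (nat_lit 214) (nat_lit 197) (nat_lit 231) (nat_lit 5) (nat_lit 11) (nat_lit 8) (nat_lit 5) (nat_lit 11) (nat_lit 9) (by decide +kernel)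
theorem L100866 : W_39 (nat_lit 3) (nat_lit 0x4c002400160019000180000000000000000000000000000000) (nat_lit 0x0) (nat_lit 0x8000c00020000000200000000000000000000000000000000000000000) := T_39 (nat_lit 215) (nat_lit 165) (nat_lit 6) (nat_lit 11) (nat_lit 12) L100865 (by decide +kernel)
theorem L100867 : W_39 (nat_lit 4) (nat_lit 0x4c000400160019000180000000000000000000000000000000) (nat_lit 0x0) (nat_lit 0x8000c00020002000200000000800000000000000000000000000000000) := T_39 (nat_lit 181) (nat_lit 131) (nat_lit 6) (nat_lit 11) (nat_lit 11) L100866 (by decide +kernel)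
theorem L100868 : W_39 (nat_lit 5) (nat_lit 0x4c000400120019000180000000000000000000000000000000) (nat_lit 0x0) (nat_lit 0x8000c000200020002c0000000800000000000000000000000000000000) := T_39 (nat_lit 162) (nat_lit 163) (nat_lit 2) (nat_lit 8) (nat_lit 9) L100867 (by decide +kernel)
theorem L100869 : W_39 (nat_lit 6) (nat_lit 0x48000400120019000180000000000000000000000000000000) (nat_lit 0x0) (nat_lit 0x8000c800240020002c0000000800000000000000000000000000000000) := T_39 (nat_lit 194) (nat_lit 211) (nat_lit 5) (nat_lit 8) (nat_lit 8) L100868 (by decide +kernel)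
theorem L100870 : W_39 (nat_lit 9) (nat_lit 0x8000400120019000180000000000000000000000000000000) (nat_lit 0x0) (nat_lit 0x3d001f800e40070002c0000000c00000000000000000000000000000000) := Q_39 (nat_lit 198) (C_39 L100672 (C_39 L100859 (C_39 L100864 (C_39 L100869 N_39)))) (by decide +kernel)
theorem L100871 : W_39 (nat_lit 12) (nat_lit 0x8000400120009000180000000000000000000000000000000) (nat_lit 0x0) (nat_lit 0x3d001f803e403f000ec0074007e000f0007800000000000000000000000) := Q_39 (nat_lit 148) (C_39 L100870 (C_39 L100819 (C_39 L100669 (C_39 L100784 (C_39 L100691 (C_39 L100615 N_39)))))) (by decide +kernel)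
theorem L100872 : W_39 (nat_lit 2) (nat_lit 0x160001a00080034001e0009000180000000000000000000000000000000) (nat_lit 0x0) (nat_lit 0x20000000000000000400020000000000000000000000000000) := D_39 (nat_lit 130) (nat_lit 197) (nat_lit 113) (nat_lit 5) (nat_lit 11) (nat_lit 7) (nat_lit 5) (nat_lit 11) (nat_lit 6) (by decide +kernel)
theorem L100873 : W_39 (nat_lit 3) (nat_lit 0x160001a00080024001e0009000180000000000000000000000000000000) (nat_lit 0x0) (nat_lit 0x20001000010000000400020000000000000000000000000000) := T_39 (nat_lit 180) (nat_lit 160) (nat_lit 3) (nat_lit 7) (nat_lit 9) L100872 (by decide +kernel)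
theorem L100874 : W_39 (nat_lit 4) (nat_lit 0x160001a00080004001e0009000180000000000000000000000000000000) (nat_lit 0x0) (nat_lit 0x20007000010000000400020000000000000000000000000000) := T_39 (nat_lit 181) (nat_lit 182) (nat_lit 3) (nat_lit 8) (nat_lit 9) L100873 (by decide +kernel)
theorem L100875 : W_39 (nat_lit 5) (nat_lit 0x160001a0008000400160009000180000000000000000000000000000000) (nat_lit 0x0) (nat_lit 0x20007000090010000400020000000000000000000000000000) := T_39 (nat_lit 163) (nat_lit 148) (nat_lit 2) (nat_lit 8) (nat_lit 9) L100874 (by decide +kernel)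
theorem L100876 : W_39 (nat_lit 6) (nat_lit 0x60001a0008000400160009000180000000000000000000000000000000) (nat_lit 0x0) (nat_lit 0x18000000020007000090010000400020000000000000000000000000000) := T_39 (nat_lit 232) (nat_lit 231) (nat_lit 0) (nat_lit 11) (nat_lit 13) L100875 (by decide +kernel)
theorem L100877 : W_39 (nat_lit 7) (nat_lit 0x60001a0008000400120009000180000000000000000000000000000000) (nat_lit 0x0) (nat_lit 0x180000000200078000d0010000400020000000000000000000000000000) := T_39 (nat_lit 162) (nat_lit 179) (nat_lit 6) (nat_lit 8) (nat_lit 13) L100876 (by decide +kernel)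
theorem L100878 : W_39 (nat_lit 8) (nat_lit 0x6000180008000400120009000180000000000000000000000000000000) (nat_lit 0x0) (nat_lit 0x180000600200078000d0010000400020000000000000000000000000000) := T_39 (nat_lit 209) (nat_lit 210) (nat_lit 3) (nat_lit 5) (nat_lit 12) L100877 (by decide +kernel)
theorem L100879 : W_39 (nat_lit 9) (nat_lit 0x4000180008000400120009000180000000000000000000000000000000) (nat_lit 0x0) (nat_lit 0x8001a0000600200078000d0010000400020000000000000000000000000000) := T_39 (nat_lit 229) (nat_lit 247) (nat_lit 7) (nat_lit 8) (nat_lit 10) L100878 (by decide +kernel)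
theorem L100880 : W_39 (nat_lit 10) (nat_lit 0x180008000400120009000180000000000000000000000000000000) (nat_lit 0x0) (nat_lit 0x8001e0002600200078000d0010000400020000000000000000000000000000) := T_39 (nat_lit 230) (nat_lit 213) (nat_lit 7) (nat_lit 8) (nat_lit 9) L100879 (by decide +kernel)
theorem L100881 : W_39 (nat_lit 11) (nat_lit 0x80008000400120009000180000000000000000000000000000000) (nat_lit 0x0) (nat_lit 0x8001f0003600200078000d0010000400020000000000000000000000000000) := T_39 (nat_lit 212) (nat_lit 228) (nat_lit 5) (nat_lit 8) (nat_lit 9) L100880 (by decide +kernel)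
theorem L100882 : W_39 (nat_lit 12) (nat_lit 0x8000400120009000180000000000000000000000000000000) (nat_lit 0x0) (nat_lit 0x8001f0003e00240078000d0010000400020000000000000000000000000000) := T_39 (nat_lit 211) (nat_lit 194) (nat_lit 5) (nat_lit 8) (nat_lit 8) L100881 (by decide +kernel)
theorem L100883 : W_39 (nat_lit 6) (nat_lit 0x8000400120009000580000000000000000000000000000000) (nat_lit 0x0) (nat_lit 0x50002c0070000200020001000000000000000000000000) := T_39 (nat_lit 148) (nat_lit 129) (nat_lit 3) (nat_lit 8) (nat_lit 7) L100783 (by decide +kernel)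
theorem L100884 : W_39 (nat_lit 2) (nat_lit 0x160001a00080004001e000d000580000000000000000000000000000000) (nat_lit 0x0) (nat_lit 0x1000000000000000020001000000000000000000000000) := D_39 (nat_lit 113) (nat_lit 180) (nat_lit 96) (nat_lit 5) (nat_lit 11) (nat_lit 6) (nat_lit 5) (nat_lit 11) (nat_lit 5) (by decide +kernel)
theorem L100885 : W_39 (nat_lit 3) (nat_lit 0x160001a00080004001e0009000580000000000000000000000000000000) (nat_lit 0x0) (nat_lit 0x1000010004000000020001000000000000000000000000) := T_39 (nat_lit 146) (nat_lit 160) (nat_lit 2) (nat_lit 7) (nat_lit 9) L100884 (by decide +kernel)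
theorem L100886 : W_39 (nat_lit 4) (nat_lit 0x160001a0008000400160009000580000000000000000000000000000000) (nat_lit 0x0) (nat_lit 0x1000090014000000020001000000000000000000000000) := T_39 (nat_lit 163) (nat_lit 148) (nat_lit 2) (nat_lit 8) (nat_lit 9) L100885 (by decide +kernel)
theorem L100887 : W_39 (nat_lit 5) (nat_lit 0x60001a0008000400160009000580000000000000000000000000000000) (nat_lit 0x0) (nat_lit 0x18000000000001000090014000000020001000000000000000000000000) := T_39 (nat_lit 232) (nat_lit 231) (nat_lit 0) (nat_lit 11) (nat_lit 13) L100886 (by decide +kernel)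
theorem L100888 : W_39 (nat_lit 6) (nat_lit 0x60001a0008000400120009000580000000000000000000000000000000) (nat_lit 0x0) (nat_lit 0x180000000000018000d0014000000020001000000000000000000000000) := T_39 (nat_lit 162) (nat_lit 179) (nat_lit 6) (nat_lit 8) (nat_lit 13) L100887 (by decide +kernel)
theorem L100889 : W_39 (nat_lit 7) (nat_lit 0x6000180008000400120009000580000000000000000000000000000000) (nat_lit 0x0) (nat_lit 0x180000600000018000d0014000000020001000000000000000000000000) := T_39 (nat_lit 209) (nat_lit 210) (nat_lit 3) (nat_lit 5) (nat_lit 12) L100888 (by decide +kernel)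
theorem L100890 : W_39 (nat_lit 8) (nat_lit 0x4000180008000400120009000580000000000000000000000000000000) (nat_lit 0x0) (nat_lit 0x8001a0000600000018000d0014000000020001000000000000000000000000) := T_39 (nat_lit 229) (nat_lit 247) (nat_lit 7) (nat_lit 8) (nat_lit 10) L100889 (by decide +kernel)
theorem L100891 : W_39 (nat_lit 9) (nat_lit 0x180008000400120009000580000000000000000000000000000000) (nat_lit 0x0) (nat_lit 0x8001e0002600000018000d0014000000020001000000000000000000000000) := T_39 (nat_lit 230) (nat_lit 213) (nat_lit 7) (nat_lit 8) (nat_lit 9) L100890 (by decide +kernel)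
theorem L100892 : W_39 (nat_lit 10) (nat_lit 0x80008000400120009000580000000000000000000000000000000) (nat_lit 0x0) (nat_lit 0x8001f0003600000018000d0014000000020001000000000000000000000000) := T_39 (nat_lit 212) (nat_lit 228) (nat_lit 5) (nat_lit 8) (nat_lit 9) L100891 (by decide +kernel)
theorem L100893 : W_39 (nat_lit 11) (nat_lit 0x8000400120009000580000000000000000000000000000000) (nat_lit 0x0) (nat_lit 0x8001f0003e00040018000d0014000000020001000000000000000000000000) := T_39 (nat_lit 211) (nat_lit 194) (nat_lit 5) (nat_lit 8) (nat_lit 8) L100892 (by decide +kernel)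
theorem L100894 : W_39 (nat_lit 2) (nat_lit 0xc0004003e0009000580030000000000000000000000000000) (nat_lit 0x0) (nat_lit 0x10004000000000001000000000000000000000000) := D_39 (nat_lit 146) (nat_lit 96) (nat_lit 160) (nat_lit 5) (nat_lit 11) (nat_lit 5) (nat_lit 2) (nat_lit 7) (nat_lit 9) (by decide +kernel)
theorem L100895 : W_39 (nat_lit 3) (nat_lit 0xc0004003a0009000580030000000000000000000000000000) (nat_lit 0x0) (nat_lit 0x800050004000000000001000000000000000000000000) := T_39 (nat_lit 162) (nat_lit 179) (nat_lit 1) (nat_lit 12) (nat_lit 9) L100894 (by decide +kernel)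
theorem L100896 : W_39 (nat_lit 4) (nat_lit 0xc000400320009000580030000000000000000000000000000) (nat_lit 0x0) (nat_lit 0x18000d0004000000000001000000000000000000000000) := T_39 (nat_lit 163) (nat_lit 180) (nat_lit 5) (nat_lit 11) (nat_lit 6) L100895 (by decide +kernel)
theorem L100897 : W_39 (nat_lit 5) (nat_lit 0xc000400320009000580020000000000000000000000000000) (nat_lit 0x0) (nat_lit 0x18000d0004000000010001800000000000000000000000) := T_39 (nat_lit 112) (nat_lit 95) (nat_lit 4) (nat_lit 11) (nat_lit 9) L100896 (by decide +kernel)
theorem L100898 : W_39 (nat_lit 6) (nat_lit 0xc000400120009000580020000000000000000000000000000) (nat_lit 0x0) (nat_lit 0x58002d0004000000010001800000000000000000000000) := T_39 (nat_lit 165) (nat_lit 182) (nat_lit 7) (nat_lit 11) (nat_lit 6) L100897 (by decide +kernel)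
theorem L100899 : W_39 (nat_lit 7) (nat_lit 0x8000400120009000580020000000000000000000000000000) (nat_lit 0x0) (nat_lit 0x800040058002d0004000000010001800000000000000000000000) := T_39 (nat_lit 194) (nat_lit 211) (nat_lit 5) (nat_lit 8) (nat_lit 8) L100898 (by decide +kernel)
theorem L100900 : W_39 (nat_lit 8) (nat_lit 0x8000400120009000580000000000000000000000000000000) (nat_lit 0x0) (nat_lit 0x800040058002d0004000200070003800000000000000000000000) := Q_39 (nat_lit 113) (C_39 L100842 (C_39 L100899 N_39)) (by decide +kernel)
theorem L100901 : W_39 (nat_lit 2) (nat_lit 0x4000180008000400160019000580000000000000000000000000000000) (nat_lit 0x0) (nat_lit 0x80002000000000000800000000000000000000000000000000000000000000) := D_39 (nat_lit 229) (nat_lit 179) (nat_lit 247) (nat_lit 6) (nat_lit 8) (nat_lit 13) (nat_lit 7) (nat_lit 8) (nat_lit 10) (by decide +kernel)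
theorem L100902 : W_39 (nat_lit 3) (nat_lit 0x180008000400160019000580000000000000000000000000000000) (nat_lit 0x0) (nat_lit 0x80006000200000000800000000000000000000000000000000000000000000) := T_39 (nat_lit 230) (nat_lit 213) (nat_lit 7) (nat_lit 8) (nat_lit 9) L100901 (by decide +kernel)
theorem L100903 : W_39 (nat_lit 4) (nat_lit 0x180008000400120019000580000000000000000000000000000000) (nat_lit 0x0) (nat_lit 0x800060002000000008000c0000000000000000000000000000000000000000) := T_39 (nat_lit 162) (nat_lit 163) (nat_lit 2) (nat_lit 8) (nat_lit 9) L100902 (by decide +kernel)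
theorem L100904 : W_39 (nat_lit 5) (nat_lit 0x80008000400120019000580000000000000000000000000000000) (nat_lit 0x0) (nat_lit 0x800070003000000008000c0000000000000000000000000000000000000000) := T_39 (nat_lit 212) (nat_lit 228) (nat_lit 5) (nat_lit 8) (nat_lit 9) L100903 (by decide +kernel)
theorem L100905 : W_39 (nat_lit 6) (nat_lit 0x80008000400120009000580000000000000000000000000000000) (nat_lit 0x0) (nat_lit 0x800070003000000008000c0010000200000000000000000000000000000000) := T_39 (nat_lit 148) (nat_lit 129) (nat_lit 3) (nat_lit 8) (nat_lit 7) L100904 (by decide +kernel)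
theorem L100906 : W_39 (nat_lit 7) (nat_lit 0x8000400120009000580000000000000000000000000000000) (nat_lit 0x0) (nat_lit 0x800070003800040008000c0010000200000000000000000000000000000000) := T_39 (nat_lit 211) (nat_lit 194) (nat_lit 5) (nat_lit 8) (nat_lit 8) L100905 (by decide +kernel)
theorem L100907 : W_39 (nat_lit 12) (nat_lit 0x8000400120009000180000000000000000000000000000000) (nat_lit 0x0) (nat_lit 0x8001f0003e00040058002d00740006000700038001c0008000000000000000) := Q_39 (nat_lit 130) (C_39 L100841 (C_39 L100743 (C_39 L100883 (C_39 L100893 (C_39 L100900 (C_39 L100906 N_39)))))) (by decide +kernel)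
theorem L100908 : W_39 (nat_lit 7) (nat_lit 0x8000400120009000180000000000000000000000000000000) (nat_lit 0x0) (nat_lit 0x80027001b800e40038002d0034000e00020001000000000000000000000000) := Q_39 (nat_lit 148) (C_39 L100825 (C_39 L100778 (C_39 L100691 N_39))) (by decide +kernel)
theorem L100909 : W_39 (nat_lit 2) (nat_lit 0x8003400120009000180000000000000000000000000000000) (nat_lit 0x0) (nat_lit 0x4000800010000000000000000000000000000000000000000) := D_39 (nat_lit 179) (nat_lit 194) (nat_lit 160) (nat_lit 1) (nat_lit 11) (nat_lit 10) (nat_lit 0) (nat_lit 11) (nat_lit 10) (by decide +kernel)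
theorem L100910 : W_39 (nat_lit 2) (nat_lit 0x8003400120009000180000000000000000000000000000000) (nat_lit 0x0) (nat_lit 0x4000800200000000000000000000000000000000000000000) := D_39 (nat_lit 179) (nat_lit 194) (nat_lit 165) (nat_lit 1) (nat_lit 11) (nat_lit 10) (nat_lit 2) (nat_lit 8) (nat_lit 10) (by decide +kernel)
theorem L100911 : W_39 (nat_lit 2) (nat_lit 0x8003400120009000180000000000000000000000000000000) (nat_lit 0x0) (nat_lit 0x800210000000000000000000000000000000000000000) := D_39 (nat_lit 179) (nat_lit 160) (nat_lit 165) (nat_lit 0) (nat_lit 11) (nat_lit 10) (nat_lit 2) (nat_lit 8) (nat_lit 10) (by decide +kernel)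
theorem L100912 : W_39 (nat_lit 2) (nat_lit 0x8003400120009000580020000000000000000000000000000) (nat_lit 0x0) (nat_lit 0x200050000000000000000000000000000) := D_39 (nat_lit 129) (nat_lit 114) (nat_lit 112) (nat_lit 2) (nat_lit 8) (nat_lit 7) (nat_lit 4) (nat_lit 11) (nat_lit 10) (by decide +kernel)
theorem L100913 : W_39 (nat_lit 3) (nat_lit 0x8003400120009000580000000000000000000000000000000) (nat_lit 0x0) (nat_lit 0x80000000200070000000000000000000000000000) := T_39 (nat_lit 113) (nat_lit 163) (nat_lit 5) (nat_lit 11) (nat_lit 6) L100912 (by decide +kernel)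
theorem L100914 : W_39 (nat_lit 4) (nat_lit 0x8003400120009000180000000000000000000000000000000) (nat_lit 0x0) (nat_lit 0x20000000080000000600070000000000000000000000000000) := T_39 (nat_lit 130) (nat_lit 197) (nat_lit 5) (nat_lit 11) (nat_lit 7) L100913 (by decide +kernel)
theorem L100915 : W_39 (nat_lit 5) (nat_lit 0x8002400120009000180000000000000000000000000000000) (nat_lit 0x0) (nat_lit 0x24001800290000000600070000000000000000000000000000) := Q_39 (nat_lit 180) (C_39 L100909 (C_39 L100910 (C_39 L100911 (C_39 L100914 N_39)))) (by decide +kernel)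
theorem L100916 : W_39 (nat_lit 2) (nat_lit 0xc003400120009000780000000000000000000000000000000) (nat_lit 0x0) (nat_lit 0x800060000000000000000000000000000) := D_39 (nat_lit 114) (nat_lit 131) (nat_lit 113) (nat_lit 6) (nat_lit 11) (nat_lit 10) (nat_lit 2) (nat_lit 8) (nat_lit 7) (by decide +kernel)
theorem L100917 : W_39 (nat_lit 3) (nat_lit 0xc003400120009000580000000000000000000000000000000) (nat_lit 0x0) (nat_lit 0xa00070000000000000000000000000000) := T_39 (nat_lit 129) (nat_lit 112) (nat_lit 4) (nat_lit 11) (nat_lit 10) L100916 (by decide +kernel)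
theorem L100918 : W_39 (nat_lit 4) (nat_lit 0xc003400120009000180000000000000000000000000000000) (nat_lit 0x0) (nat_lit 0x20000000000000000e00070000000000000000000000000000) := T_39 (nat_lit 130) (nat_lit 197) (nat_lit 5) (nat_lit 11) (nat_lit 7) L100917 (by decide +kernel)
theorem L100919 : W_39 (nat_lit 5) (nat_lit 0xc002400120009000180000000000000000000000000000000) (nat_lit 0x0) (nat_lit 0x20001800000000000e00070000000000000000000000000000) := T_39 (nat_lit 180) (nat_lit 179) (nat_lit 1) (nat_lit 11) (nat_lit 10) L100918 (by decide +kernel)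
theorem L100920 : W_39 (nat_lit 6) (nat_lit 0x8002400120009000180000000000000000000000000000000) (nat_lit 0x0) (nat_lit 0x80024001800000000000e00070000000000000000000000000000) := T_39 (nat_lit 194) (nat_lit 211) (nat_lit 5) (nat_lit 8) (nat_lit 8) L100919 (by decide +kernel)
theorem L100921 : W_39 (nat_lit 3) (nat_lit 0x160001a00080024001e0009000180000000000000000000000000000000) (nat_lit 0x0) (nat_lit 0x800040000000010004000200000000000000000000000000000000) := T_39 (nat_lit 146) (nat_lit 160) (nat_lit 2) (nat_lit 7) (nat_lit 9) L100763 (by decide +kernel)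
theorem L100922 : W_39 (nat_lit 4) (nat_lit 0x160001a0008002400160009000180000000000000000000000000000000) (nat_lit 0x0) (nat_lit 0x800040004000090004000200000000000000000000000000000000) := T_39 (nat_lit 163) (nat_lit 182) (nat_lit 3) (nat_lit 8) (nat_lit 9) L100921 (by decide +kernel)
theorem L100923 : W_39 (nat_lit 5) (nat_lit 0x60001a0008002400160009000180000000000000000000000000000000) (nat_lit 0x0) (nat_lit 0x18000800040004000090004000200000000000000000000000000000000) := T_39 (nat_lit 232) (nat_lit 231) (nat_lit 0) (nat_lit 11) (nat_lit 13) L100922 (by decide +kernel)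
theorem L100924 : W_39 (nat_lit 6) (nat_lit 0x60001a0008002400120009000180000000000000000000000000000000) (nat_lit 0x0) (nat_lit 0x180008000400048000d0004000200000000000000000000000000000000) := T_39 (nat_lit 162) (nat_lit 179) (nat_lit 6) (nat_lit 8) (nat_lit 13) L100923 (by decide +kernel)
theorem L100925 : W_39 (nat_lit 7) (nat_lit 0x6000180008002400120009000180000000000000000000000000000000) (nat_lit 0x0) (nat_lit 0x180008600400048000d0004000200000000000000000000000000000000) := T_39 (nat_lit 209) (nat_lit 210) (nat_lit 3) (nat_lit 5) (nat_lit 12) L100924 (by decide +kernel)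
theorem L100926 : W_39 (nat_lit 8) (nat_lit 0x4000180008002400120009000180000000000000000000000000000000) (nat_lit 0x0) (nat_lit 0x8001a0008600400048000d0004000200000000000000000000000000000000) := T_39 (nat_lit 229) (nat_lit 247) (nat_lit 7) (nat_lit 8) (nat_lit 10) L100925 (by decide +kernel)
theorem L100927 : W_39 (nat_lit 9) (nat_lit 0x180008002400120009000180000000000000000000000000000000) (nat_lit 0x0) (nat_lit 0x8001e000a600400048000d0004000200000000000000000000000000000000) := T_39 (nat_lit 230) (nat_lit 213) (nat_lit 7) (nat_lit 8) (nat_lit 9) L100926 (by decide +kernel)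
theorem L100928 : W_39 (nat_lit 10) (nat_lit 0x80008002400120009000180000000000000000000000000000000) (nat_lit 0x0) (nat_lit 0x8001f000b600400048000d0004000200000000000000000000000000000000) := T_39 (nat_lit 212) (nat_lit 228) (nat_lit 5) (nat_lit 8) (nat_lit 9) L100927 (by decide +kernel)
theorem L100929 : W_39 (nat_lit 11) (nat_lit 0x8002400120009000180000000000000000000000000000000) (nat_lit 0x0) (nat_lit 0x8001f000be00440048000d0004000200000000000000000000000000000000) := T_39 (nat_lit 211) (nat_lit 194) (nat_lit 5) (nat_lit 8) (nat_lit 8) L100928 (by decide +kernel)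
theorem L100930 : W_39 (nat_lit 2) (nat_lit 0x8006400160009000d80020000000000000000000000000000) (nat_lit 0x0) (nat_lit 0x200010000800000000000000000000000) := D_39 (nat_lit 112) (nat_lit 95) (nat_lit 129) (nat_lit 4) (nat_lit 11) (nat_lit 9) (nat_lit 4) (nat_lit 11) (nat_lit 10) (by decide +kernel)
theorem L100931 : W_39 (nat_lit 3) (nat_lit 0x8006400160009000d80000000000000000000000000000000) (nat_lit 0x0) (nat_lit 0x200000000200030000800000000000000000000000) := T_39 (nat_lit 113) (nat_lit 165) (nat_lit 7) (nat_lit 11) (nat_lit 6) L100930 (by decide +kernel)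
theorem L100932 : W_39 (nat_lit 4) (nat_lit 0x8006400120009000d80000000000000000000000000000000) (nat_lit 0x0) (nat_lit 0x2c0000000200030000800000000000000000000000) := T_39 (nat_lit 162) (nat_lit 163) (nat_lit 3) (nat_lit 8) (nat_lit 9) L100931 (by decide +kernel)
theorem L100933 : W_39 (nat_lit 5) (nat_lit 0x8002400120009000d80000000000000000000000000000000) (nat_lit 0x0) (nat_lit 0x800040002c0000000200030000800000000000000000000000) := T_39 (nat_lit 182) (nat_lit 199) (nat_lit 7) (nat_lit 11) (nat_lit 7) L100932 (by decide +kernel)
theorem L100934 : W_39 (nat_lit 6) (nat_lit 0x8002400120009000580000000000000000000000000000000) (nat_lit 0x0) (nat_lit 0x800040002c0000000a00070000800000000000000000000000) := T_39 (nat_lit 131) (nat_lit 114) (nat_lit 6) (nat_lit 11) (nat_lit 10) L100933 (by decide +kernel)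
theorem L100935 : W_39 (nat_lit 4) (nat_lit 0x8002400120009000580000000000000000000000000000000) (nat_lit 0x0) (nat_lit 0x400060001000000004000200010000000000000000000000000000) := T_39 (nat_lit 129) (nat_lit 112) (nat_lit 4) (nat_lit 11) (nat_lit 10) L100849 (by decide +kernel)
theorem L100936 : W_39 (nat_lit 7) (nat_lit 0x8002400120009000180000000000000000000000000000000) (nat_lit 0x0) (nat_lit 0x4000e00058002d0004000e00070000800000000000000000000000) := Q_39 (nat_lit 130) (C_39 L100756 (C_39 L100934 (C_39 L100935 N_39))) (by decide +kernel)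
theorem L100937 : W_39 (nat_lit 2) (nat_lit 0xc006400160009000580020000000000000000000000000000) (nat_lit 0x0) (nat_lit 0x800040002000000000000000000000000) := D_39 (nat_lit 114) (nat_lit 131) (nat_lit 97) (nat_lit 6) (nat_lit 11) (nat_lit 10) (nat_lit 6) (nat_lit 11) (nat_lit 9) (by decide +kernel)
theorem L100938 : W_39 (nat_lit 3) (nat_lit 0xc006400160009000580000000000000000000000000000000) (nat_lit 0x0) (nat_lit 0x200000000800060002000000000000000000000000) := T_39 (nat_lit 113) (nat_lit 165) (nat_lit 7) (nat_lit 11) (nat_lit 6) L100937 (by decide +kernel)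
theorem L100939 : W_39 (nat_lit 4) (nat_lit 0xc006400120009000580000000000000000000000000000000) (nat_lit 0x0) (nat_lit 0x2c0000000800060002000000000000000000000000) := T_39 (nat_lit 162) (nat_lit 163) (nat_lit 3) (nat_lit 8) (nat_lit 9) L100938 (by decide +kernel)
theorem L100940 : W_39 (nat_lit 5) (nat_lit 0xc002400120009000580000000000000000000000000000000) (nat_lit 0x0) (nat_lit 0x800040002c0000000800060002000000000000000000000000) := T_39 (nat_lit 182) (nat_lit 199) (nat_lit 7) (nat_lit 11) (nat_lit 7) L100939 (by decide +kernel)
theorem L100941 : W_39 (nat_lit 6) (nat_lit 0x8002400120009000580000000000000000000000000000000) (nat_lit 0x0) (nat_lit 0x800840040002c0000000800060002000000000000000000000000) := T_39 (nat_lit 194) (nat_lit 211) (nat_lit 5) (nat_lit 8) (nat_lit 8) L100940 (by decide +kernel)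
theorem L100942 : W_39 (nat_lit 7) (nat_lit 0x8002400120009000180000000000000000000000000000000) (nat_lit 0x0) (nat_lit 0x4800e40050002c0004000e00070002800000000000000000000000) := Q_39 (nat_lit 130) (C_39 L100935 (C_39 L100934 (C_39 L100941 N_39))) (by decide +kernel)
theorem L100943 : W_39 (nat_lit 2) (nat_lit 0xc003400120009000580020000000000000000000000000000) (nat_lit 0x0) (nat_lit 0x800040002000000000000000000000000) := D_39 (nat_lit 114) (nat_lit 131) (nat_lit 97) (nat_lit 6) (nat_lit 11) (nat_lit 10) (nat_lit 6) (nat_lit 11) (nat_lit 9) (by decide +kernel)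
theorem L100944 : W_39 (nat_lit 3) (nat_lit 0xc003400120009000580000000000000000000000000000000) (nat_lit 0x0) (nat_lit 0x80000000800060002000000000000000000000000) := T_39 (nat_lit 113) (nat_lit 163) (nat_lit 5) (nat_lit 11) (nat_lit 6) L100943 (by decide +kernel)
theorem L100945 : W_39 (nat_lit 4) (nat_lit 0xc003400120009000180000000000000000000000000000000) (nat_lit 0x0) (nat_lit 0x20000000080000000c00060002000000000000000000000000) := T_39 (nat_lit 130) (nat_lit 197) (nat_lit 5) (nat_lit 11) (nat_lit 7) L100944 (by decide +kernel)
theorem L100946 : W_39 (nat_lit 5) (nat_lit 0xc002400120009000180000000000000000000000000000000) (nat_lit 0x0) (nat_lit 0x20001800080000000c00060002000000000000000000000000) := T_39 (nat_lit 180) (nat_lit 179) (nat_lit 1) (nat_lit 11) (nat_lit 10) L100945 (by decide +kernel)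
theorem L100947 : W_39 (nat_lit 6) (nat_lit 0x8002400120009000180000000000000000000000000000000) (nat_lit 0x0) (nat_lit 0x80024001800080000000c00060002000000000000000000000000) := T_39 (nat_lit 194) (nat_lit 211) (nat_lit 5) (nat_lit 8) (nat_lit 8) L100946 (by decide +kernel)
theorem L100948 : W_39 (nat_lit 12) (nat_lit 0x8000400120009000180000000000000000000000000000000) (nat_lit 0x0) (nat_lit 0x8001f000fe00e40078002d0004000e00070002800000000000000000000000) := Q_39 (nat_lit 181) (C_39 L100915 (C_39 L100920 (C_39 L100929 (C_39 L100936 (C_39 L100942 (C_39 L100947 N_39)))))) (by decide +kernel)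
theorem L100949 : W_39 (nat_lit 13) (nat_lit 0x8000400020009000180000000000000000000000000000000) (nat_lit 0x0) (nat_lit 0x8003f001fe03e403f800fd0074007e000f00078001c0008000000000000000) := Q_39 (nat_lit 164) (C_39 L100762 (C_39 L100773 (C_39 L100779 (C_39 L100852 (C_39 L100871 (C_39 L100882 (C_39 L100907 (C_39 L100908 (C_39 L100948 N_39))))))))) (by decide +kernel)
theorem L100950 : W_39 (nat_lit 14) (nat_lit 0x400020009000180000000000000000000000000000000) (nat_lit 0x0) (nat_lit 0x8003f001fe03ff03f800fd0074007e000f00078001c0008000000000000000) := Q_39 (nat_lit 195) (C_39 L100529 (C_39 L100725 (C_39 L100728 (C_39 L100949 N_39)))) (by decide +kernel)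
theorem L100951 : W_39 (nat_lit 2) (nat_lit 0xc000200090007c0000000000000000000000000000000) (nat_lit 0x0) (nat_lit 0x70000000000000000000000000000) := D_39 (nat_lit 113) (nat_lit 112) (nat_lit 114) (nat_lit 2) (nat_lit 7) (nat_lit 7) (nat_lit 2) (nat_lit 8) (nat_lit 7) (by decide +kernel)
theorem L100952 : W_39 (nat_lit 3) (nat_lit 0xc000200090003c0000000000000000000000000000000) (nat_lit 0x0) (nat_lit 0x10000400070000000000000000000000000000) := T_39 (nat_lit 130) (nat_lit 148) (nat_lit 3) (nat_lit 8) (nat_lit 7) L100951 (by decide +kernel)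
theorem L100953 : W_39 (nat_lit 4) (nat_lit 0xc000200090001c0000000000000000000000000000000) (nat_lit 0x0) (nat_lit 0x14000600070000000000000000000000000000) := T_39 (nat_lit 129) (nat_lit 146) (nat_lit 3) (nat_lit 7) (nat_lit 7) L100952 (by decide +kernel)
theorem L100954 : W_39 (nat_lit 5) (nat_lit 0xc00020009000180000000000000000000000000000000) (nat_lit 0x0) (nat_lit 0x14000640072000000000000000000000000000) := T_39 (nat_lit 126) (nat_lit 109) (nat_lit 4) (nat_lit 8) (nat_lit 10) L100953 (by decide +kernel)
theorem L100955 : W_39 (nat_lit 6) (nat_lit 0x400020009000180000000000000000000000000000000) (nat_lit 0x0) (nat_lit 0x10000800000014000640072000000000000000000000000000) := T_39 (nat_lit 179) (nat_lit 196) (nat_lit 7) (nat_lit 8) (nat_lit 7) L100954 (by decide +kernel)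
theorem L100956 : W_39 (nat_lit 2) (nat_lit 0x4000200090007c0000000000000000000000000000000) (nat_lit 0x0) (nat_lit 0x70000000000000000000000000000) := D_39 (nat_lit 113) (nat_lit 112) (nat_lit 114) (nat_lit 2) (nat_lit 7) (nat_lit 7) (nat_lit 2) (nat_lit 8) (nat_lit 7) (by decide +kernel)
theorem L100957 : W_39 (nat_lit 3) (nat_lit 0x4000200090003c0000000000000000000000000000000) (nat_lit 0x0) (nat_lit 0x10000400070000000000000000000000000000) := T_39 (nat_lit 130) (nat_lit 148) (nat_lit 3) (nat_lit 8) (nat_lit 7) L100956 (by decide +kernel)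
theorem L100958 : W_39 (nat_lit 4) (nat_lit 0x4000200090001c0000000000000000000000000000000) (nat_lit 0x0) (nat_lit 0x14000600070000000000000000000000000000) := T_39 (nat_lit 129) (nat_lit 146) (nat_lit 3) (nat_lit 7) (nat_lit 7) L100957 (by decide +kernel)
theorem L100959 : W_39 (nat_lit 5) (nat_lit 0x400020009000180000000000000000000000000000000) (nat_lit 0x0) (nat_lit 0x14000640072000000000000000000000000000) := T_39 (nat_lit 126) (nat_lit 109) (nat_lit 4) (nat_lit 8) (nat_lit 10) L100958 (by decide +kernel)
theorem L100960 : W_39 (nat_lit 3) (nat_lit 0x4000200090005c0000000000000000000000000000000) (nat_lit 0x0) (nat_lit 0x10000200070000000000000000000000000000) := T_39 (nat_lit 129) (nat_lit 148) (nat_lit 3) (nat_lit 8) (nat_lit 7) L100956 (by decide +kernel)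
theorem L100961 : W_39 (nat_lit 4) (nat_lit 0x400020009000580000000000000000000000000000000) (nat_lit 0x0) (nat_lit 0x10000240072000000000000000000000000000) := T_39 (nat_lit 126) (nat_lit 109) (nat_lit 4) (nat_lit 8) (nat_lit 10) L100960 (by decide +kernel)
theorem L100962 : W_39 (nat_lit 2) (nat_lit 0x88003c00020009000f80040000000100000000000000000000) (nat_lit 0x0) (nat_lit 0x100004000040000000000000000000000000000000000000000) := D_39 (nat_lit 182) (nat_lit 162) (nat_lit 200) (nat_lit 0) (nat_lit 12) (nat_lit 10) (nat_lit 3) (nat_lit 9) (nat_lit 10) (by decide +kernel)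
theorem L100963 : W_39 (nat_lit 3) (nat_lit 0x8003c00020009000f80040000000100000000000000000000) (nat_lit 0x0) (nat_lit 0x1c0004000040000000000000000000000000000000000000000) := T_39 (nat_lit 199) (nat_lit 198) (nat_lit 3) (nat_lit 8) (nat_lit 10) L100962 (by decide +kernel)
theorem L100964 : W_39 (nat_lit 4) (nat_lit 0x3c00020009000f80040000000100000000000000000000) (nat_lit 0x0) (nat_lit 0x1cc004000040000000000000000000000000000000000000000) := T_39 (nat_lit 195) (nat_lit 194) (nat_lit 1) (nat_lit 11) (nat_lit 10) L100963 (by decide +kernel)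
theorem L100965 : W_39 (nat_lit 5) (nat_lit 0x2c00020009000f80040000000100000000000000000000) (nat_lit 0x0) (nat_lit 0x1cc005000050000000000000000000000000000000000000000) := T_39 (nat_lit 180) (nat_lit 160) (nat_lit 0) (nat_lit 11) (nat_lit 10) L100964 (by decide +kernel)
theorem L100966 : W_39 (nat_lit 6) (nat_lit 0xc00020009000f80040000000100000000000000000000) (nat_lit 0x0) (nat_lit 0x1cc007000150000000000000000000000000000000000000000) := T_39 (nat_lit 181) (nat_lit 164) (nat_lit 6) (nat_lit 11) (nat_lit 10) L100965 (by decide +kernel)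
theorem L100967 : W_39 (nat_lit 7) (nat_lit 0xc00020009000f80040000000000000000000000000000) (nat_lit 0x0) (nat_lit 0x1cc007000150000000000000002000100000000000000000000) := T_39 (nat_lit 80) (nat_lit 97) (nat_lit 5) (nat_lit 12) (nat_lit 4) L100966 (by decide +kernel)
theorem L100968 : W_39 (nat_lit 8) (nat_lit 0xc00020009000780040000000000000000000000000000) (nat_lit 0x0) (nat_lit 0x1cc007000150000000800080002000100000000000000000000) := T_39 (nat_lit 131) (nat_lit 115) (nat_lit 2) (nat_lit 9) (nat_lit 7) L100967 (by decide +kernel)
theorem L100969 : W_39 (nat_lit 9) (nat_lit 0xc00020009000780000000000000000000000000000000) (nat_lit 0x0) (nat_lit 0x1cc0070001500000008000e0002000100000000000000000000) := T_39 (nat_lit 114) (nat_lit 113) (nat_lit 2) (nat_lit 8) (nat_lit 7) L100968 (by decide +kernel)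
theorem L100970 : W_39 (nat_lit 10) (nat_lit 0xc00020009000580000000000000000000000000000000) (nat_lit 0x0) (nat_lit 0x1cc007000150010000a000e0002000100000000000000000000) := T_39 (nat_lit 129) (nat_lit 148) (nat_lit 3) (nat_lit 8) (nat_lit 7) L100969 (by decide +kernel)
theorem L100971 : W_39 (nat_lit 11) (nat_lit 0x400020009000580000000000000000000000000000000) (nat_lit 0x0) (nat_lit 0x1dc007800150010000a000e0002000100000000000000000000) := T_39 (nat_lit 179) (nat_lit 196) (nat_lit 7) (nat_lit 8) (nat_lit 7) L100970 (by decide +kernel)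
theorem L100972 : W_39 (nat_lit 2) (nat_lit 0x8000400020009000580000000000000000000000000000000) (nat_lit 0x0) (nat_lit 0x200010000800000000000000000000000000000000000000000000) := D_39 (nat_lit 196) (nat_lit 179) (nat_lit 213) (nat_lit 7) (nat_lit 8) (nat_lit 7) (nat_lit 7) (nat_lit 8) (nat_lit 8) (by decide +kernel)
theorem L100973 : W_39 (nat_lit 2) (nat_lit 0x80034001200090005c0000000000000000000000000000000) (nat_lit 0x0) (nat_lit 0x10000800200000000000000000000000000000000000000000) := D_39 (nat_lit 179) (nat_lit 165) (nat_lit 196) (nat_lit 2) (nat_lit 8) (nat_lit 10) (nat_lit 7) (nat_lit 8) (nat_lit 7) (by decide +kernel)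
theorem L100974 : W_39 (nat_lit 3) (nat_lit 0x80024001200090005c0000000000000000000000000000000) (nat_lit 0x0) (nat_lit 0x30001800200000000000000000000000000000000000000000) := T_39 (nat_lit 180) (nat_lit 197) (nat_lit 5) (nat_lit 11) (nat_lit 7) L100973 (by decide +kernel)
theorem L100975 : W_39 (nat_lit 4) (nat_lit 0x8002400120009000580000000000000000000000000000000) (nat_lit 0x0) (nat_lit 0x30001800200000000040002000000000000000000000000000) := T_39 (nat_lit 126) (nat_lit 109) (nat_lit 4) (nat_lit 8) (nat_lit 10) L100974 (by decide +kernel)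
theorem L100976 : W_39 (nat_lit 5) (nat_lit 0x8000400120009000580000000000000000000000000000000) (nat_lit 0x0) (nat_lit 0x10000f0007800210010000840042000000000000000000000000000) := Q_39 (nat_lit 181) (C_39 L100756 (C_39 L100748 (C_39 L100975 N_39))) (by decide +kernel)
theorem L100977 : W_39 (nat_lit 2) (nat_lit 0x180008000c001600090005c0000000000000000000000000000000) (nat_lit 0x0) (nat_lit 0x280010000000000000000000000000000000000000) := D_39 (nat_lit 163) (nat_lit 148) (nat_lit 165) (nat_lit 2) (nat_lit 8) (nat_lit 9) (nat_lit 1) (nat_lit 12) (nat_lit 9) (by decide +kernel)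
theorem L100978 : W_39 (nat_lit 3) (nat_lit 0x180008000c001200090005c0000000000000000000000000000000) (nat_lit 0x0) (nat_lit 0x20000000000000002c0010000000000000000000000000000000000000) := T_39 (nat_lit 162) (nat_lit 229) (nat_lit 6) (nat_lit 8) (nat_lit 13) L100977 (by decide +kernel)
theorem L100979 : W_39 (nat_lit 4) (nat_lit 0x1800080004001200090005c0000000000000000000000000000000) (nat_lit 0x0) (nat_lit 0x20000000100008002c0010000000000000000000000000000000000000) := T_39 (nat_lit 179) (nat_lit 196) (nat_lit 7) (nat_lit 8) (nat_lit 7) L100978 (by decide +kernel)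
theorem L100980 : W_39 (nat_lit 5) (nat_lit 0x800080004001200090005c0000000000000000000000000000000) (nat_lit 0x0) (nat_lit 0x30001000100008002c0010000000000000000000000000000000000000) := T_39 (nat_lit 212) (nat_lit 228) (nat_lit 5) (nat_lit 8) (nat_lit 9) L100979 (by decide +kernel)
theorem L100981 : W_39 (nat_lit 6) (nat_lit 0x80008000400120009000580000000000000000000000000000000) (nat_lit 0x0) (nat_lit 0x30001000100008002c0010000040002000000000000000000000000000) := T_39 (nat_lit 126) (nat_lit 109) (nat_lit 4) (nat_lit 8) (nat_lit 10) L100980 (by decide +kernel)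
theorem L100982 : W_39 (nat_lit 7) (nat_lit 0x8000400120009000580000000000000000000000000000000) (nat_lit 0x0) (nat_lit 0x30001800140008002c0010000040002000000000000000000000000000) := T_39 (nat_lit 211) (nat_lit 194) (nat_lit 5) (nat_lit 8) (nat_lit 8) L100981 (by decide +kernel)
theorem L100983 : W_39 (nat_lit 2) (nat_lit 0xc000400320019000580070000000000000000000000000000) (nat_lit 0x0) (nat_lit 0x10000c0000000000000000000000000000000000000000) := D_39 (nat_lit 163) (nat_lit 180) (nat_lit 162) (nat_lit 5) (nat_lit 11) (nat_lit 6) (nat_lit 2) (nat_lit 8) (nat_lit 9) (by decide +kernel)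
theorem L100984 : W_39 (nat_lit 3) (nat_lit 0xc000400320009000580070000000000000000000000000000) (nat_lit 0x0) (nat_lit 0x10000c0010000000000001000000000000000000000000) := T_39 (nat_lit 148) (nat_lit 96) (nat_lit 7) (nat_lit 11) (nat_lit 5) L100983 (by decide +kernel)
theorem L100985 : W_39 (nat_lit 4) (nat_lit 0xc000400320009000580060000000000000000000000000000) (nat_lit 0x0) (nat_lit 0x10000c0010000000010001800000000000000000000000) := T_39 (nat_lit 112) (nat_lit 95) (nat_lit 4) (nat_lit 11) (nat_lit 9) L100984 (by decide +kernel)
theorem L100986 : W_39 (nat_lit 5) (nat_lit 0xc000400120009000580060000000000000000000000000000) (nat_lit 0x0) (nat_lit 0x50002c0010000000010001800000000000000000000000) := T_39 (nat_lit 165) (nat_lit 182) (nat_lit 7) (nat_lit 11) (nat_lit 6) L100985 (by decide +kernel)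
theorem L100987 : W_39 (nat_lit 6) (nat_lit 0xc000400120009000580020000000000000000000000000000) (nat_lit 0x0) (nat_lit 0x50002c0010000000050003800000000000000000000000) := T_39 (nat_lit 114) (nat_lit 97) (nat_lit 6) (nat_lit 11) (nat_lit 9) L100986 (by decide +kernel)
theorem L100988 : W_39 (nat_lit 7) (nat_lit 0x8000400120009000580020000000000000000000000000000) (nat_lit 0x0) (nat_lit 0x800040050002c0010000000050003800000000000000000000000) := T_39 (nat_lit 194) (nat_lit 211) (nat_lit 5) (nat_lit 8) (nat_lit 8) L100987 (by decide +kernel)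
theorem L100989 : W_39 (nat_lit 2) (nat_lit 0xc0004001e0009000580020003000000000000000000000000) (nat_lit 0x0) (nat_lit 0x10000800040000000000000000000) := D_39 (nat_lit 95) (nat_lit 78) (nat_lit 112) (nat_lit 4) (nat_lit 11) (nat_lit 8) (nat_lit 4) (nat_lit 11) (nat_lit 9) (by decide +kernel)
theorem L100990 : W_39 (nat_lit 3) (nat_lit 0xc0004001e0009000580020002000000000000000000000000) (nat_lit 0x0) (nat_lit 0x10001800140000000000000000000) := T_39 (nat_lit 96) (nat_lit 80) (nat_lit 6) (nat_lit 11) (nat_lit 8) L100989 (by decide +kernel)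
theorem L100991 : W_39 (nat_lit 4) (nat_lit 0x80004001e0009000580020002000000000000000000000000) (nat_lit 0x0) (nat_lit 0x80004000000000000000000010001800140000000000000000000) := T_39 (nat_lit 194) (nat_lit 211) (nat_lit 5) (nat_lit 8) (nat_lit 8) L100990 (by decide +kernel)
theorem L100992 : W_39 (nat_lit 5) (nat_lit 0x80004001e0009000580020000000000000000000000000000) (nat_lit 0x0) (nat_lit 0x80004000000000000000000050003800140000000000000000000) := T_39 (nat_lit 97) (nat_lit 114) (nat_lit 6) (nat_lit 11) (nat_lit 9) L100991 (by decide +kernel)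
theorem L100993 : W_39 (nat_lit 6) (nat_lit 0x80004001a0009000580020000000000000000000000000000) (nat_lit 0x0) (nat_lit 0x80004000000040010000000050003800140000000000000000000) := T_39 (nat_lit 162) (nat_lit 148) (nat_lit 2) (nat_lit 8) (nat_lit 9) L100992 (by decide +kernel)
theorem L100994 : W_39 (nat_lit 7) (nat_lit 0x8000400120009000580020000000000000000000000000000) (nat_lit 0x0) (nat_lit 0x800040010000c0010000000050003800140000000000000000000) := T_39 (nat_lit 163) (nat_lit 180) (nat_lit 5) (nat_lit 11) (nat_lit 6) L100993 (by decide +kernel)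
theorem L100995 : W_39 (nat_lit 2) (nat_lit 0x80004001e0009000580030000000000000000000000000000) (nat_lit 0x0) (nat_lit 0x6000200000000000000000000000000000000000000000) := D_39 (nat_lit 182) (nat_lit 181) (nat_lit 165) (nat_lit 3) (nat_lit 8) (nat_lit 9) (nat_lit 7) (nat_lit 11) (nat_lit 6) (by decide +kernel)
theorem L100996 : W_39 (nat_lit 3) (nat_lit 0x80004001a0009000580030000000000000000000000000000) (nat_lit 0x0) (nat_lit 0x6000240010000000000000000000000000000000000000) := T_39 (nat_lit 162) (nat_lit 148) (nat_lit 2) (nat_lit 8) (nat_lit 9) L100995 (by decide +kernel)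
theorem L100997 : W_39 (nat_lit 4) (nat_lit 0x8000400120009000580030000000000000000000000000000) (nat_lit 0x0) (nat_lit 0x70002c0010000000000000000000000000000000000000) := T_39 (nat_lit 163) (nat_lit 180) (nat_lit 5) (nat_lit 11) (nat_lit 6) L100996 (by decide +kernel)
theorem L100998 : W_39 (nat_lit 5) (nat_lit 0x8000400120009000580020000000000000000000000000000) (nat_lit 0x0) (nat_lit 0x70002c0010000000010000800000000000000000000000) := T_39 (nat_lit 112) (nat_lit 95) (nat_lit 4) (nat_lit 11) (nat_lit 9) L100997 (by decide +kernel)
theorem L100999 : W_39 (nat_lit 8) (nat_lit 0x8000400120009000580000000000000000000000000000000) (nat_lit 0x0) (nat_lit 0x800840070002c0010000800070003800140000000000000000000) := Q_39 (nat_lit 113) (C_39 L100828 (C_39 L100988 (C_39 L100994 (C_39 L100998 N_39)))) (by decide +kernel)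
theorem L101000 : W_39 (nat_lit 2) (nat_lit 0x200000000d006c001600090005c0020000000000000000000000000000) (nat_lit 0x0) (nat_lit 0x800040002000000000000000000000000) := D_39 (nat_lit 114) (nat_lit 131) (nat_lit 97) (nat_lit 6) (nat_lit 11) (nat_lit 10) (nat_lit 6) (nat_lit 11) (nat_lit 9) (by decide +kernel)
theorem L101001 : W_39 (nat_lit 3) (nat_lit 0x200000000d006c001600090005c0000000000000000000000000000000) (nat_lit 0x0) (nat_lit 0x200000000800060002000000000000000000000000) := T_39 (nat_lit 113) (nat_lit 165) (nat_lit 7) (nat_lit 11) (nat_lit 6) L101000 (by decide +kernel)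
theorem L101002 : W_39 (nat_lit 4) (nat_lit 0xd006c001600090005c0000000000000000000000000000000) (nat_lit 0x0) (nat_lit 0x2000100000000000200000000800060002000000000000000000000000) := T_39 (nat_lit 229) (nat_lit 212) (nat_lit 6) (nat_lit 8) (nat_lit 13) L101001 (by decide +kernel)
theorem L101003 : W_39 (nat_lit 5) (nat_lit 0xd006c001200090005c0000000000000000000000000000000) (nat_lit 0x0) (nat_lit 0x20001000000000002c0000000800060002000000000000000000000000) := T_39 (nat_lit 162) (nat_lit 163) (nat_lit 3) (nat_lit 8) (nat_lit 9) L101002 (by decide +kernel)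
theorem L101004 : W_39 (nat_lit 6) (nat_lit 0xd002c001200090005c0000000000000000000000000000000) (nat_lit 0x0) (nat_lit 0x20001000800040002c0000000800060002000000000000000000000000) := T_39 (nat_lit 182) (nat_lit 199) (nat_lit 7) (nat_lit 11) (nat_lit 7) L101003 (by decide +kernel)
theorem L101005 : W_39 (nat_lit 7) (nat_lit 0xd002c00120009000580000000000000000000000000000000) (nat_lit 0x0) (nat_lit 0x20001000800040002c0000000840062002000000000000000000000000) := T_39 (nat_lit 126) (nat_lit 109) (nat_lit 4) (nat_lit 8) (nat_lit 10) L101004 (by decide +kernel)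
theorem L101006 : W_39 (nat_lit 8) (nat_lit 0xd000c00120009000580000000000000000000000000000000) (nat_lit 0x0) (nat_lit 0x20001000800070002c0000000840062002000000000000000000000000) := T_39 (nat_lit 181) (nat_lit 180) (nat_lit 1) (nat_lit 11) (nat_lit 10) L101005 (by decide +kernel)
theorem L101007 : W_39 (nat_lit 9) (nat_lit 0xc000c00120009000580000000000000000000000000000000) (nat_lit 0x0) (nat_lit 0x20001000830070002c0000000840062002000000000000000000000000) := T_39 (nat_lit 192) (nat_lit 193) (nat_lit 2) (nat_lit 5) (nat_lit 11) L101006 (by decide +kernel)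
theorem L101008 : W_39 (nat_lit 10) (nat_lit 0xc000400120009000580000000000000000000000000000000) (nat_lit 0x0) (nat_lit 0x20001000930078002c0000000840062002000000000000000000000000) := T_39 (nat_lit 179) (nat_lit 196) (nat_lit 7) (nat_lit 8) (nat_lit 7) L101007 (by decide +kernel)
theorem L101009 : W_39 (nat_lit 11) (nat_lit 0x8000400120009000580000000000000000000000000000000) (nat_lit 0x0) (nat_lit 0x20001800970078002c0000000840062002000000000000000000000000) := T_39 (nat_lit 194) (nat_lit 211) (nat_lit 5) (nat_lit 8) (nat_lit 8) L101008 (by decide +kernel)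
theorem L101010 : W_39 (nat_lit 12) (nat_lit 0x8000400020009000580000000000000000000000000000000) (nat_lit 0x0) (nat_lit 0x30011800f70078003d0010000840072003800140000000000000000000) := Q_39 (nat_lit 164) (C_39 L100976 (C_39 L100749 (C_39 L100982 (C_39 L100999 (C_39 L101009 N_39))))) (by decide +kernel)
theorem L101011 : W_39 (nat_lit 2) (nat_lit 0x2800080004000200090005c0000000000000000000000000000000) (nat_lit 0x0) (nat_lit 0x5000100000000000000000000000000000000000000000000000000000) := D_39 (nat_lit 212) (nat_lit 228) (nat_lit 230) (nat_lit 5) (nat_lit 8) (nat_lit 9) (nat_lit 7) (nat_lit 8) (nat_lit 9) (by decide +kernel)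
theorem L101012 : W_39 (nat_lit 3) (nat_lit 0x800080004000200090005c0000000000000000000000000000000) (nat_lit 0x0) (nat_lit 0x5000300010000000000000000000000000000000000000000000000000) := T_39 (nat_lit 213) (nat_lit 196) (nat_lit 7) (nat_lit 8) (nat_lit 8) L101011 (by decide +kernel)
theorem L101013 : W_39 (nat_lit 4) (nat_lit 0x80004000200090005c0000000000000000000000000000000) (nat_lit 0x0) (nat_lit 0x5000380014000000000000000000000000000000000000000000000000) := T_39 (nat_lit 211) (nat_lit 194) (nat_lit 5) (nat_lit 8) (nat_lit 8) L101012 (by decide +kernel)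
theorem L101014 : W_39 (nat_lit 5) (nat_lit 0x8000400020009000580000000000000000000000000000000) (nat_lit 0x0) (nat_lit 0x5000380014000000000000000040002000000000000000000000000000) := T_39 (nat_lit 126) (nat_lit 109) (nat_lit 4) (nat_lit 8) (nat_lit 10) L101013 (by decide +kernel)
theorem L101015 : W_39 (nat_lit 2) (nat_lit 0x80034001200090005c0000000000000000000000000000000) (nat_lit 0x0) (nat_lit 0x4000800200000000000000000000000000000000000000000) := D_39 (nat_lit 179) (nat_lit 165) (nat_lit 194) (nat_lit 2) (nat_lit 8) (nat_lit 10) (nat_lit 1) (nat_lit 11) (nat_lit 10) (by decide +kernel)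
theorem L101016 : W_39 (nat_lit 3) (nat_lit 0x80024001200090005c0000000000000000000000000000000) (nat_lit 0x0) (nat_lit 0x24001800200000000000000000000000000000000000000000) := T_39 (nat_lit 180) (nat_lit 197) (nat_lit 5) (nat_lit 11) (nat_lit 7) L101015 (by decide +kernel)
theorem L101017 : W_39 (nat_lit 4) (nat_lit 0x8002400120009000580000000000000000000000000000000) (nat_lit 0x0) (nat_lit 0x24001800200000000040002000000000000000000000000000) := T_39 (nat_lit 126) (nat_lit 109) (nat_lit 4) (nat_lit 8) (nat_lit 10) L101016 (by decide +kernel)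
theorem L101018 : W_39 (nat_lit 5) (nat_lit 0x8000400120009000580000000000000000000000000000000) (nat_lit 0x0) (nat_lit 0x10000e4007800210010000840042000000000000000000000000000) := Q_39 (nat_lit 181) (C_39 L100756 (C_39 L100748 (C_39 L101017 N_39))) (by decide +kernel)
theorem L101019 : W_39 (nat_lit 2) (nat_lit 0x160001a00080044001e00090005c0000000000000000000000000000000) (nat_lit 0x0) (nat_lit 0x8000200000000000020000000000000000000000000000) := D_39 (nat_lit 165) (nat_lit 183) (nat_lit 113) (nat_lit 3) (nat_lit 9) (nat_lit 9) (nat_lit 7) (nat_lit 11) (nat_lit 6) (by decide +kernel)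
theorem L101020 : W_39 (nat_lit 3) (nat_lit 0x160001a00080004001e00090005c0000000000000000000000000000000) (nat_lit 0x0) (nat_lit 0xe000200000000000020000000000000000000000000000) := T_39 (nat_lit 182) (nat_lit 181) (nat_lit 3) (nat_lit 8) (nat_lit 9) L101019 (by decide +kernel)
theorem L101021 : W_39 (nat_lit 4) (nat_lit 0x160001a00080004001600090005c0000000000000000000000000000000) (nat_lit 0x0) (nat_lit 0xe000280010000000020000000000000000000000000000) := T_39 (nat_lit 163) (nat_lit 148) (nat_lit 2) (nat_lit 8) (nat_lit 9) L101020 (by decide +kernel)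
theorem L101022 : W_39 (nat_lit 5) (nat_lit 0x60001a00080004001600090005c0000000000000000000000000000000) (nat_lit 0x0) (nat_lit 0x1800000000000e000280010000000020000000000000000000000000000) := T_39 (nat_lit 232) (nat_lit 231) (nat_lit 0) (nat_lit 11) (nat_lit 13) L101021 (by decide +kernel)
theorem L101023 : W_39 (nat_lit 6) (nat_lit 0x60001a00080004001200090005c0000000000000000000000000000000) (nat_lit 0x0) (nat_lit 0x1800000000000e8002c0010000000020000000000000000000000000000) := T_39 (nat_lit 162) (nat_lit 179) (nat_lit 6) (nat_lit 8) (nat_lit 13) L101022 (by decide +kernel)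
theorem L101024 : W_39 (nat_lit 7) (nat_lit 0x60001800080004001200090005c0000000000000000000000000000000) (nat_lit 0x0) (nat_lit 0x1800006000000e8002c0010000000020000000000000000000000000000) := T_39 (nat_lit 209) (nat_lit 210) (nat_lit 3) (nat_lit 5) (nat_lit 12) L101023 (by decide +kernel)
theorem L101025 : W_39 (nat_lit 8) (nat_lit 0x40001800080004001200090005c0000000000000000000000000000000) (nat_lit 0x0) (nat_lit 0x8001a00006000000e8002c0010000000020000000000000000000000000000) := T_39 (nat_lit 229) (nat_lit 247) (nat_lit 7) (nat_lit 8) (nat_lit 10) L101024 (by decide +kernel)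
theorem L101026 : W_39 (nat_lit 9) (nat_lit 0x1800080004001200090005c0000000000000000000000000000000) (nat_lit 0x0) (nat_lit 0x8001e00026000000e8002c0010000000020000000000000000000000000000) := T_39 (nat_lit 230) (nat_lit 213) (nat_lit 7) (nat_lit 8) (nat_lit 9) L101025 (by decide +kernel)
theorem L101027 : W_39 (nat_lit 10) (nat_lit 0x800080004001200090005c0000000000000000000000000000000) (nat_lit 0x0) (nat_lit 0x8001f00036000000e8002c0010000000020000000000000000000000000000) := T_39 (nat_lit 212) (nat_lit 228) (nat_lit 5) (nat_lit 8) (nat_lit 9) L101026 (by decide +kernel)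
theorem L101028 : W_39 (nat_lit 11) (nat_lit 0x80008000400120009000580000000000000000000000000000000) (nat_lit 0x0) (nat_lit 0x8001f00036000000e8002c0010000040022000000000000000000000000000) := T_39 (nat_lit 126) (nat_lit 109) (nat_lit 4) (nat_lit 8) (nat_lit 10) L101027 (by decide +kernel)
theorem L101029 : W_39 (nat_lit 12) (nat_lit 0x8000400120009000580000000000000000000000000000000) (nat_lit 0x0) (nat_lit 0x8001f0003e000400e8002c0010000040022000000000000000000000000000) := T_39 (nat_lit 211) (nat_lit 194) (nat_lit 5) (nat_lit 8) (nat_lit 8) L101028 (by decide +kernel)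
theorem L101030 : W_39 (nat_lit 2) (nat_lit 0x80034001200090005c0000000000000000000000000000000) (nat_lit 0x0) (nat_lit 0x800210000000000000000000000000000000000000000) := D_39 (nat_lit 179) (nat_lit 165) (nat_lit 160) (nat_lit 2) (nat_lit 8) (nat_lit 10) (nat_lit 0) (nat_lit 11) (nat_lit 10) (by decide +kernel)
theorem L101031 : W_39 (nat_lit 3) (nat_lit 0x80024001200090005c0000000000000000000000000000000) (nat_lit 0x0) (nat_lit 0x20001800210000000000000000000000000000000000000000) := T_39 (nat_lit 180) (nat_lit 197) (nat_lit 5) (nat_lit 11) (nat_lit 7) L101030 (by decide +kernel)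
theorem L101032 : W_39 (nat_lit 4) (nat_lit 0x8002400120009000580000000000000000000000000000000) (nat_lit 0x0) (nat_lit 0x20001800210000000040002000000000000000000000000000) := T_39 (nat_lit 126) (nat_lit 109) (nat_lit 4) (nat_lit 8) (nat_lit 10) L101031 (by decide +kernel)
theorem L101033 : W_39 (nat_lit 5) (nat_lit 0x8000400120009000580000000000000000000000000000000) (nat_lit 0x0) (nat_lit 0x10000e0007800210010000840042000000000000000000000000000) := Q_39 (nat_lit 181) (C_39 L100756 (C_39 L100748 (C_39 L101032 N_39))) (by decide +kernel)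
theorem L101034 : W_39 (nat_lit 2) (nat_lit 0x60001800080004001e00090005c0020002800000000000000000000000) (nat_lit 0x0) (nat_lit 0x1000140000000000000000000) := D_39 (nat_lit 96) (nat_lit 78) (nat_lit 80) (nat_lit 4) (nat_lit 11) (nat_lit 8) (nat_lit 6) (nat_lit 11) (nat_lit 8) (by decide +kernel)
theorem L101035 : W_39 (nat_lit 3) (nat_lit 0x60001800080004001e00090005c0020000800000000000000000000000) (nat_lit 0x0) (nat_lit 0x40003000140000000000000000000) := T_39 (nat_lit 97) (nat_lit 114) (nat_lit 6) (nat_lit 11) (nat_lit 9) L101034 (by decide +kernel)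
theorem L101036 : W_39 (nat_lit 4) (nat_lit 0x60001800080004001e00090005c0020000000000000000000000000000) (nat_lit 0x0) (nat_lit 0x50003800140000000000000000000) := T_39 (nat_lit 95) (nat_lit 112) (nat_lit 4) (nat_lit 11) (nat_lit 9) L101035 (by decide +kernel)
theorem L101037 : W_39 (nat_lit 5) (nat_lit 0x60001800080004001e00090005c0000000000000000000000000000000) (nat_lit 0x0) (nat_lit 0x1000000000000000070003800140000000000000000000) := T_39 (nat_lit 113) (nat_lit 180) (nat_lit 5) (nat_lit 11) (nat_lit 6) L101036 (by decide +kernel)
theorem L101038 : W_39 (nat_lit 6) (nat_lit 0x60001800080004001600090005c0000000000000000000000000000000) (nat_lit 0x0) (nat_lit 0x1000080010000000070003800140000000000000000000) := T_39 (nat_lit 163) (nat_lit 148) (nat_lit 2) (nat_lit 8) (nat_lit 9) L101037 (by decide +kernel)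
theorem L101039 : W_39 (nat_lit 7) (nat_lit 0x60001800080004001200090005c0000000000000000000000000000000) (nat_lit 0x0) (nat_lit 0x18000c0010000000070003800140000000000000000000) := T_39 (nat_lit 162) (nat_lit 179) (nat_lit 6) (nat_lit 8) (nat_lit 13) L101038 (by decide +kernel)
theorem L101040 : W_39 (nat_lit 8) (nat_lit 0x40001800080004001200090005c0000000000000000000000000000000) (nat_lit 0x0) (nat_lit 0x800020000000000018000c0010000000070003800140000000000000000000) := T_39 (nat_lit 229) (nat_lit 247) (nat_lit 7) (nat_lit 8) (nat_lit 10) L101039 (by decide +kernel)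
theorem L101041 : W_39 (nat_lit 9) (nat_lit 0x1800080004001200090005c0000000000000000000000000000000) (nat_lit 0x0) (nat_lit 0x800060002000000018000c0010000000070003800140000000000000000000) := T_39 (nat_lit 230) (nat_lit 213) (nat_lit 7) (nat_lit 8) (nat_lit 9) L101040 (by decide +kernel)
theorem L101042 : W_39 (nat_lit 10) (nat_lit 0x800080004001200090005c0000000000000000000000000000000) (nat_lit 0x0) (nat_lit 0x800070003000000018000c0010000000070003800140000000000000000000) := T_39 (nat_lit 212) (nat_lit 228) (nat_lit 5) (nat_lit 8) (nat_lit 9) L101041 (by decide +kernel)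
theorem L101043 : W_39 (nat_lit 11) (nat_lit 0x80004001200090005c0000000000000000000000000000000) (nat_lit 0x0) (nat_lit 0x800070003800040018000c0010000000070003800140000000000000000000) := T_39 (nat_lit 211) (nat_lit 194) (nat_lit 5) (nat_lit 8) (nat_lit 8) L101042 (by decide +kernel)
theorem L101044 : W_39 (nat_lit 12) (nat_lit 0x8000400120009000580000000000000000000000000000000) (nat_lit 0x0) (nat_lit 0x800070003800040018000c0010000040072003800140000000000000000000) := T_39 (nat_lit 126) (nat_lit 109) (nat_lit 4) (nat_lit 8) (nat_lit 10) L101043 (by decide +kernel)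
theorem L101045 : W_39 (nat_lit 7) (nat_lit 0x8000400120009000580000000000000000000000000000000) (nat_lit 0x0) (nat_lit 0x800a40078002d0000000840062002000000000000000000000000) := Q_39 (nat_lit 181) (C_39 L101032 (C_39 L100941 (C_39 L100745 N_39))) (by decide +kernel)
theorem L101046 : W_39 (nat_lit 13) (nat_lit 0x8000400020009000580000000000000000000000000000000) (nat_lit 0x0) (nat_lit 0x8001f0013e00e400f8003d0010000840072003800140000000000000000000) := Q_39 (nat_lit 164) (C_39 L101018 (C_39 L100999 (C_39 L101029 (C_39 L101033 (C_39 L101044 (C_39 L101045 N_39)))))) (by decide +kernel)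
theorem L101047 : W_39 (nat_lit 14) (nat_lit 0x400020009000580000000000000000000000000000000) (nat_lit 0x0) (nat_lit 0x8001f0013e00ff00f8003d0010000840072003800140000000000000000000) := Q_39 (nat_lit 195) (C_39 L100972 (C_39 L101010 (C_39 L101014 (C_39 L101046 N_39)))) (by decide +kernel)
theorem L101048 : W_39 (nat_lit 2) (nat_lit 0xc00020009000780020000000000000000000000000000) (nat_lit 0x0) (nat_lit 0x40012000000000000000000000000000) := D_39 (nat_lit 126) (nat_lit 112) (nat_lit 109) (nat_lit 2) (nat_lit 7) (nat_lit 7) (nat_lit 4) (nat_lit 8) (nat_lit 10) (by decide +kernel)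
theorem L101049 : W_39 (nat_lit 3) (nat_lit 0xc00020009000580020000000000000000000000000000) (nat_lit 0x0) (nat_lit 0x240052000000000000000000000000000) := T_39 (nat_lit 129) (nat_lit 114) (nat_lit 2) (nat_lit 8) (nat_lit 7) L101048 (by decide +kernel)
theorem L101050 : W_39 (nat_lit 4) (nat_lit 0x400020009000580020000000000000000000000000000) (nat_lit 0x0) (nat_lit 0x10000800000000000240052000000000000000000000000000) := T_39 (nat_lit 179) (nat_lit 196) (nat_lit 7) (nat_lit 8) (nat_lit 7) L101049 (by decide +kernel)
theorem L101051 : W_39 (nat_lit 2) (nat_lit 0x2c00120009000580060000000000000000000000000000) (nat_lit 0x0) (nat_lit 0x80004000200000000000000000000000000000000000000000) := D_39 (nat_lit 182) (nat_lit 199) (nat_lit 165) (nat_lit 7) (nat_lit 11) (nat_lit 7) (nat_lit 7) (nat_lit 11) (nat_lit 6) (by decide +kernel)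
theorem L101052 : W_39 (nat_lit 3) (nat_lit 0xc00120009000580060000000000000000000000000000) (nat_lit 0x0) (nat_lit 0x80006000200000000800000000000000000000000000000000) := T_39 (nat_lit 181) (nat_lit 131) (nat_lit 6) (nat_lit 11) (nat_lit 10) L101051 (by decide +kernel)
theorem L101053 : W_39 (nat_lit 4) (nat_lit 0xc00020009000580060000000000000000000000000000) (nat_lit 0x0) (nat_lit 0x80006000300000000800000002000000000000000000000000) := T_39 (nat_lit 164) (nat_lit 97) (nat_lit 6) (nat_lit 11) (nat_lit 9) L101052 (by decide +kernel)
theorem L101054 : W_39 (nat_lit 5) (nat_lit 0xc00020009000580020000000000000000000000000000) (nat_lit 0x0) (nat_lit 0x80006000300000000a00040002000000000000000000000000) := T_39 (nat_lit 114) (nat_lit 129) (nat_lit 2) (nat_lit 8) (nat_lit 7) L101053 (by decide +kernel)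
theorem L101055 : W_39 (nat_lit 6) (nat_lit 0x400020009000580020000000000000000000000000000) (nat_lit 0x0) (nat_lit 0x90006800300000000a00040002000000000000000000000000) := T_39 (nat_lit 179) (nat_lit 196) (nat_lit 7) (nat_lit 8) (nat_lit 7) L101054 (by decide +kernel)
theorem L101056 : W_39 (nat_lit 2) (nat_lit 0x400020009000780020000000000000000000000000000) (nat_lit 0x0) (nat_lit 0x40012000000000000000000000000000) := D_39 (nat_lit 126) (nat_lit 112) (nat_lit 109) (nat_lit 2) (nat_lit 7) (nat_lit 7) (nat_lit 4) (nat_lit 8) (nat_lit 10) (by decide +kernel)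
theorem L101057 : W_39 (nat_lit 3) (nat_lit 0x400020009000580020000000000000000000000000000) (nat_lit 0x0) (nat_lit 0x240052000000000000000000000000000) := T_39 (nat_lit 129) (nat_lit 114) (nat_lit 2) (nat_lit 8) (nat_lit 7) L101056 (by decide +kernel)
theorem L101058 : W_39 (nat_lit 2) (nat_lit 0x24001200090005c0060000000000000000000000000000) (nat_lit 0x0) (nat_lit 0x80004000200000000000000000000000000000000000000000) := D_39 (nat_lit 182) (nat_lit 199) (nat_lit 165) (nat_lit 7) (nat_lit 11) (nat_lit 7) (nat_lit 7) (nat_lit 11) (nat_lit 6) (by decide +kernel)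
theorem L101059 : W_39 (nat_lit 3) (nat_lit 0x4001200090005c0060000000000000000000000000000) (nat_lit 0x0) (nat_lit 0x80006000200000000800000000000000000000000000000000) := T_39 (nat_lit 181) (nat_lit 131) (nat_lit 6) (nat_lit 11) (nat_lit 10) L101058 (by decide +kernel)
theorem L101060 : W_39 (nat_lit 4) (nat_lit 0x4001200090005c0020000000000000000000000000000) (nat_lit 0x0) (nat_lit 0x80006000200000000800040002000000000000000000000000) := T_39 (nat_lit 114) (nat_lit 97) (nat_lit 6) (nat_lit 11) (nat_lit 9) L101059 (by decide +kernel)
theorem L101061 : W_39 (nat_lit 5) (nat_lit 0x400120009000580020000000000000000000000000000) (nat_lit 0x0) (nat_lit 0x80006000200000000840042002000000000000000000000000) := T_39 (nat_lit 126) (nat_lit 109) (nat_lit 4) (nat_lit 8) (nat_lit 10) L101060 (by decide +kernel)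
theorem L101062 : W_39 (nat_lit 2) (nat_lit 0x2400320009000580060000000000000000000000000000) (nat_lit 0x0) (nat_lit 0x20001000080000000000000000000000000000000000000000) := D_39 (nat_lit 180) (nat_lit 197) (nat_lit 163) (nat_lit 5) (nat_lit 11) (nat_lit 7) (nat_lit 5) (nat_lit 11) (nat_lit 6) (by decide +kernel)
theorem L101063 : W_39 (nat_lit 3) (nat_lit 0x400320009000580060000000000000000000000000000) (nat_lit 0x0) (nat_lit 0x20003000080000000800000000000000000000000000000000) := T_39 (nat_lit 181) (nat_lit 131) (nat_lit 6) (nat_lit 11) (nat_lit 10) L101062 (by decide +kernel)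
theorem L101064 : W_39 (nat_lit 4) (nat_lit 0x400320009000580020000000000000000000000000000) (nat_lit 0x0) (nat_lit 0x20003000080000000800040002000000000000000000000000) := T_39 (nat_lit 114) (nat_lit 97) (nat_lit 6) (nat_lit 11) (nat_lit 9) L101063 (by decide +kernel)
theorem L101065 : W_39 (nat_lit 5) (nat_lit 0x400120009000580020000000000000000000000000000) (nat_lit 0x0) (nat_lit 0x20007000280000000800040002000000000000000000000000) := T_39 (nat_lit 165) (nat_lit 182) (nat_lit 7) (nat_lit 11) (nat_lit 6) L101064 (by decide +kernel)
theorem L101066 : W_39 (nat_lit 2) (nat_lit 0x4003a00090005c0070000000000000000000000000000) (nat_lit 0x0) (nat_lit 0x10000800040000000000000000000000000000000000000000) := D_39 (nat_lit 179) (nat_lit 162) (nat_lit 196) (nat_lit 1) (nat_lit 12) (nat_lit 9) (nat_lit 7) (nat_lit 8) (nat_lit 7) (by decide +kernel)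
theorem L101067 : W_39 (nat_lit 3) (nat_lit 0x4003200090005c0070000000000000000000000000000) (nat_lit 0x0) (nat_lit 0x100018000c0000000000000000000000000000000000000000) := T_39 (nat_lit 163) (nat_lit 180) (nat_lit 5) (nat_lit 11) (nat_lit 6) L101066 (by decide +kernel)
theorem L101068 : W_39 (nat_lit 4) (nat_lit 0x4003200090005c0030000000000000000000000000000) (nat_lit 0x0) (nat_lit 0x100018000c0000000000040002000000000000000000000000) := T_39 (nat_lit 114) (nat_lit 97) (nat_lit 6) (nat_lit 11) (nat_lit 9) L101067 (by decide +kernel)
theorem L101069 : W_39 (nat_lit 5) (nat_lit 0x4001200090005c0030000000000000000000000000000) (nat_lit 0x0) (nat_lit 0x100058002c0000000000040002000000000000000000000000) := T_39 (nat_lit 165) (nat_lit 182) (nat_lit 7) (nat_lit 11) (nat_lit 6) L101068 (by decide +kernel)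
theorem L101070 : W_39 (nat_lit 6) (nat_lit 0x400120009000580030000000000000000000000000000) (nat_lit 0x0) (nat_lit 0x100058002c0000000040042002000000000000000000000000) := T_39 (nat_lit 126) (nat_lit 109) (nat_lit 4) (nat_lit 8) (nat_lit 10) L101069 (by decide +kernel)
theorem L101071 : W_39 (nat_lit 7) (nat_lit 0x400120009000580020000000000000000000000000000) (nat_lit 0x0) (nat_lit 0x100058002c0000000040052002800000000000000000000000) := T_39 (nat_lit 112) (nat_lit 95) (nat_lit 4) (nat_lit 11) (nat_lit 9) L101070 (by decide +kernel)
theorem L101072 : W_39 (nat_lit 2) (nat_lit 0x2c001200090005c0070000000000000000000000000000) (nat_lit 0x0) (nat_lit 0x20001000080000000000000000000000000000000000000000) := D_39 (nat_lit 180) (nat_lit 197) (nat_lit 163) (nat_lit 5) (nat_lit 11) (nat_lit 7) (nat_lit 5) (nat_lit 11) (nat_lit 6) (by decide +kernel)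
theorem L101073 : W_39 (nat_lit 3) (nat_lit 0xc001200090005c0070000000000000000000000000000) (nat_lit 0x0) (nat_lit 0x20003000080000000800000000000000000000000000000000) := T_39 (nat_lit 181) (nat_lit 131) (nat_lit 6) (nat_lit 11) (nat_lit 10) L101072 (by decide +kernel)
theorem L101074 : W_39 (nat_lit 4) (nat_lit 0xc001200090005c0030000000000000000000000000000) (nat_lit 0x0) (nat_lit 0x20003000080000000800040002000000000000000000000000) := T_39 (nat_lit 114) (nat_lit 97) (nat_lit 6) (nat_lit 11) (nat_lit 9) L101073 (by decide +kernel)
theorem L101075 : W_39 (nat_lit 5) (nat_lit 0xc001200090005c0020000000000000000000000000000) (nat_lit 0x0) (nat_lit 0x20003000080000000800050002800000000000000000000000) := T_39 (nat_lit 112) (nat_lit 95) (nat_lit 4) (nat_lit 11) (nat_lit 9) L101074 (by decide +kernel)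
theorem L101076 : W_39 (nat_lit 6) (nat_lit 0xc00120009000580020000000000000000000000000000) (nat_lit 0x0) (nat_lit 0x20003000080000000840052002800000000000000000000000) := T_39 (nat_lit 126) (nat_lit 109) (nat_lit 4) (nat_lit 8) (nat_lit 10) L101075 (by decide +kernel)
theorem L101077 : W_39 (nat_lit 7) (nat_lit 0x400120009000580020000000000000000000000000000) (nat_lit 0x0) (nat_lit 0x30003800080000000840052002800000000000000000000000) := T_39 (nat_lit 179) (nat_lit 196) (nat_lit 7) (nat_lit 8) (nat_lit 7) L101076 (by decide +kernel)
theorem L101078 : W_39 (nat_lit 2) (nat_lit 0xc001a0009000580020000000000000000000000000000) (nat_lit 0x0) (nat_lit 0x4000240000000000000000000000000000000000000000) := D_39 (nat_lit 165) (nat_lit 162) (nat_lit 182) (nat_lit 1) (nat_lit 12) (nat_lit 9) (nat_lit 7) (nat_lit 11) (nat_lit 6) (by decide +kernel)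
theorem L101079 : W_39 (nat_lit 3) (nat_lit 0x4001a0009000580020000000000000000000000000000) (nat_lit 0x0) (nat_lit 0x10004800240000000000000000000000000000000000000000) := T_39 (nat_lit 179) (nat_lit 196) (nat_lit 7) (nat_lit 8) (nat_lit 7) L101078 (by decide +kernel)
theorem L101080 : W_39 (nat_lit 4) (nat_lit 0x400120009000580020000000000000000000000000000) (nat_lit 0x0) (nat_lit 0x100058002c0000000000000000000000000000000000000000) := T_39 (nat_lit 163) (nat_lit 180) (nat_lit 5) (nat_lit 11) (nat_lit 6) L101079 (by decide +kernel)
theorem L101081 : W_39 (nat_lit 8) (nat_lit 0x400020009000580020000000000000000000000000000) (nat_lit 0x0) (nat_lit 0xb00078003c0000000840052002800000000000000000000000) := Q_39 (nat_lit 164) (C_39 L101061 (C_39 L101065 (C_39 L101071 (C_39 L101077 (C_39 L101080 N_39))))) (by decide +kernel)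
theorem L101082 : W_39 (nat_lit 2) (nat_lit 0xc001a00090005c0030000000000000000000000000000) (nat_lit 0x0) (nat_lit 0x4000240000000000000000000000000000000000000000) := D_39 (nat_lit 165) (nat_lit 162) (nat_lit 182) (nat_lit 1) (nat_lit 12) (nat_lit 9) (nat_lit 7) (nat_lit 11) (nat_lit 6) (by decide +kernel)
theorem L101083 : W_39 (nat_lit 3) (nat_lit 0xc001200090005c0030000000000000000000000000000) (nat_lit 0x0) (nat_lit 0x50002c0000000000000000000000000000000000000000) := T_39 (nat_lit 163) (nat_lit 180) (nat_lit 5) (nat_lit 11) (nat_lit 6) L101082 (by decide +kernel)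
theorem L101084 : W_39 (nat_lit 4) (nat_lit 0xc000200090005c0030000000000000000000000000000) (nat_lit 0x0) (nat_lit 0x50003c0000000000000000800000000000000000000000) := T_39 (nat_lit 164) (nat_lit 95) (nat_lit 4) (nat_lit 11) (nat_lit 9) L101083 (by decide +kernel)
theorem L101085 : W_39 (nat_lit 5) (nat_lit 0x4000200090005c0030000000000000000000000000000) (nat_lit 0x0) (nat_lit 0x100058003c0000000000000000800000000000000000000000) := T_39 (nat_lit 179) (nat_lit 196) (nat_lit 7) (nat_lit 8) (nat_lit 7) L101084 (by decide +kernel)
theorem L101086 : W_39 (nat_lit 6) (nat_lit 0x4000200090005c0020000000000000000000000000000) (nat_lit 0x0) (nat_lit 0x100058003c0000000200010000800000000000000000000000) := T_39 (nat_lit 112) (nat_lit 129) (nat_lit 2) (nat_lit 7) (nat_lit 7) L101085 (by decide +kernel)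
theorem L101087 : W_39 (nat_lit 7) (nat_lit 0x400020009000580020000000000000000000000000000) (nat_lit 0x0) (nat_lit 0x100058003c0000000240012000800000000000000000000000) := T_39 (nat_lit 126) (nat_lit 109) (nat_lit 4) (nat_lit 8) (nat_lit 10) L101086 (by decide +kernel)
theorem L101088 : W_39 (nat_lit 9) (nat_lit 0x400020009000580000000000000000000000000000000) (nat_lit 0x0) (nat_lit 0xb00078003c0000000a40072002800000000000000000000000) := Q_39 (nat_lit 113) (C_39 L101050 (C_39 L101055 (C_39 L101057 (C_39 L101081 (C_39 L101087 N_39))))) (by decide +kernel)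
theorem L101089 : W_39 (nat_lit 2) (nat_lit 0x8002c000200090005c0000000000000000000000000000000) (nat_lit 0x0) (nat_lit 0x4001000010000000000000000000000000000000000000000) := D_39 (nat_lit 180) (nat_lit 160) (nat_lit 194) (nat_lit 0) (nat_lit 11) (nat_lit 10) (nat_lit 1) (nat_lit 11) (nat_lit 10) (by decide +kernel)
theorem L101090 : W_39 (nat_lit 3) (nat_lit 0x80024000200090005c0000000000000000000000000000000) (nat_lit 0x0) (nat_lit 0x14001800010000000000000000000000000000000000000000) := T_39 (nat_lit 179) (nat_lit 196) (nat_lit 7) (nat_lit 8) (nat_lit 7) L101089 (by decide +kernel)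
theorem L101091 : W_39 (nat_lit 4) (nat_lit 0x8002400020009000580000000000000000000000000000000) (nat_lit 0x0) (nat_lit 0x14001800010000000040002000000000000000000000000000) := T_39 (nat_lit 126) (nat_lit 109) (nat_lit 4) (nat_lit 8) (nat_lit 10) L101090 (by decide +kernel)
theorem L101092 : W_39 (nat_lit 2) (nat_lit 0xc002400020009000780000000000000000000000000000000) (nat_lit 0x0) (nat_lit 0x10001800000000000000000000000000000000000000000000) := D_39 (nat_lit 179) (nat_lit 180) (nat_lit 196) (nat_lit 1) (nat_lit 11) (nat_lit 10) (nat_lit 7) (nat_lit 8) (nat_lit 7) (by decide +kernel)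
theorem L101093 : W_39 (nat_lit 3) (nat_lit 0x8002400020009000780000000000000000000000000000000) (nat_lit 0x0) (nat_lit 0x80014001800000000000000000000000000000000000000000000) := T_39 (nat_lit 194) (nat_lit 211) (nat_lit 5) (nat_lit 8) (nat_lit 8) L101092 (by decide +kernel)
theorem L101094 : W_39 (nat_lit 4) (nat_lit 0x8002400020009000580000000000000000000000000000000) (nat_lit 0x0) (nat_lit 0x80014001800000010000200000000000000000000000000000000) := T_39 (nat_lit 129) (nat_lit 148) (nat_lit 3) (nat_lit 8) (nat_lit 7) L101093 (by decide +kernel)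
theorem L101095 : W_39 (nat_lit 2) (nat_lit 0x180008006400160009000fc0000000000000000000000000000000) (nat_lit 0x0) (nat_lit 0x2000000010000800000000000000000000000000000000000000000000) := D_39 (nat_lit 179) (nat_lit 196) (nat_lit 229) (nat_lit 7) (nat_lit 8) (nat_lit 7) (nat_lit 6) (nat_lit 8) (nat_lit 13) (by decide +kernel)
theorem L101096 : W_39 (nat_lit 3) (nat_lit 0x180008006400120009000fc0000000000000000000000000000000) (nat_lit 0x0) (nat_lit 0x20000000100008000c0000000000000000000000000000000000000000) := T_39 (nat_lit 162) (nat_lit 163) (nat_lit 3) (nat_lit 8) (nat_lit 9) L101095 (by decide +kernel)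
theorem L101097 : W_39 (nat_lit 4) (nat_lit 0x180008002400120009000fc0000000000000000000000000000000) (nat_lit 0x0) (nat_lit 0x20000000900048000c0000000000000000000000000000000000000000) := T_39 (nat_lit 182) (nat_lit 199) (nat_lit 7) (nat_lit 11) (nat_lit 7) L101096 (by decide +kernel)
theorem L101098 : W_39 (nat_lit 5) (nat_lit 0x80008002400120009000fc0000000000000000000000000000000) (nat_lit 0x0) (nat_lit 0x30001000900048000c0000000000000000000000000000000000000000) := T_39 (nat_lit 212) (nat_lit 228) (nat_lit 5) (nat_lit 8) (nat_lit 9) L101097 (by decide +kernel)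
theorem L101099 : W_39 (nat_lit 6) (nat_lit 0x800080024001200090007c0000000000000000000000000000000) (nat_lit 0x0) (nat_lit 0x30001000900048000c0000000800040000000000000000000000000000) := T_39 (nat_lit 131) (nat_lit 114) (nat_lit 6) (nat_lit 11) (nat_lit 10) L101098 (by decide +kernel)
theorem L101100 : W_39 (nat_lit 7) (nat_lit 0x80024001200090007c0000000000000000000000000000000) (nat_lit 0x0) (nat_lit 0x30001800940048000c0000000800040000000000000000000000000000) := T_39 (nat_lit 211) (nat_lit 194) (nat_lit 5) (nat_lit 8) (nat_lit 8) L101099 (by decide +kernel)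
theorem L101101 : W_39 (nat_lit 8) (nat_lit 0x80024000200090007c0000000000000000000000000000000) (nat_lit 0x0) (nat_lit 0x30001800940048001c0000000800050000000000000000000000000000) := T_39 (nat_lit 164) (nat_lit 112) (nat_lit 4) (nat_lit 11) (nat_lit 10) L101100 (by decide +kernel)
theorem L101102 : W_39 (nat_lit 9) (nat_lit 0x8002400020009000780000000000000000000000000000000) (nat_lit 0x0) (nat_lit 0x30001800940048001c0000000840052000000000000000000000000000) := T_39 (nat_lit 126) (nat_lit 109) (nat_lit 4) (nat_lit 8) (nat_lit 10) L101101 (by decide +kernel)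
theorem L101103 : W_39 (nat_lit 10) (nat_lit 0x8002400020009000580000000000000000000000000000000) (nat_lit 0x0) (nat_lit 0x30001800940048001c0010000a40052000000000000000000000000000) := T_39 (nat_lit 129) (nat_lit 148) (nat_lit 3) (nat_lit 8) (nat_lit 7) L101102 (by decide +kernel)
theorem L101104 : W_39 (nat_lit 2) (nat_lit 0x8003c00020009000580000000000000000000000000000000) (nat_lit 0x0) (nat_lit 0x20000000300000000000000000000000000000000000000000) := D_39 (nat_lit 164) (nat_lit 165) (nat_lit 197) (nat_lit 2) (nat_lit 8) (nat_lit 10) (nat_lit 5) (nat_lit 11) (nat_lit 7) (by decide +kernel)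
theorem L101105 : W_39 (nat_lit 3) (nat_lit 0x8002c00020009000580000000000000000000000000000000) (nat_lit 0x0) (nat_lit 0x20001000310000000000000000000000000000000000000000) := T_39 (nat_lit 180) (nat_lit 160) (nat_lit 0) (nat_lit 11) (nat_lit 10) L101104 (by decide +kernel)
theorem L101106 : W_39 (nat_lit 4) (nat_lit 0x8002400020009000580000000000000000000000000000000) (nat_lit 0x0) (nat_lit 0x30001800310000000000000000000000000000000000000000) := T_39 (nat_lit 179) (nat_lit 196) (nat_lit 7) (nat_lit 8) (nat_lit 7) L101105 (by decide +kernel)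
theorem L101107 : W_39 (nat_lit 2) (nat_lit 0x6c002400120009000fc0000000000000000000000000000000) (nat_lit 0x0) (nat_lit 0x90004000000000000000000000000000000000000000000000) := D_39 (nat_lit 182) (nat_lit 196) (nat_lit 199) (nat_lit 2) (nat_lit 8) (nat_lit 11) (nat_lit 7) (nat_lit 11) (nat_lit 7) (by decide +kernel)
theorem L101108 : W_39 (nat_lit 3) (nat_lit 0x2c002400120009000fc0000000000000000000000000000000) (nat_lit 0x0) (nat_lit 0x4000d0004000000000000000000000000000000000000000000000) := T_39 (nat_lit 198) (nat_lit 214) (nat_lit 5) (nat_lit 11) (nat_lit 8) L101107 (by decide +kernel)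
theorem L101109 : W_39 (nat_lit 4) (nat_lit 0x2c0024001200090007c0000000000000000000000000000000) (nat_lit 0x0) (nat_lit 0x4000d0004000000000000800040000000000000000000000000000) := T_39 (nat_lit 131) (nat_lit 114) (nat_lit 6) (nat_lit 11) (nat_lit 10) L101108 (by decide +kernel)
theorem L101110 : W_39 (nat_lit 5) (nat_lit 0xc0024001200090007c0000000000000000000000000000000) (nat_lit 0x0) (nat_lit 0x4000f0005000000000000800040000000000000000000000000000) := T_39 (nat_lit 197) (nat_lit 180) (nat_lit 5) (nat_lit 11) (nat_lit 7) L101109 (by decide +kernel)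
theorem L101111 : W_39 (nat_lit 6) (nat_lit 0xc0024000200090007c0000000000000000000000000000000) (nat_lit 0x0) (nat_lit 0x4000f0005000100000000800050000000000000000000000000000) := T_39 (nat_lit 164) (nat_lit 112) (nat_lit 4) (nat_lit 11) (nat_lit 10) L101110 (by decide +kernel)
theorem L101112 : W_39 (nat_lit 7) (nat_lit 0xc0024000200090005c0000000000000000000000000000000) (nat_lit 0x0) (nat_lit 0x4000f0005000100010000a00050000000000000000000000000000) := T_39 (nat_lit 129) (nat_lit 148) (nat_lit 3) (nat_lit 8) (nat_lit 7) L101111 (by decide +kernel)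
theorem L101113 : W_39 (nat_lit 8) (nat_lit 0x80024000200090005c0000000000000000000000000000000) (nat_lit 0x0) (nat_lit 0x4800f4005000100010000a00050000000000000000000000000000) := T_39 (nat_lit 194) (nat_lit 211) (nat_lit 5) (nat_lit 8) (nat_lit 8) L101112 (by decide +kernel)
theorem L101114 : W_39 (nat_lit 9) (nat_lit 0x8002400020009000580000000000000000000000000000000) (nat_lit 0x0) (nat_lit 0x4800f4005000100010000a40052000000000000000000000000000) := T_39 (nat_lit 126) (nat_lit 109) (nat_lit 4) (nat_lit 8) (nat_lit 10) L101113 (by decide +kernel)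
theorem L101115 : W_39 (nat_lit 2) (nat_lit 0x80034001200090007c0000000000000000000000000000000) (nat_lit 0x0) (nat_lit 0x4000800200000000000000000000000000000000000000000) := D_39 (nat_lit 179) (nat_lit 165) (nat_lit 194) (nat_lit 2) (nat_lit 8) (nat_lit 10) (nat_lit 1) (nat_lit 11) (nat_lit 10) (by decide +kernel)
theorem L101116 : W_39 (nat_lit 3) (nat_lit 0x80024001200090007c0000000000000000000000000000000) (nat_lit 0x0) (nat_lit 0x24001800200000000000000000000000000000000000000000) := T_39 (nat_lit 180) (nat_lit 197) (nat_lit 5) (nat_lit 11) (nat_lit 7) L101115 (by decide +kernel)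
theorem L101117 : W_39 (nat_lit 4) (nat_lit 0x80024000200090007c0000000000000000000000000000000) (nat_lit 0x0) (nat_lit 0x24001800300000000000010000000000000000000000000000) := T_39 (nat_lit 164) (nat_lit 112) (nat_lit 4) (nat_lit 11) (nat_lit 10) L101116 (by decide +kernel)
theorem L101118 : W_39 (nat_lit 5) (nat_lit 0x8002400020009000780000000000000000000000000000000) (nat_lit 0x0) (nat_lit 0x24001800300000000040012000000000000000000000000000) := T_39 (nat_lit 126) (nat_lit 109) (nat_lit 4) (nat_lit 8) (nat_lit 10) L101117 (by decide +kernel)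
theorem L101119 : W_39 (nat_lit 6) (nat_lit 0x8002400020009000580000000000000000000000000000000) (nat_lit 0x0) (nat_lit 0x24001800300010000240012000000000000000000000000000) := T_39 (nat_lit 129) (nat_lit 148) (nat_lit 3) (nat_lit 8) (nat_lit 7) L101118 (by decide +kernel)
theorem L101120 : W_39 (nat_lit 11) (nat_lit 0x8000400020009000580000000000000000000000000000000) (nat_lit 0x0) (nat_lit 0x30005800f40078003d0010000a40052000000000000000000000000000) := Q_39 (nat_lit 181) (C_39 L101091 (C_39 L101094 (C_39 L101103 (C_39 L101106 (C_39 L101114 (C_39 L101119 N_39)))))) (by decide +kernel)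
theorem L101121 : W_39 (nat_lit 2) (nat_lit 0x1000080034001200090007c0000000000000000000000000000000) (nat_lit 0x0) (nat_lit 0x4000800200000000000000000000000000000000000000000) := D_39 (nat_lit 179) (nat_lit 165) (nat_lit 194) (nat_lit 2) (nat_lit 8) (nat_lit 10) (nat_lit 1) (nat_lit 11) (nat_lit 10) (by decide +kernel)
theorem L101122 : W_39 (nat_lit 3) (nat_lit 0x1000080024001200090007c0000000000000000000000000000000) (nat_lit 0x0) (nat_lit 0x24001800200000000000000000000000000000000000000000) := T_39 (nat_lit 180) (nat_lit 197) (nat_lit 5) (nat_lit 11) (nat_lit 7) L101121 (by decide +kernel)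
theorem L101123 : W_39 (nat_lit 4) (nat_lit 0x1000080024000200090007c0000000000000000000000000000000) (nat_lit 0x0) (nat_lit 0x24001800300000000000010000000000000000000000000000) := T_39 (nat_lit 164) (nat_lit 112) (nat_lit 4) (nat_lit 11) (nat_lit 10) L101122 (by decide +kernel)
theorem L101124 : W_39 (nat_lit 5) (nat_lit 0x100008002400020009000780000000000000000000000000000000) (nat_lit 0x0) (nat_lit 0x24001800300000000040012000000000000000000000000000) := T_39 (nat_lit 126) (nat_lit 109) (nat_lit 4) (nat_lit 8) (nat_lit 10) L101123 (by decide +kernel)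
theorem L101125 : W_39 (nat_lit 6) (nat_lit 0x100008002400020009000580000000000000000000000000000000) (nat_lit 0x0) (nat_lit 0x24001800300010000240012000000000000000000000000000) := T_39 (nat_lit 129) (nat_lit 148) (nat_lit 3) (nat_lit 8) (nat_lit 7) L101124 (by decide +kernel)
theorem L101126 : W_39 (nat_lit 2) (nat_lit 0x300008003400120009000780000000000000000000000000000000) (nat_lit 0x0) (nat_lit 0x4000800200000000000000000000000000000000000000000) := D_39 (nat_lit 179) (nat_lit 165) (nat_lit 194) (nat_lit 2) (nat_lit 8) (nat_lit 10) (nat_lit 1) (nat_lit 11) (nat_lit 10) (by decide +kernel)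
theorem L101127 : W_39 (nat_lit 3) (nat_lit 0x300008002400120009000780000000000000000000000000000000) (nat_lit 0x0) (nat_lit 0x24001800200000000000000000000000000000000000000000) := T_39 (nat_lit 180) (nat_lit 197) (nat_lit 5) (nat_lit 11) (nat_lit 7) L101126 (by decide +kernel)
theorem L101128 : W_39 (nat_lit 4) (nat_lit 0x300008002400020009000780000000000000000000000000000000) (nat_lit 0x0) (nat_lit 0x24001800300000000000010000000000000000000000000000) := T_39 (nat_lit 164) (nat_lit 112) (nat_lit 4) (nat_lit 11) (nat_lit 10) L101127 (by decide +kernel)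
theorem L101129 : W_39 (nat_lit 5) (nat_lit 0x100008002400020009000780000000000000000000000000000000) (nat_lit 0x0) (nat_lit 0x4000200024001800300000000000010000000000000000000000000000) := T_39 (nat_lit 213) (nat_lit 230) (nat_lit 7) (nat_lit 8) (nat_lit 9) L101128 (by decide +kernel)
theorem L101130 : W_39 (nat_lit 6) (nat_lit 0x100008002400020009000580000000000000000000000000000000) (nat_lit 0x0) (nat_lit 0x4000200024001800300010000200010000000000000000000000000000) := T_39 (nat_lit 129) (nat_lit 148) (nat_lit 3) (nat_lit 8) (nat_lit 7) L101129 (by decide +kernel)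
theorem L101131 : W_39 (nat_lit 2) (nat_lit 0x3000c8002400120009000fc0000000000000000000000000000000) (nat_lit 0x0) (nat_lit 0xc00020000000000000000000000000000000000000000000000000) := D_39 (nat_lit 214) (nat_lit 197) (nat_lit 215) (nat_lit 5) (nat_lit 11) (nat_lit 8) (nat_lit 2) (nat_lit 8) (nat_lit 12) (by decide +kernel)
theorem L101132 : W_39 (nat_lit 3) (nat_lit 0x300088002400120009000fc0000000000000000000000000000000) (nat_lit 0x0) (nat_lit 0x1c00060000000000000000000000000000000000000000000000000) := T_39 (nat_lit 198) (nat_lit 216) (nat_lit 7) (nat_lit 11) (nat_lit 8) L101131 (by decide +kernel)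
theorem L101133 : W_39 (nat_lit 4) (nat_lit 0x300008002400120009000fc0000000000000000000000000000000) (nat_lit 0x0) (nat_lit 0x1c000e0004000000000000000000000000000000000000000000000) := T_39 (nat_lit 199) (nat_lit 182) (nat_lit 7) (nat_lit 11) (nat_lit 7) L101132 (by decide +kernel)
theorem L101134 : W_39 (nat_lit 5) (nat_lit 0x3000080024001200090007c0000000000000000000000000000000) (nat_lit 0x0) (nat_lit 0x1c000e0004000000000000800040000000000000000000000000000) := T_39 (nat_lit 131) (nat_lit 114) (nat_lit 6) (nat_lit 11) (nat_lit 10) L101133 (by decide +kernel)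
theorem L101135 : W_39 (nat_lit 6) (nat_lit 0x1000080024001200090007c0000000000000000000000000000000) (nat_lit 0x0) (nat_lit 0x4001e000e0004000000000000800040000000000000000000000000000) := T_39 (nat_lit 213) (nat_lit 230) (nat_lit 7) (nat_lit 8) (nat_lit 9) L101134 (by decide +kernel)
theorem L101136 : W_39 (nat_lit 7) (nat_lit 0x1000080024000200090007c0000000000000000000000000000000) (nat_lit 0x0) (nat_lit 0x4001e000e0004000100000000800050000000000000000000000000000) := T_39 (nat_lit 164) (nat_lit 112) (nat_lit 4) (nat_lit 11) (nat_lit 10) L101135 (by decide +kernel)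
theorem L101137 : W_39 (nat_lit 8) (nat_lit 0x100008002400020009000780000000000000000000000000000000) (nat_lit 0x0) (nat_lit 0x4001e000e0004000100000000840052000000000000000000000000000) := T_39 (nat_lit 126) (nat_lit 109) (nat_lit 4) (nat_lit 8) (nat_lit 10) L101136 (by decide +kernel)
theorem L101138 : W_39 (nat_lit 9) (nat_lit 0x100008002400020009000580000000000000000000000000000000) (nat_lit 0x0) (nat_lit 0x4001e000e0004000100010000a40052000000000000000000000000000) := T_39 (nat_lit 129) (nat_lit 148) (nat_lit 3) (nat_lit 8) (nat_lit 7) L101137 (by decide +kernel)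
theorem L101139 : W_39 (nat_lit 2) (nat_lit 0x300008006400160009000fc0000000000000000000000000000000) (nat_lit 0x0) (nat_lit 0x2000000000001800000000000000000000000000000000000000000000) := D_39 (nat_lit 179) (nat_lit 180) (nat_lit 229) (nat_lit 0) (nat_lit 12) (nat_lit 10) (nat_lit 6) (nat_lit 8) (nat_lit 13) (by decide +kernel)
theorem L101140 : W_39 (nat_lit 3) (nat_lit 0x300008006400120009000fc0000000000000000000000000000000) (nat_lit 0x0) (nat_lit 0x20000000000018000c0000000000000000000000000000000000000000) := T_39 (nat_lit 162) (nat_lit 163) (nat_lit 3) (nat_lit 8) (nat_lit 9) L101139 (by decide +kernel)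
theorem L101141 : W_39 (nat_lit 4) (nat_lit 0x300008002400120009000fc0000000000000000000000000000000) (nat_lit 0x0) (nat_lit 0x20000000800058000c0000000000000000000000000000000000000000) := T_39 (nat_lit 182) (nat_lit 199) (nat_lit 7) (nat_lit 11) (nat_lit 7) L101140 (by decide +kernel)
theorem L101142 : W_39 (nat_lit 5) (nat_lit 0x3000080024001200090007c0000000000000000000000000000000) (nat_lit 0x0) (nat_lit 0x20000000800058000c0000000800040000000000000000000000000000) := T_39 (nat_lit 131) (nat_lit 114) (nat_lit 6) (nat_lit 11) (nat_lit 10) L101141 (by decide +kernel)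
theorem L101143 : W_39 (nat_lit 6) (nat_lit 0x1000080024001200090007c0000000000000000000000000000000) (nat_lit 0x0) (nat_lit 0x60002000800058000c0000000800040000000000000000000000000000) := T_39 (nat_lit 213) (nat_lit 230) (nat_lit 7) (nat_lit 8) (nat_lit 9) L101142 (by decide +kernel)
theorem L101144 : W_39 (nat_lit 7) (nat_lit 0x1000080024000200090007c0000000000000000000000000000000) (nat_lit 0x0) (nat_lit 0x60002000800058001c0000000800050000000000000000000000000000) := T_39 (nat_lit 164) (nat_lit 112) (nat_lit 4) (nat_lit 11) (nat_lit 10) L101143 (by decide +kernel)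
theorem L101145 : W_39 (nat_lit 8) (nat_lit 0x100008002400020009000780000000000000000000000000000000) (nat_lit 0x0) (nat_lit 0x60002000800058001c0000000840052000000000000000000000000000) := T_39 (nat_lit 126) (nat_lit 109) (nat_lit 4) (nat_lit 8) (nat_lit 10) L101144 (by decide +kernel)
theorem L101146 : W_39 (nat_lit 9) (nat_lit 0x100008002400020009000580000000000000000000000000000000) (nat_lit 0x0) (nat_lit 0x60002000800058001c0010000a40052000000000000000000000000000) := T_39 (nat_lit 129) (nat_lit 148) (nat_lit 3) (nat_lit 8) (nat_lit 7) L101145 (by decide +kernel)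
theorem L101147 : W_39 (nat_lit 2) (nat_lit 0x7000100008002c000200090007c0000000000000000000000000000000) (nat_lit 0x0) (nat_lit 0x4001000010000000000000000000000000000000000000000) := D_39 (nat_lit 180) (nat_lit 160) (nat_lit 194) (nat_lit 0) (nat_lit 11) (nat_lit 10) (nat_lit 1) (nat_lit 11) (nat_lit 10) (by decide +kernel)
theorem L101148 : W_39 (nat_lit 3) (nat_lit 0x70001000080024000200090007c0000000000000000000000000000000) (nat_lit 0x0) (nat_lit 0x4001800050000000000000000000000000000000000000000) := T_39 (nat_lit 179) (nat_lit 162) (nat_lit 6) (nat_lit 8) (nat_lit 13) L101147 (by decide +kernel)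
theorem L101149 : W_39 (nat_lit 4) (nat_lit 0x60001000080024000200090007c0000000000000000000000000000000) (nat_lit 0x0) (nat_lit 0x20001000000004001800050000000000000000000000000000000000000000) := T_39 (nat_lit 228) (nat_lit 245) (nat_lit 5) (nat_lit 8) (nat_lit 10) L101148 (by decide +kernel)
theorem L101150 : W_39 (nat_lit 5) (nat_lit 0x40001000080024000200090007c0000000000000000000000000000000) (nat_lit 0x0) (nat_lit 0xa0003000000004001800050000000000000000000000000000000000000000) := T_39 (nat_lit 229) (nat_lit 247) (nat_lit 7) (nat_lit 8) (nat_lit 10) L101149 (by decide +kernel)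
theorem L101151 : W_39 (nat_lit 6) (nat_lit 0x1000080024000200090007c0000000000000000000000000000000) (nat_lit 0x0) (nat_lit 0xa0007000200004001800050000000000000000000000000000000000000000) := T_39 (nat_lit 230) (nat_lit 213) (nat_lit 7) (nat_lit 8) (nat_lit 9) L101150 (by decide +kernel)
theorem L101152 : W_39 (nat_lit 7) (nat_lit 0x100008002400020009000780000000000000000000000000000000) (nat_lit 0x0) (nat_lit 0xa0007000200004001800050000000040002000000000000000000000000000) := T_39 (nat_lit 126) (nat_lit 109) (nat_lit 4) (nat_lit 8) (nat_lit 10) L101151 (by decide +kernel)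
theorem L101153 : W_39 (nat_lit 8) (nat_lit 0x100008002400020009000580000000000000000000000000000000) (nat_lit 0x0) (nat_lit 0xa0007000200004001800050010000240002000000000000000000000000000) := T_39 (nat_lit 129) (nat_lit 148) (nat_lit 3) (nat_lit 8) (nat_lit 7) L101152 (by decide +kernel)
theorem L101154 : W_39 (nat_lit 2) (nat_lit 0x7000100008002c000200090005c0000000000000000000000000000000) (nat_lit 0x0) (nat_lit 0x4001000010000000000000000000000000000000000000000) := D_39 (nat_lit 180) (nat_lit 160) (nat_lit 194) (nat_lit 0) (nat_lit 11) (nat_lit 10) (nat_lit 1) (nat_lit 11) (nat_lit 10) (by decide +kernel)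
theorem L101155 : W_39 (nat_lit 3) (nat_lit 0x70001000080024000200090005c0000000000000000000000000000000) (nat_lit 0x0) (nat_lit 0x4001800050000000000000000000000000000000000000000) := T_39 (nat_lit 179) (nat_lit 162) (nat_lit 6) (nat_lit 8) (nat_lit 13) L101154 (by decide +kernel)
theorem L101156 : W_39 (nat_lit 4) (nat_lit 0x60001000080024000200090005c0000000000000000000000000000000) (nat_lit 0x0) (nat_lit 0x20001000000004001800050000000000000000000000000000000000000000) := T_39 (nat_lit 228) (nat_lit 245) (nat_lit 5) (nat_lit 8) (nat_lit 10) L101155 (by decide +kernel)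
theorem L101157 : W_39 (nat_lit 5) (nat_lit 0x40001000080024000200090005c0000000000000000000000000000000) (nat_lit 0x0) (nat_lit 0xa0003000000004001800050000000000000000000000000000000000000000) := T_39 (nat_lit 229) (nat_lit 247) (nat_lit 7) (nat_lit 8) (nat_lit 10) L101156 (by decide +kernel)
theorem L101158 : W_39 (nat_lit 6) (nat_lit 0x4000100008002400020009000580000000000000000000000000000000) (nat_lit 0x0) (nat_lit 0xa0003000000004001800050000000040002000000000000000000000000000) := T_39 (nat_lit 126) (nat_lit 109) (nat_lit 4) (nat_lit 8) (nat_lit 10) L101157 (by decide +kernel)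
theorem L101159 : W_39 (nat_lit 7) (nat_lit 0x100008002400020009000580000000000000000000000000000000) (nat_lit 0x0) (nat_lit 0xa0007000200004001800050000000040002000000000000000000000000000) := T_39 (nat_lit 230) (nat_lit 213) (nat_lit 7) (nat_lit 8) (nat_lit 9) L101158 (by decide +kernel)
theorem L101160 : W_39 (nat_lit 10) (nat_lit 0x100008000400020009000580000000000000000000000000000000) (nat_lit 0x0) (nat_lit 0xa0007001e000e40078003d0010000a40052000000000000000000000000000) := Q_39 (nat_lit 181) (C_39 L101125 (C_39 L101130 (C_39 L101138 (C_39 L101146 (C_39 L101153 (C_39 L101159 N_39)))))) (by decide +kernel)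
theorem L101161 : W_39 (nat_lit 2) (nat_lit 0x100008000400020009000580000000000000000000000000000000) (nat_lit 0x0) (nat_lit 0x1000080004000000000000000000000000000000000000000000000000) := D_39 (nat_lit 211) (nat_lit 228) (nat_lit 194) (nat_lit 5) (nat_lit 8) (nat_lit 9) (nat_lit 5) (nat_lit 8) (nat_lit 8) (by decide +kernel)
theorem L101162 : W_39 (nat_lit 2) (nat_lit 0x30001000080004000200090007c0000000000000000000000000000000) (nat_lit 0x0) (nat_lit 0x80004000200000000000000000000000000000000000000000000000000000) := D_39 (nat_lit 230) (nat_lit 213) (nat_lit 247) (nat_lit 7) (nat_lit 8) (nat_lit 9) (nat_lit 7) (nat_lit 8) (nat_lit 10) (by decide +kernel)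
theorem L101163 : W_39 (nat_lit 3) (nat_lit 0x10001000080004000200090007c0000000000000000000000000000000) (nat_lit 0x0) (nat_lit 0xa0006000200000000000000000000000000000000000000000000000000000) := T_39 (nat_lit 229) (nat_lit 245) (nat_lit 5) (nat_lit 8) (nat_lit 10) L101162 (by decide +kernel)
theorem L101164 : W_39 (nat_lit 4) (nat_lit 0x10001000080004000200090005c0000000000000000000000000000000) (nat_lit 0x0) (nat_lit 0xa0006000200000000000000010000200000000000000000000000000000000) := T_39 (nat_lit 129) (nat_lit 148) (nat_lit 3) (nat_lit 8) (nat_lit 7) L101163 (by decide +kernel)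
theorem L101165 : W_39 (nat_lit 5) (nat_lit 0x1000080004000200090005c0000000000000000000000000000000) (nat_lit 0x0) (nat_lit 0xa0007000280000000000000010000200000000000000000000000000000000) := T_39 (nat_lit 228) (nat_lit 211) (nat_lit 5) (nat_lit 8) (nat_lit 9) L101164 (by decide +kernel)
theorem L101166 : W_39 (nat_lit 6) (nat_lit 0x100008000400020009000580000000000000000000000000000000) (nat_lit 0x0) (nat_lit 0xa0007000280000000000000010000240002000000000000000000000000000) := T_39 (nat_lit 126) (nat_lit 109) (nat_lit 4) (nat_lit 8) (nat_lit 10) L101165 (by decide +kernel)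
theorem L101167 : W_39 (nat_lit 2) (nat_lit 0x400010000c002c00020009000580000000000000000000000000000000) (nat_lit 0x0) (nat_lit 0x80002000000000000000040000000000000000000000000000000000000000) := D_39 (nat_lit 229) (nat_lit 162) (nat_lit 247) (nat_lit 6) (nat_lit 8) (nat_lit 13) (nat_lit 7) (nat_lit 8) (nat_lit 10) (by decide +kernel)
theorem L101168 : W_39 (nat_lit 3) (nat_lit 0x10000c002c00020009000580000000000000000000000000000000) (nat_lit 0x0) (nat_lit 0x80006000200000000000040000000000000000000000000000000000000000) := T_39 (nat_lit 230) (nat_lit 213) (nat_lit 7) (nat_lit 8) (nat_lit 9) L101167 (by decide +kernel)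
theorem L101169 : W_39 (nat_lit 4) (nat_lit 0x10000c002400020009000580000000000000000000000000000000) (nat_lit 0x0) (nat_lit 0x80006000200000001800040000000000000000000000000000000000000000) := T_39 (nat_lit 179) (nat_lit 180) (nat_lit 1) (nat_lit 11) (nat_lit 10) L101168 (by decide +kernel)
theorem L101170 : W_39 (nat_lit 5) (nat_lit 0x100008002400020009000580000000000000000000000000000000) (nat_lit 0x0) (nat_lit 0x80006000280004001800040000000000000000000000000000000000000000) := T_39 (nat_lit 194) (nat_lit 211) (nat_lit 5) (nat_lit 8) (nat_lit 8) L101169 (by decide +kernel)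
theorem L101171 : W_39 (nat_lit 10) (nat_lit 0x100008000400020009000580000000000000000000000000000000) (nat_lit 0x0) (nat_lit 0x80006001e800e40078003c0010000a40052000000000000000000000000000) := Q_39 (nat_lit 181) (C_39 L101125 (C_39 L101146 (C_39 L101130 (C_39 L101138 (C_39 L101170 N_39))))) (by decide +kernel)
theorem L101172 : W_39 (nat_lit 11) (nat_lit 0x8000400020009000580000000000000000000000000000000) (nat_lit 0x0) (nat_lit 0xa0007001f800e40078003d0010000a40052000000000000000000000000000) := Q_39 (nat_lit 212) (C_39 L101160 (C_39 L101161 (C_39 L101166 (C_39 L101171 N_39)))) (by decide +kernel)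
theorem L101173 : W_39 (nat_lit 12) (nat_lit 0x400020009000580000000000000000000000000000000) (nat_lit 0x0) (nat_lit 0xa0007001f800fc0078003d0010000a40052000000000000000000000000000) := Q_39 (nat_lit 195) (C_39 L101014 (C_39 L100972 (C_39 L101120 (C_39 L101172 N_39)))) (by decide +kernel)
theorem L101174 : W_39 (nat_lit 2) (nat_lit 0x24800fc004200090007c0010000000000000000000000000000) (nat_lit 0x0) (nat_lit 0x420010000000000000000000000000000000000000000000000) := D_39 (nat_lit 184) (nat_lit 197) (nat_lit 202) (nat_lit 1) (nat_lit 14) (nat_lit 10) (nat_lit 3) (nat_lit 11) (nat_lit 10) (by decide +kernel)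
theorem L101175 : W_39 (nat_lit 3) (nat_lit 0x4800fc004200090007c0010000000000000000000000000000) (nat_lit 0x0) (nat_lit 0x720010000000000000000000000000000000000000000000000) := T_39 (nat_lit 201) (nat_lit 200) (nat_lit 3) (nat_lit 10) (nat_lit 10) L101174 (by decide +kernel)
theorem L101176 : W_39 (nat_lit 4) (nat_lit 0x48007c004200090007c0010000000000000000000000000000) (nat_lit 0x0) (nat_lit 0x720018000800000000000000000000000000000000000000000) := T_39 (nat_lit 183) (nat_lit 167) (nat_lit 2) (nat_lit 10) (nat_lit 10) L101175 (by decide +kernel)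
theorem L101177 : W_39 (nat_lit 5) (nat_lit 0x48007c000200090007c0010000000000000000000000000000) (nat_lit 0x0) (nat_lit 0x720018000e00000000000000000000000000000000000000000) := T_39 (nat_lit 166) (nat_lit 165) (nat_lit 2) (nat_lit 9) (nat_lit 10) L101176 (by decide +kernel)
theorem L101178 : W_39 (nat_lit 6) (nat_lit 0x48003c000200090007c0010000000000000000000000000000) (nat_lit 0x0) (nat_lit 0x72001c000e40000000000000000000000000000000000000000) := T_39 (nat_lit 182) (nat_lit 162) (nat_lit 0) (nat_lit 12) (nat_lit 10) L101177 (by decide +kernel)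
theorem L101179 : W_39 (nat_lit 7) (nat_lit 0x8003c000200090007c0010000000000000000000000000000) (nat_lit 0x0) (nat_lit 0x7e001c000e40000000000000000000000000000000000000000) := T_39 (nat_lit 198) (nat_lit 199) (nat_lit 3) (nat_lit 8) (nat_lit 10) L101178 (by decide +kernel)
theorem L101180 : W_39 (nat_lit 8) (nat_lit 0x3c000200090007c0010000000000000000000000000000) (nat_lit 0x0) (nat_lit 0x7ec01c000e40000000000000000000000000000000000000000) := T_39 (nat_lit 195) (nat_lit 194) (nat_lit 1) (nat_lit 11) (nat_lit 10) L101179 (by decide +kernel)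
theorem L101181 : W_39 (nat_lit 9) (nat_lit 0x2c000200090007c0010000000000000000000000000000) (nat_lit 0x0) (nat_lit 0x7ec01d000e50000000000000000000000000000000000000000) := T_39 (nat_lit 180) (nat_lit 160) (nat_lit 0) (nat_lit 11) (nat_lit 10) L101180 (by decide +kernel)
theorem L101182 : W_39 (nat_lit 10) (nat_lit 0xc000200090007c0010000000000000000000000000000) (nat_lit 0x0) (nat_lit 0x7ec01f000f50000000000000000000000000000000000000000) := T_39 (nat_lit 181) (nat_lit 164) (nat_lit 4) (nat_lit 11) (nat_lit 10) L101181 (by decide +kernel)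
theorem L101183 : W_39 (nat_lit 11) (nat_lit 0xc000200090007c0000000000000000000000000000000) (nat_lit 0x0) (nat_lit 0x7ec01f000f50000000000030000000000000000000000000000) := T_39 (nat_lit 112) (nat_lit 113) (nat_lit 2) (nat_lit 7) (nat_lit 7) L101182 (by decide +kernel)
theorem L101184 : W_39 (nat_lit 12) (nat_lit 0xc00020009000780000000000000000000000000000000) (nat_lit 0x0) (nat_lit 0x7ec01f000f50000000040032000000000000000000000000000) := T_39 (nat_lit 126) (nat_lit 109) (nat_lit 4) (nat_lit 8) (nat_lit 10) L101183 (by decide +kernel)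
theorem L101185 : W_39 (nat_lit 13) (nat_lit 0xc00020009000580000000000000000000000000000000) (nat_lit 0x0) (nat_lit 0x7ec01f000f50010000240032000000000000000000000000000) := T_39 (nat_lit 129) (nat_lit 148) (nat_lit 3) (nat_lit 8) (nat_lit 7) L101184 (by decide +kernel)
theorem L101186 : W_39 (nat_lit 14) (nat_lit 0x400020009000580000000000000000000000000000000) (nat_lit 0x0) (nat_lit 0x7fc01f800f50010000240032000000000000000000000000000) := T_39 (nat_lit 179) (nat_lit 196) (nat_lit 7) (nat_lit 8) (nat_lit 7) L101185 (by decide +kernel)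
theorem L101187 : W_39 (nat_lit 15) (nat_lit 0x400020009000180000000000000000000000000000000) (nat_lit 0x0) (nat_lit 0xa001f001fe07ff01f800fd0010000e400f2003800140000000000000000000) := Q_39 (nat_lit 130) (C_39 L100961 (C_39 L100971 (C_39 L101047 (C_39 L101088 (C_39 L101173 (C_39 L101186 N_39)))))) (by decide +kernel)
theorem L101188 : W_39 (nat_lit 2) (nat_lit 0x180008000c0007000d0001c0000000000000000000000000000000) (nat_lit 0x0) (nat_lit 0x100000c000000000000000000000000000000000000000) := D_39 (nat_lit 159) (nat_lit 180) (nat_lit 158) (nat_lit 3) (nat_lit 6) (nat_lit 9) (nat_lit 3) (nat_lit 5) (nat_lit 9) (by decide +kernel)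
theorem L101189 : W_39 (nat_lit 3) (nat_lit 0x180008000c0006000d0001c0000000000000000000000000000000) (nat_lit 0x0) (nat_lit 0x100009c000000000000000000000000000000000000000) := T_39 (nat_lit 160) (nat_lit 163) (nat_lit 2) (nat_lit 7) (nat_lit 9) L101188 (by decide +kernel)
theorem L101190 : W_39 (nat_lit 4) (nat_lit 0x180008000c0002000d0001c0000000000000000000000000000000) (nat_lit 0x0) (nat_lit 0x20000000000010000dc000000000000000000000000000000000000000) := T_39 (nat_lit 162) (nat_lit 229) (nat_lit 6) (nat_lit 8) (nat_lit 13) L101189 (by decide +kernel)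
theorem L101191 : W_39 (nat_lit 5) (nat_lit 0x80008000c0002000d0001c0000000000000000000000000000000) (nat_lit 0x0) (nat_lit 0x30001000000010000dc000000000000000000000000000000000000000) := T_39 (nat_lit 212) (nat_lit 228) (nat_lit 5) (nat_lit 8) (nat_lit 9) L101190 (by decide +kernel)
theorem L101192 : W_39 (nat_lit 6) (nat_lit 0x8000800040002000d0001c0000000000000000000000000000000) (nat_lit 0x0) (nat_lit 0x30001000100018000dc000000000000000000000000000000000000000) := T_39 (nat_lit 179) (nat_lit 196) (nat_lit 7) (nat_lit 8) (nat_lit 7) L101191 (by decide +kernel)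
theorem L101193 : W_39 (nat_lit 7) (nat_lit 0x800040002000d0001c0000000000000000000000000000000) (nat_lit 0x0) (nat_lit 0x30001800140018000dc000000000000000000000000000000000000000) := T_39 (nat_lit 211) (nat_lit 194) (nat_lit 5) (nat_lit 8) (nat_lit 8) L101192 (by decide +kernel)
theorem L101194 : W_39 (nat_lit 8) (nat_lit 0x80004000200090001c0000000000000000000000000000000) (nat_lit 0x0) (nat_lit 0x30001800140018000dc004000200000000000000000000000000000000) := T_39 (nat_lit 146) (nat_lit 129) (nat_lit 3) (nat_lit 7) (nat_lit 7) L101193 (by decide +kernel)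
theorem L101195 : W_39 (nat_lit 9) (nat_lit 0x8000400020009000180000000000000000000000000000000) (nat_lit 0x0) (nat_lit 0x30001800140018000dc004000240002000000000000000000000000000) := T_39 (nat_lit 126) (nat_lit 109) (nat_lit 4) (nat_lit 8) (nat_lit 10) L101194 (by decide +kernel)
theorem L101196 : W_39 (nat_lit 2) (nat_lit 0x160001a00080004000e000d0001c0000000000000000000000000000000) (nat_lit 0x0) (nat_lit 0x100030000000000000000000000000000000000000) := D_39 (nat_lit 148) (nat_lit 149) (nat_lit 164) (nat_lit 1) (nat_lit 13) (nat_lit 8) (nat_lit 2) (nat_lit 8) (nat_lit 9) (by decide +kernel)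
theorem L101197 : W_39 (nat_lit 3) (nat_lit 0x160001a000800040006000d0001c0000000000000000000000000000000) (nat_lit 0x0) (nat_lit 0x190030000000000000000000000000000000000000) := T_39 (nat_lit 163) (nat_lit 160) (nat_lit 2) (nat_lit 7) (nat_lit 9) L101196 (by decide +kernel)
theorem L101198 : W_39 (nat_lit 4) (nat_lit 0x60001a000800040006000d0001c0000000000000000000000000000000) (nat_lit 0x0) (nat_lit 0x18000000000000000190030000000000000000000000000000000000000) := T_39 (nat_lit 232) (nat_lit 231) (nat_lit 0) (nat_lit 11) (nat_lit 13) L101197 (by decide +kernel)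
theorem L101199 : W_39 (nat_lit 5) (nat_lit 0x60001a000800040002000d0001c0000000000000000000000000000000) (nat_lit 0x0) (nat_lit 0x180000000000008001d0030000000000000000000000000000000000000) := T_39 (nat_lit 162) (nat_lit 179) (nat_lit 6) (nat_lit 8) (nat_lit 13) L101198 (by decide +kernel)
theorem L101200 : W_39 (nat_lit 6) (nat_lit 0x600018000800040002000d0001c0000000000000000000000000000000) (nat_lit 0x0) (nat_lit 0x180000600000008001d0030000000000000000000000000000000000000) := T_39 (nat_lit 209) (nat_lit 210) (nat_lit 3) (nat_lit 5) (nat_lit 12) L101199 (by decide +kernel)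
theorem L101201 : W_39 (nat_lit 7) (nat_lit 0x400018000800040002000d0001c0000000000000000000000000000000) (nat_lit 0x0) (nat_lit 0x8001a0000600000008001d0030000000000000000000000000000000000000) := T_39 (nat_lit 229) (nat_lit 247) (nat_lit 7) (nat_lit 8) (nat_lit 10) L101200 (by decide +kernel)
theorem L101202 : W_39 (nat_lit 8) (nat_lit 0x18000800040002000d0001c0000000000000000000000000000000) (nat_lit 0x0) (nat_lit 0x8001e0002600000008001d0030000000000000000000000000000000000000) := T_39 (nat_lit 230) (nat_lit 213) (nat_lit 7) (nat_lit 8) (nat_lit 9) L101201 (by decide +kernel)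
theorem L101203 : W_39 (nat_lit 9) (nat_lit 0x8000800040002000d0001c0000000000000000000000000000000) (nat_lit 0x0) (nat_lit 0x8001f0003600000008001d0030000000000000000000000000000000000000) := T_39 (nat_lit 212) (nat_lit 228) (nat_lit 5) (nat_lit 8) (nat_lit 9) L101202 (by decide +kernel)
theorem L101204 : W_39 (nat_lit 10) (nat_lit 0x800040002000d0001c0000000000000000000000000000000) (nat_lit 0x0) (nat_lit 0x8001f0003e00040008001d0030000000000000000000000000000000000000) := T_39 (nat_lit 211) (nat_lit 194) (nat_lit 5) (nat_lit 8) (nat_lit 8) L101203 (by decide +kernel)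
theorem L101205 : W_39 (nat_lit 11) (nat_lit 0x80004000200090001c0000000000000000000000000000000) (nat_lit 0x0) (nat_lit 0x8001f0003e00040008001d0034000200000000000000000000000000000000) := T_39 (nat_lit 146) (nat_lit 129) (nat_lit 3) (nat_lit 7) (nat_lit 7) L101204 (by decide +kernel)
theorem L101206 : W_39 (nat_lit 12) (nat_lit 0x8000400020009000180000000000000000000000000000000) (nat_lit 0x0) (nat_lit 0x8001f0003e00040008001d0034000240002000000000000000000000000000) := T_39 (nat_lit 126) (nat_lit 109) (nat_lit 4) (nat_lit 8) (nat_lit 10) L101205 (by decide +kernel)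
theorem L101207 : W_39 (nat_lit 13) (nat_lit 0x400020009000180000000000000000000000000000000) (nat_lit 0x0) (nat_lit 0x8001f0003e001c0018001dc034000240002000000000000000000000000000) := Q_39 (nat_lit 195) (C_39 L100728 (C_39 L100529 (C_39 L101195 (C_39 L101206 N_39)))) (by decide +kernel)
theorem L101208 : W_39 (nat_lit 2) (nat_lit 0x40003c001200090001c0000000000000000000000000000000) (nat_lit 0x0) (nat_lit 0x400020000000000000000400000000000000000000000000000000) := D_39 (nat_lit 197) (nat_lit 130) (nat_lit 214) (nat_lit 5) (nat_lit 11) (nat_lit 7) (nat_lit 5) (nat_lit 11) (nat_lit 8) (by decide +kernel)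
theorem L101209 : W_39 (nat_lit 3) (nat_lit 0x3c001200090001c0000000000000000000000000000000) (nat_lit 0x0) (nat_lit 0x4000e0000000000000000400000000000000000000000000000000) := T_39 (nat_lit 198) (nat_lit 199) (nat_lit 3) (nat_lit 8) (nat_lit 10) L101208 (by decide +kernel)
theorem L101210 : W_39 (nat_lit 4) (nat_lit 0x3c000200090001c0000000000000000000000000000000) (nat_lit 0x0) (nat_lit 0x4000e0000000300000000400000000000000000000000000000000) := T_39 (nat_lit 164) (nat_lit 165) (nat_lit 2) (nat_lit 8) (nat_lit 10) L101209 (by decide +kernel)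
theorem L101211 : W_39 (nat_lit 5) (nat_lit 0x3c00020009000180000000000000000000000000000000) (nat_lit 0x0) (nat_lit 0x4000e0000000300000000440002000000000000000000000000000) := T_39 (nat_lit 126) (nat_lit 109) (nat_lit 4) (nat_lit 8) (nat_lit 10) L101210 (by decide +kernel)
theorem L101212 : W_39 (nat_lit 6) (nat_lit 0x2c00020009000180000000000000000000000000000000) (nat_lit 0x0) (nat_lit 0x4000e0001000310000000440002000000000000000000000000000) := T_39 (nat_lit 180) (nat_lit 160) (nat_lit 0) (nat_lit 11) (nat_lit 10) L101211 (by decide +kernel)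
theorem L101213 : W_39 (nat_lit 7) (nat_lit 0x2400020009000180000000000000000000000000000000) (nat_lit 0x0) (nat_lit 0x4000f0001800310000000440002000000000000000000000000000) := T_39 (nat_lit 179) (nat_lit 196) (nat_lit 7) (nat_lit 8) (nat_lit 7) L101212 (by decide +kernel)
theorem L101214 : W_39 (nat_lit 2) (nat_lit 0x48003c00120009000180000000000000000000000000000000) (nat_lit 0x0) (nat_lit 0x400020000000000000000400000000000000000000000000000000) := D_39 (nat_lit 197) (nat_lit 130) (nat_lit 214) (nat_lit 5) (nat_lit 11) (nat_lit 7) (nat_lit 5) (nat_lit 11) (nat_lit 8) (by decide +kernel)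
theorem L101215 : W_39 (nat_lit 3) (nat_lit 0x8003c00120009000180000000000000000000000000000000) (nat_lit 0x0) (nat_lit 0x4000e0000000000000000400000000000000000000000000000000) := T_39 (nat_lit 198) (nat_lit 199) (nat_lit 3) (nat_lit 8) (nat_lit 10) L101214 (by decide +kernel)
theorem L101216 : W_39 (nat_lit 4) (nat_lit 0x8003c00020009000180000000000000000000000000000000) (nat_lit 0x0) (nat_lit 0x4000e0000000300000000400000000000000000000000000000000) := T_39 (nat_lit 164) (nat_lit 165) (nat_lit 2) (nat_lit 8) (nat_lit 10) L101215 (by decide +kernel)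
theorem L101217 : W_39 (nat_lit 5) (nat_lit 0x3c00020009000180000000000000000000000000000000) (nat_lit 0x0) (nat_lit 0x4000ec000000300000000400000000000000000000000000000000) := T_39 (nat_lit 195) (nat_lit 194) (nat_lit 1) (nat_lit 11) (nat_lit 10) L101216 (by decide +kernel)
theorem L101218 : W_39 (nat_lit 6) (nat_lit 0x2c00020009000180000000000000000000000000000000) (nat_lit 0x0) (nat_lit 0x4000ec001000310000000400000000000000000000000000000000) := T_39 (nat_lit 180) (nat_lit 160) (nat_lit 0) (nat_lit 11) (nat_lit 10) L101217 (by decide +kernel)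
theorem L101219 : W_39 (nat_lit 7) (nat_lit 0x2400020009000180000000000000000000000000000000) (nat_lit 0x0) (nat_lit 0x4000fc001800310000000400000000000000000000000000000000) := T_39 (nat_lit 179) (nat_lit 196) (nat_lit 7) (nat_lit 8) (nat_lit 7) L101218 (by decide +kernel)
theorem L101220 : W_39 (nat_lit 2) (nat_lit 0x8002400020009000180000000000000000000000000000000) (nat_lit 0x0) (nat_lit 0x200010000800000000000000000000000000000000000000000000) := D_39 (nat_lit 196) (nat_lit 179) (nat_lit 213) (nat_lit 7) (nat_lit 8) (nat_lit 7) (nat_lit 7) (nat_lit 8) (nat_lit 8) (by decide +kernel)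
theorem L101221 : W_39 (nat_lit 2) (nat_lit 0x800048002c00120019000180000000000000000000000000000000) (nat_lit 0x0) (nat_lit 0x20001000080000000000000000000000000000000000000000000000000) := D_39 (nat_lit 216) (nat_lit 233) (nat_lit 199) (nat_lit 7) (nat_lit 11) (nat_lit 9) (nat_lit 7) (nat_lit 11) (nat_lit 8) (by decide +kernel)
theorem L101222 : W_39 (nat_lit 3) (nat_lit 0x48002c00120019000180000000000000000000000000000000) (nat_lit 0x0) (nat_lit 0x20001800080000000200000000000000000000000000000000000000000) := T_39 (nat_lit 215) (nat_lit 165) (nat_lit 6) (nat_lit 11) (nat_lit 12) L101221 (by decide +kernel)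
theorem L101223 : W_39 (nat_lit 4) (nat_lit 0x48002c00120009000180000000000000000000000000000000) (nat_lit 0x0) (nat_lit 0x20001800080000000200010000800000000000000000000000000000000) := T_39 (nat_lit 148) (nat_lit 131) (nat_lit 6) (nat_lit 11) (nat_lit 11) L101222 (by decide +kernel)
theorem L101224 : W_39 (nat_lit 5) (nat_lit 0x48002400120009000180000000000000000000000000000000) (nat_lit 0x0) (nat_lit 0x20001800090000800200010000800000000000000000000000000000000) := T_39 (nat_lit 179) (nat_lit 196) (nat_lit 7) (nat_lit 8) (nat_lit 7) L101223 (by decide +kernel)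
theorem L101225 : W_39 (nat_lit 2) (nat_lit 0x8000c8002400120019000180000000000000000000000000000000) (nat_lit 0x0) (nat_lit 0xc0004000000000000000000000000000000000000) := D_39 (nat_lit 163) (nat_lit 146) (nat_lit 162) (nat_lit 4) (nat_lit 11) (nat_lit 12) (nat_lit 2) (nat_lit 8) (nat_lit 9) (by decide +kernel)
theorem L101226 : W_39 (nat_lit 3) (nat_lit 0xc8002400120019000180000000000000000000000000000000) (nat_lit 0x0) (nat_lit 0x8000000000002c0004000000000000000000000000000000000000) := T_39 (nat_lit 215) (nat_lit 165) (nat_lit 6) (nat_lit 11) (nat_lit 12) L101225 (by decide +kernel)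
theorem L101227 : W_39 (nat_lit 4) (nat_lit 0xc8002400120009000180000000000000000000000000000000) (nat_lit 0x0) (nat_lit 0x8000000000002c0014000800000000000000000000000000000000) := T_39 (nat_lit 148) (nat_lit 131) (nat_lit 6) (nat_lit 11) (nat_lit 11) L101226 (by decide +kernel)
theorem L101228 : W_39 (nat_lit 5) (nat_lit 0x48002400120009000180000000000000000000000000000000) (nat_lit 0x0) (nat_lit 0x18000800000002c0014000800000000000000000000000000000000) := T_39 (nat_lit 199) (nat_lit 216) (nat_lit 7) (nat_lit 11) (nat_lit 8) L101227 (by decide +kernel)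
theorem L101229 : W_39 (nat_lit 2) (nat_lit 0xc8002c00120009000580000000000000000000000000000000) (nat_lit 0x0) (nat_lit 0x10000800040000000000000000000000000000) := D_39 (nat_lit 131) (nat_lit 148) (nat_lit 114) (nat_lit 6) (nat_lit 11) (nat_lit 11) (nat_lit 6) (nat_lit 11) (nat_lit 10) (by decide +kernel)
theorem L101230 : W_39 (nat_lit 3) (nat_lit 0xc8002c00120009000180000000000000000000000000000000) (nat_lit 0x0) (nat_lit 0x4000000010000c00040000000000000000000000000000) := T_39 (nat_lit 130) (nat_lit 182) (nat_lit 7) (nat_lit 11) (nat_lit 7) L101229 (by decide +kernel)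
theorem L101231 : W_39 (nat_lit 4) (nat_lit 0xc8002400120009000180000000000000000000000000000000) (nat_lit 0x0) (nat_lit 0x10004800000010000c00040000000000000000000000000000) := T_39 (nat_lit 179) (nat_lit 196) (nat_lit 7) (nat_lit 8) (nat_lit 7) L101230 (by decide +kernel)
theorem L101232 : W_39 (nat_lit 5) (nat_lit 0x48002400120009000180000000000000000000000000000000) (nat_lit 0x0) (nat_lit 0x1000090004800000010000c00040000000000000000000000000000) := T_39 (nat_lit 199) (nat_lit 216) (nat_lit 7) (nat_lit 11) (nat_lit 8) L101231 (by decide +kernel)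
theorem L101233 : W_39 (nat_lit 2) (nat_lit 0x800048002400120019000180000000000000000000000000000000) (nat_lit 0x0) (nat_lit 0xc0004000000000000000000000000000000000000) := D_39 (nat_lit 163) (nat_lit 146) (nat_lit 162) (nat_lit 4) (nat_lit 11) (nat_lit 12) (nat_lit 2) (nat_lit 8) (nat_lit 9) (by decide +kernel)
theorem L101234 : W_39 (nat_lit 3) (nat_lit 0x48002400120019000180000000000000000000000000000000) (nat_lit 0x0) (nat_lit 0x8000000000002c0004000000000000000000000000000000000000) := T_39 (nat_lit 215) (nat_lit 165) (nat_lit 6) (nat_lit 11) (nat_lit 12) L101233 (by decide +kernel)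
theorem L101235 : W_39 (nat_lit 4) (nat_lit 0x48002400120009000180000000000000000000000000000000) (nat_lit 0x0) (nat_lit 0x8000000000002c0014000800000000000000000000000000000000) := T_39 (nat_lit 148) (nat_lit 131) (nat_lit 6) (nat_lit 11) (nat_lit 11) L101234 (by decide +kernel)
theorem L101236 : W_39 (nat_lit 2) (nat_lit 0x8000e8016c001a00090001c0000000000000000000000000000000) (nat_lit 0x0) (nat_lit 0x200010000000000000000200000000000000000000000000000000000000000) := D_39 (nat_lit 232) (nat_lit 249) (nat_lit 165) (nat_lit 6) (nat_lit 11) (nat_lit 14) (nat_lit 6) (nat_lit 11) (nat_lit 13) (by decide +kernel)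
theorem L101237 : W_39 (nat_lit 3) (nat_lit 0xe8016c001a00090001c0000000000000000000000000000000) (nat_lit 0x0) (nat_lit 0x200010000800000000000200004000000000000000000000000000000000000) := T_39 (nat_lit 215) (nat_lit 146) (nat_lit 4) (nat_lit 11) (nat_lit 12) L101236 (by decide +kernel)
theorem L101238 : W_39 (nat_lit 4) (nat_lit 0xe8016c001200090001c0000000000000000000000000000000) (nat_lit 0x0) (nat_lit 0x2000100008000000000002c0004000000000000000000000000000000000000) := T_39 (nat_lit 163) (nat_lit 162) (nat_lit 3) (nat_lit 8) (nat_lit 9) L101237 (by decide +kernel)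
theorem L101239 : W_39 (nat_lit 5) (nat_lit 0xe8006c001200090001c0000000000000000000000000000000) (nat_lit 0x0) (nat_lit 0x2000100008000000180002c0004000000000000000000000000000000000000) := T_39 (nat_lit 184) (nat_lit 183) (nat_lit 1) (nat_lit 14) (nat_lit 10) L101238 (by decide +kernel)
theorem L101240 : W_39 (nat_lit 6) (nat_lit 0xe8006c00120009000180000000000000000000000000000000) (nat_lit 0x0) (nat_lit 0x2000100008000000180002c0004000040002000000000000000000000000000) := T_39 (nat_lit 126) (nat_lit 109) (nat_lit 4) (nat_lit 8) (nat_lit 10) L101239 (by decide +kernel)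
theorem L101241 : W_39 (nat_lit 7) (nat_lit 0xe8002c00120009000180000000000000000000000000000000) (nat_lit 0x0) (nat_lit 0x20001000080000001c0002c0004000440002000000000000000000000000000) := T_39 (nat_lit 182) (nat_lit 130) (nat_lit 7) (nat_lit 11) (nat_lit 7) L101240 (by decide +kernel)
theorem L101242 : W_39 (nat_lit 8) (nat_lit 0xc8002c00120009000180000000000000000000000000000000) (nat_lit 0x0) (nat_lit 0x200010000c0002001c0002c0004000440002000000000000000000000000000) := T_39 (nat_lit 197) (nat_lit 214) (nat_lit 5) (nat_lit 11) (nat_lit 8) L101241 (by decide +kernel)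
theorem L101243 : W_39 (nat_lit 9) (nat_lit 0x48002c00120009000180000000000000000000000000000000) (nat_lit 0x0) (nat_lit 0x200010001c000a001c0002c0004000440002000000000000000000000000000) := T_39 (nat_lit 199) (nat_lit 216) (nat_lit 7) (nat_lit 11) (nat_lit 8) L101242 (by decide +kernel)
theorem L101244 : W_39 (nat_lit 10) (nat_lit 0x48002400120009000180000000000000000000000000000000) (nat_lit 0x0) (nat_lit 0x200010001c000b001c8002c0004000440002000000000000000000000000000) := T_39 (nat_lit 179) (nat_lit 196) (nat_lit 7) (nat_lit 8) (nat_lit 7) L101243 (by decide +kernel)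
theorem L101245 : W_39 (nat_lit 11) (nat_lit 0x8002400120009000180000000000000000000000000000000) (nat_lit 0x0) (nat_lit 0x200030001c000f001c8002c0014000c40042000000000000000000000000000) := Q_39 (nat_lit 198) (C_39 L101224 (C_39 L101228 (C_39 L101232 (C_39 L101235 (C_39 L101244 N_39))))) (by decide +kernel)
theorem L101246 : W_39 (nat_lit 2) (nat_lit 0x9a00580024001200190001c0000000000000000000000000000000) (nat_lit 0x0) (nat_lit 0x20001000080000000000000000000000000000000000000000000000000) := D_39 (nat_lit 216) (nat_lit 233) (nat_lit 199) (nat_lit 7) (nat_lit 11) (nat_lit 9) (nat_lit 7) (nat_lit 11) (nat_lit 8) (by decide +kernel)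
theorem L101247 : W_39 (nat_lit 3) (nat_lit 0x1a00580024001200190001c0000000000000000000000000000000) (nat_lit 0x0) (nat_lit 0x20001800080000000200000000000000000000000000000000000000000) := T_39 (nat_lit 215) (nat_lit 165) (nat_lit 6) (nat_lit 11) (nat_lit 12) L101246 (by decide +kernel)
theorem L101248 : W_39 (nat_lit 4) (nat_lit 0x1a00580024001200090001c0000000000000000000000000000000) (nat_lit 0x0) (nat_lit 0x20001800080000000200010000800000000000000000000000000000000) := T_39 (nat_lit 148) (nat_lit 131) (nat_lit 6) (nat_lit 11) (nat_lit 11) L101247 (by decide +kernel)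
theorem L101249 : W_39 (nat_lit 5) (nat_lit 0x1a00180024001200090001c0000000000000000000000000000000) (nat_lit 0x0) (nat_lit 0x200018000e0000000200010000800000000000000000000000000000000) := T_39 (nat_lit 198) (nat_lit 197) (nat_lit 1) (nat_lit 11) (nat_lit 11) L101248 (by decide +kernel)
theorem L101250 : W_39 (nat_lit 6) (nat_lit 0x1800180024001200090001c0000000000000000000000000000000) (nat_lit 0x0) (nat_lit 0x200018600e0000000200010000800000000000000000000000000000000) := T_39 (nat_lit 209) (nat_lit 210) (nat_lit 2) (nat_lit 5) (nat_lit 12) L101249 (by decide +kernel)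
theorem L101251 : W_39 (nat_lit 7) (nat_lit 0x800180024001200090001c0000000000000000000000000000000) (nat_lit 0x0) (nat_lit 0x210019600e0000000200010000800000000000000000000000000000000) := T_39 (nat_lit 212) (nat_lit 228) (nat_lit 5) (nat_lit 8) (nat_lit 9) L101250 (by decide +kernel)
theorem L101252 : W_39 (nat_lit 8) (nat_lit 0x800080024001200090001c0000000000000000000000000000000) (nat_lit 0x0) (nat_lit 0x210019600f0000800200010000800000000000000000000000000000000) := T_39 (nat_lit 196) (nat_lit 179) (nat_lit 7) (nat_lit 8) (nat_lit 7) L101251 (by decide +kernel)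
theorem L101253 : W_39 (nat_lit 9) (nat_lit 0x80024001200090001c0000000000000000000000000000000) (nat_lit 0x0) (nat_lit 0x210019e00f4000800200010000800000000000000000000000000000000) := T_39 (nat_lit 211) (nat_lit 194) (nat_lit 5) (nat_lit 8) (nat_lit 8) L101252 (by decide +kernel)
theorem L101254 : W_39 (nat_lit 10) (nat_lit 0x8002400120009000180000000000000000000000000000000) (nat_lit 0x0) (nat_lit 0x210019e00f4000800200010000840002000000000000000000000000000) := T_39 (nat_lit 126) (nat_lit 109) (nat_lit 4) (nat_lit 8) (nat_lit 10) L101253 (by decide +kernel)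
theorem L101255 : W_39 (nat_lit 2) (nat_lit 0x180008002c00160009000180000000000000000000000000000000) (nat_lit 0x0) (nat_lit 0x280010000000000000000000000000000000000000) := D_39 (nat_lit 163) (nat_lit 148) (nat_lit 165) (nat_lit 2) (nat_lit 8) (nat_lit 9) (nat_lit 1) (nat_lit 12) (nat_lit 9) (by decide +kernel)
theorem L101256 : W_39 (nat_lit 3) (nat_lit 0x180008002c00120009000180000000000000000000000000000000) (nat_lit 0x0) (nat_lit 0x20000000000000002c0010000000000000000000000000000000000000) := T_39 (nat_lit 162) (nat_lit 229) (nat_lit 6) (nat_lit 8) (nat_lit 13) L101255 (by decide +kernel)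
theorem L101257 : W_39 (nat_lit 4) (nat_lit 0x80008002c00120009000180000000000000000000000000000000) (nat_lit 0x0) (nat_lit 0x30001000000000002c0010000000000000000000000000000000000000) := T_39 (nat_lit 212) (nat_lit 228) (nat_lit 5) (nat_lit 8) (nat_lit 9) L101256 (by decide +kernel)
theorem L101258 : W_39 (nat_lit 5) (nat_lit 0x8002c00120009000180000000000000000000000000000000) (nat_lit 0x0) (nat_lit 0x30001800040000002c0010000000000000000000000000000000000000) := T_39 (nat_lit 211) (nat_lit 194) (nat_lit 5) (nat_lit 8) (nat_lit 8) L101257 (by decide +kernel)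
theorem L101259 : W_39 (nat_lit 6) (nat_lit 0x8002400120009000180000000000000000000000000000000) (nat_lit 0x0) (nat_lit 0x30001800140008002c0010000000000000000000000000000000000000) := T_39 (nat_lit 179) (nat_lit 196) (nat_lit 7) (nat_lit 8) (nat_lit 7) L101258 (by decide +kernel)
theorem L101260 : W_39 (nat_lit 4) (nat_lit 0x4c002400120009000180000000000000000000000000000000) (nat_lit 0x0) (nat_lit 0x20001800080000000200010000800000000000000000000000000000000) := T_39 (nat_lit 148) (nat_lit 131) (nat_lit 6) (nat_lit 11) (nat_lit 11) L100580 (by decide +kernel)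
theorem L101261 : W_39 (nat_lit 5) (nat_lit 0x48002400120009000180000000000000000000000000000000) (nat_lit 0x0) (nat_lit 0x20001880084000000200010000800000000000000000000000000000000) := T_39 (nat_lit 194) (nat_lit 211) (nat_lit 5) (nat_lit 8) (nat_lit 8) L101260 (by decide +kernel)
theorem L101262 : W_39 (nat_lit 2) (nat_lit 0xcc002400120009000580000000000000000000000000000000) (nat_lit 0x0) (nat_lit 0x10000800040000000000000000000000000000) := D_39 (nat_lit 131) (nat_lit 148) (nat_lit 114) (nat_lit 6) (nat_lit 11) (nat_lit 11) (nat_lit 6) (nat_lit 11) (nat_lit 10) (by decide +kernel)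
theorem L101263 : W_39 (nat_lit 3) (nat_lit 0xcc002400120009000180000000000000000000000000000000) (nat_lit 0x0) (nat_lit 0x4000000010000c00040000000000000000000000000000) := T_39 (nat_lit 130) (nat_lit 182) (nat_lit 7) (nat_lit 11) (nat_lit 7) L101262 (by decide +kernel)
theorem L101264 : W_39 (nat_lit 4) (nat_lit 0xc8002400120009000180000000000000000000000000000000) (nat_lit 0x0) (nat_lit 0x80004004000000010000c00040000000000000000000000000000) := T_39 (nat_lit 194) (nat_lit 211) (nat_lit 5) (nat_lit 8) (nat_lit 8) L101263 (by decide +kernel)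
theorem L101265 : W_39 (nat_lit 5) (nat_lit 0x48002400120009000180000000000000000000000000000000) (nat_lit 0x0) (nat_lit 0x1080084004000000010000c00040000000000000000000000000000) := T_39 (nat_lit 199) (nat_lit 216) (nat_lit 7) (nat_lit 11) (nat_lit 8) L101264 (by decide +kernel)
theorem L101266 : W_39 (nat_lit 2) (nat_lit 0xec002400120009000180000000000000000000000000000000) (nat_lit 0x0) (nat_lit 0x10004000000000000400000000000000000000000000000000) := D_39 (nat_lit 182) (nat_lit 196) (nat_lit 130) (nat_lit 2) (nat_lit 8) (nat_lit 11) (nat_lit 7) (nat_lit 11) (nat_lit 7) (by decide +kernel)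
theorem L101267 : W_39 (nat_lit 3) (nat_lit 0xcc002400120009000180000000000000000000000000000000) (nat_lit 0x0) (nat_lit 0x400030004000000000000400000000000000000000000000000000) := T_39 (nat_lit 197) (nat_lit 214) (nat_lit 5) (nat_lit 11) (nat_lit 8) L101266 (by decide +kernel)
theorem L101268 : W_39 (nat_lit 4) (nat_lit 0x4c002400120009000180000000000000000000000000000000) (nat_lit 0x0) (nat_lit 0x14000b0004000000000000400000000000000000000000000000000) := T_39 (nat_lit 199) (nat_lit 216) (nat_lit 7) (nat_lit 11) (nat_lit 8) L101267 (by decide +kernel)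
theorem L101269 : W_39 (nat_lit 5) (nat_lit 0x48002400120009000180000000000000000000000000000000) (nat_lit 0x0) (nat_lit 0x14800b4004000000000000400000000000000000000000000000000) := T_39 (nat_lit 194) (nat_lit 211) (nat_lit 5) (nat_lit 8) (nat_lit 8) L101268 (by decide +kernel)
theorem L101270 : W_39 (nat_lit 6) (nat_lit 0x8002400120009000180000000000000000000000000000000) (nat_lit 0x0) (nat_lit 0x20001c800f40040002c0014000c00040000000000000000000000000000) := Q_39 (nat_lit 198) (C_39 L101235 (C_39 L101261 (C_39 L101265 (C_39 L101269 N_39)))) (by decide +kernel)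
theorem L101271 : W_39 (nat_lit 2) (nat_lit 0x8000ec0164001a00090001c0000000000000000000000000000000) (nat_lit 0x0) (nat_lit 0x200010000000000000000200000000000000000000000000000000000000000) := D_39 (nat_lit 232) (nat_lit 249) (nat_lit 165) (nat_lit 6) (nat_lit 11) (nat_lit 14) (nat_lit 6) (nat_lit 11) (nat_lit 13) (by decide +kernel)
theorem L101272 : W_39 (nat_lit 3) (nat_lit 0xec0164001a00090001c0000000000000000000000000000000) (nat_lit 0x0) (nat_lit 0x200010000800000000000200004000000000000000000000000000000000000) := T_39 (nat_lit 215) (nat_lit 146) (nat_lit 4) (nat_lit 11) (nat_lit 12) L101271 (by decide +kernel)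
theorem L101273 : W_39 (nat_lit 4) (nat_lit 0xec0164001200090001c0000000000000000000000000000000) (nat_lit 0x0) (nat_lit 0x2000100008000000000002c0004000000000000000000000000000000000000) := T_39 (nat_lit 163) (nat_lit 162) (nat_lit 3) (nat_lit 8) (nat_lit 9) L101272 (by decide +kernel)
theorem L101274 : W_39 (nat_lit 5) (nat_lit 0xec0064001200090001c0000000000000000000000000000000) (nat_lit 0x0) (nat_lit 0x2000100008000000180002c0004000000000000000000000000000000000000) := T_39 (nat_lit 184) (nat_lit 183) (nat_lit 1) (nat_lit 14) (nat_lit 10) L101273 (by decide +kernel)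
theorem L101275 : W_39 (nat_lit 6) (nat_lit 0xec006400120009000180000000000000000000000000000000) (nat_lit 0x0) (nat_lit 0x2000100008000000180002c0004000040002000000000000000000000000000) := T_39 (nat_lit 126) (nat_lit 109) (nat_lit 4) (nat_lit 8) (nat_lit 10) L101274 (by decide +kernel)
theorem L101276 : W_39 (nat_lit 7) (nat_lit 0xec002400120009000180000000000000000000000000000000) (nat_lit 0x0) (nat_lit 0x20001000080000001c0002c0004000440002000000000000000000000000000) := T_39 (nat_lit 182) (nat_lit 130) (nat_lit 7) (nat_lit 11) (nat_lit 7) L101275 (by decide +kernel)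
theorem L101277 : W_39 (nat_lit 8) (nat_lit 0xcc002400120009000180000000000000000000000000000000) (nat_lit 0x0) (nat_lit 0x200010000c0002001c0002c0004000440002000000000000000000000000000) := T_39 (nat_lit 197) (nat_lit 214) (nat_lit 5) (nat_lit 11) (nat_lit 8) L101276 (by decide +kernel)
theorem L101278 : W_39 (nat_lit 9) (nat_lit 0x4c002400120009000180000000000000000000000000000000) (nat_lit 0x0) (nat_lit 0x200010001c000a001c0002c0004000440002000000000000000000000000000) := T_39 (nat_lit 199) (nat_lit 216) (nat_lit 7) (nat_lit 11) (nat_lit 8) L101277 (by decide +kernel)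
theorem L101279 : W_39 (nat_lit 10) (nat_lit 0x48002400120009000180000000000000000000000000000000) (nat_lit 0x0) (nat_lit 0x200010001c800a401c0002c0004000440002000000000000000000000000000) := T_39 (nat_lit 194) (nat_lit 211) (nat_lit 5) (nat_lit 8) (nat_lit 8) L101278 (by decide +kernel)
theorem L101280 : W_39 (nat_lit 11) (nat_lit 0x8002400120009000180000000000000000000000000000000) (nat_lit 0x0) (nat_lit 0x200010001c800e401c0002c0014000c40042000000000000000000000000000) := Q_39 (nat_lit 198) (C_39 L101265 (C_39 L101235 (C_39 L101279 N_39))) (by decide +kernel)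
theorem L101281 : W_39 (nat_lit 2) (nat_lit 0x180008002c001600090001c0000000000000000000000000000000) (nat_lit 0x0) (nat_lit 0x4000280000000000000000000000000000000000000000) := D_39 (nat_lit 163) (nat_lit 182) (nat_lit 165) (nat_lit 3) (nat_lit 8) (nat_lit 9) (nat_lit 1) (nat_lit 12) (nat_lit 9) (by decide +kernel)
theorem L101282 : W_39 (nat_lit 3) (nat_lit 0x180008002c001200090001c0000000000000000000000000000000) (nat_lit 0x0) (nat_lit 0x20000000000040002c0000000000000000000000000000000000000000) := T_39 (nat_lit 162) (nat_lit 229) (nat_lit 6) (nat_lit 8) (nat_lit 13) L101281 (by decide +kernel)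
theorem L101283 : W_39 (nat_lit 4) (nat_lit 0x80008002c001200090001c0000000000000000000000000000000) (nat_lit 0x0) (nat_lit 0x30001000000040002c0000000000000000000000000000000000000000) := T_39 (nat_lit 212) (nat_lit 228) (nat_lit 5) (nat_lit 8) (nat_lit 9) L101282 (by decide +kernel)
theorem L101284 : W_39 (nat_lit 5) (nat_lit 0x8002c001200090001c0000000000000000000000000000000) (nat_lit 0x0) (nat_lit 0x30001800040040002c0000000000000000000000000000000000000000) := T_39 (nat_lit 211) (nat_lit 194) (nat_lit 5) (nat_lit 8) (nat_lit 8) L101283 (by decide +kernel)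
theorem L101285 : W_39 (nat_lit 6) (nat_lit 0x80024001200090001c0000000000000000000000000000000) (nat_lit 0x0) (nat_lit 0x30001800140048002c0000000000000000000000000000000000000000) := T_39 (nat_lit 179) (nat_lit 196) (nat_lit 7) (nat_lit 8) (nat_lit 7) L101284 (by decide +kernel)
theorem L101286 : W_39 (nat_lit 7) (nat_lit 0x8002400120009000180000000000000000000000000000000) (nat_lit 0x0) (nat_lit 0x30001800140048002c0000000040002000000000000000000000000000) := T_39 (nat_lit 126) (nat_lit 109) (nat_lit 4) (nat_lit 8) (nat_lit 10) L101285 (by decide +kernel)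
theorem L101287 : W_39 (nat_lit 2) (nat_lit 0x180008002c001600090001c0000000000000000000000000000000) (nat_lit 0x0) (nat_lit 0x4000080010000000000000000000000000000000000000) := D_39 (nat_lit 163) (nat_lit 148) (nat_lit 182) (nat_lit 2) (nat_lit 8) (nat_lit 9) (nat_lit 3) (nat_lit 8) (nat_lit 9) (by decide +kernel)
theorem L101288 : W_39 (nat_lit 3) (nat_lit 0x180008002c001200090001c0000000000000000000000000000000) (nat_lit 0x0) (nat_lit 0x20000000000040000c0010000000000000000000000000000000000000) := T_39 (nat_lit 162) (nat_lit 229) (nat_lit 6) (nat_lit 8) (nat_lit 13) L101287 (by decide +kernel)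
theorem L101289 : W_39 (nat_lit 4) (nat_lit 0x1800080024001200090001c0000000000000000000000000000000) (nat_lit 0x0) (nat_lit 0x20000000100048000c0010000000000000000000000000000000000000) := T_39 (nat_lit 179) (nat_lit 196) (nat_lit 7) (nat_lit 8) (nat_lit 7) L101288 (by decide +kernel)
theorem L101290 : W_39 (nat_lit 5) (nat_lit 0x800080024001200090001c0000000000000000000000000000000) (nat_lit 0x0) (nat_lit 0x30001000100048000c0010000000000000000000000000000000000000) := T_39 (nat_lit 212) (nat_lit 228) (nat_lit 5) (nat_lit 8) (nat_lit 9) L101289 (by decide +kernel)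
theorem L101291 : W_39 (nat_lit 6) (nat_lit 0x80008002400120009000180000000000000000000000000000000) (nat_lit 0x0) (nat_lit 0x30001000100048000c0010000040002000000000000000000000000000) := T_39 (nat_lit 126) (nat_lit 109) (nat_lit 4) (nat_lit 8) (nat_lit 10) L101290 (by decide +kernel)
theorem L101292 : W_39 (nat_lit 7) (nat_lit 0x8002400120009000180000000000000000000000000000000) (nat_lit 0x0) (nat_lit 0x30001800140048000c0010000040002000000000000000000000000000) := T_39 (nat_lit 211) (nat_lit 194) (nat_lit 5) (nat_lit 8) (nat_lit 8) L101291 (by decide +kernel)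
theorem L101293 : W_39 (nat_lit 12) (nat_lit 0x8002400020009000180000000000000000000000000000000) (nat_lit 0x0) (nat_lit 0x200033001de00f401c8003c0014000c40042000000000000000000000000000) := Q_39 (nat_lit 164) (C_39 L101245 (C_39 L101254 (C_39 L101259 (C_39 L101270 (C_39 L101280 (C_39 L101286 (C_39 L101292 N_39))))))) (by decide +kernel)
theorem L101294 : W_39 (nat_lit 2) (nat_lit 0x280008002400020009000180000000000000000000000000000000) (nat_lit 0x0) (nat_lit 0x5000100000000000000000000000000000000000000000000000000000) := D_39 (nat_lit 212) (nat_lit 230) (nat_lit 228) (nat_lit 7) (nat_lit 8) (nat_lit 9) (nat_lit 5) (nat_lit 8) (nat_lit 9) (by decide +kernel)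
theorem L101295 : W_39 (nat_lit 3) (nat_lit 0x200008002400020009000180000000000000000000000000000000) (nat_lit 0x0) (nat_lit 0x5000180004000000000000000000000000000000000000000000000000) := T_39 (nat_lit 211) (nat_lit 194) (nat_lit 5) (nat_lit 8) (nat_lit 8) L101294 (by decide +kernel)
theorem L101296 : W_39 (nat_lit 4) (nat_lit 0x8002400020009000180000000000000000000000000000000) (nat_lit 0x0) (nat_lit 0x5000380014000000000000000000000000000000000000000000000000) := T_39 (nat_lit 213) (nat_lit 196) (nat_lit 7) (nat_lit 8) (nat_lit 8) L101295 (by decide +kernel)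
theorem L101297 : W_39 (nat_lit 2) (nat_lit 0x8000480024001200190001c0000000000000000000000000000000) (nat_lit 0x0) (nat_lit 0x20001000080000000000000000000000000000000000000000000000000) := D_39 (nat_lit 216) (nat_lit 233) (nat_lit 199) (nat_lit 7) (nat_lit 11) (nat_lit 9) (nat_lit 7) (nat_lit 11) (nat_lit 8) (by decide +kernel)
theorem L101298 : W_39 (nat_lit 3) (nat_lit 0x480024001200190001c0000000000000000000000000000000) (nat_lit 0x0) (nat_lit 0x20001800080000000200000000000000000000000000000000000000000) := T_39 (nat_lit 215) (nat_lit 165) (nat_lit 6) (nat_lit 11) (nat_lit 12) L101297 (by decide +kernel)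
theorem L101299 : W_39 (nat_lit 4) (nat_lit 0x480024001200090001c0000000000000000000000000000000) (nat_lit 0x0) (nat_lit 0x20001800080000000200010000800000000000000000000000000000000) := T_39 (nat_lit 148) (nat_lit 131) (nat_lit 6) (nat_lit 11) (nat_lit 11) L101298 (by decide +kernel)
theorem L101300 : W_39 (nat_lit 5) (nat_lit 0x48002400120009000180000000000000000000000000000000) (nat_lit 0x0) (nat_lit 0x20001800080000000200010000840002000000000000000000000000000) := T_39 (nat_lit 126) (nat_lit 109) (nat_lit 4) (nat_lit 8) (nat_lit 10) L101299 (by decide +kernel)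
theorem L101301 : W_39 (nat_lit 2) (nat_lit 0xc80024001200090005c0000000000000000000000000000000) (nat_lit 0x0) (nat_lit 0x10000800040000000000000000000000000000) := D_39 (nat_lit 131) (nat_lit 148) (nat_lit 114) (nat_lit 6) (nat_lit 11) (nat_lit 11) (nat_lit 6) (nat_lit 11) (nat_lit 10) (by decide +kernel)
theorem L101302 : W_39 (nat_lit 3) (nat_lit 0xc80024001200090001c0000000000000000000000000000000) (nat_lit 0x0) (nat_lit 0x4000000010000c00040000000000000000000000000000) := T_39 (nat_lit 130) (nat_lit 182) (nat_lit 7) (nat_lit 11) (nat_lit 7) L101301 (by decide +kernel)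
theorem L101303 : W_39 (nat_lit 4) (nat_lit 0xc8002400120009000180000000000000000000000000000000) (nat_lit 0x0) (nat_lit 0x4000000010000c40042000000000000000000000000000) := T_39 (nat_lit 126) (nat_lit 109) (nat_lit 4) (nat_lit 8) (nat_lit 10) L101302 (by decide +kernel)
theorem L101304 : W_39 (nat_lit 5) (nat_lit 0x48002400120009000180000000000000000000000000000000) (nat_lit 0x0) (nat_lit 0x1000080004000000010000c40042000000000000000000000000000) := T_39 (nat_lit 199) (nat_lit 216) (nat_lit 7) (nat_lit 11) (nat_lit 8) L101303 (by decide +kernel)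
theorem L101305 : W_39 (nat_lit 2) (nat_lit 0x8000e80164001a00090001c0000000000000000000000000000000) (nat_lit 0x0) (nat_lit 0x200010000000000000000200000000000000000000000000000000000000000) := D_39 (nat_lit 232) (nat_lit 249) (nat_lit 165) (nat_lit 6) (nat_lit 11) (nat_lit 14) (nat_lit 6) (nat_lit 11) (nat_lit 13) (by decide +kernel)
theorem L101306 : W_39 (nat_lit 3) (nat_lit 0xe80164001a00090001c0000000000000000000000000000000) (nat_lit 0x0) (nat_lit 0x200010000800000000000200004000000000000000000000000000000000000) := T_39 (nat_lit 215) (nat_lit 146) (nat_lit 4) (nat_lit 11) (nat_lit 12) L101305 (by decide +kernel)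
theorem L101307 : W_39 (nat_lit 4) (nat_lit 0xe80064001a00090001c0000000000000000000000000000000) (nat_lit 0x0) (nat_lit 0x200010000800000018000200004000000000000000000000000000000000000) := T_39 (nat_lit 184) (nat_lit 183) (nat_lit 1) (nat_lit 14) (nat_lit 10) L101306 (by decide +kernel)
theorem L101308 : W_39 (nat_lit 5) (nat_lit 0xe80064001200090001c0000000000000000000000000000000) (nat_lit 0x0) (nat_lit 0x2000100008000000180002c0004000000000000000000000000000000000000) := T_39 (nat_lit 163) (nat_lit 162) (nat_lit 3) (nat_lit 8) (nat_lit 9) L101307 (by decide +kernel)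
theorem L101309 : W_39 (nat_lit 6) (nat_lit 0xe80024001200090001c0000000000000000000000000000000) (nat_lit 0x0) (nat_lit 0x20001000080000001c0002c0004000400000000000000000000000000000000) := T_39 (nat_lit 182) (nat_lit 130) (nat_lit 7) (nat_lit 11) (nat_lit 7) L101308 (by decide +kernel)
theorem L101310 : W_39 (nat_lit 7) (nat_lit 0xc80024001200090001c0000000000000000000000000000000) (nat_lit 0x0) (nat_lit 0x200010000c0002001c0002c0004000400000000000000000000000000000000) := T_39 (nat_lit 197) (nat_lit 214) (nat_lit 5) (nat_lit 11) (nat_lit 8) L101309 (by decide +kernel)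
theorem L101311 : W_39 (nat_lit 8) (nat_lit 0x480024001200090001c0000000000000000000000000000000) (nat_lit 0x0) (nat_lit 0x200010001c000a001c0002c0004000400000000000000000000000000000000) := T_39 (nat_lit 199) (nat_lit 216) (nat_lit 7) (nat_lit 11) (nat_lit 8) L101310 (by decide +kernel)
theorem L101312 : W_39 (nat_lit 9) (nat_lit 0x48002400120009000180000000000000000000000000000000) (nat_lit 0x0) (nat_lit 0x200010001c000a001c0002c0004000440002000000000000000000000000000) := T_39 (nat_lit 126) (nat_lit 109) (nat_lit 4) (nat_lit 8) (nat_lit 10) L101311 (by decide +kernel)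
theorem L101313 : W_39 (nat_lit 10) (nat_lit 0x8002400120009000180000000000000000000000000000000) (nat_lit 0x0) (nat_lit 0x200030001c000e001c0002c0014000c40042000000000000000000000000000) := Q_39 (nat_lit 198) (C_39 L101235 (C_39 L101300 (C_39 L101304 (C_39 L101312 N_39)))) (by decide +kernel)
theorem L101314 : W_39 (nat_lit 2) (nat_lit 0x800048002400120019000180000000000000000000000000000000) (nat_lit 0x0) (nat_lit 0x8000400020000000000000000000000000000000000000000000000000) := D_39 (nat_lit 214) (nat_lit 231) (nat_lit 197) (nat_lit 5) (nat_lit 11) (nat_lit 9) (nat_lit 5) (nat_lit 11) (nat_lit 8) (by decide +kernel)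
theorem L101315 : W_39 (nat_lit 3) (nat_lit 0x48002400120019000180000000000000000000000000000000) (nat_lit 0x0) (nat_lit 0x8000c00020000000200000000000000000000000000000000000000000) := T_39 (nat_lit 215) (nat_lit 165) (nat_lit 6) (nat_lit 11) (nat_lit 12) L101314 (by decide +kernel)
theorem L101316 : W_39 (nat_lit 4) (nat_lit 0x48002400120009000180000000000000000000000000000000) (nat_lit 0x0) (nat_lit 0x8000c00020000000200010000800000000000000000000000000000000) := T_39 (nat_lit 148) (nat_lit 131) (nat_lit 6) (nat_lit 11) (nat_lit 11) L101315 (by decide +kernel)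
theorem L101317 : W_39 (nat_lit 2) (nat_lit 0x160001800e80064001200090001c0000000000000000000000000000000) (nat_lit 0x0) (nat_lit 0x200000000800000000000200000000000000000000000000000000000000000) := D_39 (nat_lit 215) (nat_lit 249) (nat_lit 165) (nat_lit 6) (nat_lit 11) (nat_lit 14) (nat_lit 6) (nat_lit 11) (nat_lit 13) (by decide +kernel)
theorem L101318 : W_39 (nat_lit 3) (nat_lit 0x60001800e80064001200090001c0000000000000000000000000000000) (nat_lit 0x0) (nat_lit 0x200018000800000000000200000000000000000000000000000000000000000) := T_39 (nat_lit 232) (nat_lit 231) (nat_lit 0) (nat_lit 11) (nat_lit 13) L101317 (by decide +kernel)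
theorem L101319 : W_39 (nat_lit 4) (nat_lit 0x40001800e80064001200090001c0000000000000000000000000000000) (nat_lit 0x0) (nat_lit 0x28001a000800000000000200000000000000000000000000000000000000000) := T_39 (nat_lit 229) (nat_lit 247) (nat_lit 7) (nat_lit 8) (nat_lit 10) L101318 (by decide +kernel)
theorem L101320 : W_39 (nat_lit 5) (nat_lit 0x1800e80064001200090001c0000000000000000000000000000000) (nat_lit 0x0) (nat_lit 0x28001e000a00000000000200000000000000000000000000000000000000000) := T_39 (nat_lit 230) (nat_lit 213) (nat_lit 7) (nat_lit 8) (nat_lit 9) L101319 (by decide +kernel)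
theorem L101321 : W_39 (nat_lit 6) (nat_lit 0x800e80064001200090001c0000000000000000000000000000000) (nat_lit 0x0) (nat_lit 0x28001f000b00000000000200000000000000000000000000000000000000000) := T_39 (nat_lit 212) (nat_lit 228) (nat_lit 5) (nat_lit 8) (nat_lit 9) L101320 (by decide +kernel)
theorem L101322 : W_39 (nat_lit 7) (nat_lit 0xe80064001200090001c0000000000000000000000000000000) (nat_lit 0x0) (nat_lit 0x28001f000b80004000000200000000000000000000000000000000000000000) := T_39 (nat_lit 211) (nat_lit 194) (nat_lit 5) (nat_lit 8) (nat_lit 8) L101321 (by decide +kernel)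
theorem L101323 : W_39 (nat_lit 8) (nat_lit 0xe80024001200090001c0000000000000000000000000000000) (nat_lit 0x0) (nat_lit 0x28001f000b80004004000200000000400000000000000000000000000000000) := T_39 (nat_lit 182) (nat_lit 130) (nat_lit 7) (nat_lit 11) (nat_lit 7) L101322 (by decide +kernel)
theorem L101324 : W_39 (nat_lit 9) (nat_lit 0xc80024001200090001c0000000000000000000000000000000) (nat_lit 0x0) (nat_lit 0x28001f000f80024004000200000000400000000000000000000000000000000) := T_39 (nat_lit 197) (nat_lit 214) (nat_lit 5) (nat_lit 11) (nat_lit 8) L101323 (by decide +kernel)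
theorem L101325 : W_39 (nat_lit 10) (nat_lit 0x480024001200090001c0000000000000000000000000000000) (nat_lit 0x0) (nat_lit 0x28001f001f800a4004000200000000400000000000000000000000000000000) := T_39 (nat_lit 199) (nat_lit 216) (nat_lit 7) (nat_lit 11) (nat_lit 8) L101324 (by decide +kernel)
theorem L101326 : W_39 (nat_lit 11) (nat_lit 0x48002400120009000180000000000000000000000000000000) (nat_lit 0x0) (nat_lit 0x28001f001f800a4004000200000000440002000000000000000000000000000) := T_39 (nat_lit 126) (nat_lit 109) (nat_lit 4) (nat_lit 8) (nat_lit 10) L101325 (by decide +kernel)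
theorem L101327 : W_39 (nat_lit 12) (nat_lit 0x8002400120009000180000000000000000000000000000000) (nat_lit 0x0) (nat_lit 0x28003f001f800e4004000200010000c40042000000000000000000000000000) := Q_39 (nat_lit 198) (C_39 L101304 (C_39 L101265 (C_39 L101300 (C_39 L101316 (C_39 L101326 N_39))))) (by decide +kernel)
theorem L101328 : W_39 (nat_lit 2) (nat_lit 0x60001a0008002400160009000180000000000000000000000000000000) (nat_lit 0x0) (nat_lit 0x4000080010000000000000000000000000000000000000) := D_39 (nat_lit 163) (nat_lit 148) (nat_lit 182) (nat_lit 2) (nat_lit 8) (nat_lit 9) (nat_lit 3) (nat_lit 8) (nat_lit 9) (by decide +kernel)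
theorem L101329 : W_39 (nat_lit 3) (nat_lit 0x60001a0008002400120009000180000000000000000000000000000000) (nat_lit 0x0) (nat_lit 0x48000c0010000000000000000000000000000000000000) := T_39 (nat_lit 162) (nat_lit 179) (nat_lit 6) (nat_lit 8) (nat_lit 13) L101328 (by decide +kernel)
theorem L101330 : W_39 (nat_lit 4) (nat_lit 0x6000180008002400120009000180000000000000000000000000000000) (nat_lit 0x0) (nat_lit 0x600000048000c0010000000000000000000000000000000000000) := T_39 (nat_lit 209) (nat_lit 210) (nat_lit 3) (nat_lit 5) (nat_lit 12) L101329 (by decide +kernel)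
theorem L101331 : W_39 (nat_lit 5) (nat_lit 0x4000180008002400120009000180000000000000000000000000000000) (nat_lit 0x0) (nat_lit 0x800020000600000048000c0010000000000000000000000000000000000000) := T_39 (nat_lit 229) (nat_lit 247) (nat_lit 7) (nat_lit 8) (nat_lit 10) L101330 (by decide +kernel)
theorem L101332 : W_39 (nat_lit 6) (nat_lit 0x180008002400120009000180000000000000000000000000000000) (nat_lit 0x0) (nat_lit 0x800060002600000048000c0010000000000000000000000000000000000000) := T_39 (nat_lit 230) (nat_lit 213) (nat_lit 7) (nat_lit 8) (nat_lit 9) L101331 (by decide +kernel)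
theorem L101333 : W_39 (nat_lit 7) (nat_lit 0x80008002400120009000180000000000000000000000000000000) (nat_lit 0x0) (nat_lit 0x800070003600000048000c0010000000000000000000000000000000000000) := T_39 (nat_lit 212) (nat_lit 228) (nat_lit 5) (nat_lit 8) (nat_lit 9) L101332 (by decide +kernel)
theorem L101334 : W_39 (nat_lit 8) (nat_lit 0x8002400120009000180000000000000000000000000000000) (nat_lit 0x0) (nat_lit 0x800070003e00040048000c0010000000000000000000000000000000000000) := T_39 (nat_lit 211) (nat_lit 194) (nat_lit 5) (nat_lit 8) (nat_lit 8) L101333 (by decide +kernel)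
theorem L101335 : W_39 (nat_lit 2) (nat_lit 0x160001a00080024001600190009c0000000000000000000000000000000) (nat_lit 0x0) (nat_lit 0x200000000000040002000000000000000000000000) := D_39 (nat_lit 114) (nat_lit 97) (nat_lit 165) (nat_lit 5) (nat_lit 12) (nat_lit 5) (nat_lit 5) (nat_lit 12) (nat_lit 6) (by decide +kernel)
theorem L101336 : W_39 (nat_lit 3) (nat_lit 0x160001a00080024001600190001c0000000000000000000000000000000) (nat_lit 0x0) (nat_lit 0x40000000200000000800040002000000000000000000000000) := T_39 (nat_lit 131) (nat_lit 198) (nat_lit 6) (nat_lit 11) (nat_lit 11) L101335 (by decide +kernel)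
theorem L101337 : W_39 (nat_lit 4) (nat_lit 0x160001a00080024001600090001c0000000000000000000000000000000) (nat_lit 0x0) (nat_lit 0x40000000280010000800040002000000000000000000000000) := T_39 (nat_lit 148) (nat_lit 163) (nat_lit 2) (nat_lit 8) (nat_lit 9) L101336 (by decide +kernel)
theorem L101338 : W_39 (nat_lit 5) (nat_lit 0x60001a00080024001600090001c0000000000000000000000000000000) (nat_lit 0x0) (nat_lit 0x18000000040000000280010000800040002000000000000000000000000) := T_39 (nat_lit 232) (nat_lit 231) (nat_lit 0) (nat_lit 11) (nat_lit 13) L101337 (by decide +kernel)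
theorem L101339 : W_39 (nat_lit 6) (nat_lit 0x60001a00080024001200090001c0000000000000000000000000000000) (nat_lit 0x0) (nat_lit 0x180000000400008002c0010000800040002000000000000000000000000) := T_39 (nat_lit 162) (nat_lit 179) (nat_lit 6) (nat_lit 8) (nat_lit 13) L101338 (by decide +kernel)
theorem L101340 : W_39 (nat_lit 7) (nat_lit 0x60001800080024001200090001c0000000000000000000000000000000) (nat_lit 0x0) (nat_lit 0x180000600400008002c0010000800040002000000000000000000000000) := T_39 (nat_lit 209) (nat_lit 210) (nat_lit 3) (nat_lit 5) (nat_lit 12) L101339 (by decide +kernel)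
theorem L101341 : W_39 (nat_lit 8) (nat_lit 0x40001800080024001200090001c0000000000000000000000000000000) (nat_lit 0x0) (nat_lit 0x8001a0000600400008002c0010000800040002000000000000000000000000) := T_39 (nat_lit 229) (nat_lit 247) (nat_lit 7) (nat_lit 8) (nat_lit 10) L101340 (by decide +kernel)
theorem L101342 : W_39 (nat_lit 9) (nat_lit 0x1800080024001200090001c0000000000000000000000000000000) (nat_lit 0x0) (nat_lit 0x8001e0002600400008002c0010000800040002000000000000000000000000) := T_39 (nat_lit 230) (nat_lit 213) (nat_lit 7) (nat_lit 8) (nat_lit 9) L101341 (by decide +kernel)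
theorem L101343 : W_39 (nat_lit 10) (nat_lit 0x800080024001200090001c0000000000000000000000000000000) (nat_lit 0x0) (nat_lit 0x8001f0003600400008002c0010000800040002000000000000000000000000) := T_39 (nat_lit 212) (nat_lit 228) (nat_lit 5) (nat_lit 8) (nat_lit 9) L101342 (by decide +kernel)
theorem L101344 : W_39 (nat_lit 11) (nat_lit 0x80008002400120009000180000000000000000000000000000000) (nat_lit 0x0) (nat_lit 0x8001f0003600400008002c0010000840042002000000000000000000000000) := T_39 (nat_lit 126) (nat_lit 109) (nat_lit 4) (nat_lit 8) (nat_lit 10) L101343 (by decide +kernel)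
theorem L101345 : W_39 (nat_lit 12) (nat_lit 0x8002400120009000180000000000000000000000000000000) (nat_lit 0x0) (nat_lit 0x8001f0003e00440008002c0010000840042002000000000000000000000000) := T_39 (nat_lit 211) (nat_lit 194) (nat_lit 5) (nat_lit 8) (nat_lit 8) L101344 (by decide +kernel)
theorem L101346 : W_39 (nat_lit 2) (nat_lit 0x160001a00880064001600090001c0000000000000000000000000000000) (nat_lit 0x0) (nat_lit 0x20001000040000000000000000000000000000000000000000000000000) := D_39 (nat_lit 216) (nat_lit 198) (nat_lit 233) (nat_lit 7) (nat_lit 11) (nat_lit 8) (nat_lit 4) (nat_lit 12) (nat_lit 13) (by decide +kernel)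
theorem L101347 : W_39 (nat_lit 3) (nat_lit 0x160001a00080064001600090001c0000000000000000000000000000000) (nat_lit 0x0) (nat_lit 0x200010000c0000000000000000400000000000000000000000000000000) := T_39 (nat_lit 199) (nat_lit 130) (nat_lit 7) (nat_lit 11) (nat_lit 7) L101346 (by decide +kernel)
theorem L101348 : W_39 (nat_lit 4) (nat_lit 0x160001a00080024001600090001c0000000000000000000000000000000) (nat_lit 0x0) (nat_lit 0x200010000c0004000080000000400000000000000000000000000000000) := T_39 (nat_lit 182) (nat_lit 163) (nat_lit 3) (nat_lit 8) (nat_lit 9) L101347 (by decide +kernel)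
theorem L101349 : W_39 (nat_lit 5) (nat_lit 0x60001a00080024001600090001c0000000000000000000000000000000) (nat_lit 0x0) (nat_lit 0x380010000c0004000080000000400000000000000000000000000000000) := T_39 (nat_lit 232) (nat_lit 231) (nat_lit 0) (nat_lit 11) (nat_lit 13) L101348 (by decide +kernel)
theorem L101350 : W_39 (nat_lit 6) (nat_lit 0x60001a00080024001200090001c0000000000000000000000000000000) (nat_lit 0x0) (nat_lit 0x380010000c00048000c0000000400000000000000000000000000000000) := T_39 (nat_lit 162) (nat_lit 179) (nat_lit 6) (nat_lit 8) (nat_lit 13) L101349 (by decide +kernel)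
theorem L101351 : W_39 (nat_lit 7) (nat_lit 0x60001800080024001200090001c0000000000000000000000000000000) (nat_lit 0x0) (nat_lit 0x380010600c00048000c0000000400000000000000000000000000000000) := T_39 (nat_lit 209) (nat_lit 210) (nat_lit 3) (nat_lit 5) (nat_lit 12) L101350 (by decide +kernel)
theorem L101352 : W_39 (nat_lit 8) (nat_lit 0x40001800080024001200090001c0000000000000000000000000000000) (nat_lit 0x0) (nat_lit 0x8003a0010600c00048000c0000000400000000000000000000000000000000) := T_39 (nat_lit 229) (nat_lit 247) (nat_lit 7) (nat_lit 8) (nat_lit 10) L101351 (by decide +kernel)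
theorem L101353 : W_39 (nat_lit 9) (nat_lit 0x1800080024001200090001c0000000000000000000000000000000) (nat_lit 0x0) (nat_lit 0x8003e0012600c00048000c0000000400000000000000000000000000000000) := T_39 (nat_lit 230) (nat_lit 213) (nat_lit 7) (nat_lit 8) (nat_lit 9) L101352 (by decide +kernel)
theorem L101354 : W_39 (nat_lit 10) (nat_lit 0x800080024001200090001c0000000000000000000000000000000) (nat_lit 0x0) (nat_lit 0x8003f0013600c00048000c0000000400000000000000000000000000000000) := T_39 (nat_lit 212) (nat_lit 228) (nat_lit 5) (nat_lit 8) (nat_lit 9) L101353 (by decide +kernel)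
theorem L101355 : W_39 (nat_lit 11) (nat_lit 0x80024001200090001c0000000000000000000000000000000) (nat_lit 0x0) (nat_lit 0x8003f0013e00c40048000c0000000400000000000000000000000000000000) := T_39 (nat_lit 211) (nat_lit 194) (nat_lit 5) (nat_lit 8) (nat_lit 8) L101354 (by decide +kernel)
theorem L101356 : W_39 (nat_lit 12) (nat_lit 0x8002400120009000180000000000000000000000000000000) (nat_lit 0x0) (nat_lit 0x8003f0013e00c40048000c0000000440002000000000000000000000000000) := T_39 (nat_lit 126) (nat_lit 109) (nat_lit 4) (nat_lit 8) (nat_lit 10) L101355 (by decide +kernel)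
theorem L101357 : W_39 (nat_lit 13) (nat_lit 0x8002400020009000180000000000000000000000000000000) (nat_lit 0x0) (nat_lit 0x28003f001fe00e401c8003c0014000c40042002000000000000000000000000) := Q_39 (nat_lit 164) (C_39 L101313 (C_39 L101327 (C_39 L101334 (C_39 L101345 (C_39 L101356 N_39))))) (by decide +kernel)
theorem L101358 : W_39 (nat_lit 14) (nat_lit 0x2400020009000180000000000000000000000000000000) (nat_lit 0x0) (nat_lit 0x28003f001fe00fc01c8003c0014000c40042002000000000000000000000000) := Q_39 (nat_lit 195) (C_39 L101220 (C_39 L101293 (C_39 L101296 (C_39 L101357 N_39)))) (by decide +kernel)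
theorem L101359 : W_39 (nat_lit 2) (nat_lit 0x8000400024001200190001c0000000000000000000000000000000) (nat_lit 0x0) (nat_lit 0x20001000080000000000000000000000000000000000000000000000000) := D_39 (nat_lit 216) (nat_lit 233) (nat_lit 199) (nat_lit 7) (nat_lit 11) (nat_lit 9) (nat_lit 7) (nat_lit 11) (nat_lit 8) (by decide +kernel)
theorem L101360 : W_39 (nat_lit 3) (nat_lit 0x400024001200190001c0000000000000000000000000000000) (nat_lit 0x0) (nat_lit 0x20001800080000000200000000000000000000000000000000000000000) := T_39 (nat_lit 215) (nat_lit 165) (nat_lit 6) (nat_lit 11) (nat_lit 12) L101359 (by decide +kernel)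
theorem L101361 : W_39 (nat_lit 4) (nat_lit 0x400024001200090001c0000000000000000000000000000000) (nat_lit 0x0) (nat_lit 0x20001800080000000200010000800000000000000000000000000000000) := T_39 (nat_lit 148) (nat_lit 131) (nat_lit 6) (nat_lit 11) (nat_lit 11) L101360 (by decide +kernel)
theorem L101362 : W_39 (nat_lit 5) (nat_lit 0x40002400120009000180000000000000000000000000000000) (nat_lit 0x0) (nat_lit 0x20001800080000000200010000840002000000000000000000000000000) := T_39 (nat_lit 126) (nat_lit 109) (nat_lit 4) (nat_lit 8) (nat_lit 10) L101361 (by decide +kernel)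
theorem L101363 : W_39 (nat_lit 2) (nat_lit 0x8000c0002400120019000180000000000000000000000000000000) (nat_lit 0x0) (nat_lit 0xc0004000000000000000000000000000000000000) := D_39 (nat_lit 163) (nat_lit 146) (nat_lit 162) (nat_lit 4) (nat_lit 11) (nat_lit 12) (nat_lit 2) (nat_lit 8) (nat_lit 9) (by decide +kernel)
theorem L101364 : W_39 (nat_lit 3) (nat_lit 0xc0002400120019000180000000000000000000000000000000) (nat_lit 0x0) (nat_lit 0x8000000000002c0004000000000000000000000000000000000000) := T_39 (nat_lit 215) (nat_lit 165) (nat_lit 6) (nat_lit 11) (nat_lit 12) L101363 (by decide +kernel)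
theorem L101365 : W_39 (nat_lit 4) (nat_lit 0xc0002400120009000180000000000000000000000000000000) (nat_lit 0x0) (nat_lit 0x8000000000002c0014000800000000000000000000000000000000) := T_39 (nat_lit 148) (nat_lit 131) (nat_lit 6) (nat_lit 11) (nat_lit 11) L101364 (by decide +kernel)
theorem L101366 : W_39 (nat_lit 5) (nat_lit 0x40002400120009000180000000000000000000000000000000) (nat_lit 0x0) (nat_lit 0x18000800000002c0014000800000000000000000000000000000000) := T_39 (nat_lit 199) (nat_lit 216) (nat_lit 7) (nat_lit 11) (nat_lit 8) L101365 (by decide +kernel)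
theorem L101367 : W_39 (nat_lit 2) (nat_lit 0xc00024001200090005c0000000000000000000000000000000) (nat_lit 0x0) (nat_lit 0x400020001000000000000000000000000000000000000000000000) := D_39 (nat_lit 197) (nat_lit 180) (nat_lit 214) (nat_lit 5) (nat_lit 11) (nat_lit 7) (nat_lit 5) (nat_lit 11) (nat_lit 8) (by decide +kernel)
theorem L101368 : W_39 (nat_lit 3) (nat_lit 0xc00024001200090001c0000000000000000000000000000000) (nat_lit 0x0) (nat_lit 0x400020005000000000000400000000000000000000000000000000) := T_39 (nat_lit 130) (nat_lit 182) (nat_lit 7) (nat_lit 11) (nat_lit 7) L101367 (by decide +kernel)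
theorem L101369 : W_39 (nat_lit 4) (nat_lit 0xc0002400120009000180000000000000000000000000000000) (nat_lit 0x0) (nat_lit 0x400020005000000000000440002000000000000000000000000000) := T_39 (nat_lit 126) (nat_lit 109) (nat_lit 4) (nat_lit 8) (nat_lit 10) L101368 (by decide +kernel)
theorem L101370 : W_39 (nat_lit 5) (nat_lit 0x40002400120009000180000000000000000000000000000000) (nat_lit 0x0) (nat_lit 0x14000a0005000000000000440002000000000000000000000000000) := T_39 (nat_lit 199) (nat_lit 216) (nat_lit 7) (nat_lit 11) (nat_lit 8) L101369 (by decide +kernel)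
theorem L101371 : W_39 (nat_lit 2) (nat_lit 0x8000400024001200190001c0000000000000000000000000000000) (nat_lit 0x0) (nat_lit 0xc0004000000000000000000000000000000000000) := D_39 (nat_lit 163) (nat_lit 146) (nat_lit 162) (nat_lit 4) (nat_lit 11) (nat_lit 12) (nat_lit 2) (nat_lit 8) (nat_lit 9) (by decide +kernel)
theorem L101372 : W_39 (nat_lit 3) (nat_lit 0x400024001200190001c0000000000000000000000000000000) (nat_lit 0x0) (nat_lit 0x8000000000002c0004000000000000000000000000000000000000) := T_39 (nat_lit 215) (nat_lit 165) (nat_lit 6) (nat_lit 11) (nat_lit 12) L101371 (by decide +kernel)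
theorem L101373 : W_39 (nat_lit 4) (nat_lit 0x400024001200090001c0000000000000000000000000000000) (nat_lit 0x0) (nat_lit 0x8000000000002c0014000800000000000000000000000000000000) := T_39 (nat_lit 148) (nat_lit 131) (nat_lit 6) (nat_lit 11) (nat_lit 11) L101372 (by decide +kernel)
theorem L101374 : W_39 (nat_lit 5) (nat_lit 0x40002400120009000180000000000000000000000000000000) (nat_lit 0x0) (nat_lit 0x8000000000002c0014000840002000000000000000000000000000) := T_39 (nat_lit 126) (nat_lit 109) (nat_lit 4) (nat_lit 8) (nat_lit 10) L101373 (by decide +kernel)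
theorem L101375 : W_39 (nat_lit 6) (nat_lit 0x2400120009000180000000000000000000000000000000) (nat_lit 0x0) (nat_lit 0x20001c000e00050002c0014000c40002000000000000000000000000000) := Q_39 (nat_lit 198) (C_39 L101362 (C_39 L101366 (C_39 L101370 (C_39 L101374 N_39)))) (by decide +kernel)
theorem L101376 : W_39 (nat_lit 2) (nat_lit 0x800040002400120019000180000000000000000000000000000000) (nat_lit 0x0) (nat_lit 0x20001000080000000000000000000000000000000000000000000000000) := D_39 (nat_lit 216) (nat_lit 233) (nat_lit 199) (nat_lit 7) (nat_lit 11) (nat_lit 9) (nat_lit 7) (nat_lit 11) (nat_lit 8) (by decide +kernel)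
theorem L101377 : W_39 (nat_lit 3) (nat_lit 0x40002400120019000180000000000000000000000000000000) (nat_lit 0x0) (nat_lit 0x20001800080000000200000000000000000000000000000000000000000) := T_39 (nat_lit 215) (nat_lit 165) (nat_lit 6) (nat_lit 11) (nat_lit 12) L101376 (by decide +kernel)
theorem L101378 : W_39 (nat_lit 4) (nat_lit 0x40002400120009000180000000000000000000000000000000) (nat_lit 0x0) (nat_lit 0x20001800080000000200010000800000000000000000000000000000000) := T_39 (nat_lit 148) (nat_lit 131) (nat_lit 6) (nat_lit 11) (nat_lit 11) L101377 (by decide +kernel)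
theorem L101379 : W_39 (nat_lit 2) (nat_lit 0x8000400024001200190001c0000000000000000000000000000000) (nat_lit 0x0) (nat_lit 0x8000400020000000000000000000000000000000000000000000000000) := D_39 (nat_lit 214) (nat_lit 231) (nat_lit 197) (nat_lit 5) (nat_lit 11) (nat_lit 9) (nat_lit 5) (nat_lit 11) (nat_lit 8) (by decide +kernel)
theorem L101380 : W_39 (nat_lit 3) (nat_lit 0x400024001200190001c0000000000000000000000000000000) (nat_lit 0x0) (nat_lit 0x8000c00020000000200000000000000000000000000000000000000000) := T_39 (nat_lit 215) (nat_lit 165) (nat_lit 6) (nat_lit 11) (nat_lit 12) L101379 (by decide +kernel)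
theorem L101381 : W_39 (nat_lit 4) (nat_lit 0x400024001200090001c0000000000000000000000000000000) (nat_lit 0x0) (nat_lit 0x8000c00020000000200010000800000000000000000000000000000000) := T_39 (nat_lit 148) (nat_lit 131) (nat_lit 6) (nat_lit 11) (nat_lit 11) L101380 (by decide +kernel)
theorem L101382 : W_39 (nat_lit 5) (nat_lit 0x40002400120009000180000000000000000000000000000000) (nat_lit 0x0) (nat_lit 0x8000c00020000000200010000840002000000000000000000000000000) := T_39 (nat_lit 126) (nat_lit 109) (nat_lit 4) (nat_lit 8) (nat_lit 10) L101381 (by decide +kernel)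
theorem L101383 : W_39 (nat_lit 6) (nat_lit 0x2400120009000180000000000000000000000000000000) (nat_lit 0x0) (nat_lit 0x28001c000e0005000200010000c40002000000000000000000000000000) := Q_39 (nat_lit 198) (C_39 L101370 (C_39 L101378 (C_39 L101382 N_39))) (by decide +kernel)
theorem L101384 : W_39 (nat_lit 2) (nat_lit 0x60002400160019000580000000000000000000000000000000) (nat_lit 0x0) (nat_lit 0x1000080004000000000000000000000000000000000000000000000) := D_39 (nat_lit 199) (nat_lit 216) (nat_lit 182) (nat_lit 7) (nat_lit 11) (nat_lit 8) (nat_lit 7) (nat_lit 11) (nat_lit 7) (by decide +kernel)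
theorem L101385 : W_39 (nat_lit 3) (nat_lit 0x60002400160019000180000000000000000000000000000000) (nat_lit 0x0) (nat_lit 0x1000080005000000000000400000000000000000000000000000000) := T_39 (nat_lit 130) (nat_lit 180) (nat_lit 5) (nat_lit 11) (nat_lit 7) L101384 (by decide +kernel)
theorem L101386 : W_39 (nat_lit 4) (nat_lit 0x60002400120019000180000000000000000000000000000000) (nat_lit 0x0) (nat_lit 0x10000800050000c0000000400000000000000000000000000000000) := T_39 (nat_lit 162) (nat_lit 163) (nat_lit 2) (nat_lit 8) (nat_lit 9) L101385 (by decide +kernel)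
theorem L101387 : W_39 (nat_lit 5) (nat_lit 0x60002400120009000180000000000000000000000000000000) (nat_lit 0x0) (nat_lit 0x10000800050000c0010000c00000000000000000000000000000000) := T_39 (nat_lit 148) (nat_lit 131) (nat_lit 6) (nat_lit 11) (nat_lit 11) L101386 (by decide +kernel)
theorem L101388 : W_39 (nat_lit 6) (nat_lit 0x40002400120009000180000000000000000000000000000000) (nat_lit 0x0) (nat_lit 0x14000a00050000c0010000c00000000000000000000000000000000) := T_39 (nat_lit 197) (nat_lit 214) (nat_lit 5) (nat_lit 11) (nat_lit 8) L101387 (by decide +kernel)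
theorem L101389 : W_39 (nat_lit 2) (nat_lit 0x800040002400120019000180000000000000000000000000000000) (nat_lit 0x0) (nat_lit 0xc0004000000000000000000000000000000000000) := D_39 (nat_lit 163) (nat_lit 146) (nat_lit 162) (nat_lit 4) (nat_lit 11) (nat_lit 12) (nat_lit 2) (nat_lit 8) (nat_lit 9) (by decide +kernel)
theorem L101390 : W_39 (nat_lit 3) (nat_lit 0x40002400120019000180000000000000000000000000000000) (nat_lit 0x0) (nat_lit 0x8000000000002c0004000000000000000000000000000000000000) := T_39 (nat_lit 215) (nat_lit 165) (nat_lit 6) (nat_lit 11) (nat_lit 12) L101389 (by decide +kernel)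
theorem L101391 : W_39 (nat_lit 4) (nat_lit 0x40002400120009000180000000000000000000000000000000) (nat_lit 0x0) (nat_lit 0x8000000000002c0014000800000000000000000000000000000000) := T_39 (nat_lit 148) (nat_lit 131) (nat_lit 6) (nat_lit 11) (nat_lit 11) L101390 (by decide +kernel)
theorem L101392 : W_39 (nat_lit 2) (nat_lit 0xe0002400120009000180000000000000000000000000000000) (nat_lit 0x0) (nat_lit 0x5000000000000400000000000000000000000000000000) := D_39 (nat_lit 130) (nat_lit 180) (nat_lit 182) (nat_lit 5) (nat_lit 11) (nat_lit 7) (nat_lit 7) (nat_lit 11) (nat_lit 7) (by decide +kernel)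
theorem L101393 : W_39 (nat_lit 3) (nat_lit 0x60002400120009000180000000000000000000000000000000) (nat_lit 0x0) (nat_lit 0x1000080005000000000000400000000000000000000000000000000) := T_39 (nat_lit 199) (nat_lit 216) (nat_lit 7) (nat_lit 11) (nat_lit 8) L101392 (by decide +kernel)
theorem L101394 : W_39 (nat_lit 4) (nat_lit 0x40002400120009000180000000000000000000000000000000) (nat_lit 0x0) (nat_lit 0x14000a0005000000000000400000000000000000000000000000000) := T_39 (nat_lit 197) (nat_lit 214) (nat_lit 5) (nat_lit 11) (nat_lit 8) L101393 (by decide +kernel)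
theorem L101395 : W_39 (nat_lit 7) (nat_lit 0x2400120009000180000000000000000000000000000000) (nat_lit 0x0) (nat_lit 0x20001c000e00050002c0014000c00000000000000000000000000000000) := Q_39 (nat_lit 198) (C_39 L101378 (C_39 L101388 (C_39 L101391 (C_39 L101394 N_39)))) (by decide +kernel)
theorem L101396 : W_39 (nat_lit 2) (nat_lit 0xe00064001600190001c0000000000000000000000000000000) (nat_lit 0x0) (nat_lit 0x18008000000000000000000000000000000000000000000000) := D_39 (nat_lit 196) (nat_lit 183) (nat_lit 195) (nat_lit 2) (nat_lit 9) (nat_lit 11) (nat_lit 2) (nat_lit 8) (nat_lit 11) (by decide +kernel)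
theorem L101397 : W_39 (nat_lit 3) (nat_lit 0xe00024001600190001c0000000000000000000000000000000) (nat_lit 0x0) (nat_lit 0x1800c000000000000400000000000000000000000000000000) := T_39 (nat_lit 182) (nat_lit 130) (nat_lit 7) (nat_lit 11) (nat_lit 7) L101396 (by decide +kernel)
theorem L101398 : W_39 (nat_lit 4) (nat_lit 0xc00024001600190001c0000000000000000000000000000000) (nat_lit 0x0) (nat_lit 0x40003800c000000000000400000000000000000000000000000000) := T_39 (nat_lit 197) (nat_lit 214) (nat_lit 5) (nat_lit 11) (nat_lit 8) L101397 (by decide +kernel)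
theorem L101399 : W_39 (nat_lit 5) (nat_lit 0x400024001600190001c0000000000000000000000000000000) (nat_lit 0x0) (nat_lit 0x14000b800c000000000000400000000000000000000000000000000) := T_39 (nat_lit 199) (nat_lit 216) (nat_lit 7) (nat_lit 11) (nat_lit 8) L101398 (by decide +kernel)
theorem L101400 : W_39 (nat_lit 6) (nat_lit 0x400024001200190001c0000000000000000000000000000000) (nat_lit 0x0) (nat_lit 0x14000b800c0000c0000000400000000000000000000000000000000) := T_39 (nat_lit 162) (nat_lit 163) (nat_lit 2) (nat_lit 8) (nat_lit 9) L101399 (by decide +kernel)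
theorem L101401 : W_39 (nat_lit 7) (nat_lit 0x400024001200090001c0000000000000000000000000000000) (nat_lit 0x0) (nat_lit 0x14000b800c0000c0010000c00000000000000000000000000000000) := T_39 (nat_lit 148) (nat_lit 131) (nat_lit 6) (nat_lit 11) (nat_lit 11) L101400 (by decide +kernel)
theorem L101402 : W_39 (nat_lit 8) (nat_lit 0x40002400120009000180000000000000000000000000000000) (nat_lit 0x0) (nat_lit 0x14000b800c0000c0010000c40002000000000000000000000000000) := T_39 (nat_lit 126) (nat_lit 109) (nat_lit 4) (nat_lit 8) (nat_lit 10) L101401 (by decide +kernel)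
theorem L101403 : W_39 (nat_lit 2) (nat_lit 0xe00064001200090001c0000000000000000000000000000000) (nat_lit 0x0) (nat_lit 0x18008000000000000000000000000000000000000000000000) := D_39 (nat_lit 196) (nat_lit 183) (nat_lit 195) (nat_lit 2) (nat_lit 9) (nat_lit 11) (nat_lit 2) (nat_lit 8) (nat_lit 11) (by decide +kernel)
theorem L101404 : W_39 (nat_lit 3) (nat_lit 0xc00064001200090001c0000000000000000000000000000000) (nat_lit 0x0) (nat_lit 0x400038008000000000000000000000000000000000000000000000) := T_39 (nat_lit 197) (nat_lit 214) (nat_lit 5) (nat_lit 11) (nat_lit 8) L101403 (by decide +kernel)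
theorem L101405 : W_39 (nat_lit 4) (nat_lit 0xc00024001200090001c0000000000000000000000000000000) (nat_lit 0x0) (nat_lit 0x40003800c000000000000400000000000000000000000000000000) := T_39 (nat_lit 182) (nat_lit 130) (nat_lit 7) (nat_lit 11) (nat_lit 7) L101404 (by decide +kernel)
theorem L101406 : W_39 (nat_lit 5) (nat_lit 0xc0002400120009000180000000000000000000000000000000) (nat_lit 0x0) (nat_lit 0x40003800c000000000000440002000000000000000000000000000) := T_39 (nat_lit 126) (nat_lit 109) (nat_lit 4) (nat_lit 8) (nat_lit 10) L101405 (by decide +kernel)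
theorem L101407 : W_39 (nat_lit 6) (nat_lit 0x40002400120009000180000000000000000000000000000000) (nat_lit 0x0) (nat_lit 0x14000b800c000000000000440002000000000000000000000000000) := T_39 (nat_lit 199) (nat_lit 216) (nat_lit 7) (nat_lit 11) (nat_lit 8) L101406 (by decide +kernel)
theorem L101408 : W_39 (nat_lit 9) (nat_lit 0x2400120009000180000000000000000000000000000000) (nat_lit 0x0) (nat_lit 0x8001c000f800c0002c0014000c40002000000000000000000000000000) := Q_39 (nat_lit 198) (C_39 L101391 (C_39 L101382 (C_39 L101402 (C_39 L101407 N_39)))) (by decide +kernel)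
theorem L101409 : W_39 (nat_lit 2) (nat_lit 0x6400160019000dc0020000800000000000000000000000) (nat_lit 0x0) (nat_lit 0x10000c0000000000000000000) := D_39 (nat_lit 96) (nat_lit 79) (nat_lit 78) (nat_lit 7) (nat_lit 11) (nat_lit 4) (nat_lit 4) (nat_lit 11) (nat_lit 8) (by decide +kernel)
theorem L101410 : W_39 (nat_lit 3) (nat_lit 0x6400160019000dc0020000000000000000000000000000) (nat_lit 0x0) (nat_lit 0x100018000c0000000000000000000) := T_39 (nat_lit 95) (nat_lit 112) (nat_lit 4) (nat_lit 11) (nat_lit 9) L101409 (by decide +kernel)
theorem L101411 : W_39 (nat_lit 4) (nat_lit 0x6400160019000dc0000000000000000000000000000000) (nat_lit 0x0) (nat_lit 0x2000000000000300018000c0000000000000000000) := T_39 (nat_lit 113) (nat_lit 165) (nat_lit 7) (nat_lit 11) (nat_lit 6) L101410 (by decide +kernel)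
theorem L101412 : W_39 (nat_lit 5) (nat_lit 0x6400160009000dc0000000000000000000000000000000) (nat_lit 0x0) (nat_lit 0x400000002000100000000300018000c0000000000000000000) := T_39 (nat_lit 148) (nat_lit 198) (nat_lit 6) (nat_lit 11) (nat_lit 11) L101411 (by decide +kernel)
theorem L101413 : W_39 (nat_lit 6) (nat_lit 0x64001600090005c0000000000000000000000000000000) (nat_lit 0x0) (nat_lit 0x400000002000100008000700018000c0000000000000000000) := T_39 (nat_lit 131) (nat_lit 114) (nat_lit 6) (nat_lit 11) (nat_lit 10) L101412 (by decide +kernel)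
theorem L101414 : W_39 (nat_lit 7) (nat_lit 0x64001200090005c0000000000000000000000000000000) (nat_lit 0x0) (nat_lit 0x400000002c00100008000700018000c0000000000000000000) := T_39 (nat_lit 162) (nat_lit 163) (nat_lit 3) (nat_lit 8) (nat_lit 9) L101413 (by decide +kernel)
theorem L101415 : W_39 (nat_lit 8) (nat_lit 0x64001200090001c0000000000000000000000000000000) (nat_lit 0x0) (nat_lit 0xc00000002c0010000c000700018000c0000000000000000000) := T_39 (nat_lit 130) (nat_lit 199) (nat_lit 7) (nat_lit 11) (nat_lit 7) L101414 (by decide +kernel)
theorem L101416 : W_39 (nat_lit 9) (nat_lit 0x6400120009000180000000000000000000000000000000) (nat_lit 0x0) (nat_lit 0xc00000002c0010000c400720018000c0000000000000000000) := T_39 (nat_lit 126) (nat_lit 109) (nat_lit 4) (nat_lit 8) (nat_lit 10) L101415 (by decide +kernel)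
theorem L101417 : W_39 (nat_lit 2) (nat_lit 0x6400120019000dc0020000800000000000000000000000) (nat_lit 0x0) (nat_lit 0x10000c0000000000000000000) := D_39 (nat_lit 96) (nat_lit 79) (nat_lit 78) (nat_lit 7) (nat_lit 11) (nat_lit 4) (nat_lit 4) (nat_lit 11) (nat_lit 8) (by decide +kernel)
theorem L101418 : W_39 (nat_lit 3) (nat_lit 0x6400120019000dc0020000000000000000000000000000) (nat_lit 0x0) (nat_lit 0x100018000c0000000000000000000) := T_39 (nat_lit 95) (nat_lit 112) (nat_lit 4) (nat_lit 11) (nat_lit 9) L101417 (by decide +kernel)
theorem L101419 : W_39 (nat_lit 4) (nat_lit 0x6400120019000dc0000000000000000000000000000000) (nat_lit 0x0) (nat_lit 0x2000000000000300018000c0000000000000000000) := T_39 (nat_lit 113) (nat_lit 165) (nat_lit 7) (nat_lit 11) (nat_lit 6) L101418 (by decide +kernel)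
theorem L101420 : W_39 (nat_lit 5) (nat_lit 0x6400120009000dc0000000000000000000000000000000) (nat_lit 0x0) (nat_lit 0x400000002000100000000300018000c0000000000000000000) := T_39 (nat_lit 148) (nat_lit 198) (nat_lit 6) (nat_lit 11) (nat_lit 11) L101419 (by decide +kernel)
theorem L101421 : W_39 (nat_lit 6) (nat_lit 0x64001200090005c0000000000000000000000000000000) (nat_lit 0x0) (nat_lit 0x400000002000100008000700018000c0000000000000000000) := T_39 (nat_lit 131) (nat_lit 114) (nat_lit 6) (nat_lit 11) (nat_lit 10) L101420 (by decide +kernel)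
theorem L101422 : W_39 (nat_lit 7) (nat_lit 0x6400120009000580000000000000000000000000000000) (nat_lit 0x0) (nat_lit 0x400000002000100008400720018000c0000000000000000000) := T_39 (nat_lit 126) (nat_lit 109) (nat_lit 4) (nat_lit 8) (nat_lit 10) L101421 (by decide +kernel)
theorem L101423 : W_39 (nat_lit 8) (nat_lit 0x6400120009000180000000000000000000000000000000) (nat_lit 0x0) (nat_lit 0xc0000000200010000c400720018000c0000000000000000000) := T_39 (nat_lit 130) (nat_lit 199) (nat_lit 7) (nat_lit 11) (nat_lit 7) L101422 (by decide +kernel)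
theorem L101424 : W_39 (nat_lit 2) (nat_lit 0x6400160019000d80020000800000000000000000000000) (nat_lit 0x0) (nat_lit 0x10000c0000000000000000000) := D_39 (nat_lit 96) (nat_lit 79) (nat_lit 78) (nat_lit 7) (nat_lit 11) (nat_lit 4) (nat_lit 4) (nat_lit 11) (nat_lit 8) (by decide +kernel)
theorem L101425 : W_39 (nat_lit 3) (nat_lit 0x6400160019000d80020000000000000000000000000000) (nat_lit 0x0) (nat_lit 0x100018000c0000000000000000000) := T_39 (nat_lit 95) (nat_lit 112) (nat_lit 4) (nat_lit 11) (nat_lit 9) L101424 (by decide +kernel)
theorem L101426 : W_39 (nat_lit 4) (nat_lit 0x6400160019000d80000000000000000000000000000000) (nat_lit 0x0) (nat_lit 0x2000000000000300018000c0000000000000000000) := T_39 (nat_lit 113) (nat_lit 165) (nat_lit 7) (nat_lit 11) (nat_lit 6) L101425 (by decide +kernel)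
theorem L101427 : W_39 (nat_lit 5) (nat_lit 0x6400160009000d80000000000000000000000000000000) (nat_lit 0x0) (nat_lit 0x400000002000100000000300018000c0000000000000000000) := T_39 (nat_lit 148) (nat_lit 198) (nat_lit 6) (nat_lit 11) (nat_lit 11) L101426 (by decide +kernel)
theorem L101428 : W_39 (nat_lit 6) (nat_lit 0x6400160009000580000000000000000000000000000000) (nat_lit 0x0) (nat_lit 0x400000002000100008000700018000c0000000000000000000) := T_39 (nat_lit 131) (nat_lit 114) (nat_lit 6) (nat_lit 11) (nat_lit 10) L101427 (by decide +kernel)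
theorem L101429 : W_39 (nat_lit 7) (nat_lit 0x6400120009000580000000000000000000000000000000) (nat_lit 0x0) (nat_lit 0x400000002c00100008000700018000c0000000000000000000) := T_39 (nat_lit 162) (nat_lit 163) (nat_lit 3) (nat_lit 8) (nat_lit 9) L101428 (by decide +kernel)
theorem L101430 : W_39 (nat_lit 8) (nat_lit 0x6400120009000180000000000000000000000000000000) (nat_lit 0x0) (nat_lit 0xc00000002c0010000c000700018000c0000000000000000000) := T_39 (nat_lit 130) (nat_lit 199) (nat_lit 7) (nat_lit 11) (nat_lit 7) L101429 (by decide +kernel)
theorem L101431 : W_39 (nat_lit 2) (nat_lit 0x6400120009000dc0020000000000000000000000000000) (nat_lit 0x0) (nat_lit 0x10000c0000000000000000000000000000000000000000) := D_39 (nat_lit 163) (nat_lit 162) (nat_lit 180) (nat_lit 3) (nat_lit 8) (nat_lit 9) (nat_lit 5) (nat_lit 11) (nat_lit 6) (by decide +kernel)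
theorem L101432 : W_39 (nat_lit 3) (nat_lit 0x6400120009000dc0000000000000000000000000000000) (nat_lit 0x0) (nat_lit 0x10002c0000000000020000000000000000000000000000) := T_39 (nat_lit 113) (nat_lit 165) (nat_lit 7) (nat_lit 11) (nat_lit 6) L101431 (by decide +kernel)
theorem L101433 : W_39 (nat_lit 4) (nat_lit 0x64001200090005c0000000000000000000000000000000) (nat_lit 0x0) (nat_lit 0x10002c0000000800060000000000000000000000000000) := T_39 (nat_lit 131) (nat_lit 114) (nat_lit 6) (nat_lit 11) (nat_lit 10) L101432 (by decide +kernel)
theorem L101434 : W_39 (nat_lit 5) (nat_lit 0x6400120009000580000000000000000000000000000000) (nat_lit 0x0) (nat_lit 0x10002c0000000840062000000000000000000000000000) := T_39 (nat_lit 126) (nat_lit 109) (nat_lit 4) (nat_lit 8) (nat_lit 10) L101433 (by decide +kernel)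
theorem L101435 : W_39 (nat_lit 6) (nat_lit 0x6400120009000180000000000000000000000000000000) (nat_lit 0x0) (nat_lit 0x800010002c0000000c40062000000000000000000000000000) := T_39 (nat_lit 130) (nat_lit 199) (nat_lit 7) (nat_lit 11) (nat_lit 7) L101434 (by decide +kernel)
theorem L101436 : W_39 (nat_lit 2) (nat_lit 0x800040006400160019000180000000000000000000000000000000) (nat_lit 0x0) (nat_lit 0x20001000080000000000000000000000000000000000000000000000000) := D_39 (nat_lit 216) (nat_lit 233) (nat_lit 199) (nat_lit 7) (nat_lit 11) (nat_lit 9) (nat_lit 7) (nat_lit 11) (nat_lit 8) (by decide +kernel)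
theorem L101437 : W_39 (nat_lit 3) (nat_lit 0x40006400160019000180000000000000000000000000000000) (nat_lit 0x0) (nat_lit 0x20001800080000000200000000000000000000000000000000000000000) := T_39 (nat_lit 215) (nat_lit 165) (nat_lit 6) (nat_lit 11) (nat_lit 12) L101436 (by decide +kernel)
theorem L101438 : W_39 (nat_lit 4) (nat_lit 0x40006400160009000180000000000000000000000000000000) (nat_lit 0x0) (nat_lit 0x20001800080000000200010000800000000000000000000000000000000) := T_39 (nat_lit 148) (nat_lit 131) (nat_lit 6) (nat_lit 11) (nat_lit 11) L101437 (by decide +kernel)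
theorem L101439 : W_39 (nat_lit 5) (nat_lit 0x40006400120009000180000000000000000000000000000000) (nat_lit 0x0) (nat_lit 0x200018000800000002c0010000800000000000000000000000000000000) := T_39 (nat_lit 162) (nat_lit 163) (nat_lit 3) (nat_lit 8) (nat_lit 9) L101438 (by decide +kernel)
theorem L101440 : W_39 (nat_lit 2) (nat_lit 0x100008000c0006400120019000180000000000000000000000000000000) (nat_lit 0x0) (nat_lit 0x100008000400000000000000000000000000000000000000000000000000000) := D_39 (nat_lit 231) (nat_lit 214) (nat_lit 248) (nat_lit 5) (nat_lit 11) (nat_lit 9) (nat_lit 5) (nat_lit 11) (nat_lit 10) (by decide +kernel)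
theorem L101441 : W_39 (nat_lit 3) (nat_lit 0x8000c0006400120019000180000000000000000000000000000000) (nat_lit 0x0) (nat_lit 0x300018000400000000000000000000000000000000000000000000000000000) := T_39 (nat_lit 232) (nat_lit 249) (nat_lit 6) (nat_lit 11) (nat_lit 14) L101440 (by decide +kernel)
theorem L101442 : W_39 (nat_lit 4) (nat_lit 0xc0006400120019000180000000000000000000000000000000) (nat_lit 0x0) (nat_lit 0x300018000c00000000000200000000000000000000000000000000000000000) := T_39 (nat_lit 215) (nat_lit 165) (nat_lit 6) (nat_lit 11) (nat_lit 12) L101441 (by decide +kernel)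
theorem L101443 : W_39 (nat_lit 5) (nat_lit 0xc0006400120009000180000000000000000000000000000000) (nat_lit 0x0) (nat_lit 0x300018000c00000000000200010000800000000000000000000000000000000) := T_39 (nat_lit 148) (nat_lit 131) (nat_lit 6) (nat_lit 11) (nat_lit 11) L101442 (by decide +kernel)
theorem L101444 : W_39 (nat_lit 6) (nat_lit 0x40006400120009000180000000000000000000000000000000) (nat_lit 0x0) (nat_lit 0x300018001c00080000000200010000800000000000000000000000000000000) := T_39 (nat_lit 199) (nat_lit 216) (nat_lit 7) (nat_lit 11) (nat_lit 8) L101443 (by decide +kernel)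
theorem L101445 : W_39 (nat_lit 2) (nat_lit 0x1c00164003a00390001c0000000000000000000000000000000) (nat_lit 0x0) (nat_lit 0x200021000000000000000000000000000000000000000000000) := D_39 (nat_lit 201) (nat_lit 185) (nat_lit 180) (nat_lit 2) (nat_lit 11) (nat_lit 11) (nat_lit 0) (nat_lit 14) (nat_lit 11) (by decide +kernel)
theorem L101446 : W_39 (nat_lit 3) (nat_lit 0xc00164003a00390001c0000000000000000000000000000000) (nat_lit 0x0) (nat_lit 0x2000300021000000000000000000000000000000000000000000000) := T_39 (nat_lit 200) (nat_lit 217) (nat_lit 7) (nat_lit 12) (nat_lit 8) L101445 (by decide +kernel)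
theorem L101447 : W_39 (nat_lit 4) (nat_lit 0xc00164001a00390001c0000000000000000000000000000000) (nat_lit 0x0) (nat_lit 0x2000300021000200000001000000000000000000000000000000000) := T_39 (nat_lit 165) (nat_lit 132) (nat_lit 6) (nat_lit 12) (nat_lit 11) L101446 (by decide +kernel)
theorem L101448 : W_39 (nat_lit 5) (nat_lit 0xc00164001a00190001c0000000000000000000000000000000) (nat_lit 0x0) (nat_lit 0x2000300021000200060001000000000000000000000000000000000) := T_39 (nat_lit 149) (nat_lit 150) (nat_lit 1) (nat_lit 14) (nat_lit 8) L101447 (by decide +kernel)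
theorem L101449 : W_39 (nat_lit 6) (nat_lit 0xc00164001a00090001c0000000000000000000000000000000) (nat_lit 0x0) (nat_lit 0x2000300021000200070001800000000000000000000000000000000) := T_39 (nat_lit 148) (nat_lit 131) (nat_lit 6) (nat_lit 11) (nat_lit 11) L101448 (by decide +kernel)
theorem L101450 : W_39 (nat_lit 7) (nat_lit 0xc00064001a00090001c0000000000000000000000000000000) (nat_lit 0x0) (nat_lit 0x2000300039000200070001800000000000000000000000000000000) := T_39 (nat_lit 184) (nat_lit 183) (nat_lit 0) (nat_lit 14) (nat_lit 10) L101449 (by decide +kernel)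
theorem L101451 : W_39 (nat_lit 8) (nat_lit 0x400064001a00090001c0000000000000000000000000000000) (nat_lit 0x0) (nat_lit 0x3000380039000200070001800000000000000000000000000000000) := T_39 (nat_lit 199) (nat_lit 216) (nat_lit 7) (nat_lit 11) (nat_lit 8) L101450 (by decide +kernel)
theorem L101452 : W_39 (nat_lit 9) (nat_lit 0x400064001200090001c0000000000000000000000000000000) (nat_lit 0x0) (nat_lit 0x30003800390002c0070001800000000000000000000000000000000) := T_39 (nat_lit 163) (nat_lit 162) (nat_lit 3) (nat_lit 8) (nat_lit 9) L101451 (by decide +kernel)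
theorem L101453 : W_39 (nat_lit 10) (nat_lit 0x40006400120009000180000000000000000000000000000000) (nat_lit 0x0) (nat_lit 0x30003800390002c0070001840002000000000000000000000000000) := T_39 (nat_lit 126) (nat_lit 109) (nat_lit 4) (nat_lit 8) (nat_lit 10) L101452 (by decide +kernel)
theorem L101454 : W_39 (nat_lit 2) (nat_lit 0x800040006400120019000180000000000000000000000000000000) (nat_lit 0x0) (nat_lit 0xc0004000000000000000000000000000000000000) := D_39 (nat_lit 163) (nat_lit 146) (nat_lit 162) (nat_lit 4) (nat_lit 11) (nat_lit 12) (nat_lit 3) (nat_lit 8) (nat_lit 9) (by decide +kernel)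
theorem L101455 : W_39 (nat_lit 3) (nat_lit 0x40006400120019000180000000000000000000000000000000) (nat_lit 0x0) (nat_lit 0x8000000000002c0004000000000000000000000000000000000000) := T_39 (nat_lit 215) (nat_lit 165) (nat_lit 6) (nat_lit 11) (nat_lit 12) L101454 (by decide +kernel)
theorem L101456 : W_39 (nat_lit 4) (nat_lit 0x40006400120009000180000000000000000000000000000000) (nat_lit 0x0) (nat_lit 0x8000000000002c0014000800000000000000000000000000000000) := T_39 (nat_lit 148) (nat_lit 131) (nat_lit 6) (nat_lit 11) (nat_lit 11) L101455 (by decide +kernel)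
theorem L101457 : W_39 (nat_lit 2) (nat_lit 0x8000c00164001a00090001c0000000000000000000000000000000) (nat_lit 0x0) (nat_lit 0x200010000000000001000000000000000000000000000000000000000000000) := D_39 (nat_lit 232) (nat_lit 180) (nat_lit 249) (nat_lit 4) (nat_lit 11) (nat_lit 13) (nat_lit 6) (nat_lit 11) (nat_lit 14) (by decide +kernel)
theorem L101458 : W_39 (nat_lit 3) (nat_lit 0xc00164001a00090001c0000000000000000000000000000000) (nat_lit 0x0) (nat_lit 0x200010000800000001000000004000000000000000000000000000000000000) := T_39 (nat_lit 215) (nat_lit 146) (nat_lit 4) (nat_lit 11) (nat_lit 12) L101457 (by decide +kernel)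
theorem L101459 : W_39 (nat_lit 4) (nat_lit 0xc00064001a00090001c0000000000000000000000000000000) (nat_lit 0x0) (nat_lit 0x200010000800000019000000004000000000000000000000000000000000000) := T_39 (nat_lit 184) (nat_lit 183) (nat_lit 0) (nat_lit 14) (nat_lit 10) L101458 (by decide +kernel)
theorem L101460 : W_39 (nat_lit 5) (nat_lit 0xc00064001200090001c0000000000000000000000000000000) (nat_lit 0x0) (nat_lit 0x2000100008000000190000c0004000000000000000000000000000000000000) := T_39 (nat_lit 163) (nat_lit 162) (nat_lit 3) (nat_lit 8) (nat_lit 9) L101459 (by decide +kernel)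
theorem L101461 : W_39 (nat_lit 6) (nat_lit 0x400064001200090001c0000000000000000000000000000000) (nat_lit 0x0) (nat_lit 0x2000100018000800190000c0004000000000000000000000000000000000000) := T_39 (nat_lit 199) (nat_lit 216) (nat_lit 7) (nat_lit 11) (nat_lit 8) L101460 (by decide +kernel)
theorem L101462 : W_39 (nat_lit 7) (nat_lit 0x40006400120009000180000000000000000000000000000000) (nat_lit 0x0) (nat_lit 0x2000100018000800190000c0004000040002000000000000000000000000000) := T_39 (nat_lit 126) (nat_lit 109) (nat_lit 4) (nat_lit 8) (nat_lit 10) L101461 (by decide +kernel)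
theorem L101463 : W_39 (nat_lit 11) (nat_lit 0x6400120009000180000000000000000000000000000000) (nat_lit 0x0) (nat_lit 0x300038003c003c00390002c0074001840002000000000000000000000000000) := Q_39 (nat_lit 198) (C_39 L101439 (C_39 L101444 (C_39 L101453 (C_39 L101456 (C_39 L101462 N_39))))) (by decide +kernel)
theorem L101464 : W_39 (nat_lit 6) (nat_lit 0x6400160009000980000000000000000000000000000000) (nat_lit 0x0) (nat_lit 0x400000002000100004000700018000c0000000000000000000) := T_39 (nat_lit 130) (nat_lit 114) (nat_lit 6) (nat_lit 11) (nat_lit 10) L101427 (by decide +kernel)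
theorem L101465 : W_39 (nat_lit 7) (nat_lit 0x6400120009000980000000000000000000000000000000) (nat_lit 0x0) (nat_lit 0x400000002c00100004000700018000c0000000000000000000) := T_39 (nat_lit 162) (nat_lit 163) (nat_lit 3) (nat_lit 8) (nat_lit 9) L101464 (by decide +kernel)
theorem L101466 : W_39 (nat_lit 2) (nat_lit 0x6400120019000980000000000000000000000000000000) (nat_lit 0x0) (nat_lit 0x400040002000000000000000000000000) := D_39 (nat_lit 114) (nat_lit 130) (nat_lit 97) (nat_lit 6) (nat_lit 11) (nat_lit 10) (nat_lit 5) (nat_lit 12) (nat_lit 5) (by decide +kernel)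
theorem L101467 : W_39 (nat_lit 3) (nat_lit 0x6400120009000980000000000000000000000000000000) (nat_lit 0x0) (nat_lit 0x40000000000010000400040002000000000000000000000000) := T_39 (nat_lit 148) (nat_lit 198) (nat_lit 6) (nat_lit 11) (nat_lit 11) L101466 (by decide +kernel)
theorem L101468 : W_39 (nat_lit 2) (nat_lit 0x6400120009000d80020000000000000000000000000000) (nat_lit 0x0) (nat_lit 0x10000c0000000000000000000000000000000000000000) := D_39 (nat_lit 163) (nat_lit 162) (nat_lit 180) (nat_lit 3) (nat_lit 8) (nat_lit 9) (nat_lit 5) (nat_lit 11) (nat_lit 6) (by decide +kernel)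
theorem L101469 : W_39 (nat_lit 3) (nat_lit 0x6400120009000d80000000000000000000000000000000) (nat_lit 0x0) (nat_lit 0x10002c0000000000020000000000000000000000000000) := T_39 (nat_lit 113) (nat_lit 165) (nat_lit 7) (nat_lit 11) (nat_lit 6) L101468 (by decide +kernel)
theorem L101470 : W_39 (nat_lit 4) (nat_lit 0x6400120009000980000000000000000000000000000000) (nat_lit 0x0) (nat_lit 0x10002c0000000400060000000000000000000000000000) := T_39 (nat_lit 130) (nat_lit 114) (nat_lit 6) (nat_lit 11) (nat_lit 10) L101469 (by decide +kernel)
theorem L101471 : W_39 (nat_lit 2) (nat_lit 0x6400160019000980000000000000000000000000000000) (nat_lit 0x0) (nat_lit 0x200000000000040002000000000000000000000000) := D_39 (nat_lit 114) (nat_lit 97) (nat_lit 165) (nat_lit 5) (nat_lit 12) (nat_lit 5) (nat_lit 5) (nat_lit 12) (nat_lit 6) (by decide +kernel)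
theorem L101472 : W_39 (nat_lit 3) (nat_lit 0x6400160009000980000000000000000000000000000000) (nat_lit 0x0) (nat_lit 0x40000000200010000000040002000000000000000000000000) := T_39 (nat_lit 148) (nat_lit 198) (nat_lit 6) (nat_lit 11) (nat_lit 11) L101471 (by decide +kernel)
theorem L101473 : W_39 (nat_lit 4) (nat_lit 0x6400120009000980000000000000000000000000000000) (nat_lit 0x0) (nat_lit 0x400000002c0010000000040002000000000000000000000000) := T_39 (nat_lit 162) (nat_lit 163) (nat_lit 3) (nat_lit 8) (nat_lit 9) L101472 (by decide +kernel)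
theorem L101474 : W_39 (nat_lit 2) (nat_lit 0x8000400064001a00090009c0000000000000000000000000000000) (nat_lit 0x0) (nat_lit 0x10000000000001000200000000000000000000000000000000000000000) := D_39 (nat_lit 232) (nat_lit 180) (nat_lit 165) (nat_lit 4) (nat_lit 11) (nat_lit 13) (nat_lit 6) (nat_lit 11) (nat_lit 13) (by decide +kernel)
theorem L101475 : W_39 (nat_lit 3) (nat_lit 0x400064001a00090009c0000000000000000000000000000000) (nat_lit 0x0) (nat_lit 0x10000800000001000200004000000000000000000000000000000000000) := T_39 (nat_lit 215) (nat_lit 146) (nat_lit 4) (nat_lit 11) (nat_lit 12) L101474 (by decide +kernel)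
theorem L101476 : W_39 (nat_lit 4) (nat_lit 0x64001a00090009c0000000000000000000000000000000) (nat_lit 0x0) (nat_lit 0x10000800040001000200014000000000000000000000000000000000000) := T_39 (nat_lit 198) (nat_lit 148) (nat_lit 6) (nat_lit 11) (nat_lit 11) L101475 (by decide +kernel)
theorem L101477 : W_39 (nat_lit 5) (nat_lit 0x64001200090009c0000000000000000000000000000000) (nat_lit 0x0) (nat_lit 0x100008000400010002c0014000000000000000000000000000000000000) := T_39 (nat_lit 163) (nat_lit 162) (nat_lit 3) (nat_lit 8) (nat_lit 9) L101476 (by decide +kernel)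
theorem L101478 : W_39 (nat_lit 6) (nat_lit 0x6400120009000980000000000000000000000000000000) (nat_lit 0x0) (nat_lit 0x100008000400010002c0014000040002000000000000000000000000000) := T_39 (nat_lit 126) (nat_lit 109) (nat_lit 4) (nat_lit 8) (nat_lit 10) L101477 (by decide +kernel)
theorem L101479 : W_39 (nat_lit 8) (nat_lit 0x6400120009000180000000000000000000000000000000) (nat_lit 0x0) (nat_lit 0x100008000400010002c0014000c400720038000c0000000000000000000) := Q_39 (nat_lit 131) (C_39 L101465 (C_39 L101467 (C_39 L101470 (C_39 L101473 (C_39 L101478 N_39))))) (by decide +kernel)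
theorem L101480 : W_39 (nat_lit 2) (nat_lit 0x64001600090005c0020002800000000000000000000000) (nat_lit 0x0) (nat_lit 0x1000140000000000000000000) := D_39 (nat_lit 96) (nat_lit 78) (nat_lit 80) (nat_lit 4) (nat_lit 11) (nat_lit 8) (nat_lit 6) (nat_lit 11) (nat_lit 8) (by decide +kernel)
theorem L101481 : W_39 (nat_lit 3) (nat_lit 0x64001600090005c0020000800000000000000000000000) (nat_lit 0x0) (nat_lit 0x40003000140000000000000000000) := T_39 (nat_lit 97) (nat_lit 114) (nat_lit 6) (nat_lit 11) (nat_lit 9) L101480 (by decide +kernel)
theorem L101482 : W_39 (nat_lit 4) (nat_lit 0x64001600090005c0020000000000000000000000000000) (nat_lit 0x0) (nat_lit 0x50003800140000000000000000000) := T_39 (nat_lit 95) (nat_lit 112) (nat_lit 4) (nat_lit 11) (nat_lit 9) L101481 (by decide +kernel)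
theorem L101483 : W_39 (nat_lit 5) (nat_lit 0x64001600090005c0000000000000000000000000000000) (nat_lit 0x0) (nat_lit 0x200000000000070003800140000000000000000000) := T_39 (nat_lit 113) (nat_lit 165) (nat_lit 7) (nat_lit 11) (nat_lit 6) L101482 (by decide +kernel)
theorem L101484 : W_39 (nat_lit 6) (nat_lit 0x6400160009000580000000000000000000000000000000) (nat_lit 0x0) (nat_lit 0x200000000040072003800140000000000000000000) := T_39 (nat_lit 126) (nat_lit 109) (nat_lit 4) (nat_lit 8) (nat_lit 10) L101483 (by decide +kernel)
theorem L101485 : W_39 (nat_lit 7) (nat_lit 0x6400160009000180000000000000000000000000000000) (nat_lit 0x0) (nat_lit 0x80000000200000000440072003800140000000000000000000) := T_39 (nat_lit 130) (nat_lit 199) (nat_lit 7) (nat_lit 11) (nat_lit 7) L101484 (by decide +kernel)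
theorem L101486 : W_39 (nat_lit 8) (nat_lit 0x6400120009000180000000000000000000000000000000) (nat_lit 0x0) (nat_lit 0x800000002c0000000440072003800140000000000000000000) := T_39 (nat_lit 162) (nat_lit 163) (nat_lit 3) (nat_lit 8) (nat_lit 9) L101485 (by decide +kernel)
theorem L101487 : W_39 (nat_lit 2) (nat_lit 0x8000400064001a0009000d80000000000000000000000000000000) (nat_lit 0x0) (nat_lit 0x10000000000001000000000000000020000000000000000000000000000) := D_39 (nat_lit 180) (nat_lit 232) (nat_lit 113) (nat_lit 4) (nat_lit 11) (nat_lit 13) (nat_lit 5) (nat_lit 11) (nat_lit 6) (by decide +kernel)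
theorem L101488 : W_39 (nat_lit 3) (nat_lit 0x400064001a0009000d80000000000000000000000000000000) (nat_lit 0x0) (nat_lit 0x10000800000001000000004000000020000000000000000000000000000) := T_39 (nat_lit 215) (nat_lit 146) (nat_lit 4) (nat_lit 11) (nat_lit 12) L101487 (by decide +kernel)
theorem L101489 : W_39 (nat_lit 4) (nat_lit 0x64001a0009000d80000000000000000000000000000000) (nat_lit 0x0) (nat_lit 0x10000800040001000000014000000020000000000000000000000000000) := T_39 (nat_lit 198) (nat_lit 148) (nat_lit 6) (nat_lit 11) (nat_lit 11) L101488 (by decide +kernel)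
theorem L101490 : W_39 (nat_lit 5) (nat_lit 0x64001a0009000580000000000000000000000000000000) (nat_lit 0x0) (nat_lit 0x10000800040001000000014000800060000000000000000000000000000) := T_39 (nat_lit 131) (nat_lit 114) (nat_lit 6) (nat_lit 11) (nat_lit 10) L101489 (by decide +kernel)
theorem L101491 : W_39 (nat_lit 6) (nat_lit 0x6400120009000580000000000000000000000000000000) (nat_lit 0x0) (nat_lit 0x100008000400010000c0014000800060000000000000000000000000000) := T_39 (nat_lit 163) (nat_lit 162) (nat_lit 3) (nat_lit 8) (nat_lit 9) L101490 (by decide +kernel)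
theorem L101492 : W_39 (nat_lit 7) (nat_lit 0x6400120009000180000000000000000000000000000000) (nat_lit 0x0) (nat_lit 0x100008000c00010000c0014000c00060000000000000000000000000000) := T_39 (nat_lit 130) (nat_lit 199) (nat_lit 7) (nat_lit 11) (nat_lit 7) L101491 (by decide +kernel)
theorem L101493 : W_39 (nat_lit 12) (nat_lit 0x2400120009000180000000000000000000000000000000) (nat_lit 0x0) (nat_lit 0x300038003c003c003d0002c0074001c400720038001c0000000000000000000) := Q_39 (nat_lit 182) (C_39 L101416 (C_39 L101423 (C_39 L101430 (C_39 L101435 (C_39 L101463 (C_39 L101479 (C_39 L101486 (C_39 L101492 N_39)))))))) (by decide +kernel)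
theorem L101494 : W_39 (nat_lit 2) (nat_lit 0x40002400120009000dc0000000000000000000000000000000) (nat_lit 0x0) (nat_lit 0x1000080004000000000000000000000000000000000000000000000) := D_39 (nat_lit 199) (nat_lit 216) (nat_lit 182) (nat_lit 7) (nat_lit 11) (nat_lit 8) (nat_lit 7) (nat_lit 11) (nat_lit 7) (by decide +kernel)
theorem L101495 : W_39 (nat_lit 3) (nat_lit 0x2400120009000dc0000000000000000000000000000000) (nat_lit 0x0) (nat_lit 0x10000c0004000000010000000000000000000000000000000000000) := T_39 (nat_lit 198) (nat_lit 148) (nat_lit 6) (nat_lit 11) (nat_lit 11) L101494 (by decide +kernel)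
theorem L101496 : W_39 (nat_lit 4) (nat_lit 0x24001200090005c0000000000000000000000000000000) (nat_lit 0x0) (nat_lit 0x10000c0004000000010000800040000000000000000000000000000) := T_39 (nat_lit 131) (nat_lit 114) (nat_lit 6) (nat_lit 11) (nat_lit 10) L101495 (by decide +kernel)
theorem L101497 : W_39 (nat_lit 5) (nat_lit 0x2400120009000580000000000000000000000000000000) (nat_lit 0x0) (nat_lit 0x10000c0004000000010000840042000000000000000000000000000) := T_39 (nat_lit 126) (nat_lit 109) (nat_lit 4) (nat_lit 8) (nat_lit 10) L101496 (by decide +kernel)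
theorem L101498 : W_39 (nat_lit 8) (nat_lit 0x2400120009000580000000000000000000000000000000) (nat_lit 0x0) (nat_lit 0xc00040002c00100008000700018000c0000000000000000000) := T_39 (nat_lit 182) (nat_lit 199) (nat_lit 7) (nat_lit 11) (nat_lit 7) L101429 (by decide +kernel)
theorem L101499 : W_39 (nat_lit 6) (nat_lit 0x2400120009000580000000000000000000000000000000) (nat_lit 0x0) (nat_lit 0x800050002c0000000840062000000000000000000000000000) := T_39 (nat_lit 182) (nat_lit 199) (nat_lit 7) (nat_lit 11) (nat_lit 7) L101434 (by decide +kernel)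
theorem L101500 : W_39 (nat_lit 2) (nat_lit 0x40002400120009000dc0000000000000000000000000000000) (nat_lit 0x0) (nat_lit 0x400020001000000000000000000000000000000000000000000000) := D_39 (nat_lit 197) (nat_lit 180) (nat_lit 214) (nat_lit 5) (nat_lit 11) (nat_lit 7) (nat_lit 5) (nat_lit 11) (nat_lit 8) (by decide +kernel)
theorem L101501 : W_39 (nat_lit 3) (nat_lit 0x2400120009000dc0000000000000000000000000000000) (nat_lit 0x0) (nat_lit 0x400060001000000010000000000000000000000000000000000000) := T_39 (nat_lit 198) (nat_lit 148) (nat_lit 6) (nat_lit 11) (nat_lit 11) L101500 (by decide +kernel)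
theorem L101502 : W_39 (nat_lit 4) (nat_lit 0x24001200090005c0000000000000000000000000000000) (nat_lit 0x0) (nat_lit 0x400060001000000010000800040000000000000000000000000000) := T_39 (nat_lit 131) (nat_lit 114) (nat_lit 6) (nat_lit 11) (nat_lit 10) L101501 (by decide +kernel)
theorem L101503 : W_39 (nat_lit 5) (nat_lit 0x2400120009000580000000000000000000000000000000) (nat_lit 0x0) (nat_lit 0x400060001000000010000840042000000000000000000000000000) := T_39 (nat_lit 126) (nat_lit 109) (nat_lit 4) (nat_lit 8) (nat_lit 10) L101502 (by decide +kernel)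
theorem L101504 : W_39 (nat_lit 2) (nat_lit 0x34001200090005c0020000000000000000000000000000) (nat_lit 0x0) (nat_lit 0x80004000200000000000000000000000000000000000000000) := D_39 (nat_lit 182) (nat_lit 199) (nat_lit 165) (nat_lit 7) (nat_lit 11) (nat_lit 7) (nat_lit 7) (nat_lit 11) (nat_lit 6) (by decide +kernel)
theorem L101505 : W_39 (nat_lit 3) (nat_lit 0x34001200090005c0000000000000000000000000000000) (nat_lit 0x0) (nat_lit 0x80004000280000000000020000000000000000000000000000) := T_39 (nat_lit 113) (nat_lit 163) (nat_lit 5) (nat_lit 11) (nat_lit 6) L101504 (by decide +kernel)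
theorem L101506 : W_39 (nat_lit 4) (nat_lit 0x3400120009000580000000000000000000000000000000) (nat_lit 0x0) (nat_lit 0x80004000280000000040022000000000000000000000000000) := T_39 (nat_lit 126) (nat_lit 109) (nat_lit 4) (nat_lit 8) (nat_lit 10) L101505 (by decide +kernel)
theorem L101507 : W_39 (nat_lit 5) (nat_lit 0x2400120009000580000000000000000000000000000000) (nat_lit 0x0) (nat_lit 0xa0005000280000000040022000000000000000000000000000) := T_39 (nat_lit 180) (nat_lit 197) (nat_lit 5) (nat_lit 11) (nat_lit 7) L101506 (by decide +kernel)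
theorem L101508 : W_39 (nat_lit 9) (nat_lit 0x2400120009000180000000000000000000000000000000) (nat_lit 0x0) (nat_lit 0x14000e00050002c0010000c400720018000c0000000000000000000) := Q_39 (nat_lit 130) (C_39 L101497 (C_39 L101498 (C_39 L101499 (C_39 L101503 (C_39 L101507 N_39))))) (by decide +kernel)
theorem L101509 : W_39 (nat_lit 2) (nat_lit 0x2c00034001a0009000dc0000000000000000000000000000000) (nat_lit 0x0) (nat_lit 0x10000800000000000000004000000000000000000000000000000000000) := D_39 (nat_lit 215) (nat_lit 232) (nat_lit 146) (nat_lit 4) (nat_lit 11) (nat_lit 13) (nat_lit 4) (nat_lit 11) (nat_lit 12) (by decide +kernel)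
theorem L101510 : W_39 (nat_lit 3) (nat_lit 0x2c0003400120009000dc0000000000000000000000000000000) (nat_lit 0x0) (nat_lit 0x10000800000000000080004000000020000000000000000000000000000) := T_39 (nat_lit 163) (nat_lit 113) (nat_lit 5) (nat_lit 11) (nat_lit 6) L101509 (by decide +kernel)
theorem L101511 : W_39 (nat_lit 4) (nat_lit 0xc0003400120009000dc0000000000000000000000000000000) (nat_lit 0x0) (nat_lit 0x10000800300000000080004000000020000000000000000000000000000) := T_39 (nat_lit 201) (nat_lit 200) (nat_lit 0) (nat_lit 14) (nat_lit 11) L101510 (by decide +kernel)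
theorem L101512 : W_39 (nat_lit 5) (nat_lit 0xc0002400120009000dc0000000000000000000000000000000) (nat_lit 0x0) (nat_lit 0x10000800320001000080004000000020000000000000000000000000000) := T_39 (nat_lit 180) (nat_lit 197) (nat_lit 5) (nat_lit 11) (nat_lit 7) L101511 (by decide +kernel)
theorem L101513 : W_39 (nat_lit 6) (nat_lit 0xc0002400120009000d80000000000000000000000000000000) (nat_lit 0x0) (nat_lit 0x10000800320001000080004000040022000000000000000000000000000) := T_39 (nat_lit 126) (nat_lit 109) (nat_lit 4) (nat_lit 8) (nat_lit 10) L101512 (by decide +kernel)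
theorem L101514 : W_39 (nat_lit 7) (nat_lit 0x40002400120009000d80000000000000000000000000000000) (nat_lit 0x0) (nat_lit 0x100018003a0001000080004000040022000000000000000000000000000) := T_39 (nat_lit 199) (nat_lit 216) (nat_lit 7) (nat_lit 11) (nat_lit 8) L101513 (by decide +kernel)
theorem L101515 : W_39 (nat_lit 8) (nat_lit 0x2400120009000d80000000000000000000000000000000) (nat_lit 0x0) (nat_lit 0x100018003e0001000080014000040022000000000000000000000000000) := T_39 (nat_lit 198) (nat_lit 148) (nat_lit 6) (nat_lit 11) (nat_lit 11) L101514 (by decide +kernel)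
theorem L101516 : W_39 (nat_lit 9) (nat_lit 0x2400120009000580000000000000000000000000000000) (nat_lit 0x0) (nat_lit 0x100018003e0001000080014000840062000000000000000000000000000) := T_39 (nat_lit 131) (nat_lit 114) (nat_lit 6) (nat_lit 11) (nat_lit 10) L101515 (by decide +kernel)
theorem L101517 : W_39 (nat_lit 2) (nat_lit 0x400034001a0009000d80000000000000000000000000000000) (nat_lit 0x0) (nat_lit 0x4000050000000000000000000000000000000000000000) := D_39 (nat_lit 162) (nat_lit 182) (nat_lit 160) (nat_lit 3) (nat_lit 8) (nat_lit 9) (nat_lit 3) (nat_lit 7) (nat_lit 9) (by decide +kernel)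
theorem L101518 : W_39 (nat_lit 3) (nat_lit 0x40003400120009000d80000000000000000000000000000000) (nat_lit 0x0) (nat_lit 0x40000d0000000000020000000000000000000000000000) := T_39 (nat_lit 163) (nat_lit 113) (nat_lit 5) (nat_lit 11) (nat_lit 6) L101517 (by decide +kernel)
theorem L101519 : W_39 (nat_lit 4) (nat_lit 0x3400120009000d80000000000000000000000000000000) (nat_lit 0x0) (nat_lit 0x400040000d0010000000020000000000000000000000000000) := T_39 (nat_lit 198) (nat_lit 148) (nat_lit 6) (nat_lit 11) (nat_lit 11) L101518 (by decide +kernel)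
theorem L101520 : W_39 (nat_lit 5) (nat_lit 0x3400120009000580000000000000000000000000000000) (nat_lit 0x0) (nat_lit 0x400040000d0010000800060000000000000000000000000000) := T_39 (nat_lit 131) (nat_lit 114) (nat_lit 6) (nat_lit 11) (nat_lit 10) L101519 (by decide +kernel)
theorem L101521 : W_39 (nat_lit 6) (nat_lit 0x2400120009000580000000000000000000000000000000) (nat_lit 0x0) (nat_lit 0x600050000d0010000800060000000000000000000000000000) := T_39 (nat_lit 180) (nat_lit 197) (nat_lit 5) (nat_lit 11) (nat_lit 7) L101520 (by decide +kernel)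
theorem L101522 : W_39 (nat_lit 10) (nat_lit 0x2400120009000180000000000000000000000000000000) (nat_lit 0x0) (nat_lit 0x100018003e00050002d0014000c400720018000c0000000000000000000) := Q_39 (nat_lit 130) (C_39 L101507 (C_39 L101497 (C_39 L101498 (C_39 L101516 (C_39 L101521 N_39))))) (by decide +kernel)
theorem L101523 : W_39 (nat_lit 2) (nat_lit 0x7400120009000dc0020001800080000000000000000000) (nat_lit 0x0) (nat_lit 0x2000100008000000000000000) := D_39 (nat_lit 80) (nat_lit 97) (nat_lit 63) (nat_lit 6) (nat_lit 11) (nat_lit 8) (nat_lit 6) (nat_lit 11) (nat_lit 7) (by decide +kernel)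
theorem L101524 : W_39 (nat_lit 3) (nat_lit 0x7400120009000dc0020001800000000000000000000000) (nat_lit 0x0) (nat_lit 0x10000000000002000180008000000000000000) := T_39 (nat_lit 79) (nat_lit 148) (nat_lit 7) (nat_lit 11) (nat_lit 4) L101523 (by decide +kernel)
theorem L101525 : W_39 (nat_lit 4) (nat_lit 0x7400120009000dc0020000800000000000000000000000) (nat_lit 0x0) (nat_lit 0x100000000000030001c0008000000000000000) := T_39 (nat_lit 96) (nat_lit 78) (nat_lit 4) (nat_lit 11) (nat_lit 8) L101524 (by decide +kernel)
theorem L101526 : W_39 (nat_lit 5) (nat_lit 0x7400120009000dc0020000000000000000000000000000) (nat_lit 0x0) (nat_lit 0x100000000100038001c0008000000000000000) := T_39 (nat_lit 95) (nat_lit 112) (nat_lit 4) (nat_lit 11) (nat_lit 9) L101525 (by decide +kernel)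
theorem L101527 : W_39 (nat_lit 6) (nat_lit 0x7400120009000dc0000000000000000000000000000000) (nat_lit 0x0) (nat_lit 0x2000100000000300038001c0008000000000000000) := T_39 (nat_lit 113) (nat_lit 165) (nat_lit 7) (nat_lit 11) (nat_lit 6) L101526 (by decide +kernel)
theorem L101528 : W_39 (nat_lit 7) (nat_lit 0x6400120009000dc0000000000000000000000000000000) (nat_lit 0x0) (nat_lit 0x200010002000100000000300038001c0008000000000000000) := T_39 (nat_lit 180) (nat_lit 197) (nat_lit 5) (nat_lit 11) (nat_lit 7) L101527 (by decide +kernel)
theorem L101529 : W_39 (nat_lit 8) (nat_lit 0x2400120009000dc0000000000000000000000000000000) (nat_lit 0x0) (nat_lit 0xa00050002000100000000300038001c0008000000000000000) := T_39 (nat_lit 182) (nat_lit 199) (nat_lit 7) (nat_lit 11) (nat_lit 7) L101528 (by decide +kernel)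
theorem L101530 : W_39 (nat_lit 9) (nat_lit 0x24001200090005c0000000000000000000000000000000) (nat_lit 0x0) (nat_lit 0xa00050002000100008000700038001c0008000000000000000) := T_39 (nat_lit 131) (nat_lit 114) (nat_lit 6) (nat_lit 11) (nat_lit 10) L101529 (by decide +kernel)
theorem L101531 : W_39 (nat_lit 10) (nat_lit 0x2400120009000580000000000000000000000000000000) (nat_lit 0x0) (nat_lit 0xa00050002000100008400720038001c0008000000000000000) := T_39 (nat_lit 126) (nat_lit 109) (nat_lit 4) (nat_lit 8) (nat_lit 10) L101530 (by decide +kernel)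
theorem L101532 : W_39 (nat_lit 2) (nat_lit 0x6400160009000580020000000000000000000000000000) (nat_lit 0x0) (nat_lit 0x800040002000000000000000000000000) := D_39 (nat_lit 114) (nat_lit 131) (nat_lit 97) (nat_lit 6) (nat_lit 11) (nat_lit 10) (nat_lit 6) (nat_lit 11) (nat_lit 9) (by decide +kernel)
theorem L101533 : W_39 (nat_lit 3) (nat_lit 0x6400160009000580000000000000000000000000000000) (nat_lit 0x0) (nat_lit 0x200000000800060002000000000000000000000000) := T_39 (nat_lit 113) (nat_lit 165) (nat_lit 7) (nat_lit 11) (nat_lit 6) L101532 (by decide +kernel)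
theorem L101534 : W_39 (nat_lit 4) (nat_lit 0x6400120009000580000000000000000000000000000000) (nat_lit 0x0) (nat_lit 0x2c0000000800060002000000000000000000000000) := T_39 (nat_lit 162) (nat_lit 163) (nat_lit 3) (nat_lit 8) (nat_lit 9) L101533 (by decide +kernel)
theorem L101535 : W_39 (nat_lit 5) (nat_lit 0x2400120009000580000000000000000000000000000000) (nat_lit 0x0) (nat_lit 0x800040002c0000000800060002000000000000000000000000) := T_39 (nat_lit 182) (nat_lit 199) (nat_lit 7) (nat_lit 11) (nat_lit 7) L101534 (by decide +kernel)
theorem L101536 : W_39 (nat_lit 2) (nat_lit 0x3400120009000dc0020001800000000000000000000000) (nat_lit 0x0) (nat_lit 0x200010000000000000000080000000000000000000) := D_39 (nat_lit 148) (nat_lit 165) (nat_lit 79) (nat_lit 7) (nat_lit 11) (nat_lit 5) (nat_lit 7) (nat_lit 11) (nat_lit 4) (by decide +kernel)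
theorem L101537 : W_39 (nat_lit 3) (nat_lit 0x3400120009000dc0020000800000000000000000000000) (nat_lit 0x0) (nat_lit 0x2000100000000000010000c0000000000000000000) := T_39 (nat_lit 96) (nat_lit 78) (nat_lit 4) (nat_lit 11) (nat_lit 8) L101536 (by decide +kernel)
theorem L101538 : W_39 (nat_lit 4) (nat_lit 0x3400120009000dc0020000000000000000000000000000) (nat_lit 0x0) (nat_lit 0x2000100000000100018000c0000000000000000000) := T_39 (nat_lit 95) (nat_lit 112) (nat_lit 4) (nat_lit 11) (nat_lit 9) L101537 (by decide +kernel)
theorem L101539 : W_39 (nat_lit 5) (nat_lit 0x3400120009000dc0000000000000000000000000000000) (nat_lit 0x0) (nat_lit 0x2800100000000300018000c0000000000000000000) := T_39 (nat_lit 113) (nat_lit 163) (nat_lit 5) (nat_lit 11) (nat_lit 6) L101538 (by decide +kernel)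
theorem L101540 : W_39 (nat_lit 6) (nat_lit 0x2400120009000dc0000000000000000000000000000000) (nat_lit 0x0) (nat_lit 0x200010002800100000000300018000c0000000000000000000) := T_39 (nat_lit 180) (nat_lit 197) (nat_lit 5) (nat_lit 11) (nat_lit 7) L101539 (by decide +kernel)
theorem L101541 : W_39 (nat_lit 7) (nat_lit 0x24001200090005c0000000000000000000000000000000) (nat_lit 0x0) (nat_lit 0x200010002800100008000700018000c0000000000000000000) := T_39 (nat_lit 131) (nat_lit 114) (nat_lit 6) (nat_lit 11) (nat_lit 10) L101540 (by decide +kernel)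
theorem L101542 : W_39 (nat_lit 8) (nat_lit 0x2400120009000580000000000000000000000000000000) (nat_lit 0x0) (nat_lit 0x200010002800100008400720018000c0000000000000000000) := T_39 (nat_lit 126) (nat_lit 109) (nat_lit 4) (nat_lit 8) (nat_lit 10) L101541 (by decide +kernel)
theorem L101543 : W_39 (nat_lit 2) (nat_lit 0x10000f4005a0009000dc0000000000000000000000000000000) (nat_lit 0x0) (nat_lit 0x200030000000000000000000000000000000000000) := D_39 (nat_lit 148) (nat_lit 149) (nat_lit 165) (nat_lit 4) (nat_lit 13) (nat_lit 11) (nat_lit 7) (nat_lit 12) (nat_lit 7) (by decide +kernel)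
theorem L101544 : W_39 (nat_lit 3) (nat_lit 0xf4005a0009000dc0000000000000000000000000000000) (nat_lit 0x0) (nat_lit 0x300000000200030000000000000000000000000000000000000) := T_39 (nat_lit 200) (nat_lit 201) (nat_lit 3) (nat_lit 10) (nat_lit 10) L101543 (by decide +kernel)
theorem L101545 : W_39 (nat_lit 4) (nat_lit 0xf4001a0009000dc0000000000000000000000000000000) (nat_lit 0x0) (nat_lit 0x300000000e00030000000000000000000000000000000000000) := T_39 (nat_lit 166) (nat_lit 167) (nat_lit 2) (nat_lit 10) (nat_lit 10) L101544 (by decide +kernel)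
theorem L101546 : W_39 (nat_lit 5) (nat_lit 0xf4001a00090005c0000000000000000000000000000000) (nat_lit 0x0) (nat_lit 0x300000000e00030000800040000000000000000000000000000) := T_39 (nat_lit 131) (nat_lit 114) (nat_lit 6) (nat_lit 11) (nat_lit 10) L101545 (by decide +kernel)
theorem L101547 : W_39 (nat_lit 6) (nat_lit 0x74001a00090005c0000000000000000000000000000000) (nat_lit 0x0) (nat_lit 0x300018000e00030000800040000000000000000000000000000) := T_39 (nat_lit 183) (nat_lit 184) (nat_lit 0) (nat_lit 14) (nat_lit 10) L101546 (by decide +kernel)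
theorem L101548 : W_39 (nat_lit 7) (nat_lit 0x74001a0009000580000000000000000000000000000000) (nat_lit 0x0) (nat_lit 0x300018000e00030000840042000000000000000000000000000) := T_39 (nat_lit 126) (nat_lit 109) (nat_lit 4) (nat_lit 8) (nat_lit 10) L101547 (by decide +kernel)
theorem L101549 : W_39 (nat_lit 8) (nat_lit 0x7400120009000580000000000000000000000000000000) (nat_lit 0x0) (nat_lit 0x300018000ec0030000840042000000000000000000000000000) := T_39 (nat_lit 163) (nat_lit 162) (nat_lit 3) (nat_lit 8) (nat_lit 9) L101548 (by decide +kernel)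
theorem L101550 : W_39 (nat_lit 9) (nat_lit 0x3400120009000580000000000000000000000000000000) (nat_lit 0x0) (nat_lit 0x38001c000ec0030000840042000000000000000000000000000) := T_39 (nat_lit 182) (nat_lit 199) (nat_lit 7) (nat_lit 11) (nat_lit 7) L101549 (by decide +kernel)
theorem L101551 : W_39 (nat_lit 10) (nat_lit 0x2400120009000580000000000000000000000000000000) (nat_lit 0x0) (nat_lit 0x3a001d000ec0030000840042000000000000000000000000000) := T_39 (nat_lit 180) (nat_lit 197) (nat_lit 5) (nat_lit 11) (nat_lit 7) L101550 (by decide +kernel)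
theorem L101552 : W_39 (nat_lit 2) (nat_lit 0x74001200090005c0000000000000000000000000000000) (nat_lit 0x0) (nat_lit 0xc0000000000020000000000000000000000000000) := D_39 (nat_lit 163) (nat_lit 162) (nat_lit 113) (nat_lit 3) (nat_lit 8) (nat_lit 9) (nat_lit 5) (nat_lit 11) (nat_lit 6) (by decide +kernel)
theorem L101553 : W_39 (nat_lit 3) (nat_lit 0x34001200090005c0000000000000000000000000000000) (nat_lit 0x0) (nat_lit 0x800040000c0000000000020000000000000000000000000000) := T_39 (nat_lit 182) (nat_lit 199) (nat_lit 7) (nat_lit 11) (nat_lit 7) L101552 (by decide +kernel)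
theorem L101554 : W_39 (nat_lit 4) (nat_lit 0x24001200090005c0000000000000000000000000000000) (nat_lit 0x0) (nat_lit 0xa00050000c0000000000020000000000000000000000000000) := T_39 (nat_lit 180) (nat_lit 197) (nat_lit 5) (nat_lit 11) (nat_lit 7) L101553 (by decide +kernel)
theorem L101555 : W_39 (nat_lit 5) (nat_lit 0x2400120009000580000000000000000000000000000000) (nat_lit 0x0) (nat_lit 0xa00050000c0000000040022000000000000000000000000000) := T_39 (nat_lit 126) (nat_lit 109) (nat_lit 4) (nat_lit 8) (nat_lit 10) L101554 (by decide +kernel)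
theorem L101556 : W_39 (nat_lit 11) (nat_lit 0x2400120009000180000000000000000000000000000000) (nat_lit 0x0) (nat_lit 0x3a001d000ec0030000c400720038001c0008000000000000000) := Q_39 (nat_lit 130) (C_39 L101507 (C_39 L101531 (C_39 L101535 (C_39 L101542 (C_39 L101551 (C_39 L101555 N_39)))))) (by decide +kernel)
theorem L101557 : W_39 (nat_lit 2) (nat_lit 0xe0006400160019000180000000000000000000000000000000) (nat_lit 0x0) (nat_lit 0x18008000000000000000000000000000000000000000000000) := D_39 (nat_lit 196) (nat_lit 183) (nat_lit 195) (nat_lit 2) (nat_lit 9) (nat_lit 11) (nat_lit 2) (nat_lit 8) (nat_lit 11) (by decide +kernel)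
theorem L101558 : W_39 (nat_lit 3) (nat_lit 0xc0006400160019000180000000000000000000000000000000) (nat_lit 0x0) (nat_lit 0x400038008000000000000000000000000000000000000000000000) := T_39 (nat_lit 197) (nat_lit 214) (nat_lit 5) (nat_lit 11) (nat_lit 8) L101557 (by decide +kernel)
theorem L101559 : W_39 (nat_lit 4) (nat_lit 0xc0006400120019000180000000000000000000000000000000) (nat_lit 0x0) (nat_lit 0x4000380080000c0000000000000000000000000000000000000000) := T_39 (nat_lit 162) (nat_lit 163) (nat_lit 3) (nat_lit 8) (nat_lit 9) L101558 (by decide +kernel)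
theorem L101560 : W_39 (nat_lit 5) (nat_lit 0xc0006400120009000180000000000000000000000000000000) (nat_lit 0x0) (nat_lit 0x4000380080000c0010000800000000000000000000000000000000) := T_39 (nat_lit 148) (nat_lit 131) (nat_lit 6) (nat_lit 11) (nat_lit 11) L101559 (by decide +kernel)
theorem L101561 : W_39 (nat_lit 6) (nat_lit 0x40006400120009000180000000000000000000000000000000) (nat_lit 0x0) (nat_lit 0x14000b80080000c0010000800000000000000000000000000000000) := T_39 (nat_lit 199) (nat_lit 216) (nat_lit 7) (nat_lit 11) (nat_lit 8) L101560 (by decide +kernel)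
theorem L101562 : W_39 (nat_lit 2) (nat_lit 0x70006400120009000180000000000000000000000000000000) (nat_lit 0x0) (nat_lit 0x19000000000000000000000000000000000000000000000) := D_39 (nat_lit 183) (nat_lit 184) (nat_lit 180) (nat_lit 1) (nat_lit 14) (nat_lit 10) (nat_lit 1) (nat_lit 13) (nat_lit 10) (by decide +kernel)
theorem L101563 : W_39 (nat_lit 3) (nat_lit 0x60006400120009000180000000000000000000000000000000) (nat_lit 0x0) (nat_lit 0x18019000000000000000000000000000000000000000000000) := T_39 (nat_lit 196) (nat_lit 195) (nat_lit 2) (nat_lit 8) (nat_lit 11) L101562 (by decide +kernel)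
theorem L101564 : W_39 (nat_lit 4) (nat_lit 0x40006400120009000180000000000000000000000000000000) (nat_lit 0x0) (nat_lit 0x400038019000000000000000000000000000000000000000000000) := T_39 (nat_lit 197) (nat_lit 214) (nat_lit 5) (nat_lit 11) (nat_lit 8) L101563 (by decide +kernel)
theorem L101565 : W_39 (nat_lit 2) (nat_lit 0x1ec0064003a0039000180000000000000000000000000000000) (nat_lit 0x0) (nat_lit 0x600001000000000000000000000000000000000000000000000) := D_39 (nat_lit 201) (nat_lit 202) (nat_lit 180) (nat_lit 0) (nat_lit 15) (nat_lit 11) (nat_lit 0) (nat_lit 14) (nat_lit 11) (by decide +kernel)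
theorem L101566 : W_39 (nat_lit 3) (nat_lit 0xec0064003a0039000180000000000000000000000000000000) (nat_lit 0x0) (nat_lit 0x2000700001000000000000000000000000000000000000000000000) := T_39 (nat_lit 200) (nat_lit 217) (nat_lit 7) (nat_lit 12) (nat_lit 8) L101565 (by decide +kernel)
theorem L101567 : W_39 (nat_lit 4) (nat_lit 0xec0064001a0039000180000000000000000000000000000000) (nat_lit 0x0) (nat_lit 0x2000700001000200000001000000000000000000000000000000000) := T_39 (nat_lit 165) (nat_lit 132) (nat_lit 6) (nat_lit 12) (nat_lit 11) L101566 (by decide +kernel)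
theorem L101568 : W_39 (nat_lit 5) (nat_lit 0x6c0064001a0039000180000000000000000000000000000000) (nat_lit 0x0) (nat_lit 0x3000780001000200000001000000000000000000000000000000000) := T_39 (nat_lit 199) (nat_lit 216) (nat_lit 7) (nat_lit 11) (nat_lit 8) L101567 (by decide +kernel)
theorem L101569 : W_39 (nat_lit 6) (nat_lit 0x680064001a0039000180000000000000000000000000000000) (nat_lit 0x0) (nat_lit 0x3080784001000200000001000000000000000000000000000000000) := T_39 (nat_lit 194) (nat_lit 211) (nat_lit 5) (nat_lit 8) (nat_lit 8) L101568 (by decide +kernel)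
theorem L101570 : W_39 (nat_lit 7) (nat_lit 0x680064001a0019000180000000000000000000000000000000) (nat_lit 0x0) (nat_lit 0x3080784001000200060001000000000000000000000000000000000) := T_39 (nat_lit 149) (nat_lit 150) (nat_lit 1) (nat_lit 14) (nat_lit 8) L101569 (by decide +kernel)
theorem L101571 : W_39 (nat_lit 8) (nat_lit 0x600064001a0019000180000000000000000000000000000000) (nat_lit 0x0) (nat_lit 0x308079c001000200060001000000000000000000000000000000000) := T_39 (nat_lit 195) (nat_lit 196) (nat_lit 2) (nat_lit 8) (nat_lit 11) L101570 (by decide +kernel)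
theorem L101572 : W_39 (nat_lit 9) (nat_lit 0x400064001a0019000180000000000000000000000000000000) (nat_lit 0x0) (nat_lit 0x34807bc001000200060001000000000000000000000000000000000) := T_39 (nat_lit 197) (nat_lit 214) (nat_lit 5) (nat_lit 11) (nat_lit 8) L101571 (by decide +kernel)
theorem L101573 : W_39 (nat_lit 10) (nat_lit 0x40006400120019000180000000000000000000000000000000) (nat_lit 0x0) (nat_lit 0x34807bc0010002c0060001000000000000000000000000000000000) := T_39 (nat_lit 163) (nat_lit 162) (nat_lit 3) (nat_lit 8) (nat_lit 9) L101572 (by decide +kernel)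
theorem L101574 : W_39 (nat_lit 11) (nat_lit 0x40006400120009000180000000000000000000000000000000) (nat_lit 0x0) (nat_lit 0x34807bc0010002c0070001800000000000000000000000000000000) := T_39 (nat_lit 148) (nat_lit 131) (nat_lit 6) (nat_lit 11) (nat_lit 11) L101573 (by decide +kernel)
theorem L101575 : W_39 (nat_lit 12) (nat_lit 0x40002400120009000180000000000000000000000000000000) (nat_lit 0x0) (nat_lit 0x34807bc03d0002c0070001840002000000000000000000000000000) := Q_39 (nat_lit 182) (C_39 L101453 (C_39 L101561 (C_39 L101564 (C_39 L101574 N_39)))) (by decide +kernel)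
theorem L101576 : W_39 (nat_lit 2) (nat_lit 0x100018000600024001a00090001c0000000000000000000000000000000) (nat_lit 0x0) (nat_lit 0x4000240000000000000000000000000000000000000000) := D_39 (nat_lit 182) (nat_lit 165) (nat_lit 162) (nat_lit 6) (nat_lit 11) (nat_lit 13) (nat_lit 3) (nat_lit 8) (nat_lit 9) (by decide +kernel)
theorem L101577 : W_39 (nat_lit 3) (nat_lit 0x18000600024001a00090001c0000000000000000000000000000000) (nat_lit 0x0) (nat_lit 0x10000000000005000240000000000000000000000000000000000000000) := T_39 (nat_lit 232) (nat_lit 180) (nat_lit 4) (nat_lit 11) (nat_lit 13) L101576 (by decide +kernel)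
theorem L101578 : W_39 (nat_lit 4) (nat_lit 0x18000600024001200090001c0000000000000000000000000000000) (nat_lit 0x0) (nat_lit 0x100000000000050002c0004000000000000000000000000000000000000) := T_39 (nat_lit 163) (nat_lit 146) (nat_lit 4) (nat_lit 11) (nat_lit 12) L101577 (by decide +kernel)
theorem L101579 : W_39 (nat_lit 5) (nat_lit 0x10000600024001200090001c0000000000000000000000000000000) (nat_lit 0x0) (nat_lit 0x300008000000050002c0004000000000000000000000000000000000000) := T_39 (nat_lit 215) (nat_lit 233) (nat_lit 7) (nat_lit 11) (nat_lit 9) L101578 (by decide +kernel)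
theorem L101580 : W_39 (nat_lit 6) (nat_lit 0x600024001200090001c0000000000000000000000000000000) (nat_lit 0x0) (nat_lit 0x300018000800050002c0004000000000000000000000000000000000000) := T_39 (nat_lit 216) (nat_lit 199) (nat_lit 7) (nat_lit 11) (nat_lit 8) L101579 (by decide +kernel)
theorem L101581 : W_39 (nat_lit 7) (nat_lit 0x400024001200090001c0000000000000000000000000000000) (nat_lit 0x0) (nat_lit 0x30001c000a00050002c0004000000000000000000000000000000000000) := T_39 (nat_lit 197) (nat_lit 214) (nat_lit 5) (nat_lit 11) (nat_lit 8) L101580 (by decide +kernel)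
theorem L101582 : W_39 (nat_lit 8) (nat_lit 0x40002400120009000180000000000000000000000000000000) (nat_lit 0x0) (nat_lit 0x30001c000a00050002c0004000040002000000000000000000000000000) := T_39 (nat_lit 126) (nat_lit 109) (nat_lit 4) (nat_lit 8) (nat_lit 10) L101581 (by decide +kernel)
theorem L101583 : W_39 (nat_lit 2) (nat_lit 0x8000c00024001a00590001c0000000000000000000000000000000) (nat_lit 0x0) (nat_lit 0x8000400020000000000000000000000000000000000000000000000000) := D_39 (nat_lit 214) (nat_lit 197) (nat_lit 231) (nat_lit 5) (nat_lit 11) (nat_lit 8) (nat_lit 5) (nat_lit 11) (nat_lit 9) (by decide +kernel)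
theorem L101584 : W_39 (nat_lit 3) (nat_lit 0xc00024001a00590001c0000000000000000000000000000000) (nat_lit 0x0) (nat_lit 0x8000c00020000000000004000000000000000000000000000000000000) := T_39 (nat_lit 215) (nat_lit 146) (nat_lit 4) (nat_lit 11) (nat_lit 12) L101583 (by decide +kernel)
theorem L101585 : W_39 (nat_lit 4) (nat_lit 0xc00024001a00190001c0000000000000000000000000000000) (nat_lit 0x0) (nat_lit 0x8000c00020000000000064000000000000000000000000000000000000) := T_39 (nat_lit 150) (nat_lit 149) (nat_lit 1) (nat_lit 14) (nat_lit 8) L101584 (by decide +kernel)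
theorem L101586 : W_39 (nat_lit 5) (nat_lit 0xc00024001a0019000180000000000000000000000000000000) (nat_lit 0x0) (nat_lit 0x8000c00020000000000064000040002000000000000000000000000000) := T_39 (nat_lit 126) (nat_lit 109) (nat_lit 4) (nat_lit 8) (nat_lit 10) L101585 (by decide +kernel)
theorem L101587 : W_39 (nat_lit 6) (nat_lit 0xc0002400120019000180000000000000000000000000000000) (nat_lit 0x0) (nat_lit 0x8000c000200000000c0064000040002000000000000000000000000000) := T_39 (nat_lit 163) (nat_lit 162) (nat_lit 2) (nat_lit 8) (nat_lit 9) L101586 (by decide +kernel)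
theorem L101588 : W_39 (nat_lit 7) (nat_lit 0xc0002400120009000180000000000000000000000000000000) (nat_lit 0x0) (nat_lit 0x8000c000200000000c0074000840002000000000000000000000000000) := T_39 (nat_lit 148) (nat_lit 131) (nat_lit 6) (nat_lit 11) (nat_lit 11) L101587 (by decide +kernel)
theorem L101589 : W_39 (nat_lit 8) (nat_lit 0x40002400120009000180000000000000000000000000000000) (nat_lit 0x0) (nat_lit 0x8001c000a00000000c0074000840002000000000000000000000000000) := T_39 (nat_lit 199) (nat_lit 216) (nat_lit 7) (nat_lit 11) (nat_lit 8) L101588 (by decide +kernel)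
theorem L101590 : W_39 (nat_lit 13) (nat_lit 0x2400120009000180000000000000000000000000000000) (nat_lit 0x0) (nat_lit 0x38003c807fc03d0002c0074001840002000000000000000000000000000) := Q_39 (nat_lit 198) (C_39 L101391 (C_39 L101382 (C_39 L101575 (C_39 L101582 (C_39 L101589 N_39))))) (by decide +kernel)
theorem L101591 : W_39 (nat_lit 2) (nat_lit 0x20001e000b4001a00590001c0000000000000000000000000000000) (nat_lit 0x0) (nat_lit 0xe00000000000000000000000000000000000000000) := D_39 (nat_lit 166) (nat_lit 165) (nat_lit 167) (nat_lit 4) (nat_lit 13) (nat_lit 12) (nat_lit 6) (nat_lit 13) (nat_lit 12) (by decide +kernel)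
theorem L101592 : W_39 (nat_lit 3) (nat_lit 0x20001e00034001a00590001c0000000000000000000000000000000) (nat_lit 0x0) (nat_lit 0x18000e00000000000000000000000000000000000000000) := T_39 (nat_lit 183) (nat_lit 184) (nat_lit 2) (nat_lit 10) (nat_lit 11) L101591 (by decide +kernel)
theorem L101593 : W_39 (nat_lit 4) (nat_lit 0x1e00034001a00590001c0000000000000000000000000000000) (nat_lit 0x0) (nat_lit 0x6000000018000e00000000000000000000000000000000000000000) := T_39 (nat_lit 217) (nat_lit 218) (nat_lit 3) (nat_lit 10) (nat_lit 11) L101592 (by decide +kernel)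
theorem L101594 : W_39 (nat_lit 5) (nat_lit 0xe00034001a00590001c0000000000000000000000000000000) (nat_lit 0x0) (nat_lit 0x6000300018000e00000000000000000000000000000000000000000) := T_39 (nat_lit 200) (nat_lit 201) (nat_lit 0) (nat_lit 14) (nat_lit 11) L101593 (by decide +kernel)
theorem L101595 : W_39 (nat_lit 6) (nat_lit 0xe00024001a00590001c0000000000000000000000000000000) (nat_lit 0x0) (nat_lit 0x6000300019000e00000000400000000000000000000000000000000) := T_39 (nat_lit 180) (nat_lit 130) (nat_lit 5) (nat_lit 11) (nat_lit 7) L101594 (by decide +kernel)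
theorem L101596 : W_39 (nat_lit 7) (nat_lit 0xc00024001a00590001c0000000000000000000000000000000) (nat_lit 0x0) (nat_lit 0x6400320019000e00000000400000000000000000000000000000000) := T_39 (nat_lit 197) (nat_lit 214) (nat_lit 5) (nat_lit 11) (nat_lit 8) L101595 (by decide +kernel)
theorem L101597 : W_39 (nat_lit 8) (nat_lit 0x400024001a00590001c0000000000000000000000000000000) (nat_lit 0x0) (nat_lit 0x74003a0019000e00000000400000000000000000000000000000000) := T_39 (nat_lit 199) (nat_lit 216) (nat_lit 7) (nat_lit 11) (nat_lit 8) L101596 (by decide +kernel)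
theorem L101598 : W_39 (nat_lit 9) (nat_lit 0x400024001a00190001c0000000000000000000000000000000) (nat_lit 0x0) (nat_lit 0x74003a0019000e00060000400000000000000000000000000000000) := T_39 (nat_lit 150) (nat_lit 149) (nat_lit 1) (nat_lit 14) (nat_lit 8) L101597 (by decide +kernel)
theorem L101599 : W_39 (nat_lit 10) (nat_lit 0x400024001a0019000180000000000000000000000000000000) (nat_lit 0x0) (nat_lit 0x74003a0019000e00060000440002000000000000000000000000000) := T_39 (nat_lit 126) (nat_lit 109) (nat_lit 4) (nat_lit 8) (nat_lit 10) L101598 (by decide +kernel)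
theorem L101600 : W_39 (nat_lit 11) (nat_lit 0x40002400120019000180000000000000000000000000000000) (nat_lit 0x0) (nat_lit 0x74003a0019000ec0060000440002000000000000000000000000000) := T_39 (nat_lit 163) (nat_lit 162) (nat_lit 2) (nat_lit 8) (nat_lit 9) L101599 (by decide +kernel)
theorem L101601 : W_39 (nat_lit 12) (nat_lit 0x40002400120009000180000000000000000000000000000000) (nat_lit 0x0) (nat_lit 0x74003a0019000ec0070000c40002000000000000000000000000000) := T_39 (nat_lit 148) (nat_lit 131) (nat_lit 6) (nat_lit 11) (nat_lit 11) L101600 (by decide +kernel)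
theorem L101602 : W_39 (nat_lit 2) (nat_lit 0x18000600034001200090001c0000000000000000000000000000000) (nat_lit 0x0) (nat_lit 0x10000000000000000080004000000000000000000000000000000000000) := D_39 (nat_lit 163) (nat_lit 146) (nat_lit 232) (nat_lit 7) (nat_lit 10) (nat_lit 8) (nat_lit 4) (nat_lit 11) (nat_lit 13) (by decide +kernel)
theorem L101603 : W_39 (nat_lit 3) (nat_lit 0x10000600034001200090001c0000000000000000000000000000000) (nat_lit 0x0) (nat_lit 0x30000800000000000080004000000000000000000000000000000000000) := T_39 (nat_lit 215) (nat_lit 233) (nat_lit 7) (nat_lit 11) (nat_lit 9) L101602 (by decide +kernel)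
theorem L101604 : W_39 (nat_lit 4) (nat_lit 0x600034001200090001c0000000000000000000000000000000) (nat_lit 0x0) (nat_lit 0x30001800080000000080004000000000000000000000000000000000000) := T_39 (nat_lit 216) (nat_lit 199) (nat_lit 7) (nat_lit 11) (nat_lit 8) L101603 (by decide +kernel)
theorem L101605 : W_39 (nat_lit 5) (nat_lit 0x600024001200090001c0000000000000000000000000000000) (nat_lit 0x0) (nat_lit 0x30001800080001000080004000400000000000000000000000000000000) := T_39 (nat_lit 180) (nat_lit 130) (nat_lit 5) (nat_lit 11) (nat_lit 7) L101604 (by decide +kernel)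
theorem L101606 : W_39 (nat_lit 6) (nat_lit 0x60002400120009000180000000000000000000000000000000) (nat_lit 0x0) (nat_lit 0x30001800080001000080004000440002000000000000000000000000000) := T_39 (nat_lit 126) (nat_lit 109) (nat_lit 4) (nat_lit 8) (nat_lit 10) L101605 (by decide +kernel)
theorem L101607 : W_39 (nat_lit 7) (nat_lit 0x40002400120009000180000000000000000000000000000000) (nat_lit 0x0) (nat_lit 0x30001c000a0001000080004000440002000000000000000000000000000) := T_39 (nat_lit 197) (nat_lit 214) (nat_lit 5) (nat_lit 11) (nat_lit 8) L101606 (by decide +kernel)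
theorem L101608 : W_39 (nat_lit 13) (nat_lit 0x2400120009000180000000000000000000000000000000) (nat_lit 0x0) (nat_lit 0x38007c003e0019000ec0074000c40002000000000000000000000000000) := Q_39 (nat_lit 198) (C_39 L101589 (C_39 L101382 (C_39 L101391 (C_39 L101601 (C_39 L101607 N_39))))) (by decide +kernel)
theorem L101609 : W_39 (nat_lit 2) (nat_lit 0xa0002400120009000dc0000000000000000000000000000000) (nat_lit 0x0) (nat_lit 0x1400040000000000000000000000000000000000000000000000000) := D_39 (nat_lit 198) (nat_lit 216) (nat_lit 214) (nat_lit 7) (nat_lit 11) (nat_lit 8) (nat_lit 5) (nat_lit 11) (nat_lit 8) (by decide +kernel)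
theorem L101610 : W_39 (nat_lit 3) (nat_lit 0x80002400120009000dc0000000000000000000000000000000) (nat_lit 0x0) (nat_lit 0x1400060001000000000000000000000000000000000000000000000) := T_39 (nat_lit 197) (nat_lit 180) (nat_lit 5) (nat_lit 11) (nat_lit 7) L101609 (by decide +kernel)
theorem L101611 : W_39 (nat_lit 4) (nat_lit 0x2400120009000dc0000000000000000000000000000000) (nat_lit 0x0) (nat_lit 0x14000e0005000000000000000000000000000000000000000000000) := T_39 (nat_lit 199) (nat_lit 182) (nat_lit 7) (nat_lit 11) (nat_lit 7) L101610 (by decide +kernel)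
theorem L101612 : W_39 (nat_lit 5) (nat_lit 0x24001200090005c0000000000000000000000000000000) (nat_lit 0x0) (nat_lit 0x14000e0005000000000000800040000000000000000000000000000) := T_39 (nat_lit 131) (nat_lit 114) (nat_lit 6) (nat_lit 11) (nat_lit 10) L101611 (by decide +kernel)
theorem L101613 : W_39 (nat_lit 6) (nat_lit 0x2400120009000580000000000000000000000000000000) (nat_lit 0x0) (nat_lit 0x14000e0005000000000000840042000000000000000000000000000) := T_39 (nat_lit 126) (nat_lit 109) (nat_lit 4) (nat_lit 8) (nat_lit 10) L101612 (by decide +kernel)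
theorem L101614 : W_39 (nat_lit 2) (nat_lit 0x3400120009000580040000000000000000000000000000) (nat_lit 0x0) (nat_lit 0x80000000000020002000000000000000000000000) := D_39 (nat_lit 113) (nat_lit 163) (nat_lit 97) (nat_lit 5) (nat_lit 11) (nat_lit 6) (nat_lit 6) (nat_lit 11) (nat_lit 9) (by decide +kernel)
theorem L101615 : W_39 (nat_lit 3) (nat_lit 0x3400120009000580000000000000000000000000000000) (nat_lit 0x0) (nat_lit 0x80000000800060002000000000000000000000000) := T_39 (nat_lit 114) (nat_lit 131) (nat_lit 6) (nat_lit 11) (nat_lit 10) L101614 (by decide +kernel)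
theorem L101616 : W_39 (nat_lit 4) (nat_lit 0x2400120009000580000000000000000000000000000000) (nat_lit 0x0) (nat_lit 0x20001000080000000800060002000000000000000000000000) := T_39 (nat_lit 180) (nat_lit 197) (nat_lit 5) (nat_lit 11) (nat_lit 7) L101615 (by decide +kernel)
theorem L101617 : W_39 (nat_lit 7) (nat_lit 0x2400120009000180000000000000000000000000000000) (nat_lit 0x0) (nat_lit 0x14000e00050002c0000000c40062002000000000000000000000000) := Q_39 (nat_lit 130) (C_39 L101555 (C_39 L101613 (C_39 L101535 (C_39 L101616 N_39)))) (by decide +kernel)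
theorem L101618 : W_39 (nat_lit 2) (nat_lit 0x24001a0009000180000000000000000000000000000000) (nat_lit 0x0) (nat_lit 0x4000040010000000000000000000000000000000000000) := D_39 (nat_lit 162) (nat_lit 182) (nat_lit 148) (nat_lit 3) (nat_lit 8) (nat_lit 9) (nat_lit 2) (nat_lit 8) (nat_lit 9) (by decide +kernel)
theorem L101619 : W_39 (nat_lit 2) (nat_lit 0x24001a0009000580000000000000000000000000000000) (nat_lit 0x0) (nat_lit 0x20001000000000000000020000000000000000000000000000) := D_39 (nat_lit 180) (nat_lit 197) (nat_lit 113) (nat_lit 5) (nat_lit 11) (nat_lit 7) (nat_lit 5) (nat_lit 11) (nat_lit 6) (by decide +kernel)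
theorem L101620 : W_39 (nat_lit 2) (nat_lit 0x8000400024001a0009000dc0000000000000000000000000000000) (nat_lit 0x0) (nat_lit 0x8000400020000000000000000000000000000000000000000000000000) := D_39 (nat_lit 214) (nat_lit 231) (nat_lit 197) (nat_lit 5) (nat_lit 11) (nat_lit 9) (nat_lit 5) (nat_lit 11) (nat_lit 8) (by decide +kernel)
theorem L101621 : W_39 (nat_lit 3) (nat_lit 0x400024001a0009000dc0000000000000000000000000000000) (nat_lit 0x0) (nat_lit 0x8000c00020000000000004000000000000000000000000000000000000) := T_39 (nat_lit 215) (nat_lit 146) (nat_lit 4) (nat_lit 11) (nat_lit 12) L101620 (by decide +kernel)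
theorem L101622 : W_39 (nat_lit 4) (nat_lit 0x24001a0009000dc0000000000000000000000000000000) (nat_lit 0x0) (nat_lit 0x8000c00060000000000014000000000000000000000000000000000000) := T_39 (nat_lit 198) (nat_lit 148) (nat_lit 6) (nat_lit 11) (nat_lit 11) L101621 (by decide +kernel)
theorem L101623 : W_39 (nat_lit 5) (nat_lit 0x24001a00090005c0000000000000000000000000000000) (nat_lit 0x0) (nat_lit 0x8000c00060000000000014000800040000000000000000000000000000) := T_39 (nat_lit 131) (nat_lit 114) (nat_lit 6) (nat_lit 11) (nat_lit 10) L101622 (by decide +kernel)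
theorem L101624 : W_39 (nat_lit 6) (nat_lit 0x24001a0009000580000000000000000000000000000000) (nat_lit 0x0) (nat_lit 0x8000c00060000000000014000840042000000000000000000000000000) := T_39 (nat_lit 126) (nat_lit 109) (nat_lit 4) (nat_lit 8) (nat_lit 10) L101623 (by decide +kernel)
theorem L101625 : W_39 (nat_lit 2) (nat_lit 0x8000400024001a0009000d80000000000000000000000000000000) (nat_lit 0x0) (nat_lit 0x10000000000001000000000000000020000000000000000000000000000) := D_39 (nat_lit 180) (nat_lit 232) (nat_lit 113) (nat_lit 4) (nat_lit 11) (nat_lit 13) (nat_lit 5) (nat_lit 11) (nat_lit 6) (by decide +kernel)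
theorem L101626 : W_39 (nat_lit 3) (nat_lit 0x400024001a0009000d80000000000000000000000000000000) (nat_lit 0x0) (nat_lit 0x10000800000001000000004000000020000000000000000000000000000) := T_39 (nat_lit 215) (nat_lit 146) (nat_lit 4) (nat_lit 11) (nat_lit 12) L101625 (by decide +kernel)
theorem L101627 : W_39 (nat_lit 4) (nat_lit 0x24001a0009000d80000000000000000000000000000000) (nat_lit 0x0) (nat_lit 0x10000800040001000000014000000020000000000000000000000000000) := T_39 (nat_lit 198) (nat_lit 148) (nat_lit 6) (nat_lit 11) (nat_lit 11) L101626 (by decide +kernel)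
theorem L101628 : W_39 (nat_lit 5) (nat_lit 0x24001a0009000580000000000000000000000000000000) (nat_lit 0x0) (nat_lit 0x10000800040001000000014000800060000000000000000000000000000) := T_39 (nat_lit 131) (nat_lit 114) (nat_lit 6) (nat_lit 11) (nat_lit 10) L101627 (by decide +kernel)
theorem L101629 : W_39 (nat_lit 7) (nat_lit 0x24001a0009000180000000000000000000000000000000) (nat_lit 0x0) (nat_lit 0x18000c00060001000000014000c40062000000000000000000000000000) := Q_39 (nat_lit 130) (C_39 L101619 (C_39 L101624 (C_39 L101628 N_39))) (by decide +kernel)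
theorem L101630 : W_39 (nat_lit 2) (nat_lit 0x24001e00090001c0000000000000000000000000000000) (nat_lit 0x0) (nat_lit 0x1000010004000000000000000000000000000000000000) := D_39 (nat_lit 160) (nat_lit 180) (nat_lit 146) (nat_lit 3) (nat_lit 7) (nat_lit 9) (nat_lit 2) (nat_lit 7) (nat_lit 9) (by decide +kernel)
theorem L101631 : W_39 (nat_lit 3) (nat_lit 0x24001a00090001c0000000000000000000000000000000) (nat_lit 0x0) (nat_lit 0x5000050004000000000000000000000000000000000000) := T_39 (nat_lit 162) (nat_lit 182) (nat_lit 3) (nat_lit 8) (nat_lit 9) L101630 (by decide +kernel)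
theorem L101632 : W_39 (nat_lit 4) (nat_lit 0x24001a0009000180000000000000000000000000000000) (nat_lit 0x0) (nat_lit 0x5000050004000040002000000000000000000000000000) := T_39 (nat_lit 126) (nat_lit 109) (nat_lit 4) (nat_lit 8) (nat_lit 10) L101631 (by decide +kernel)
theorem L101633 : W_39 (nat_lit 8) (nat_lit 0x2400120009000180000000000000000000000000000000) (nat_lit 0x0) (nat_lit 0x18000c000600050000d0014000c40062000000000000000000000000000) := Q_39 (nat_lit 163) (C_39 L101618 (C_39 L101629 (C_39 L101632 N_39))) (by decide +kernel)
theorem L101634 : W_39 (nat_lit 2) (nat_lit 0x8000c00024001a00090001c0000000000000000000000000000000) (nat_lit 0x0) (nat_lit 0x8000400020000000000000000000000000000000000000000000000000) := D_39 (nat_lit 214) (nat_lit 197) (nat_lit 231) (nat_lit 5) (nat_lit 11) (nat_lit 8) (nat_lit 5) (nat_lit 11) (nat_lit 9) (by decide +kernel)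
theorem L101635 : W_39 (nat_lit 3) (nat_lit 0xc00024001a00090001c0000000000000000000000000000000) (nat_lit 0x0) (nat_lit 0x8000c00020000000000004000000000000000000000000000000000000) := T_39 (nat_lit 215) (nat_lit 146) (nat_lit 4) (nat_lit 11) (nat_lit 12) L101634 (by decide +kernel)
theorem L101636 : W_39 (nat_lit 4) (nat_lit 0x400024001a00090001c0000000000000000000000000000000) (nat_lit 0x0) (nat_lit 0x8001c000a0000000000004000000000000000000000000000000000000) := T_39 (nat_lit 199) (nat_lit 216) (nat_lit 7) (nat_lit 11) (nat_lit 8) L101635 (by decide +kernel)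
theorem L101637 : W_39 (nat_lit 5) (nat_lit 0x400024001a0009000180000000000000000000000000000000) (nat_lit 0x0) (nat_lit 0x8001c000a0000000000004000040002000000000000000000000000000) := T_39 (nat_lit 126) (nat_lit 109) (nat_lit 4) (nat_lit 8) (nat_lit 10) L101636 (by decide +kernel)
theorem L101638 : W_39 (nat_lit 2) (nat_lit 0x8000400024001a0009000180000000000000000000000000000000) (nat_lit 0x0) (nat_lit 0x8000400020000000000000000000000000000000000000000000000000) := D_39 (nat_lit 214) (nat_lit 197) (nat_lit 231) (nat_lit 5) (nat_lit 11) (nat_lit 8) (nat_lit 5) (nat_lit 11) (nat_lit 9) (by decide +kernel)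
theorem L101639 : W_39 (nat_lit 3) (nat_lit 0x400024001a0009000180000000000000000000000000000000) (nat_lit 0x0) (nat_lit 0x8000c00020000000000004000000000000000000000000000000000000) := T_39 (nat_lit 215) (nat_lit 146) (nat_lit 4) (nat_lit 11) (nat_lit 12) L101638 (by decide +kernel)
theorem L101640 : W_39 (nat_lit 2) (nat_lit 0x8000400024001a0009000180000000000000000000000000000000) (nat_lit 0x0) (nat_lit 0x20001000080000000000000000000000000000000000000000000000000) := D_39 (nat_lit 216) (nat_lit 199) (nat_lit 233) (nat_lit 7) (nat_lit 11) (nat_lit 8) (nat_lit 7) (nat_lit 11) (nat_lit 9) (by decide +kernel)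
theorem L101641 : W_39 (nat_lit 3) (nat_lit 0x400024001a0009000180000000000000000000000000000000) (nat_lit 0x0) (nat_lit 0x20001800080000000000004000000000000000000000000000000000000) := T_39 (nat_lit 215) (nat_lit 146) (nat_lit 4) (nat_lit 11) (nat_lit 12) L101640 (by decide +kernel)
theorem L101642 : W_39 (nat_lit 2) (nat_lit 0xe00024001a0009000180000000000000000000000000000000) (nat_lit 0x0) (nat_lit 0x5000000000000400000000000000000000000000000000) := D_39 (nat_lit 130) (nat_lit 180) (nat_lit 182) (nat_lit 5) (nat_lit 11) (nat_lit 7) (nat_lit 7) (nat_lit 11) (nat_lit 7) (by decide +kernel)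
theorem L101643 : W_39 (nat_lit 3) (nat_lit 0x600024001a0009000180000000000000000000000000000000) (nat_lit 0x0) (nat_lit 0x1000080005000000000000400000000000000000000000000000000) := T_39 (nat_lit 199) (nat_lit 216) (nat_lit 7) (nat_lit 11) (nat_lit 8) L101642 (by decide +kernel)
theorem L101644 : W_39 (nat_lit 4) (nat_lit 0x400024001a0009000180000000000000000000000000000000) (nat_lit 0x0) (nat_lit 0x14000a0005000000000000400000000000000000000000000000000) := T_39 (nat_lit 197) (nat_lit 214) (nat_lit 5) (nat_lit 11) (nat_lit 8) L101643 (by decide +kernel)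
theorem L101645 : W_39 (nat_lit 6) (nat_lit 0x24001a0009000180000000000000000000000000000000) (nat_lit 0x0) (nat_lit 0x28001c000e0005000000004000440002000000000000000000000000000) := Q_39 (nat_lit 198) (C_39 L101637 (C_39 L101639 (C_39 L101641 (C_39 L101644 N_39)))) (by decide +kernel)
theorem L101646 : W_39 (nat_lit 3) (nat_lit 0x24001a00090001c0000000000000000000000000000000) (nat_lit 0x0) (nat_lit 0x1000050014000000000000000000000000000000000000) := T_39 (nat_lit 162) (nat_lit 148) (nat_lit 2) (nat_lit 8) (nat_lit 9) L101630 (by decide +kernel)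
theorem L101647 : W_39 (nat_lit 4) (nat_lit 0x24001a0009000180000000000000000000000000000000) (nat_lit 0x0) (nat_lit 0x1000050014000040002000000000000000000000000000) := T_39 (nat_lit 126) (nat_lit 109) (nat_lit 4) (nat_lit 8) (nat_lit 10) L101646 (by decide +kernel)
theorem L101648 : W_39 (nat_lit 7) (nat_lit 0x2400120009000180000000000000000000000000000000) (nat_lit 0x0) (nat_lit 0x28001c000e00050000d0014000440002000000000000000000000000000) := Q_39 (nat_lit 163) (C_39 L101632 (C_39 L101618 (C_39 L101645 (C_39 L101647 N_39)))) (by decide +kernel)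
theorem L101649 : W_39 (nat_lit 14) (nat_lit 0x2400020009000180000000000000000000000000000000) (nat_lit 0x0) (nat_lit 0x300038007c807fc03d000fd0074001c400720038001c0008000000000000000) := Q_39 (nat_lit 164) (C_39 L101375 (C_39 L101383 (C_39 L101395 (C_39 L101408 (C_39 L101493 (C_39 L101508 (C_39 L101522 (C_39 L101556 (C_39 L101590 (C_39 L101608 (C_39 L101617 (C_39 L101633 (C_39 L101648 N_39))))))))))))) (by decide +kernel)
theorem L101650 : W_39 (nat_lit 2) (nat_lit 0x48007c001a0009000dc0000000000000000000000000000000) (nat_lit 0x0) (nat_lit 0x10000800000000000000004000000000000000000000000000000000000) := D_39 (nat_lit 215) (nat_lit 232) (nat_lit 146) (nat_lit 4) (nat_lit 11) (nat_lit 13) (nat_lit 4) (nat_lit 11) (nat_lit 12) (by decide +kernel)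
theorem L101651 : W_39 (nat_lit 3) (nat_lit 0x48007c00120009000dc0000000000000000000000000000000) (nat_lit 0x0) (nat_lit 0x10000800000000000080004000000020000000000000000000000000000) := T_39 (nat_lit 163) (nat_lit 113) (nat_lit 5) (nat_lit 11) (nat_lit 6) L101650 (by decide +kernel)
theorem L101652 : W_39 (nat_lit 4) (nat_lit 0x48007c001200090009c0000000000000000000000000000000) (nat_lit 0x0) (nat_lit 0x10000800000000000080004000400060000000000000000000000000000) := T_39 (nat_lit 130) (nat_lit 114) (nat_lit 6) (nat_lit 11) (nat_lit 10) L101651 (by decide +kernel)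
theorem L101653 : W_39 (nat_lit 5) (nat_lit 0x48007c001200090001c0000000000000000000000000000000) (nat_lit 0x0) (nat_lit 0x10000800000000000080014000c00060000000000000000000000000000) := T_39 (nat_lit 131) (nat_lit 148) (nat_lit 6) (nat_lit 11) (nat_lit 11) L101652 (by decide +kernel)
theorem L101654 : W_39 (nat_lit 6) (nat_lit 0x48003c001200090001c0000000000000000000000000000000) (nat_lit 0x0) (nat_lit 0x100008000000040000c0014000c00060000000000000000000000000000) := T_39 (nat_lit 182) (nat_lit 162) (nat_lit 0) (nat_lit 12) (nat_lit 10) L101653 (by decide +kernel)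
theorem L101655 : W_39 (nat_lit 7) (nat_lit 0x8003c001200090001c0000000000000000000000000000000) (nat_lit 0x0) (nat_lit 0x100008000c00040000c0014000c00060000000000000000000000000000) := T_39 (nat_lit 198) (nat_lit 199) (nat_lit 3) (nat_lit 8) (nat_lit 10) L101654 (by decide +kernel)
theorem L101656 : W_39 (nat_lit 8) (nat_lit 0x8003c000200090001c0000000000000000000000000000000) (nat_lit 0x0) (nat_lit 0x100008000c00040003c0014000c00060000000000000000000000000000) := T_39 (nat_lit 164) (nat_lit 165) (nat_lit 2) (nat_lit 8) (nat_lit 10) L101655 (by decide +kernel)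
theorem L101657 : W_39 (nat_lit 9) (nat_lit 0x3c000200090001c0000000000000000000000000000000) (nat_lit 0x0) (nat_lit 0x100008000cc0040003c0014000c00060000000000000000000000000000) := T_39 (nat_lit 195) (nat_lit 194) (nat_lit 1) (nat_lit 11) (nat_lit 10) L101656 (by decide +kernel)
theorem L101658 : W_39 (nat_lit 10) (nat_lit 0x2c000200090001c0000000000000000000000000000000) (nat_lit 0x0) (nat_lit 0x100008000cc0050003d0014000c00060000000000000000000000000000) := T_39 (nat_lit 180) (nat_lit 160) (nat_lit 0) (nat_lit 11) (nat_lit 10) L101657 (by decide +kernel)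
theorem L101659 : W_39 (nat_lit 11) (nat_lit 0x24000200090001c0000000000000000000000000000000) (nat_lit 0x0) (nat_lit 0x100008000dc0058003d0014000c00060000000000000000000000000000) := T_39 (nat_lit 179) (nat_lit 196) (nat_lit 7) (nat_lit 8) (nat_lit 7) L101658 (by decide +kernel)
theorem L101660 : W_39 (nat_lit 12) (nat_lit 0x2400020009000180000000000000000000000000000000) (nat_lit 0x0) (nat_lit 0x100008000dc0058003d0014000c40062000000000000000000000000000) := T_39 (nat_lit 126) (nat_lit 109) (nat_lit 4) (nat_lit 8) (nat_lit 10) L101659 (by decide +kernel)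
theorem L101661 : W_39 (nat_lit 2) (nat_lit 0x24800fc004200090001c0000000000000000000000000000000) (nat_lit 0x0) (nat_lit 0x420010000000000000000000000000000000000000000000000) := D_39 (nat_lit 184) (nat_lit 197) (nat_lit 202) (nat_lit 1) (nat_lit 14) (nat_lit 10) (nat_lit 3) (nat_lit 11) (nat_lit 10) (by decide +kernel)
theorem L101662 : W_39 (nat_lit 3) (nat_lit 0x4800fc004200090001c0000000000000000000000000000000) (nat_lit 0x0) (nat_lit 0x720010000000000000000000000000000000000000000000000) := T_39 (nat_lit 201) (nat_lit 200) (nat_lit 3) (nat_lit 10) (nat_lit 10) L101661 (by decide +kernel)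
theorem L101663 : W_39 (nat_lit 4) (nat_lit 0x48007c004200090001c0000000000000000000000000000000) (nat_lit 0x0) (nat_lit 0x720018000800000000000000000000000000000000000000000) := T_39 (nat_lit 183) (nat_lit 167) (nat_lit 2) (nat_lit 10) (nat_lit 10) L101662 (by decide +kernel)
theorem L101664 : W_39 (nat_lit 5) (nat_lit 0x48007c000200090001c0000000000000000000000000000000) (nat_lit 0x0) (nat_lit 0x720018000e00000000000000000000000000000000000000000) := T_39 (nat_lit 166) (nat_lit 165) (nat_lit 2) (nat_lit 9) (nat_lit 10) L101663 (by decide +kernel)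
theorem L101665 : W_39 (nat_lit 6) (nat_lit 0x48007c00020009000180000000000000000000000000000000) (nat_lit 0x0) (nat_lit 0x720018000e00000000040002000000000000000000000000000) := T_39 (nat_lit 126) (nat_lit 109) (nat_lit 4) (nat_lit 8) (nat_lit 10) L101664 (by decide +kernel)
theorem L101666 : W_39 (nat_lit 7) (nat_lit 0x48003c00020009000180000000000000000000000000000000) (nat_lit 0x0) (nat_lit 0x72001c000e40000000040002000000000000000000000000000) := T_39 (nat_lit 182) (nat_lit 162) (nat_lit 0) (nat_lit 12) (nat_lit 10) L101665 (by decide +kernel)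
theorem L101667 : W_39 (nat_lit 8) (nat_lit 0x8003c00020009000180000000000000000000000000000000) (nat_lit 0x0) (nat_lit 0x7e001c000e40000000040002000000000000000000000000000) := T_39 (nat_lit 198) (nat_lit 199) (nat_lit 3) (nat_lit 8) (nat_lit 10) L101666 (by decide +kernel)
theorem L101668 : W_39 (nat_lit 9) (nat_lit 0x3c00020009000180000000000000000000000000000000) (nat_lit 0x0) (nat_lit 0x7ec01c000e40000000040002000000000000000000000000000) := T_39 (nat_lit 195) (nat_lit 194) (nat_lit 1) (nat_lit 11) (nat_lit 10) L101667 (by decide +kernel)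
theorem L101669 : W_39 (nat_lit 10) (nat_lit 0x2c00020009000180000000000000000000000000000000) (nat_lit 0x0) (nat_lit 0x7ec01d000e50000000040002000000000000000000000000000) := T_39 (nat_lit 180) (nat_lit 160) (nat_lit 0) (nat_lit 11) (nat_lit 10) L101668 (by decide +kernel)
theorem L101670 : W_39 (nat_lit 11) (nat_lit 0x2400020009000180000000000000000000000000000000) (nat_lit 0x0) (nat_lit 0x7fc01d800e50000000040002000000000000000000000000000) := T_39 (nat_lit 179) (nat_lit 196) (nat_lit 7) (nat_lit 8) (nat_lit 7) L101669 (by decide +kernel)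
theorem L101671 : W_39 (nat_lit 2) (nat_lit 0x8007c001200090001c0000000000000000000000000000000) (nat_lit 0x0) (nat_lit 0xa0000000000000000400000000000000000000000000000000) := D_39 (nat_lit 130) (nat_lit 197) (nat_lit 199) (nat_lit 5) (nat_lit 11) (nat_lit 7) (nat_lit 7) (nat_lit 11) (nat_lit 7) (by decide +kernel)
theorem L101672 : W_39 (nat_lit 3) (nat_lit 0x8003c001200090001c0000000000000000000000000000000) (nat_lit 0x0) (nat_lit 0xa0004000040000000400000000000000000000000000000000) := T_39 (nat_lit 182) (nat_lit 162) (nat_lit 0) (nat_lit 12) (nat_lit 10) L101671 (by decide +kernel)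
theorem L101673 : W_39 (nat_lit 4) (nat_lit 0x8003c000200090001c0000000000000000000000000000000) (nat_lit 0x0) (nat_lit 0xa0004000340000000400000000000000000000000000000000) := T_39 (nat_lit 164) (nat_lit 165) (nat_lit 2) (nat_lit 8) (nat_lit 10) L101672 (by decide +kernel)
theorem L101674 : W_39 (nat_lit 5) (nat_lit 0x3c000200090001c0000000000000000000000000000000) (nat_lit 0x0) (nat_lit 0xac004000340000000400000000000000000000000000000000) := T_39 (nat_lit 195) (nat_lit 194) (nat_lit 1) (nat_lit 11) (nat_lit 10) L101673 (by decide +kernel)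
theorem L101675 : W_39 (nat_lit 6) (nat_lit 0x2c000200090001c0000000000000000000000000000000) (nat_lit 0x0) (nat_lit 0xac005000350000000400000000000000000000000000000000) := T_39 (nat_lit 180) (nat_lit 160) (nat_lit 0) (nat_lit 11) (nat_lit 10) L101674 (by decide +kernel)
theorem L101676 : W_39 (nat_lit 7) (nat_lit 0x24000200090001c0000000000000000000000000000000) (nat_lit 0x0) (nat_lit 0xbc005800350000000400000000000000000000000000000000) := T_39 (nat_lit 179) (nat_lit 196) (nat_lit 7) (nat_lit 8) (nat_lit 7) L101675 (by decide +kernel)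
theorem L101677 : W_39 (nat_lit 8) (nat_lit 0x2400020009000180000000000000000000000000000000) (nat_lit 0x0) (nat_lit 0xbc005800350000000440002000000000000000000000000000) := T_39 (nat_lit 126) (nat_lit 109) (nat_lit 4) (nat_lit 8) (nat_lit 10) L101676 (by decide +kernel)
theorem L101678 : W_39 (nat_lit 2) (nat_lit 0x1e00164003a00390001c0000000000000000000000000000000) (nat_lit 0x0) (nat_lit 0x600020000000000000000000000000000000000000000000000) := D_39 (nat_lit 201) (nat_lit 202) (nat_lit 185) (nat_lit 0) (nat_lit 15) (nat_lit 11) (nat_lit 2) (nat_lit 11) (nat_lit 11) (by decide +kernel)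
theorem L101679 : W_39 (nat_lit 3) (nat_lit 0x1e00064003a00390001c0000000000000000000000000000000) (nat_lit 0x0) (nat_lit 0x600038000000000000000000000000000000000000000000000) := T_39 (nat_lit 184) (nat_lit 183) (nat_lit 2) (nat_lit 10) (nat_lit 11) L101678 (by decide +kernel)
theorem L101680 : W_39 (nat_lit 4) (nat_lit 0xe00064003a00390001c0000000000000000000000000000000) (nat_lit 0x0) (nat_lit 0x2000700038000000000000000000000000000000000000000000000) := T_39 (nat_lit 200) (nat_lit 217) (nat_lit 7) (nat_lit 12) (nat_lit 8) L101679 (by decide +kernel)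
theorem L101681 : W_39 (nat_lit 5) (nat_lit 0xe00064001a00390001c0000000000000000000000000000000) (nat_lit 0x0) (nat_lit 0x2000700038000200000001000000000000000000000000000000000) := T_39 (nat_lit 165) (nat_lit 132) (nat_lit 6) (nat_lit 12) (nat_lit 11) L101680 (by decide +kernel)
theorem L101682 : W_39 (nat_lit 6) (nat_lit 0xe00024001a00390001c0000000000000000000000000000000) (nat_lit 0x0) (nat_lit 0x200070003c000200000001400000000000000000000000000000000) := T_39 (nat_lit 182) (nat_lit 130) (nat_lit 7) (nat_lit 11) (nat_lit 7) L101681 (by decide +kernel)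
theorem L101683 : W_39 (nat_lit 7) (nat_lit 0xc00024001a00390001c0000000000000000000000000000000) (nat_lit 0x0) (nat_lit 0x240072003c000200000001400000000000000000000000000000000) := T_39 (nat_lit 197) (nat_lit 214) (nat_lit 5) (nat_lit 11) (nat_lit 8) L101682 (by decide +kernel)
theorem L101684 : W_39 (nat_lit 8) (nat_lit 0x400024001a00390001c0000000000000000000000000000000) (nat_lit 0x0) (nat_lit 0x34007a003c000200000001400000000000000000000000000000000) := T_39 (nat_lit 199) (nat_lit 216) (nat_lit 7) (nat_lit 11) (nat_lit 8) L101683 (by decide +kernel)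
theorem L101685 : W_39 (nat_lit 9) (nat_lit 0x400024001a00190001c0000000000000000000000000000000) (nat_lit 0x0) (nat_lit 0x34007a003c000200060001400000000000000000000000000000000) := T_39 (nat_lit 149) (nat_lit 150) (nat_lit 1) (nat_lit 14) (nat_lit 8) L101684 (by decide +kernel)
theorem L101686 : W_39 (nat_lit 10) (nat_lit 0x400024001a0019000180000000000000000000000000000000) (nat_lit 0x0) (nat_lit 0x34007a003c000200060001440002000000000000000000000000000) := T_39 (nat_lit 126) (nat_lit 109) (nat_lit 4) (nat_lit 8) (nat_lit 10) L101685 (by decide +kernel)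
theorem L101687 : W_39 (nat_lit 11) (nat_lit 0x40002400120019000180000000000000000000000000000000) (nat_lit 0x0) (nat_lit 0x34007a003c0002c0060001440002000000000000000000000000000) := T_39 (nat_lit 163) (nat_lit 162) (nat_lit 2) (nat_lit 8) (nat_lit 9) L101686 (by decide +kernel)
theorem L101688 : W_39 (nat_lit 12) (nat_lit 0x40002400120009000180000000000000000000000000000000) (nat_lit 0x0) (nat_lit 0x34007a003c0002c0070001c40002000000000000000000000000000) := T_39 (nat_lit 148) (nat_lit 131) (nat_lit 6) (nat_lit 11) (nat_lit 11) L101687 (by decide +kernel)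
theorem L101689 : W_39 (nat_lit 2) (nat_lit 0x8000e00164001a00090001c0000000000000000000000000000000) (nat_lit 0x0) (nat_lit 0x200010000000000000000200000000000000000000000000000000000000000) := D_39 (nat_lit 232) (nat_lit 249) (nat_lit 165) (nat_lit 6) (nat_lit 11) (nat_lit 14) (nat_lit 6) (nat_lit 11) (nat_lit 13) (by decide +kernel)
theorem L101690 : W_39 (nat_lit 3) (nat_lit 0xe00164001a00090001c0000000000000000000000000000000) (nat_lit 0x0) (nat_lit 0x200010000800000000000200004000000000000000000000000000000000000) := T_39 (nat_lit 215) (nat_lit 146) (nat_lit 4) (nat_lit 11) (nat_lit 12) L101689 (by decide +kernel)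
theorem L101691 : W_39 (nat_lit 4) (nat_lit 0xe00164001200090001c0000000000000000000000000000000) (nat_lit 0x0) (nat_lit 0x2000100008000000000002c0004000000000000000000000000000000000000) := T_39 (nat_lit 163) (nat_lit 162) (nat_lit 3) (nat_lit 8) (nat_lit 9) L101690 (by decide +kernel)
theorem L101692 : W_39 (nat_lit 5) (nat_lit 0xe00064001200090001c0000000000000000000000000000000) (nat_lit 0x0) (nat_lit 0x2000100008000000180002c0004000000000000000000000000000000000000) := T_39 (nat_lit 184) (nat_lit 183) (nat_lit 1) (nat_lit 14) (nat_lit 10) L101691 (by decide +kernel)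
theorem L101693 : W_39 (nat_lit 6) (nat_lit 0xc00064001200090001c0000000000000000000000000000000) (nat_lit 0x0) (nat_lit 0x200010000c000200180002c0004000000000000000000000000000000000000) := T_39 (nat_lit 197) (nat_lit 214) (nat_lit 5) (nat_lit 11) (nat_lit 8) L101692 (by decide +kernel)
theorem L101694 : W_39 (nat_lit 7) (nat_lit 0xc00024001200090001c0000000000000000000000000000000) (nat_lit 0x0) (nat_lit 0x200010000c0002001c0002c0004000400000000000000000000000000000000) := T_39 (nat_lit 182) (nat_lit 130) (nat_lit 7) (nat_lit 11) (nat_lit 7) L101693 (by decide +kernel)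
theorem L101695 : W_39 (nat_lit 8) (nat_lit 0xc0002400120009000180000000000000000000000000000000) (nat_lit 0x0) (nat_lit 0x200010000c0002001c0002c0004000440002000000000000000000000000000) := T_39 (nat_lit 126) (nat_lit 109) (nat_lit 4) (nat_lit 8) (nat_lit 10) L101694 (by decide +kernel)
theorem L101696 : W_39 (nat_lit 9) (nat_lit 0x40002400120009000180000000000000000000000000000000) (nat_lit 0x0) (nat_lit 0x200010001c000a001c0002c0004000440002000000000000000000000000000) := T_39 (nat_lit 199) (nat_lit 216) (nat_lit 7) (nat_lit 11) (nat_lit 8) L101695 (by decide +kernel)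
theorem L101697 : W_39 (nat_lit 13) (nat_lit 0x2400120009000180000000000000000000000000000000) (nat_lit 0x0) (nat_lit 0x200018003c007e003c0002c0074001c40002000000000000000000000000000) := Q_39 (nat_lit 198) (C_39 L101589 (C_39 L101382 (C_39 L101391 (C_39 L101688 (C_39 L101696 N_39))))) (by decide +kernel)
theorem L101698 : W_39 (nat_lit 2) (nat_lit 0x20001e000b4001600190001c0000000000000000000000000000000) (nat_lit 0x0) (nat_lit 0x4000600000000000000000000000000000000000000000) := D_39 (nat_lit 165) (nat_lit 166) (nat_lit 182) (nat_lit 4) (nat_lit 13) (nat_lit 12) (nat_lit 7) (nat_lit 12) (nat_lit 8) (by decide +kernel)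
theorem L101699 : W_39 (nat_lit 3) (nat_lit 0x20001e00034001600190001c0000000000000000000000000000000) (nat_lit 0x0) (nat_lit 0x1c000600000000000000000000000000000000000000000) := T_39 (nat_lit 183) (nat_lit 184) (nat_lit 2) (nat_lit 10) (nat_lit 11) L101698 (by decide +kernel)
theorem L101700 : W_39 (nat_lit 4) (nat_lit 0x1e00034001600190001c0000000000000000000000000000000) (nat_lit 0x0) (nat_lit 0x600000001c000600000000000000000000000000000000000000000) := T_39 (nat_lit 217) (nat_lit 218) (nat_lit 3) (nat_lit 10) (nat_lit 11) L101699 (by decide +kernel)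
theorem L101701 : W_39 (nat_lit 5) (nat_lit 0xe00034001600190001c0000000000000000000000000000000) (nat_lit 0x0) (nat_lit 0x600030001c000600000000000000000000000000000000000000000) := T_39 (nat_lit 200) (nat_lit 201) (nat_lit 0) (nat_lit 14) (nat_lit 11) L101700 (by decide +kernel)
theorem L101702 : W_39 (nat_lit 6) (nat_lit 0xc00034001600190001c0000000000000000000000000000000) (nat_lit 0x0) (nat_lit 0x640032001c000600000000000000000000000000000000000000000) := T_39 (nat_lit 197) (nat_lit 214) (nat_lit 5) (nat_lit 11) (nat_lit 8) L101701 (by decide +kernel)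
theorem L101703 : W_39 (nat_lit 7) (nat_lit 0xc00024001600190001c0000000000000000000000000000000) (nat_lit 0x0) (nat_lit 0x640032001d800600000000000000000000000000000000000000000) := T_39 (nat_lit 180) (nat_lit 179) (nat_lit 3) (nat_lit 8) (nat_lit 10) L101702 (by decide +kernel)
theorem L101704 : W_39 (nat_lit 8) (nat_lit 0x400024001600190001c0000000000000000000000000000000) (nat_lit 0x0) (nat_lit 0x74003a001d800600000000000000000000000000000000000000000) := T_39 (nat_lit 199) (nat_lit 216) (nat_lit 7) (nat_lit 11) (nat_lit 8) L101703 (by decide +kernel)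
theorem L101705 : W_39 (nat_lit 9) (nat_lit 0x40002400160019000180000000000000000000000000000000) (nat_lit 0x0) (nat_lit 0x74003a001d800600000000040002000000000000000000000000000) := T_39 (nat_lit 126) (nat_lit 109) (nat_lit 4) (nat_lit 8) (nat_lit 10) L101704 (by decide +kernel)
theorem L101706 : W_39 (nat_lit 10) (nat_lit 0x40002400120019000180000000000000000000000000000000) (nat_lit 0x0) (nat_lit 0x74003a001d8006c0000000040002000000000000000000000000000) := T_39 (nat_lit 162) (nat_lit 163) (nat_lit 2) (nat_lit 8) (nat_lit 9) L101705 (by decide +kernel)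
theorem L101707 : W_39 (nat_lit 11) (nat_lit 0x40002400120009000180000000000000000000000000000000) (nat_lit 0x0) (nat_lit 0x74003a001d8006c0010000840002000000000000000000000000000) := T_39 (nat_lit 148) (nat_lit 131) (nat_lit 6) (nat_lit 11) (nat_lit 11) L101706 (by decide +kernel)
theorem L101708 : W_39 (nat_lit 12) (nat_lit 0x2400120009000180000000000000000000000000000000) (nat_lit 0x0) (nat_lit 0x38007c003e001d8006c0074000840002000000000000000000000000000) := Q_39 (nat_lit 198) (C_39 L101589 (C_39 L101382 (C_39 L101391 (C_39 L101707 (C_39 L101582 N_39))))) (by decide +kernel)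
theorem L101709 : W_39 (nat_lit 14) (nat_lit 0x2400020009000180000000000000000000000000000000) (nat_lit 0x0) (nat_lit 0x300038007c007e003d800fd0074001c400720038001c0008000000000000000) := Q_39 (nat_lit 164) (C_39 L101648 (C_39 L101383 (C_39 L101395 (C_39 L101697 (C_39 L101493 (C_39 L101617 (C_39 L101556 (C_39 L101708 (C_39 L101608 (C_39 L101633 N_39)))))))))) (by decide +kernel)
theorem L101710 : W_39 (nat_lit 2) (nat_lit 0x8007c001200090005c0020000000000000000000000000000) (nat_lit 0x0) (nat_lit 0x800040002000000000000000000000000) := D_39 (nat_lit 114) (nat_lit 131) (nat_lit 97) (nat_lit 6) (nat_lit 11) (nat_lit 10) (nat_lit 6) (nat_lit 11) (nat_lit 9) (by decide +kernel)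
theorem L101711 : W_39 (nat_lit 3) (nat_lit 0x8007c001200090005c0000000000000000000000000000000) (nat_lit 0x0) (nat_lit 0x80000000800060002000000000000000000000000) := T_39 (nat_lit 113) (nat_lit 163) (nat_lit 5) (nat_lit 11) (nat_lit 6) L101710 (by decide +kernel)
theorem L101712 : W_39 (nat_lit 4) (nat_lit 0x8007c001200090001c0000000000000000000000000000000) (nat_lit 0x0) (nat_lit 0x20000000080000000c00060002000000000000000000000000) := T_39 (nat_lit 130) (nat_lit 197) (nat_lit 5) (nat_lit 11) (nat_lit 7) L101711 (by decide +kernel)
theorem L101713 : W_39 (nat_lit 5) (nat_lit 0x8003c001200090001c0000000000000000000000000000000) (nat_lit 0x0) (nat_lit 0x200040000c0000000c00060002000000000000000000000000) := T_39 (nat_lit 182) (nat_lit 162) (nat_lit 0) (nat_lit 12) (nat_lit 10) L101712 (by decide +kernel)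
theorem L101714 : W_39 (nat_lit 6) (nat_lit 0x8003c000200090001c0000000000000000000000000000000) (nat_lit 0x0) (nat_lit 0x200040003c0000000c00060002000000000000000000000000) := T_39 (nat_lit 164) (nat_lit 165) (nat_lit 2) (nat_lit 8) (nat_lit 10) L101713 (by decide +kernel)
theorem L101715 : W_39 (nat_lit 7) (nat_lit 0x3c000200090001c0000000000000000000000000000000) (nat_lit 0x0) (nat_lit 0x2c0040003c0000000c00060002000000000000000000000000) := T_39 (nat_lit 195) (nat_lit 194) (nat_lit 1) (nat_lit 11) (nat_lit 10) L101714 (by decide +kernel)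
theorem L101716 : W_39 (nat_lit 8) (nat_lit 0x2c000200090001c0000000000000000000000000000000) (nat_lit 0x0) (nat_lit 0x2c0050003d0000000c00060002000000000000000000000000) := T_39 (nat_lit 180) (nat_lit 160) (nat_lit 0) (nat_lit 11) (nat_lit 10) L101715 (by decide +kernel)
theorem L101717 : W_39 (nat_lit 9) (nat_lit 0x24000200090001c0000000000000000000000000000000) (nat_lit 0x0) (nat_lit 0x3c0058003d0000000c00060002000000000000000000000000) := T_39 (nat_lit 179) (nat_lit 196) (nat_lit 7) (nat_lit 8) (nat_lit 7) L101716 (by decide +kernel)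
theorem L101718 : W_39 (nat_lit 10) (nat_lit 0x2400020009000180000000000000000000000000000000) (nat_lit 0x0) (nat_lit 0x3c0058003d0000000c40062002000000000000000000000000) := T_39 (nat_lit 126) (nat_lit 109) (nat_lit 4) (nat_lit 8) (nat_lit 10) L101717 (by decide +kernel)
theorem L101719 : W_39 (nat_lit 2) (nat_lit 0x8000780048003c001600090001c0000000000000000000000000000000) (nat_lit 0x0) (nat_lit 0x80010000800000000000000000000000000000000) := D_39 (nat_lit 148) (nat_lit 163) (nat_lit 131) (nat_lit 2) (nat_lit 8) (nat_lit 9) (nat_lit 6) (nat_lit 11) (nat_lit 11) (by decide +kernel)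
theorem L101720 : W_39 (nat_lit 3) (nat_lit 0x8000780048003c000600090001c0000000000000000000000000000000) (nat_lit 0x0) (nat_lit 0x800000000000180010000800000000000000000000000000000000) := T_39 (nat_lit 164) (nat_lit 215) (nat_lit 5) (nat_lit 11) (nat_lit 9) L101719 (by decide +kernel)
theorem L101721 : W_39 (nat_lit 4) (nat_lit 0x780048003c000600090001c0000000000000000000000000000000) (nat_lit 0x0) (nat_lit 0x18000800000000000180010000800000000000000000000000000000000) := T_39 (nat_lit 231) (nat_lit 232) (nat_lit 3) (nat_lit 7) (nat_lit 12) L101720 (by decide +kernel)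
theorem L101722 : W_39 (nat_lit 5) (nat_lit 0x380048003c000600090001c0000000000000000000000000000000) (nat_lit 0x0) (nat_lit 0x18000c00020000000180010000800000000000000000000000000000000) := T_39 (nat_lit 214) (nat_lit 197) (nat_lit 2) (nat_lit 7) (nat_lit 12) L101721 (by decide +kernel)
theorem L101723 : W_39 (nat_lit 6) (nat_lit 0x300048003c000600090001c0000000000000000000000000000000) (nat_lit 0x0) (nat_lit 0x19000c80020000000180010000800000000000000000000000000000000) := T_39 (nat_lit 211) (nat_lit 228) (nat_lit 5) (nat_lit 8) (nat_lit 9) L101722 (by decide +kernel)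
theorem L101724 : W_39 (nat_lit 7) (nat_lit 0x100048003c000600090001c0000000000000000000000000000000) (nat_lit 0x0) (nat_lit 0x1d000e80020000000180010000800000000000000000000000000000000) := T_39 (nat_lit 213) (nat_lit 230) (nat_lit 7) (nat_lit 8) (nat_lit 9) L101723 (by decide +kernel)
theorem L101725 : W_39 (nat_lit 8) (nat_lit 0x48003c000600090001c0000000000000000000000000000000) (nat_lit 0x0) (nat_lit 0x1f000f80020000000180010000800000000000000000000000000000000) := T_39 (nat_lit 212) (nat_lit 229) (nat_lit 6) (nat_lit 8) (nat_lit 13) L101724 (by decide +kernel)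
theorem L101726 : W_39 (nat_lit 9) (nat_lit 0x48003c00060009000180000000000000000000000000000000) (nat_lit 0x0) (nat_lit 0x1f000f80020000000180010000840002000000000000000000000000000) := T_39 (nat_lit 126) (nat_lit 109) (nat_lit 4) (nat_lit 8) (nat_lit 10) L101725 (by decide +kernel)
theorem L101727 : W_39 (nat_lit 10) (nat_lit 0x48003c00020009000180000000000000000000000000000000) (nat_lit 0x0) (nat_lit 0x1f000f800200040001c0010000840002000000000000000000000000000) := T_39 (nat_lit 162) (nat_lit 182) (nat_lit 0) (nat_lit 12) (nat_lit 10) L101726 (by decide +kernel)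
theorem L101728 : W_39 (nat_lit 11) (nat_lit 0x8003c00020009000180000000000000000000000000000000) (nat_lit 0x0) (nat_lit 0x1f000f800e00040001c0010000840002000000000000000000000000000) := T_39 (nat_lit 198) (nat_lit 199) (nat_lit 3) (nat_lit 8) (nat_lit 10) L101727 (by decide +kernel)
theorem L101729 : W_39 (nat_lit 12) (nat_lit 0x3c00020009000180000000000000000000000000000000) (nat_lit 0x0) (nat_lit 0x1f000f800ec0040001c0010000840002000000000000000000000000000) := T_39 (nat_lit 195) (nat_lit 194) (nat_lit 1) (nat_lit 11) (nat_lit 10) L101728 (by decide +kernel)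
theorem L101730 : W_39 (nat_lit 13) (nat_lit 0x2c00020009000180000000000000000000000000000000) (nat_lit 0x0) (nat_lit 0x1f000f800ec0050001d0010000840002000000000000000000000000000) := T_39 (nat_lit 180) (nat_lit 160) (nat_lit 0) (nat_lit 11) (nat_lit 10) L101729 (by decide +kernel)
theorem L101731 : W_39 (nat_lit 14) (nat_lit 0x2400020009000180000000000000000000000000000000) (nat_lit 0x0) (nat_lit 0x1f000f800fc0058001d0010000840002000000000000000000000000000) := T_39 (nat_lit 179) (nat_lit 196) (nat_lit 7) (nat_lit 8) (nat_lit 7) L101730 (by decide +kernel)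
theorem L101732 : W_39 (nat_lit 15) (nat_lit 0x400020009000180000000000000000000000000000000) (nat_lit 0x0) (nat_lit 0x38003f007fe07fc03f800fd0074001c400720038001c0008000000000000000) := Q_39 (nat_lit 181) (C_39 L101213 (C_39 L101219 (C_39 L101358 (C_39 L101649 (C_39 L101660 (C_39 L101670 (C_39 L101677 (C_39 L101709 (C_39 L101718 (C_39 L101731 N_39)))))))))) (by decide +kernel)
theorem L101733 : W_39 (nat_lit 2) (nat_lit 0x100008000400020009000180000000000000000000000000000000) (nat_lit 0x0) (nat_lit 0x1000080004000000000000000000000000000000000000000000000000) := D_39 (nat_lit 211) (nat_lit 194) (nat_lit 228) (nat_lit 5) (nat_lit 8) (nat_lit 8) (nat_lit 5) (nat_lit 8) (nat_lit 9) (by decide +kernel)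
theorem L101734 : W_39 (nat_lit 2) (nat_lit 0x30001000080004000200090003c0010000000000000000000000000000) (nat_lit 0x0) (nat_lit 0x80004000200000000000000000000000000000000000000000000000000000) := D_39 (nat_lit 230) (nat_lit 213) (nat_lit 247) (nat_lit 7) (nat_lit 8) (nat_lit 9) (nat_lit 7) (nat_lit 8) (nat_lit 10) (by decide +kernel)
theorem L101735 : W_39 (nat_lit 3) (nat_lit 0x10001000080004000200090003c0010000000000000000000000000000) (nat_lit 0x0) (nat_lit 0xa0006000200000000000000000000000000000000000000000000000000000) := T_39 (nat_lit 229) (nat_lit 245) (nat_lit 5) (nat_lit 8) (nat_lit 10) L101734 (by decide +kernel)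
theorem L101736 : W_39 (nat_lit 4) (nat_lit 0x10001000080004000200090003c0000000000000000000000000000000) (nat_lit 0x0) (nat_lit 0xa0006000200000000000000000000000030000000000000000000000000000) := T_39 (nat_lit 112) (nat_lit 113) (nat_lit 2) (nat_lit 7) (nat_lit 7) L101735 (by decide +kernel)
theorem L101737 : W_39 (nat_lit 5) (nat_lit 0x1000080004000200090003c0000000000000000000000000000000) (nat_lit 0x0) (nat_lit 0xa0007000280000000000000000000000030000000000000000000000000000) := T_39 (nat_lit 228) (nat_lit 211) (nat_lit 5) (nat_lit 8) (nat_lit 9) L101736 (by decide +kernel)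
theorem L101738 : W_39 (nat_lit 6) (nat_lit 0x1000080004000200090001c0000000000000000000000000000000) (nat_lit 0x0) (nat_lit 0xa0007000280000000000000004000200030000000000000000000000000000) := T_39 (nat_lit 129) (nat_lit 146) (nat_lit 3) (nat_lit 7) (nat_lit 7) L101737 (by decide +kernel)
theorem L101739 : W_39 (nat_lit 7) (nat_lit 0x100008000400020009000180000000000000000000000000000000) (nat_lit 0x0) (nat_lit 0xa0007000280000000000000004000240032000000000000000000000000000) := T_39 (nat_lit 126) (nat_lit 109) (nat_lit 4) (nat_lit 8) (nat_lit 10) L101738 (by decide +kernel)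
theorem L101740 : W_39 (nat_lit 2) (nat_lit 0x40001000080034001200090007c0020000000000000000000000000000) (nat_lit 0x0) (nat_lit 0x4000800200000000000000000000000000000000000000000) := D_39 (nat_lit 179) (nat_lit 165) (nat_lit 194) (nat_lit 2) (nat_lit 8) (nat_lit 10) (nat_lit 1) (nat_lit 11) (nat_lit 10) (by decide +kernel)
theorem L101741 : W_39 (nat_lit 3) (nat_lit 0x40001000080014001200090007c0020000000000000000000000000000) (nat_lit 0x0) (nat_lit 0x24002800200000000000000000000000000000000000000000) := T_39 (nat_lit 181) (nat_lit 197) (nat_lit 5) (nat_lit 11) (nat_lit 7) L101740 (by decide +kernel)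
theorem L101742 : W_39 (nat_lit 4) (nat_lit 0x40001000080014000200090007c0020000000000000000000000000000) (nat_lit 0x0) (nat_lit 0x24002800380000000000000000000000000000000000000000) := T_39 (nat_lit 164) (nat_lit 163) (nat_lit 5) (nat_lit 11) (nat_lit 6) L101741 (by decide +kernel)
theorem L101743 : W_39 (nat_lit 5) (nat_lit 0x40001000080014000200090003c0020000000000000000000000000000) (nat_lit 0x0) (nat_lit 0x24002800380000000400040000000000000000000000000000) := T_39 (nat_lit 130) (nat_lit 114) (nat_lit 2) (nat_lit 8) (nat_lit 7) L101742 (by decide +kernel)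
theorem L101744 : W_39 (nat_lit 6) (nat_lit 0x40001000080014000200090003c0000000000000000000000000000000) (nat_lit 0x0) (nat_lit 0x24002800380000000400070000000000000000000000000000) := T_39 (nat_lit 113) (nat_lit 112) (nat_lit 2) (nat_lit 7) (nat_lit 7) L101743 (by decide +kernel)
theorem L101745 : W_39 (nat_lit 7) (nat_lit 0x40001000080014000200090001c0000000000000000000000000000000) (nat_lit 0x0) (nat_lit 0x24002800380004000600070000000000000000000000000000) := T_39 (nat_lit 129) (nat_lit 146) (nat_lit 3) (nat_lit 7) (nat_lit 7) L101744 (by decide +kernel)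
theorem L101746 : W_39 (nat_lit 8) (nat_lit 0x4000100008001400020009000180000000000000000000000000000000) (nat_lit 0x0) (nat_lit 0x24002800380004000640072000000000000000000000000000) := T_39 (nat_lit 126) (nat_lit 109) (nat_lit 4) (nat_lit 8) (nat_lit 10) L101745 (by decide +kernel)
theorem L101747 : W_39 (nat_lit 2) (nat_lit 0x7000100008001c00020009000180000000000000000000000000000000) (nat_lit 0x0) (nat_lit 0x4002000010000000000000000000000000000000000000000) := D_39 (nat_lit 181) (nat_lit 160) (nat_lit 194) (nat_lit 0) (nat_lit 11) (nat_lit 10) (nat_lit 1) (nat_lit 11) (nat_lit 10) (by decide +kernel)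
theorem L101748 : W_39 (nat_lit 3) (nat_lit 0x7000100008001400020009000180000000000000000000000000000000) (nat_lit 0x0) (nat_lit 0x4002800050000000000000000000000000000000000000000) := T_39 (nat_lit 179) (nat_lit 162) (nat_lit 6) (nat_lit 8) (nat_lit 13) L101747 (by decide +kernel)
theorem L101749 : W_39 (nat_lit 4) (nat_lit 0x6000100008001400020009000180000000000000000000000000000000) (nat_lit 0x0) (nat_lit 0x20001000000004002800050000000000000000000000000000000000000000) := T_39 (nat_lit 228) (nat_lit 245) (nat_lit 5) (nat_lit 8) (nat_lit 10) L101748 (by decide +kernel)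
theorem L101750 : W_39 (nat_lit 5) (nat_lit 0x4000100008001400020009000180000000000000000000000000000000) (nat_lit 0x0) (nat_lit 0xa0003000000004002800050000000000000000000000000000000000000000) := T_39 (nat_lit 229) (nat_lit 247) (nat_lit 7) (nat_lit 8) (nat_lit 10) L101749 (by decide +kernel)
theorem L101751 : W_39 (nat_lit 2) (nat_lit 0x7000100008003c001200090003c0000000000000000000000000000000) (nat_lit 0x0) (nat_lit 0x400030000000000000000000000000000) := D_39 (nat_lit 112) (nat_lit 113) (nat_lit 130) (nat_lit 2) (nat_lit 7) (nat_lit 7) (nat_lit 4) (nat_lit 11) (nat_lit 10) (by decide +kernel)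
theorem L101752 : W_39 (nat_lit 3) (nat_lit 0x7000100008003c000200090003c0000000000000000000000000000000) (nat_lit 0x0) (nat_lit 0x300000000400030000000000000000000000000000) := T_39 (nat_lit 164) (nat_lit 165) (nat_lit 2) (nat_lit 8) (nat_lit 10) L101751 (by decide +kernel)
theorem L101753 : W_39 (nat_lit 4) (nat_lit 0x7000100008003c000200090001c0000000000000000000000000000000) (nat_lit 0x0) (nat_lit 0x300004000600030000000000000000000000000000) := T_39 (nat_lit 129) (nat_lit 146) (nat_lit 3) (nat_lit 7) (nat_lit 7) L101752 (by decide +kernel)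
theorem L101754 : W_39 (nat_lit 5) (nat_lit 0x7000100008003c00020009000180000000000000000000000000000000) (nat_lit 0x0) (nat_lit 0x300004000640032000000000000000000000000000) := T_39 (nat_lit 126) (nat_lit 109) (nat_lit 4) (nat_lit 8) (nat_lit 10) L101753 (by decide +kernel)
theorem L101755 : W_39 (nat_lit 6) (nat_lit 0x7000100008001c00020009000180000000000000000000000000000000) (nat_lit 0x0) (nat_lit 0x2000310004000640032000000000000000000000000000) := T_39 (nat_lit 181) (nat_lit 160) (nat_lit 0) (nat_lit 11) (nat_lit 10) L101754 (by decide +kernel)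
theorem L101756 : W_39 (nat_lit 7) (nat_lit 0x7000100008001400020009000180000000000000000000000000000000) (nat_lit 0x0) (nat_lit 0x2800350004000640032000000000000000000000000000) := T_39 (nat_lit 179) (nat_lit 162) (nat_lit 6) (nat_lit 8) (nat_lit 13) L101755 (by decide +kernel)
theorem L101757 : W_39 (nat_lit 8) (nat_lit 0x6000100008001400020009000180000000000000000000000000000000) (nat_lit 0x0) (nat_lit 0x20001000000000002800350004000640032000000000000000000000000000) := T_39 (nat_lit 228) (nat_lit 245) (nat_lit 5) (nat_lit 8) (nat_lit 10) L101756 (by decide +kernel)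
theorem L101758 : W_39 (nat_lit 9) (nat_lit 0x4000100008001400020009000180000000000000000000000000000000) (nat_lit 0x0) (nat_lit 0xa0003000000000002800350004000640032000000000000000000000000000) := T_39 (nat_lit 229) (nat_lit 247) (nat_lit 7) (nat_lit 8) (nat_lit 10) L101757 (by decide +kernel)
theorem L101759 : W_39 (nat_lit 2) (nat_lit 0x70001000080034001200090007c0020000000000000000000000000000) (nat_lit 0x0) (nat_lit 0x80004000200000000000000000000000000000000000000000) := D_39 (nat_lit 182) (nat_lit 165) (nat_lit 199) (nat_lit 7) (nat_lit 11) (nat_lit 6) (nat_lit 7) (nat_lit 11) (nat_lit 7) (by decide +kernel)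
theorem L101760 : W_39 (nat_lit 3) (nat_lit 0x70001000080014001200090007c0020000000000000000000000000000) (nat_lit 0x0) (nat_lit 0xa0006000200000000000000000000000000000000000000000) := T_39 (nat_lit 181) (nat_lit 197) (nat_lit 5) (nat_lit 11) (nat_lit 7) L101759 (by decide +kernel)
theorem L101761 : W_39 (nat_lit 4) (nat_lit 0x70001000080014000200090007c0020000000000000000000000000000) (nat_lit 0x0) (nat_lit 0xa0006000380000000000000000000000000000000000000000) := T_39 (nat_lit 164) (nat_lit 163) (nat_lit 5) (nat_lit 11) (nat_lit 6) L101760 (by decide +kernel)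
theorem L101762 : W_39 (nat_lit 5) (nat_lit 0x70001000080014000200090003c0020000000000000000000000000000) (nat_lit 0x0) (nat_lit 0xa0006000380000000400040000000000000000000000000000) := T_39 (nat_lit 130) (nat_lit 114) (nat_lit 2) (nat_lit 8) (nat_lit 7) L101761 (by decide +kernel)
theorem L101763 : W_39 (nat_lit 6) (nat_lit 0x70001000080014000200090003c0000000000000000000000000000000) (nat_lit 0x0) (nat_lit 0xa0006000380000000400070000000000000000000000000000) := T_39 (nat_lit 113) (nat_lit 112) (nat_lit 2) (nat_lit 7) (nat_lit 7) L101762 (by decide +kernel)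
theorem L101764 : W_39 (nat_lit 7) (nat_lit 0x60001000080014000200090003c0000000000000000000000000000000) (nat_lit 0x0) (nat_lit 0x200010000000a0006000380000000400070000000000000000000000000000) := T_39 (nat_lit 228) (nat_lit 245) (nat_lit 5) (nat_lit 8) (nat_lit 10) L101763 (by decide +kernel)
theorem L101765 : W_39 (nat_lit 8) (nat_lit 0x40001000080014000200090003c0000000000000000000000000000000) (nat_lit 0x0) (nat_lit 0xa00030000000a0006000380000000400070000000000000000000000000000) := T_39 (nat_lit 229) (nat_lit 247) (nat_lit 7) (nat_lit 8) (nat_lit 10) L101764 (by decide +kernel)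
theorem L101766 : W_39 (nat_lit 9) (nat_lit 0x40001000080014000200090001c0000000000000000000000000000000) (nat_lit 0x0) (nat_lit 0xa00030000000a0006000380004000600070000000000000000000000000000) := T_39 (nat_lit 129) (nat_lit 146) (nat_lit 3) (nat_lit 7) (nat_lit 7) L101765 (by decide +kernel)
theorem L101767 : W_39 (nat_lit 10) (nat_lit 0x4000100008001400020009000180000000000000000000000000000000) (nat_lit 0x0) (nat_lit 0xa00030000000a0006000380004000640072000000000000000000000000000) := T_39 (nat_lit 126) (nat_lit 109) (nat_lit 4) (nat_lit 8) (nat_lit 10) L101766 (by decide +kernel)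
theorem L101768 : W_39 (nat_lit 2) (nat_lit 0x70005000280014000e000d0001c0000000000000000000000000000000) (nat_lit 0x0) (nat_lit 0x10000800040000000000000000000000000000000000000000000000000) := D_39 (nat_lit 215) (nat_lit 232) (nat_lit 198) (nat_lit 7) (nat_lit 10) (nat_lit 9) (nat_lit 7) (nat_lit 10) (nat_lit 8) (by decide +kernel)
theorem L101769 : W_39 (nat_lit 3) (nat_lit 0x70001000280014000e000d0001c0000000000000000000000000000000) (nat_lit 0x0) (nat_lit 0x10000c00040000000100000000000000000000000000000000000000000) := T_39 (nat_lit 214) (nat_lit 164) (nat_lit 6) (nat_lit 10) (nat_lit 12) L101768 (by decide +kernel)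
theorem L101770 : W_39 (nat_lit 4) (nat_lit 0x70001000080014000e000d0001c0000000000000000000000000000000) (nat_lit 0x0) (nat_lit 0x10000c00060000000100000000400000000000000000000000000000000) := T_39 (nat_lit 197) (nat_lit 130) (nat_lit 6) (nat_lit 10) (nat_lit 11) L101769 (by decide +kernel)
theorem L101771 : W_39 (nat_lit 5) (nat_lit 0x700010000800140006000d0001c0000000000000000000000000000000) (nat_lit 0x0) (nat_lit 0x10000c00060000000190000000400000000000000000000000000000000) := T_39 (nat_lit 163) (nat_lit 160) (nat_lit 2) (nat_lit 7) (nat_lit 9) L101770 (by decide +kernel)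
theorem L101772 : W_39 (nat_lit 6) (nat_lit 0x70001000080014000600090001c0000000000000000000000000000000) (nat_lit 0x0) (nat_lit 0x10000c00060000000190004000600000000000000000000000000000000) := T_39 (nat_lit 146) (nat_lit 129) (nat_lit 3) (nat_lit 7) (nat_lit 7) L101771 (by decide +kernel)
theorem L101773 : W_39 (nat_lit 7) (nat_lit 0x7000100008001400060009000180000000000000000000000000000000) (nat_lit 0x0) (nat_lit 0x10000c00060000000190004000640002000000000000000000000000000) := T_39 (nat_lit 126) (nat_lit 109) (nat_lit 4) (nat_lit 8) (nat_lit 10) L101772 (by decide +kernel)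
theorem L101774 : W_39 (nat_lit 8) (nat_lit 0x7000100008001400020009000180000000000000000000000000000000) (nat_lit 0x0) (nat_lit 0x10000c000600008001d0004000640002000000000000000000000000000) := T_39 (nat_lit 162) (nat_lit 179) (nat_lit 6) (nat_lit 8) (nat_lit 13) L101773 (by decide +kernel)
theorem L101775 : W_39 (nat_lit 9) (nat_lit 0x6000100008001400020009000180000000000000000000000000000000) (nat_lit 0x0) (nat_lit 0x20011000c000600008001d0004000640002000000000000000000000000000) := T_39 (nat_lit 228) (nat_lit 245) (nat_lit 5) (nat_lit 8) (nat_lit 10) L101774 (by decide +kernel)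
theorem L101776 : W_39 (nat_lit 10) (nat_lit 0x4000100008001400020009000180000000000000000000000000000000) (nat_lit 0x0) (nat_lit 0xa0013000c000600008001d0004000640002000000000000000000000000000) := T_39 (nat_lit 229) (nat_lit 247) (nat_lit 7) (nat_lit 8) (nat_lit 10) L101775 (by decide +kernel)
theorem L101777 : W_39 (nat_lit 11) (nat_lit 0x4000100008000400020009000180000000000000000000000000000000) (nat_lit 0x0) (nat_lit 0xa0013000c000e40078003d0004000640072000000000000000000000000000) := Q_39 (nat_lit 180) (C_39 L101746 (C_39 L101750 (C_39 L101758 (C_39 L101767 (C_39 L101776 N_39))))) (by decide +kernel)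
theorem L101778 : W_39 (nat_lit 12) (nat_lit 0x100008000400020009000180000000000000000000000000000000) (nat_lit 0x0) (nat_lit 0xa0017000e000e40078003d0004000640072000000000000000000000000000) := T_39 (nat_lit 230) (nat_lit 213) (nat_lit 7) (nat_lit 8) (nat_lit 9) L101777 (by decide +kernel)
theorem L101779 : W_39 (nat_lit 2) (nat_lit 0x6000100008002c001200090003c0010000000000000000000000000000) (nat_lit 0x0) (nat_lit 0x4001000200000000000000000000000000000000000000000) := D_39 (nat_lit 180) (nat_lit 165) (nat_lit 194) (nat_lit 2) (nat_lit 8) (nat_lit 10) (nat_lit 1) (nat_lit 11) (nat_lit 10) (by decide +kernel)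
theorem L101780 : W_39 (nat_lit 3) (nat_lit 0x60001000080024001200090003c0010000000000000000000000000000) (nat_lit 0x0) (nat_lit 0x4001800240000000000000000000000000000000000000000) := T_39 (nat_lit 179) (nat_lit 162) (nat_lit 6) (nat_lit 8) (nat_lit 13) L101779 (by decide +kernel)
theorem L101781 : W_39 (nat_lit 4) (nat_lit 0x60001000080024000200090003c0010000000000000000000000000000) (nat_lit 0x0) (nat_lit 0x4001800340000000400000000000000000000000000000000) := T_39 (nat_lit 164) (nat_lit 130) (nat_lit 4) (nat_lit 11) (nat_lit 10) L101780 (by decide +kernel)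
theorem L101782 : W_39 (nat_lit 5) (nat_lit 0x40001000080024000200090003c0010000000000000000000000000000) (nat_lit 0x0) (nat_lit 0x80002000000004001800340000000400000000000000000000000000000000) := T_39 (nat_lit 229) (nat_lit 247) (nat_lit 7) (nat_lit 8) (nat_lit 10) L101781 (by decide +kernel)
theorem L101783 : W_39 (nat_lit 6) (nat_lit 0x40001000080024000200090003c0000000000000000000000000000000) (nat_lit 0x0) (nat_lit 0x80002000000004001800340000000400030000000000000000000000000000) := T_39 (nat_lit 112) (nat_lit 113) (nat_lit 2) (nat_lit 7) (nat_lit 7) L101782 (by decide +kernel)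
theorem L101784 : W_39 (nat_lit 7) (nat_lit 0x1000080024000200090003c0000000000000000000000000000000) (nat_lit 0x0) (nat_lit 0x80006000200004001800340000000400030000000000000000000000000000) := T_39 (nat_lit 230) (nat_lit 213) (nat_lit 7) (nat_lit 8) (nat_lit 9) L101783 (by decide +kernel)
theorem L101785 : W_39 (nat_lit 8) (nat_lit 0x1000080024000200090001c0000000000000000000000000000000) (nat_lit 0x0) (nat_lit 0x80006000200004001800340004000600030000000000000000000000000000) := T_39 (nat_lit 129) (nat_lit 146) (nat_lit 3) (nat_lit 7) (nat_lit 7) L101784 (by decide +kernel)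
theorem L101786 : W_39 (nat_lit 9) (nat_lit 0x100008002400020009000180000000000000000000000000000000) (nat_lit 0x0) (nat_lit 0x80006000200004001800340004000640032000000000000000000000000000) := T_39 (nat_lit 126) (nat_lit 109) (nat_lit 4) (nat_lit 8) (nat_lit 10) L101785 (by decide +kernel)
theorem L101787 : W_39 (nat_lit 2) (nat_lit 0x400010000c002c00020009000180000000000000000000000000000000) (nat_lit 0x0) (nat_lit 0x80002000000000000000040000000000000000000000000000000000000000) := D_39 (nat_lit 229) (nat_lit 247) (nat_lit 162) (nat_lit 7) (nat_lit 8) (nat_lit 10) (nat_lit 6) (nat_lit 8) (nat_lit 13) (by decide +kernel)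
theorem L101788 : W_39 (nat_lit 3) (nat_lit 0x400010000c002400020009000180000000000000000000000000000000) (nat_lit 0x0) (nat_lit 0x80002000000000001800040000000000000000000000000000000000000000) := T_39 (nat_lit 179) (nat_lit 180) (nat_lit 1) (nat_lit 11) (nat_lit 10) L101787 (by decide +kernel)
theorem L101789 : W_39 (nat_lit 4) (nat_lit 0x4000100008002400020009000180000000000000000000000000000000) (nat_lit 0x0) (nat_lit 0x80002000080004001800040000000000000000000000000000000000000000) := T_39 (nat_lit 194) (nat_lit 211) (nat_lit 5) (nat_lit 8) (nat_lit 8) L101788 (by decide +kernel)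
theorem L101790 : W_39 (nat_lit 5) (nat_lit 0x100008002400020009000180000000000000000000000000000000) (nat_lit 0x0) (nat_lit 0x80006000280004001800040000000000000000000000000000000000000000) := T_39 (nat_lit 230) (nat_lit 213) (nat_lit 7) (nat_lit 8) (nat_lit 9) L101789 (by decide +kernel)
theorem L101791 : W_39 (nat_lit 2) (nat_lit 0x10000c0024001200090003c0000000000000000000000000000000) (nat_lit 0x0) (nat_lit 0x400030000000000000000000000000000) := D_39 (nat_lit 112) (nat_lit 113) (nat_lit 130) (nat_lit 2) (nat_lit 7) (nat_lit 7) (nat_lit 4) (nat_lit 11) (nat_lit 10) (by decide +kernel)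
theorem L101792 : W_39 (nat_lit 3) (nat_lit 0x10000c0024001200090001c0000000000000000000000000000000) (nat_lit 0x0) (nat_lit 0x4000600030000000000000000000000000000) := T_39 (nat_lit 129) (nat_lit 146) (nat_lit 3) (nat_lit 7) (nat_lit 7) L101791 (by decide +kernel)
theorem L101793 : W_39 (nat_lit 4) (nat_lit 0x10000c002400120009000180000000000000000000000000000000) (nat_lit 0x0) (nat_lit 0x4000640032000000000000000000000000000) := T_39 (nat_lit 126) (nat_lit 109) (nat_lit 4) (nat_lit 8) (nat_lit 10) L101792 (by decide +kernel)
theorem L101794 : W_39 (nat_lit 5) (nat_lit 0x100008002400120009000180000000000000000000000000000000) (nat_lit 0x0) (nat_lit 0x80004000000000004000640032000000000000000000000000000) := T_39 (nat_lit 194) (nat_lit 211) (nat_lit 5) (nat_lit 8) (nat_lit 8) L101793 (by decide +kernel)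
theorem L101795 : W_39 (nat_lit 2) (nat_lit 0x7000cd002400120009000380000000000000000000000000000000) (nat_lit 0x0) (nat_lit 0x4000000000000400010000000000000000000000000000) := D_39 (nat_lit 130) (nat_lit 112) (nat_lit 182) (nat_lit 4) (nat_lit 11) (nat_lit 10) (nat_lit 7) (nat_lit 11) (nat_lit 7) (by decide +kernel)
theorem L101796 : W_39 (nat_lit 3) (nat_lit 0x70004d002400120009000380000000000000000000000000000000) (nat_lit 0x0) (nat_lit 0x1000080004000000000000400010000000000000000000000000000) := T_39 (nat_lit 199) (nat_lit 216) (nat_lit 7) (nat_lit 11) (nat_lit 8) L101795 (by decide +kernel)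
theorem L101797 : W_39 (nat_lit 4) (nat_lit 0x70004d002400120009000180000000000000000000000000000000) (nat_lit 0x0) (nat_lit 0x1000080004000000004000600010000000000000000000000000000) := T_39 (nat_lit 129) (nat_lit 146) (nat_lit 4) (nat_lit 11) (nat_lit 11) L101796 (by decide +kernel)
theorem L101798 : W_39 (nat_lit 5) (nat_lit 0x70000d002400120009000180000000000000000000000000000000) (nat_lit 0x0) (nat_lit 0x10000e0004000000004000600010000000000000000000000000000) := T_39 (nat_lit 198) (nat_lit 197) (nat_lit 5) (nat_lit 11) (nat_lit 8) L101797 (by decide +kernel)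
theorem L101799 : W_39 (nat_lit 6) (nat_lit 0x30000d002400120009000180000000000000000000000000000000) (nat_lit 0x0) (nat_lit 0x1c000e0004000000004000600010000000000000000000000000000) := T_39 (nat_lit 214) (nat_lit 215) (nat_lit 0) (nat_lit 11) (nat_lit 12) L101798 (by decide +kernel)
theorem L101800 : W_39 (nat_lit 7) (nat_lit 0x30000c002400120009000180000000000000000000000000000000) (nat_lit 0x0) (nat_lit 0x1c000e3004000000004000600010000000000000000000000000000) := T_39 (nat_lit 192) (nat_lit 193) (nat_lit 3) (nat_lit 5) (nat_lit 11) L101799 (by decide +kernel)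
theorem L101801 : W_39 (nat_lit 8) (nat_lit 0x300008002400120009000180000000000000000000000000000000) (nat_lit 0x0) (nat_lit 0x1c800e7004000000004000600010000000000000000000000000000) := T_39 (nat_lit 194) (nat_lit 211) (nat_lit 5) (nat_lit 8) (nat_lit 8) L101800 (by decide +kernel)
theorem L101802 : W_39 (nat_lit 9) (nat_lit 0x100008002400120009000180000000000000000000000000000000) (nat_lit 0x0) (nat_lit 0x4001e800e7004000000004000600010000000000000000000000000000) := T_39 (nat_lit 213) (nat_lit 230) (nat_lit 7) (nat_lit 8) (nat_lit 9) L101801 (by decide +kernel)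
theorem L101803 : W_39 (nat_lit 2) (nat_lit 0x1000080024001200090003c0000000000000000000000000000000) (nat_lit 0x0) (nat_lit 0x400030000000000000000000000000000) := D_39 (nat_lit 112) (nat_lit 113) (nat_lit 130) (nat_lit 2) (nat_lit 7) (nat_lit 7) (nat_lit 4) (nat_lit 11) (nat_lit 10) (by decide +kernel)
theorem L101804 : W_39 (nat_lit 3) (nat_lit 0x1000080024001200090001c0000000000000000000000000000000) (nat_lit 0x0) (nat_lit 0x4000600030000000000000000000000000000) := T_39 (nat_lit 129) (nat_lit 146) (nat_lit 3) (nat_lit 7) (nat_lit 7) L101803 (by decide +kernel)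
theorem L101805 : W_39 (nat_lit 4) (nat_lit 0x100008002400120009000180000000000000000000000000000000) (nat_lit 0x0) (nat_lit 0x4000640032000000000000000000000000000) := T_39 (nat_lit 126) (nat_lit 109) (nat_lit 4) (nat_lit 8) (nat_lit 10) L101804 (by decide +kernel)
theorem L101806 : W_39 (nat_lit 2) (nat_lit 0x7000cd0024001200090007c0000000000000000000000000000000) (nat_lit 0x0) (nat_lit 0x800060000000000000000000000000000) := D_39 (nat_lit 114) (nat_lit 113) (nat_lit 131) (nat_lit 2) (nat_lit 8) (nat_lit 7) (nat_lit 6) (nat_lit 11) (nat_lit 10) (by decide +kernel)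
theorem L101807 : W_39 (nat_lit 3) (nat_lit 0x7000cd0024001200090005c0000000000000000000000000000000) (nat_lit 0x0) (nat_lit 0xa00070000000000000000000000000000) := T_39 (nat_lit 129) (nat_lit 112) (nat_lit 4) (nat_lit 11) (nat_lit 10) L101806 (by decide +kernel)
theorem L101808 : W_39 (nat_lit 4) (nat_lit 0x7000cd0024001200090001c0000000000000000000000000000000) (nat_lit 0x0) (nat_lit 0x4000000000000e00070000000000000000000000000000) := T_39 (nat_lit 130) (nat_lit 182) (nat_lit 7) (nat_lit 11) (nat_lit 7) L101807 (by decide +kernel)
theorem L101809 : W_39 (nat_lit 5) (nat_lit 0x70004d0024001200090001c0000000000000000000000000000000) (nat_lit 0x0) (nat_lit 0x1000080004000000000000e00070000000000000000000000000000) := T_39 (nat_lit 199) (nat_lit 216) (nat_lit 7) (nat_lit 11) (nat_lit 8) L101808 (by decide +kernel)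
theorem L101810 : W_39 (nat_lit 6) (nat_lit 0x70000d0024001200090001c0000000000000000000000000000000) (nat_lit 0x0) (nat_lit 0x10000e0004000000000000e00070000000000000000000000000000) := T_39 (nat_lit 198) (nat_lit 197) (nat_lit 5) (nat_lit 11) (nat_lit 8) L101809 (by decide +kernel)
theorem L101811 : W_39 (nat_lit 7) (nat_lit 0x70000d002400120009000180000000000000000000000000000000) (nat_lit 0x0) (nat_lit 0x10000e0004000000000000e40072000000000000000000000000000) := T_39 (nat_lit 126) (nat_lit 109) (nat_lit 4) (nat_lit 8) (nat_lit 10) L101810 (by decide +kernel)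
theorem L101812 : W_39 (nat_lit 8) (nat_lit 0x30000d002400120009000180000000000000000000000000000000) (nat_lit 0x0) (nat_lit 0x1c000e0004000000000000e40072000000000000000000000000000) := T_39 (nat_lit 214) (nat_lit 215) (nat_lit 0) (nat_lit 11) (nat_lit 12) L101811 (by decide +kernel)
theorem L101813 : W_39 (nat_lit 9) (nat_lit 0x30000c002400120009000180000000000000000000000000000000) (nat_lit 0x0) (nat_lit 0x1c000e3004000000000000e40072000000000000000000000000000) := T_39 (nat_lit 192) (nat_lit 193) (nat_lit 3) (nat_lit 5) (nat_lit 11) L101812 (by decide +kernel)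
theorem L101814 : W_39 (nat_lit 10) (nat_lit 0x300008002400120009000180000000000000000000000000000000) (nat_lit 0x0) (nat_lit 0x1c800e7004000000000000e40072000000000000000000000000000) := T_39 (nat_lit 194) (nat_lit 211) (nat_lit 5) (nat_lit 8) (nat_lit 8) L101813 (by decide +kernel)
theorem L101815 : W_39 (nat_lit 11) (nat_lit 0x100008002400120009000180000000000000000000000000000000) (nat_lit 0x0) (nat_lit 0x4001e800e7004000000000000e40072000000000000000000000000000) := T_39 (nat_lit 213) (nat_lit 230) (nat_lit 7) (nat_lit 8) (nat_lit 9) L101814 (by decide +kernel)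
theorem L101816 : W_39 (nat_lit 2) (nat_lit 0xb0004d00240012000d0001c0000000000000000000000000000000) (nat_lit 0x0) (nat_lit 0x20001000080000000000000000000000000000000000000000000000000) := D_39 (nat_lit 216) (nat_lit 233) (nat_lit 199) (nat_lit 7) (nat_lit 11) (nat_lit 9) (nat_lit 7) (nat_lit 11) (nat_lit 8) (by decide +kernel)
theorem L101817 : W_39 (nat_lit 3) (nat_lit 0xb0000d00240012000d0001c0000000000000000000000000000000) (nat_lit 0x0) (nat_lit 0x200010000c0000000080000000000000000000000000000000000000000) := T_39 (nat_lit 198) (nat_lit 163) (nat_lit 4) (nat_lit 11) (nat_lit 12) L101816 (by decide +kernel)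
theorem L101818 : W_39 (nat_lit 4) (nat_lit 0x30000d00240012000d0001c0000000000000000000000000000000) (nat_lit 0x0) (nat_lit 0x20001c000c0000000080000000000000000000000000000000000000000) := T_39 (nat_lit 215) (nat_lit 214) (nat_lit 0) (nat_lit 11) (nat_lit 12) L101817 (by decide +kernel)
theorem L101819 : W_39 (nat_lit 5) (nat_lit 0x30000c00240012000d0001c0000000000000000000000000000000) (nat_lit 0x0) (nat_lit 0x20001c000c3000000080000000000000000000000000000000000000000) := T_39 (nat_lit 192) (nat_lit 193) (nat_lit 3) (nat_lit 5) (nat_lit 11) L101818 (by decide +kernel)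
theorem L101820 : W_39 (nat_lit 6) (nat_lit 0x30000800240012000d0001c0000000000000000000000000000000) (nat_lit 0x0) (nat_lit 0x20001c800c7000000080000000000000000000000000000000000000000) := T_39 (nat_lit 194) (nat_lit 211) (nat_lit 5) (nat_lit 8) (nat_lit 8) L101819 (by decide +kernel)
theorem L101821 : W_39 (nat_lit 7) (nat_lit 0x10000800240012000d0001c0000000000000000000000000000000) (nat_lit 0x0) (nat_lit 0x24001e800c7000000080000000000000000000000000000000000000000) := T_39 (nat_lit 213) (nat_lit 230) (nat_lit 7) (nat_lit 8) (nat_lit 9) L101820 (by decide +kernel)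
theorem L101822 : W_39 (nat_lit 8) (nat_lit 0x1000080024001200090001c0000000000000000000000000000000) (nat_lit 0x0) (nat_lit 0x24001e800c7000000080004000200000000000000000000000000000000) := T_39 (nat_lit 146) (nat_lit 129) (nat_lit 3) (nat_lit 7) (nat_lit 7) L101821 (by decide +kernel)
theorem L101823 : W_39 (nat_lit 9) (nat_lit 0x100008002400120009000180000000000000000000000000000000) (nat_lit 0x0) (nat_lit 0x24001e800c7000000080004000240002000000000000000000000000000) := T_39 (nat_lit 126) (nat_lit 109) (nat_lit 4) (nat_lit 8) (nat_lit 10) L101822 (by decide +kernel)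
theorem L101824 : W_39 (nat_lit 2) (nat_lit 0x600010000c0064001600090005c0020000000000000000000000000000) (nat_lit 0x0) (nat_lit 0x800040002000000000000000000000000) := D_39 (nat_lit 114) (nat_lit 131) (nat_lit 97) (nat_lit 6) (nat_lit 11) (nat_lit 10) (nat_lit 6) (nat_lit 11) (nat_lit 9) (by decide +kernel)
theorem L101825 : W_39 (nat_lit 3) (nat_lit 0x600010000c0064001600090005c0000000000000000000000000000000) (nat_lit 0x0) (nat_lit 0x200000000800060002000000000000000000000000) := T_39 (nat_lit 113) (nat_lit 165) (nat_lit 7) (nat_lit 11) (nat_lit 6) L101824 (by decide +kernel)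
theorem L101826 : W_39 (nat_lit 4) (nat_lit 0x600010000c0064001600090001c0000000000000000000000000000000) (nat_lit 0x0) (nat_lit 0x80000000200000000c00060002000000000000000000000000) := T_39 (nat_lit 130) (nat_lit 199) (nat_lit 7) (nat_lit 11) (nat_lit 7) L101825 (by decide +kernel)
theorem L101827 : W_39 (nat_lit 5) (nat_lit 0x600010000c0024001600090001c0000000000000000000000000000000) (nat_lit 0x0) (nat_lit 0x80004000280000000c00060002000000000000000000000000) := T_39 (nat_lit 182) (nat_lit 163) (nat_lit 3) (nat_lit 8) (nat_lit 9) L101826 (by decide +kernel)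
theorem L101828 : W_39 (nat_lit 6) (nat_lit 0x600010000c0024001200090001c0000000000000000000000000000000) (nat_lit 0x0) (nat_lit 0x800048002c0000000c00060002000000000000000000000000) := T_39 (nat_lit 162) (nat_lit 179) (nat_lit 6) (nat_lit 8) (nat_lit 13) L101827 (by decide +kernel)
theorem L101829 : W_39 (nat_lit 7) (nat_lit 0x400010000c0024001200090001c0000000000000000000000000000000) (nat_lit 0x0) (nat_lit 0x800020000000800048002c0000000c00060002000000000000000000000000) := T_39 (nat_lit 229) (nat_lit 247) (nat_lit 7) (nat_lit 8) (nat_lit 10) L101828 (by decide +kernel)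
theorem L101830 : W_39 (nat_lit 8) (nat_lit 0x10000c0024001200090001c0000000000000000000000000000000) (nat_lit 0x0) (nat_lit 0x800060002000800048002c0000000c00060002000000000000000000000000) := T_39 (nat_lit 230) (nat_lit 213) (nat_lit 7) (nat_lit 8) (nat_lit 9) L101829 (by decide +kernel)
theorem L101831 : W_39 (nat_lit 9) (nat_lit 0x10000c002400120009000180000000000000000000000000000000) (nat_lit 0x0) (nat_lit 0x800060002000800048002c0000000c40062002000000000000000000000000) := T_39 (nat_lit 126) (nat_lit 109) (nat_lit 4) (nat_lit 8) (nat_lit 10) L101830 (by decide +kernel)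
theorem L101832 : W_39 (nat_lit 10) (nat_lit 0x100008002400120009000180000000000000000000000000000000) (nat_lit 0x0) (nat_lit 0x800060002800840048002c0000000c40062002000000000000000000000000) := T_39 (nat_lit 194) (nat_lit 211) (nat_lit 5) (nat_lit 8) (nat_lit 8) L101831 (by decide +kernel)
theorem L101833 : W_39 (nat_lit 12) (nat_lit 0x100008002400020009000180000000000000000000000000000000) (nat_lit 0x0) (nat_lit 0x80026001e800e70048003c0004000e40072002000000000000000000000000) := Q_39 (nat_lit 164) (C_39 L101794 (C_39 L101802 (C_39 L101805 (C_39 L101815 (C_39 L101823 (C_39 L101832 N_39)))))) (by decide +kernel)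
theorem L101834 : W_39 (nat_lit 2) (nat_lit 0xb0000d0034000200090007c0020000000000000000000000000000) (nat_lit 0x0) (nat_lit 0x20000000180000000000000000000000000000000000000000) := D_39 (nat_lit 164) (nat_lit 197) (nat_lit 163) (nat_lit 5) (nat_lit 11) (nat_lit 7) (nat_lit 5) (nat_lit 11) (nat_lit 6) (by decide +kernel)
theorem L101835 : W_39 (nat_lit 3) (nat_lit 0xb0000d0034000200090003c0020000000000000000000000000000) (nat_lit 0x0) (nat_lit 0x20000000180000000400040000000000000000000000000000) := T_39 (nat_lit 130) (nat_lit 114) (nat_lit 2) (nat_lit 8) (nat_lit 7) L101834 (by decide +kernel)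
theorem L101836 : W_39 (nat_lit 4) (nat_lit 0xb0000d0034000200090003c0000000000000000000000000000000) (nat_lit 0x0) (nat_lit 0x20000000180000000400070000000000000000000000000000) := T_39 (nat_lit 113) (nat_lit 112) (nat_lit 2) (nat_lit 7) (nat_lit 7) L101835 (by decide +kernel)
theorem L101837 : W_39 (nat_lit 5) (nat_lit 0xb0000d0034000200090001c0000000000000000000000000000000) (nat_lit 0x0) (nat_lit 0x20000000180004000600070000000000000000000000000000) := T_39 (nat_lit 129) (nat_lit 146) (nat_lit 3) (nat_lit 7) (nat_lit 7) L101836 (by decide +kernel)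
theorem L101838 : W_39 (nat_lit 6) (nat_lit 0xb0000d003400020009000180000000000000000000000000000000) (nat_lit 0x0) (nat_lit 0x20000000180004000640072000000000000000000000000000) := T_39 (nat_lit 126) (nat_lit 109) (nat_lit 4) (nat_lit 8) (nat_lit 10) L101837 (by decide +kernel)
theorem L101839 : W_39 (nat_lit 7) (nat_lit 0xb0000d002400020009000180000000000000000000000000000000) (nat_lit 0x0) (nat_lit 0x20001800180004000640072000000000000000000000000000) := T_39 (nat_lit 180) (nat_lit 179) (nat_lit 1) (nat_lit 11) (nat_lit 10) L101838 (by decide +kernel)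
theorem L101840 : W_39 (nat_lit 8) (nat_lit 0x30000d002400020009000180000000000000000000000000000000) (nat_lit 0x0) (nat_lit 0xc00020001800180004000640072000000000000000000000000000) := T_39 (nat_lit 215) (nat_lit 214) (nat_lit 0) (nat_lit 11) (nat_lit 12) L101839 (by decide +kernel)
theorem L101841 : W_39 (nat_lit 9) (nat_lit 0x30000c002400020009000180000000000000000000000000000000) (nat_lit 0x0) (nat_lit 0xc00023001800180004000640072000000000000000000000000000) := T_39 (nat_lit 192) (nat_lit 193) (nat_lit 3) (nat_lit 5) (nat_lit 11) L101840 (by decide +kernel)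
theorem L101842 : W_39 (nat_lit 10) (nat_lit 0x300008002400020009000180000000000000000000000000000000) (nat_lit 0x0) (nat_lit 0xc80027001800180004000640072000000000000000000000000000) := T_39 (nat_lit 194) (nat_lit 211) (nat_lit 5) (nat_lit 8) (nat_lit 8) L101841 (by decide +kernel)
theorem L101843 : W_39 (nat_lit 11) (nat_lit 0x100008002400020009000180000000000000000000000000000000) (nat_lit 0x0) (nat_lit 0x4000e80027001800180004000640072000000000000000000000000000) := T_39 (nat_lit 213) (nat_lit 230) (nat_lit 7) (nat_lit 8) (nat_lit 9) L101842 (by decide +kernel)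
theorem L101844 : W_39 (nat_lit 2) (nat_lit 0x6000100008002c001200090003c0010000000000000000000000000000) (nat_lit 0x0) (nat_lit 0x1000210000000000000000000000000000000000000000) := D_39 (nat_lit 180) (nat_lit 165) (nat_lit 160) (nat_lit 2) (nat_lit 8) (nat_lit 10) (nat_lit 0) (nat_lit 11) (nat_lit 10) (by decide +kernel)
theorem L101845 : W_39 (nat_lit 3) (nat_lit 0x60001000080024001200090003c0010000000000000000000000000000) (nat_lit 0x0) (nat_lit 0x1800250000000000000000000000000000000000000000) := T_39 (nat_lit 179) (nat_lit 162) (nat_lit 6) (nat_lit 8) (nat_lit 13) L101844 (by decide +kernel)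
theorem L101846 : W_39 (nat_lit 4) (nat_lit 0x60001000080024000200090003c0010000000000000000000000000000) (nat_lit 0x0) (nat_lit 0x1800350000000400000000000000000000000000000000) := T_39 (nat_lit 164) (nat_lit 130) (nat_lit 4) (nat_lit 11) (nat_lit 10) L101845 (by decide +kernel)
theorem L101847 : W_39 (nat_lit 5) (nat_lit 0x40001000080024000200090003c0010000000000000000000000000000) (nat_lit 0x0) (nat_lit 0x80002000000000001800350000000400000000000000000000000000000000) := T_39 (nat_lit 229) (nat_lit 247) (nat_lit 7) (nat_lit 8) (nat_lit 10) L101846 (by decide +kernel)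
theorem L101848 : W_39 (nat_lit 6) (nat_lit 0x40001000080024000200090003c0000000000000000000000000000000) (nat_lit 0x0) (nat_lit 0x80002000000000001800350000000400030000000000000000000000000000) := T_39 (nat_lit 112) (nat_lit 113) (nat_lit 2) (nat_lit 7) (nat_lit 7) L101847 (by decide +kernel)
theorem L101849 : W_39 (nat_lit 7) (nat_lit 0x1000080024000200090003c0000000000000000000000000000000) (nat_lit 0x0) (nat_lit 0x80006000200000001800350000000400030000000000000000000000000000) := T_39 (nat_lit 230) (nat_lit 213) (nat_lit 7) (nat_lit 8) (nat_lit 9) L101848 (by decide +kernel)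
theorem L101850 : W_39 (nat_lit 8) (nat_lit 0x1000080024000200090001c0000000000000000000000000000000) (nat_lit 0x0) (nat_lit 0x80006000200000001800350004000600030000000000000000000000000000) := T_39 (nat_lit 129) (nat_lit 146) (nat_lit 3) (nat_lit 7) (nat_lit 7) L101849 (by decide +kernel)
theorem L101851 : W_39 (nat_lit 9) (nat_lit 0x100008002400020009000180000000000000000000000000000000) (nat_lit 0x0) (nat_lit 0x80006000200000001800350004000640032000000000000000000000000000) := T_39 (nat_lit 126) (nat_lit 109) (nat_lit 4) (nat_lit 8) (nat_lit 10) L101850 (by decide +kernel)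
theorem L101852 : W_39 (nat_lit 2) (nat_lit 0x10000c0034000200090007c0020000000000000000000000000000) (nat_lit 0x0) (nat_lit 0x20000000180000000000000000000000000000000000000000) := D_39 (nat_lit 164) (nat_lit 197) (nat_lit 163) (nat_lit 5) (nat_lit 11) (nat_lit 7) (nat_lit 5) (nat_lit 11) (nat_lit 6) (by decide +kernel)
theorem L101853 : W_39 (nat_lit 3) (nat_lit 0x10000c0034000200090003c0020000000000000000000000000000) (nat_lit 0x0) (nat_lit 0x20000000180000000400040000000000000000000000000000) := T_39 (nat_lit 130) (nat_lit 114) (nat_lit 2) (nat_lit 8) (nat_lit 7) L101852 (by decide +kernel)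
theorem L101854 : W_39 (nat_lit 4) (nat_lit 0x10000c0034000200090003c0000000000000000000000000000000) (nat_lit 0x0) (nat_lit 0x20000000180000000400070000000000000000000000000000) := T_39 (nat_lit 113) (nat_lit 112) (nat_lit 2) (nat_lit 7) (nat_lit 7) L101853 (by decide +kernel)
theorem L101855 : W_39 (nat_lit 5) (nat_lit 0x10000c0034000200090001c0000000000000000000000000000000) (nat_lit 0x0) (nat_lit 0x20000000180004000600070000000000000000000000000000) := T_39 (nat_lit 129) (nat_lit 146) (nat_lit 3) (nat_lit 7) (nat_lit 7) L101854 (by decide +kernel)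
theorem L101856 : W_39 (nat_lit 6) (nat_lit 0x10000c003400020009000180000000000000000000000000000000) (nat_lit 0x0) (nat_lit 0x20000000180004000640072000000000000000000000000000) := T_39 (nat_lit 126) (nat_lit 109) (nat_lit 4) (nat_lit 8) (nat_lit 10) L101855 (by decide +kernel)
theorem L101857 : W_39 (nat_lit 7) (nat_lit 0x10000c002400020009000180000000000000000000000000000000) (nat_lit 0x0) (nat_lit 0x20001800180004000640072000000000000000000000000000) := T_39 (nat_lit 180) (nat_lit 179) (nat_lit 1) (nat_lit 11) (nat_lit 10) L101856 (by decide +kernel)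
theorem L101858 : W_39 (nat_lit 8) (nat_lit 0x100008002400020009000180000000000000000000000000000000) (nat_lit 0x0) (nat_lit 0x80024001800180004000640072000000000000000000000000000) := T_39 (nat_lit 194) (nat_lit 211) (nat_lit 5) (nat_lit 8) (nat_lit 8) L101857 (by decide +kernel)
theorem L101859 : W_39 (nat_lit 2) (nat_lit 0x70002d0024001200090003c0010000000000000000000000000000) (nat_lit 0x0) (nat_lit 0x8000000000001000080000000000000000000000000000000000000000) := D_39 (nat_lit 180) (nat_lit 231) (nat_lit 163) (nat_lit 6) (nat_lit 10) (nat_lit 13) (nat_lit 6) (nat_lit 10) (nat_lit 12) (by decide +kernel)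
theorem L101860 : W_39 (nat_lit 3) (nat_lit 0x70000d0024001200090003c0010000000000000000000000000000) (nat_lit 0x0) (nat_lit 0x8000000060001000080000000000000000000000000000000000000000) := T_39 (nat_lit 197) (nat_lit 198) (nat_lit 5) (nat_lit 11) (nat_lit 8) L101859 (by decide +kernel)
theorem L101861 : W_39 (nat_lit 4) (nat_lit 0x70000d0024000200090003c0010000000000000000000000000000) (nat_lit 0x0) (nat_lit 0x8000000060001000180000000400000000000000000000000000000000) := T_39 (nat_lit 164) (nat_lit 130) (nat_lit 4) (nat_lit 11) (nat_lit 10) L101860 (by decide +kernel)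
theorem L101862 : W_39 (nat_lit 5) (nat_lit 0x30000d0024000200090003c0010000000000000000000000000000) (nat_lit 0x0) (nat_lit 0x8000c00060001000180000000400000000000000000000000000000000) := T_39 (nat_lit 214) (nat_lit 215) (nat_lit 0) (nat_lit 11) (nat_lit 12) L101861 (by decide +kernel)
theorem L101863 : W_39 (nat_lit 6) (nat_lit 0x30000c0024000200090003c0010000000000000000000000000000) (nat_lit 0x0) (nat_lit 0x8000c00063001000180000000400000000000000000000000000000000) := T_39 (nat_lit 192) (nat_lit 193) (nat_lit 3) (nat_lit 5) (nat_lit 11) L101862 (by decide +kernel)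
theorem L101864 : W_39 (nat_lit 7) (nat_lit 0x3000080024000200090003c0010000000000000000000000000000) (nat_lit 0x0) (nat_lit 0x8000c80067001000180000000400000000000000000000000000000000) := T_39 (nat_lit 194) (nat_lit 211) (nat_lit 5) (nat_lit 8) (nat_lit 8) L101863 (by decide +kernel)
theorem L101865 : W_39 (nat_lit 8) (nat_lit 0x3000080024000200090003c0000000000000000000000000000000) (nat_lit 0x0) (nat_lit 0x8000c80067001000180000000400030000000000000000000000000000) := T_39 (nat_lit 112) (nat_lit 113) (nat_lit 2) (nat_lit 7) (nat_lit 7) L101864 (by decide +kernel)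
theorem L101866 : W_39 (nat_lit 9) (nat_lit 0x1000080024000200090003c0000000000000000000000000000000) (nat_lit 0x0) (nat_lit 0xc000e80067001000180000000400030000000000000000000000000000) := T_39 (nat_lit 213) (nat_lit 230) (nat_lit 7) (nat_lit 8) (nat_lit 9) L101865 (by decide +kernel)
theorem L101867 : W_39 (nat_lit 10) (nat_lit 0x1000080024000200090001c0000000000000000000000000000000) (nat_lit 0x0) (nat_lit 0xc000e80067001000180004000600030000000000000000000000000000) := T_39 (nat_lit 129) (nat_lit 146) (nat_lit 3) (nat_lit 7) (nat_lit 7) L101866 (by decide +kernel)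
theorem L101868 : W_39 (nat_lit 11) (nat_lit 0x100008002400020009000180000000000000000000000000000000) (nat_lit 0x0) (nat_lit 0xc000e80067001000180004000640032000000000000000000000000000) := T_39 (nat_lit 126) (nat_lit 109) (nat_lit 4) (nat_lit 8) (nat_lit 10) L101867 (by decide +kernel)
theorem L101869 : W_39 (nat_lit 13) (nat_lit 0x100008000400020009000180000000000000000000000000000000) (nat_lit 0x0) (nat_lit 0x8002e001e800e70078003d0004000e40072002000000000000000000000000) := Q_39 (nat_lit 181) (C_39 L101786 (C_39 L101790 (C_39 L101833 (C_39 L101843 (C_39 L101851 (C_39 L101858 (C_39 L101868 N_39))))))) (by decide +kernel)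
theorem L101870 : W_39 (nat_lit 14) (nat_lit 0x8000400020009000180000000000000000000000000000000) (nat_lit 0x0) (nat_lit 0xa003f001f800e70078003d0004000e40072002000000000000000000000000) := Q_39 (nat_lit 212) (C_39 L101733 (C_39 L101739 (C_39 L101778 (C_39 L101869 N_39)))) (by decide +kernel)
theorem L101871 : W_39 (nat_lit 15) (nat_lit 0x400020009000180000000000000000000000000000000) (nat_lit 0x0) (nat_lit 0xa003f001f800ff0078003dc004000e40072002000000000000000000000000) := Q_39 (nat_lit 195) (C_39 L100728 (C_39 L101195 (C_39 L100529 (C_39 L101870 N_39)))) (by decide +kernel)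
theorem L101872 : W_39 (nat_lit 16) (nat_lit 0x400020001000180000000000000000000000000000000) (nat_lit 0x0) (nat_lit 0x3a003f007fe07ff03f800fdc07c007e400f20078001c0008000000000000000) := Q_39 (nat_lit 147) (C_39 L100950 (C_39 L100955 (C_39 L100959 (C_39 L101187 (C_39 L101207 (C_39 L101732 (C_39 L101871 N_39))))))) (by decide +kernel)
theorem L101873 : W_39 (nat_lit 17) (nat_lit 0x400020001000080000000000000000000000000000000) (nat_lit 0x0) (nat_lit 0x3a003f007fe07ff03f800fdc07c007f400fa0078001c0008000000000000000) := T_39 (nat_lit 128) (nat_lit 111) (nat_lit 6) (nat_lit 8) (nat_lit 10) L101872 (by decide +kernel)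
theorem L101874 : W_39 (nat_lit 2) (nat_lit 0x14000400020001000080000000000000000000000000000000) (nat_lit 0x0) (nat_lit 0x280008000000000000000000000000000000000000000000000000) := D_39 (nat_lit 195) (nat_lit 213) (nat_lit 211) (nat_lit 7) (nat_lit 8) (nat_lit 8) (nat_lit 5) (nat_lit 8) (nat_lit 8) (by decide +kernel)
theorem L101875 : W_39 (nat_lit 3) (nat_lit 0x10000400020001000080000000000000000000000000000000) (nat_lit 0x0) (nat_lit 0x28000c000200000000000000000000000000000000000000000000) := T_39 (nat_lit 194) (nat_lit 177) (nat_lit 5) (nat_lit 8) (nat_lit 7) L101874 (by decide +kernel)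
theorem L101876 : W_39 (nat_lit 4) (nat_lit 0x400020001000080000000000000000000000000000000) (nat_lit 0x0) (nat_lit 0x28001c000a00000000000000000000000000000000000000000000) := T_39 (nat_lit 196) (nat_lit 179) (nat_lit 7) (nat_lit 8) (nat_lit 7) L101875 (by decide +kernel)
theorem L101877 : W_39 (nat_lit 2) (nat_lit 0xc00038001000080000000000000000000000000000000) (nat_lit 0x0) (nat_lit 0x3200000000000000000000000000000000000000000000) := D_39 (nat_lit 180) (nat_lit 181) (nat_lit 177) (nat_lit 0) (nat_lit 11) (nat_lit 10) (nat_lit 0) (nat_lit 10) (nat_lit 10) (by decide +kernel)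
theorem L101878 : W_39 (nat_lit 3) (nat_lit 0xc00030001000080000000000000000000000000000000) (nat_lit 0x0) (nat_lit 0x320000c000000000000000000000000000000000000000) := T_39 (nat_lit 159) (nat_lit 158) (nat_lit 3) (nat_lit 5) (nat_lit 9) L101877 (by decide +kernel)
theorem L101879 : W_39 (nat_lit 4) (nat_lit 0x400030001000080000000000000000000000000000000) (nat_lit 0x0) (nat_lit 0x10003a0000c000000000000000000000000000000000000000) := T_39 (nat_lit 179) (nat_lit 196) (nat_lit 7) (nat_lit 8) (nat_lit 7) L101878 (by decide +kernel)
theorem L101880 : W_39 (nat_lit 6) (nat_lit 0x1e00030001000180000000000000000000000000000000) (nat_lit 0x0) (nat_lit 0x38001c01c0000000040002000000000000000000000000000) := T_39 (nat_lit 126) (nat_lit 109) (nat_lit 4) (nat_lit 8) (nat_lit 10) L5834 (by decide +kernel)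
theorem L101881 : W_39 (nat_lit 7) (nat_lit 0xe00030001000180000000000000000000000000000000) (nat_lit 0x0) (nat_lit 0x38031c01c0000000040002000000000000000000000000000) := T_39 (nat_lit 180) (nat_lit 181) (nat_lit 0) (nat_lit 11) (nat_lit 10) L101880 (by decide +kernel)
theorem L101882 : W_39 (nat_lit 8) (nat_lit 0x600030001000180000000000000000000000000000000) (nat_lit 0x0) (nat_lit 0x138039c01c0000000040002000000000000000000000000000) := T_39 (nat_lit 179) (nat_lit 196) (nat_lit 7) (nat_lit 8) (nat_lit 7) L101881 (by decide +kernel)
theorem L101883 : W_39 (nat_lit 9) (nat_lit 0x400030001000180000000000000000000000000000000) (nat_lit 0x0) (nat_lit 0x17803bc01c0000000040002000000000000000000000000000) := T_39 (nat_lit 177) (nat_lit 194) (nat_lit 5) (nat_lit 8) (nat_lit 7) L101882 (by decide +kernel)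
theorem L101884 : W_39 (nat_lit 10) (nat_lit 0x400030001000080000000000000000000000000000000) (nat_lit 0x0) (nat_lit 0x17803bc01c000000014000a000000000000000000000000000) := T_39 (nat_lit 128) (nat_lit 111) (nat_lit 6) (nat_lit 8) (nat_lit 10) L101883 (by decide +kernel)
theorem L101885 : W_39 (nat_lit 2) (nat_lit 0x400038001000080000000000000000000000000000000) (nat_lit 0x0) (nat_lit 0x10000800004000000000000000000000000000000000000000) := D_39 (nat_lit 179) (nat_lit 196) (nat_lit 158) (nat_lit 7) (nat_lit 8) (nat_lit 7) (nat_lit 3) (nat_lit 5) (nat_lit 9) (by decide +kernel)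
theorem L101886 : W_39 (nat_lit 2) (nat_lit 0x68003c0012000c0000000000000000000000000000000) (nat_lit 0x0) (nat_lit 0x100040000400000000000000000000000000000000000) := D_39 (nat_lit 162) (nat_lit 176) (nat_lit 142) (nat_lit 2) (nat_lit 5) (nat_lit 10) (nat_lit 0) (nat_lit 9) (nat_lit 9) (by decide +kernel)
theorem L101887 : W_39 (nat_lit 3) (nat_lit 0x68003c0010000c0000000000000000000000000000000) (nat_lit 0x0) (nat_lit 0x100040000700000000000000000000000000000000000) := T_39 (nat_lit 141) (nat_lit 140) (nat_lit 0) (nat_lit 8) (nat_lit 9) L101886 (by decide +kernel)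
theorem L101888 : W_39 (nat_lit 4) (nat_lit 0x60003c0010000c0000000000000000000000000000000) (nat_lit 0x0) (nat_lit 0x1c0040000700000000000000000000000000000000000) := T_39 (nat_lit 175) (nat_lit 174) (nat_lit 1) (nat_lit 8) (nat_lit 9) L101887 (by decide +kernel)
theorem L101889 : W_39 (nat_lit 5) (nat_lit 0x60003c001000080000000000000000000000000000000) (nat_lit 0x0) (nat_lit 0x1c0040000700040002000000000000000000000000000) := T_39 (nat_lit 126) (nat_lit 109) (nat_lit 4) (nat_lit 8) (nat_lit 10) L101888 (by decide +kernel)
theorem L101890 : W_39 (nat_lit 6) (nat_lit 0x600038001000080000000000000000000000000000000) (nat_lit 0x0) (nat_lit 0x1c0046000700040002000000000000000000000000000) := T_39 (nat_lit 158) (nat_lit 157) (nat_lit 3) (nat_lit 4) (nat_lit 9) L101889 (by decide +kernel)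
theorem L101891 : W_39 (nat_lit 7) (nat_lit 0x400038001000080000000000000000000000000000000) (nat_lit 0x0) (nat_lit 0x40003c0046000700040002000000000000000000000000000) := T_39 (nat_lit 177) (nat_lit 194) (nat_lit 5) (nat_lit 8) (nat_lit 7) L101890 (by decide +kernel)
theorem L101892 : W_39 (nat_lit 2) (nat_lit 0xa0002000d000780014001c0000000000000000000000000000000) (nat_lit 0x0) (nat_lit 0x1400040000000000000000000000000000000000000000000000000000) := D_39 (nat_lit 210) (nat_lit 228) (nat_lit 226) (nat_lit 7) (nat_lit 6) (nat_lit 9) (nat_lit 5) (nat_lit 6) (nat_lit 9) (by decide +kernel)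
theorem L101893 : W_39 (nat_lit 3) (nat_lit 0x80002000d000780014001c0000000000000000000000000000000) (nat_lit 0x0) (nat_lit 0x1400060001000000000000000000000000000000000000000000000000) := T_39 (nat_lit 209) (nat_lit 192) (nat_lit 5) (nat_lit 6) (nat_lit 8) L101892 (by decide +kernel)
theorem L101894 : W_39 (nat_lit 4) (nat_lit 0x2000d000780014001c0000000000000000000000000000000) (nat_lit 0x0) (nat_lit 0x14000e0005000000000000000000000000000000000000000000000000) := T_39 (nat_lit 211) (nat_lit 194) (nat_lit 7) (nat_lit 6) (nat_lit 8) L101893 (by decide +kernel)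
theorem L101895 : W_39 (nat_lit 2) (nat_lit 0x20005000780014000c0000000000000000000000000000000) (nat_lit 0x0) (nat_lit 0x80004000200000000000000000000000000000000000000000000) := D_39 (nat_lit 194) (nat_lit 177) (nat_lit 211) (nat_lit 5) (nat_lit 8) (nat_lit 7) (nat_lit 7) (nat_lit 6) (nat_lit 8) (by decide +kernel)
theorem L101896 : W_39 (nat_lit 2) (nat_lit 0x20007000780010000c0000000000000000000000000000000) (nat_lit 0x0) (nat_lit 0x11000800000000000000000000000000000000000000000000) := D_39 (nat_lit 179) (nat_lit 192) (nat_lit 196) (nat_lit 1) (nat_lit 9) (nat_lit 10) (nat_lit 7) (nat_lit 8) (nat_lit 7) (by decide +kernel)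
theorem L101897 : W_39 (nat_lit 3) (nat_lit 0x20005000780010000c0000000000000000000000000000000) (nat_lit 0x0) (nat_lit 0x15000a00000000000000000000000000000000000000000000) := T_39 (nat_lit 177) (nat_lit 194) (nat_lit 5) (nat_lit 8) (nat_lit 7) L101896 (by decide +kernel)
theorem L101898 : W_39 (nat_lit 2) (nat_lit 0x30005000780014001c0000000000000000000000000000000) (nat_lit 0x0) (nat_lit 0x10000a00000000000000000000000000000000000000000000) := D_39 (nat_lit 179) (nat_lit 177) (nat_lit 196) (nat_lit 1) (nat_lit 9) (nat_lit 10) (nat_lit 7) (nat_lit 8) (nat_lit 7) (by decide +kernel)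
theorem L101899 : W_39 (nat_lit 3) (nat_lit 0x20005000780014001c0000000000000000000000000000000) (nat_lit 0x0) (nat_lit 0x20011000a00000000000000000000000000000000000000000000) := T_39 (nat_lit 192) (nat_lit 209) (nat_lit 5) (nat_lit 6) (nat_lit 8) L101898 (by decide +kernel)
theorem L101900 : W_39 (nat_lit 4) (nat_lit 0x20005000780014000c0000000000000000000000000000000) (nat_lit 0x0) (nat_lit 0x20011000a00000000000100008000000000000000000000000000) := T_39 (nat_lit 128) (nat_lit 111) (nat_lit 6) (nat_lit 8) (nat_lit 10) L101899 (by decide +kernel)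
theorem L101901 : W_39 (nat_lit 5) (nat_lit 0x20005000780010000c0000000000000000000000000000000) (nat_lit 0x0) (nat_lit 0x20011000a00000000600100008000000000000000000000000000) := T_39 (nat_lit 142) (nat_lit 141) (nat_lit 0) (nat_lit 9) (nat_lit 9) L101900 (by decide +kernel)
theorem L101902 : W_39 (nat_lit 2) (nat_lit 0x400020007000780014001c0000000000000000000000000000000) (nat_lit 0x0) (nat_lit 0x400020001000000000000000000000000000000000000000000000000) := D_39 (nat_lit 209) (nat_lit 226) (nat_lit 192) (nat_lit 5) (nat_lit 6) (nat_lit 9) (nat_lit 5) (nat_lit 6) (nat_lit 8) (by decide +kernel)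
theorem L101903 : W_39 (nat_lit 3) (nat_lit 0x400020007000780010001c0000000000000000000000000000000) (nat_lit 0x0) (nat_lit 0x400020001000000000000600000000000000000000000000000000000) := T_39 (nat_lit 142) (nat_lit 141) (nat_lit 0) (nat_lit 9) (nat_lit 9) L101902 (by decide +kernel)
theorem L101904 : W_39 (nat_lit 4) (nat_lit 0x20007000780010001c0000000000000000000000000000000) (nat_lit 0x0) (nat_lit 0xc00060001000000000000600000000000000000000000000000000000) := T_39 (nat_lit 210) (nat_lit 227) (nat_lit 6) (nat_lit 6) (nat_lit 13) L101903 (by decide +kernel)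
theorem L101905 : W_39 (nat_lit 5) (nat_lit 0x20007000780010000c0000000000000000000000000000000) (nat_lit 0x0) (nat_lit 0xc00060001000000000000600100008000000000000000000000000000) := T_39 (nat_lit 128) (nat_lit 111) (nat_lit 6) (nat_lit 8) (nat_lit 10) L101904 (by decide +kernel)
theorem L101906 : W_39 (nat_lit 6) (nat_lit 0x20005000780010000c0000000000000000000000000000000) (nat_lit 0x0) (nat_lit 0xc00060005000200000000600100008000000000000000000000000000) := T_39 (nat_lit 177) (nat_lit 194) (nat_lit 5) (nat_lit 8) (nat_lit 7) L101905 (by decide +kernel)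
theorem L101907 : W_39 (nat_lit 3) (nat_lit 0x20005000780010000c0000000000000000000000000000000) (nat_lit 0x0) (nat_lit 0x80004000200000000600000000000000000000000000000000000) := T_39 (nat_lit 142) (nat_lit 141) (nat_lit 0) (nat_lit 9) (nat_lit 9) L101895 (by decide +kernel)
theorem L101908 : W_39 (nat_lit 5) (nat_lit 0x2000d000780010001c0000000000000000000000000000000) (nat_lit 0x0) (nat_lit 0x14000e0005000000000000600000000000000000000000000000000000) := T_39 (nat_lit 142) (nat_lit 141) (nat_lit 0) (nat_lit 9) (nat_lit 9) L101894 (by decide +kernel)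
theorem L101909 : W_39 (nat_lit 6) (nat_lit 0x2000d000780010000c0000000000000000000000000000000) (nat_lit 0x0) (nat_lit 0x14000e0005000000000000600100008000000000000000000000000000) := T_39 (nat_lit 128) (nat_lit 111) (nat_lit 6) (nat_lit 8) (nat_lit 10) L101908 (by decide +kernel)
theorem L101910 : W_39 (nat_lit 7) (nat_lit 0x20005000780010000c0000000000000000000000000000000) (nat_lit 0x0) (nat_lit 0x14000e0015000800000000600100008000000000000000000000000000) := T_39 (nat_lit 179) (nat_lit 196) (nat_lit 7) (nat_lit 8) (nat_lit 7) L101909 (by decide +kernel)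
theorem L101911 : W_39 (nat_lit 8) (nat_lit 0x5000780010000c0000000000000000000000000000000) (nat_lit 0x0) (nat_lit 0x1c000e0017000a00000000600100008000000000000000000000000000) := Q_39 (nat_lit 193) (C_39 L101897 (C_39 L101901 (C_39 L101906 (C_39 L101907 (C_39 L101910 N_39))))) (by decide +kernel)
theorem L101912 : W_39 (nat_lit 9) (nat_lit 0x5000380010000c0000000000000000000000000000000) (nat_lit 0x0) (nat_lit 0x1c000e0017000a80040000600100008000000000000000000000000000) := T_39 (nat_lit 162) (nat_lit 175) (nat_lit 1) (nat_lit 9) (nat_lit 9) L101911 (by decide +kernel)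
theorem L101913 : W_39 (nat_lit 10) (nat_lit 0x500038001000080000000000000000000000000000000) (nat_lit 0x0) (nat_lit 0x1c000e0017000a8004000060014000a000000000000000000000000000) := T_39 (nat_lit 126) (nat_lit 109) (nat_lit 4) (nat_lit 8) (nat_lit 10) L101912 (by decide +kernel)
theorem L101914 : W_39 (nat_lit 2) (nat_lit 0xd00078001000080000000000000000000000000000000) (nat_lit 0x0) (nat_lit 0x4000200080000000000000000000000000000000000000000) := D_39 (nat_lit 177) (nat_lit 194) (nat_lit 163) (nat_lit 5) (nat_lit 8) (nat_lit 7) (nat_lit 2) (nat_lit 6) (nat_lit 10) (by decide +kernel)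
theorem L101915 : W_39 (nat_lit 3) (nat_lit 0xd00038001000080000000000000000000000000000000) (nat_lit 0x0) (nat_lit 0x40002800c0000000000000000000000000000000000000000) := T_39 (nat_lit 162) (nat_lit 175) (nat_lit 1) (nat_lit 9) (nat_lit 9) L101914 (by decide +kernel)
theorem L101916 : W_39 (nat_lit 4) (nat_lit 0x500038001000080000000000000000000000000000000) (nat_lit 0x0) (nat_lit 0x14000a800c0000000000000000000000000000000000000000) := T_39 (nat_lit 179) (nat_lit 196) (nat_lit 7) (nat_lit 8) (nat_lit 7) L101915 (by decide +kernel)
theorem L101917 : W_39 (nat_lit 2) (nat_lit 0xf80038001000080000000000000000000000000000000) (nat_lit 0x0) (nat_lit 0x3800000000000000000000000000000000000000000000000) := D_39 (nat_lit 192) (nat_lit 193) (nat_lit 191) (nat_lit 1) (nat_lit 9) (nat_lit 10) (nat_lit 1) (nat_lit 8) (nat_lit 10) (by decide +kernel)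
theorem L101918 : W_39 (nat_lit 3) (nat_lit 0x780038001000080000000000000000000000000000000) (nat_lit 0x0) (nat_lit 0x13800800000000000000000000000000000000000000000000) := T_39 (nat_lit 179) (nat_lit 196) (nat_lit 7) (nat_lit 8) (nat_lit 7) L101917 (by decide +kernel)
theorem L101919 : W_39 (nat_lit 4) (nat_lit 0x700038001000080000000000000000000000000000000) (nat_lit 0x0) (nat_lit 0x138008c0000000000000000000000000000000000000000000) := T_39 (nat_lit 175) (nat_lit 174) (nat_lit 2) (nat_lit 4) (nat_lit 10) L101918 (by decide +kernel)
theorem L101920 : W_39 (nat_lit 5) (nat_lit 0x500038001000080000000000000000000000000000000) (nat_lit 0x0) (nat_lit 0x17800ac0000000000000000000000000000000000000000000) := T_39 (nat_lit 177) (nat_lit 194) (nat_lit 5) (nat_lit 8) (nat_lit 7) L101919 (by decide +kernel)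
theorem L101921 : W_39 (nat_lit 2) (nat_lit 0xd000f80094000c0000000000000000000000000000000) (nat_lit 0x0) (nat_lit 0x300010000000000000000000000000000000000000) := D_39 (nat_lit 164) (nat_lit 165) (nat_lit 148) (nat_lit 1) (nat_lit 12) (nat_lit 9) (nat_lit 2) (nat_lit 8) (nat_lit 9) (by decide +kernel)
theorem L101922 : W_39 (nat_lit 3) (nat_lit 0xd000f80014000c0000000000000000000000000000000) (nat_lit 0x0) (nat_lit 0x30001c000000000000000000000000000000000000) := T_39 (nat_lit 147) (nat_lit 146) (nat_lit 2) (nat_lit 7) (nat_lit 9) L101921 (by decide +kernel)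
theorem L101923 : W_39 (nat_lit 4) (nat_lit 0xd000f80010000c0000000000000000000000000000000) (nat_lit 0x0) (nat_lit 0x30001c600000000000000000000000000000000000) := T_39 (nat_lit 142) (nat_lit 141) (nat_lit 0) (nat_lit 9) (nat_lit 9) L101922 (by decide +kernel)
theorem L101924 : W_39 (nat_lit 5) (nat_lit 0xd000780010000c0000000000000000000000000000000) (nat_lit 0x0) (nat_lit 0x20038001c600000000000000000000000000000000000) := T_39 (nat_lit 163) (nat_lit 177) (nat_lit 2) (nat_lit 6) (nat_lit 10) L101923 (by decide +kernel)
theorem L101925 : W_39 (nat_lit 6) (nat_lit 0xd00078001000080000000000000000000000000000000) (nat_lit 0x0) (nat_lit 0x20038001c600040002000000000000000000000000000) := T_39 (nat_lit 126) (nat_lit 109) (nat_lit 4) (nat_lit 8) (nat_lit 10) L101924 (by decide +kernel)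
theorem L101926 : W_39 (nat_lit 7) (nat_lit 0xd00038001000080000000000000000000000000000000) (nat_lit 0x0) (nat_lit 0x2803c001c600040002000000000000000000000000000) := T_39 (nat_lit 162) (nat_lit 175) (nat_lit 1) (nat_lit 9) (nat_lit 9) L101925 (by decide +kernel)
theorem L101927 : W_39 (nat_lit 8) (nat_lit 0x500038001000080000000000000000000000000000000) (nat_lit 0x0) (nat_lit 0x10000a803c001c600040002000000000000000000000000000) := T_39 (nat_lit 179) (nat_lit 196) (nat_lit 7) (nat_lit 8) (nat_lit 7) L101926 (by decide +kernel)
theorem L101928 : W_39 (nat_lit 2) (nat_lit 0x500078001000080000000000000000000000000000000) (nat_lit 0x0) (nat_lit 0x4000200080000000000000000000000000000000000000000) := D_39 (nat_lit 177) (nat_lit 194) (nat_lit 163) (nat_lit 5) (nat_lit 8) (nat_lit 7) (nat_lit 1) (nat_lit 10) (nat_lit 9) (by decide +kernel)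
theorem L101929 : W_39 (nat_lit 3) (nat_lit 0x500038001000080000000000000000000000000000000) (nat_lit 0x0) (nat_lit 0x40002800c0000000000000000000000000000000000000000) := T_39 (nat_lit 162) (nat_lit 175) (nat_lit 1) (nat_lit 9) (nat_lit 9) L101928 (by decide +kernel)
theorem L101930 : W_39 (nat_lit 2) (nat_lit 0x2000700038001600080001000000000000000000000000000) (nat_lit 0x0) (nat_lit 0x20001000800000000000000000000000000000000000000000000) := D_39 (nat_lit 192) (nat_lit 209) (nat_lit 179) (nat_lit 5) (nat_lit 6) (nat_lit 8) (nat_lit 1) (nat_lit 9) (nat_lit 10) (by decide +kernel)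
theorem L101931 : W_39 (nat_lit 3) (nat_lit 0x700038001600080001000000000000000000000000000) (nat_lit 0x0) (nat_lit 0x20003000800000000000010000000000000000000000000000000) := T_39 (nat_lit 193) (nat_lit 124) (nat_lit 4) (nat_lit 6) (nat_lit 11) L101930 (by decide +kernel)
theorem L101932 : W_39 (nat_lit 4) (nat_lit 0x700038001600080000000000000000000000000000000) (nat_lit 0x0) (nat_lit 0x20003000800000000000030001000000000000000000000000000) := T_39 (nat_lit 108) (nat_lit 125) (nat_lit 7) (nat_lit 6) (nat_lit 6) L101931 (by decide +kernel)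
theorem L101933 : W_39 (nat_lit 5) (nat_lit 0x700038001400080000000000000000000000000000000) (nat_lit 0x0) (nat_lit 0x20003000800040000200030001000000000000000000000000000) := T_39 (nat_lit 141) (nat_lit 162) (nat_lit 0) (nat_lit 9) (nat_lit 9) L101932 (by decide +kernel)
theorem L101934 : W_39 (nat_lit 6) (nat_lit 0x500038001400080000000000000000000000000000000) (nat_lit 0x0) (nat_lit 0x20007000a00040000200030001000000000000000000000000000) := T_39 (nat_lit 177) (nat_lit 194) (nat_lit 5) (nat_lit 8) (nat_lit 7) L101933 (by decide +kernel)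
theorem L101935 : W_39 (nat_lit 2) (nat_lit 0x2000f000380014000a0000000000000000000000000000000) (nat_lit 0x0) (nat_lit 0x200010000800000000000000000000000000) := D_39 (nat_lit 124) (nat_lit 141) (nat_lit 107) (nat_lit 4) (nat_lit 6) (nat_lit 11) (nat_lit 4) (nat_lit 6) (nat_lit 10) (by decide +kernel)
theorem L101936 : W_39 (nat_lit 3) (nat_lit 0x2000f00038001400080000000000000000000000000000000) (nat_lit 0x0) (nat_lit 0x200030001800000000000000000000000000) := T_39 (nat_lit 125) (nat_lit 108) (nat_lit 7) (nat_lit 6) (nat_lit 6) L101935 (by decide +kernel)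
theorem L101937 : W_39 (nat_lit 4) (nat_lit 0xf00038001400080000000000000000000000000000000) (nat_lit 0x0) (nat_lit 0x3000000000000200030001800000000000000000000000000) := T_39 (nat_lit 193) (nat_lit 192) (nat_lit 1) (nat_lit 9) (nat_lit 10) L101936 (by decide +kernel)
theorem L101938 : W_39 (nat_lit 5) (nat_lit 0x700038001400080000000000000000000000000000000) (nat_lit 0x0) (nat_lit 0x13000800000000200030001800000000000000000000000000) := T_39 (nat_lit 179) (nat_lit 196) (nat_lit 7) (nat_lit 8) (nat_lit 7) L101937 (by decide +kernel)
theorem L101939 : W_39 (nat_lit 6) (nat_lit 0x500038001400080000000000000000000000000000000) (nat_lit 0x0) (nat_lit 0x17000a00000000200030001800000000000000000000000000) := T_39 (nat_lit 177) (nat_lit 194) (nat_lit 5) (nat_lit 8) (nat_lit 7) L101938 (by decide +kernel)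
theorem L101940 : W_39 (nat_lit 2) (nat_lit 0x500078001400180000000000000000000000000000000) (nat_lit 0x0) (nat_lit 0x4000200080000000000000000000000000000000000000000) := D_39 (nat_lit 177) (nat_lit 163) (nat_lit 194) (nat_lit 1) (nat_lit 10) (nat_lit 9) (nat_lit 5) (nat_lit 8) (nat_lit 7) (by decide +kernel)
theorem L101941 : W_39 (nat_lit 3) (nat_lit 0x500038001400180000000000000000000000000000000) (nat_lit 0x0) (nat_lit 0x40002000c0000200000000000000000000000000000000000) := T_39 (nat_lit 162) (nat_lit 141) (nat_lit 0) (nat_lit 9) (nat_lit 9) L101940 (by decide +kernel)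
theorem L101942 : W_39 (nat_lit 4) (nat_lit 0x500038001400080000000000000000000000000000000) (nat_lit 0x0) (nat_lit 0x40002000c0000200100008000000000000000000000000000) := T_39 (nat_lit 128) (nat_lit 111) (nat_lit 6) (nat_lit 8) (nat_lit 10) L101941 (by decide +kernel)
theorem L101943 : W_39 (nat_lit 2) (nat_lit 0xd001f8001400080000000000000000000000000000000) (nat_lit 0x0) (nat_lit 0x1c000000000000000000000000000000000000) := D_39 (nat_lit 147) (nat_lit 146) (nat_lit 148) (nat_lit 2) (nat_lit 7) (nat_lit 9) (nat_lit 2) (nat_lit 8) (nat_lit 9) (by decide +kernel)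
theorem L101944 : W_39 (nat_lit 3) (nat_lit 0xd000f8001400080000000000000000000000000000000) (nat_lit 0x0) (nat_lit 0x30001c000000000000000000000000000000000000) := T_39 (nat_lit 164) (nat_lit 165) (nat_lit 1) (nat_lit 12) (nat_lit 9) L101943 (by decide +kernel)
theorem L101945 : W_39 (nat_lit 4) (nat_lit 0xd00078001400080000000000000000000000000000000) (nat_lit 0x0) (nat_lit 0x20038001c000000000000000000000000000000000000) := T_39 (nat_lit 163) (nat_lit 177) (nat_lit 2) (nat_lit 6) (nat_lit 10) L101944 (by decide +kernel)
theorem L101946 : W_39 (nat_lit 5) (nat_lit 0xd00038001400080000000000000000000000000000000) (nat_lit 0x0) (nat_lit 0x2003c001c200000000000000000000000000000000000) := T_39 (nat_lit 162) (nat_lit 141) (nat_lit 0) (nat_lit 9) (nat_lit 9) L101945 (by decide +kernel)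
theorem L101947 : W_39 (nat_lit 6) (nat_lit 0x500038001400080000000000000000000000000000000) (nat_lit 0x0) (nat_lit 0x10000a003c001c200000000000000000000000000000000000) := T_39 (nat_lit 179) (nat_lit 196) (nat_lit 7) (nat_lit 8) (nat_lit 7) L101946 (by decide +kernel)
theorem L101948 : W_39 (nat_lit 2) (nat_lit 0x5000380014000a0000000000000000000000000000000) (nat_lit 0x0) (nat_lit 0x4000200000000000000001000000000000000000000000000) := D_39 (nat_lit 177) (nat_lit 108) (nat_lit 194) (nat_lit 7) (nat_lit 6) (nat_lit 6) (nat_lit 7) (nat_lit 6) (nat_lit 7) (by decide +kernel)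
theorem L101949 : W_39 (nat_lit 2) (nat_lit 0x5000380014001e0000000000000000000000000000000) (nat_lit 0x0) (nat_lit 0x200000000000000001800000000000000000000000000) := D_39 (nat_lit 108) (nat_lit 107) (nat_lit 177) (nat_lit 0) (nat_lit 9) (nat_lit 7) (nat_lit 7) (nat_lit 6) (nat_lit 6) (by decide +kernel)
theorem L101950 : W_39 (nat_lit 3) (nat_lit 0x5000380014001a0000000000000000000000000000000) (nat_lit 0x0) (nat_lit 0x200000000000040003800000000000000000000000000) := T_39 (nat_lit 126) (nat_lit 109) (nat_lit 6) (nat_lit 6) (nat_lit 10) L101949 (by decide +kernel)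
theorem L101951 : W_39 (nat_lit 4) (nat_lit 0x5000380014000a0000000000000000000000000000000) (nat_lit 0x0) (nat_lit 0x20000000000014000b800000000000000000000000000) := T_39 (nat_lit 128) (nat_lit 111) (nat_lit 6) (nat_lit 8) (nat_lit 10) L101950 (by decide +kernel)
theorem L101952 : W_39 (nat_lit 2) (nat_lit 0xd000380014000e0000800000000000000000000000000) (nat_lit 0x0) (nat_lit 0x100009000000000000000000000000000) := D_39 (nat_lit 128) (nat_lit 111) (nat_lit 108) (nat_lit 6) (nat_lit 8) (nat_lit 10) (nat_lit 0) (nat_lit 9) (nat_lit 7) (by decide +kernel)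
theorem L101953 : W_39 (nat_lit 3) (nat_lit 0xd000380014000e0000000000000000000000000000000) (nat_lit 0x0) (nat_lit 0x110009800000000000000000000000000) := T_39 (nat_lit 107) (nat_lit 124) (nat_lit 4) (nat_lit 6) (nat_lit 10) L101952 (by decide +kernel)
theorem L101954 : W_39 (nat_lit 4) (nat_lit 0xd000380014000a0000000000000000000000000000000) (nat_lit 0x0) (nat_lit 0x15000b800000000000000000000000000) := T_39 (nat_lit 126) (nat_lit 109) (nat_lit 6) (nat_lit 6) (nat_lit 10) L101953 (by decide +kernel)
theorem L101955 : W_39 (nat_lit 5) (nat_lit 0x5000380014000a0000000000000000000000000000000) (nat_lit 0x0) (nat_lit 0x1000080000000000015000b800000000000000000000000000) := T_39 (nat_lit 179) (nat_lit 196) (nat_lit 7) (nat_lit 8) (nat_lit 7) L101954 (by decide +kernel)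
theorem L101956 : W_39 (nat_lit 2) (nat_lit 0x20005000380014000a0000000000000000000000000000000) (nat_lit 0x0) (nat_lit 0x80004000200000000000000000000000000000000000000000000) := D_39 (nat_lit 194) (nat_lit 177) (nat_lit 211) (nat_lit 7) (nat_lit 6) (nat_lit 7) (nat_lit 7) (nat_lit 6) (nat_lit 8) (by decide +kernel)
theorem L101957 : W_39 (nat_lit 2) (nat_lit 0x30005000380014001a0000000000000000000000000000000) (nat_lit 0x0) (nat_lit 0x10000a00000000000000000000000000000000000000000000) := D_39 (nat_lit 179) (nat_lit 177) (nat_lit 196) (nat_lit 1) (nat_lit 9) (nat_lit 10) (nat_lit 7) (nat_lit 8) (nat_lit 7) (by decide +kernel)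
theorem L101958 : W_39 (nat_lit 3) (nat_lit 0x20005000380014001a0000000000000000000000000000000) (nat_lit 0x0) (nat_lit 0x20011000a00000000000000000000000000000000000000000000) := T_39 (nat_lit 192) (nat_lit 209) (nat_lit 5) (nat_lit 6) (nat_lit 8) L101957 (by decide +kernel)
theorem L101959 : W_39 (nat_lit 4) (nat_lit 0x20005000380014000a0000000000000000000000000000000) (nat_lit 0x0) (nat_lit 0x20011000a00000000000100008000000000000000000000000000) := T_39 (nat_lit 128) (nat_lit 111) (nat_lit 6) (nat_lit 8) (nat_lit 10) L101958 (by decide +kernel)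
theorem L101960 : W_39 (nat_lit 2) (nat_lit 0xa00020005000380014000e0000000000000000000000000000000) (nat_lit 0x0) (nat_lit 0x1400040000000000000000000000000000000000000000000000000000) := D_39 (nat_lit 210) (nat_lit 228) (nat_lit 226) (nat_lit 7) (nat_lit 6) (nat_lit 9) (nat_lit 5) (nat_lit 6) (nat_lit 9) (by decide +kernel)
theorem L101961 : W_39 (nat_lit 3) (nat_lit 0x800020005000380014000e0000000000000000000000000000000) (nat_lit 0x0) (nat_lit 0x1400060001000000000000000000000000000000000000000000000000) := T_39 (nat_lit 209) (nat_lit 192) (nat_lit 5) (nat_lit 6) (nat_lit 8) L101960 (by decide +kernel)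
theorem L101962 : W_39 (nat_lit 4) (nat_lit 0x20005000380014000e0000000000000000000000000000000) (nat_lit 0x0) (nat_lit 0x14000e0005000000000000000000000000000000000000000000000000) := T_39 (nat_lit 211) (nat_lit 194) (nat_lit 7) (nat_lit 6) (nat_lit 8) L101961 (by decide +kernel)
theorem L101963 : W_39 (nat_lit 5) (nat_lit 0x20005000380014000a0000000000000000000000000000000) (nat_lit 0x0) (nat_lit 0x14000e0005000000000000000040002000000000000000000000000000) := T_39 (nat_lit 126) (nat_lit 109) (nat_lit 6) (nat_lit 6) (nat_lit 10) L101962 (by decide +kernel)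
theorem L101964 : W_39 (nat_lit 6) (nat_lit 0x5000380014000a0000000000000000000000000000000) (nat_lit 0x0) (nat_lit 0x14000e0017000a0000000000014000a000000000000000000000000000) := Q_39 (nat_lit 193) (C_39 L101956 (C_39 L101959 (C_39 L101963 N_39))) (by decide +kernel)
theorem L101965 : W_39 (nat_lit 7) (nat_lit 0x500038001400080000000000000000000000000000000) (nat_lit 0x0) (nat_lit 0x14000e0017000a0000000000017000b800000000000000000000000000) := Q_39 (nat_lit 125) (C_39 L101948 (C_39 L101951 (C_39 L101955 (C_39 L101964 N_39)))) (by decide +kernel)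
theorem L101966 : W_39 (nat_lit 2) (nat_lit 0xd000380014001c0000000000000000000000000000000) (nat_lit 0x0) (nat_lit 0x40000200020000000000000000000000000000000) := D_39 (nat_lit 141) (nat_lit 125) (nat_lit 162) (nat_lit 1) (nat_lit 9) (nat_lit 7) (nat_lit 0) (nat_lit 9) (nat_lit 9) (by decide +kernel)
theorem L101967 : W_39 (nat_lit 3) (nat_lit 0xd00038001400180000000000000000000000000000000) (nat_lit 0x0) (nat_lit 0x40000200060002000000000000000000000000000) := T_39 (nat_lit 126) (nat_lit 109) (nat_lit 4) (nat_lit 8) (nat_lit 10) L101966 (by decide +kernel)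
theorem L101968 : W_39 (nat_lit 4) (nat_lit 0x500038001400180000000000000000000000000000000) (nat_lit 0x0) (nat_lit 0x10000800040000200060002000000000000000000000000000) := T_39 (nat_lit 179) (nat_lit 196) (nat_lit 7) (nat_lit 8) (nat_lit 7) L101967 (by decide +kernel)
theorem L101969 : W_39 (nat_lit 5) (nat_lit 0x500038001400080000000000000000000000000000000) (nat_lit 0x0) (nat_lit 0x1000080004000020016000a000000000000000000000000000) := T_39 (nat_lit 128) (nat_lit 111) (nat_lit 6) (nat_lit 8) (nat_lit 10) L101968 (by decide +kernel)
theorem L101970 : W_39 (nat_lit 8) (nat_lit 0x500038001000080000000000000000000000000000000) (nat_lit 0x0) (nat_lit 0x14000e0017000a003c001c60017000b800000000000000000000000000) := Q_39 (nat_lit 142) (C_39 L101934 (C_39 L101939 (C_39 L101942 (C_39 L101947 (C_39 L101965 (C_39 L101969 N_39)))))) (by decide +kernel)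
theorem L101971 : W_39 (nat_lit 2) (nat_lit 0x500038001400080000000000000000000000000000000) (nat_lit 0x0) (nat_lit 0x80040000200000000000000000000000000000000000) := D_39 (nat_lit 162) (nat_lit 141) (nat_lit 175) (nat_lit 0) (nat_lit 9) (nat_lit 9) (nat_lit 1) (nat_lit 9) (nat_lit 9) (by decide +kernel)
theorem L101972 : W_39 (nat_lit 2) (nat_lit 0xd000380014001e0000000000000000000000000000000) (nat_lit 0x0) (nat_lit 0x10001800000000000000000000000000) := D_39 (nat_lit 107) (nat_lit 108) (nat_lit 124) (nat_lit 0) (nat_lit 9) (nat_lit 7) (nat_lit 4) (nat_lit 6) (nat_lit 10) (by decide +kernel)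
theorem L101973 : W_39 (nat_lit 3) (nat_lit 0xd000380014001c0000000000000000000000000000000) (nat_lit 0x0) (nat_lit 0x200030001800000000000000000000000000) := T_39 (nat_lit 125) (nat_lit 141) (nat_lit 1) (nat_lit 9) (nat_lit 7) L101972 (by decide +kernel)
theorem L101974 : W_39 (nat_lit 4) (nat_lit 0xd00038001400180000000000000000000000000000000) (nat_lit 0x0) (nat_lit 0x200070003800000000000000000000000000) := T_39 (nat_lit 126) (nat_lit 109) (nat_lit 4) (nat_lit 8) (nat_lit 10) L101973 (by decide +kernel)
theorem L101975 : W_39 (nat_lit 5) (nat_lit 0x500038001400180000000000000000000000000000000) (nat_lit 0x0) (nat_lit 0x10000800000000200070003800000000000000000000000000) := T_39 (nat_lit 179) (nat_lit 196) (nat_lit 7) (nat_lit 8) (nat_lit 7) L101974 (by decide +kernel)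
theorem L101976 : W_39 (nat_lit 6) (nat_lit 0x500038001400080000000000000000000000000000000) (nat_lit 0x0) (nat_lit 0x1000080000000020017000b800000000000000000000000000) := T_39 (nat_lit 128) (nat_lit 111) (nat_lit 6) (nat_lit 8) (nat_lit 10) L101975 (by decide +kernel)
theorem L101977 : W_39 (nat_lit 2) (nat_lit 0x5800380014001e0000000000000000000000000000000) (nat_lit 0x0) (nat_lit 0x10001800000000000000000000000000) := D_39 (nat_lit 107) (nat_lit 108) (nat_lit 124) (nat_lit 0) (nat_lit 9) (nat_lit 7) (nat_lit 4) (nat_lit 6) (nat_lit 10) (by decide +kernel)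
theorem L101978 : W_39 (nat_lit 3) (nat_lit 0x5800380014001c0000000000000000000000000000000) (nat_lit 0x0) (nat_lit 0x1000000000000000030001800000000000000000000000000) := T_39 (nat_lit 125) (nat_lit 192) (nat_lit 5) (nat_lit 6) (nat_lit 7) L101977 (by decide +kernel)
theorem L101979 : W_39 (nat_lit 4) (nat_lit 0x5800380014000c0000000000000000000000000000000) (nat_lit 0x0) (nat_lit 0x1000000000000000130009800000000000000000000000000) := T_39 (nat_lit 128) (nat_lit 111) (nat_lit 6) (nat_lit 8) (nat_lit 10) L101978 (by decide +kernel)
theorem L101980 : W_39 (nat_lit 5) (nat_lit 0x5000380014000c0000000000000000000000000000000) (nat_lit 0x0) (nat_lit 0x1000080040000000130009800000000000000000000000000) := T_39 (nat_lit 175) (nat_lit 162) (nat_lit 1) (nat_lit 9) (nat_lit 9) L101979 (by decide +kernel)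
theorem L101981 : W_39 (nat_lit 6) (nat_lit 0x500038001400080000000000000000000000000000000) (nat_lit 0x0) (nat_lit 0x100008004000000017000b800000000000000000000000000) := T_39 (nat_lit 126) (nat_lit 109) (nat_lit 4) (nat_lit 8) (nat_lit 10) L101980 (by decide +kernel)
theorem L101982 : W_39 (nat_lit 7) (nat_lit 0x500038001000080000000000000000000000000000000) (nat_lit 0x0) (nat_lit 0x1100088004000060017000b800000000000000000000000000) := Q_39 (nat_lit 142) (C_39 L101969 (C_39 L101971 (C_39 L101976 (C_39 L101981 N_39)))) (by decide +kernel)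
theorem L101983 : W_39 (nat_lit 11) (nat_lit 0x400038001000080000000000000000000000000000000) (nat_lit 0x0) (nat_lit 0x1c000e0017800bc03c001c60017000b800000000000000000000000000) := Q_39 (nat_lit 176) (C_39 L101913 (C_39 L101916 (C_39 L101920 (C_39 L101927 (C_39 L101929 (C_39 L101970 (C_39 L101982 N_39))))))) (by decide +kernel)
theorem L101984 : W_39 (nat_lit 12) (nat_lit 0x400030001000080000000000000000000000000000000) (nat_lit 0x0) (nat_lit 0x1c000e0017800bc03ce01c70017000b800000000000000000000000000) := Q_39 (nat_lit 159) (C_39 L101885 (C_39 L101891 (C_39 L101983 N_39))) (by decide +kernel)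
theorem L101985 : W_39 (nat_lit 2) (nat_lit 0x60003c0012001c0000000000000000000000000000000) (nat_lit 0x0) (nat_lit 0x40000400020000000000000000000000000000000) := D_39 (nat_lit 142) (nat_lit 125) (nat_lit 162) (nat_lit 1) (nat_lit 9) (nat_lit 7) (nat_lit 0) (nat_lit 9) (nat_lit 9) (by decide +kernel)
theorem L101986 : W_39 (nat_lit 3) (nat_lit 0x60003c0010001c0000000000000000000000000000000) (nat_lit 0x0) (nat_lit 0x40000700020000000000000000000000000000000) := T_39 (nat_lit 141) (nat_lit 140) (nat_lit 0) (nat_lit 8) (nat_lit 9) L101985 (by decide +kernel)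
theorem L101987 : W_39 (nat_lit 4) (nat_lit 0x6000380010001c0000000000000000000000000000000) (nat_lit 0x0) (nat_lit 0x46000700020000000000000000000000000000000) := T_39 (nat_lit 158) (nat_lit 157) (nat_lit 3) (nat_lit 4) (nat_lit 9) L101986 (by decide +kernel)
theorem L101988 : W_39 (nat_lit 5) (nat_lit 0x4000380010001c0000000000000000000000000000000) (nat_lit 0x0) (nat_lit 0x4000200046000700020000000000000000000000000000000) := T_39 (nat_lit 177) (nat_lit 194) (nat_lit 5) (nat_lit 8) (nat_lit 7) L101987 (by decide +kernel)
theorem L101989 : W_39 (nat_lit 6) (nat_lit 0x400038001000180000000000000000000000000000000) (nat_lit 0x0) (nat_lit 0x4000200046000700060002000000000000000000000000000) := T_39 (nat_lit 126) (nat_lit 109) (nat_lit 4) (nat_lit 8) (nat_lit 10) L101988 (by decide +kernel)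
theorem L101990 : W_39 (nat_lit 7) (nat_lit 0x400038001000080000000000000000000000000000000) (nat_lit 0x0) (nat_lit 0x400020004600070016000a000000000000000000000000000) := T_39 (nat_lit 128) (nat_lit 111) (nat_lit 6) (nat_lit 8) (nat_lit 10) L101989 (by decide +kernel)
theorem L101991 : W_39 (nat_lit 2) (nat_lit 0x68003c001200180000000000000000000000000000000) (nat_lit 0x0) (nat_lit 0x100040000400000000000000000000000000000000000) := D_39 (nat_lit 162) (nat_lit 176) (nat_lit 142) (nat_lit 2) (nat_lit 5) (nat_lit 10) (nat_lit 0) (nat_lit 9) (nat_lit 9) (by decide +kernel)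
theorem L101992 : W_39 (nat_lit 3) (nat_lit 0x68003c001000180000000000000000000000000000000) (nat_lit 0x0) (nat_lit 0x100040000700000000000000000000000000000000000) := T_39 (nat_lit 141) (nat_lit 140) (nat_lit 0) (nat_lit 8) (nat_lit 9) L101991 (by decide +kernel)
theorem L101993 : W_39 (nat_lit 4) (nat_lit 0x60003c001000180000000000000000000000000000000) (nat_lit 0x0) (nat_lit 0x1c0040000700000000000000000000000000000000000) := T_39 (nat_lit 175) (nat_lit 174) (nat_lit 1) (nat_lit 8) (nat_lit 9) L101992 (by decide +kernel)
theorem L101994 : W_39 (nat_lit 5) (nat_lit 0x60003c001000080000000000000000000000000000000) (nat_lit 0x0) (nat_lit 0x1c0040000700100008000000000000000000000000000) := T_39 (nat_lit 128) (nat_lit 111) (nat_lit 6) (nat_lit 8) (nat_lit 10) L101993 (by decide +kernel)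
theorem L101995 : W_39 (nat_lit 6) (nat_lit 0x600038001000080000000000000000000000000000000) (nat_lit 0x0) (nat_lit 0x1c0046000700100008000000000000000000000000000) := T_39 (nat_lit 158) (nat_lit 157) (nat_lit 3) (nat_lit 4) (nat_lit 9) L101994 (by decide +kernel)
theorem L101996 : W_39 (nat_lit 7) (nat_lit 0x400038001000080000000000000000000000000000000) (nat_lit 0x0) (nat_lit 0x40003c0046000700100008000000000000000000000000000) := T_39 (nat_lit 177) (nat_lit 194) (nat_lit 5) (nat_lit 8) (nat_lit 7) L101995 (by decide +kernel)
theorem L101997 : W_39 (nat_lit 3) (nat_lit 0x60003c0012001e0000000000000000000000000000000) (nat_lit 0x0) (nat_lit 0xc0000000000010001800000000000000000000000000) := T_39 (nat_lit 175) (nat_lit 174) (nat_lit 1) (nat_lit 8) (nat_lit 9) L65559 (by decide +kernel)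
theorem L101998 : W_39 (nat_lit 4) (nat_lit 0x60003c0012001c0000000000000000000000000000000) (nat_lit 0x0) (nat_lit 0xc0000000400030001800000000000000000000000000) := T_39 (nat_lit 125) (nat_lit 142) (nat_lit 1) (nat_lit 9) (nat_lit 7) L101997 (by decide +kernel)
theorem L101999 : W_39 (nat_lit 5) (nat_lit 0x60003c0010001c0000000000000000000000000000000) (nat_lit 0x0) (nat_lit 0xc0000000700030001800000000000000000000000000) := T_39 (nat_lit 141) (nat_lit 140) (nat_lit 0) (nat_lit 8) (nat_lit 9) L101998 (by decide +kernel)
theorem L102000 : W_39 (nat_lit 6) (nat_lit 0x6000380010001c0000000000000000000000000000000) (nat_lit 0x0) (nat_lit 0xc0006000700030001800000000000000000000000000) := T_39 (nat_lit 158) (nat_lit 157) (nat_lit 3) (nat_lit 4) (nat_lit 9) L101999 (by decide +kernel)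
theorem L102001 : W_39 (nat_lit 7) (nat_lit 0x4000380010001c0000000000000000000000000000000) (nat_lit 0x0) (nat_lit 0x40002c0006000700030001800000000000000000000000000) := T_39 (nat_lit 177) (nat_lit 194) (nat_lit 5) (nat_lit 8) (nat_lit 7) L102000 (by decide +kernel)
theorem L102002 : W_39 (nat_lit 8) (nat_lit 0x4000380010000c0000000000000000000000000000000) (nat_lit 0x0) (nat_lit 0x40002c0006000700130009800000000000000000000000000) := T_39 (nat_lit 128) (nat_lit 111) (nat_lit 6) (nat_lit 8) (nat_lit 10) L102001 (by decide +kernel)
theorem L102003 : W_39 (nat_lit 9) (nat_lit 0x400038001000080000000000000000000000000000000) (nat_lit 0x0) (nat_lit 0x40002c000600070017000b800000000000000000000000000) := T_39 (nat_lit 126) (nat_lit 109) (nat_lit 4) (nat_lit 8) (nat_lit 10) L102002 (by decide +kernel)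
theorem L102004 : W_39 (nat_lit 2) (nat_lit 0x50007c001200080000000000000000000000000000000) (nat_lit 0x0) (nat_lit 0x200082000000000000000000000000000000000000000) := D_39 (nat_lit 177) (nat_lit 163) (nat_lit 157) (nat_lit 1) (nat_lit 10) (nat_lit 9) (nat_lit 3) (nat_lit 4) (nat_lit 9) (by decide +kernel)
theorem L102005 : W_39 (nat_lit 3) (nat_lit 0x500078001200080000000000000000000000000000000) (nat_lit 0x0) (nat_lit 0x200086000100000000000000000000000000000000000) := T_39 (nat_lit 158) (nat_lit 140) (nat_lit 0) (nat_lit 8) (nat_lit 9) L102004 (by decide +kernel)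
theorem L102006 : W_39 (nat_lit 4) (nat_lit 0x400078001200080000000000000000000000000000000) (nat_lit 0x0) (nat_lit 0x380086000100000000000000000000000000000000000) := T_39 (nat_lit 176) (nat_lit 175) (nat_lit 1) (nat_lit 9) (nat_lit 9) L102005 (by decide +kernel)
theorem L102007 : W_39 (nat_lit 5) (nat_lit 0x400038001200080000000000000000000000000000000) (nat_lit 0x0) (nat_lit 0x3800c6000500000000000000000000000000000000000) := T_39 (nat_lit 162) (nat_lit 142) (nat_lit 0) (nat_lit 9) (nat_lit 9) L102006 (by decide +kernel)
theorem L102008 : W_39 (nat_lit 2) (nat_lit 0x48003e0016000c0000000000000000000000000000000) (nat_lit 0x0) (nat_lit 0x120008000000000000000000000000000) := D_39 (nat_lit 128) (nat_lit 111) (nat_lit 125) (nat_lit 6) (nat_lit 8) (nat_lit 10) (nat_lit 1) (nat_lit 9) (nat_lit 7) (by decide +kernel)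
theorem L102009 : W_39 (nat_lit 3) (nat_lit 0x48003e0012000c0000000000000000000000000000000) (nat_lit 0x0) (nat_lit 0x40000400120008000000000000000000000000000) := T_39 (nat_lit 142) (nat_lit 162) (nat_lit 0) (nat_lit 9) (nat_lit 9) L102008 (by decide +kernel)
theorem L102010 : W_39 (nat_lit 4) (nat_lit 0x48003e001200080000000000000000000000000000000) (nat_lit 0x0) (nat_lit 0x4000040016000a000000000000000000000000000) := T_39 (nat_lit 126) (nat_lit 109) (nat_lit 4) (nat_lit 8) (nat_lit 10) L102009 (by decide +kernel)
theorem L102011 : W_39 (nat_lit 5) (nat_lit 0x48003c001200080000000000000000000000000000000) (nat_lit 0x0) (nat_lit 0x20004200040016000a000000000000000000000000000) := T_39 (nat_lit 157) (nat_lit 177) (nat_lit 3) (nat_lit 4) (nat_lit 9) L102010 (by decide +kernel)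
theorem L102012 : W_39 (nat_lit 6) (nat_lit 0x40003c001200080000000000000000000000000000000) (nat_lit 0x0) (nat_lit 0x2c004200040016000a000000000000000000000000000) := T_39 (nat_lit 175) (nat_lit 174) (nat_lit 1) (nat_lit 8) (nat_lit 9) L102011 (by decide +kernel)
theorem L102013 : W_39 (nat_lit 7) (nat_lit 0x400038001200080000000000000000000000000000000) (nat_lit 0x0) (nat_lit 0x2c004600050016000a000000000000000000000000000) := T_39 (nat_lit 158) (nat_lit 140) (nat_lit 0) (nat_lit 8) (nat_lit 9) L102012 (by decide +kernel)
theorem L102014 : W_39 (nat_lit 2) (nat_lit 0x4000380012001e0000000000000000000000000000000) (nat_lit 0x0) (nat_lit 0x4000100010000000000000000000000000000000) := D_39 (nat_lit 140) (nat_lit 124) (nat_lit 158) (nat_lit 1) (nat_lit 8) (nat_lit 7) (nat_lit 0) (nat_lit 8) (nat_lit 9) (by decide +kernel)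
theorem L102015 : W_39 (nat_lit 3) (nat_lit 0x4000380012001c0000000000000000000000000000000) (nat_lit 0x0) (nat_lit 0x4000500030000000000000000000000000000000) := T_39 (nat_lit 125) (nat_lit 142) (nat_lit 1) (nat_lit 9) (nat_lit 7) L102014 (by decide +kernel)
theorem L102016 : W_39 (nat_lit 4) (nat_lit 0x400038001200180000000000000000000000000000000) (nat_lit 0x0) (nat_lit 0x4000500070002000000000000000000000000000) := T_39 (nat_lit 126) (nat_lit 109) (nat_lit 4) (nat_lit 8) (nat_lit 10) L102015 (by decide +kernel)
theorem L102017 : W_39 (nat_lit 5) (nat_lit 0x400038001200080000000000000000000000000000000) (nat_lit 0x0) (nat_lit 0x400050017000a000000000000000000000000000) := T_39 (nat_lit 128) (nat_lit 111) (nat_lit 6) (nat_lit 8) (nat_lit 10) L102016 (by decide +kernel)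
theorem L102018 : W_39 (nat_lit 2) (nat_lit 0x25000f80092001c0000000000000000000000000000000) (nat_lit 0x0) (nat_lit 0x4000100010000000000000000000000000000000000000) := D_39 (nat_lit 164) (nat_lit 182) (nat_lit 148) (nat_lit 3) (nat_lit 8) (nat_lit 9) (nat_lit 2) (nat_lit 8) (nat_lit 9) (by decide +kernel)
theorem L102019 : W_39 (nat_lit 3) (nat_lit 0x25000f80012001c0000000000000000000000000000000) (nat_lit 0x0) (nat_lit 0x400010001c000000000000000000000000000000000000) := T_39 (nat_lit 147) (nat_lit 146) (nat_lit 2) (nat_lit 7) (nat_lit 9) L102018 (by decide +kernel)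
theorem L102020 : W_39 (nat_lit 4) (nat_lit 0x5000f80012001c0000000000000000000000000000000) (nat_lit 0x0) (nat_lit 0x700010001c000000000000000000000000000000000000) := T_39 (nat_lit 181) (nat_lit 180) (nat_lit 3) (nat_lit 7) (nat_lit 9) L102019 (by decide +kernel)
theorem L102021 : W_39 (nat_lit 5) (nat_lit 0x5000f8001200180000000000000000000000000000000) (nat_lit 0x0) (nat_lit 0x700010001c000040002000000000000000000000000000) := T_39 (nat_lit 126) (nat_lit 109) (nat_lit 4) (nat_lit 8) (nat_lit 10) L102020 (by decide +kernel)
theorem L102022 : W_39 (nat_lit 6) (nat_lit 0x500078001200180000000000000000000000000000000) (nat_lit 0x0) (nat_lit 0x720018001c000040002000000000000000000000000000) := T_39 (nat_lit 163) (nat_lit 177) (nat_lit 1) (nat_lit 10) (nat_lit 9) L102021 (by decide +kernel)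
theorem L102023 : W_39 (nat_lit 7) (nat_lit 0x500078001200080000000000000000000000000000000) (nat_lit 0x0) (nat_lit 0x720018001c00014000a000000000000000000000000000) := T_39 (nat_lit 128) (nat_lit 111) (nat_lit 6) (nat_lit 8) (nat_lit 10) L102022 (by decide +kernel)
theorem L102024 : W_39 (nat_lit 8) (nat_lit 0x400078001200080000000000000000000000000000000) (nat_lit 0x0) (nat_lit 0x738018001c00014000a000000000000000000000000000) := T_39 (nat_lit 176) (nat_lit 175) (nat_lit 1) (nat_lit 9) (nat_lit 9) L102023 (by decide +kernel)
theorem L102025 : W_39 (nat_lit 9) (nat_lit 0x400038001200080000000000000000000000000000000) (nat_lit 0x0) (nat_lit 0x73801c001c40014000a000000000000000000000000000) := T_39 (nat_lit 162) (nat_lit 142) (nat_lit 0) (nat_lit 9) (nat_lit 9) L102024 (by decide +kernel)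
theorem L102026 : W_39 (nat_lit 2) (nat_lit 0x58003e001200180000000000000000000000000000000) (nat_lit 0x0) (nat_lit 0x40002000000000000000010000000000000000000000000000000) := D_39 (nat_lit 193) (nat_lit 210) (nat_lit 124) (nat_lit 4) (nat_lit 6) (nat_lit 12) (nat_lit 7) (nat_lit 5) (nat_lit 7) (by decide +kernel)
theorem L102027 : W_39 (nat_lit 3) (nat_lit 0x48003e001200180000000000000000000000000000000) (nat_lit 0x0) (nat_lit 0x40002000100040000000010000000000000000000000000000000) := T_39 (nat_lit 176) (nat_lit 162) (nat_lit 1) (nat_lit 9) (nat_lit 9) L102026 (by decide +kernel)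
theorem L102028 : W_39 (nat_lit 4) (nat_lit 0x48003c001200180000000000000000000000000000000) (nat_lit 0x0) (nat_lit 0x40002000300042000000010000000000000000000000000000000) := T_39 (nat_lit 157) (nat_lit 177) (nat_lit 3) (nat_lit 4) (nat_lit 9) L102027 (by decide +kernel)
theorem L102029 : W_39 (nat_lit 5) (nat_lit 0x40003c001200180000000000000000000000000000000) (nat_lit 0x0) (nat_lit 0x400020003c0042000000010000000000000000000000000000000) := T_39 (nat_lit 175) (nat_lit 174) (nat_lit 1) (nat_lit 8) (nat_lit 9) L102028 (by decide +kernel)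
theorem L102030 : W_39 (nat_lit 6) (nat_lit 0x400038001200180000000000000000000000000000000) (nat_lit 0x0) (nat_lit 0x400020003c0046000100010000000000000000000000000000000) := T_39 (nat_lit 158) (nat_lit 140) (nat_lit 0) (nat_lit 8) (nat_lit 9) L102029 (by decide +kernel)
theorem L102031 : W_39 (nat_lit 7) (nat_lit 0x400038001200080000000000000000000000000000000) (nat_lit 0x0) (nat_lit 0x400020003c0046000100110008000000000000000000000000000) := T_39 (nat_lit 128) (nat_lit 111) (nat_lit 6) (nat_lit 8) (nat_lit 10) L102030 (by decide +kernel)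
theorem L102032 : W_39 (nat_lit 10) (nat_lit 0x400038001000080000000000000000000000000000000) (nat_lit 0x0) (nat_lit 0x400020073c01c601c70017000a000000000000000000000000000) := Q_39 (nat_lit 141) (C_39 L102007 (C_39 L102013 (C_39 L102017 (C_39 L102025 (C_39 L102031 N_39))))) (by decide +kernel)
theorem L102033 : W_39 (nat_lit 2) (nat_lit 0x100078003c0010001c0000000000000000000000000000000) (nat_lit 0x0) (nat_lit 0x20000000000000000400020000000000000000000000000000000) := D_39 (nat_lit 142) (nat_lit 125) (nat_lit 209) (nat_lit 5) (nat_lit 6) (nat_lit 7) (nat_lit 6) (nat_lit 5) (nat_lit 12) (by decide +kernel)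
theorem L102034 : W_39 (nat_lit 3) (nat_lit 0x78003c0010001c0000000000000000000000000000000) (nat_lit 0x0) (nat_lit 0x20001800000000000400020000000000000000000000000000000) := T_39 (nat_lit 192) (nat_lit 191) (nat_lit 1) (nat_lit 8) (nat_lit 10) L102033 (by decide +kernel)
theorem L102035 : W_39 (nat_lit 4) (nat_lit 0x68003c0010001c0000000000000000000000000000000) (nat_lit 0x0) (nat_lit 0x20001800100040000400020000000000000000000000000000000) := T_39 (nat_lit 176) (nat_lit 162) (nat_lit 2) (nat_lit 5) (nat_lit 10) L102034 (by decide +kernel)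
theorem L102036 : W_39 (nat_lit 5) (nat_lit 0x60003c0010001c0000000000000000000000000000000) (nat_lit 0x0) (nat_lit 0x200018001c0040000400020000000000000000000000000000000) := T_39 (nat_lit 175) (nat_lit 174) (nat_lit 1) (nat_lit 8) (nat_lit 9) L102035 (by decide +kernel)
theorem L102037 : W_39 (nat_lit 6) (nat_lit 0x60003c0010000c0000000000000000000000000000000) (nat_lit 0x0) (nat_lit 0x200018001c0040000400120008000000000000000000000000000) := T_39 (nat_lit 128) (nat_lit 111) (nat_lit 6) (nat_lit 8) (nat_lit 10) L102036 (by decide +kernel)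
theorem L102038 : W_39 (nat_lit 7) (nat_lit 0x6000380010000c0000000000000000000000000000000) (nat_lit 0x0) (nat_lit 0x200018001c0046000400120008000000000000000000000000000) := T_39 (nat_lit 158) (nat_lit 157) (nat_lit 3) (nat_lit 4) (nat_lit 9) L102037 (by decide +kernel)
theorem L102039 : W_39 (nat_lit 8) (nat_lit 0x4000380010000c0000000000000000000000000000000) (nat_lit 0x0) (nat_lit 0x200058003c0046000400120008000000000000000000000000000) := T_39 (nat_lit 177) (nat_lit 194) (nat_lit 5) (nat_lit 8) (nat_lit 7) L102038 (by decide +kernel)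
theorem L102040 : W_39 (nat_lit 9) (nat_lit 0x400038001000080000000000000000000000000000000) (nat_lit 0x0) (nat_lit 0x200058003c004600040016000a000000000000000000000000000) := T_39 (nat_lit 126) (nat_lit 109) (nat_lit 4) (nat_lit 8) (nat_lit 10) L102039 (by decide +kernel)
theorem L102041 : W_39 (nat_lit 2) (nat_lit 0x7000380010001c0000000000000000000000000000000) (nat_lit 0x0) (nat_lit 0xc0040000000000000000000000000000000000000000) := D_39 (nat_lit 175) (nat_lit 162) (nat_lit 174) (nat_lit 2) (nat_lit 5) (nat_lit 10) (nat_lit 2) (nat_lit 4) (nat_lit 10) (by decide +kernel)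
theorem L102042 : W_39 (nat_lit 3) (nat_lit 0x5000380010001c0000000000000000000000000000000) (nat_lit 0x0) (nat_lit 0x40002c0040000000000000000000000000000000000000000) := T_39 (nat_lit 177) (nat_lit 194) (nat_lit 5) (nat_lit 8) (nat_lit 7) L102041 (by decide +kernel)
theorem L102043 : W_39 (nat_lit 4) (nat_lit 0x500038001000180000000000000000000000000000000) (nat_lit 0x0) (nat_lit 0x40002c0040000000040002000000000000000000000000000) := T_39 (nat_lit 126) (nat_lit 109) (nat_lit 4) (nat_lit 8) (nat_lit 10) L102042 (by decide +kernel)
theorem L102044 : W_39 (nat_lit 5) (nat_lit 0x500038001000080000000000000000000000000000000) (nat_lit 0x0) (nat_lit 0x40002c004000000014000a000000000000000000000000000) := T_39 (nat_lit 128) (nat_lit 111) (nat_lit 6) (nat_lit 8) (nat_lit 10) L102043 (by decide +kernel)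
theorem L102045 : W_39 (nat_lit 2) (nat_lit 0x200010007800380010001c0000000000000000000000000000000) (nat_lit 0x0) (nat_lit 0x2000000000000400020000000000000000000000000000000) := D_39 (nat_lit 142) (nat_lit 125) (nat_lit 193) (nat_lit 5) (nat_lit 6) (nat_lit 7) (nat_lit 5) (nat_lit 6) (nat_lit 8) (by decide +kernel)
theorem L102046 : W_39 (nat_lit 3) (nat_lit 0x10007800380010001c0000000000000000000000000000000) (nat_lit 0x0) (nat_lit 0x400020002000000000000400020000000000000000000000000000000) := T_39 (nat_lit 209) (nat_lit 226) (nat_lit 6) (nat_lit 5) (nat_lit 13) L102045 (by decide +kernel)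
theorem L102047 : W_39 (nat_lit 4) (nat_lit 0x10007800380010000c0000000000000000000000000000000) (nat_lit 0x0) (nat_lit 0x400020002000000000000400120008000000000000000000000000000) := T_39 (nat_lit 128) (nat_lit 111) (nat_lit 6) (nat_lit 8) (nat_lit 10) L102046 (by decide +kernel)
theorem L102048 : W_39 (nat_lit 5) (nat_lit 0x7800380010000c0000000000000000000000000000000) (nat_lit 0x0) (nat_lit 0x400020003800000000000400120008000000000000000000000000000) := T_39 (nat_lit 192) (nat_lit 191) (nat_lit 1) (nat_lit 8) (nat_lit 10) L102047 (by decide +kernel)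
theorem L102049 : W_39 (nat_lit 6) (nat_lit 0x780038001000080000000000000000000000000000000) (nat_lit 0x0) (nat_lit 0x40002000380000000000040016000a000000000000000000000000000) := T_39 (nat_lit 126) (nat_lit 109) (nat_lit 4) (nat_lit 8) (nat_lit 10) L102048 (by decide +kernel)
theorem L102050 : W_39 (nat_lit 7) (nat_lit 0x700038001000080000000000000000000000000000000) (nat_lit 0x0) (nat_lit 0x4000200038000c000000040016000a000000000000000000000000000) := T_39 (nat_lit 175) (nat_lit 174) (nat_lit 2) (nat_lit 4) (nat_lit 10) L102049 (by decide +kernel)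
theorem L102051 : W_39 (nat_lit 8) (nat_lit 0x500038001000080000000000000000000000000000000) (nat_lit 0x0) (nat_lit 0x4000200078002c000000040016000a000000000000000000000000000) := T_39 (nat_lit 177) (nat_lit 194) (nat_lit 5) (nat_lit 8) (nat_lit 7) L102050 (by decide +kernel)
theorem L102052 : W_39 (nat_lit 2) (nat_lit 0x25000f80094001c0000000000000000000000000000000) (nat_lit 0x0) (nat_lit 0x4000100010000000000000000000000000000000000000) := D_39 (nat_lit 164) (nat_lit 148) (nat_lit 182) (nat_lit 2) (nat_lit 8) (nat_lit 9) (nat_lit 3) (nat_lit 8) (nat_lit 9) (by decide +kernel)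
theorem L102053 : W_39 (nat_lit 3) (nat_lit 0x5000f80094001c0000000000000000000000000000000) (nat_lit 0x0) (nat_lit 0x7000100010000000000000000000000000000000000000) := T_39 (nat_lit 181) (nat_lit 180) (nat_lit 3) (nat_lit 7) (nat_lit 9) L102052 (by decide +kernel)
theorem L102054 : W_39 (nat_lit 4) (nat_lit 0x5000f80014001c0000000000000000000000000000000) (nat_lit 0x0) (nat_lit 0x700010001c000000000000000000000000000000000000) := T_39 (nat_lit 147) (nat_lit 146) (nat_lit 2) (nat_lit 7) (nat_lit 9) L102053 (by decide +kernel)
theorem L102055 : W_39 (nat_lit 5) (nat_lit 0x5000780014001c0000000000000000000000000000000) (nat_lit 0x0) (nat_lit 0x720018001c000000000000000000000000000000000000) := T_39 (nat_lit 163) (nat_lit 177) (nat_lit 1) (nat_lit 10) (nat_lit 9) L102054 (by decide +kernel)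
theorem L102056 : W_39 (nat_lit 6) (nat_lit 0x5000780010001c0000000000000000000000000000000) (nat_lit 0x0) (nat_lit 0x720018001c600000000000000000000000000000000000) := T_39 (nat_lit 142) (nat_lit 141) (nat_lit 0) (nat_lit 9) (nat_lit 9) L102055 (by decide +kernel)
theorem L102057 : W_39 (nat_lit 7) (nat_lit 0x5000780010000c0000000000000000000000000000000) (nat_lit 0x0) (nat_lit 0x720018001c600100008000000000000000000000000000) := T_39 (nat_lit 128) (nat_lit 111) (nat_lit 6) (nat_lit 8) (nat_lit 10) L102056 (by decide +kernel)
theorem L102058 : W_39 (nat_lit 8) (nat_lit 0x5000380010000c0000000000000000000000000000000) (nat_lit 0x0) (nat_lit 0x72801c001c600100008000000000000000000000000000) := T_39 (nat_lit 162) (nat_lit 175) (nat_lit 1) (nat_lit 9) (nat_lit 9) L102057 (by decide +kernel)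
theorem L102059 : W_39 (nat_lit 9) (nat_lit 0x500038001000080000000000000000000000000000000) (nat_lit 0x0) (nat_lit 0x72801c001c60014000a000000000000000000000000000) := T_39 (nat_lit 126) (nat_lit 109) (nat_lit 4) (nat_lit 8) (nat_lit 10) L102058 (by decide +kernel)
theorem L102060 : W_39 (nat_lit 2) (nat_lit 0x500038001600180000000000000000000000000000000) (nat_lit 0x0) (nat_lit 0x60002000000000000000000000000000) := D_39 (nat_lit 126) (nat_lit 109) (nat_lit 125) (nat_lit 4) (nat_lit 8) (nat_lit 10) (nat_lit 1) (nat_lit 9) (nat_lit 7) (by decide +kernel)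
theorem L102061 : W_39 (nat_lit 3) (nat_lit 0x500038001400180000000000000000000000000000000) (nat_lit 0x0) (nat_lit 0x40000200060002000000000000000000000000000) := T_39 (nat_lit 141) (nat_lit 162) (nat_lit 0) (nat_lit 9) (nat_lit 9) L102060 (by decide +kernel)
theorem L102062 : W_39 (nat_lit 4) (nat_lit 0x500038001400080000000000000000000000000000000) (nat_lit 0x0) (nat_lit 0x4000020016000a000000000000000000000000000) := T_39 (nat_lit 128) (nat_lit 111) (nat_lit 6) (nat_lit 8) (nat_lit 10) L102061 (by decide +kernel)
theorem L102063 : W_39 (nat_lit 2) (nat_lit 0x5000780014000c0000000000000000000000000000000) (nat_lit 0x0) (nat_lit 0x4000200080000000000000000000000000000000000000000) := D_39 (nat_lit 177) (nat_lit 163) (nat_lit 194) (nat_lit 1) (nat_lit 10) (nat_lit 9) (nat_lit 5) (nat_lit 8) (nat_lit 7) (by decide +kernel)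
theorem L102064 : W_39 (nat_lit 3) (nat_lit 0x5000380014000c0000000000000000000000000000000) (nat_lit 0x0) (nat_lit 0x40002000c0000200000000000000000000000000000000000) := T_39 (nat_lit 162) (nat_lit 141) (nat_lit 0) (nat_lit 9) (nat_lit 9) L102063 (by decide +kernel)
theorem L102065 : W_39 (nat_lit 4) (nat_lit 0x500038001400080000000000000000000000000000000) (nat_lit 0x0) (nat_lit 0x40002000c0000200040002000000000000000000000000000) := T_39 (nat_lit 126) (nat_lit 109) (nat_lit 4) (nat_lit 8) (nat_lit 10) L102064 (by decide +kernel)
theorem L102066 : W_39 (nat_lit 2) (nat_lit 0x7000380014000e0000000000000000000000000000000) (nat_lit 0x0) (nat_lit 0x200100008000000000000000000000000000) := D_39 (nat_lit 128) (nat_lit 111) (nat_lit 141) (nat_lit 6) (nat_lit 8) (nat_lit 10) (nat_lit 1) (nat_lit 9) (nat_lit 7) (by decide +kernel)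
theorem L102067 : W_39 (nat_lit 3) (nat_lit 0x7000380014000c0000000000000000000000000000000) (nat_lit 0x0) (nat_lit 0x200120009000000000000000000000000000) := T_39 (nat_lit 125) (nat_lit 108) (nat_lit 7) (nat_lit 6) (nat_lit 6) L102066 (by decide +kernel)
theorem L102068 : W_39 (nat_lit 4) (nat_lit 0x700038001400080000000000000000000000000000000) (nat_lit 0x0) (nat_lit 0x20016000b000000000000000000000000000) := T_39 (nat_lit 126) (nat_lit 109) (nat_lit 4) (nat_lit 8) (nat_lit 10) L102067 (by decide +kernel)
theorem L102069 : W_39 (nat_lit 5) (nat_lit 0x500038001400080000000000000000000000000000000) (nat_lit 0x0) (nat_lit 0x400020000000020016000b000000000000000000000000000) := T_39 (nat_lit 177) (nat_lit 194) (nat_lit 5) (nat_lit 8) (nat_lit 7) L102068 (by decide +kernel)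
theorem L102070 : W_39 (nat_lit 2) (nat_lit 0x5000380014000e0000800000000000000000000000000) (nat_lit 0x0) (nat_lit 0x100009000000000000000000000000000) := D_39 (nat_lit 128) (nat_lit 111) (nat_lit 108) (nat_lit 6) (nat_lit 8) (nat_lit 10) (nat_lit 0) (nat_lit 9) (nat_lit 7) (by decide +kernel)
theorem L102071 : W_39 (nat_lit 3) (nat_lit 0x5000380014000e0000000000000000000000000000000) (nat_lit 0x0) (nat_lit 0x110009800000000000000000000000000) := T_39 (nat_lit 107) (nat_lit 124) (nat_lit 4) (nat_lit 6) (nat_lit 10) L102070 (by decide +kernel)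
theorem L102072 : W_39 (nat_lit 4) (nat_lit 0x5000380014000a0000000000000000000000000000000) (nat_lit 0x0) (nat_lit 0x15000b800000000000000000000000000) := T_39 (nat_lit 126) (nat_lit 109) (nat_lit 6) (nat_lit 6) (nat_lit 10) L102071 (by decide +kernel)
theorem L102073 : W_39 (nat_lit 2) (nat_lit 0x10000600020005000380014001f0000000000000000000000000000000) (nat_lit 0x0) (nat_lit 0x20000800000000000200000000000000000000000000000000000000000000) := D_39 (nat_lit 227) (nat_lit 177) (nat_lit 245) (nat_lit 6) (nat_lit 6) (nat_lit 13) (nat_lit 7) (nat_lit 6) (nat_lit 10) (by decide +kernel)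
theorem L102074 : W_39 (nat_lit 3) (nat_lit 0x600020005000380014001f0000000000000000000000000000000) (nat_lit 0x0) (nat_lit 0x20001800080000000200000000000000000000000000000000000000000000) := T_39 (nat_lit 228) (nat_lit 211) (nat_lit 7) (nat_lit 6) (nat_lit 9) L102073 (by decide +kernel)
theorem L102075 : W_39 (nat_lit 4) (nat_lit 0x200020005000380014001f0000000000000000000000000000000) (nat_lit 0x0) (nat_lit 0x20001c000c0000000200000000000000000000000000000000000000000000) := T_39 (nat_lit 210) (nat_lit 226) (nat_lit 5) (nat_lit 6) (nat_lit 9) L102074 (by decide +kernel)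
theorem L102076 : W_39 (nat_lit 5) (nat_lit 0x200020005000380014001e0000000000000000000000000000000) (nat_lit 0x0) (nat_lit 0x20001c000c0000000200000000000010000800000000000000000000000000) := T_39 (nat_lit 124) (nat_lit 107) (nat_lit 4) (nat_lit 6) (nat_lit 10) L102075 (by decide +kernel)
theorem L102077 : W_39 (nat_lit 6) (nat_lit 0x20005000380014001e0000000000000000000000000000000) (nat_lit 0x0) (nat_lit 0x20001c000e0001000200000000000010000800000000000000000000000000) := T_39 (nat_lit 209) (nat_lit 192) (nat_lit 5) (nat_lit 6) (nat_lit 8) L102076 (by decide +kernel)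
theorem L102078 : W_39 (nat_lit 7) (nat_lit 0x20005000380014001a0000000000000000000000000000000) (nat_lit 0x0) (nat_lit 0x20001c000e0001000200000000000050002800000000000000000000000000) := T_39 (nat_lit 126) (nat_lit 109) (nat_lit 6) (nat_lit 6) (nat_lit 10) L102077 (by decide +kernel)
theorem L102079 : W_39 (nat_lit 8) (nat_lit 0x20005000380014000a0000000000000000000000000000000) (nat_lit 0x0) (nat_lit 0x20001c000e000100020000000000015000a800000000000000000000000000) := T_39 (nat_lit 128) (nat_lit 111) (nat_lit 6) (nat_lit 8) (nat_lit 10) L102078 (by decide +kernel)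
theorem L102080 : W_39 (nat_lit 2) (nat_lit 0x400020007000b80014000b0000000000000000000000000000000) (nat_lit 0x0) (nat_lit 0x400020001000000000000000000000000000000000000000000000000) := D_39 (nat_lit 209) (nat_lit 192) (nat_lit 226) (nat_lit 5) (nat_lit 6) (nat_lit 8) (nat_lit 5) (nat_lit 6) (nat_lit 9) (by decide +kernel)
theorem L102081 : W_39 (nat_lit 3) (nat_lit 0x20007000b80014000b0000000000000000000000000000000) (nat_lit 0x0) (nat_lit 0xc00060001000000000000000000000000000000000000000000000000) := T_39 (nat_lit 210) (nat_lit 227) (nat_lit 6) (nat_lit 6) (nat_lit 13) L102080 (by decide +kernel)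
theorem L102082 : W_39 (nat_lit 4) (nat_lit 0x20007000380014000b0000000000000000000000000000000) (nat_lit 0x0) (nat_lit 0xc000600010000000c0000000000000000000000000000000000000000) := T_39 (nat_lit 163) (nat_lit 162) (nat_lit 1) (nat_lit 10) (nat_lit 9) L102081 (by decide +kernel)
theorem L102083 : W_39 (nat_lit 5) (nat_lit 0x20005000380014000b0000000000000000000000000000000) (nat_lit 0x0) (nat_lit 0xc000600050002000c0000000000000000000000000000000000000000) := T_39 (nat_lit 177) (nat_lit 194) (nat_lit 7) (nat_lit 6) (nat_lit 7) L102082 (by decide +kernel)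
theorem L102084 : W_39 (nat_lit 6) (nat_lit 0x20005000380014000a0000000000000000000000000000000) (nat_lit 0x0) (nat_lit 0xc000600050002000c0000000010000800000000000000000000000000) := T_39 (nat_lit 124) (nat_lit 107) (nat_lit 4) (nat_lit 6) (nat_lit 10) L102083 (by decide +kernel)
theorem L102085 : W_39 (nat_lit 9) (nat_lit 0x5000380014000a0000000000000000000000000000000) (nat_lit 0x0) (nat_lit 0x20001c000e00070002000c000000015000a800000000000000000000000000) := Q_39 (nat_lit 193) (C_39 L101963 (C_39 L101956 (C_39 L102079 (C_39 L102084 N_39)))) (by decide +kernel)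
theorem L102086 : W_39 (nat_lit 10) (nat_lit 0x500038001400080000000000000000000000000000000) (nat_lit 0x0) (nat_lit 0x20001c000e00070002000c000000017000b800000000000000000000000000) := Q_39 (nat_lit 125) (C_39 L101951 (C_39 L101948 (C_39 L102072 (C_39 L102085 N_39)))) (by decide +kernel)
theorem L102087 : W_39 (nat_lit 11) (nat_lit 0x500038001000080000000000000000000000000000000) (nat_lit 0x0) (nat_lit 0x20001c000e00070002000c000060017000b800000000000000000000000000) := Q_39 (nat_lit 142) (C_39 L102062 (C_39 L101942 (C_39 L102065 (C_39 L102069 (C_39 L102086 N_39))))) (by decide +kernel)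
theorem L102088 : W_39 (nat_lit 2) (nat_lit 0x5000380014001e0000000000000000000000000000000) (nat_lit 0x0) (nat_lit 0x10001800000000000000000000000000) := D_39 (nat_lit 107) (nat_lit 108) (nat_lit 124) (nat_lit 0) (nat_lit 9) (nat_lit 7) (nat_lit 4) (nat_lit 6) (nat_lit 10) (by decide +kernel)
theorem L102089 : W_39 (nat_lit 3) (nat_lit 0x5000380014001c0000000000000000000000000000000) (nat_lit 0x0) (nat_lit 0x200030001800000000000000000000000000) := T_39 (nat_lit 125) (nat_lit 141) (nat_lit 1) (nat_lit 9) (nat_lit 7) L102088 (by decide +kernel)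
theorem L102090 : W_39 (nat_lit 4) (nat_lit 0x5000380014000c0000000000000000000000000000000) (nat_lit 0x0) (nat_lit 0x200130009800000000000000000000000000) := T_39 (nat_lit 128) (nat_lit 111) (nat_lit 6) (nat_lit 8) (nat_lit 10) L102089 (by decide +kernel)
theorem L102091 : W_39 (nat_lit 5) (nat_lit 0x500038001400080000000000000000000000000000000) (nat_lit 0x0) (nat_lit 0x20017000b800000000000000000000000000) := T_39 (nat_lit 126) (nat_lit 109) (nat_lit 4) (nat_lit 8) (nat_lit 10) L102090 (by decide +kernel)
theorem L102092 : W_39 (nat_lit 7) (nat_lit 0x500038001000080000000000000000000000000000000) (nat_lit 0x0) (nat_lit 0x100008004000060017000b800000000000000000000000000) := Q_39 (nat_lit 142) (C_39 L102062 (C_39 L101971 (C_39 L102091 (C_39 L101981 N_39)))) (by decide +kernel)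
theorem L102093 : W_39 (nat_lit 12) (nat_lit 0x400038001000080000000000000000000000000000000) (nat_lit 0x0) (nat_lit 0x20001c000e00078073c01c001c60017000b800000000000000000000000000) := Q_39 (nat_lit 176) (C_39 L101929 (C_39 L102044 (C_39 L102051 (C_39 L102059 (C_39 L102087 (C_39 L102092 N_39)))))) (by decide +kernel)
theorem L102094 : W_39 (nat_lit 2) (nat_lit 0x78003c0012001c0000000000000000000000000000000) (nat_lit 0x0) (nat_lit 0x2000000000000000010000800000000000000000000000000) := D_39 (nat_lit 124) (nat_lit 107) (nat_lit 193) (nat_lit 7) (nat_lit 5) (nat_lit 6) (nat_lit 7) (nat_lit 5) (nat_lit 7) (by decide +kernel)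
theorem L102095 : W_39 (nat_lit 3) (nat_lit 0x68003c0012001c0000000000000000000000000000000) (nat_lit 0x0) (nat_lit 0x2000100040000000010000800000000000000000000000000) := T_39 (nat_lit 176) (nat_lit 162) (nat_lit 2) (nat_lit 5) (nat_lit 10) L102094 (by decide +kernel)
theorem L102096 : W_39 (nat_lit 4) (nat_lit 0x68003c0010001c0000000000000000000000000000000) (nat_lit 0x0) (nat_lit 0x2000100040000300010000800000000000000000000000000) := T_39 (nat_lit 141) (nat_lit 140) (nat_lit 0) (nat_lit 8) (nat_lit 9) L102095 (by decide +kernel)
theorem L102097 : W_39 (nat_lit 5) (nat_lit 0x60003c0010001c0000000000000000000000000000000) (nat_lit 0x0) (nat_lit 0x20001c0040000300010000800000000000000000000000000) := T_39 (nat_lit 175) (nat_lit 174) (nat_lit 1) (nat_lit 8) (nat_lit 9) L102096 (by decide +kernel)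
theorem L102098 : W_39 (nat_lit 6) (nat_lit 0x60003c001000180000000000000000000000000000000) (nat_lit 0x0) (nat_lit 0x20001c0040000300050002800000000000000000000000000) := T_39 (nat_lit 126) (nat_lit 109) (nat_lit 4) (nat_lit 8) (nat_lit 10) L102097 (by decide +kernel)
theorem L102099 : W_39 (nat_lit 7) (nat_lit 0x600038001000180000000000000000000000000000000) (nat_lit 0x0) (nat_lit 0x20001c0046000300050002800000000000000000000000000) := T_39 (nat_lit 158) (nat_lit 157) (nat_lit 3) (nat_lit 4) (nat_lit 9) L102098 (by decide +kernel)
theorem L102100 : W_39 (nat_lit 8) (nat_lit 0x400038001000180000000000000000000000000000000) (nat_lit 0x0) (nat_lit 0x60003c0046000300050002800000000000000000000000000) := T_39 (nat_lit 177) (nat_lit 194) (nat_lit 5) (nat_lit 8) (nat_lit 7) L102099 (by decide +kernel)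
theorem L102101 : W_39 (nat_lit 9) (nat_lit 0x400038001000080000000000000000000000000000000) (nat_lit 0x0) (nat_lit 0x60003c004600030015000a800000000000000000000000000) := T_39 (nat_lit 128) (nat_lit 111) (nat_lit 6) (nat_lit 8) (nat_lit 10) L102100 (by decide +kernel)
theorem L102102 : W_39 (nat_lit 2) (nat_lit 0x480078001200080000000000000000000000000000000) (nat_lit 0x0) (nat_lit 0x40004000100000000000000000000000000000000000) := D_39 (nat_lit 158) (nat_lit 140) (nat_lit 174) (nat_lit 0) (nat_lit 8) (nat_lit 9) (nat_lit 1) (nat_lit 8) (nat_lit 9) (by decide +kernel)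
theorem L102103 : W_39 (nat_lit 3) (nat_lit 0x400078001200080000000000000000000000000000000) (nat_lit 0x0) (nat_lit 0x1c0004000100000000000000000000000000000000000) := T_39 (nat_lit 175) (nat_lit 176) (nat_lit 1) (nat_lit 9) (nat_lit 9) L102102 (by decide +kernel)
theorem L102104 : W_39 (nat_lit 4) (nat_lit 0x400038001200080000000000000000000000000000000) (nat_lit 0x0) (nat_lit 0x1c0044000500000000000000000000000000000000000) := T_39 (nat_lit 162) (nat_lit 142) (nat_lit 0) (nat_lit 9) (nat_lit 9) L102103 (by decide +kernel)
theorem L102105 : W_39 (nat_lit 2) (nat_lit 0x4000380016000c0000000000000000000000000000000) (nat_lit 0x0) (nat_lit 0x120008000000000000000000000000000) := D_39 (nat_lit 128) (nat_lit 111) (nat_lit 125) (nat_lit 6) (nat_lit 8) (nat_lit 10) (nat_lit 1) (nat_lit 9) (nat_lit 7) (by decide +kernel)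
theorem L102106 : W_39 (nat_lit 3) (nat_lit 0x4000380012000c0000000000000000000000000000000) (nat_lit 0x0) (nat_lit 0x40000400120008000000000000000000000000000) := T_39 (nat_lit 142) (nat_lit 162) (nat_lit 0) (nat_lit 9) (nat_lit 9) L102105 (by decide +kernel)
theorem L102107 : W_39 (nat_lit 4) (nat_lit 0x400038001200080000000000000000000000000000000) (nat_lit 0x0) (nat_lit 0x4000040016000a000000000000000000000000000) := T_39 (nat_lit 126) (nat_lit 109) (nat_lit 4) (nat_lit 8) (nat_lit 10) L102106 (by decide +kernel)
theorem L102108 : W_39 (nat_lit 2) (nat_lit 0x58003c0012001c0000000000000000000000000000000) (nat_lit 0x0) (nat_lit 0x40002000000000000000010000000000000000000000000000000) := D_39 (nat_lit 193) (nat_lit 210) (nat_lit 124) (nat_lit 4) (nat_lit 6) (nat_lit 12) (nat_lit 7) (nat_lit 5) (nat_lit 7) (by decide +kernel)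
theorem L102109 : W_39 (nat_lit 3) (nat_lit 0x48003c0012001c0000000000000000000000000000000) (nat_lit 0x0) (nat_lit 0x40002000100040000000010000000000000000000000000000000) := T_39 (nat_lit 176) (nat_lit 162) (nat_lit 1) (nat_lit 9) (nat_lit 9) L102108 (by decide +kernel)
theorem L102110 : W_39 (nat_lit 4) (nat_lit 0x40003c0012001c0000000000000000000000000000000) (nat_lit 0x0) (nat_lit 0x400020001c0040000000010000000000000000000000000000000) := T_39 (nat_lit 175) (nat_lit 174) (nat_lit 1) (nat_lit 8) (nat_lit 9) L102109 (by decide +kernel)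
theorem L102111 : W_39 (nat_lit 5) (nat_lit 0x4000380012001c0000000000000000000000000000000) (nat_lit 0x0) (nat_lit 0x400020001c0044000100010000000000000000000000000000000) := T_39 (nat_lit 158) (nat_lit 140) (nat_lit 0) (nat_lit 8) (nat_lit 9) L102110 (by decide +kernel)
theorem L102112 : W_39 (nat_lit 6) (nat_lit 0x400038001200180000000000000000000000000000000) (nat_lit 0x0) (nat_lit 0x400020001c0044000100050002000000000000000000000000000) := T_39 (nat_lit 126) (nat_lit 109) (nat_lit 4) (nat_lit 8) (nat_lit 10) L102111 (by decide +kernel)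
theorem L102113 : W_39 (nat_lit 7) (nat_lit 0x400038001200080000000000000000000000000000000) (nat_lit 0x0) (nat_lit 0x400020001c004400010015000a000000000000000000000000000) := T_39 (nat_lit 128) (nat_lit 111) (nat_lit 6) (nat_lit 8) (nat_lit 10) L102112 (by decide +kernel)
theorem L102114 : W_39 (nat_lit 8) (nat_lit 0x400038001000080000000000000000000000000000000) (nat_lit 0x0) (nat_lit 0x400020001c004400070017000a000000000000000000000000000) := Q_39 (nat_lit 141) (C_39 L102017 (C_39 L102104 (C_39 L102107 (C_39 L102113 N_39)))) (by decide +kernel)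
theorem L102115 : W_39 (nat_lit 13) (nat_lit 0x400030001000080000000000000000000000000000000) (nat_lit 0x0) (nat_lit 0x20001c000e00078073c01ce01c70017000b800000000000000000000000000) := Q_39 (nat_lit 159) (C_39 L101990 (C_39 L101996 (C_39 L101891 (C_39 L102003 (C_39 L102032 (C_39 L102040 (C_39 L102093 (C_39 L102101 (C_39 L102114 N_39))))))))) (by decide +kernel)
theorem L102116 : W_39 (nat_lit 2) (nat_lit 0xc00038001000180000000000000000000000000000000) (nat_lit 0x0) (nat_lit 0x3000040000000000000000000000000000000000000000) := D_39 (nat_lit 180) (nat_lit 181) (nat_lit 162) (nat_lit 0) (nat_lit 11) (nat_lit 10) (nat_lit 3) (nat_lit 6) (nat_lit 9) (by decide +kernel)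
theorem L102117 : W_39 (nat_lit 3) (nat_lit 0xc00030001000180000000000000000000000000000000) (nat_lit 0x0) (nat_lit 0x300004c000000000000000000000000000000000000000) := T_39 (nat_lit 159) (nat_lit 158) (nat_lit 3) (nat_lit 5) (nat_lit 9) L102116 (by decide +kernel)
theorem L102118 : W_39 (nat_lit 4) (nat_lit 0x400030001000180000000000000000000000000000000) (nat_lit 0x0) (nat_lit 0x1000380004c000000000000000000000000000000000000000) := T_39 (nat_lit 179) (nat_lit 196) (nat_lit 7) (nat_lit 8) (nat_lit 7) L102117 (by decide +kernel)
theorem L102119 : W_39 (nat_lit 5) (nat_lit 0x400030001000080000000000000000000000000000000) (nat_lit 0x0) (nat_lit 0x1000380004c000000100008000000000000000000000000000) := T_39 (nat_lit 128) (nat_lit 111) (nat_lit 6) (nat_lit 8) (nat_lit 10) L102118 (by decide +kernel)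
theorem L102120 : W_39 (nat_lit 14) (nat_lit 0x400020001000080000000000000000000000000000000) (nat_lit 0x0) (nat_lit 0x20001c000e0017807bc03de01c70017000b800000000000000000000000000) := Q_39 (nat_lit 160) (C_39 L101879 (C_39 L101884 (C_39 L101984 (C_39 L102115 (C_39 L102119 N_39))))) (by decide +kernel)
theorem L102121 : W_39 (nat_lit 2) (nat_lit 0x2c000a00050003c0010000000000000000000000000000) (nat_lit 0x0) (nat_lit 0x40001000010000000000000000000000000000000000000000) := D_39 (nat_lit 180) (nat_lit 198) (nat_lit 160) (nat_lit 7) (nat_lit 10) (nat_lit 7) (nat_lit 0) (nat_lit 11) (nat_lit 10) (by decide +kernel)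
theorem L102122 : W_39 (nat_lit 3) (nat_lit 0xc000a00050003c0010000000000000000000000000000) (nat_lit 0x0) (nat_lit 0x40003000110000000000000000000000000000000000000000) := T_39 (nat_lit 181) (nat_lit 164) (nat_lit 7) (nat_lit 10) (nat_lit 6) L102121 (by decide +kernel)
theorem L102123 : W_39 (nat_lit 4) (nat_lit 0xc000200050003c0010000000000000000000000000000) (nat_lit 0x0) (nat_lit 0x400030001d0000000000000000000000000000000000000000) := T_39 (nat_lit 163) (nat_lit 162) (nat_lit 5) (nat_lit 10) (nat_lit 6) L102122 (by decide +kernel)
theorem L102124 : W_39 (nat_lit 5) (nat_lit 0x4000200050003c0010000000000000000000000000000) (nat_lit 0x0) (nat_lit 0x500038001d0000000000000000000000000000000000000000) := T_39 (nat_lit 179) (nat_lit 196) (nat_lit 7) (nat_lit 8) (nat_lit 7) L102123 (by decide +kernel)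
theorem L102125 : W_39 (nat_lit 6) (nat_lit 0x4000200010003c0010000000000000000000000000000) (nat_lit 0x0) (nat_lit 0x500038001d000c000000000000000000000000000000000000) := T_39 (nat_lit 146) (nat_lit 147) (nat_lit 3) (nat_lit 7) (nat_lit 7) L102124 (by decide +kernel)
theorem L102126 : W_39 (nat_lit 7) (nat_lit 0x4000200010003c0000000000000000000000000000000) (nat_lit 0x0) (nat_lit 0x500038001d000c000000030000000000000000000000000000) := T_39 (nat_lit 112) (nat_lit 113) (nat_lit 2) (nat_lit 7) (nat_lit 7) L102125 (by decide +kernel)
theorem L102127 : W_39 (nat_lit 8) (nat_lit 0x400020001000380000000000000000000000000000000) (nat_lit 0x0) (nat_lit 0x500038001d000c000040032000000000000000000000000000) := T_39 (nat_lit 126) (nat_lit 109) (nat_lit 4) (nat_lit 8) (nat_lit 10) L102126 (by decide +kernel)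
theorem L102128 : W_39 (nat_lit 2) (nat_lit 0x7c00020009000f80040000000100000000000000000000) (nat_lit 0x0) (nat_lit 0x1c0000000000000000000000000000000000000000000000000) := D_39 (nat_lit 199) (nat_lit 198) (nat_lit 200) (nat_lit 3) (nat_lit 8) (nat_lit 10) (nat_lit 3) (nat_lit 9) (nat_lit 10) (by decide +kernel)
theorem L102129 : W_39 (nat_lit 3) (nat_lit 0x3c00020009000f80040000000100000000000000000000) (nat_lit 0x0) (nat_lit 0x1c0004000040000000000000000000000000000000000000000) := T_39 (nat_lit 182) (nat_lit 162) (nat_lit 0) (nat_lit 12) (nat_lit 10) L102128 (by decide +kernel)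
theorem L102130 : W_39 (nat_lit 4) (nat_lit 0x2c00020009000f80040000000100000000000000000000) (nat_lit 0x0) (nat_lit 0x1c0005000050000000000000000000000000000000000000000) := T_39 (nat_lit 180) (nat_lit 160) (nat_lit 0) (nat_lit 11) (nat_lit 10) L102129 (by decide +kernel)
theorem L102131 : W_39 (nat_lit 5) (nat_lit 0xc00020009000f80040000000100000000000000000000) (nat_lit 0x0) (nat_lit 0x1c0007000150000000000000000000000000000000000000000) := T_39 (nat_lit 181) (nat_lit 164) (nat_lit 6) (nat_lit 11) (nat_lit 10) L102130 (by decide +kernel)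
theorem L102132 : W_39 (nat_lit 6) (nat_lit 0xc00020009000f80040000000000000000000000000000) (nat_lit 0x0) (nat_lit 0x1c0007000150000000000000002000100000000000000000000) := T_39 (nat_lit 80) (nat_lit 97) (nat_lit 5) (nat_lit 12) (nat_lit 4) L102131 (by decide +kernel)
theorem L102133 : W_39 (nat_lit 7) (nat_lit 0xc00020009000780040000000000000000000000000000) (nat_lit 0x0) (nat_lit 0x1c0007000150000000800080002000100000000000000000000) := T_39 (nat_lit 131) (nat_lit 115) (nat_lit 2) (nat_lit 9) (nat_lit 7) L102132 (by decide +kernel)
theorem L102134 : W_39 (nat_lit 8) (nat_lit 0xc00020001000780040000000000000000000000000000) (nat_lit 0x0) (nat_lit 0x1c0007000150018000800080002000100000000000000000000) := T_39 (nat_lit 147) (nat_lit 148) (nat_lit 3) (nat_lit 8) (nat_lit 7) L102133 (by decide +kernel)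
theorem L102135 : W_39 (nat_lit 9) (nat_lit 0xc00020001000780000000000000000000000000000000) (nat_lit 0x0) (nat_lit 0x1c00070001500180008000e0002000100000000000000000000) := T_39 (nat_lit 114) (nat_lit 113) (nat_lit 2) (nat_lit 8) (nat_lit 7) L102134 (by decide +kernel)
theorem L102136 : W_39 (nat_lit 10) (nat_lit 0x400020001000780000000000000000000000000000000) (nat_lit 0x0) (nat_lit 0x1d00078001500180008000e0002000100000000000000000000) := T_39 (nat_lit 179) (nat_lit 196) (nat_lit 7) (nat_lit 8) (nat_lit 7) L102135 (by decide +kernel)
theorem L102137 : W_39 (nat_lit 2) (nat_lit 0xc00020001000f80040000000000000000000000000000) (nat_lit 0x0) (nat_lit 0x38000000000000000000000000000000000000) := D_39 (nat_lit 148) (nat_lit 149) (nat_lit 147) (nat_lit 3) (nat_lit 9) (nat_lit 7) (nat_lit 3) (nat_lit 8) (nat_lit 7) (by decide +kernel)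
theorem L102138 : W_39 (nat_lit 3) (nat_lit 0xc00020001000780040000000000000000000000000000) (nat_lit 0x0) (nat_lit 0x38000800080000000000000000000000000000) := T_39 (nat_lit 131) (nat_lit 115) (nat_lit 2) (nat_lit 9) (nat_lit 7) L102137 (by decide +kernel)
theorem L102139 : W_39 (nat_lit 4) (nat_lit 0x400020001000780040000000000000000000000000000) (nat_lit 0x0) (nat_lit 0x10000800000038000800080000000000000000000000000000) := T_39 (nat_lit 179) (nat_lit 196) (nat_lit 7) (nat_lit 8) (nat_lit 7) L102138 (by decide +kernel)
theorem L102140 : W_39 (nat_lit 5) (nat_lit 0x400020001000780000000000000000000000000000000) (nat_lit 0x0) (nat_lit 0x100008000000380008000e0000000000000000000000000000) := T_39 (nat_lit 114) (nat_lit 113) (nat_lit 2) (nat_lit 8) (nat_lit 7) L102139 (by decide +kernel)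
theorem L102141 : W_39 (nat_lit 2) (nat_lit 0x400020001000f80000000000000000000000000000000) (nat_lit 0x0) (nat_lit 0xe0000000000000000000000000000) := D_39 (nat_lit 114) (nat_lit 113) (nat_lit 115) (nat_lit 2) (nat_lit 8) (nat_lit 7) (nat_lit 2) (nat_lit 9) (nat_lit 7) (by decide +kernel)
theorem L102142 : W_39 (nat_lit 2) (nat_lit 0xc00020021000f80080000000000000000000000000000) (nat_lit 0x0) (nat_lit 0x40001000100000000000000000000000000000) := D_39 (nat_lit 132) (nat_lit 150) (nat_lit 116) (nat_lit 3) (nat_lit 10) (nat_lit 7) (nat_lit 2) (nat_lit 10) (nat_lit 7) (by decide +kernel)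
theorem L102143 : W_39 (nat_lit 3) (nat_lit 0xc00020021000f80000000000000000000000000000000) (nat_lit 0x0) (nat_lit 0x400010001c0000000000000000000000000000) := T_39 (nat_lit 115) (nat_lit 114) (nat_lit 2) (nat_lit 9) (nat_lit 7) L102142 (by decide +kernel)
theorem L102144 : W_39 (nat_lit 4) (nat_lit 0xc00020001000f80000000000000000000000000000000) (nat_lit 0x0) (nat_lit 0x700010001c0000000000000000000000000000) := T_39 (nat_lit 149) (nat_lit 148) (nat_lit 3) (nat_lit 9) (nat_lit 7) L102143 (by decide +kernel)
theorem L102145 : W_39 (nat_lit 5) (nat_lit 0x400020001000f80000000000000000000000000000000) (nat_lit 0x0) (nat_lit 0x100008000000700010001c0000000000000000000000000000) := T_39 (nat_lit 179) (nat_lit 196) (nat_lit 7) (nat_lit 8) (nat_lit 7) L102144 (by decide +kernel)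
theorem L102146 : W_39 (nat_lit 2) (nat_lit 0x400020001001f80000000000000000000000000000000) (nat_lit 0x0) (nat_lit 0x70000000000000000000000000000000000000) := D_39 (nat_lit 149) (nat_lit 148) (nat_lit 150) (nat_lit 3) (nat_lit 9) (nat_lit 7) (nat_lit 3) (nat_lit 10) (nat_lit 7) (by decide +kernel)
theorem L102147 : W_39 (nat_lit 2) (nat_lit 0x7c00020001000f80000000000000000000000000000000) (nat_lit 0x0) (nat_lit 0x700000000000000000000000000000000000000000) := D_39 (nat_lit 165) (nat_lit 164) (nat_lit 166) (nat_lit 2) (nat_lit 8) (nat_lit 10) (nat_lit 2) (nat_lit 9) (nat_lit 10) (by decide +kernel)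
theorem L102148 : W_39 (nat_lit 3) (nat_lit 0x3c00020001000f80000000000000000000000000000000) (nat_lit 0x0) (nat_lit 0x4000740000000000000000000000000000000000000000) := T_39 (nat_lit 182) (nat_lit 162) (nat_lit 0) (nat_lit 12) (nat_lit 10) L102147 (by decide +kernel)
theorem L102149 : W_39 (nat_lit 4) (nat_lit 0x1c00020001000f80000000000000000000000000000000) (nat_lit 0x0) (nat_lit 0x6000750000000000000000000000000000000000000000) := T_39 (nat_lit 181) (nat_lit 160) (nat_lit 0) (nat_lit 11) (nat_lit 10) L102148 (by decide +kernel)
theorem L102150 : W_39 (nat_lit 2) (nat_lit 0x9c001a0021003f80120000000000000000000000000000) (nat_lit 0x0) (nat_lit 0x2000240000000000000000000000000000000000000000) := D_39 (nat_lit 165) (nat_lit 162) (nat_lit 181) (nat_lit 1) (nat_lit 12) (nat_lit 9) (nat_lit 2) (nat_lit 8) (nat_lit 10) (by decide +kernel)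
theorem L102151 : W_39 (nat_lit 3) (nat_lit 0x9c000a0021003f80120000000000000000000000000000) (nat_lit 0x0) (nat_lit 0x2200340000000000000000000000000000000000000000) := T_39 (nat_lit 164) (nat_lit 177) (nat_lit 2) (nat_lit 7) (nat_lit 10) L102150 (by decide +kernel)
theorem L102152 : W_39 (nat_lit 4) (nat_lit 0x9c00020021003f80120000000000000000000000000000) (nat_lit 0x0) (nat_lit 0x22003c0004000000000000000000000000000000000000) := T_39 (nat_lit 163) (nat_lit 146) (nat_lit 6) (nat_lit 10) (nat_lit 10) L102151 (by decide +kernel)
theorem L102153 : W_39 (nat_lit 5) (nat_lit 0x1c00020021003f80120000000000000000000000000000) (nat_lit 0x0) (nat_lit 0xa2007c0004000000000000000000000000000000000000) := T_39 (nat_lit 183) (nat_lit 166) (nat_lit 6) (nat_lit 13) (nat_lit 10) L102152 (by decide +kernel)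
theorem L102154 : W_39 (nat_lit 6) (nat_lit 0x1c00020021003f80100000000000000000000000000000) (nat_lit 0x0) (nat_lit 0xa2007c0004000000030000000000000000000000000000) := T_39 (nat_lit 113) (nat_lit 112) (nat_lit 0) (nat_lit 14) (nat_lit 7) L102153 (by decide +kernel)
theorem L102155 : W_39 (nat_lit 7) (nat_lit 0x1c00020021001f80100000000000000000000000000000) (nat_lit 0x0) (nat_lit 0xa2007c0004002000230000000000000000000000000000) := T_39 (nat_lit 133) (nat_lit 117) (nat_lit 2) (nat_lit 11) (nat_lit 7) L102154 (by decide +kernel)
theorem L102156 : W_39 (nat_lit 8) (nat_lit 0x1c00020021001f80000000000000000000000000000000) (nat_lit 0x0) (nat_lit 0xa2007c00040020003b0000000000000000000000000000) := T_39 (nat_lit 116) (nat_lit 115) (nat_lit 2) (nat_lit 10) (nat_lit 7) L102155 (by decide +kernel)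
theorem L102157 : W_39 (nat_lit 9) (nat_lit 0x1c00020021000f80000000000000000000000000000000) (nat_lit 0x0) (nat_lit 0xa2007c00440030003b0000000000000000000000000000) := T_39 (nat_lit 132) (nat_lit 150) (nat_lit 3) (nat_lit 10) (nat_lit 7) L102156 (by decide +kernel)
theorem L102158 : W_39 (nat_lit 10) (nat_lit 0x1c00020001000f80000000000000000000000000000000) (nat_lit 0x0) (nat_lit 0xa2007c00740030003b0000000000000000000000000000) := T_39 (nat_lit 149) (nat_lit 148) (nat_lit 3) (nat_lit 9) (nat_lit 7) L102157 (by decide +kernel)
theorem L102159 : W_39 (nat_lit 2) (nat_lit 0x40003c00020011000f80000000000000000000000000000000) (nat_lit 0x0) (nat_lit 0x4000300000000000000000000000000000000000000000) := D_39 (nat_lit 165) (nat_lit 164) (nat_lit 182) (nat_lit 2) (nat_lit 8) (nat_lit 10) (nat_lit 5) (nat_lit 12) (nat_lit 7) (by decide +kernel)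
theorem L102160 : W_39 (nat_lit 3) (nat_lit 0x3c00020011000f80000000000000000000000000000000) (nat_lit 0x0) (nat_lit 0xc0004000300000000000000000000000000000000000000000) := T_39 (nat_lit 198) (nat_lit 199) (nat_lit 3) (nat_lit 8) (nat_lit 10) L102159 (by decide +kernel)
theorem L102161 : W_39 (nat_lit 4) (nat_lit 0x1c00020011000f80000000000000000000000000000000) (nat_lit 0x0) (nat_lit 0xc0006000310000000000000000000000000000000000000000) := T_39 (nat_lit 181) (nat_lit 160) (nat_lit 0) (nat_lit 11) (nat_lit 10) L102160 (by decide +kernel)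
theorem L102162 : W_39 (nat_lit 5) (nat_lit 0x1c00020001000f80000000000000000000000000000000) (nat_lit 0x0) (nat_lit 0xc0006000310030000000000000000000000000000000000000) := T_39 (nat_lit 148) (nat_lit 149) (nat_lit 3) (nat_lit 9) (nat_lit 7) L102161 (by decide +kernel)
theorem L102163 : W_39 (nat_lit 2) (nat_lit 0x40003c00020011000f80000000000000000000000000000000) (nat_lit 0x0) (nat_lit 0x4000240000000000000000000000000000000000000000) := D_39 (nat_lit 182) (nat_lit 162) (nat_lit 165) (nat_lit 0) (nat_lit 12) (nat_lit 10) (nat_lit 5) (nat_lit 12) (nat_lit 7) (by decide +kernel)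
theorem L102164 : W_39 (nat_lit 3) (nat_lit 0x3c00020011000f80000000000000000000000000000000) (nat_lit 0x0) (nat_lit 0xc0004000240000000000000000000000000000000000000000) := T_39 (nat_lit 198) (nat_lit 199) (nat_lit 3) (nat_lit 8) (nat_lit 10) L102163 (by decide +kernel)
theorem L102165 : W_39 (nat_lit 4) (nat_lit 0x3c00020001000f80000000000000000000000000000000) (nat_lit 0x0) (nat_lit 0xc0004000240030000000000000000000000000000000000000) := T_39 (nat_lit 148) (nat_lit 149) (nat_lit 3) (nat_lit 9) (nat_lit 7) L102164 (by decide +kernel)
theorem L102166 : W_39 (nat_lit 5) (nat_lit 0x1c00020001000f80000000000000000000000000000000) (nat_lit 0x0) (nat_lit 0xc0006000250030000000000000000000000000000000000000) := T_39 (nat_lit 181) (nat_lit 160) (nat_lit 0) (nat_lit 11) (nat_lit 10) L102165 (by decide +kernel)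
theorem L102167 : W_39 (nat_lit 2) (nat_lit 0x9f000a0021003f80120000000000000000000000000000) (nat_lit 0x0) (nat_lit 0x1c000000000000000000000000000000000000000) := D_39 (nat_lit 159) (nat_lit 158) (nat_lit 160) (nat_lit 0) (nat_lit 9) (nat_lit 10) (nat_lit 0) (nat_lit 10) (nat_lit 10) (by decide +kernel)
theorem L102168 : W_39 (nat_lit 3) (nat_lit 0x9e000a0021003f80120000000000000000000000000000) (nat_lit 0x0) (nat_lit 0x10005c000000000000000000000000000000000000000) := T_39 (nat_lit 176) (nat_lit 162) (nat_lit 2) (nat_lit 6) (nat_lit 10) L102167 (by decide +kernel)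
theorem L102169 : W_39 (nat_lit 4) (nat_lit 0x9c000a0021003f80120000000000000000000000000000) (nat_lit 0x0) (nat_lit 0x30015c000000000000000000000000000000000000000) := T_39 (nat_lit 177) (nat_lit 164) (nat_lit 2) (nat_lit 7) (nat_lit 10) L102168 (by decide +kernel)
theorem L102170 : W_39 (nat_lit 5) (nat_lit 0x9c00020021003f80120000000000000000000000000000) (nat_lit 0x0) (nat_lit 0x3001dc004000000000000000000000000000000000000) := T_39 (nat_lit 163) (nat_lit 146) (nat_lit 6) (nat_lit 10) (nat_lit 10) L102169 (by decide +kernel)
theorem L102171 : W_39 (nat_lit 6) (nat_lit 0x1c00020021003f80120000000000000000000000000000) (nat_lit 0x0) (nat_lit 0x83005dc004000000000000000000000000000000000000) := T_39 (nat_lit 183) (nat_lit 166) (nat_lit 6) (nat_lit 13) (nat_lit 10) L102170 (by decide +kernel)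
theorem L102172 : W_39 (nat_lit 7) (nat_lit 0x1c00020021003f80100000000000000000000000000000) (nat_lit 0x0) (nat_lit 0x83005dc004000000030000000000000000000000000000) := T_39 (nat_lit 113) (nat_lit 112) (nat_lit 0) (nat_lit 14) (nat_lit 7) L102171 (by decide +kernel)
theorem L102173 : W_39 (nat_lit 8) (nat_lit 0x1c00020021001f80100000000000000000000000000000) (nat_lit 0x0) (nat_lit 0x83005dc004002000230000000000000000000000000000) := T_39 (nat_lit 133) (nat_lit 117) (nat_lit 2) (nat_lit 11) (nat_lit 7) L102172 (by decide +kernel)
theorem L102174 : W_39 (nat_lit 9) (nat_lit 0x1c00020021001f80000000000000000000000000000000) (nat_lit 0x0) (nat_lit 0x83005dc0040020003b0000000000000000000000000000) := T_39 (nat_lit 116) (nat_lit 115) (nat_lit 2) (nat_lit 10) (nat_lit 7) L102173 (by decide +kernel)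
theorem L102175 : W_39 (nat_lit 10) (nat_lit 0x1c00020021000f80000000000000000000000000000000) (nat_lit 0x0) (nat_lit 0x83005dc0440030003b0000000000000000000000000000) := T_39 (nat_lit 132) (nat_lit 150) (nat_lit 3) (nat_lit 10) (nat_lit 7) L102174 (by decide +kernel)
theorem L102176 : W_39 (nat_lit 11) (nat_lit 0x1c00020001000f80000000000000000000000000000000) (nat_lit 0x0) (nat_lit 0x83005dc0740030003b0000000000000000000000000000) := T_39 (nat_lit 149) (nat_lit 148) (nat_lit 3) (nat_lit 9) (nat_lit 7) L102175 (by decide +kernel)
theorem L102177 : W_39 (nat_lit 12) (nat_lit 0xc00020001000f80000000000000000000000000000000) (nat_lit 0x0) (nat_lit 0xc000f3007dc0740030003b0000000000000000000000000000) := Q_39 (nat_lit 180) (C_39 L102149 (C_39 L102158 (C_39 L102162 (C_39 L102166 (C_39 L102176 N_39))))) (by decide +kernel)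
theorem L102178 : W_39 (nat_lit 13) (nat_lit 0x400020001000f80000000000000000000000000000000) (nat_lit 0x0) (nat_lit 0xd000fb007dc0740030003b0000000000000000000000000000) := T_39 (nat_lit 179) (nat_lit 196) (nat_lit 7) (nat_lit 8) (nat_lit 7) L102177 (by decide +kernel)
theorem L102179 : W_39 (nat_lit 2) (nat_lit 0xc00020001003f80020000000000000000000000000000) (nat_lit 0x0) (nat_lit 0xe0000000000000000000000000000000000000) := D_39 (nat_lit 150) (nat_lit 149) (nat_lit 151) (nat_lit 3) (nat_lit 10) (nat_lit 7) (nat_lit 3) (nat_lit 11) (nat_lit 7) (by decide +kernel)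
theorem L102180 : W_39 (nat_lit 3) (nat_lit 0xc00020001001f80020000000000000000000000000000) (nat_lit 0x0) (nat_lit 0xe0002000010000000000000000000000000000) := T_39 (nat_lit 133) (nat_lit 112) (nat_lit 0) (nat_lit 14) (nat_lit 7) L102179 (by decide +kernel)
theorem L102181 : W_39 (nat_lit 4) (nat_lit 0xc00020001001f80000000000000000000000000000000) (nat_lit 0x0) (nat_lit 0xe0002000070000000000000000000000000000) := T_39 (nat_lit 113) (nat_lit 114) (nat_lit 2) (nat_lit 8) (nat_lit 7) L102180 (by decide +kernel)
theorem L102182 : W_39 (nat_lit 5) (nat_lit 0x400020001001f80000000000000000000000000000000) (nat_lit 0x0) (nat_lit 0x100008000000e0002000070000000000000000000000000000) := T_39 (nat_lit 179) (nat_lit 196) (nat_lit 7) (nat_lit 8) (nat_lit 7) L102181 (by decide +kernel)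
theorem L102183 : W_39 (nat_lit 2) (nat_lit 0xc00020081003f80220000000000000000000000000000) (nat_lit 0x0) (nat_lit 0x100004000400000000000000000000000000000) := D_39 (nat_lit 134) (nat_lit 152) (nat_lit 118) (nat_lit 3) (nat_lit 12) (nat_lit 7) (nat_lit 2) (nat_lit 12) (nat_lit 7) (by decide +kernel)
theorem L102184 : W_39 (nat_lit 3) (nat_lit 0xc00020081003f80020000000000000000000000000000) (nat_lit 0x0) (nat_lit 0x100004000700000000000000000000000000000) := T_39 (nat_lit 117) (nat_lit 116) (nat_lit 2) (nat_lit 11) (nat_lit 7) L102183 (by decide +kernel)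
theorem L102185 : W_39 (nat_lit 4) (nat_lit 0xc00020001003f80020000000000000000000000000000) (nat_lit 0x0) (nat_lit 0x1c0004000700000000000000000000000000000) := T_39 (nat_lit 151) (nat_lit 150) (nat_lit 3) (nat_lit 11) (nat_lit 7) L102184 (by decide +kernel)
theorem L102186 : W_39 (nat_lit 5) (nat_lit 0xc00020001001f80020000000000000000000000000000) (nat_lit 0x0) (nat_lit 0x1c0006000710000000000000000000000000000) := T_39 (nat_lit 133) (nat_lit 112) (nat_lit 0) (nat_lit 14) (nat_lit 7) L102185 (by decide +kernel)
theorem L102187 : W_39 (nat_lit 6) (nat_lit 0xc00020001001f80000000000000000000000000000000) (nat_lit 0x0) (nat_lit 0x1c0006000770000000000000000000000000000) := T_39 (nat_lit 113) (nat_lit 114) (nat_lit 2) (nat_lit 8) (nat_lit 7) L102186 (by decide +kernel)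
theorem L102188 : W_39 (nat_lit 7) (nat_lit 0x400020001001f80000000000000000000000000000000) (nat_lit 0x0) (nat_lit 0x100008000001c0006000770000000000000000000000000000) := T_39 (nat_lit 179) (nat_lit 196) (nat_lit 7) (nat_lit 8) (nat_lit 7) L102187 (by decide +kernel)
theorem L102189 : W_39 (nat_lit 2) (nat_lit 0xc003a0011001f80030001000000000000000000000000) (nat_lit 0x0) (nat_lit 0x3000400000000000000000000000000000000000000000) := D_39 (nat_lit 180) (nat_lit 181) (nat_lit 166) (nat_lit 2) (nat_lit 8) (nat_lit 10) (nat_lit 1) (nat_lit 13) (nat_lit 9) (by decide +kernel)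
theorem L102190 : W_39 (nat_lit 3) (nat_lit 0xc002a0011001f80030001000000000000000000000000) (nat_lit 0x0) (nat_lit 0x3000540000000000000000000000000000000000000000) := T_39 (nat_lit 164) (nat_lit 162) (nat_lit 1) (nat_lit 12) (nat_lit 9) L102189 (by decide +kernel)
theorem L102191 : W_39 (nat_lit 4) (nat_lit 0xc00220011001f80030001000000000000000000000000) (nat_lit 0x0) (nat_lit 0x30005c0004000000000000000000000000000000000000) := T_39 (nat_lit 163) (nat_lit 146) (nat_lit 6) (nat_lit 10) (nat_lit 9) L102190 (by decide +kernel)
theorem L102192 : W_39 (nat_lit 5) (nat_lit 0xc00220011001f80030000000000000000000000000000) (nat_lit 0x0) (nat_lit 0x30005c0004000000000001000080000000000000000000) := T_39 (nat_lit 96) (nat_lit 79) (nat_lit 7) (nat_lit 11) (nat_lit 4) L102191 (by decide +kernel)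
theorem L102193 : W_39 (nat_lit 6) (nat_lit 0xc00020011001f80030000000000000000000000000000) (nat_lit 0x0) (nat_lit 0x70007c0004000000000001000080000000000000000000) := T_39 (nat_lit 165) (nat_lit 182) (nat_lit 4) (nat_lit 12) (nat_lit 10) L102192 (by decide +kernel)
theorem L102194 : W_39 (nat_lit 7) (nat_lit 0xc00020001001f80030000000000000000000000000000) (nat_lit 0x0) (nat_lit 0x70007c0034000000000001000080000000000000000000) := T_39 (nat_lit 148) (nat_lit 149) (nat_lit 3) (nat_lit 9) (nat_lit 7) L102193 (by decide +kernel)
theorem L102195 : W_39 (nat_lit 8) (nat_lit 0x400020001001f80030000000000000000000000000000) (nat_lit 0x0) (nat_lit 0x100078007c0034000000000001000080000000000000000000) := T_39 (nat_lit 179) (nat_lit 196) (nat_lit 7) (nat_lit 8) (nat_lit 7) L102194 (by decide +kernel)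
theorem L102196 : W_39 (nat_lit 9) (nat_lit 0x400020001001f80020000000000000000000000000000) (nat_lit 0x0) (nat_lit 0x100078007c0034002000010001000080000000000000000000) := T_39 (nat_lit 112) (nat_lit 133) (nat_lit 0) (nat_lit 14) (nat_lit 7) L102195 (by decide +kernel)
theorem L102197 : W_39 (nat_lit 10) (nat_lit 0x400020001001f80000000000000000000000000000000) (nat_lit 0x0) (nat_lit 0x100078007c0034002000070001000080000000000000000000) := T_39 (nat_lit 113) (nat_lit 114) (nat_lit 2) (nat_lit 8) (nat_lit 7) L102196 (by decide +kernel)
theorem L102198 : W_39 (nat_lit 11) (nat_lit 0x400020001000f80000000000000000000000000000000) (nat_lit 0x0) (nat_lit 0x100078007c01f4007000770001000080000000000000000000) := Q_39 (nat_lit 132) (C_39 L102146 (C_39 L102182 (C_39 L102188 (C_39 L102197 N_39)))) (by decide +kernel)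
theorem L102199 : W_39 (nat_lit 14) (nat_lit 0x400020001000780000000000000000000000000000000) (nat_lit 0x0) (nat_lit 0xd000fb007dc1f40078007f0001000080000000000000000000) := Q_39 (nat_lit 131) (C_39 L102141 (C_39 L102145 (C_39 L102178 (C_39 L102198 N_39)))) (by decide +kernel)
theorem L102200 : W_39 (nat_lit 2) (nat_lit 0x400020011000780040000000000000000000000000000) (nat_lit 0x0) (nat_lit 0x20000800080000000000000000000000000000) := D_39 (nat_lit 131) (nat_lit 115) (nat_lit 149) (nat_lit 2) (nat_lit 9) (nat_lit 7) (nat_lit 3) (nat_lit 9) (nat_lit 7) (by decide +kernel)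
theorem L102201 : W_39 (nat_lit 3) (nat_lit 0x400020001000780040000000000000000000000000000) (nat_lit 0x0) (nat_lit 0x38000800080000000000000000000000000000) := T_39 (nat_lit 148) (nat_lit 147) (nat_lit 3) (nat_lit 8) (nat_lit 7) L102200 (by decide +kernel)
theorem L102202 : W_39 (nat_lit 4) (nat_lit 0x400020001000780000000000000000000000000000000) (nat_lit 0x0) (nat_lit 0x380008000e0000000000000000000000000000) := T_39 (nat_lit 114) (nat_lit 113) (nat_lit 2) (nat_lit 8) (nat_lit 7) L102201 (by decide +kernel)
theorem L102203 : W_39 (nat_lit 2) (nat_lit 0x16c00120049003f80080000000200000000000000000000) (nat_lit 0x0) (nat_lit 0x80000c0000000000000000000000000000000000000000) := D_39 (nat_lit 163) (nat_lit 162) (nat_lit 183) (nat_lit 3) (nat_lit 8) (nat_lit 9) (nat_lit 0) (nat_lit 14) (nat_lit 10) (by decide +kernel)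
theorem L102204 : W_39 (nat_lit 3) (nat_lit 0x12c00120049003f80080000000200000000000000000000) (nat_lit 0x0) (nat_lit 0x8000c0000c0000000000000000000000000000000000000000) := T_39 (nat_lit 182) (nat_lit 199) (nat_lit 7) (nat_lit 11) (nat_lit 7) L102203 (by decide +kernel)
theorem L102205 : W_39 (nat_lit 4) (nat_lit 0x2c00120049003f80080000000200000000000000000000) (nat_lit 0x0) (nat_lit 0x8001c0008c0000000000000000000000000000000000000000) := T_39 (nat_lit 184) (nat_lit 167) (nat_lit 4) (nat_lit 14) (nat_lit 10) L102204 (by decide +kernel)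
theorem L102206 : W_39 (nat_lit 5) (nat_lit 0x2c00020049003f80080000000200000000000000000000) (nat_lit 0x0) (nat_lit 0x8001c0009c0000000000010000000000000000000000000000) := T_39 (nat_lit 164) (nat_lit 112) (nat_lit 4) (nat_lit 11) (nat_lit 10) L102205 (by decide +kernel)
theorem L102207 : W_39 (nat_lit 6) (nat_lit 0x2c00020049003f80080000000000000000000000000000) (nat_lit 0x0) (nat_lit 0x8001c0009c0000000000010004000200000000000000000000) := T_39 (nat_lit 81) (nat_lit 98) (nat_lit 7) (nat_lit 13) (nat_lit 4) L102206 (by decide +kernel)
theorem L102208 : W_39 (nat_lit 7) (nat_lit 0x2c00020041003f80080000000000000000000000000000) (nat_lit 0x0) (nat_lit 0x8001c0009c000c000000010004000200000000000000000000) := T_39 (nat_lit 147) (nat_lit 146) (nat_lit 1) (nat_lit 14) (nat_lit 7) L102207 (by decide +kernel)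
theorem L102209 : W_39 (nat_lit 8) (nat_lit 0x2c00020041001f80080000000000000000000000000000) (nat_lit 0x0) (nat_lit 0x8001c0009c008c002000010004000200000000000000000000) := T_39 (nat_lit 133) (nat_lit 151) (nat_lit 3) (nat_lit 11) (nat_lit 7) L102208 (by decide +kernel)
theorem L102210 : W_39 (nat_lit 9) (nat_lit 0x2c00020001001f80080000000000000000000000000000) (nat_lit 0x0) (nat_lit 0x8001c0009c00ec002000010004000200000000000000000000) := T_39 (nat_lit 150) (nat_lit 149) (nat_lit 3) (nat_lit 10) (nat_lit 7) L102209 (by decide +kernel)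
theorem L102211 : W_39 (nat_lit 10) (nat_lit 0x2c00020001000f80080000000000000000000000000000) (nat_lit 0x0) (nat_lit 0x8001c0009c00ec003000110004000200000000000000000000) := T_39 (nat_lit 132) (nat_lit 116) (nat_lit 2) (nat_lit 10) (nat_lit 7) L102210 (by decide +kernel)
theorem L102212 : W_39 (nat_lit 2) (nat_lit 0x74001a0049003f80080000000200000000000000000000) (nat_lit 0x0) (nat_lit 0x18000800000000000000000000000000000000000000000) := D_39 (nat_lit 184) (nat_lit 167) (nat_lit 183) (nat_lit 4) (nat_lit 14) (nat_lit 10) (nat_lit 0) (nat_lit 14) (nat_lit 10) (by decide +kernel)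
theorem L102213 : W_39 (nat_lit 3) (nat_lit 0x7400120049003f80080000000200000000000000000000) (nat_lit 0x0) (nat_lit 0x180008c0000000000000000000000000000000000000000) := T_39 (nat_lit 163) (nat_lit 162) (nat_lit 3) (nat_lit 8) (nat_lit 9) L102212 (by decide +kernel)
theorem L102214 : W_39 (nat_lit 4) (nat_lit 0x3400120049003f80080000000200000000000000000000) (nat_lit 0x0) (nat_lit 0x8001c0008c0000000000000000000000000000000000000000) := T_39 (nat_lit 182) (nat_lit 199) (nat_lit 7) (nat_lit 11) (nat_lit 7) L102213 (by decide +kernel)
theorem L102215 : W_39 (nat_lit 5) (nat_lit 0x2400120049003f80080000000200000000000000000000) (nat_lit 0x0) (nat_lit 0xa001d0008c0000000000000000000000000000000000000000) := T_39 (nat_lit 180) (nat_lit 197) (nat_lit 5) (nat_lit 11) (nat_lit 7) L102214 (by decide +kernel)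
theorem L102216 : W_39 (nat_lit 6) (nat_lit 0x2400020049003f80080000000200000000000000000000) (nat_lit 0x0) (nat_lit 0xa001d0009c0000000000010000000000000000000000000000) := T_39 (nat_lit 164) (nat_lit 112) (nat_lit 4) (nat_lit 11) (nat_lit 10) L102215 (by decide +kernel)
theorem L102217 : W_39 (nat_lit 7) (nat_lit 0x2400020049003f80080000000000000000000000000000) (nat_lit 0x0) (nat_lit 0xa001d0009c0000000000010004000200000000000000000000) := T_39 (nat_lit 81) (nat_lit 98) (nat_lit 7) (nat_lit 13) (nat_lit 4) L102216 (by decide +kernel)
theorem L102218 : W_39 (nat_lit 8) (nat_lit 0x2400020041003f80080000000000000000000000000000) (nat_lit 0x0) (nat_lit 0xa001d0009c000c000000010004000200000000000000000000) := T_39 (nat_lit 147) (nat_lit 146) (nat_lit 1) (nat_lit 14) (nat_lit 7) L102217 (by decide +kernel)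
theorem L102219 : W_39 (nat_lit 9) (nat_lit 0x2400020041001f80080000000000000000000000000000) (nat_lit 0x0) (nat_lit 0xa001d0009c008c002000010004000200000000000000000000) := T_39 (nat_lit 133) (nat_lit 151) (nat_lit 3) (nat_lit 11) (nat_lit 7) L102218 (by decide +kernel)
theorem L102220 : W_39 (nat_lit 10) (nat_lit 0x2400020001001f80080000000000000000000000000000) (nat_lit 0x0) (nat_lit 0xa001d0009c00ec002000010004000200000000000000000000) := T_39 (nat_lit 150) (nat_lit 149) (nat_lit 3) (nat_lit 10) (nat_lit 7) L102219 (by decide +kernel)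
theorem L102221 : W_39 (nat_lit 11) (nat_lit 0x2400020001000f80080000000000000000000000000000) (nat_lit 0x0) (nat_lit 0xa001d0009c00ec003000110004000200000000000000000000) := T_39 (nat_lit 132) (nat_lit 116) (nat_lit 2) (nat_lit 10) (nat_lit 7) L102220 (by decide +kernel)
theorem L102222 : W_39 (nat_lit 2) (nat_lit 0x40003e00020001000f80000000000000000000000000000000) (nat_lit 0x0) (nat_lit 0x180004000000000000000000000000000000000000) := D_39 (nat_lit 163) (nat_lit 146) (nat_lit 164) (nat_lit 7) (nat_lit 10) (nat_lit 7) (nat_lit 2) (nat_lit 7) (nat_lit 10) (by decide +kernel)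
theorem L102223 : W_39 (nat_lit 3) (nat_lit 0x40003c00020001000f80000000000000000000000000000000) (nat_lit 0x0) (nat_lit 0x20000200180004000000000000000000000000000000000000) := T_39 (nat_lit 177) (nat_lit 197) (nat_lit 3) (nat_lit 7) (nat_lit 10) L102222 (by decide +kernel)
theorem L102224 : W_39 (nat_lit 4) (nat_lit 0x3c00020001000f80000000000000000000000000000000) (nat_lit 0x0) (nat_lit 0xe0000200180004000000000000000000000000000000000000) := T_39 (nat_lit 198) (nat_lit 199) (nat_lit 3) (nat_lit 8) (nat_lit 10) L102223 (by decide +kernel)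
theorem L102225 : W_39 (nat_lit 2) (nat_lit 0x7c00020001000780000000000000000000000000000000) (nat_lit 0x0) (nat_lit 0x700000000000000000000000000000000000000000) := D_39 (nat_lit 165) (nat_lit 164) (nat_lit 166) (nat_lit 2) (nat_lit 8) (nat_lit 10) (nat_lit 2) (nat_lit 9) (nat_lit 10) (by decide +kernel)
theorem L102226 : W_39 (nat_lit 3) (nat_lit 0x3c00020001000780000000000000000000000000000000) (nat_lit 0x0) (nat_lit 0x4000740000000000000000000000000000000000000000) := T_39 (nat_lit 182) (nat_lit 162) (nat_lit 0) (nat_lit 12) (nat_lit 10) L102225 (by decide +kernel)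
theorem L102227 : W_39 (nat_lit 4) (nat_lit 0x1c00020001000780000000000000000000000000000000) (nat_lit 0x0) (nat_lit 0x6000750000000000000000000000000000000000000000) := T_39 (nat_lit 181) (nat_lit 160) (nat_lit 0) (nat_lit 11) (nat_lit 10) L102226 (by decide +kernel)
theorem L102228 : W_39 (nat_lit 5) (nat_lit 0x1400020001000780000000000000000000000000000000) (nat_lit 0x0) (nat_lit 0x10006800750000000000000000000000000000000000000000) := T_39 (nat_lit 179) (nat_lit 196) (nat_lit 7) (nat_lit 8) (nat_lit 7) L102227 (by decide +kernel)
theorem L102229 : W_39 (nat_lit 2) (nat_lit 0x14001a0001000780020000000000000000000000000000) (nat_lit 0x0) (nat_lit 0xa00040000000000000000000000000000000000000000) := D_39 (nat_lit 177) (nat_lit 179) (nat_lit 162) (nat_lit 2) (nat_lit 7) (nat_lit 10) (nat_lit 1) (nat_lit 11) (nat_lit 9) (by decide +kernel)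
theorem L102230 : W_39 (nat_lit 3) (nat_lit 0x14000a0001000780020000000000000000000000000000) (nat_lit 0x0) (nat_lit 0xa00140008000000000000000000000000000000000000) := T_39 (nat_lit 164) (nat_lit 147) (nat_lit 5) (nat_lit 11) (nat_lit 6) L102229 (by decide +kernel)
theorem L102231 : W_39 (nat_lit 4) (nat_lit 0x1400020001000780020000000000000000000000000000) (nat_lit 0x0) (nat_lit 0xa001c000c000000000000000000000000000000000000) := T_39 (nat_lit 163) (nat_lit 146) (nat_lit 6) (nat_lit 10) (nat_lit 10) L102230 (by decide +kernel)
theorem L102232 : W_39 (nat_lit 5) (nat_lit 0x1400020001000780000000000000000000000000000000) (nat_lit 0x0) (nat_lit 0xa001c000c000000060000000000000000000000000000) := T_39 (nat_lit 113) (nat_lit 114) (nat_lit 2) (nat_lit 8) (nat_lit 7) L102231 (by decide +kernel)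
theorem L102233 : W_39 (nat_lit 2) (nat_lit 0x3c000a0001000780020000000000000000000000000000) (nat_lit 0x0) (nat_lit 0x300008000000000000000000000000000000000000) := D_39 (nat_lit 164) (nat_lit 147) (nat_lit 165) (nat_lit 5) (nat_lit 11) (nat_lit 6) (nat_lit 2) (nat_lit 8) (nat_lit 10) (by decide +kernel)
theorem L102234 : W_39 (nat_lit 3) (nat_lit 0x3c00020001000780020000000000000000000000000000) (nat_lit 0x0) (nat_lit 0x38000c000000000000000000000000000000000000) := T_39 (nat_lit 163) (nat_lit 146) (nat_lit 6) (nat_lit 10) (nat_lit 10) L102233 (by decide +kernel)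
theorem L102235 : W_39 (nat_lit 4) (nat_lit 0x1c00020001000780020000000000000000000000000000) (nat_lit 0x0) (nat_lit 0x200039000c000000000000000000000000000000000000) := T_39 (nat_lit 181) (nat_lit 160) (nat_lit 0) (nat_lit 11) (nat_lit 10) L102234 (by decide +kernel)
theorem L102236 : W_39 (nat_lit 5) (nat_lit 0x1400020001000780020000000000000000000000000000) (nat_lit 0x0) (nat_lit 0x1000280039000c000000000000000000000000000000000000) := T_39 (nat_lit 179) (nat_lit 196) (nat_lit 7) (nat_lit 8) (nat_lit 7) L102235 (by decide +kernel)
theorem L102237 : W_39 (nat_lit 6) (nat_lit 0x1400020001000780000000000000000000000000000000) (nat_lit 0x0) (nat_lit 0x1000280039000c000000060000000000000000000000000000) := T_39 (nat_lit 113) (nat_lit 114) (nat_lit 2) (nat_lit 8) (nat_lit 7) L102236 (by decide +kernel)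
theorem L102238 : W_39 (nat_lit 2) (nat_lit 0x14001e0001000780020000000000000000000000000000) (nat_lit 0x0) (nat_lit 0x6000010000000000000000000000000000000000000000) := D_39 (nat_lit 181) (nat_lit 160) (nat_lit 182) (nat_lit 3) (nat_lit 7) (nat_lit 9) (nat_lit 3) (nat_lit 8) (nat_lit 9) (by decide +kernel)
theorem L102239 : W_39 (nat_lit 3) (nat_lit 0x14001a0001000780020000000000000000000000000000) (nat_lit 0x0) (nat_lit 0x6200050000000000000000000000000000000000000000) := T_39 (nat_lit 162) (nat_lit 177) (nat_lit 1) (nat_lit 11) (nat_lit 9) L102238 (by decide +kernel)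
theorem L102240 : W_39 (nat_lit 4) (nat_lit 0x14000a0001000780020000000000000000000000000000) (nat_lit 0x0) (nat_lit 0x6200150008000000000000000000000000000000000000) := T_39 (nat_lit 164) (nat_lit 147) (nat_lit 5) (nat_lit 11) (nat_lit 6) L102239 (by decide +kernel)
theorem L102241 : W_39 (nat_lit 5) (nat_lit 0x1400020001000780020000000000000000000000000000) (nat_lit 0x0) (nat_lit 0x62001d000c000000000000000000000000000000000000) := T_39 (nat_lit 163) (nat_lit 146) (nat_lit 6) (nat_lit 10) (nat_lit 10) L102240 (by decide +kernel)
theorem L102242 : W_39 (nat_lit 6) (nat_lit 0x1400020001000780000000000000000000000000000000) (nat_lit 0x0) (nat_lit 0x62001d000c000000060000000000000000000000000000) := T_39 (nat_lit 113) (nat_lit 114) (nat_lit 2) (nat_lit 8) (nat_lit 7) L102241 (by decide +kernel)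
theorem L102243 : W_39 (nat_lit 2) (nat_lit 0x40003e000a0001000780020000000000000000000000000000) (nat_lit 0x0) (nat_lit 0x4100040000000000000000000000000000000000000000) := D_39 (nat_lit 162) (nat_lit 182) (nat_lit 176) (nat_lit 0) (nat_lit 12) (nat_lit 10) (nat_lit 2) (nat_lit 6) (nat_lit 10) (by decide +kernel)
theorem L102244 : W_39 (nat_lit 3) (nat_lit 0x40003c000a0001000780020000000000000000000000000000) (nat_lit 0x0) (nat_lit 0x20004300040000000000000000000000000000000000000000) := T_39 (nat_lit 177) (nat_lit 197) (nat_lit 3) (nat_lit 7) (nat_lit 10) L102243 (by decide +kernel)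
theorem L102245 : W_39 (nat_lit 4) (nat_lit 0x3c000a0001000780020000000000000000000000000000) (nat_lit 0x0) (nat_lit 0xe0004300040000000000000000000000000000000000000000) := T_39 (nat_lit 198) (nat_lit 199) (nat_lit 3) (nat_lit 8) (nat_lit 10) L102244 (by decide +kernel)
theorem L102246 : W_39 (nat_lit 5) (nat_lit 0x3c00020001000780020000000000000000000000000000) (nat_lit 0x0) (nat_lit 0xe00043000c0004000000000000000000000000000000000000) := T_39 (nat_lit 163) (nat_lit 146) (nat_lit 6) (nat_lit 10) (nat_lit 10) L102245 (by decide +kernel)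
theorem L102247 : W_39 (nat_lit 6) (nat_lit 0x1c00020001000780020000000000000000000000000000) (nat_lit 0x0) (nat_lit 0xe00063000d0004000000000000000000000000000000000000) := T_39 (nat_lit 181) (nat_lit 160) (nat_lit 0) (nat_lit 11) (nat_lit 10) L102246 (by decide +kernel)
theorem L102248 : W_39 (nat_lit 7) (nat_lit 0x1400020001000780020000000000000000000000000000) (nat_lit 0x0) (nat_lit 0xf0006b000d0004000000000000000000000000000000000000) := T_39 (nat_lit 179) (nat_lit 196) (nat_lit 7) (nat_lit 8) (nat_lit 7) L102247 (by decide +kernel)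
theorem L102249 : W_39 (nat_lit 8) (nat_lit 0x1400020001000780000000000000000000000000000000) (nat_lit 0x0) (nat_lit 0xf0006b000d0004000000060000000000000000000000000000) := T_39 (nat_lit 113) (nat_lit 114) (nat_lit 2) (nat_lit 8) (nat_lit 7) L102248 (by decide +kernel)
theorem L102250 : W_39 (nat_lit 9) (nat_lit 0x400020001000780000000000000000000000000000000) (nat_lit 0x0) (nat_lit 0xf0007b007d000c000000060000000000000000000000000000) := Q_39 (nat_lit 180) (C_39 L102228 (C_39 L102232 (C_39 L102237 (C_39 L102242 (C_39 L102249 N_39))))) (by decide +kernel)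
theorem L102251 : W_39 (nat_lit 2) (nat_lit 0x400020001000f80000000000000000000000000000000) (nat_lit 0x0) (nat_lit 0x38000000000000000000000000000000000000) := D_39 (nat_lit 148) (nat_lit 147) (nat_lit 149) (nat_lit 3) (nat_lit 8) (nat_lit 7) (nat_lit 3) (nat_lit 9) (nat_lit 7) (by decide +kernel)
theorem L102252 : W_39 (nat_lit 12) (nat_lit 0x2400020001000f80000000000000000000000000000000) (nat_lit 0x0) (nat_lit 0xa001d0009c00ec0030001d0004000200000000000000000000) := T_39 (nat_lit 115) (nat_lit 114) (nat_lit 2) (nat_lit 9) (nat_lit 7) L102221 (by decide +kernel)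
theorem L102253 : W_39 (nat_lit 5) (nat_lit 0x2c00020001000f80000000000000000000000000000000) (nat_lit 0x0) (nat_lit 0xe0001200190004000000000000000000000000000000000000) := T_39 (nat_lit 180) (nat_lit 160) (nat_lit 0) (nat_lit 11) (nat_lit 10) L102224 (by decide +kernel)
theorem L102254 : W_39 (nat_lit 6) (nat_lit 0x2400020001000f80000000000000000000000000000000) (nat_lit 0x0) (nat_lit 0xf0001a00190004000000000000000000000000000000000000) := T_39 (nat_lit 179) (nat_lit 196) (nat_lit 7) (nat_lit 8) (nat_lit 7) L102253 (by decide +kernel)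
theorem L102255 : W_39 (nat_lit 11) (nat_lit 0x2c00020001000f80000000000000000000000000000000) (nat_lit 0x0) (nat_lit 0x8001c0009c00ec0030001d0004000200000000000000000000) := T_39 (nat_lit 115) (nat_lit 114) (nat_lit 2) (nat_lit 9) (nat_lit 7) L102211 (by decide +kernel)
theorem L102256 : W_39 (nat_lit 12) (nat_lit 0x2400020001000f80000000000000000000000000000000) (nat_lit 0x0) (nat_lit 0x9001c8009c00ec0030001d0004000200000000000000000000) := T_39 (nat_lit 179) (nat_lit 196) (nat_lit 7) (nat_lit 8) (nat_lit 7) L102255 (by decide +kernel)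
theorem L102257 : W_39 (nat_lit 2) (nat_lit 0x3c00020001000f80040000000000000000000000000000) (nat_lit 0x0) (nat_lit 0x300008000000000000000000000000000000000000) := D_39 (nat_lit 164) (nat_lit 147) (nat_lit 165) (nat_lit 6) (nat_lit 11) (nat_lit 10) (nat_lit 2) (nat_lit 8) (nat_lit 10) (by decide +kernel)
theorem L102258 : W_39 (nat_lit 3) (nat_lit 0x2c00020001000f80040000000000000000000000000000) (nat_lit 0x0) (nat_lit 0x1000310008000000000000000000000000000000000000) := T_39 (nat_lit 180) (nat_lit 160) (nat_lit 0) (nat_lit 11) (nat_lit 10) L102257 (by decide +kernel)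
theorem L102259 : W_39 (nat_lit 4) (nat_lit 0x2400020001000f80040000000000000000000000000000) (nat_lit 0x0) (nat_lit 0x10001800310008000000000000000000000000000000000000) := T_39 (nat_lit 179) (nat_lit 196) (nat_lit 7) (nat_lit 8) (nat_lit 7) L102258 (by decide +kernel)
theorem L102260 : W_39 (nat_lit 5) (nat_lit 0x2400020001000f80000000000000000000000000000000) (nat_lit 0x0) (nat_lit 0x100018003100080000000c0000000000000000000000000000) := T_39 (nat_lit 114) (nat_lit 115) (nat_lit 2) (nat_lit 9) (nat_lit 7) L102259 (by decide +kernel)
theorem L102261 : W_39 (nat_lit 2) (nat_lit 0x7c00020001000f80040000000000000000000000000000) (nat_lit 0x0) (nat_lit 0x1c0000000000000000000000000000000000000000000000000) := D_39 (nat_lit 199) (nat_lit 198) (nat_lit 200) (nat_lit 3) (nat_lit 8) (nat_lit 10) (nat_lit 3) (nat_lit 9) (nat_lit 10) (by decide +kernel)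
theorem L102262 : W_39 (nat_lit 3) (nat_lit 0x3c00020001000f80040000000000000000000000000000) (nat_lit 0x0) (nat_lit 0x1c0004000040000000000000000000000000000000000000000) := T_39 (nat_lit 182) (nat_lit 162) (nat_lit 0) (nat_lit 12) (nat_lit 10) L102261 (by decide +kernel)
theorem L102263 : W_39 (nat_lit 4) (nat_lit 0x2c00020001000f80040000000000000000000000000000) (nat_lit 0x0) (nat_lit 0x1c0005000050000000000000000000000000000000000000000) := T_39 (nat_lit 180) (nat_lit 160) (nat_lit 0) (nat_lit 11) (nat_lit 10) L102262 (by decide +kernel)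
theorem L102264 : W_39 (nat_lit 5) (nat_lit 0x2400020001000f80040000000000000000000000000000) (nat_lit 0x0) (nat_lit 0x1d0005800050000000000000000000000000000000000000000) := T_39 (nat_lit 179) (nat_lit 196) (nat_lit 7) (nat_lit 8) (nat_lit 7) L102263 (by decide +kernel)
theorem L102265 : W_39 (nat_lit 6) (nat_lit 0x2400020001000f80000000000000000000000000000000) (nat_lit 0x0) (nat_lit 0x1d00058000500000000000c0000000000000000000000000000) := T_39 (nat_lit 114) (nat_lit 115) (nat_lit 2) (nat_lit 9) (nat_lit 7) L102264 (by decide +kernel)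
theorem L102266 : W_39 (nat_lit 13) (nat_lit 0x400020001000f80000000000000000000000000000000) (nat_lit 0x0) (nat_lit 0x1f001fa00bd00ec0030001d0004000200000000000000000000) := Q_39 (nat_lit 181) (C_39 L102252 (C_39 L102254 (C_39 L102256 (C_39 L102260 (C_39 L102265 N_39))))) (by decide +kernel)
theorem L102267 : W_39 (nat_lit 7) (nat_lit 0xc00020009000f80000000000000000000000000000000) (nat_lit 0x0) (nat_lit 0x1c00070001500000000000c0002000100000000000000000000) := T_39 (nat_lit 114) (nat_lit 115) (nat_lit 2) (nat_lit 9) (nat_lit 7) L102132 (by decide +kernel)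
theorem L102268 : W_39 (nat_lit 8) (nat_lit 0xc00020001000f80000000000000000000000000000000) (nat_lit 0x0) (nat_lit 0x1c00070001500180000000c0002000100000000000000000000) := T_39 (nat_lit 147) (nat_lit 148) (nat_lit 3) (nat_lit 8) (nat_lit 7) L102267 (by decide +kernel)
theorem L102269 : W_39 (nat_lit 9) (nat_lit 0x400020001000f80000000000000000000000000000000) (nat_lit 0x0) (nat_lit 0x1d00078001500180000000c0002000100000000000000000000) := T_39 (nat_lit 179) (nat_lit 196) (nat_lit 7) (nat_lit 8) (nat_lit 7) L102268 (by decide +kernel)
theorem L102270 : W_39 (nat_lit 14) (nat_lit 0x400020001000780000000000000000000000000000000) (nat_lit 0x0) (nat_lit 0x1f001fa00bd00fc0038001d0006000300000000000000000000) := Q_39 (nat_lit 131) (C_39 L102251 (C_39 L102145 (C_39 L102266 (C_39 L102269 N_39)))) (by decide +kernel)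
theorem L102271 : W_39 (nat_lit 2) (nat_lit 0x1e000a0001000780000000000000000000000000000000) (nat_lit 0x0) (nat_lit 0x2000018000000000000000000000000000000000000000) := D_39 (nat_lit 160) (nat_lit 181) (nat_lit 159) (nat_lit 0) (nat_lit 11) (nat_lit 10) (nat_lit 0) (nat_lit 10) (nat_lit 10) (by decide +kernel)
theorem L102272 : W_39 (nat_lit 3) (nat_lit 0x1c000a0001000780000000000000000000000000000000) (nat_lit 0x0) (nat_lit 0x2200118000000000000000000000000000000000000000) := T_39 (nat_lit 177) (nat_lit 164) (nat_lit 2) (nat_lit 7) (nat_lit 10) L102271 (by decide +kernel)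
theorem L102273 : W_39 (nat_lit 4) (nat_lit 0x14000a0001000780000000000000000000000000000000) (nat_lit 0x0) (nat_lit 0x10002a00118000000000000000000000000000000000000000) := T_39 (nat_lit 179) (nat_lit 196) (nat_lit 7) (nat_lit 8) (nat_lit 7) L102272 (by decide +kernel)
theorem L102274 : W_39 (nat_lit 2) (nat_lit 0x200014000a0005000780000000000000000000000000000000) (nat_lit 0x0) (nat_lit 0x800040002000000000000000000000000000000000000000000000) := D_39 (nat_lit 198) (nat_lit 215) (nat_lit 181) (nat_lit 7) (nat_lit 10) (nat_lit 8) (nat_lit 7) (nat_lit 10) (nat_lit 7) (by decide +kernel)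
theorem L102275 : W_39 (nat_lit 3) (nat_lit 0x14000a0005000780000000000000000000000000000000) (nat_lit 0x0) (nat_lit 0x800060002000000008000000000000000000000000000000000000) := T_39 (nat_lit 197) (nat_lit 147) (nat_lit 6) (nat_lit 10) (nat_lit 11) L102274 (by decide +kernel)
theorem L102276 : W_39 (nat_lit 4) (nat_lit 0x14000a0001000780000000000000000000000000000000) (nat_lit 0x0) (nat_lit 0x80006000200000000c000000020000000000000000000000000000) := T_39 (nat_lit 146) (nat_lit 113) (nat_lit 6) (nat_lit 10) (nat_lit 10) L102275 (by decide +kernel)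
theorem L102277 : W_39 (nat_lit 2) (nat_lit 0x1f000a0001000780000000000000000000000000000000) (nat_lit 0x0) (nat_lit 0x1c000000000000000000000000000000000000000) := D_39 (nat_lit 159) (nat_lit 158) (nat_lit 160) (nat_lit 0) (nat_lit 9) (nat_lit 10) (nat_lit 0) (nat_lit 10) (nat_lit 10) (by decide +kernel)
theorem L102278 : W_39 (nat_lit 3) (nat_lit 0x1e000a0001000780000000000000000000000000000000) (nat_lit 0x0) (nat_lit 0x10005c000000000000000000000000000000000000000) := T_39 (nat_lit 176) (nat_lit 162) (nat_lit 2) (nat_lit 6) (nat_lit 10) L102277 (by decide +kernel)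
theorem L102279 : W_39 (nat_lit 4) (nat_lit 0x1c000a0001000780000000000000000000000000000000) (nat_lit 0x0) (nat_lit 0x30015c000000000000000000000000000000000000000) := T_39 (nat_lit 177) (nat_lit 164) (nat_lit 2) (nat_lit 7) (nat_lit 10) L102278 (by decide +kernel)
theorem L102280 : W_39 (nat_lit 5) (nat_lit 0x14000a0001000780000000000000000000000000000000) (nat_lit 0x0) (nat_lit 0x10000b0015c000000000000000000000000000000000000000) := T_39 (nat_lit 179) (nat_lit 196) (nat_lit 7) (nat_lit 8) (nat_lit 7) L102279 (by decide +kernel)
theorem L102281 : W_39 (nat_lit 6) (nat_lit 0x4000a0001000780000000000000000000000000000000) (nat_lit 0x0) (nat_lit 0x800070003b0015c00c000000020000000000000000000000000000) := Q_39 (nat_lit 180) (C_39 L102273 (C_39 L102276 (C_39 L102280 N_39))) (by decide +kernel)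
theorem L102282 : W_39 (nat_lit 2) (nat_lit 0x4003e0001000780000000000000000000000000000000) (nat_lit 0x0) (nat_lit 0xe000000000000000000000000000000000000000000000) := D_39 (nat_lit 182) (nat_lit 181) (nat_lit 183) (nat_lit 3) (nat_lit 8) (nat_lit 9) (nat_lit 3) (nat_lit 9) (nat_lit 9) (by decide +kernel)
theorem L102283 : W_39 (nat_lit 3) (nat_lit 0x4001e0001000780000000000000000000000000000000) (nat_lit 0x0) (nat_lit 0xe800200000000000000000000000000000000000000000) := T_39 (nat_lit 165) (nat_lit 179) (nat_lit 1) (nat_lit 12) (nat_lit 9) L102282 (by decide +kernel)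
theorem L102284 : W_39 (nat_lit 4) (nat_lit 0x4001a0001000780000000000000000000000000000000) (nat_lit 0x0) (nat_lit 0xea00240000000000000000000000000000000000000000) := T_39 (nat_lit 162) (nat_lit 177) (nat_lit 1) (nat_lit 11) (nat_lit 9) L102283 (by decide +kernel)
theorem L102285 : W_39 (nat_lit 2) (nat_lit 0x4001a0009000780020000000000000000000000000000) (nat_lit 0x0) (nat_lit 0x2000000000000000010000800000000000000000000000) := D_39 (nat_lit 112) (nat_lit 181) (nat_lit 95) (nat_lit 4) (nat_lit 11) (nat_lit 10) (nat_lit 4) (nat_lit 11) (nat_lit 9) (by decide +kernel)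
theorem L102286 : W_39 (nat_lit 3) (nat_lit 0x4001a0009000780000000000000000000000000000000) (nat_lit 0x0) (nat_lit 0x3000000000000000030000800000000000000000000000) := T_39 (nat_lit 113) (nat_lit 180) (nat_lit 5) (nat_lit 11) (nat_lit 6) L102285 (by decide +kernel)
theorem L102287 : W_39 (nat_lit 4) (nat_lit 0x4001a0001000780000000000000000000000000000000) (nat_lit 0x0) (nat_lit 0x3000000018000000030000800000000000000000000000) := T_39 (nat_lit 147) (nat_lit 148) (nat_lit 3) (nat_lit 8) (nat_lit 7) L102286 (by decide +kernel)
theorem L102288 : W_39 (nat_lit 2) (nat_lit 0x4001e0009000780020000000000000000000000000000) (nat_lit 0x0) (nat_lit 0x10004000000000001000000000000000000000000) := D_39 (nat_lit 146) (nat_lit 160) (nat_lit 96) (nat_lit 2) (nat_lit 7) (nat_lit 9) (nat_lit 5) (nat_lit 11) (nat_lit 5) (by decide +kernel)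
theorem L102289 : W_39 (nat_lit 3) (nat_lit 0x4001e0009000780000000000000000000000000000000) (nat_lit 0x0) (nat_lit 0x1000010004000000020001000000000000000000000000) := T_39 (nat_lit 113) (nat_lit 180) (nat_lit 5) (nat_lit 11) (nat_lit 6) L102288 (by decide +kernel)
theorem L102290 : W_39 (nat_lit 4) (nat_lit 0x4001a0009000780000000000000000000000000000000) (nat_lit 0x0) (nat_lit 0x1200050004000000020001000000000000000000000000) := T_39 (nat_lit 162) (nat_lit 177) (nat_lit 1) (nat_lit 11) (nat_lit 9) L102289 (by decide +kernel)
theorem L102291 : W_39 (nat_lit 5) (nat_lit 0x4001a0001000780000000000000000000000000000000) (nat_lit 0x0) (nat_lit 0x120005001c000000020001000000000000000000000000) := T_39 (nat_lit 147) (nat_lit 148) (nat_lit 3) (nat_lit 8) (nat_lit 7) L102290 (by decide +kernel)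
theorem L102292 : W_39 (nat_lit 6) (nat_lit 0x4000a0001000780000000000000000000000000000000) (nat_lit 0x0) (nat_lit 0xfa0035001c000000030001800000000000000000000000) := Q_39 (nat_lit 164) (C_39 L102284 (C_39 L102287 (C_39 L102291 N_39))) (by decide +kernel)
theorem L102293 : W_39 (nat_lit 4) (nat_lit 0x4000e0001000780000000000000000000000000000000) (nat_lit 0x0) (nat_lit 0xea00300000000000000000000000000000000000000000) := T_39 (nat_lit 164) (nat_lit 177) (nat_lit 1) (nat_lit 11) (nat_lit 9) L102283 (by decide +kernel)
theorem L102294 : W_39 (nat_lit 2) (nat_lit 0x4001e0009000780000000000000000000000000000000) (nat_lit 0x0) (nat_lit 0x6000000000000000010000000000000000000000000000) := D_39 (nat_lit 181) (nat_lit 182) (nat_lit 112) (nat_lit 3) (nat_lit 8) (nat_lit 9) (nat_lit 4) (nat_lit 11) (nat_lit 10) (by decide +kernel)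
theorem L102295 : W_39 (nat_lit 3) (nat_lit 0x4000e0009000780000000000000000000000000000000) (nat_lit 0x0) (nat_lit 0x6200100000000000010000000000000000000000000000) := T_39 (nat_lit 164) (nat_lit 177) (nat_lit 1) (nat_lit 11) (nat_lit 9) L102294 (by decide +kernel)
theorem L102296 : W_39 (nat_lit 4) (nat_lit 0x4000e0001000780000000000000000000000000000000) (nat_lit 0x0) (nat_lit 0x6200100018000000010000000000000000000000000000) := T_39 (nat_lit 147) (nat_lit 148) (nat_lit 3) (nat_lit 8) (nat_lit 7) L102295 (by decide +kernel)
theorem L102297 : W_39 (nat_lit 2) (nat_lit 0xc000e0009000780000000000000000000000000000000) (nat_lit 0x0) (nat_lit 0x10004000000010000000000000000000000000000) := D_39 (nat_lit 146) (nat_lit 112) (nat_lit 160) (nat_lit 5) (nat_lit 10) (nat_lit 6) (nat_lit 2) (nat_lit 7) (nat_lit 9) (by decide +kernel)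
theorem L102298 : W_39 (nat_lit 3) (nat_lit 0x4000e0009000780000000000000000000000000000000) (nat_lit 0x0) (nat_lit 0x10000800010004000000010000000000000000000000000000) := T_39 (nat_lit 179) (nat_lit 196) (nat_lit 7) (nat_lit 8) (nat_lit 7) L102297 (by decide +kernel)
theorem L102299 : W_39 (nat_lit 4) (nat_lit 0x4000e0001000780000000000000000000000000000000) (nat_lit 0x0) (nat_lit 0x1000080001001c000000010000000000000000000000000000) := T_39 (nat_lit 147) (nat_lit 148) (nat_lit 3) (nat_lit 8) (nat_lit 7) L102298 (by decide +kernel)
theorem L102300 : W_39 (nat_lit 5) (nat_lit 0x4000a0001000780000000000000000000000000000000) (nat_lit 0x0) (nat_lit 0x1000ea0035001c000000010000000000000000000000000000) := Q_39 (nat_lit 162) (C_39 L102293 (C_39 L102296 (C_39 L102299 N_39))) (by decide +kernel)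
theorem L102301 : W_39 (nat_lit 2) (nat_lit 0x4001e0001000780000000000000000000000000000000) (nat_lit 0x0) (nat_lit 0x10000800200000000000000000000000000000000000000000) := D_39 (nat_lit 179) (nat_lit 196) (nat_lit 165) (nat_lit 7) (nat_lit 8) (nat_lit 7) (nat_lit 1) (nat_lit 12) (nat_lit 9) (by decide +kernel)
theorem L102302 : W_39 (nat_lit 3) (nat_lit 0x4001a0001000780000000000000000000000000000000) (nat_lit 0x0) (nat_lit 0x10000a00240000000000000000000000000000000000000000) := T_39 (nat_lit 162) (nat_lit 177) (nat_lit 1) (nat_lit 11) (nat_lit 9) L102301 (by decide +kernel)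
theorem L102303 : W_39 (nat_lit 5) (nat_lit 0x4000a0001000780000000000000000000000000000000) (nat_lit 0x0) (nat_lit 0x1000fa00340018000000030000800000000000000000000000) := Q_39 (nat_lit 164) (C_39 L102284 (C_39 L102287 (C_39 L102302 N_39))) (by decide +kernel)
theorem L102304 : W_39 (nat_lit 2) (nat_lit 0x14000a0005000780000000000000000000000000000000) (nat_lit 0x0) (nat_lit 0x20000000000018000000000000000000000000000000000000) := D_39 (nat_lit 147) (nat_lit 197) (nat_lit 148) (nat_lit 6) (nat_lit 10) (nat_lit 11) (nat_lit 3) (nat_lit 8) (nat_lit 7) (by decide +kernel)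
theorem L102305 : W_39 (nat_lit 3) (nat_lit 0x14000a0001000780000000000000000000000000000000) (nat_lit 0x0) (nat_lit 0x2000000000001c000000020000000000000000000000000000) := T_39 (nat_lit 146) (nat_lit 113) (nat_lit 6) (nat_lit 10) (nat_lit 10) L102304 (by decide +kernel)
theorem L102306 : W_39 (nat_lit 5) (nat_lit 0x4000a0001000780000000000000000000000000000000) (nat_lit 0x0) (nat_lit 0x800070003a0011801c000000020000000000000000000000000000) := Q_39 (nat_lit 180) (C_39 L102273 (C_39 L102276 (C_39 L102305 N_39))) (by decide +kernel)
theorem L102307 : W_39 (nat_lit 2) (nat_lit 0x34001e0001000780000000000000000000000000000000) (nat_lit 0x0) (nat_lit 0x40000000000004000000010000000000000000000000000000) := D_39 (nat_lit 146) (nat_lit 112) (nat_lit 198) (nat_lit 7) (nat_lit 10) (nat_lit 6) (nat_lit 7) (nat_lit 10) (nat_lit 7) (by decide +kernel)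
theorem L102308 : W_39 (nat_lit 3) (nat_lit 0x24001e0001000780000000000000000000000000000000) (nat_lit 0x0) (nat_lit 0x40001000010004000000010000000000000000000000000000) := T_39 (nat_lit 180) (nat_lit 160) (nat_lit 3) (nat_lit 7) (nat_lit 9) L102307 (by decide +kernel)
theorem L102309 : W_39 (nat_lit 4) (nat_lit 0x4001e0001000780000000000000000000000000000000) (nat_lit 0x0) (nat_lit 0x40007000010004000000010000000000000000000000000000) := T_39 (nat_lit 181) (nat_lit 182) (nat_lit 3) (nat_lit 8) (nat_lit 9) L102308 (by decide +kernel)
theorem L102310 : W_39 (nat_lit 5) (nat_lit 0x4000e0001000780000000000000000000000000000000) (nat_lit 0x0) (nat_lit 0x40007200110004000000010000000000000000000000000000) := T_39 (nat_lit 164) (nat_lit 177) (nat_lit 1) (nat_lit 11) (nat_lit 9) L102309 (by decide +kernel)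
theorem L102311 : W_39 (nat_lit 2) (nat_lit 0x1d000e0005000780000000000000000000000000000000) (nat_lit 0x0) (nat_lit 0x40002000010000000000000000000000000000000000000000) := D_39 (nat_lit 181) (nat_lit 198) (nat_lit 160) (nat_lit 7) (nat_lit 10) (nat_lit 7) (nat_lit 3) (nat_lit 7) (nat_lit 9) (by decide +kernel)
theorem L102312 : W_39 (nat_lit 3) (nat_lit 0xd000e0005000780000000000000000000000000000000) (nat_lit 0x0) (nat_lit 0x40003000010000000000020000000000000000000000000000) := T_39 (nat_lit 180) (nat_lit 113) (nat_lit 6) (nat_lit 10) (nat_lit 10) L102311 (by decide +kernel)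
theorem L102313 : W_39 (nat_lit 4) (nat_lit 0xc000e0005000780000000000000000000000000000000) (nat_lit 0x0) (nat_lit 0x40003300010000000000020000000000000000000000000000) := T_39 (nat_lit 176) (nat_lit 177) (nat_lit 2) (nat_lit 6) (nat_lit 10) L102312 (by decide +kernel)
theorem L102314 : W_39 (nat_lit 5) (nat_lit 0xc000e0001000780000000000000000000000000000000) (nat_lit 0x0) (nat_lit 0x40003300010004000000030000000000000000000000000000) := T_39 (nat_lit 146) (nat_lit 112) (nat_lit 5) (nat_lit 10) (nat_lit 6) L102313 (by decide +kernel)
theorem L102315 : W_39 (nat_lit 6) (nat_lit 0x4000e0001000780000000000000000000000000000000) (nat_lit 0x0) (nat_lit 0x50003b00010004000000030000000000000000000000000000) := T_39 (nat_lit 179) (nat_lit 196) (nat_lit 7) (nat_lit 8) (nat_lit 7) L102314 (by decide +kernel)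
theorem L102316 : W_39 (nat_lit 2) (nat_lit 0xc000e0001000780000000000000000000000000000000) (nat_lit 0x0) (nat_lit 0x200300000000000000000000000000000000000000000) := D_39 (nat_lit 164) (nat_lit 177) (nat_lit 165) (nat_lit 1) (nat_lit 11) (nat_lit 9) (nat_lit 1) (nat_lit 12) (nat_lit 9) (by decide +kernel)
theorem L102317 : W_39 (nat_lit 3) (nat_lit 0x4000e0001000780000000000000000000000000000000) (nat_lit 0x0) (nat_lit 0x10000a00300000000000000000000000000000000000000000) := T_39 (nat_lit 179) (nat_lit 196) (nat_lit 7) (nat_lit 8) (nat_lit 7) L102316 (by decide +kernel)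
theorem L102318 : W_39 (nat_lit 2) (nat_lit 0x1c002e0005000780000000000000000000000000000000) (nat_lit 0x0) (nat_lit 0x40002000010000000000000000000000000000000000000000) := D_39 (nat_lit 181) (nat_lit 198) (nat_lit 160) (nat_lit 7) (nat_lit 10) (nat_lit 7) (nat_lit 3) (nat_lit 7) (nat_lit 9) (by decide +kernel)
theorem L102319 : W_39 (nat_lit 3) (nat_lit 0xc002e0005000780000000000000000000000000000000) (nat_lit 0x0) (nat_lit 0x40003000010000000000020000000000000000000000000000) := T_39 (nat_lit 180) (nat_lit 113) (nat_lit 6) (nat_lit 10) (nat_lit 10) L102318 (by decide +kernel)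
theorem L102320 : W_39 (nat_lit 4) (nat_lit 0xc000e0005000780000000000000000000000000000000) (nat_lit 0x0) (nat_lit 0x40003000310000000000020000000000000000000000000000) := T_39 (nat_lit 165) (nat_lit 164) (nat_lit 1) (nat_lit 12) (nat_lit 9) L102319 (by decide +kernel)
theorem L102321 : W_39 (nat_lit 5) (nat_lit 0xc000e0001000780000000000000000000000000000000) (nat_lit 0x0) (nat_lit 0x40003000310004000000030000000000000000000000000000) := T_39 (nat_lit 146) (nat_lit 112) (nat_lit 5) (nat_lit 10) (nat_lit 6) L102320 (by decide +kernel)
theorem L102322 : W_39 (nat_lit 6) (nat_lit 0x4000e0001000780000000000000000000000000000000) (nat_lit 0x0) (nat_lit 0x50003800310004000000030000000000000000000000000000) := T_39 (nat_lit 179) (nat_lit 196) (nat_lit 7) (nat_lit 8) (nat_lit 7) L102321 (by decide +kernel)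
theorem L102323 : W_39 (nat_lit 7) (nat_lit 0x4000a0001000780000000000000000000000000000000) (nat_lit 0x0) (nat_lit 0x5000fb00350004000000030000000000000000000000000000) := Q_39 (nat_lit 162) (C_39 L102293 (C_39 L102310 (C_39 L102315 (C_39 L102317 (C_39 L102322 N_39))))) (by decide +kernel)
theorem L102324 : W_39 (nat_lit 2) (nat_lit 0x34000e0005000780000000000000000000000000000000) (nat_lit 0x0) (nat_lit 0x200100000000000010000000000000000000000000000) := D_39 (nat_lit 164) (nat_lit 112) (nat_lit 177) (nat_lit 7) (nat_lit 10) (nat_lit 6) (nat_lit 1) (nat_lit 11) (nat_lit 9) (by decide +kernel)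
theorem L102325 : W_39 (nat_lit 3) (nat_lit 0x34000a0005000780000000000000000000000000000000) (nat_lit 0x0) (nat_lit 0x200150000000000010000000000000000000000000000) := T_39 (nat_lit 162) (nat_lit 160) (nat_lit 3) (nat_lit 7) (nat_lit 9) L102324 (by decide +kernel)
theorem L102326 : W_39 (nat_lit 4) (nat_lit 0x14000a0005000780000000000000000000000000000000) (nat_lit 0x0) (nat_lit 0x40002200150000000000010000000000000000000000000000) := T_39 (nat_lit 181) (nat_lit 198) (nat_lit 7) (nat_lit 10) (nat_lit 7) L102325 (by decide +kernel)
theorem L102327 : W_39 (nat_lit 5) (nat_lit 0x4000a0005000780000000000000000000000000000000) (nat_lit 0x0) (nat_lit 0x40003200150000000000030000000000000000000000000000) := T_39 (nat_lit 180) (nat_lit 113) (nat_lit 6) (nat_lit 10) (nat_lit 10) L102326 (by decide +kernel)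
theorem L102328 : W_39 (nat_lit 2) (nat_lit 0x4001e000d000780000001000000000000000000000000) (nat_lit 0x0) (nat_lit 0x40006000000000000000000000000000000000000000000000) := D_39 (nat_lit 181) (nat_lit 182) (nat_lit 198) (nat_lit 3) (nat_lit 8) (nat_lit 9) (nat_lit 4) (nat_lit 11) (nat_lit 11) (by decide +kernel)
theorem L102329 : W_39 (nat_lit 3) (nat_lit 0x4000e000d000780000001000000000000000000000000) (nat_lit 0x0) (nat_lit 0x40006200100000000000000000000000000000000000000000) := T_39 (nat_lit 164) (nat_lit 177) (nat_lit 1) (nat_lit 11) (nat_lit 9) L102328 (by decide +kernel)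
theorem L102330 : W_39 (nat_lit 4) (nat_lit 0x4000a000d000780000001000000000000000000000000) (nat_lit 0x0) (nat_lit 0x40006200150000000000000000000000000000000000000000) := T_39 (nat_lit 162) (nat_lit 160) (nat_lit 2) (nat_lit 7) (nat_lit 9) L102329 (by decide +kernel)
theorem L102331 : W_39 (nat_lit 5) (nat_lit 0x4000a000d000780000000000000000000000000000000) (nat_lit 0x0) (nat_lit 0x40006200150000000000020001000000000000000000000000) := T_39 (nat_lit 96) (nat_lit 113) (nat_lit 5) (nat_lit 11) (nat_lit 5) L102330 (by decide +kernel)
theorem L102332 : W_39 (nat_lit 6) (nat_lit 0x4000a0005000780000000000000000000000000000000) (nat_lit 0x0) (nat_lit 0x40006200150018000000020001000000000000000000000000) := T_39 (nat_lit 147) (nat_lit 148) (nat_lit 3) (nat_lit 8) (nat_lit 7) L102331 (by decide +kernel)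
theorem L102333 : W_39 (nat_lit 2) (nat_lit 0x4000a000d000780000000000000000000000000000000) (nat_lit 0x0) (nat_lit 0x20001000000000000000020000000000000000000000000000) := D_39 (nat_lit 180) (nat_lit 197) (nat_lit 113) (nat_lit 6) (nat_lit 10) (nat_lit 11) (nat_lit 6) (nat_lit 10) (nat_lit 10) (by decide +kernel)
theorem L102334 : W_39 (nat_lit 3) (nat_lit 0x4000a0005000780000000000000000000000000000000) (nat_lit 0x0) (nat_lit 0x20001000000018000000020000000000000000000000000000) := T_39 (nat_lit 147) (nat_lit 148) (nat_lit 3) (nat_lit 8) (nat_lit 7) L102333 (by decide +kernel)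
theorem L102335 : W_39 (nat_lit 2) (nat_lit 0x200004001e000d000780000000000000000000000000000000) (nat_lit 0x0) (nat_lit 0x40006000000000000000000000000000000000000000000000) := D_39 (nat_lit 181) (nat_lit 182) (nat_lit 198) (nat_lit 3) (nat_lit 8) (nat_lit 9) (nat_lit 4) (nat_lit 11) (nat_lit 11) (by decide +kernel)
theorem L102336 : W_39 (nat_lit 3) (nat_lit 0x200004000e000d000780000000000000000000000000000000) (nat_lit 0x0) (nat_lit 0x40006200100000000000000000000000000000000000000000) := T_39 (nat_lit 164) (nat_lit 177) (nat_lit 1) (nat_lit 11) (nat_lit 9) L102335 (by decide +kernel)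
theorem L102337 : W_39 (nat_lit 4) (nat_lit 0x200004000a000d000780000000000000000000000000000000) (nat_lit 0x0) (nat_lit 0x40006200150000000000000000000000000000000000000000) := T_39 (nat_lit 162) (nat_lit 160) (nat_lit 2) (nat_lit 7) (nat_lit 9) L102336 (by decide +kernel)
theorem L102338 : W_39 (nat_lit 5) (nat_lit 0x4000a000d000780000000000000000000000000000000) (nat_lit 0x0) (nat_lit 0x60007200150000000000000000000000000000000000000000) := T_39 (nat_lit 197) (nat_lit 180) (nat_lit 6) (nat_lit 10) (nat_lit 11) L102337 (by decide +kernel)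
theorem L102339 : W_39 (nat_lit 6) (nat_lit 0x4000a0005000780000000000000000000000000000000) (nat_lit 0x0) (nat_lit 0x60007200150018000000000000000000000000000000000000) := T_39 (nat_lit 147) (nat_lit 148) (nat_lit 3) (nat_lit 8) (nat_lit 7) L102338 (by decide +kernel)
theorem L102340 : W_39 (nat_lit 7) (nat_lit 0x4000a0001000780000000000000000000000000000000) (nat_lit 0x0) (nat_lit 0x6000720015001c000000030001000000000000000000000000) := Q_39 (nat_lit 146) (C_39 L102327 (C_39 L102332 (C_39 L102334 (C_39 L102339 N_39)))) (by decide +kernel)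
theorem L102341 : W_39 (nat_lit 2) (nat_lit 0x34000a0005000780000000000000000000000000000000) (nat_lit 0x0) (nat_lit 0x800050000000000000000000000000000000000000000) := D_39 (nat_lit 160) (nat_lit 162) (nat_lit 179) (nat_lit 3) (nat_lit 7) (nat_lit 9) (nat_lit 0) (nat_lit 11) (nat_lit 10) (by decide +kernel)
theorem L102342 : W_39 (nat_lit 3) (nat_lit 0x14000a0005000780000000000000000000000000000000) (nat_lit 0x0) (nat_lit 0x40002800050000000000000000000000000000000000000000) := T_39 (nat_lit 181) (nat_lit 198) (nat_lit 7) (nat_lit 10) (nat_lit 7) L102341 (by decide +kernel)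
theorem L102343 : W_39 (nat_lit 4) (nat_lit 0x4000a0005000780000000000000000000000000000000) (nat_lit 0x0) (nat_lit 0x40003800050000000000020000000000000000000000000000) := T_39 (nat_lit 180) (nat_lit 113) (nat_lit 6) (nat_lit 10) (nat_lit 10) L102342 (by decide +kernel)
theorem L102344 : W_39 (nat_lit 2) (nat_lit 0xc000a000d000780010000800000000000000000000000) (nat_lit 0x0) (nat_lit 0x20001000080000000000000000000) := D_39 (nat_lit 96) (nat_lit 113) (nat_lit 79) (nat_lit 6) (nat_lit 10) (nat_lit 9) (nat_lit 6) (nat_lit 10) (nat_lit 8) (by decide +kernel)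
theorem L102345 : W_39 (nat_lit 3) (nat_lit 0xc000a000d000780010000000000000000000000000000) (nat_lit 0x0) (nat_lit 0x200018000c0000000000000000000) := T_39 (nat_lit 95) (nat_lit 78) (nat_lit 7) (nat_lit 10) (nat_lit 4) L102344 (by decide +kernel)
theorem L102346 : W_39 (nat_lit 4) (nat_lit 0xc000a0005000780010000000000000000000000000000) (nat_lit 0x0) (nat_lit 0x180000000200018000c0000000000000000000) := T_39 (nat_lit 147) (nat_lit 148) (nat_lit 3) (nat_lit 8) (nat_lit 7) L102345 (by decide +kernel)
theorem L102347 : W_39 (nat_lit 5) (nat_lit 0xc000a0005000780000000000000000000000000000000) (nat_lit 0x0) (nat_lit 0x400180000000300018000c0000000000000000000) := T_39 (nat_lit 112) (nat_lit 162) (nat_lit 5) (nat_lit 10) (nat_lit 6) L102346 (by decide +kernel)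
theorem L102348 : W_39 (nat_lit 6) (nat_lit 0x4000a0005000780000000000000000000000000000000) (nat_lit 0x0) (nat_lit 0x100008000400180000000300018000c0000000000000000000) := T_39 (nat_lit 179) (nat_lit 196) (nat_lit 7) (nat_lit 8) (nat_lit 7) L102347 (by decide +kernel)
theorem L102349 : W_39 (nat_lit 2) (nat_lit 0x11000780044000b000d000780000000000000000000000000000000) (nat_lit 0x0) (nat_lit 0x2000080008000000000000000000000000000000000000000000000) := D_39 (nat_lit 199) (nat_lit 183) (nat_lit 217) (nat_lit 2) (nat_lit 9) (nat_lit 11) (nat_lit 3) (nat_lit 9) (nat_lit 11) (by decide +kernel)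
theorem L102350 : W_39 (nat_lit 3) (nat_lit 0x1000780044000b000d000780000000000000000000000000000000) (nat_lit 0x0) (nat_lit 0x3800080008000000000000000000000000000000000000000000000) := T_39 (nat_lit 216) (nat_lit 215) (nat_lit 3) (nat_lit 8) (nat_lit 11) L102349 (by decide +kernel)
theorem L102351 : W_39 (nat_lit 4) (nat_lit 0x1000780004000b000d000780000000000000000000000000000000) (nat_lit 0x0) (nat_lit 0x380008000e000000000000000000000000000000000000000000000) := T_39 (nat_lit 182) (nat_lit 181) (nat_lit 2) (nat_lit 8) (nat_lit 11) L102350 (by decide +kernel)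
theorem L102352 : W_39 (nat_lit 5) (nat_lit 0x780004000b000d000780000000000000000000000000000000) (nat_lit 0x0) (nat_lit 0x398008000e000000000000000000000000000000000000000000000) := T_39 (nat_lit 212) (nat_lit 211) (nat_lit 1) (nat_lit 11) (nat_lit 11) L102351 (by decide +kernel)
theorem L102353 : W_39 (nat_lit 6) (nat_lit 0x380004000b000d000780000000000000000000000000000000) (nat_lit 0x0) (nat_lit 0x39800c000e200000000000000000000000000000000000000000000) := T_39 (nat_lit 198) (nat_lit 177) (nat_lit 0) (nat_lit 11) (nat_lit 11) L102352 (by decide +kernel)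
theorem L102354 : W_39 (nat_lit 7) (nat_lit 0x300004000b000d000780000000000000000000000000000000) (nat_lit 0x0) (nat_lit 0x3b800c800e200000000000000000000000000000000000000000000) := T_39 (nat_lit 195) (nat_lit 213) (nat_lit 7) (nat_lit 8) (nat_lit 8) L102353 (by decide +kernel)
theorem L102355 : W_39 (nat_lit 8) (nat_lit 0x200004000b000d000780000000000000000000000000000000) (nat_lit 0x0) (nat_lit 0x3b800d800ea00000000000000000000000000000000000000000000) := T_39 (nat_lit 196) (nat_lit 179) (nat_lit 7) (nat_lit 8) (nat_lit 7) L102354 (by decide +kernel)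
theorem L102356 : W_39 (nat_lit 9) (nat_lit 0x200004000a000d000780000000000000000000000000000000) (nat_lit 0x0) (nat_lit 0x3b800d800ea00050000000000000000000000000000000000000000) := T_39 (nat_lit 160) (nat_lit 162) (nat_lit 2) (nat_lit 7) (nat_lit 9) L102355 (by decide +kernel)
theorem L102357 : W_39 (nat_lit 10) (nat_lit 0x4000a000d000780000000000000000000000000000000) (nat_lit 0x0) (nat_lit 0x3b800f800fa00050000000000000000000000000000000000000000) := T_39 (nat_lit 197) (nat_lit 180) (nat_lit 6) (nat_lit 10) (nat_lit 11) L102356 (by decide +kernel)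
theorem L102358 : W_39 (nat_lit 11) (nat_lit 0x4000a0005000780000000000000000000000000000000) (nat_lit 0x0) (nat_lit 0x3b800f800fa00050018000000000000000000000000000000000000) := T_39 (nat_lit 147) (nat_lit 148) (nat_lit 3) (nat_lit 8) (nat_lit 7) L102357 (by decide +kernel)
theorem L102359 : W_39 (nat_lit 12) (nat_lit 0x4000a0001000780000000000000000000000000000000) (nat_lit 0x0) (nat_lit 0x3b800f800fa0005001c0000000300018000c0000000000000000000) := Q_39 (nat_lit 146) (C_39 L102343 (C_39 L102348 (C_39 L102334 (C_39 L102358 N_39)))) (by decide +kernel)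
theorem L102360 : W_39 (nat_lit 4) (nat_lit 0x4000e0009000780000000000000000000000000000000) (nat_lit 0x0) (nat_lit 0x1200110004000000020001000000000000000000000000) := T_39 (nat_lit 164) (nat_lit 177) (nat_lit 1) (nat_lit 11) (nat_lit 9) L102289 (by decide +kernel)
theorem L102361 : W_39 (nat_lit 5) (nat_lit 0x4000e0001000780000000000000000000000000000000) (nat_lit 0x0) (nat_lit 0x120011001c000000020001000000000000000000000000) := T_39 (nat_lit 147) (nat_lit 148) (nat_lit 3) (nat_lit 8) (nat_lit 7) L102360 (by decide +kernel)
theorem L102362 : W_39 (nat_lit 6) (nat_lit 0x4000a0001000780000000000000000000000000000000) (nat_lit 0x0) (nat_lit 0x10001a0035001c000000030001000000000000000000000000) := Q_39 (nat_lit 162) (C_39 L102317 (C_39 L102361 (C_39 L102299 N_39))) (by decide +kernel)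
theorem L102363 : W_39 (nat_lit 2) (nat_lit 0x200004000e000d000780000000000000000000000000000000) (nat_lit 0x0) (nat_lit 0x10000800000000000000010000000000000000000000000000) := D_39 (nat_lit 179) (nat_lit 196) (nat_lit 112) (nat_lit 7) (nat_lit 8) (nat_lit 7) (nat_lit 5) (nat_lit 10) (nat_lit 6) (by decide +kernel)
theorem L102364 : W_39 (nat_lit 3) (nat_lit 0x200004000a000d000780000000000000000000000000000000) (nat_lit 0x0) (nat_lit 0x10000800050000000000010000000000000000000000000000) := T_39 (nat_lit 162) (nat_lit 160) (nat_lit 2) (nat_lit 7) (nat_lit 9) L102363 (by decide +kernel)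
theorem L102365 : W_39 (nat_lit 4) (nat_lit 0x4000a000d000780000000000000000000000000000000) (nat_lit 0x0) (nat_lit 0x30001800050000000000010000000000000000000000000000) := T_39 (nat_lit 197) (nat_lit 180) (nat_lit 6) (nat_lit 10) (nat_lit 11) L102364 (by decide +kernel)
theorem L102366 : W_39 (nat_lit 5) (nat_lit 0x4000a0005000780000000000000000000000000000000) (nat_lit 0x0) (nat_lit 0x30001800050018000000010000000000000000000000000000) := T_39 (nat_lit 147) (nat_lit 148) (nat_lit 3) (nat_lit 8) (nat_lit 7) L102365 (by decide +kernel)
theorem L102367 : W_39 (nat_lit 7) (nat_lit 0x4000a0001000780000000000000000000000000000000) (nat_lit 0x0) (nat_lit 0x7000380005001c0000000300018000c0000000000000000000) := Q_39 (nat_lit 146) (C_39 L102343 (C_39 L102348 (C_39 L102334 (C_39 L102366 N_39)))) (by decide +kernel)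
theorem L102368 : W_39 (nat_lit 13) (nat_lit 0x400020001000780000000000000000000000000000000) (nat_lit 0x0) (nat_lit 0x3b800f800fb003dc01c0000000300018000c0000000000000000000) := Q_39 (nat_lit 163) (C_39 L102281 (C_39 L102292 (C_39 L102300 (C_39 L102303 (C_39 L102306 (C_39 L102323 (C_39 L102340 (C_39 L102359 (C_39 L102362 (C_39 L102367 N_39)))))))))) (by decide +kernel)
theorem L102369 : W_39 (nat_lit 15) (nat_lit 0x400020001000380000000000000000000000000000000) (nat_lit 0x0) (nat_lit 0x3b801f801fb00fdc1fc007c007f00078003c0000000000000000000) := Q_39 (nat_lit 130) (C_39 L102136 (C_39 L102140 (C_39 L102199 (C_39 L102202 (C_39 L102250 (C_39 L102270 (C_39 L102368 N_39))))))) (by decide +kernel)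
theorem L102370 : W_39 (nat_lit 2) (nat_lit 0xc000200090003c0020000000000000000000000000000) (nat_lit 0x0) (nat_lit 0x10000400040000000000000000000000000000) := D_39 (nat_lit 130) (nat_lit 114) (nat_lit 148) (nat_lit 2) (nat_lit 8) (nat_lit 7) (nat_lit 3) (nat_lit 8) (nat_lit 7) (by decide +kernel)
theorem L102371 : W_39 (nat_lit 3) (nat_lit 0xc000200010003c0020000000000000000000000000000) (nat_lit 0x0) (nat_lit 0x1c000400040000000000000000000000000000) := T_39 (nat_lit 147) (nat_lit 146) (nat_lit 3) (nat_lit 7) (nat_lit 7) L102370 (by decide +kernel)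
theorem L102372 : W_39 (nat_lit 4) (nat_lit 0xc000200010003c0000000000000000000000000000000) (nat_lit 0x0) (nat_lit 0x1c000400070000000000000000000000000000) := T_39 (nat_lit 113) (nat_lit 112) (nat_lit 2) (nat_lit 7) (nat_lit 7) L102371 (by decide +kernel)
theorem L102373 : W_39 (nat_lit 5) (nat_lit 0xc00020001000380000000000000000000000000000000) (nat_lit 0x0) (nat_lit 0x1c000440072000000000000000000000000000) := T_39 (nat_lit 126) (nat_lit 109) (nat_lit 4) (nat_lit 8) (nat_lit 10) L102372 (by decide +kernel)
theorem L102374 : W_39 (nat_lit 6) (nat_lit 0x400020001000380000000000000000000000000000000) (nat_lit 0x0) (nat_lit 0x1000080000001c000440072000000000000000000000000000) := T_39 (nat_lit 179) (nat_lit 196) (nat_lit 7) (nat_lit 8) (nat_lit 7) L102373 (by decide +kernel)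
theorem L102375 : W_39 (nat_lit 2) (nat_lit 0x400020001000380020000000000000000000000000000) (nat_lit 0x0) (nat_lit 0x40012000000000000000000000000000) := D_39 (nat_lit 126) (nat_lit 109) (nat_lit 112) (nat_lit 4) (nat_lit 8) (nat_lit 10) (nat_lit 2) (nat_lit 7) (nat_lit 7) (by decide +kernel)
theorem L102376 : W_39 (nat_lit 2) (nat_lit 0x1e000a0001000780020000000000000000000000000000) (nat_lit 0x0) (nat_lit 0x2000018000000000000000000000000000000000000000) := D_39 (nat_lit 160) (nat_lit 181) (nat_lit 159) (nat_lit 0) (nat_lit 11) (nat_lit 10) (nat_lit 0) (nat_lit 10) (nat_lit 10) (by decide +kernel)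
theorem L102377 : W_39 (nat_lit 3) (nat_lit 0x1c000a0001000780020000000000000000000000000000) (nat_lit 0x0) (nat_lit 0x2200118000000000000000000000000000000000000000) := T_39 (nat_lit 177) (nat_lit 164) (nat_lit 2) (nat_lit 7) (nat_lit 10) L102376 (by decide +kernel)
theorem L102378 : W_39 (nat_lit 4) (nat_lit 0xc000a0001000780020000000000000000000000000000) (nat_lit 0x0) (nat_lit 0x3200118004000000000000000000000000000000000000) := T_39 (nat_lit 180) (nat_lit 146) (nat_lit 6) (nat_lit 10) (nat_lit 10) L102377 (by decide +kernel)
theorem L102379 : W_39 (nat_lit 5) (nat_lit 0x4000a0001000780020000000000000000000000000000) (nat_lit 0x0) (nat_lit 0x10003a00118004000000000000000000000000000000000000) := T_39 (nat_lit 179) (nat_lit 196) (nat_lit 7) (nat_lit 8) (nat_lit 7) L102378 (by decide +kernel)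
theorem L102380 : W_39 (nat_lit 6) (nat_lit 0x4000a0001000380020000000000000000000000000000) (nat_lit 0x0) (nat_lit 0x10003a00118004000400040000000000000000000000000000) := T_39 (nat_lit 130) (nat_lit 114) (nat_lit 2) (nat_lit 8) (nat_lit 7) L102379 (by decide +kernel)
theorem L102381 : W_39 (nat_lit 2) (nat_lit 0x4000a0005000780020000000000000000000000000000) (nat_lit 0x0) (nat_lit 0x10001000080000000000000000000) := D_39 (nat_lit 96) (nat_lit 79) (nat_lit 112) (nat_lit 5) (nat_lit 11) (nat_lit 4) (nat_lit 6) (nat_lit 10) (nat_lit 9) (by decide +kernel)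
theorem L102382 : W_39 (nat_lit 3) (nat_lit 0x4000a0001000780020000000000000000000000000000) (nat_lit 0x0) (nat_lit 0x1000000004000000010001000080000000000000000000) := T_39 (nat_lit 146) (nat_lit 180) (nat_lit 6) (nat_lit 10) (nat_lit 10) L102381 (by decide +kernel)
theorem L102383 : W_39 (nat_lit 4) (nat_lit 0x4000a0001000380020000000000000000000000000000) (nat_lit 0x0) (nat_lit 0x1000000004000400050001000080000000000000000000) := T_39 (nat_lit 130) (nat_lit 114) (nat_lit 2) (nat_lit 8) (nat_lit 7) L102382 (by decide +kernel)
theorem L102384 : W_39 (nat_lit 2) (nat_lit 0xc000a0001000380070000000000000000000000000000) (nat_lit 0x0) (nat_lit 0x40004000000000001000000000000000000000000) := D_39 (nat_lit 146) (nat_lit 162) (nat_lit 96) (nat_lit 5) (nat_lit 10) (nat_lit 6) (nat_lit 6) (nat_lit 10) (nat_lit 9) (by decide +kernel)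
theorem L102385 : W_39 (nat_lit 3) (nat_lit 0xc000a0001000380060000000000000000000000000000) (nat_lit 0x0) (nat_lit 0x40004000000090001000000000000000000000000) := T_39 (nat_lit 112) (nat_lit 115) (nat_lit 1) (nat_lit 13) (nat_lit 6) L102384 (by decide +kernel)
theorem L102386 : W_39 (nat_lit 4) (nat_lit 0x4000a0001000380060000000000000000000000000000) (nat_lit 0x0) (nat_lit 0x10000800040004000000090001000000000000000000000000) := T_39 (nat_lit 179) (nat_lit 196) (nat_lit 7) (nat_lit 8) (nat_lit 7) L102385 (by decide +kernel)
theorem L102387 : W_39 (nat_lit 5) (nat_lit 0x4000a0001000380020000000000000000000000000000) (nat_lit 0x0) (nat_lit 0x100008000400040004000d0001000000000000000000000000) := T_39 (nat_lit 114) (nat_lit 130) (nat_lit 2) (nat_lit 8) (nat_lit 7) L102386 (by decide +kernel)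
theorem L102388 : W_39 (nat_lit 2) (nat_lit 0xe000a0001000380020000000000000000000000000000) (nat_lit 0x0) (nat_lit 0x1000140000000000000000000000000000000000000000) := D_39 (nat_lit 164) (nat_lit 180) (nat_lit 162) (nat_lit 2) (nat_lit 7) (nat_lit 10) (nat_lit 1) (nat_lit 11) (nat_lit 9) (by decide +kernel)
theorem L102389 : W_39 (nat_lit 3) (nat_lit 0x6000a0001000380020000000000000000000000000000) (nat_lit 0x0) (nat_lit 0x10001800140000000000000000000000000000000000000000) := T_39 (nat_lit 179) (nat_lit 196) (nat_lit 7) (nat_lit 8) (nat_lit 7) L102388 (by decide +kernel)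
theorem L102390 : W_39 (nat_lit 2) (nat_lit 0x6000e0001000380020000000000000000000000000000) (nat_lit 0x0) (nat_lit 0x10000900000000000000000000000000000000000000000000) := D_39 (nat_lit 179) (nat_lit 196) (nat_lit 176) (nat_lit 7) (nat_lit 8) (nat_lit 7) (nat_lit 2) (nat_lit 6) (nat_lit 10) (by decide +kernel)
theorem L102391 : W_39 (nat_lit 3) (nat_lit 0x6000a0001000380020000000000000000000000000000) (nat_lit 0x0) (nat_lit 0x10000900140000000000000000000000000000000000000000) := T_39 (nat_lit 162) (nat_lit 164) (nat_lit 1) (nat_lit 11) (nat_lit 9) L102390 (by decide +kernel)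
theorem L102392 : W_39 (nat_lit 2) (nat_lit 0x1e000a0001000380020000000000000000000000000000) (nat_lit 0x0) (nat_lit 0x2000018000000000000000000000000000000000000000) := D_39 (nat_lit 160) (nat_lit 159) (nat_lit 181) (nat_lit 0) (nat_lit 10) (nat_lit 10) (nat_lit 0) (nat_lit 11) (nat_lit 10) (by decide +kernel)
theorem L102393 : W_39 (nat_lit 3) (nat_lit 0xe000a0001000380020000000000000000000000000000) (nat_lit 0x0) (nat_lit 0x3000118000000000000000000000000000000000000000) := T_39 (nat_lit 180) (nat_lit 164) (nat_lit 2) (nat_lit 7) (nat_lit 10) L102392 (by decide +kernel)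
theorem L102394 : W_39 (nat_lit 4) (nat_lit 0x6000a0001000380020000000000000000000000000000) (nat_lit 0x0) (nat_lit 0x10003800118000000000000000000000000000000000000000) := T_39 (nat_lit 179) (nat_lit 196) (nat_lit 7) (nat_lit 8) (nat_lit 7) L102393 (by decide +kernel)
theorem L102395 : W_39 (nat_lit 2) (nat_lit 0x6000e0001000780020000000000000000000000000000) (nat_lit 0x0) (nat_lit 0x180010000000000000000000000000000000000000000) := D_39 (nat_lit 176) (nat_lit 160) (nat_lit 175) (nat_lit 1) (nat_lit 10) (nat_lit 9) (nat_lit 2) (nat_lit 5) (nat_lit 10) (by decide +kernel)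
theorem L102396 : W_39 (nat_lit 3) (nat_lit 0x6000a0001000780020000000000000000000000000000) (nat_lit 0x0) (nat_lit 0x180150000000000000000000000000000000000000000) := T_39 (nat_lit 162) (nat_lit 164) (nat_lit 1) (nat_lit 11) (nat_lit 9) L102395 (by decide +kernel)
theorem L102397 : W_39 (nat_lit 4) (nat_lit 0x6000a0001000380020000000000000000000000000000) (nat_lit 0x0) (nat_lit 0x180150000000400040000000000000000000000000000) := T_39 (nat_lit 130) (nat_lit 114) (nat_lit 2) (nat_lit 8) (nat_lit 7) L102396 (by decide +kernel)
theorem L102398 : W_39 (nat_lit 2) (nat_lit 0x1000f000b8001000380020000000000000000000000000000) (nat_lit 0x0) (nat_lit 0x8000c0000000000000000000000000000000000000000000) := D_39 (nat_lit 175) (nat_lit 191) (nat_lit 174) (nat_lit 1) (nat_lit 8) (nat_lit 10) (nat_lit 2) (nat_lit 4) (nat_lit 10) (by decide +kernel)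
theorem L102399 : W_39 (nat_lit 3) (nat_lit 0x1000f000a8001000380020000000000000000000000000000) (nat_lit 0x0) (nat_lit 0x8010c0010000000000000000000000000000000000000000) := T_39 (nat_lit 160) (nat_lit 180) (nat_lit 0) (nat_lit 10) (nat_lit 10) L102398 (by decide +kernel)
theorem L102400 : W_39 (nat_lit 4) (nat_lit 0xf000a8001000380020000000000000000000000000000) (nat_lit 0x0) (nat_lit 0x38010c0010000000000000000000000000000000000000000) := T_39 (nat_lit 192) (nat_lit 193) (nat_lit 1) (nat_lit 9) (nat_lit 10) L102399 (by decide +kernel)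
theorem L102401 : W_39 (nat_lit 5) (nat_lit 0xf000a0001000380020000000000000000000000000000) (nat_lit 0x0) (nat_lit 0x38010c001c000000000000000000000000000000000000000) := T_39 (nat_lit 159) (nat_lit 158) (nat_lit 0) (nat_lit 9) (nat_lit 10) L102400 (by decide +kernel)
theorem L102402 : W_39 (nat_lit 6) (nat_lit 0xe000a0001000380020000000000000000000000000000) (nat_lit 0x0) (nat_lit 0x38011c005c000000000000000000000000000000000000000) := T_39 (nat_lit 176) (nat_lit 162) (nat_lit 2) (nat_lit 6) (nat_lit 10) L102401 (by decide +kernel)
theorem L102403 : W_39 (nat_lit 7) (nat_lit 0x6000a0001000380020000000000000000000000000000) (nat_lit 0x0) (nat_lit 0x138019c005c000000000000000000000000000000000000000) := T_39 (nat_lit 179) (nat_lit 196) (nat_lit 7) (nat_lit 8) (nat_lit 7) L102402 (by decide +kernel)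
theorem L102404 : W_39 (nat_lit 8) (nat_lit 0x4000a0001000380020000000000000000000000000000) (nat_lit 0x0) (nat_lit 0x13803bc015c000000400040000000000000000000000000000) := Q_39 (nat_lit 177) (C_39 L102389 (C_39 L102391 (C_39 L102394 (C_39 L102397 (C_39 L102403 N_39))))) (by decide +kernel)
theorem L102405 : W_39 (nat_lit 2) (nat_lit 0x6000e0001000380020000000000000000000000000000) (nat_lit 0x0) (nat_lit 0x180010000000000000000000000000000000000000000) := D_39 (nat_lit 176) (nat_lit 160) (nat_lit 175) (nat_lit 1) (nat_lit 10) (nat_lit 9) (nat_lit 2) (nat_lit 5) (nat_lit 10) (by decide +kernel)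
theorem L102406 : W_39 (nat_lit 3) (nat_lit 0x6000a0001000380020000000000000000000000000000) (nat_lit 0x0) (nat_lit 0x180150000000000000000000000000000000000000000) := T_39 (nat_lit 162) (nat_lit 164) (nat_lit 1) (nat_lit 11) (nat_lit 9) L102405 (by decide +kernel)
theorem L102407 : W_39 (nat_lit 8) (nat_lit 0x4000a0001000380020000000000000000000000000000) (nat_lit 0x0) (nat_lit 0x13803bc015c000000000000000000000000000000000000000) := Q_39 (nat_lit 177) (C_39 L102403 (C_39 L102391 (C_39 L102394 (C_39 L102406 N_39)))) (by decide +kernel)
theorem L102408 : W_39 (nat_lit 9) (nat_lit 0x400020001000380020000000000000000000000000000) (nat_lit 0x0) (nat_lit 0x13803bc01dc0040004000d0001000080000000000000000000) := Q_39 (nat_lit 163) (C_39 L102380 (C_39 L102383 (C_39 L102387 (C_39 L102404 (C_39 L102407 N_39))))) (by decide +kernel)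
theorem L102409 : W_39 (nat_lit 2) (nat_lit 0x3c001200010007c0020000000000000000000000000000) (nat_lit 0x0) (nat_lit 0x200080004000000000000000000000000000000000000) := D_39 (nat_lit 163) (nat_lit 177) (nat_lit 146) (nat_lit 2) (nat_lit 7) (nat_lit 10) (nat_lit 6) (nat_lit 10) (nat_lit 10) (by decide +kernel)
theorem L102410 : W_39 (nat_lit 3) (nat_lit 0x3c000200010007c0020000000000000000000000000000) (nat_lit 0x0) (nat_lit 0x200380004000000000000000000000000000000000000) := T_39 (nat_lit 164) (nat_lit 165) (nat_lit 2) (nat_lit 8) (nat_lit 10) L102409 (by decide +kernel)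
theorem L102411 : W_39 (nat_lit 4) (nat_lit 0x3c000200010003c0020000000000000000000000000000) (nat_lit 0x0) (nat_lit 0x200380004000400040000000000000000000000000000) := T_39 (nat_lit 130) (nat_lit 114) (nat_lit 2) (nat_lit 8) (nat_lit 7) L102410 (by decide +kernel)
theorem L102412 : W_39 (nat_lit 5) (nat_lit 0x1c000200010003c0020000000000000000000000000000) (nat_lit 0x0) (nat_lit 0x2200390004000400040000000000000000000000000000) := T_39 (nat_lit 181) (nat_lit 160) (nat_lit 0) (nat_lit 11) (nat_lit 10) L102411 (by decide +kernel)
theorem L102413 : W_39 (nat_lit 6) (nat_lit 0x1c00020001000380020000000000000000000000000000) (nat_lit 0x0) (nat_lit 0x2200390004000440042000000000000000000000000000) := T_39 (nat_lit 126) (nat_lit 109) (nat_lit 4) (nat_lit 8) (nat_lit 10) L102412 (by decide +kernel)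
theorem L102414 : W_39 (nat_lit 7) (nat_lit 0x1c00020001000380020000000000000000000000000000) (nat_lit 0x0) (nat_lit 0xe00063000d0004000400040000000000000000000000000000) := T_39 (nat_lit 130) (nat_lit 114) (nat_lit 2) (nat_lit 8) (nat_lit 7) L102247 (by decide +kernel)
theorem L102415 : W_39 (nat_lit 2) (nat_lit 0x1001f000a40010007c0020000000000000000000000000000) (nat_lit 0x0) (nat_lit 0x800080002000000000000000000000000000000000000000) := D_39 (nat_lit 175) (nat_lit 157) (nat_lit 191) (nat_lit 0) (nat_lit 8) (nat_lit 10) (nat_lit 1) (nat_lit 8) (nat_lit 10) (by decide +kernel)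
theorem L102416 : W_39 (nat_lit 3) (nat_lit 0x1f000a40010007c0020000000000000000000000000000) (nat_lit 0x0) (nat_lit 0x3800080002000000000000000000000000000000000000000) := T_39 (nat_lit 192) (nat_lit 193) (nat_lit 1) (nat_lit 9) (nat_lit 10) L102415 (by decide +kernel)
theorem L102417 : W_39 (nat_lit 4) (nat_lit 0x1f000a00010007c0020000000000000000000000000000) (nat_lit 0x0) (nat_lit 0x380008000e000000000000000000000000000000000000000) := T_39 (nat_lit 158) (nat_lit 159) (nat_lit 0) (nat_lit 9) (nat_lit 10) L102416 (by decide +kernel)
theorem L102418 : W_39 (nat_lit 5) (nat_lit 0x1e000a00010007c0020000000000000000000000000000) (nat_lit 0x0) (nat_lit 0x380018004e000000000000000000000000000000000000000) := T_39 (nat_lit 176) (nat_lit 162) (nat_lit 2) (nat_lit 6) (nat_lit 10) L102417 (by decide +kernel)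
theorem L102419 : W_39 (nat_lit 6) (nat_lit 0x1c000a00010007c0020000000000000000000000000000) (nat_lit 0x0) (nat_lit 0x380038014e000000000000000000000000000000000000000) := T_39 (nat_lit 177) (nat_lit 164) (nat_lit 2) (nat_lit 7) (nat_lit 10) L102418 (by decide +kernel)
theorem L102420 : W_39 (nat_lit 7) (nat_lit 0x1c000200010007c0020000000000000000000000000000) (nat_lit 0x0) (nat_lit 0x38003801ce004000000000000000000000000000000000000) := T_39 (nat_lit 163) (nat_lit 146) (nat_lit 6) (nat_lit 10) (nat_lit 10) L102419 (by decide +kernel)
theorem L102421 : W_39 (nat_lit 8) (nat_lit 0x1c000200010003c0020000000000000000000000000000) (nat_lit 0x0) (nat_lit 0x38003801ce004000400040000000000000000000000000000) := T_39 (nat_lit 130) (nat_lit 114) (nat_lit 2) (nat_lit 8) (nat_lit 7) L102420 (by decide +kernel)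
theorem L102422 : W_39 (nat_lit 9) (nat_lit 0x1c00020001000380020000000000000000000000000000) (nat_lit 0x0) (nat_lit 0x38003801ce004000440042000000000000000000000000000) := T_39 (nat_lit 126) (nat_lit 109) (nat_lit 4) (nat_lit 8) (nat_lit 10) L102421 (by decide +kernel)
theorem L102423 : W_39 (nat_lit 2) (nat_lit 0x80003c001200010007c0020000000000000000000000000000) (nat_lit 0x0) (nat_lit 0x100004000040000000000000000000000000000000000000000) := D_39 (nat_lit 182) (nat_lit 162) (nat_lit 200) (nat_lit 0) (nat_lit 12) (nat_lit 10) (nat_lit 3) (nat_lit 9) (nat_lit 10) (by decide +kernel)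
theorem L102424 : W_39 (nat_lit 3) (nat_lit 0x3c001200010007c0020000000000000000000000000000) (nat_lit 0x0) (nat_lit 0x1c0004000040000000000000000000000000000000000000000) := T_39 (nat_lit 199) (nat_lit 198) (nat_lit 3) (nat_lit 8) (nat_lit 10) L102423 (by decide +kernel)
theorem L102425 : W_39 (nat_lit 4) (nat_lit 0x3c000200010007c0020000000000000000000000000000) (nat_lit 0x0) (nat_lit 0x1c0004000340000000000000000000000000000000000000000) := T_39 (nat_lit 164) (nat_lit 165) (nat_lit 2) (nat_lit 8) (nat_lit 10) L102424 (by decide +kernel)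
theorem L102426 : W_39 (nat_lit 5) (nat_lit 0x3c00020001000780020000000000000000000000000000) (nat_lit 0x0) (nat_lit 0x1c0004000340000000040002000000000000000000000000000) := T_39 (nat_lit 126) (nat_lit 109) (nat_lit 4) (nat_lit 8) (nat_lit 10) L102425 (by decide +kernel)
theorem L102427 : W_39 (nat_lit 6) (nat_lit 0x1c00020001000780020000000000000000000000000000) (nat_lit 0x0) (nat_lit 0x1c0006000350000000040002000000000000000000000000000) := T_39 (nat_lit 181) (nat_lit 160) (nat_lit 0) (nat_lit 11) (nat_lit 10) L102426 (by decide +kernel)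
theorem L102428 : W_39 (nat_lit 7) (nat_lit 0x1c00020001000380020000000000000000000000000000) (nat_lit 0x0) (nat_lit 0x1c0006000350000000440042000000000000000000000000000) := T_39 (nat_lit 130) (nat_lit 114) (nat_lit 2) (nat_lit 8) (nat_lit 7) L102427 (by decide +kernel)
theorem L102429 : W_39 (nat_lit 2) (nat_lit 0x3e001200010003c0020000000000000000000000000000) (nat_lit 0x0) (nat_lit 0xe0000000000000000000000000000000000000000000000000) := D_39 (nat_lit 198) (nat_lit 197) (nat_lit 199) (nat_lit 3) (nat_lit 7) (nat_lit 10) (nat_lit 3) (nat_lit 8) (nat_lit 10) (by decide +kernel)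
theorem L102430 : W_39 (nat_lit 3) (nat_lit 0x3c001200010003c0020000000000000000000000000000) (nat_lit 0x0) (nat_lit 0xe0000200080000000000000000000000000000000000000000) := T_39 (nat_lit 177) (nat_lit 163) (nat_lit 2) (nat_lit 7) (nat_lit 10) L102429 (by decide +kernel)
theorem L102431 : W_39 (nat_lit 4) (nat_lit 0x3c000200010003c0020000000000000000000000000000) (nat_lit 0x0) (nat_lit 0xe0000200380000000000000000000000000000000000000000) := T_39 (nat_lit 164) (nat_lit 165) (nat_lit 2) (nat_lit 8) (nat_lit 10) L102430 (by decide +kernel)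
theorem L102432 : W_39 (nat_lit 5) (nat_lit 0x3c00020001000380020000000000000000000000000000) (nat_lit 0x0) (nat_lit 0xe0000200380000000040002000000000000000000000000000) := T_39 (nat_lit 126) (nat_lit 109) (nat_lit 4) (nat_lit 8) (nat_lit 10) L102431 (by decide +kernel)
theorem L102433 : W_39 (nat_lit 6) (nat_lit 0x1c00020001000380020000000000000000000000000000) (nat_lit 0x0) (nat_lit 0xe0002200390000000040002000000000000000000000000000) := T_39 (nat_lit 181) (nat_lit 160) (nat_lit 0) (nat_lit 11) (nat_lit 10) L102432 (by decide +kernel)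
theorem L102434 : W_39 (nat_lit 10) (nat_lit 0xc00020001000380020000000000000000000000000000) (nat_lit 0x0) (nat_lit 0x1e38073803de004000440042000000000000000000000000000) := Q_39 (nat_lit 180) (C_39 L102413 (C_39 L102414 (C_39 L102422 (C_39 L102428 (C_39 L102433 N_39))))) (by decide +kernel)
theorem L102435 : W_39 (nat_lit 11) (nat_lit 0x400020001000380020000000000000000000000000000) (nat_lit 0x0) (nat_lit 0x1f3807b803de004000440042000000000000000000000000000) := T_39 (nat_lit 179) (nat_lit 196) (nat_lit 7) (nat_lit 8) (nat_lit 7) L102434 (by decide +kernel)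
theorem L102436 : W_39 (nat_lit 12) (nat_lit 0x400020001000380000000000000000000000000000000) (nat_lit 0x0) (nat_lit 0x1f3807bc03de0040004400f2001000080000000000000000000) := Q_39 (nat_lit 113) (C_39 L102375 (C_39 L102408 (C_39 L102435 N_39))) (by decide +kernel)
theorem L102437 : W_39 (nat_lit 2) (nat_lit 0x4000200090003c0020000000000000000000000000000) (nat_lit 0x0) (nat_lit 0x10000400040000000000000000000000000000) := D_39 (nat_lit 130) (nat_lit 114) (nat_lit 148) (nat_lit 2) (nat_lit 8) (nat_lit 7) (nat_lit 3) (nat_lit 8) (nat_lit 7) (by decide +kernel)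
theorem L102438 : W_39 (nat_lit 3) (nat_lit 0x4000200010003c0020000000000000000000000000000) (nat_lit 0x0) (nat_lit 0x1c000400040000000000000000000000000000) := T_39 (nat_lit 147) (nat_lit 146) (nat_lit 3) (nat_lit 7) (nat_lit 7) L102437 (by decide +kernel)
theorem L102439 : W_39 (nat_lit 4) (nat_lit 0x4000200010003c0000000000000000000000000000000) (nat_lit 0x0) (nat_lit 0x1c000400070000000000000000000000000000) := T_39 (nat_lit 113) (nat_lit 112) (nat_lit 2) (nat_lit 7) (nat_lit 7) L102438 (by decide +kernel)
theorem L102440 : W_39 (nat_lit 5) (nat_lit 0x400020001000380000000000000000000000000000000) (nat_lit 0x0) (nat_lit 0x1c000440072000000000000000000000000000) := T_39 (nat_lit 126) (nat_lit 109) (nat_lit 4) (nat_lit 8) (nat_lit 10) L102439 (by decide +kernel)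
theorem L102441 : W_39 (nat_lit 2) (nat_lit 0x4000200010007c0000000000000000000000000000000) (nat_lit 0x0) (nat_lit 0x70000000000000000000000000000) := D_39 (nat_lit 113) (nat_lit 112) (nat_lit 114) (nat_lit 2) (nat_lit 7) (nat_lit 7) (nat_lit 2) (nat_lit 8) (nat_lit 7) (by decide +kernel)
theorem L102442 : W_39 (nat_lit 3) (nat_lit 0x400020001000780000000000000000000000000000000) (nat_lit 0x0) (nat_lit 0x40072000000000000000000000000000) := T_39 (nat_lit 126) (nat_lit 109) (nat_lit 4) (nat_lit 8) (nat_lit 10) L102441 (by decide +kernel)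
theorem L102443 : W_39 (nat_lit 2) (nat_lit 0x7c000200010007c0000000000000000000000000000000) (nat_lit 0x0) (nat_lit 0x700000000000000000000000000000000000000000) := D_39 (nat_lit 165) (nat_lit 164) (nat_lit 166) (nat_lit 2) (nat_lit 8) (nat_lit 10) (nat_lit 2) (nat_lit 9) (nat_lit 10) (by decide +kernel)
theorem L102444 : W_39 (nat_lit 3) (nat_lit 0x3c000200010007c0000000000000000000000000000000) (nat_lit 0x0) (nat_lit 0x4000740000000000000000000000000000000000000000) := T_39 (nat_lit 182) (nat_lit 162) (nat_lit 0) (nat_lit 12) (nat_lit 10) L102443 (by decide +kernel)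
theorem L102445 : W_39 (nat_lit 4) (nat_lit 0x2c000200010007c0000000000000000000000000000000) (nat_lit 0x0) (nat_lit 0x5000750000000000000000000000000000000000000000) := T_39 (nat_lit 180) (nat_lit 160) (nat_lit 0) (nat_lit 11) (nat_lit 10) L102444 (by decide +kernel)
theorem L102446 : W_39 (nat_lit 5) (nat_lit 0x24000200010007c0000000000000000000000000000000) (nat_lit 0x0) (nat_lit 0x10005800750000000000000000000000000000000000000000) := T_39 (nat_lit 179) (nat_lit 196) (nat_lit 7) (nat_lit 8) (nat_lit 7) L102445 (by decide +kernel)
theorem L102447 : W_39 (nat_lit 6) (nat_lit 0x2400020001000780000000000000000000000000000000) (nat_lit 0x0) (nat_lit 0x10005800750000000040002000000000000000000000000000) := T_39 (nat_lit 126) (nat_lit 109) (nat_lit 4) (nat_lit 8) (nat_lit 10) L102446 (by decide +kernel)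
theorem L102448 : W_39 (nat_lit 2) (nat_lit 0x34001200090007c0000000000000000000000000000000) (nat_lit 0x0) (nat_lit 0x800210000000000000000000000000000000000000000) := D_39 (nat_lit 179) (nat_lit 165) (nat_lit 160) (nat_lit 2) (nat_lit 8) (nat_lit 10) (nat_lit 0) (nat_lit 11) (nat_lit 10) (by decide +kernel)
theorem L102449 : W_39 (nat_lit 3) (nat_lit 0x24001200090007c0000000000000000000000000000000) (nat_lit 0x0) (nat_lit 0x20001800210000000000000000000000000000000000000000) := T_39 (nat_lit 180) (nat_lit 197) (nat_lit 5) (nat_lit 11) (nat_lit 7) L102448 (by decide +kernel)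
theorem L102450 : W_39 (nat_lit 4) (nat_lit 0x24000200090007c0000000000000000000000000000000) (nat_lit 0x0) (nat_lit 0x20001800310000000000010000000000000000000000000000) := T_39 (nat_lit 164) (nat_lit 112) (nat_lit 4) (nat_lit 11) (nat_lit 10) L102449 (by decide +kernel)
theorem L102451 : W_39 (nat_lit 5) (nat_lit 0x2400020009000780000000000000000000000000000000) (nat_lit 0x0) (nat_lit 0x20001800310000000040012000000000000000000000000000) := T_39 (nat_lit 126) (nat_lit 109) (nat_lit 4) (nat_lit 8) (nat_lit 10) L102450 (by decide +kernel)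
theorem L102452 : W_39 (nat_lit 6) (nat_lit 0x2400020001000780000000000000000000000000000000) (nat_lit 0x0) (nat_lit 0x20001800310018000040012000000000000000000000000000) := T_39 (nat_lit 147) (nat_lit 148) (nat_lit 3) (nat_lit 8) (nat_lit 7) L102451 (by decide +kernel)
theorem L102453 : W_39 (nat_lit 2) (nat_lit 0x3c00020009000780000000000000000000000000000000) (nat_lit 0x0) (nat_lit 0x300000000000010000000000000000000000000000) := D_39 (nat_lit 164) (nat_lit 112) (nat_lit 165) (nat_lit 4) (nat_lit 11) (nat_lit 10) (nat_lit 2) (nat_lit 8) (nat_lit 10) (by decide +kernel)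
theorem L102454 : W_39 (nat_lit 3) (nat_lit 0x2c00020009000780000000000000000000000000000000) (nat_lit 0x0) (nat_lit 0x1000310000000000010000000000000000000000000000) := T_39 (nat_lit 180) (nat_lit 160) (nat_lit 0) (nat_lit 11) (nat_lit 10) L102453 (by decide +kernel)
theorem L102455 : W_39 (nat_lit 4) (nat_lit 0x2400020009000780000000000000000000000000000000) (nat_lit 0x0) (nat_lit 0x10001800310000000000010000000000000000000000000000) := T_39 (nat_lit 179) (nat_lit 196) (nat_lit 7) (nat_lit 8) (nat_lit 7) L102454 (by decide +kernel)
theorem L102456 : W_39 (nat_lit 5) (nat_lit 0x2400020001000780000000000000000000000000000000) (nat_lit 0x0) (nat_lit 0x10001800310018000000010000000000000000000000000000) := T_39 (nat_lit 147) (nat_lit 148) (nat_lit 3) (nat_lit 8) (nat_lit 7) L102455 (by decide +kernel)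
theorem L102457 : W_39 (nat_lit 2) (nat_lit 0xd8002400120009000fc0000000000000000000000000000000) (nat_lit 0x0) (nat_lit 0x400020000200000000000000000000000000000000000000000000) := D_39 (nat_lit 197) (nat_lit 214) (nat_lit 177) (nat_lit 5) (nat_lit 11) (nat_lit 8) (nat_lit 0) (nat_lit 11) (nat_lit 11) (by decide +kernel)
theorem L102458 : W_39 (nat_lit 3) (nat_lit 0x98002400120009000fc0000000000000000000000000000000) (nat_lit 0x0) (nat_lit 0x1400060000200000000000000000000000000000000000000000000) := T_39 (nat_lit 198) (nat_lit 216) (nat_lit 7) (nat_lit 11) (nat_lit 8) L102457 (by decide +kernel)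
theorem L102459 : W_39 (nat_lit 4) (nat_lit 0x18002400120009000fc0000000000000000000000000000000) (nat_lit 0x0) (nat_lit 0x14000e0004200000000000000000000000000000000000000000000) := T_39 (nat_lit 199) (nat_lit 182) (nat_lit 7) (nat_lit 11) (nat_lit 7) L102458 (by decide +kernel)
theorem L102460 : W_39 (nat_lit 5) (nat_lit 0x10002400120009000fc0000000000000000000000000000000) (nat_lit 0x0) (nat_lit 0x16000e8004200000000000000000000000000000000000000000000) := T_39 (nat_lit 195) (nat_lit 213) (nat_lit 7) (nat_lit 8) (nat_lit 8) L102459 (by decide +kernel)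
theorem L102461 : W_39 (nat_lit 6) (nat_lit 0x100024001200090007c0000000000000000000000000000000) (nat_lit 0x0) (nat_lit 0x16000e8004200000000000800040000000000000000000000000000) := T_39 (nat_lit 131) (nat_lit 114) (nat_lit 6) (nat_lit 11) (nat_lit 10) L102460 (by decide +kernel)
theorem L102462 : W_39 (nat_lit 7) (nat_lit 0x24001200090007c0000000000000000000000000000000) (nat_lit 0x0) (nat_lit 0x16000f8004a00000000000800040000000000000000000000000000) := T_39 (nat_lit 196) (nat_lit 179) (nat_lit 7) (nat_lit 8) (nat_lit 7) L102461 (by decide +kernel)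
theorem L102463 : W_39 (nat_lit 8) (nat_lit 0x24000200090007c0000000000000000000000000000000) (nat_lit 0x0) (nat_lit 0x16000f8004a00100000000800050000000000000000000000000000) := T_39 (nat_lit 164) (nat_lit 112) (nat_lit 4) (nat_lit 11) (nat_lit 10) L102462 (by decide +kernel)
theorem L102464 : W_39 (nat_lit 9) (nat_lit 0x2400020009000780000000000000000000000000000000) (nat_lit 0x0) (nat_lit 0x16000f8004a00100000000840052000000000000000000000000000) := T_39 (nat_lit 126) (nat_lit 109) (nat_lit 4) (nat_lit 8) (nat_lit 10) L102463 (by decide +kernel)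
theorem L102465 : W_39 (nat_lit 10) (nat_lit 0x2400020001000780000000000000000000000000000000) (nat_lit 0x0) (nat_lit 0x16000f8004a00100018000840052000000000000000000000000000) := T_39 (nat_lit 147) (nat_lit 148) (nat_lit 3) (nat_lit 8) (nat_lit 7) L102464 (by decide +kernel)
theorem L102466 : W_39 (nat_lit 2) (nat_lit 0x60002400120009000fc0000000000000000000000000000000) (nat_lit 0x0) (nat_lit 0x1000080004000000000000000000000000000000000000000000000) := D_39 (nat_lit 199) (nat_lit 182) (nat_lit 216) (nat_lit 7) (nat_lit 11) (nat_lit 7) (nat_lit 7) (nat_lit 11) (nat_lit 8) (by decide +kernel)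
theorem L102467 : W_39 (nat_lit 3) (nat_lit 0x20002400120009000fc0000000000000000000000000000000) (nat_lit 0x0) (nat_lit 0x14000c0004000000000000000000000000000000000000000000000) := T_39 (nat_lit 198) (nat_lit 214) (nat_lit 5) (nat_lit 11) (nat_lit 8) L102466 (by decide +kernel)
theorem L102468 : W_39 (nat_lit 4) (nat_lit 0x200024001200090007c0000000000000000000000000000000) (nat_lit 0x0) (nat_lit 0x14000c0004000000000000800040000000000000000000000000000) := T_39 (nat_lit 131) (nat_lit 114) (nat_lit 6) (nat_lit 11) (nat_lit 10) L102467 (by decide +kernel)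
theorem L102469 : W_39 (nat_lit 5) (nat_lit 0x24001200090007c0000000000000000000000000000000) (nat_lit 0x0) (nat_lit 0x14000e0005000000000000800040000000000000000000000000000) := T_39 (nat_lit 197) (nat_lit 180) (nat_lit 5) (nat_lit 11) (nat_lit 7) L102468 (by decide +kernel)
theorem L102470 : W_39 (nat_lit 6) (nat_lit 0x24000200090007c0000000000000000000000000000000) (nat_lit 0x0) (nat_lit 0x14000e0005000100000000800050000000000000000000000000000) := T_39 (nat_lit 164) (nat_lit 112) (nat_lit 4) (nat_lit 11) (nat_lit 10) L102469 (by decide +kernel)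
theorem L102471 : W_39 (nat_lit 7) (nat_lit 0x2400020009000780000000000000000000000000000000) (nat_lit 0x0) (nat_lit 0x14000e0005000100000000840052000000000000000000000000000) := T_39 (nat_lit 126) (nat_lit 109) (nat_lit 4) (nat_lit 8) (nat_lit 10) L102470 (by decide +kernel)
theorem L102472 : W_39 (nat_lit 8) (nat_lit 0x2400020001000780000000000000000000000000000000) (nat_lit 0x0) (nat_lit 0x14000e0005000100018000840052000000000000000000000000000) := T_39 (nat_lit 147) (nat_lit 148) (nat_lit 3) (nat_lit 8) (nat_lit 7) L102471 (by decide +kernel)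
theorem L102473 : W_39 (nat_lit 2) (nat_lit 0x40003e000600090007c0000000000000000000000000000000) (nat_lit 0x0) (nat_lit 0x180080000000000000000000000000000000000000000) := D_39 (nat_lit 176) (nat_lit 175) (nat_lit 163) (nat_lit 2) (nat_lit 5) (nat_lit 10) (nat_lit 2) (nat_lit 6) (nat_lit 10) (by decide +kernel)
theorem L102474 : W_39 (nat_lit 3) (nat_lit 0x40003e000200090007c0000000000000000000000000000000) (nat_lit 0x0) (nat_lit 0x41800c0000000000000000000000000000000000000000) := T_39 (nat_lit 162) (nat_lit 182) (nat_lit 0) (nat_lit 12) (nat_lit 10) L102473 (by decide +kernel)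
theorem L102475 : W_39 (nat_lit 4) (nat_lit 0x40003c000200090007c0000000000000000000000000000000) (nat_lit 0x0) (nat_lit 0x200043800c0000000000000000000000000000000000000000) := T_39 (nat_lit 177) (nat_lit 197) (nat_lit 3) (nat_lit 7) (nat_lit 10) L102474 (by decide +kernel)
theorem L102476 : W_39 (nat_lit 5) (nat_lit 0x3c000200090007c0000000000000000000000000000000) (nat_lit 0x0) (nat_lit 0xe00043800c0000000000000000000000000000000000000000) := T_39 (nat_lit 198) (nat_lit 199) (nat_lit 3) (nat_lit 8) (nat_lit 10) L102475 (by decide +kernel)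
theorem L102477 : W_39 (nat_lit 6) (nat_lit 0x3c00020009000780000000000000000000000000000000) (nat_lit 0x0) (nat_lit 0xe00043800c0000000040002000000000000000000000000000) := T_39 (nat_lit 126) (nat_lit 109) (nat_lit 4) (nat_lit 8) (nat_lit 10) L102476 (by decide +kernel)
theorem L102478 : W_39 (nat_lit 7) (nat_lit 0x2c00020009000780000000000000000000000000000000) (nat_lit 0x0) (nat_lit 0xe00053800d0000000040002000000000000000000000000000) := T_39 (nat_lit 180) (nat_lit 160) (nat_lit 0) (nat_lit 11) (nat_lit 10) L102477 (by decide +kernel)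
theorem L102479 : W_39 (nat_lit 8) (nat_lit 0x2400020009000780000000000000000000000000000000) (nat_lit 0x0) (nat_lit 0xf0005b800d0000000040002000000000000000000000000000) := T_39 (nat_lit 179) (nat_lit 196) (nat_lit 7) (nat_lit 8) (nat_lit 7) L102478 (by decide +kernel)
theorem L102480 : W_39 (nat_lit 9) (nat_lit 0x2400020001000780000000000000000000000000000000) (nat_lit 0x0) (nat_lit 0xf0005b800d0018000040002000000000000000000000000000) := T_39 (nat_lit 147) (nat_lit 148) (nat_lit 3) (nat_lit 8) (nat_lit 7) L102479 (by decide +kernel)
theorem L102481 : W_39 (nat_lit 11) (nat_lit 0x400020001000780000000000000000000000000000000) (nat_lit 0x0) (nat_lit 0x16000f8007b807d0018000840052000000000000000000000000000) := Q_39 (nat_lit 181) (C_39 L102447 (C_39 L102452 (C_39 L102456 (C_39 L102465 (C_39 L102472 (C_39 L102480 N_39)))))) (by decide +kernel)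
theorem L102482 : W_39 (nat_lit 2) (nat_lit 0x7c000200090007c0010000000040000000000000000000) (nat_lit 0x0) (nat_lit 0x1c0000000000000000000000000000000000000000000000000) := D_39 (nat_lit 199) (nat_lit 198) (nat_lit 200) (nat_lit 3) (nat_lit 8) (nat_lit 10) (nat_lit 3) (nat_lit 9) (nat_lit 10) (by decide +kernel)
theorem L102483 : W_39 (nat_lit 3) (nat_lit 0x3c000200090007c0010000000040000000000000000000) (nat_lit 0x0) (nat_lit 0x1c0004000040000000000000000000000000000000000000000) := T_39 (nat_lit 182) (nat_lit 162) (nat_lit 0) (nat_lit 12) (nat_lit 10) L102482 (by decide +kernel)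
theorem L102484 : W_39 (nat_lit 4) (nat_lit 0x2c000200090007c0010000000040000000000000000000) (nat_lit 0x0) (nat_lit 0x1c0005000050000000000000000000000000000000000000000) := T_39 (nat_lit 180) (nat_lit 160) (nat_lit 0) (nat_lit 11) (nat_lit 10) L102483 (by decide +kernel)
theorem L102485 : W_39 (nat_lit 5) (nat_lit 0xc000200090007c0010000000040000000000000000000) (nat_lit 0x0) (nat_lit 0x1c0007000150000000000000000000000000000000000000000) := T_39 (nat_lit 181) (nat_lit 164) (nat_lit 4) (nat_lit 11) (nat_lit 10) L102484 (by decide +kernel)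
theorem L102486 : W_39 (nat_lit 6) (nat_lit 0xc000200090007c0010000000000000000000000000000) (nat_lit 0x0) (nat_lit 0x1c0007000150000000000000000800040000000000000000000) := T_39 (nat_lit 78) (nat_lit 95) (nat_lit 7) (nat_lit 10) (nat_lit 4) L102485 (by decide +kernel)
theorem L102487 : W_39 (nat_lit 7) (nat_lit 0x4000200090007c0010000000000000000000000000000) (nat_lit 0x0) (nat_lit 0x1d0007800150000000000000000800040000000000000000000) := T_39 (nat_lit 179) (nat_lit 196) (nat_lit 7) (nat_lit 8) (nat_lit 7) L102486 (by decide +kernel)
theorem L102488 : W_39 (nat_lit 8) (nat_lit 0x4000200010007c0010000000000000000000000000000) (nat_lit 0x0) (nat_lit 0x1d0007800150018000000000000800040000000000000000000) := T_39 (nat_lit 147) (nat_lit 148) (nat_lit 3) (nat_lit 8) (nat_lit 7) L102487 (by decide +kernel)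
theorem L102489 : W_39 (nat_lit 9) (nat_lit 0x4000200010007c0000000000000000000000000000000) (nat_lit 0x0) (nat_lit 0x1d0007800150018000000030000800040000000000000000000) := T_39 (nat_lit 112) (nat_lit 113) (nat_lit 2) (nat_lit 7) (nat_lit 7) L102488 (by decide +kernel)
theorem L102490 : W_39 (nat_lit 10) (nat_lit 0x400020001000780000000000000000000000000000000) (nat_lit 0x0) (nat_lit 0x1d0007800150018000040032000800040000000000000000000) := T_39 (nat_lit 126) (nat_lit 109) (nat_lit 4) (nat_lit 8) (nat_lit 10) L102489 (by decide +kernel)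
theorem L102491 : W_39 (nat_lit 12) (nat_lit 0x400020001000380000000000000000000000000000000) (nat_lit 0x0) (nat_lit 0x16001f8007b807d0038000c400f2000800040000000000000000000) := Q_39 (nat_lit 130) (C_39 L102202 (C_39 L102442 (C_39 L102481 (C_39 L102490 N_39)))) (by decide +kernel)
theorem L102492 : W_39 (nat_lit 2) (nat_lit 0x7c00020009000fc0040000000100000000000000000000) (nat_lit 0x0) (nat_lit 0x1c0000000000000000000000000000000000000000000000000) := D_39 (nat_lit 199) (nat_lit 198) (nat_lit 200) (nat_lit 3) (nat_lit 8) (nat_lit 10) (nat_lit 3) (nat_lit 9) (nat_lit 10) (by decide +kernel)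
theorem L102493 : W_39 (nat_lit 3) (nat_lit 0x3c00020009000fc0040000000100000000000000000000) (nat_lit 0x0) (nat_lit 0x1c0004000040000000000000000000000000000000000000000) := T_39 (nat_lit 182) (nat_lit 162) (nat_lit 0) (nat_lit 12) (nat_lit 10) L102492 (by decide +kernel)
theorem L102494 : W_39 (nat_lit 4) (nat_lit 0x2c00020009000fc0040000000100000000000000000000) (nat_lit 0x0) (nat_lit 0x1c0005000050000000000000000000000000000000000000000) := T_39 (nat_lit 180) (nat_lit 160) (nat_lit 0) (nat_lit 11) (nat_lit 10) L102493 (by decide +kernel)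
theorem L102495 : W_39 (nat_lit 5) (nat_lit 0xc00020009000fc0040000000100000000000000000000) (nat_lit 0x0) (nat_lit 0x1c0007000150000000000000000000000000000000000000000) := T_39 (nat_lit 181) (nat_lit 164) (nat_lit 6) (nat_lit 11) (nat_lit 10) L102494 (by decide +kernel)
theorem L102496 : W_39 (nat_lit 6) (nat_lit 0xc00020009000fc0040000000000000000000000000000) (nat_lit 0x0) (nat_lit 0x1c0007000150000000000000002000100000000000000000000) := T_39 (nat_lit 80) (nat_lit 97) (nat_lit 5) (nat_lit 12) (nat_lit 4) L102495 (by decide +kernel)
theorem L102497 : W_39 (nat_lit 7) (nat_lit 0xc000200090007c0040000000000000000000000000000) (nat_lit 0x0) (nat_lit 0x1c0007000150000000800080002000100000000000000000000) := T_39 (nat_lit 131) (nat_lit 115) (nat_lit 2) (nat_lit 9) (nat_lit 7) L102496 (by decide +kernel)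
theorem L102498 : W_39 (nat_lit 8) (nat_lit 0xc000200090007c0000000000000000000000000000000) (nat_lit 0x0) (nat_lit 0x1c00070001500000008000e0002000100000000000000000000) := T_39 (nat_lit 114) (nat_lit 113) (nat_lit 2) (nat_lit 8) (nat_lit 7) L102497 (by decide +kernel)
theorem L102499 : W_39 (nat_lit 9) (nat_lit 0xc000200090003c0000000000000000000000000000000) (nat_lit 0x0) (nat_lit 0x1c0007000150010000c000e0002000100000000000000000000) := T_39 (nat_lit 130) (nat_lit 148) (nat_lit 3) (nat_lit 8) (nat_lit 7) L102498 (by decide +kernel)
theorem L102500 : W_39 (nat_lit 10) (nat_lit 0x4000200090003c0000000000000000000000000000000) (nat_lit 0x0) (nat_lit 0x1d0007800150010000c000e0002000100000000000000000000) := T_39 (nat_lit 179) (nat_lit 196) (nat_lit 7) (nat_lit 8) (nat_lit 7) L102499 (by decide +kernel)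
theorem L102501 : W_39 (nat_lit 11) (nat_lit 0x4000200010003c0000000000000000000000000000000) (nat_lit 0x0) (nat_lit 0x1d000780015001c000c000e0002000100000000000000000000) := T_39 (nat_lit 147) (nat_lit 146) (nat_lit 3) (nat_lit 7) (nat_lit 7) L102500 (by decide +kernel)
theorem L102502 : W_39 (nat_lit 12) (nat_lit 0x400020001000380000000000000000000000000000000) (nat_lit 0x0) (nat_lit 0x1d000780015001c000c400e2002000100000000000000000000) := T_39 (nat_lit 126) (nat_lit 109) (nat_lit 4) (nat_lit 8) (nat_lit 10) L102501 (by decide +kernel)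
theorem L102503 : W_39 (nat_lit 2) (nat_lit 0x400020009000380000000000000000000000000000000) (nat_lit 0x0) (nat_lit 0x4000040002000000000000000000000000000) := D_39 (nat_lit 126) (nat_lit 109) (nat_lit 146) (nat_lit 4) (nat_lit 8) (nat_lit 10) (nat_lit 3) (nat_lit 7) (nat_lit 7) (by decide +kernel)
theorem L102504 : W_39 (nat_lit 2) (nat_lit 0x2c0012000d000380000000800000000000000000000000) (nat_lit 0x0) (nat_lit 0x1000210000000000000000000000000000000000000000) := D_39 (nat_lit 180) (nat_lit 165) (nat_lit 160) (nat_lit 2) (nat_lit 8) (nat_lit 10) (nat_lit 0) (nat_lit 11) (nat_lit 10) (by decide +kernel)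
theorem L102505 : W_39 (nat_lit 3) (nat_lit 0xc0012000d000380000000800000000000000000000000) (nat_lit 0x0) (nat_lit 0x40003000210000000000000000000000000000000000000000) := T_39 (nat_lit 181) (nat_lit 198) (nat_lit 4) (nat_lit 11) (nat_lit 11) L102504 (by decide +kernel)
theorem L102506 : W_39 (nat_lit 4) (nat_lit 0xc0012000d000380000000000000000000000000000000) (nat_lit 0x0) (nat_lit 0x40003000210000000000010000800000000000000000000000) := T_39 (nat_lit 95) (nat_lit 112) (nat_lit 7) (nat_lit 10) (nat_lit 5) L102505 (by decide +kernel)
theorem L102507 : W_39 (nat_lit 5) (nat_lit 0x40012000d000380000000000000000000000000000000) (nat_lit 0x0) (nat_lit 0x50003800210000000000010000800000000000000000000000) := T_39 (nat_lit 179) (nat_lit 196) (nat_lit 7) (nat_lit 8) (nat_lit 7) L102506 (by decide +kernel)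
theorem L102508 : W_39 (nat_lit 2) (nat_lit 0x11000f800040012000d000380000000800000000000000000000000) (nat_lit 0x0) (nat_lit 0xc000200000000000000000000000000000000000000000) := D_39 (nat_lit 182) (nat_lit 183) (nat_lit 165) (nat_lit 2) (nat_lit 9) (nat_lit 11) (nat_lit 4) (nat_lit 12) (nat_lit 12) (by decide +kernel)
theorem L102509 : W_39 (nat_lit 3) (nat_lit 0x110007800040012000d000380000000800000000000000000000000) (nat_lit 0x0) (nat_lit 0x200008000c000200000000000000000000000000000000000000000) := T_39 (nat_lit 199) (nat_lit 217) (nat_lit 3) (nat_lit 9) (nat_lit 11) L102508 (by decide +kernel)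
theorem L102510 : W_39 (nat_lit 4) (nat_lit 0x10007800040012000d000380000000800000000000000000000000) (nat_lit 0x0) (nat_lit 0x380008000c000200000000000000000000000000000000000000000) := T_39 (nat_lit 216) (nat_lit 215) (nat_lit 3) (nat_lit 8) (nat_lit 11) L102509 (by decide +kernel)
theorem L102511 : W_39 (nat_lit 5) (nat_lit 0x7800040012000d000380000000800000000000000000000000) (nat_lit 0x0) (nat_lit 0x398008000c000200000000000000000000000000000000000000000) := T_39 (nat_lit 212) (nat_lit 211) (nat_lit 1) (nat_lit 11) (nat_lit 11) L102510 (by decide +kernel)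
theorem L102512 : W_39 (nat_lit 6) (nat_lit 0x5800040012000d000380000000800000000000000000000000) (nat_lit 0x0) (nat_lit 0x39800a000c200200000000000000000000000000000000000000000) := T_39 (nat_lit 197) (nat_lit 177) (nat_lit 0) (nat_lit 11) (nat_lit 11) L102511 (by decide +kernel)
theorem L102513 : W_39 (nat_lit 7) (nat_lit 0x5000040012000d000380000000800000000000000000000000) (nat_lit 0x0) (nat_lit 0x3b800a800c200200000000000000000000000000000000000000000) := T_39 (nat_lit 195) (nat_lit 213) (nat_lit 7) (nat_lit 8) (nat_lit 8) L102512 (by decide +kernel)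
theorem L102514 : W_39 (nat_lit 8) (nat_lit 0x5000040012000d000380000000000000000000000000000000) (nat_lit 0x0) (nat_lit 0x3b800a800c200200000000000010000800000000000000000000000) := T_39 (nat_lit 95) (nat_lit 112) (nat_lit 7) (nat_lit 10) (nat_lit 5) L102513 (by decide +kernel)
theorem L102515 : W_39 (nat_lit 9) (nat_lit 0x4000040012000d000380000000000000000000000000000000) (nat_lit 0x0) (nat_lit 0x3b800b800ca00200000000000010000800000000000000000000000) := T_39 (nat_lit 196) (nat_lit 179) (nat_lit 7) (nat_lit 8) (nat_lit 7) L102514 (by decide +kernel)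
theorem L102516 : W_39 (nat_lit 10) (nat_lit 0x40012000d000380000000000000000000000000000000) (nat_lit 0x0) (nat_lit 0x3b800f800ea00200000000000010000800000000000000000000000) := T_39 (nat_lit 198) (nat_lit 181) (nat_lit 4) (nat_lit 11) (nat_lit 11) L102515 (by decide +kernel)
theorem L102517 : W_39 (nat_lit 2) (nat_lit 0x40012000d000380010000000000000000000000000000) (nat_lit 0x0) (nat_lit 0x40002000080000000000000000000000000000000000000000) := D_39 (nat_lit 181) (nat_lit 198) (nat_lit 163) (nat_lit 4) (nat_lit 11) (nat_lit 11) (nat_lit 7) (nat_lit 10) (nat_lit 6) (by decide +kernel)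
theorem L102518 : W_39 (nat_lit 3) (nat_lit 0x40012000d000380000000000000000000000000000000) (nat_lit 0x0) (nat_lit 0x40002000080000000000010000800000000000000000000000) := T_39 (nat_lit 112) (nat_lit 95) (nat_lit 7) (nat_lit 10) (nat_lit 5) L102517 (by decide +kernel)
theorem L102519 : W_39 (nat_lit 2) (nat_lit 0x1c001a000d000380010000000000000000000000000000) (nat_lit 0x0) (nat_lit 0x400020000000000000000400000000000000000000000000000000) := D_39 (nat_lit 197) (nat_lit 214) (nat_lit 130) (nat_lit 6) (nat_lit 10) (nat_lit 12) (nat_lit 6) (nat_lit 10) (nat_lit 11) (by decide +kernel)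
theorem L102520 : W_39 (nat_lit 3) (nat_lit 0xc001a000d000380010000000000000000000000000000) (nat_lit 0x0) (nat_lit 0x400020001200000000000400000000000000000000000000000000) := T_39 (nat_lit 180) (nat_lit 177) (nat_lit 2) (nat_lit 7) (nat_lit 10) L102519 (by decide +kernel)
theorem L102521 : W_39 (nat_lit 4) (nat_lit 0xc0012000d000380010000000000000000000000000000) (nat_lit 0x0) (nat_lit 0x4000200012000c0000000400000000000000000000000000000000) := T_39 (nat_lit 163) (nat_lit 162) (nat_lit 5) (nat_lit 10) (nat_lit 6) L102520 (by decide +kernel)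
theorem L102522 : W_39 (nat_lit 5) (nat_lit 0xc0012000d000380000000000000000000000000000000) (nat_lit 0x0) (nat_lit 0x4000200012000c0000000400010000800000000000000000000000) := T_39 (nat_lit 112) (nat_lit 95) (nat_lit 7) (nat_lit 10) (nat_lit 5) L102521 (by decide +kernel)
theorem L102523 : W_39 (nat_lit 6) (nat_lit 0x40012000d000380000000000000000000000000000000) (nat_lit 0x0) (nat_lit 0x400030001a000c0000000400010000800000000000000000000000) := T_39 (nat_lit 179) (nat_lit 196) (nat_lit 7) (nat_lit 8) (nat_lit 7) L102522 (by decide +kernel)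
theorem L102524 : W_39 (nat_lit 2) (nat_lit 0x11000f800040012000d000380000000000000000000000000000000) (nat_lit 0x0) (nat_lit 0xc000200000000000000000000000000000000000000000) := D_39 (nat_lit 182) (nat_lit 183) (nat_lit 165) (nat_lit 2) (nat_lit 9) (nat_lit 11) (nat_lit 4) (nat_lit 12) (nat_lit 12) (by decide +kernel)
theorem L102525 : W_39 (nat_lit 3) (nat_lit 0x110007800040012000d000380000000000000000000000000000000) (nat_lit 0x0) (nat_lit 0x200008000c000200000000000000000000000000000000000000000) := T_39 (nat_lit 199) (nat_lit 217) (nat_lit 3) (nat_lit 9) (nat_lit 11) L102524 (by decide +kernel)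
theorem L102526 : W_39 (nat_lit 4) (nat_lit 0x10007800040012000d000380000000000000000000000000000000) (nat_lit 0x0) (nat_lit 0x380008000c000200000000000000000000000000000000000000000) := T_39 (nat_lit 216) (nat_lit 215) (nat_lit 3) (nat_lit 8) (nat_lit 11) L102525 (by decide +kernel)
theorem L102527 : W_39 (nat_lit 5) (nat_lit 0x7800040012000d000380000000000000000000000000000000) (nat_lit 0x0) (nat_lit 0x398008000c000200000000000000000000000000000000000000000) := T_39 (nat_lit 212) (nat_lit 211) (nat_lit 1) (nat_lit 11) (nat_lit 11) L102526 (by decide +kernel)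
theorem L102528 : W_39 (nat_lit 6) (nat_lit 0x5800040012000d000380000000000000000000000000000000) (nat_lit 0x0) (nat_lit 0x39800a000c200200000000000000000000000000000000000000000) := T_39 (nat_lit 197) (nat_lit 177) (nat_lit 0) (nat_lit 11) (nat_lit 11) L102527 (by decide +kernel)
theorem L102529 : W_39 (nat_lit 7) (nat_lit 0x5000040012000d000380000000000000000000000000000000) (nat_lit 0x0) (nat_lit 0x3b800a800c200200000000000000000000000000000000000000000) := T_39 (nat_lit 195) (nat_lit 213) (nat_lit 7) (nat_lit 8) (nat_lit 8) L102528 (by decide +kernel)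
theorem L102530 : W_39 (nat_lit 8) (nat_lit 0x4000040012000d000380000000000000000000000000000000) (nat_lit 0x0) (nat_lit 0x3b800b800ca00200000000000000000000000000000000000000000) := T_39 (nat_lit 196) (nat_lit 179) (nat_lit 7) (nat_lit 8) (nat_lit 7) L102529 (by decide +kernel)
theorem L102531 : W_39 (nat_lit 9) (nat_lit 0x40012000d000380000000000000000000000000000000) (nat_lit 0x0) (nat_lit 0x3b800f800ea00200000000000000000000000000000000000000000) := T_39 (nat_lit 198) (nat_lit 181) (nat_lit 4) (nat_lit 11) (nat_lit 11) L102530 (by decide +kernel)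
theorem L102532 : W_39 (nat_lit 11) (nat_lit 0x40002000d000380000000000000000000000000000000) (nat_lit 0x0) (nat_lit 0x3f800f800fa003d0000000400010000800000000000000000000000) := Q_39 (nat_lit 164) (C_39 L102507 (C_39 L102516 (C_39 L102518 (C_39 L102523 (C_39 L102531 N_39))))) (by decide +kernel)
theorem L102533 : W_39 (nat_lit 2) (nat_lit 0x40002000d000380000000000000000000000000000000) (nat_lit 0x0) (nat_lit 0x30000400000000000000000000000000000000) := D_39 (nat_lit 148) (nat_lit 130) (nat_lit 149) (nat_lit 3) (nat_lit 8) (nat_lit 7) (nat_lit 0) (nat_lit 13) (nat_lit 8) (by decide +kernel)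
theorem L102534 : W_39 (nat_lit 2) (nat_lit 0x3c0002000d000380000000000000000000000000000000) (nat_lit 0x0) (nat_lit 0xc0000000100000000000000000000000000000000000000000) := D_39 (nat_lit 198) (nat_lit 164) (nat_lit 199) (nat_lit 4) (nat_lit 11) (nat_lit 11) (nat_lit 3) (nat_lit 8) (nat_lit 10) (by decide +kernel)
theorem L102535 : W_39 (nat_lit 3) (nat_lit 0x2c0002000d000380000000000000000000000000000000) (nat_lit 0x0) (nat_lit 0xc0001000110000000000000000000000000000000000000000) := T_39 (nat_lit 180) (nat_lit 160) (nat_lit 0) (nat_lit 11) (nat_lit 10) L102534 (by decide +kernel)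
theorem L102536 : W_39 (nat_lit 4) (nat_lit 0x240002000d000380000000000000000000000000000000) (nat_lit 0x0) (nat_lit 0xd0001800110000000000000000000000000000000000000000) := T_39 (nat_lit 179) (nat_lit 196) (nat_lit 7) (nat_lit 8) (nat_lit 7) L102535 (by decide +kernel)
theorem L102537 : W_39 (nat_lit 2) (nat_lit 0x5800240002002d000380000000000000000000000000000000) (nat_lit 0x0) (nat_lit 0x20004200000000000000000000000000000000000000000000) := D_39 (nat_lit 197) (nat_lit 182) (nat_lit 177) (nat_lit 2) (nat_lit 8) (nat_lit 11) (nat_lit 0) (nat_lit 11) (nat_lit 11) (by decide +kernel)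
theorem L102538 : W_39 (nat_lit 3) (nat_lit 0x5000240002002d000380000000000000000000000000000000) (nat_lit 0x0) (nat_lit 0x200028004200000000000000000000000000000000000000000000) := T_39 (nat_lit 195) (nat_lit 213) (nat_lit 7) (nat_lit 8) (nat_lit 8) L102537 (by decide +kernel)
theorem L102539 : W_39 (nat_lit 4) (nat_lit 0x5000240002000d000380000000000000000000000000000000) (nat_lit 0x0) (nat_lit 0x200028004200000030000000000000000000000000000000000000) := T_39 (nat_lit 149) (nat_lit 148) (nat_lit 0) (nat_lit 13) (nat_lit 8) L102538 (by decide +kernel)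
theorem L102540 : W_39 (nat_lit 5) (nat_lit 0x4000240002000d000380000000000000000000000000000000) (nat_lit 0x0) (nat_lit 0x200038004a00000030000000000000000000000000000000000000) := T_39 (nat_lit 196) (nat_lit 179) (nat_lit 7) (nat_lit 8) (nat_lit 7) L102539 (by decide +kernel)
theorem L102541 : W_39 (nat_lit 6) (nat_lit 0x240002000d000380000000000000000000000000000000) (nat_lit 0x0) (nat_lit 0x200078004a00100030000000000000000000000000000000000000) := T_39 (nat_lit 198) (nat_lit 164) (nat_lit 4) (nat_lit 11) (nat_lit 11) L102540 (by decide +kernel)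
theorem L102542 : W_39 (nat_lit 2) (nat_lit 0x240012002d000380000000000000000000000000000000) (nat_lit 0x0) (nat_lit 0x80000000000010000800000000000000000000000) := D_39 (nat_lit 112) (nat_lit 163) (nat_lit 95) (nat_lit 7) (nat_lit 10) (nat_lit 6) (nat_lit 7) (nat_lit 10) (nat_lit 5) (by decide +kernel)
theorem L102543 : W_39 (nat_lit 3) (nat_lit 0x240002002d000380000000000000000000000000000000) (nat_lit 0x0) (nat_lit 0x40000000180000000000010000800000000000000000000000) := T_39 (nat_lit 164) (nat_lit 198) (nat_lit 4) (nat_lit 11) (nat_lit 11) L102542 (by decide +kernel)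
theorem L102544 : W_39 (nat_lit 4) (nat_lit 0x240002000d000380000000000000000000000000000000) (nat_lit 0x0) (nat_lit 0x40000000180030000000010000800000000000000000000000) := T_39 (nat_lit 149) (nat_lit 148) (nat_lit 0) (nat_lit 13) (nat_lit 8) L102543 (by decide +kernel)
theorem L102545 : W_39 (nat_lit 2) (nat_lit 0x3c0002000d000380000000000000000000000000000000) (nat_lit 0x0) (nat_lit 0xc0000000080000000000000000000000000000000000000000) := D_39 (nat_lit 198) (nat_lit 199) (nat_lit 163) (nat_lit 3) (nat_lit 8) (nat_lit 10) (nat_lit 7) (nat_lit 10) (nat_lit 7) (by decide +kernel)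
theorem L102546 : W_39 (nat_lit 3) (nat_lit 0x2c0002000d000380000000000000000000000000000000) (nat_lit 0x0) (nat_lit 0xc0001000090000000000000000000000000000000000000000) := T_39 (nat_lit 180) (nat_lit 160) (nat_lit 0) (nat_lit 11) (nat_lit 10) L102545 (by decide +kernel)
theorem L102547 : W_39 (nat_lit 4) (nat_lit 0x240002000d000380000000000000000000000000000000) (nat_lit 0x0) (nat_lit 0xd0001800090000000000000000000000000000000000000000) := T_39 (nat_lit 179) (nat_lit 196) (nat_lit 7) (nat_lit 8) (nat_lit 7) L102546 (by decide +kernel)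
theorem L102548 : W_39 (nat_lit 2) (nat_lit 0x7c0002002d000380000000000000000000000000000000) (nat_lit 0x0) (nat_lit 0x700000000000000000000000000000000000000000) := D_39 (nat_lit 165) (nat_lit 164) (nat_lit 166) (nat_lit 2) (nat_lit 8) (nat_lit 10) (nat_lit 2) (nat_lit 9) (nat_lit 10) (by decide +kernel)
theorem L102549 : W_39 (nat_lit 3) (nat_lit 0x3c0002002d000380000000000000000000000000000000) (nat_lit 0x0) (nat_lit 0x4000740000000000000000000000000000000000000000) := T_39 (nat_lit 182) (nat_lit 162) (nat_lit 0) (nat_lit 12) (nat_lit 10) L102548 (by decide +kernel)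
theorem L102550 : W_39 (nat_lit 4) (nat_lit 0x2c0002002d000380000000000000000000000000000000) (nat_lit 0x0) (nat_lit 0x5000750000000000000000000000000000000000000000) := T_39 (nat_lit 180) (nat_lit 160) (nat_lit 0) (nat_lit 11) (nat_lit 10) L102549 (by decide +kernel)
theorem L102551 : W_39 (nat_lit 5) (nat_lit 0x240002002d000380000000000000000000000000000000) (nat_lit 0x0) (nat_lit 0x10005800750000000000000000000000000000000000000000) := T_39 (nat_lit 179) (nat_lit 196) (nat_lit 7) (nat_lit 8) (nat_lit 7) L102550 (by decide +kernel)
theorem L102552 : W_39 (nat_lit 6) (nat_lit 0x240002000d000380000000000000000000000000000000) (nat_lit 0x0) (nat_lit 0x10005800750030000000000000000000000000000000000000) := T_39 (nat_lit 149) (nat_lit 148) (nat_lit 0) (nat_lit 13) (nat_lit 8) L102551 (by decide +kernel)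
theorem L102553 : W_39 (nat_lit 7) (nat_lit 0x40002000d000380000000000000000000000000000000) (nat_lit 0x0) (nat_lit 0x2000f8007a007d0030000000010000800000000000000000000000) := Q_39 (nat_lit 181) (C_39 L102536 (C_39 L102541 (C_39 L102544 (C_39 L102547 (C_39 L102552 N_39))))) (by decide +kernel)
theorem L102554 : W_39 (nat_lit 12) (nat_lit 0x400020009000380000000000000000000000000000000) (nat_lit 0x0) (nat_lit 0x3f800f800fa007d0034000400010000800000000000000000000000) := Q_39 (nat_lit 146) (C_39 L102532 (C_39 L102533 (C_39 L102553 N_39))) (by decide +kernel)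
theorem L102555 : W_39 (nat_lit 2) (nat_lit 0x3c001200090003c0000000000000000000000000000000) (nat_lit 0x0) (nat_lit 0x20000000000000000400010000000000000000000000000000) := D_39 (nat_lit 130) (nat_lit 197) (nat_lit 112) (nat_lit 5) (nat_lit 11) (nat_lit 7) (nat_lit 4) (nat_lit 11) (nat_lit 10) (by decide +kernel)
theorem L102556 : W_39 (nat_lit 3) (nat_lit 0x3c000200090003c0000000000000000000000000000000) (nat_lit 0x0) (nat_lit 0x20000000300000000400010000000000000000000000000000) := T_39 (nat_lit 164) (nat_lit 165) (nat_lit 2) (nat_lit 8) (nat_lit 10) L102555 (by decide +kernel)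
theorem L102557 : W_39 (nat_lit 4) (nat_lit 0x3c00020009000380000000000000000000000000000000) (nat_lit 0x0) (nat_lit 0x20000000300000000440012000000000000000000000000000) := T_39 (nat_lit 126) (nat_lit 109) (nat_lit 4) (nat_lit 8) (nat_lit 10) L102556 (by decide +kernel)
theorem L102558 : W_39 (nat_lit 5) (nat_lit 0x2c00020009000380000000000000000000000000000000) (nat_lit 0x0) (nat_lit 0x20001000310000000440012000000000000000000000000000) := T_39 (nat_lit 180) (nat_lit 160) (nat_lit 0) (nat_lit 11) (nat_lit 10) L102557 (by decide +kernel)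
theorem L102559 : W_39 (nat_lit 6) (nat_lit 0x2400020009000380000000000000000000000000000000) (nat_lit 0x0) (nat_lit 0x30001800310000000440012000000000000000000000000000) := T_39 (nat_lit 179) (nat_lit 196) (nat_lit 7) (nat_lit 8) (nat_lit 7) L102558 (by decide +kernel)
theorem L102560 : W_39 (nat_lit 7) (nat_lit 0x24000200090003c0000000000000000000000000000000) (nat_lit 0x0) (nat_lit 0x14000e0005000100010000c00050000000000000000000000000000) := T_39 (nat_lit 130) (nat_lit 148) (nat_lit 3) (nat_lit 8) (nat_lit 7) L102470 (by decide +kernel)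
theorem L102561 : W_39 (nat_lit 8) (nat_lit 0x2400020009000380000000000000000000000000000000) (nat_lit 0x0) (nat_lit 0x14000e0005000100010000c40052000000000000000000000000000) := T_39 (nat_lit 126) (nat_lit 109) (nat_lit 4) (nat_lit 8) (nat_lit 10) L102560 (by decide +kernel)
theorem L102562 : W_39 (nat_lit 5) (nat_lit 0x2400020009000380000000000000000000000000000000) (nat_lit 0x0) (nat_lit 0x10001800310010000400010000000000000000000000000000) := T_39 (nat_lit 130) (nat_lit 148) (nat_lit 3) (nat_lit 8) (nat_lit 7) L102455 (by decide +kernel)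
theorem L102563 : W_39 (nat_lit 4) (nat_lit 0x980024001200090007c0000000000000000000000000000000) (nat_lit 0x0) (nat_lit 0x1400060000200000000000800040000000000000000000000000000) := T_39 (nat_lit 131) (nat_lit 114) (nat_lit 6) (nat_lit 11) (nat_lit 10) L102458 (by decide +kernel)
theorem L102564 : W_39 (nat_lit 5) (nat_lit 0x180024001200090007c0000000000000000000000000000000) (nat_lit 0x0) (nat_lit 0x14000e0004200000000000800040000000000000000000000000000) := T_39 (nat_lit 199) (nat_lit 182) (nat_lit 7) (nat_lit 11) (nat_lit 7) L102563 (by decide +kernel)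
theorem L102565 : W_39 (nat_lit 6) (nat_lit 0x180024000200090007c0000000000000000000000000000000) (nat_lit 0x0) (nat_lit 0x14000e0004200100000000800050000000000000000000000000000) := T_39 (nat_lit 164) (nat_lit 112) (nat_lit 4) (nat_lit 11) (nat_lit 10) L102564 (by decide +kernel)
theorem L102566 : W_39 (nat_lit 7) (nat_lit 0x180024000200090003c0000000000000000000000000000000) (nat_lit 0x0) (nat_lit 0x14000e0004200100010000c00050000000000000000000000000000) := T_39 (nat_lit 130) (nat_lit 148) (nat_lit 3) (nat_lit 8) (nat_lit 7) L102565 (by decide +kernel)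
theorem L102567 : W_39 (nat_lit 8) (nat_lit 0x100024000200090003c0000000000000000000000000000000) (nat_lit 0x0) (nat_lit 0x16000e8004200100010000c00050000000000000000000000000000) := T_39 (nat_lit 195) (nat_lit 213) (nat_lit 7) (nat_lit 8) (nat_lit 8) L102566 (by decide +kernel)
theorem L102568 : W_39 (nat_lit 9) (nat_lit 0x10002400020009000380000000000000000000000000000000) (nat_lit 0x0) (nat_lit 0x16000e8004200100010000c40052000000000000000000000000000) := T_39 (nat_lit 126) (nat_lit 109) (nat_lit 4) (nat_lit 8) (nat_lit 10) L102567 (by decide +kernel)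
theorem L102569 : W_39 (nat_lit 10) (nat_lit 0x2400020009000380000000000000000000000000000000) (nat_lit 0x0) (nat_lit 0x16000f8004a00100010000c40052000000000000000000000000000) := T_39 (nat_lit 196) (nat_lit 179) (nat_lit 7) (nat_lit 8) (nat_lit 7) L102568 (by decide +kernel)
theorem L102570 : W_39 (nat_lit 9) (nat_lit 0x2400020009000380000000000000000000000000000000) (nat_lit 0x0) (nat_lit 0xf0005b800d0010000440002000000000000000000000000000) := T_39 (nat_lit 130) (nat_lit 148) (nat_lit 3) (nat_lit 8) (nat_lit 7) L102479 (by decide +kernel)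
theorem L102571 : W_39 (nat_lit 2) (nat_lit 0x3e001200090003c0000000000000000000000000000000) (nat_lit 0x0) (nat_lit 0xe0000000000000000000000000000000000000000000000000) := D_39 (nat_lit 198) (nat_lit 197) (nat_lit 199) (nat_lit 3) (nat_lit 7) (nat_lit 10) (nat_lit 3) (nat_lit 8) (nat_lit 10) (by decide +kernel)
theorem L102572 : W_39 (nat_lit 3) (nat_lit 0x3c001200090003c0000000000000000000000000000000) (nat_lit 0x0) (nat_lit 0xe0000200080000000000000000000000000000000000000000) := T_39 (nat_lit 177) (nat_lit 163) (nat_lit 2) (nat_lit 7) (nat_lit 10) L102571 (by decide +kernel)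
theorem L102573 : W_39 (nat_lit 4) (nat_lit 0x3c000200090003c0000000000000000000000000000000) (nat_lit 0x0) (nat_lit 0xe0000200380000000000000000000000000000000000000000) := T_39 (nat_lit 164) (nat_lit 165) (nat_lit 2) (nat_lit 8) (nat_lit 10) L102572 (by decide +kernel)
theorem L102574 : W_39 (nat_lit 5) (nat_lit 0x3c00020009000380000000000000000000000000000000) (nat_lit 0x0) (nat_lit 0xe0000200380000000040002000000000000000000000000000) := T_39 (nat_lit 126) (nat_lit 109) (nat_lit 4) (nat_lit 8) (nat_lit 10) L102573 (by decide +kernel)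
theorem L102575 : W_39 (nat_lit 6) (nat_lit 0x2c00020009000380000000000000000000000000000000) (nat_lit 0x0) (nat_lit 0xe0001200390000000040002000000000000000000000000000) := T_39 (nat_lit 180) (nat_lit 160) (nat_lit 0) (nat_lit 11) (nat_lit 10) L102574 (by decide +kernel)
theorem L102576 : W_39 (nat_lit 7) (nat_lit 0x2400020009000380000000000000000000000000000000) (nat_lit 0x0) (nat_lit 0xf0001a00390000000040002000000000000000000000000000) := T_39 (nat_lit 179) (nat_lit 196) (nat_lit 7) (nat_lit 8) (nat_lit 7) L102575 (by decide +kernel)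
theorem L102577 : W_39 (nat_lit 11) (nat_lit 0x400020009000380000000000000000000000000000000) (nat_lit 0x0) (nat_lit 0x16000f8007b803d0010000c40052000000000000000000000000000) := Q_39 (nat_lit 181) (C_39 L102559 (C_39 L102561 (C_39 L102562 (C_39 L102569 (C_39 L102570 (C_39 L102576 N_39)))))) (by decide +kernel)
theorem L102578 : W_39 (nat_lit 13) (nat_lit 0x400020001000380000000000000000000000000000000) (nat_lit 0x0) (nat_lit 0x3f800f800fb807d003c000c40052000800000000000000000000000) := Q_39 (nat_lit 147) (C_39 L102503 (C_39 L102554 (C_39 L102577 N_39))) (by decide +kernel)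
theorem L102579 : W_39 (nat_lit 16) (nat_lit 0x400020001000180000000000000000000000000000000) (nat_lit 0x0) (nat_lit 0x3f801fb81fbc0fde1fc007e407f20078003c0000000000000000000) := Q_39 (nat_lit 129) (C_39 L102127 (C_39 L102369 (C_39 L102374 (C_39 L102436 (C_39 L102440 (C_39 L102491 (C_39 L102502 (C_39 L102578 N_39)))))))) (by decide +kernel)
theorem L102580 : W_39 (nat_lit 17) (nat_lit 0x400020001000080000000000000000000000000000000) (nat_lit 0x0) (nat_lit 0x3f801fb81fbc0fde1fc007f407fa0078003c0000000000000000000) := T_39 (nat_lit 128) (nat_lit 111) (nat_lit 6) (nat_lit 8) (nat_lit 10) L102579 (by decide +kernel)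
theorem L102581 : W_39 (nat_lit 2) (nat_lit 0x6000200012001f0000000000000000000000000000000) (nat_lit 0x0) (nat_lit 0x1c00000000000000000000000000) := D_39 (nat_lit 107) (nat_lit 108) (nat_lit 106) (nat_lit 0) (nat_lit 9) (nat_lit 7) (nat_lit 0) (nat_lit 8) (nat_lit 7) (by decide +kernel)
theorem L102582 : W_39 (nat_lit 3) (nat_lit 0x6000200012001e0000000000000000000000000000000) (nat_lit 0x0) (nat_lit 0x100010001c00000000000000000000000000) := T_39 (nat_lit 124) (nat_lit 140) (nat_lit 1) (nat_lit 8) (nat_lit 7) L102581 (by decide +kernel)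
theorem L102583 : W_39 (nat_lit 4) (nat_lit 0x6000200012001c0000000000000000000000000000000) (nat_lit 0x0) (nat_lit 0x500030001c00000000000000000000000000) := T_39 (nat_lit 125) (nat_lit 142) (nat_lit 1) (nat_lit 9) (nat_lit 7) L102582 (by decide +kernel)
theorem L102584 : W_39 (nat_lit 5) (nat_lit 0x6000200012000c0000000000000000000000000000000) (nat_lit 0x0) (nat_lit 0x500130009c00000000000000000000000000) := T_39 (nat_lit 128) (nat_lit 111) (nat_lit 6) (nat_lit 8) (nat_lit 10) L102583 (by decide +kernel)
theorem L102585 : W_39 (nat_lit 6) (nat_lit 0x4000200012000c0000000000000000000000000000000) (nat_lit 0x0) (nat_lit 0x4000200000000500130009c00000000000000000000000000) := T_39 (nat_lit 177) (nat_lit 194) (nat_lit 5) (nat_lit 8) (nat_lit 7) L102584 (by decide +kernel)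
theorem L102586 : W_39 (nat_lit 2) (nat_lit 0x80004000200012000c0000000000000000000000000000000) (nat_lit 0x0) (nat_lit 0x80004000200000000000000000000000000000000000000000000) := D_39 (nat_lit 194) (nat_lit 177) (nat_lit 211) (nat_lit 5) (nat_lit 8) (nat_lit 7) (nat_lit 5) (nat_lit 8) (nat_lit 8) (by decide +kernel)
theorem L102587 : W_39 (nat_lit 2) (nat_lit 0x1000080004000200012000c0000000000000000000000000000000) (nat_lit 0x0) (nat_lit 0x4000200010000000000000000000000000000000000000000000000000) := D_39 (nat_lit 213) (nat_lit 196) (nat_lit 230) (nat_lit 7) (nat_lit 8) (nat_lit 8) (nat_lit 7) (nat_lit 8) (nat_lit 9) (by decide +kernel)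
theorem L102588 : W_39 (nat_lit 2) (nat_lit 0x50001000080004000200012000c0000000000000000000000000000000) (nat_lit 0x0) (nat_lit 0xa0002000000000000000000000000000000000000000000000000000000000) := D_39 (nat_lit 229) (nat_lit 247) (nat_lit 245) (nat_lit 7) (nat_lit 8) (nat_lit 10) (nat_lit 5) (nat_lit 8) (nat_lit 10) (by decide +kernel)
theorem L102589 : W_39 (nat_lit 3) (nat_lit 0x40001000080004000200012000c0000000000000000000000000000000) (nat_lit 0x0) (nat_lit 0xa0003000080000000000000000000000000000000000000000000000000000) := T_39 (nat_lit 228) (nat_lit 211) (nat_lit 5) (nat_lit 8) (nat_lit 9) L102588 (by decide +kernel)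
theorem L102590 : W_39 (nat_lit 4) (nat_lit 0x1000080004000200012000c0000000000000000000000000000000) (nat_lit 0x0) (nat_lit 0xa0007000280000000000000000000000000000000000000000000000000000) := T_39 (nat_lit 230) (nat_lit 213) (nat_lit 7) (nat_lit 8) (nat_lit 9) L102589 (by decide +kernel)
theorem L102591 : W_39 (nat_lit 2) (nat_lit 0x80004000240013e00e0000000000000000000000000000000) (nat_lit 0x0) (nat_lit 0x3800000000000000000000000000000) := D_39 (nat_lit 120) (nat_lit 119) (nat_lit 121) (nat_lit 0) (nat_lit 4) (nat_lit 8) (nat_lit 0) (nat_lit 5) (nat_lit 8) (by decide +kernel)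
theorem L102592 : W_39 (nat_lit 3) (nat_lit 0x80004000240013c00e0000000000000000000000000000000) (nat_lit 0x0) (nat_lit 0x2000020003800000000000000000000000000000) := T_39 (nat_lit 137) (nat_lit 157) (nat_lit 3) (nat_lit 1) (nat_lit 8) L102591 (by decide +kernel)
theorem L102593 : W_39 (nat_lit 4) (nat_lit 0x80004000240013800e0000000000000000000000000000000) (nat_lit 0x0) (nat_lit 0xa000060003800000000000000000000000000000) := T_39 (nat_lit 138) (nat_lit 159) (nat_lit 3) (nat_lit 2) (nat_lit 8) L102592 (by decide +kernel)
theorem L102594 : W_39 (nat_lit 2) (nat_lit 0x800040002c0013400d0000800000000000000000000000000) (nat_lit 0x0) (nat_lit 0x40002000000000000000040000000000000000000000) := D_39 (nat_lit 157) (nat_lit 174) (nat_lit 90) (nat_lit 5) (nat_lit 5) (nat_lit 6) (nat_lit 5) (nat_lit 5) (nat_lit 5) (by decide +kernel)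
theorem L102595 : W_39 (nat_lit 3) (nat_lit 0x800040002c0013400d0000000000000000000000000000000) (nat_lit 0x0) (nat_lit 0x140002000000000000800040000000000000000000000) := T_39 (nat_lit 107) (nat_lit 176) (nat_lit 7) (nat_lit 5) (nat_lit 6) L102594 (by decide +kernel)
theorem L102596 : W_39 (nat_lit 4) (nat_lit 0x800040002c0013000d0000000000000000000000000000000) (nat_lit 0x0) (nat_lit 0x1400020000c0000000800040000000000000000000000) := T_39 (nat_lit 138) (nat_lit 139) (nat_lit 3) (nat_lit 2) (nat_lit 8) L102595 (by decide +kernel)
theorem L102597 : W_39 (nat_lit 5) (nat_lit 0x80004000240013000d0000000000000000000000000000000) (nat_lit 0x0) (nat_lit 0x14001a0000c0000000800040000000000000000000000) := T_39 (nat_lit 159) (nat_lit 160) (nat_lit 0) (nat_lit 8) (nat_lit 9) L102596 (by decide +kernel)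
theorem L102598 : W_39 (nat_lit 6) (nat_lit 0x80004000240013000c0000000000000000000000000000000) (nat_lit 0x0) (nat_lit 0x14001a0000c0030000800040000000000000000000000) := T_39 (nat_lit 124) (nat_lit 125) (nat_lit 1) (nat_lit 8) (nat_lit 7) L102597 (by decide +kernel)
theorem L102599 : W_39 (nat_lit 5) (nat_lit 0x80004000240013000e0000000000000000000000000000000) (nat_lit 0x0) (nat_lit 0xa0004e0003800000000000000000000000000000) := T_39 (nat_lit 139) (nat_lit 142) (nat_lit 2) (nat_lit 3) (nat_lit 8) L102593 (by decide +kernel)
theorem L102600 : W_39 (nat_lit 6) (nat_lit 0x80004000240013000c0000000000000000000000000000000) (nat_lit 0x0) (nat_lit 0xa0004e0033800000000000000000000000000000) := T_39 (nat_lit 125) (nat_lit 124) (nat_lit 1) (nat_lit 8) (nat_lit 7) L102599 (by decide +kernel)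
theorem L102601 : W_39 (nat_lit 2) (nat_lit 0x80004800240013000e0000000000000000000000000000000) (nat_lit 0x0) (nat_lit 0x1000000000000400008000000000000000000000000000000) := D_39 (nat_lit 192) (nat_lit 123) (nat_lit 142) (nat_lit 4) (nat_lit 5) (nat_lit 11) (nat_lit 6) (nat_lit 5) (nat_lit 11) (by decide +kernel)
theorem L102602 : W_39 (nat_lit 3) (nat_lit 0x80004800240013000c0000000000000000000000000000000) (nat_lit 0x0) (nat_lit 0x1000000000000400038000000000000000000000000000000) := T_39 (nat_lit 125) (nat_lit 124) (nat_lit 1) (nat_lit 8) (nat_lit 7) L102601 (by decide +kernel)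
theorem L102603 : W_39 (nat_lit 2) (nat_lit 0x200090004800240013000c0000000000000000000000000000000) (nat_lit 0x0) (nat_lit 0x200010000800000000000000000000000000000000000000000000000) := D_39 (nat_lit 208) (nat_lit 225) (nat_lit 191) (nat_lit 5) (nat_lit 5) (nat_lit 9) (nat_lit 5) (nat_lit 5) (nat_lit 8) (by decide +kernel)
theorem L102604 : W_39 (nat_lit 3) (nat_lit 0x90004800240013000c0000000000000000000000000000000) (nat_lit 0x0) (nat_lit 0x200030000800000002000000000000000000000000000000000000000) := T_39 (nat_lit 209) (nat_lit 157) (nat_lit 4) (nat_lit 5) (nat_lit 12) L102603 (by decide +kernel)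
theorem L102605 : W_39 (nat_lit 4) (nat_lit 0x80004800240013000c0000000000000000000000000000000) (nat_lit 0x0) (nat_lit 0x200030001800000002000000008000000000000000000000000000000) := T_39 (nat_lit 192) (nat_lit 123) (nat_lit 4) (nat_lit 5) (nat_lit 11) L102604 (by decide +kernel)
theorem L102606 : W_39 (nat_lit 2) (nat_lit 0x80005c00240013000d0000000000000000000000000000000) (nat_lit 0x0) (nat_lit 0x200042000000000000000000000000000000000000000) := D_39 (nat_lit 177) (nat_lit 162) (nat_lit 157) (nat_lit 2) (nat_lit 5) (nat_lit 10) (nat_lit 0) (nat_lit 8) (nat_lit 10) (by decide +kernel)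
theorem L102607 : W_39 (nat_lit 3) (nat_lit 0x80004c00240013000d0000000000000000000000000000000) (nat_lit 0x0) (nat_lit 0x2000300042000000000000000000000000000000000000000) := T_39 (nat_lit 176) (nat_lit 193) (nat_lit 7) (nat_lit 5) (nat_lit 7) L102606 (by decide +kernel)
theorem L102608 : W_39 (nat_lit 4) (nat_lit 0x80004800240013000d0000000000000000000000000000000) (nat_lit 0x0) (nat_lit 0x2800340042000000000000000000000000000000000000000) := T_39 (nat_lit 174) (nat_lit 191) (nat_lit 5) (nat_lit 5) (nat_lit 7) L102607 (by decide +kernel)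
theorem L102609 : W_39 (nat_lit 5) (nat_lit 0x80004800240013000c0000000000000000000000000000000) (nat_lit 0x0) (nat_lit 0x2800340042000000030000000000000000000000000000000) := T_39 (nat_lit 124) (nat_lit 125) (nat_lit 1) (nat_lit 8) (nat_lit 7) L102608 (by decide +kernel)
theorem L102610 : W_39 (nat_lit 6) (nat_lit 0x80004000240013000c0000000000000000000000000000000) (nat_lit 0x0) (nat_lit 0x2000300038003c0042000400038000000000000000000000000000000) := Q_39 (nat_lit 175) (C_39 L102602 (C_39 L102605 (C_39 L102609 N_39))) (by decide +kernel)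
theorem L102611 : W_39 (nat_lit 2) (nat_lit 0x80004000340013000c8000400000000000000000000000000) (nat_lit 0x0) (nat_lit 0x1000080002000000000000000000000000000000000000000) := D_39 (nat_lit 175) (nat_lit 192) (nat_lit 157) (nat_lit 4) (nat_lit 5) (nat_lit 11) (nat_lit 7) (nat_lit 4) (nat_lit 6) (by decide +kernel)
theorem L102612 : W_39 (nat_lit 3) (nat_lit 0x80004000340013000c8000000000000000000000000000000) (nat_lit 0x0) (nat_lit 0x1000080002000000000000400020000000000000000000000) := T_39 (nat_lit 106) (nat_lit 89) (nat_lit 7) (nat_lit 4) (nat_lit 5) L102611 (by decide +kernel)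
theorem L102613 : W_39 (nat_lit 4) (nat_lit 0x80004000240013000c8000000000000000000000000000000) (nat_lit 0x0) (nat_lit 0x100008001a000000000000400020000000000000000000000) := T_39 (nat_lit 160) (nat_lit 159) (nat_lit 0) (nat_lit 8) (nat_lit 9) L102612 (by decide +kernel)
theorem L102614 : W_39 (nat_lit 2) (nat_lit 0x80004400360013000c8000600000000000000000000000000) (nat_lit 0x0) (nat_lit 0x400020001000000000000000000000000000000000000000) := D_39 (nat_lit 173) (nat_lit 190) (nat_lit 156) (nat_lit 5) (nat_lit 4) (nat_lit 7) (nat_lit 5) (nat_lit 4) (nat_lit 6) (by decide +kernel)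
theorem L102615 : W_39 (nat_lit 3) (nat_lit 0x80004000360013000c8000600000000000000000000000000) (nat_lit 0x0) (nat_lit 0x400060001000000004000000000000000000000000000000) := T_39 (nat_lit 174) (nat_lit 122) (nat_lit 4) (nat_lit 4) (nat_lit 10) L102614 (by decide +kernel)
theorem L102616 : W_39 (nat_lit 4) (nat_lit 0x80004000360013000c8000400000000000000000000000000) (nat_lit 0x0) (nat_lit 0x400060001000000004000200010000000000000000000000) := T_39 (nat_lit 105) (nat_lit 88) (nat_lit 4) (nat_lit 4) (nat_lit 9) L102615 (by decide +kernel)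
theorem L102617 : W_39 (nat_lit 5) (nat_lit 0x80004000340013000c8000400000000000000000000000000) (nat_lit 0x0) (nat_lit 0x4000e0003000000004000200010000000000000000000000) := T_39 (nat_lit 157) (nat_lit 175) (nat_lit 7) (nat_lit 4) (nat_lit 6) L102616 (by decide +kernel)
theorem L102618 : W_39 (nat_lit 6) (nat_lit 0x80004000340013000c8000000000000000000000000000000) (nat_lit 0x0) (nat_lit 0x4000e0003000000004000600030000000000000000000000) := T_39 (nat_lit 106) (nat_lit 89) (nat_lit 7) (nat_lit 4) (nat_lit 5) L102617 (by decide +kernel)
theorem L102619 : W_39 (nat_lit 7) (nat_lit 0x80004000240013000c8000000000000000000000000000000) (nat_lit 0x0) (nat_lit 0x4000e001b000000004000600030000000000000000000000) := T_39 (nat_lit 160) (nat_lit 159) (nat_lit 0) (nat_lit 8) (nat_lit 9) L102618 (by decide +kernel)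
theorem L102620 : W_39 (nat_lit 2) (nat_lit 0x80004000240013000c8000400000000000000000000000000) (nat_lit 0x0) (nat_lit 0x1000080002000000000000000000000000000000000000000) := D_39 (nat_lit 175) (nat_lit 192) (nat_lit 157) (nat_lit 4) (nat_lit 5) (nat_lit 11) (nat_lit 7) (nat_lit 4) (nat_lit 6) (by decide +kernel)
theorem L102621 : W_39 (nat_lit 3) (nat_lit 0x80004000240013000c8000000000000000000000000000000) (nat_lit 0x0) (nat_lit 0x1000080002000000000000400020000000000000000000000) := T_39 (nat_lit 106) (nat_lit 89) (nat_lit 7) (nat_lit 4) (nat_lit 5) L102620 (by decide +kernel)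
theorem L102622 : W_39 (nat_lit 2) (nat_lit 0x800042002d0017800cc000000020000000000000000000000) (nat_lit 0x0) (nat_lit 0x200010002000000000000000000000000000000000000000) := D_39 (nat_lit 172) (nat_lit 157) (nat_lit 189) (nat_lit 1) (nat_lit 6) (nat_lit 9) (nat_lit 5) (nat_lit 3) (nat_lit 7) (by decide +kernel)
theorem L102623 : W_39 (nat_lit 3) (nat_lit 0x800040002d0017800cc000000020000000000000000000000) (nat_lit 0x0) (nat_lit 0x600030002000000000000000000000000000000000000000) := T_39 (nat_lit 173) (nat_lit 190) (nat_lit 6) (nat_lit 3) (nat_lit 11) L102622 (by decide +kernel)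
theorem L102624 : W_39 (nat_lit 4) (nat_lit 0x800040002c0017800cc000000020000000000000000000000) (nat_lit 0x0) (nat_lit 0x600030003800000000000000000000000000000000000000) := T_39 (nat_lit 156) (nat_lit 155) (nat_lit 1) (nat_lit 6) (nat_lit 8) L102623 (by decide +kernel)
theorem L102625 : W_39 (nat_lit 5) (nat_lit 0x800040002c0017800c8000000020000000000000000000000) (nat_lit 0x0) (nat_lit 0x600030003800000006000000000000000000000000000000) := T_39 (nat_lit 122) (nat_lit 121) (nat_lit 0) (nat_lit 6) (nat_lit 8) L102624 (by decide +kernel)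
theorem L102626 : W_39 (nat_lit 6) (nat_lit 0x800040002c0013800c8000000020000000000000000000000) (nat_lit 0x0) (nat_lit 0x600030003800400026000000000000000000000000000000) := T_39 (nat_lit 142) (nat_lit 125) (nat_lit 2) (nat_lit 3) (nat_lit 8) L102625 (by decide +kernel)
theorem L102627 : W_39 (nat_lit 7) (nat_lit 0x800040002c0013000c8000000020000000000000000000000) (nat_lit 0x0) (nat_lit 0x6000300038004c0026000000000000000000000000000000) := T_39 (nat_lit 139) (nat_lit 138) (nat_lit 3) (nat_lit 2) (nat_lit 8) L102626 (by decide +kernel)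
theorem L102628 : W_39 (nat_lit 8) (nat_lit 0x800040002c0013000c8000000000000000000000000000000) (nat_lit 0x0) (nat_lit 0x6000300038004c0026000400020000000000000000000000) := T_39 (nat_lit 89) (nat_lit 106) (nat_lit 7) (nat_lit 4) (nat_lit 5) L102627 (by decide +kernel)
theorem L102629 : W_39 (nat_lit 9) (nat_lit 0x80004000240013000c8000000000000000000000000000000) (nat_lit 0x0) (nat_lit 0x60003001b8004c0026000400020000000000000000000000) := T_39 (nat_lit 159) (nat_lit 160) (nat_lit 0) (nat_lit 8) (nat_lit 9) L102628 (by decide +kernel)
theorem L102630 : W_39 (nat_lit 2) (nat_lit 0x900042002d0017800cc000000000000000000000000000000) (nat_lit 0x0) (nat_lit 0x200010002000000000000000000000000000000000000000) := D_39 (nat_lit 172) (nat_lit 157) (nat_lit 189) (nat_lit 1) (nat_lit 6) (nat_lit 9) (nat_lit 5) (nat_lit 3) (nat_lit 7) (by decide +kernel)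
theorem L102631 : W_39 (nat_lit 3) (nat_lit 0x900040002d0017800cc000000000000000000000000000000) (nat_lit 0x0) (nat_lit 0x600030002000000000000000000000000000000000000000) := T_39 (nat_lit 173) (nat_lit 190) (nat_lit 6) (nat_lit 3) (nat_lit 11) L102630 (by decide +kernel)
theorem L102632 : W_39 (nat_lit 4) (nat_lit 0x900040002c0017800cc000000000000000000000000000000) (nat_lit 0x0) (nat_lit 0x600030003800000000000000000000000000000000000000) := T_39 (nat_lit 156) (nat_lit 155) (nat_lit 1) (nat_lit 6) (nat_lit 8) L102631 (by decide +kernel)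
theorem L102633 : W_39 (nat_lit 5) (nat_lit 0x900040002c0017800c8000000000000000000000000000000) (nat_lit 0x0) (nat_lit 0x600030003800000006000000000000000000000000000000) := T_39 (nat_lit 122) (nat_lit 121) (nat_lit 0) (nat_lit 6) (nat_lit 8) L102632 (by decide +kernel)
theorem L102634 : W_39 (nat_lit 6) (nat_lit 0x900040002c0013800c8000000000000000000000000000000) (nat_lit 0x0) (nat_lit 0x600030003800400026000000000000000000000000000000) := T_39 (nat_lit 142) (nat_lit 125) (nat_lit 2) (nat_lit 3) (nat_lit 8) L102633 (by decide +kernel)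
theorem L102635 : W_39 (nat_lit 7) (nat_lit 0x900040002c0013000c8000000000000000000000000000000) (nat_lit 0x0) (nat_lit 0x6000300038004c0026000000000000000000000000000000) := T_39 (nat_lit 139) (nat_lit 138) (nat_lit 3) (nat_lit 2) (nat_lit 8) L102634 (by decide +kernel)
theorem L102636 : W_39 (nat_lit 8) (nat_lit 0x800040002c0013000c8000000000000000000000000000000) (nat_lit 0x0) (nat_lit 0x16000b00038004c0026000000000000000000000000000000) := T_39 (nat_lit 192) (nat_lit 175) (nat_lit 4) (nat_lit 5) (nat_lit 11) L102635 (by decide +kernel)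
theorem L102637 : W_39 (nat_lit 9) (nat_lit 0x80004000240013000c8000000000000000000000000000000) (nat_lit 0x0) (nat_lit 0x16000b001b8004c0026000000000000000000000000000000) := T_39 (nat_lit 159) (nat_lit 160) (nat_lit 0) (nat_lit 8) (nat_lit 9) L102636 (by decide +kernel)
theorem L102638 : W_39 (nat_lit 2) (nat_lit 0x80004a002d0017800cc000000020000000000000000000000) (nat_lit 0x0) (nat_lit 0x800050000000000000000000000000000000000000000000) := D_39 (nat_lit 174) (nat_lit 191) (nat_lit 172) (nat_lit 7) (nat_lit 3) (nat_lit 7) (nat_lit 2) (nat_lit 2) (nat_lit 10) (by decide +kernel)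
theorem L102639 : W_39 (nat_lit 3) (nat_lit 0x800048002d0017800cc000000020000000000000000000000) (nat_lit 0x0) (nat_lit 0xc00070000000000000000000000000000000000000000000) := T_39 (nat_lit 173) (nat_lit 190) (nat_lit 6) (nat_lit 3) (nat_lit 11) L102638 (by decide +kernel)
theorem L102640 : W_39 (nat_lit 4) (nat_lit 0x800048002c0017800cc000000020000000000000000000000) (nat_lit 0x0) (nat_lit 0xc00070001800000000000000000000000000000000000000) := T_39 (nat_lit 156) (nat_lit 155) (nat_lit 1) (nat_lit 6) (nat_lit 8) L102639 (by decide +kernel)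
theorem L102641 : W_39 (nat_lit 5) (nat_lit 0x800048002c0017800c8000000020000000000000000000000) (nat_lit 0x0) (nat_lit 0xc00070001800000006000000000000000000000000000000) := T_39 (nat_lit 122) (nat_lit 121) (nat_lit 0) (nat_lit 6) (nat_lit 8) L102640 (by decide +kernel)
theorem L102642 : W_39 (nat_lit 6) (nat_lit 0x800048002c0013800c8000000020000000000000000000000) (nat_lit 0x0) (nat_lit 0xc00070001800400026000000000000000000000000000000) := T_39 (nat_lit 142) (nat_lit 125) (nat_lit 2) (nat_lit 3) (nat_lit 8) L102641 (by decide +kernel)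
theorem L102643 : W_39 (nat_lit 7) (nat_lit 0x800040002c0013800c8000000020000000000000000000000) (nat_lit 0x0) (nat_lit 0x1c000f0001800400026000000000000000000000000000000) := T_39 (nat_lit 175) (nat_lit 192) (nat_lit 4) (nat_lit 5) (nat_lit 11) L102642 (by decide +kernel)
theorem L102644 : W_39 (nat_lit 8) (nat_lit 0x800040002c0013000c8000000020000000000000000000000) (nat_lit 0x0) (nat_lit 0x1c000f00018004c0026000000000000000000000000000000) := T_39 (nat_lit 139) (nat_lit 138) (nat_lit 3) (nat_lit 2) (nat_lit 8) L102643 (by decide +kernel)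
theorem L102645 : W_39 (nat_lit 9) (nat_lit 0x800040002c0013000c8000000000000000000000000000000) (nat_lit 0x0) (nat_lit 0x1c000f00018004c0026000400020000000000000000000000) := T_39 (nat_lit 89) (nat_lit 106) (nat_lit 7) (nat_lit 4) (nat_lit 5) L102644 (by decide +kernel)
theorem L102646 : W_39 (nat_lit 10) (nat_lit 0x80004000240013000c8000000000000000000000000000000) (nat_lit 0x0) (nat_lit 0x1c000f00198004c0026000400020000000000000000000000) := T_39 (nat_lit 159) (nat_lit 160) (nat_lit 0) (nat_lit 8) (nat_lit 9) L102645 (by decide +kernel)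
theorem L102647 : W_39 (nat_lit 11) (nat_lit 0x80004000240013000c0000000000000000000000000000000) (nat_lit 0x0) (nat_lit 0x1e000f001b8004c002e000600030000000000000000000000) := Q_39 (nat_lit 123) (C_39 L102613 (C_39 L102619 (C_39 L102621 (C_39 L102629 (C_39 L102637 (C_39 L102646 N_39)))))) (by decide +kernel)
theorem L102648 : W_39 (nat_lit 2) (nat_lit 0x80006800200013000c0000000000000000000000000000000) (nat_lit 0x0) (nat_lit 0x10000100040000000000000000000000000000000000000000) := D_39 (nat_lit 176) (nat_lit 162) (nat_lit 196) (nat_lit 2) (nat_lit 5) (nat_lit 10) (nat_lit 3) (nat_lit 5) (nat_lit 10) (by decide +kernel)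
theorem L102649 : W_39 (nat_lit 2) (nat_lit 0x80004000260012000d0001800040000000000000000000000) (nat_lit 0x0) (nat_lit 0x100008000400000000000000000000000000000000000) := D_39 (nat_lit 159) (nat_lit 176) (nat_lit 142) (nat_lit 7) (nat_lit 5) (nat_lit 6) (nat_lit 7) (nat_lit 5) (nat_lit 5) (by decide +kernel)
theorem L102650 : W_39 (nat_lit 3) (nat_lit 0x80004000260012000d0001800000000000000000000000000) (nat_lit 0x0) (nat_lit 0x100008000500000000000040000000000000000000000) := T_39 (nat_lit 90) (nat_lit 140) (nat_lit 5) (nat_lit 5) (nat_lit 5) L102649 (by decide +kernel)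
theorem L102651 : W_39 (nat_lit 4) (nat_lit 0x80004000260012000d0000800000000000000000000000000) (nat_lit 0x0) (nat_lit 0x1000080005000000010000c0000000000000000000000) := T_39 (nat_lit 108) (nat_lit 91) (nat_lit 6) (nat_lit 5) (nat_lit 9) L102650 (by decide +kernel)
theorem L102652 : W_39 (nat_lit 5) (nat_lit 0x80004000240012000d0000800000000000000000000000000) (nat_lit 0x0) (nat_lit 0x14000a0005000000010000c0000000000000000000000) := T_39 (nat_lit 157) (nat_lit 174) (nat_lit 5) (nat_lit 5) (nat_lit 6) L102651 (by decide +kernel)
theorem L102653 : W_39 (nat_lit 2) (nat_lit 0x80004000270013000d8001c00000000000000000000000000) (nat_lit 0x0) (nat_lit 0xc00400000000000000000000000000000000000) := D_39 (nat_lit 155) (nat_lit 142) (nat_lit 154) (nat_lit 2) (nat_lit 2) (nat_lit 9) (nat_lit 2) (nat_lit 1) (nat_lit 9) (by decide +kernel)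
theorem L102654 : W_39 (nat_lit 3) (nat_lit 0x80004000260013000d8001c00000000000000000000000000) (nat_lit 0x0) (nat_lit 0x20001c00400000000000000000000000000000000000) := T_39 (nat_lit 156) (nat_lit 173) (nat_lit 5) (nat_lit 4) (nat_lit 6) L102653 (by decide +kernel)
theorem L102655 : W_39 (nat_lit 4) (nat_lit 0x80004000260012000d8001c00000000000000000000000000) (nat_lit 0x0) (nat_lit 0x20001c00500000000000040000000000000000000000) := T_39 (nat_lit 140) (nat_lit 90) (nat_lit 6) (nat_lit 4) (nat_lit 9) L102654 (by decide +kernel)
theorem L102656 : W_39 (nat_lit 5) (nat_lit 0x80004000260012000d0001c00000000000000000000000000) (nat_lit 0x0) (nat_lit 0xa0001c00500008000000040000000000000000000000) := T_39 (nat_lit 123) (nat_lit 175) (nat_lit 4) (nat_lit 5) (nat_lit 10) L102655 (by decide +kernel)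
theorem L102657 : W_39 (nat_lit 6) (nat_lit 0x80004000260012000d0001800000000000000000000000000) (nat_lit 0x0) (nat_lit 0xa0001c00500008000400060000000000000000000000) := T_39 (nat_lit 106) (nat_lit 89) (nat_lit 4) (nat_lit 5) (nat_lit 9) L102656 (by decide +kernel)
theorem L102658 : W_39 (nat_lit 7) (nat_lit 0x80004000240012000d0001800000000000000000000000000) (nat_lit 0x0) (nat_lit 0xe0003c00500008000400060000000000000000000000) := T_39 (nat_lit 157) (nat_lit 174) (nat_lit 5) (nat_lit 5) (nat_lit 6) L102657 (by decide +kernel)
theorem L102659 : W_39 (nat_lit 8) (nat_lit 0x80004000240012000d0000800000000000000000000000000) (nat_lit 0x0) (nat_lit 0xe0003c005000080014000e0000000000000000000000) := T_39 (nat_lit 108) (nat_lit 91) (nat_lit 6) (nat_lit 5) (nat_lit 9) L102658 (by decide +kernel)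
theorem L102660 : W_39 (nat_lit 2) (nat_lit 0x800040003e0012000d0000800000000000000000000000000) (nat_lit 0x0) (nat_lit 0x40000400000000000040000000000000000000000) := D_39 (nat_lit 142) (nat_lit 162) (nat_lit 90) (nat_lit 0) (nat_lit 9) (nat_lit 9) (nat_lit 7) (nat_lit 5) (nat_lit 5) (by decide +kernel)
theorem L102661 : W_39 (nat_lit 3) (nat_lit 0x800040002e0012000d0000800000000000000000000000000) (nat_lit 0x0) (nat_lit 0x200050000400000000000040000000000000000000000) := T_39 (nat_lit 160) (nat_lit 177) (nat_lit 3) (nat_lit 4) (nat_lit 9) L102660 (by decide +kernel)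
theorem L102662 : W_39 (nat_lit 4) (nat_lit 0x800040002c0012000d0000800000000000000000000000000) (nat_lit 0x0) (nat_lit 0x240052000400000000000040000000000000000000000) := T_39 (nat_lit 157) (nat_lit 174) (nat_lit 5) (nat_lit 5) (nat_lit 6) L102661 (by decide +kernel)
theorem L102663 : W_39 (nat_lit 5) (nat_lit 0x80004000240012000d0000800000000000000000000000000) (nat_lit 0x0) (nat_lit 0x34005a000400000000000040000000000000000000000) := T_39 (nat_lit 159) (nat_lit 176) (nat_lit 7) (nat_lit 5) (nat_lit 6) L102662 (by decide +kernel)
theorem L102664 : W_39 (nat_lit 2) (nat_lit 0x80004800240012000d0000c00000000000000000000000000) (nat_lit 0x0) (nat_lit 0x800040002000000000000000000000000000000000000000) := D_39 (nat_lit 174) (nat_lit 191) (nat_lit 157) (nat_lit 5) (nat_lit 5) (nat_lit 7) (nat_lit 5) (nat_lit 5) (nat_lit 6) (by decide +kernel)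
theorem L102665 : W_39 (nat_lit 3) (nat_lit 0x80004000240012000d0000c00000000000000000000000000) (nat_lit 0x0) (nat_lit 0x8000c0002000000008000000000000000000000000000000) := T_39 (nat_lit 175) (nat_lit 123) (nat_lit 4) (nat_lit 5) (nat_lit 10) L102664 (by decide +kernel)
theorem L102666 : W_39 (nat_lit 4) (nat_lit 0x80004000200012000d0000c00000000000000000000000000) (nat_lit 0x0) (nat_lit 0x8000c0006000000008000000020000000000000000000000) := T_39 (nat_lit 158) (nat_lit 89) (nat_lit 4) (nat_lit 5) (nat_lit 9) L102665 (by decide +kernel)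
theorem L102667 : W_39 (nat_lit 5) (nat_lit 0x80004000200012000d0000800000000000000000000000000) (nat_lit 0x0) (nat_lit 0x8000c0006000000028000400020000000000000000000000) := T_39 (nat_lit 106) (nat_lit 125) (nat_lit 0) (nat_lit 8) (nat_lit 7) L102666 (by decide +kernel)
theorem L102668 : W_39 (nat_lit 2) (nat_lit 0x1000080004000200012000d0000000000000000000000000000000) (nat_lit 0x0) (nat_lit 0x4000200010000000000000000000000000000000000000000000000000) := D_39 (nat_lit 213) (nat_lit 196) (nat_lit 230) (nat_lit 7) (nat_lit 8) (nat_lit 8) (nat_lit 7) (nat_lit 8) (nat_lit 9) (by decide +kernel)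
theorem L102669 : W_39 (nat_lit 2) (nat_lit 0x70001000080006800200012000f8000400000001000000000000000000) (nat_lit 0x0) (nat_lit 0x10000100040000000000000000000000000000000000000000) := D_39 (nat_lit 176) (nat_lit 162) (nat_lit 196) (nat_lit 2) (nat_lit 5) (nat_lit 10) (nat_lit 3) (nat_lit 5) (nat_lit 10) (by decide +kernel)
theorem L102670 : W_39 (nat_lit 3) (nat_lit 0x70001000080004800200012000f8000400000001000000000000000000) (nat_lit 0x0) (nat_lit 0x10000300050000000000000000000000000000000000000000) := T_39 (nat_lit 177) (nat_lit 160) (nat_lit 4) (nat_lit 8) (nat_lit 13) L102669 (by decide +kernel)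
theorem L102671 : W_39 (nat_lit 4) (nat_lit 0x70001000080004000200012000f8000400000001000000000000000000) (nat_lit 0x0) (nat_lit 0x10000380054000000000000000000000000000000000000000) := T_39 (nat_lit 175) (nat_lit 158) (nat_lit 4) (nat_lit 5) (nat_lit 10) L102670 (by decide +kernel)
theorem L102672 : W_39 (nat_lit 5) (nat_lit 0x70001000080004000200012000f8000400000000000000000000000000) (nat_lit 0x0) (nat_lit 0x10000380054000000000000000020001000000000000000000) := T_39 (nat_lit 72) (nat_lit 89) (nat_lit 7) (nat_lit 4) (nat_lit 4) L102671 (by decide +kernel)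
theorem L102673 : W_39 (nat_lit 6) (nat_lit 0x30001000080004000200012000f8000400000000000000000000000000) (nat_lit 0x0) (nat_lit 0x80004000000010000380054000000000000000020001000000000000000000) := T_39 (nat_lit 230) (nat_lit 247) (nat_lit 7) (nat_lit 8) (nat_lit 10) L102672 (by decide +kernel)
theorem L102674 : W_39 (nat_lit 7) (nat_lit 0x30001000080004000200012000f0000400000000000000000000000000) (nat_lit 0x0) (nat_lit 0x80004000000010000380054000000008000200020001000000000000000000) := T_39 (nat_lit 123) (nat_lit 105) (nat_lit 0) (nat_lit 7) (nat_lit 7) L102673 (by decide +kernel)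
theorem L102675 : W_39 (nat_lit 8) (nat_lit 0x10001000080004000200012000f0000400000000000000000000000000) (nat_lit 0x0) (nat_lit 0xa0006000000010000380054000000008000200020001000000000000000000) := T_39 (nat_lit 229) (nat_lit 245) (nat_lit 5) (nat_lit 8) (nat_lit 10) L102674 (by decide +kernel)
theorem L102676 : W_39 (nat_lit 9) (nat_lit 0x10001000080004000200012000f0000000000000000000000000000000) (nat_lit 0x0) (nat_lit 0xa0006000000010000380054000000008000e00020001000000000000000000) := T_39 (nat_lit 106) (nat_lit 107) (nat_lit 0) (nat_lit 8) (nat_lit 7) L102675 (by decide +kernel)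
theorem L102677 : W_39 (nat_lit 10) (nat_lit 0x1000080004000200012000f0000000000000000000000000000000) (nat_lit 0x0) (nat_lit 0xa0007000080010000380054000000008000e00020001000000000000000000) := T_39 (nat_lit 228) (nat_lit 211) (nat_lit 5) (nat_lit 8) (nat_lit 9) L102676 (by decide +kernel)
theorem L102678 : W_39 (nat_lit 11) (nat_lit 0x1000080004000200012000d0000000000000000000000000000000) (nat_lit 0x0) (nat_lit 0xa0007000080010000380054000100028000e00020001000000000000000000) := T_39 (nat_lit 125) (nat_lit 140) (nat_lit 1) (nat_lit 8) (nat_lit 7) L102677 (by decide +kernel)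
theorem L102679 : W_39 (nat_lit 2) (nat_lit 0x30001000580006800240012000f0000800000000000000000000000000) (nat_lit 0x0) (nat_lit 0x800040002000000000000000000000000000000000000000) := D_39 (nat_lit 174) (nat_lit 191) (nat_lit 157) (nat_lit 5) (nat_lit 5) (nat_lit 7) (nat_lit 5) (nat_lit 5) (nat_lit 6) (by decide +kernel)
theorem L102680 : W_39 (nat_lit 3) (nat_lit 0x30001000580006800200012000f0000800000000000000000000000000) (nat_lit 0x0) (nat_lit 0x800040006000000000001000000000000000000000000000) := T_39 (nat_lit 158) (nat_lit 108) (nat_lit 6) (nat_lit 5) (nat_lit 10) L102679 (by decide +kernel)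
theorem L102681 : W_39 (nat_lit 4) (nat_lit 0x30001000180006800200012000f0000800000000000000000000000000) (nat_lit 0x0) (nat_lit 0x60800040006000000000001000000000000000000000000000) := T_39 (nat_lit 198) (nat_lit 197) (nat_lit 0) (nat_lit 11) (nat_lit 11) L102680 (by decide +kernel)
theorem L102682 : W_39 (nat_lit 5) (nat_lit 0x30001000180006000200012000f0000800000000000000000000000000) (nat_lit 0x0) (nat_lit 0x608001c0006000000000001000000000000000000000000000) := T_39 (nat_lit 175) (nat_lit 176) (nat_lit 3) (nat_lit 5) (nat_lit 10) L102681 (by decide +kernel)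
theorem L102683 : W_39 (nat_lit 6) (nat_lit 0x30001000180004000200012000f0000800000000000000000000000000) (nat_lit 0x0) (nat_lit 0x608003c0016000000000001000000000000000000000000000) := T_39 (nat_lit 177) (nat_lit 160) (nat_lit 4) (nat_lit 8) (nat_lit 13) L102682 (by decide +kernel)
theorem L102684 : W_39 (nat_lit 7) (nat_lit 0x10001000180004000200012000f0000800000000000000000000000000) (nat_lit 0x0) (nat_lit 0x200020000000608003c0016000000000001000000000000000000000000000) := T_39 (nat_lit 229) (nat_lit 245) (nat_lit 5) (nat_lit 8) (nat_lit 10) L102683 (by decide +kernel)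
theorem L102685 : W_39 (nat_lit 8) (nat_lit 0x1000180004000200012000f0000800000000000000000000000000) (nat_lit 0x0) (nat_lit 0x200030000800608003c0016000000000001000000000000000000000000000) := T_39 (nat_lit 228) (nat_lit 211) (nat_lit 5) (nat_lit 8) (nat_lit 9) L102684 (by decide +kernel)
theorem L102686 : W_39 (nat_lit 9) (nat_lit 0x1000180004000200012000f0000000000000000000000000000000) (nat_lit 0x0) (nat_lit 0x200030000800608003c0016000000000001c00000000000000000000000000) := T_39 (nat_lit 107) (nat_lit 106) (nat_lit 0) (nat_lit 8) (nat_lit 7) L102685 (by decide +kernel)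
theorem L102687 : W_39 (nat_lit 10) (nat_lit 0x1000080004000200012000f0000000000000000000000000000000) (nat_lit 0x0) (nat_lit 0x200030002800708003c0016000000000001c00000000000000000000000000) := T_39 (nat_lit 196) (nat_lit 213) (nat_lit 7) (nat_lit 8) (nat_lit 8) L102686 (by decide +kernel)
theorem L102688 : W_39 (nat_lit 11) (nat_lit 0x1000080004000200012000d0000000000000000000000000000000) (nat_lit 0x0) (nat_lit 0x200030002800708003c0016000100020001c00000000000000000000000000) := T_39 (nat_lit 125) (nat_lit 140) (nat_lit 1) (nat_lit 8) (nat_lit 7) L102687 (by decide +kernel)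
theorem L102689 : W_39 (nat_lit 2) (nat_lit 0x50001000080004000200012000d0000000000000000000000000000000) (nat_lit 0x0) (nat_lit 0xa0002000000000000000000000000000000000000000000000000000000000) := D_39 (nat_lit 229) (nat_lit 245) (nat_lit 247) (nat_lit 5) (nat_lit 8) (nat_lit 10) (nat_lit 7) (nat_lit 8) (nat_lit 10) (by decide +kernel)
theorem L102690 : W_39 (nat_lit 3) (nat_lit 0x10001000080004000200012000d0000000000000000000000000000000) (nat_lit 0x0) (nat_lit 0xa0006000200000000000000000000000000000000000000000000000000000) := T_39 (nat_lit 230) (nat_lit 213) (nat_lit 7) (nat_lit 8) (nat_lit 9) L102689 (by decide +kernel)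
theorem L102691 : W_39 (nat_lit 4) (nat_lit 0x1000080004000200012000d0000000000000000000000000000000) (nat_lit 0x0) (nat_lit 0xa0007000280000000000000000000000000000000000000000000000000000) := T_39 (nat_lit 228) (nat_lit 211) (nat_lit 5) (nat_lit 8) (nat_lit 9) L102690 (by decide +kernel)
theorem L102692 : W_39 (nat_lit 12) (nat_lit 0x80004000200012000d0000000000000000000000000000000) (nat_lit 0x0) (nat_lit 0xa00070003800708003c0056000100028001e00020001000000000000000000) := Q_39 (nat_lit 212) (C_39 L102668 (C_39 L102678 (C_39 L102688 (C_39 L102691 N_39)))) (by decide +kernel)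
theorem L102693 : W_39 (nat_lit 2) (nat_lit 0x80004c00340012000d0000800000000000000000000000000) (nat_lit 0x0) (nat_lit 0x8000400020000000000000000000000) := D_39 (nat_lit 106) (nat_lit 123) (nat_lit 89) (nat_lit 4) (nat_lit 5) (nat_lit 10) (nat_lit 4) (nat_lit 5) (nat_lit 9) (by decide +kernel)
theorem L102694 : W_39 (nat_lit 3) (nat_lit 0x80004c00340012000d0000000000000000000000000000000) (nat_lit 0x0) (nat_lit 0x2000000008000c00020000000000000000000000) := T_39 (nat_lit 107) (nat_lit 157) (nat_lit 5) (nat_lit 5) (nat_lit 6) L102693 (by decide +kernel)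
theorem L102695 : W_39 (nat_lit 4) (nat_lit 0x80004c00240012000d0000000000000000000000000000000) (nat_lit 0x0) (nat_lit 0x1a000000008000c00020000000000000000000000) := T_39 (nat_lit 160) (nat_lit 159) (nat_lit 1) (nat_lit 8) (nat_lit 9) L102694 (by decide +kernel)
theorem L102696 : W_39 (nat_lit 5) (nat_lit 0x80004800240012000d0000000000000000000000000000000) (nat_lit 0x0) (nat_lit 0x80004001a000000008000c00020000000000000000000000) := T_39 (nat_lit 174) (nat_lit 191) (nat_lit 5) (nat_lit 5) (nat_lit 7) L102695 (by decide +kernel)
theorem L102697 : W_39 (nat_lit 2) (nat_lit 0x90004800240012000d8000000000000000000000000000000) (nat_lit 0x0) (nat_lit 0x10000800040000000000000000000000000000000000000000000) := D_39 (nat_lit 191) (nat_lit 208) (nat_lit 174) (nat_lit 5) (nat_lit 5) (nat_lit 8) (nat_lit 5) (nat_lit 5) (nat_lit 7) (by decide +kernel)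
theorem L102698 : W_39 (nat_lit 3) (nat_lit 0x80004800240012000d8000000000000000000000000000000) (nat_lit 0x0) (nat_lit 0x10001800040000000100000000000000000000000000000000000) := T_39 (nat_lit 192) (nat_lit 140) (nat_lit 4) (nat_lit 5) (nat_lit 11) L102697 (by decide +kernel)
theorem L102699 : W_39 (nat_lit 4) (nat_lit 0x80004800240012000d0000000000000000000000000000000) (nat_lit 0x0) (nat_lit 0x10001800040000000100008000400000000000000000000000000) := T_39 (nat_lit 123) (nat_lit 106) (nat_lit 4) (nat_lit 5) (nat_lit 10) L102698 (by decide +kernel)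
theorem L102700 : W_39 (nat_lit 2) (nat_lit 0x80005800240012000d0000000000000000000000000000000) (nat_lit 0x0) (nat_lit 0x200042000000000000000000000000000000000000000) := D_39 (nat_lit 177) (nat_lit 162) (nat_lit 157) (nat_lit 2) (nat_lit 5) (nat_lit 10) (nat_lit 0) (nat_lit 8) (nat_lit 10) (by decide +kernel)
theorem L102701 : W_39 (nat_lit 3) (nat_lit 0x80004800240012000d0000000000000000000000000000000) (nat_lit 0x0) (nat_lit 0x2000300042000000000000000000000000000000000000000) := T_39 (nat_lit 176) (nat_lit 193) (nat_lit 7) (nat_lit 5) (nat_lit 7) L102700 (by decide +kernel)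
theorem L102702 : W_39 (nat_lit 6) (nat_lit 0x80004000240012000d0000000000000000000000000000000) (nat_lit 0x0) (nat_lit 0x100038003c005a000100008000c00020000000000000000000000) := Q_39 (nat_lit 175) (C_39 L102696 (C_39 L102699 (C_39 L102701 N_39))) (by decide +kernel)
theorem L102703 : W_39 (nat_lit 2) (nat_lit 0x80004000240012000f0000800000000000000000000000000) (nat_lit 0x0) (nat_lit 0x80000000000000001000080000000000000000000000) := D_39 (nat_lit 108) (nat_lit 175) (nat_lit 91) (nat_lit 6) (nat_lit 5) (nat_lit 10) (nat_lit 6) (nat_lit 5) (nat_lit 9) (by decide +kernel)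
theorem L102704 : W_39 (nat_lit 3) (nat_lit 0x80004000240012000f0000000000000000000000000000000) (nat_lit 0x0) (nat_lit 0x80000000000000001c00080000000000000000000000) := T_39 (nat_lit 107) (nat_lit 106) (nat_lit 0) (nat_lit 8) (nat_lit 7) L102703 (by decide +kernel)
theorem L102705 : W_39 (nat_lit 4) (nat_lit 0x80004000240012000d0000000000000000000000000000000) (nat_lit 0x0) (nat_lit 0x80000000100020001c00080000000000000000000000) := T_39 (nat_lit 125) (nat_lit 140) (nat_lit 1) (nat_lit 8) (nat_lit 7) L102704 (by decide +kernel)
theorem L102706 : W_39 (nat_lit 2) (nat_lit 0x800040002e0012000f0000800040000000000000000000000) (nat_lit 0x0) (nat_lit 0x1000080004000000000000000000) := D_39 (nat_lit 91) (nat_lit 108) (nat_lit 74) (nat_lit 6) (nat_lit 5) (nat_lit 9) (nat_lit 6) (nat_lit 5) (nat_lit 8) (by decide +kernel)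
theorem L102707 : W_39 (nat_lit 3) (nat_lit 0x800040002e0012000f0000800000000000000000000000000) (nat_lit 0x0) (nat_lit 0x4000000010000c0004000000000000000000) := T_39 (nat_lit 90) (nat_lit 142) (nat_lit 7) (nat_lit 5) (nat_lit 5) L102706 (by decide +kernel)
theorem L102708 : W_39 (nat_lit 4) (nat_lit 0x80004000260012000f0000800000000000000000000000000) (nat_lit 0x0) (nat_lit 0x1000080004000000010000c0004000000000000000000) := T_39 (nat_lit 159) (nat_lit 176) (nat_lit 7) (nat_lit 5) (nat_lit 6) L102707 (by decide +kernel)
theorem L102709 : W_39 (nat_lit 5) (nat_lit 0x80004000240012000f0000800000000000000000000000000) (nat_lit 0x0) (nat_lit 0x14000a0004000000010000c0004000000000000000000) := T_39 (nat_lit 157) (nat_lit 174) (nat_lit 5) (nat_lit 5) (nat_lit 6) L102708 (by decide +kernel)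
theorem L102710 : W_39 (nat_lit 6) (nat_lit 0x80004000240012000f0000000000000000000000000000000) (nat_lit 0x0) (nat_lit 0x14000a000400000001c000c0004000000000000000000) := T_39 (nat_lit 107) (nat_lit 106) (nat_lit 0) (nat_lit 8) (nat_lit 7) L102709 (by decide +kernel)
theorem L102711 : W_39 (nat_lit 7) (nat_lit 0x80004000240012000d0000000000000000000000000000000) (nat_lit 0x0) (nat_lit 0x14000a000500020001c000c0004000000000000000000) := T_39 (nat_lit 125) (nat_lit 140) (nat_lit 1) (nat_lit 8) (nat_lit 7) L102710 (by decide +kernel)
theorem L102712 : W_39 (nat_lit 2) (nat_lit 0x80004c00340012000d0000000000000000000000000000000) (nat_lit 0x0) (nat_lit 0x2000300000000000000000000000000000000000000000000) := D_39 (nat_lit 176) (nat_lit 193) (nat_lit 177) (nat_lit 7) (nat_lit 5) (nat_lit 7) (nat_lit 2) (nat_lit 4) (nat_lit 10) (by decide +kernel)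
theorem L102713 : W_39 (nat_lit 3) (nat_lit 0x80004c00240012000d0000000000000000000000000000000) (nat_lit 0x0) (nat_lit 0x2000300018000000000000000000000000000000000000000) := T_39 (nat_lit 160) (nat_lit 159) (nat_lit 1) (nat_lit 8) (nat_lit 9) L102712 (by decide +kernel)
theorem L102714 : W_39 (nat_lit 4) (nat_lit 0x80004800240012000d0000000000000000000000000000000) (nat_lit 0x0) (nat_lit 0x2800340018000000000000000000000000000000000000000) := T_39 (nat_lit 174) (nat_lit 191) (nat_lit 5) (nat_lit 5) (nat_lit 7) L102713 (by decide +kernel)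
theorem L102715 : W_39 (nat_lit 6) (nat_lit 0x80004000240012000d0000000000000000000000000000000) (nat_lit 0x0) (nat_lit 0x28003c005a000000008000c00020000000000000000000000) := Q_39 (nat_lit 175) (C_39 L102696 (C_39 L102701 (C_39 L102714 N_39))) (by decide +kernel)
theorem L102716 : W_39 (nat_lit 2) (nat_lit 0x90004800240012000f0000000000000000000000000000000) (nat_lit 0x0) (nat_lit 0x40002000100000000000000000000000000000000000000000000) := D_39 (nat_lit 193) (nat_lit 210) (nat_lit 176) (nat_lit 7) (nat_lit 5) (nat_lit 8) (nat_lit 7) (nat_lit 5) (nat_lit 7) (by decide +kernel)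
theorem L102717 : W_39 (nat_lit 3) (nat_lit 0x80004800240012000f0000000000000000000000000000000) (nat_lit 0x0) (nat_lit 0x40003000100000000400000000000000000000000000000000000) := T_39 (nat_lit 192) (nat_lit 142) (nat_lit 6) (nat_lit 5) (nat_lit 11) L102716 (by decide +kernel)
theorem L102718 : W_39 (nat_lit 4) (nat_lit 0x80004000240012000f0000000000000000000000000000000) (nat_lit 0x0) (nat_lit 0x40003000180000000400000001000000000000000000000000000) := T_39 (nat_lit 175) (nat_lit 108) (nat_lit 6) (nat_lit 5) (nat_lit 10) L102717 (by decide +kernel)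
theorem L102719 : W_39 (nat_lit 5) (nat_lit 0x80004000240012000d0000000000000000000000000000000) (nat_lit 0x0) (nat_lit 0x40003000180000000500020001000000000000000000000000000) := T_39 (nat_lit 125) (nat_lit 140) (nat_lit 1) (nat_lit 8) (nat_lit 7) L102718 (by decide +kernel)
theorem L102720 : W_39 (nat_lit 8) (nat_lit 0x80004000240012000c0000000000000000000000000000000) (nat_lit 0x0) (nat_lit 0x500038003c005a000500038001c000e0004000000000000000000) := Q_39 (nat_lit 124) (C_39 L102702 (C_39 L102705 (C_39 L102711 (C_39 L102715 (C_39 L102719 N_39))))) (by decide +kernel)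
theorem L102721 : W_39 (nat_lit 2) (nat_lit 0x1800048002c0012000d0001c00000000000000000000000000) (nat_lit 0x0) (nat_lit 0x800040002000000000000000000000000000000000000000) := D_39 (nat_lit 174) (nat_lit 191) (nat_lit 157) (nat_lit 5) (nat_lit 5) (nat_lit 7) (nat_lit 5) (nat_lit 5) (nat_lit 6) (by decide +kernel)
theorem L102722 : W_39 (nat_lit 3) (nat_lit 0x1800040002c0012000d0001c00000000000000000000000000) (nat_lit 0x0) (nat_lit 0x8000c0002000000008000000000000000000000000000000) := T_39 (nat_lit 175) (nat_lit 123) (nat_lit 4) (nat_lit 5) (nat_lit 10) L102721 (by decide +kernel)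
theorem L102723 : W_39 (nat_lit 4) (nat_lit 0x1800040002c0012000d0001800000000000000000000000000) (nat_lit 0x0) (nat_lit 0x8000c0002000000008000400020000000000000000000000) := T_39 (nat_lit 106) (nat_lit 89) (nat_lit 4) (nat_lit 5) (nat_lit 9) L102722 (by decide +kernel)
theorem L102724 : W_39 (nat_lit 5) (nat_lit 0x1800040002c0012000d0000800000000000000000000000000) (nat_lit 0x0) (nat_lit 0x8000c00020000000080014000a0000000000000000000000) := T_39 (nat_lit 108) (nat_lit 91) (nat_lit 6) (nat_lit 5) (nat_lit 9) L102723 (by decide +kernel)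
theorem L102725 : W_39 (nat_lit 6) (nat_lit 0x180004000240012000d0000800000000000000000000000000) (nat_lit 0x0) (nat_lit 0x8001c000a0000000080014000a0000000000000000000000) := T_39 (nat_lit 159) (nat_lit 176) (nat_lit 7) (nat_lit 5) (nat_lit 6) L102724 (by decide +kernel)
theorem L102726 : W_39 (nat_lit 7) (nat_lit 0x80004000240012000d0000800000000000000000000000000) (nat_lit 0x0) (nat_lit 0x2000108001c000a0000000080014000a0000000000000000000000) := T_39 (nat_lit 196) (nat_lit 213) (nat_lit 7) (nat_lit 8) (nat_lit 8) L102725 (by decide +kernel)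
theorem L102727 : W_39 (nat_lit 2) (nat_lit 0x1800040002c0012000d0001800040000000000000000000000) (nat_lit 0x0) (nat_lit 0x400020001000000000000000000) := D_39 (nat_lit 89) (nat_lit 72) (nat_lit 106) (nat_lit 4) (nat_lit 5) (nat_lit 8) (nat_lit 4) (nat_lit 5) (nat_lit 9) (by decide +kernel)
theorem L102728 : W_39 (nat_lit 3) (nat_lit 0x1800040002c0012000d0001800000000000000000000000000) (nat_lit 0x0) (nat_lit 0x400000000400060001000000000000000000) := T_39 (nat_lit 90) (nat_lit 142) (nat_lit 7) (nat_lit 5) (nat_lit 5) L102727 (by decide +kernel)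
theorem L102729 : W_39 (nat_lit 4) (nat_lit 0x1800040002c0012000d0000800000000000000000000000000) (nat_lit 0x0) (nat_lit 0x4000000014000e0001000000000000000000) := T_39 (nat_lit 108) (nat_lit 91) (nat_lit 6) (nat_lit 5) (nat_lit 9) L102728 (by decide +kernel)
theorem L102730 : W_39 (nat_lit 5) (nat_lit 0x180004000240012000d0000800000000000000000000000000) (nat_lit 0x0) (nat_lit 0x1000080004000000014000e0001000000000000000000) := T_39 (nat_lit 159) (nat_lit 176) (nat_lit 7) (nat_lit 5) (nat_lit 6) L102729 (by decide +kernel)
theorem L102731 : W_39 (nat_lit 6) (nat_lit 0x80004000240012000d0000800000000000000000000000000) (nat_lit 0x0) (nat_lit 0x2000100001000080004000000014000e0001000000000000000000) := T_39 (nat_lit 196) (nat_lit 213) (nat_lit 7) (nat_lit 8) (nat_lit 8) L102730 (by decide +kernel)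
theorem L102732 : W_39 (nat_lit 4) (nat_lit 0x80004000240012000d0000800000000000000000000000000) (nat_lit 0x0) (nat_lit 0x8000c0002000000008000400020000000000000000000000) := T_39 (nat_lit 106) (nat_lit 89) (nat_lit 4) (nat_lit 5) (nat_lit 9) L102665 (by decide +kernel)
theorem L102733 : W_39 (nat_lit 9) (nat_lit 0x80004000240012000d0000000000000000000000000000000) (nat_lit 0x0) (nat_lit 0x2000108001e000bc00500008001c000e0001000000000000000000) := Q_39 (nat_lit 107) (C_39 L102659 (C_39 L102652 (C_39 L102726 (C_39 L102731 (C_39 L102732 N_39))))) (by decide +kernel)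
theorem L102734 : W_39 (nat_lit 2) (nat_lit 0x1800040002e0012000f0000800040005000000000000000000) (nat_lit 0x0) (nat_lit 0x2000280000000000000) := D_39 (nat_lit 73) (nat_lit 55) (nat_lit 57) (nat_lit 4) (nat_lit 5) (nat_lit 7) (nat_lit 6) (nat_lit 5) (nat_lit 7) (by decide +kernel)
theorem L102735 : W_39 (nat_lit 3) (nat_lit 0x1800040002e0012000f0000800040001000000000000000000) (nat_lit 0x0) (nat_lit 0x80006000280000000000000) := T_39 (nat_lit 74) (nat_lit 91) (nat_lit 6) (nat_lit 5) (nat_lit 8) L102734 (by decide +kernel)
theorem L102736 : W_39 (nat_lit 4) (nat_lit 0x1800040002e0012000f0000800040000000000000000000000) (nat_lit 0x0) (nat_lit 0xa0007000280000000000000) := T_39 (nat_lit 72) (nat_lit 89) (nat_lit 4) (nat_lit 5) (nat_lit 8) L102735 (by decide +kernel)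
theorem L102737 : W_39 (nat_lit 5) (nat_lit 0x1800040002e0012000f0000800000000000000000000000000) (nat_lit 0x0) (nat_lit 0x4000000000000e0007000280000000000000) := T_39 (nat_lit 90) (nat_lit 142) (nat_lit 7) (nat_lit 5) (nat_lit 5) L102736 (by decide +kernel)
theorem L102738 : W_39 (nat_lit 6) (nat_lit 0x180004000260012000f0000800000000000000000000000000) (nat_lit 0x0) (nat_lit 0x1000080004000000000000e0007000280000000000000) := T_39 (nat_lit 159) (nat_lit 176) (nat_lit 7) (nat_lit 5) (nat_lit 6) L102737 (by decide +kernel)
theorem L102739 : W_39 (nat_lit 7) (nat_lit 0x180004000240012000f0000800000000000000000000000000) (nat_lit 0x0) (nat_lit 0x14000a0004000000000000e0007000280000000000000) := T_39 (nat_lit 157) (nat_lit 174) (nat_lit 5) (nat_lit 5) (nat_lit 6) L102738 (by decide +kernel)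
theorem L102740 : W_39 (nat_lit 8) (nat_lit 0x180004000240012000f0000000000000000000000000000000) (nat_lit 0x0) (nat_lit 0x14000a000400000000c000e0007000280000000000000) := T_39 (nat_lit 107) (nat_lit 106) (nat_lit 0) (nat_lit 8) (nat_lit 7) L102739 (by decide +kernel)
theorem L102741 : W_39 (nat_lit 9) (nat_lit 0x180004000240012000d0000000000000000000000000000000) (nat_lit 0x0) (nat_lit 0x14000a000500020000c000e0007000280000000000000) := T_39 (nat_lit 125) (nat_lit 140) (nat_lit 1) (nat_lit 8) (nat_lit 7) L102740 (by decide +kernel)
theorem L102742 : W_39 (nat_lit 10) (nat_lit 0x80004000240012000d0000000000000000000000000000000) (nat_lit 0x0) (nat_lit 0x20001000014000a000500020000c000e0007000280000000000000) := T_39 (nat_lit 196) (nat_lit 213) (nat_lit 7) (nat_lit 8) (nat_lit 8) L102741 (by decide +kernel)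
theorem L102743 : W_39 (nat_lit 2) (nat_lit 0x180004800240012000d0001800000000000000000000000000) (nat_lit 0x0) (nat_lit 0x2000100008000000000000000000000000000000000000000) := D_39 (nat_lit 176) (nat_lit 193) (nat_lit 159) (nat_lit 7) (nat_lit 5) (nat_lit 7) (nat_lit 7) (nat_lit 5) (nat_lit 6) (by decide +kernel)
theorem L102744 : W_39 (nat_lit 3) (nat_lit 0x180004000240012000d0001800000000000000000000000000) (nat_lit 0x0) (nat_lit 0x2000180008000000020000000000000000000000000000000) := T_39 (nat_lit 175) (nat_lit 125) (nat_lit 6) (nat_lit 5) (nat_lit 10) L102743 (by decide +kernel)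
theorem L102745 : W_39 (nat_lit 4) (nat_lit 0x180004000240012000d0000800000000000000000000000000) (nat_lit 0x0) (nat_lit 0x2000180008000000020001000080000000000000000000000) := T_39 (nat_lit 108) (nat_lit 91) (nat_lit 6) (nat_lit 5) (nat_lit 9) L102744 (by decide +kernel)
theorem L102746 : W_39 (nat_lit 5) (nat_lit 0x80004000240012000d0000800000000000000000000000000) (nat_lit 0x0) (nat_lit 0x200012000180008000000020001000080000000000000000000000) := T_39 (nat_lit 196) (nat_lit 213) (nat_lit 7) (nat_lit 8) (nat_lit 8) L102745 (by decide +kernel)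
theorem L102747 : W_39 (nat_lit 7) (nat_lit 0x80004000240012000d0000000000000000000000000000000) (nat_lit 0x0) (nat_lit 0x2000128001c000a000400028001c000e0001000000000000000000) := Q_39 (nat_lit 107) (C_39 L102732 (C_39 L102731 (C_39 L102746 N_39))) (by decide +kernel)
theorem L102748 : W_39 (nat_lit 11) (nat_lit 0x80004000240012000c0000000000000000000000000000000) (nat_lit 0x0) (nat_lit 0x2400138001e000bc00500038001c000e0007000280000000000000) := Q_39 (nat_lit 124) (C_39 L102733 (C_39 L102705 (C_39 L102711 (C_39 L102742 (C_39 L102747 (C_39 L102719 N_39)))))) (by decide +kernel)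
theorem L102749 : W_39 (nat_lit 2) (nat_lit 0x3400b0000800048003c0016000c0000000000000000000000000000000) (nat_lit 0x0) (nat_lit 0x1000000000000000020001000000000000000000000000000) := D_39 (nat_lit 125) (nat_lit 108) (nat_lit 192) (nat_lit 5) (nat_lit 6) (nat_lit 6) (nat_lit 6) (nat_lit 5) (nat_lit 11) (by decide +kernel)
theorem L102750 : W_39 (nat_lit 3) (nat_lit 0x3400b0000800048003c0012000c0000000000000000000000000000000) (nat_lit 0x0) (nat_lit 0x1000000040000400020001000000000000000000000000000) := T_39 (nat_lit 142) (nat_lit 162) (nat_lit 0) (nat_lit 9) (nat_lit 9) L102749 (by decide +kernel)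
theorem L102751 : W_39 (nat_lit 4) (nat_lit 0x3400b0000800040003c0012000c0000000000000000000000000000000) (nat_lit 0x0) (nat_lit 0x10000c0040000400020001000000000000000000000000000) := T_39 (nat_lit 175) (nat_lit 174) (nat_lit 1) (nat_lit 8) (nat_lit 9) L102750 (by decide +kernel)
theorem L102752 : W_39 (nat_lit 5) (nat_lit 0x3400b000080004000340012000c0000000000000000000000000000000) (nat_lit 0x0) (nat_lit 0x10000c0048000500020001000000000000000000000000000) := T_39 (nat_lit 159) (nat_lit 140) (nat_lit 0) (nat_lit 8) (nat_lit 9) L102751 (by decide +kernel)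
theorem L102753 : W_39 (nat_lit 6) (nat_lit 0x34003000080004000340012000c0000000000000000000000000000000) (nat_lit 0x0) (nat_lit 0xc000010000c0048000500020001000000000000000000000000000) := T_39 (nat_lit 215) (nat_lit 214) (nat_lit 1) (nat_lit 11) (nat_lit 12) L102752 (by decide +kernel)
theorem L102754 : W_39 (nat_lit 7) (nat_lit 0x34003000080004000240012000c0000000000000000000000000000000) (nat_lit 0x0) (nat_lit 0xc000010002c0058000500020001000000000000000000000000000) := T_39 (nat_lit 160) (nat_lit 177) (nat_lit 4) (nat_lit 8) (nat_lit 13) L102753 (by decide +kernel)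
theorem L102755 : W_39 (nat_lit 8) (nat_lit 0x30003000080004000240012000c0000000000000000000000000000000) (nat_lit 0x0) (nat_lit 0xc00c000010002c0058000500020001000000000000000000000000000) := T_39 (nat_lit 226) (nat_lit 227) (nat_lit 2) (nat_lit 5) (nat_lit 13) L102754 (by decide +kernel)
theorem L102756 : W_39 (nat_lit 9) (nat_lit 0x10003000080004000240012000c0000000000000000000000000000000) (nat_lit 0x0) (nat_lit 0x20002c00c000010002c0058000500020001000000000000000000000000000) := T_39 (nat_lit 229) (nat_lit 245) (nat_lit 5) (nat_lit 8) (nat_lit 10) L102755 (by decide +kernel)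
theorem L102757 : W_39 (nat_lit 10) (nat_lit 0x3000080004000240012000c0000000000000000000000000000000) (nat_lit 0x0) (nat_lit 0x20003c00c800010002c0058000500020001000000000000000000000000000) := T_39 (nat_lit 228) (nat_lit 211) (nat_lit 5) (nat_lit 8) (nat_lit 9) L102756 (by decide +kernel)
theorem L102758 : W_39 (nat_lit 11) (nat_lit 0x2000080004000240012000c0000000000000000000000000000000) (nat_lit 0x0) (nat_lit 0x20007c00d800010002c0058000500020001000000000000000000000000000) := T_39 (nat_lit 212) (nat_lit 230) (nat_lit 7) (nat_lit 8) (nat_lit 9) L102757 (by decide +kernel)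
theorem L102759 : W_39 (nat_lit 12) (nat_lit 0x80004000240012000c0000000000000000000000000000000) (nat_lit 0x0) (nat_lit 0x20007c00f800110002c0058000500020001000000000000000000000000000) := T_39 (nat_lit 213) (nat_lit 196) (nat_lit 7) (nat_lit 8) (nat_lit 8) L102758 (by decide +kernel)
theorem L102760 : W_39 (nat_lit 5) (nat_lit 0x80004000240012000d0000000000000000000000000000000) (nat_lit 0x0) (nat_lit 0x100038003c0042000100008000400000000000000000000000000) := Q_39 (nat_lit 175) (C_39 L102699 (C_39 L102701 N_39)) (by decide +kernel)
theorem L102761 : W_39 (nat_lit 2) (nat_lit 0x180004000260012000f00008000c0002000000000000000000) (nat_lit 0x0) (nat_lit 0x20001000080000000000000) := D_39 (nat_lit 72) (nat_lit 55) (nat_lit 89) (nat_lit 4) (nat_lit 5) (nat_lit 7) (nat_lit 4) (nat_lit 5) (nat_lit 8) (by decide +kernel)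
theorem L102762 : W_39 (nat_lit 3) (nat_lit 0x180004000260012000f00008000c0000000000000000000000) (nat_lit 0x0) (nat_lit 0x400000000000020003000080000000000000) := T_39 (nat_lit 73) (nat_lit 142) (nat_lit 7) (nat_lit 5) (nat_lit 4) L102761 (by decide +kernel)
theorem L102763 : W_39 (nat_lit 4) (nat_lit 0x180004000260012000f0000800080000000000000000000000) (nat_lit 0x0) (nat_lit 0x400000000000060007000080000000000000) := T_39 (nat_lit 90) (nat_lit 74) (nat_lit 6) (nat_lit 5) (nat_lit 8) L102762 (by decide +kernel)
theorem L102764 : W_39 (nat_lit 5) (nat_lit 0x180004000260012000f0000800000000000000000000000000) (nat_lit 0x0) (nat_lit 0x4000000010000e0007000080000000000000) := T_39 (nat_lit 91) (nat_lit 108) (nat_lit 6) (nat_lit 5) (nat_lit 9) L102763 (by decide +kernel)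
theorem L102765 : W_39 (nat_lit 6) (nat_lit 0x180004000240012000f0000800000000000000000000000000) (nat_lit 0x0) (nat_lit 0x400020004000000010000e0007000080000000000000) := T_39 (nat_lit 157) (nat_lit 174) (nat_lit 5) (nat_lit 5) (nat_lit 6) L102764 (by decide +kernel)
theorem L102766 : W_39 (nat_lit 7) (nat_lit 0x180004000240012000f0000000000000000000000000000000) (nat_lit 0x0) (nat_lit 0x40002000400000001c000e0007000080000000000000) := T_39 (nat_lit 107) (nat_lit 106) (nat_lit 0) (nat_lit 8) (nat_lit 7) L102765 (by decide +kernel)
theorem L102767 : W_39 (nat_lit 8) (nat_lit 0x180004000240012000d0000000000000000000000000000000) (nat_lit 0x0) (nat_lit 0x40002000500020001c000e0007000080000000000000) := T_39 (nat_lit 125) (nat_lit 140) (nat_lit 1) (nat_lit 8) (nat_lit 7) L102766 (by decide +kernel)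
theorem L102768 : W_39 (nat_lit 9) (nat_lit 0x80004000240012000d0000000000000000000000000000000) (nat_lit 0x0) (nat_lit 0x200010000040002000500020001c000e0007000080000000000000) := T_39 (nat_lit 196) (nat_lit 213) (nat_lit 7) (nat_lit 8) (nat_lit 8) L102767 (by decide +kernel)
theorem L102769 : W_39 (nat_lit 2) (nat_lit 0x180004800240012000f0000000000000000000000000000000) (nat_lit 0x0) (nat_lit 0x8000c00000000000000000000000000) := D_39 (nat_lit 106) (nat_lit 123) (nat_lit 107) (nat_lit 4) (nat_lit 5) (nat_lit 10) (nat_lit 0) (nat_lit 8) (nat_lit 7) (by decide +kernel)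
theorem L102770 : W_39 (nat_lit 3) (nat_lit 0x180004800240012000d0000000000000000000000000000000) (nat_lit 0x0) (nat_lit 0x28001c00000000000000000000000000) := T_39 (nat_lit 125) (nat_lit 108) (nat_lit 6) (nat_lit 5) (nat_lit 10) L102769 (by decide +kernel)
theorem L102771 : W_39 (nat_lit 4) (nat_lit 0x80004800240012000d0000000000000000000000000000000) (nat_lit 0x0) (nat_lit 0x200010000000000000000028001c00000000000000000000000000) := T_39 (nat_lit 196) (nat_lit 213) (nat_lit 7) (nat_lit 8) (nat_lit 8) L102770 (by decide +kernel)
theorem L102772 : W_39 (nat_lit 5) (nat_lit 0x80004000240012000d0000000000000000000000000000000) (nat_lit 0x0) (nat_lit 0x200012000380042000000028001c00000000000000000000000000) := Q_39 (nat_lit 175) (C_39 L102771 (C_39 L102701 N_39)) (by decide +kernel)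
theorem L102773 : W_39 (nat_lit 10) (nat_lit 0x80004000240012000c0000000000000000000000000000000) (nat_lit 0x0) (nat_lit 0x2500138003c0042000500038001c000e0007000080000000000000) := Q_39 (nat_lit 124) (C_39 L102760 (C_39 L102705 (C_39 L102768 (C_39 L102772 (C_39 L102719 N_39))))) (by decide +kernel)
theorem L102774 : W_39 (nat_lit 2) (nat_lit 0x20003000080004000340013000c0000000000000000000000000000000) (nat_lit 0x0) (nat_lit 0x20001000080000000000000000000000000000000000000000000000000000) := D_39 (nat_lit 228) (nat_lit 245) (nat_lit 211) (nat_lit 5) (nat_lit 8) (nat_lit 10) (nat_lit 5) (nat_lit 8) (nat_lit 9) (by decide +kernel)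
theorem L102775 : W_39 (nat_lit 3) (nat_lit 0x3000080004000340013000c0000000000000000000000000000000) (nat_lit 0x0) (nat_lit 0x20003000080000000200000000000000000000000000000000000000000000) := T_39 (nat_lit 229) (nat_lit 177) (nat_lit 4) (nat_lit 8) (nat_lit 13) L102774 (by decide +kernel)
theorem L102776 : W_39 (nat_lit 4) (nat_lit 0x2000080004000340013000c0000000000000000000000000000000) (nat_lit 0x0) (nat_lit 0x20007000180000000200000000000000000000000000000000000000000000) := T_39 (nat_lit 212) (nat_lit 230) (nat_lit 7) (nat_lit 8) (nat_lit 9) L102775 (by decide +kernel)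
theorem L102777 : W_39 (nat_lit 5) (nat_lit 0x2000080004000240013000c0000000000000000000000000000000) (nat_lit 0x0) (nat_lit 0x20007000180000000200018000000000000000000000000000000000000000) := T_39 (nat_lit 160) (nat_lit 159) (nat_lit 0) (nat_lit 8) (nat_lit 9) L102776 (by decide +kernel)
theorem L102778 : W_39 (nat_lit 6) (nat_lit 0x80004000240013000c0000000000000000000000000000000) (nat_lit 0x0) (nat_lit 0x20007000380010000200018000000000000000000000000000000000000000) := T_39 (nat_lit 213) (nat_lit 196) (nat_lit 7) (nat_lit 8) (nat_lit 8) L102777 (by decide +kernel)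
theorem L102779 : W_39 (nat_lit 6) (nat_lit 0x80004000240012000d0000000000000000000000000000000) (nat_lit 0x0) (nat_lit 0x14001a0001c0020000800040000000000000000000000) := T_39 (nat_lit 140) (nat_lit 125) (nat_lit 1) (nat_lit 8) (nat_lit 7) L102597 (by decide +kernel)
theorem L102780 : W_39 (nat_lit 2) (nat_lit 0x1800040002c0016000f0001800000000000000000000000000) (nat_lit 0x0) (nat_lit 0x200050000000000000000000000000000000000000000) := D_39 (nat_lit 160) (nat_lit 162) (nat_lit 177) (nat_lit 0) (nat_lit 9) (nat_lit 9) (nat_lit 7) (nat_lit 6) (nat_lit 6) (by decide +kernel)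
theorem L102781 : W_39 (nat_lit 3) (nat_lit 0x1800040002c0012000f0001800000000000000000000000000) (nat_lit 0x0) (nat_lit 0x200050000400000000000040000000000000000000000) := T_39 (nat_lit 142) (nat_lit 90) (nat_lit 7) (nat_lit 5) (nat_lit 5) L102780 (by decide +kernel)
theorem L102782 : W_39 (nat_lit 4) (nat_lit 0x180004000240012000f0001800000000000000000000000000) (nat_lit 0x0) (nat_lit 0x300058000400000000000040000000000000000000000) := T_39 (nat_lit 159) (nat_lit 176) (nat_lit 7) (nat_lit 5) (nat_lit 6) L102781 (by decide +kernel)
theorem L102783 : W_39 (nat_lit 5) (nat_lit 0x180004000240012000f0000800000000000000000000000000) (nat_lit 0x0) (nat_lit 0x3000580004000000010000c0000000000000000000000) := T_39 (nat_lit 108) (nat_lit 91) (nat_lit 6) (nat_lit 5) (nat_lit 9) L102782 (by decide +kernel)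
theorem L102784 : W_39 (nat_lit 6) (nat_lit 0x180004000240012000f0000000000000000000000000000000) (nat_lit 0x0) (nat_lit 0x300058000400000001c000c0000000000000000000000) := T_39 (nat_lit 107) (nat_lit 106) (nat_lit 0) (nat_lit 8) (nat_lit 7) L102783 (by decide +kernel)
theorem L102785 : W_39 (nat_lit 7) (nat_lit 0x180004000240012000d0000000000000000000000000000000) (nat_lit 0x0) (nat_lit 0x300058000500020001c000c0000000000000000000000) := T_39 (nat_lit 125) (nat_lit 140) (nat_lit 1) (nat_lit 8) (nat_lit 7) L102784 (by decide +kernel)
theorem L102786 : W_39 (nat_lit 8) (nat_lit 0x80004000240012000d0000000000000000000000000000000) (nat_lit 0x0) (nat_lit 0x200010000300058000500020001c000c0000000000000000000000) := T_39 (nat_lit 196) (nat_lit 213) (nat_lit 7) (nat_lit 8) (nat_lit 8) L102785 (by decide +kernel)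
theorem L102787 : W_39 (nat_lit 2) (nat_lit 0x3400b0000800040003c0016000d0000000000000000000000000000000) (nat_lit 0x0) (nat_lit 0x100000000000000000800040000000000000000000000) := D_39 (nat_lit 107) (nat_lit 176) (nat_lit 90) (nat_lit 7) (nat_lit 5) (nat_lit 6) (nat_lit 7) (nat_lit 5) (nat_lit 5) (by decide +kernel)
theorem L102788 : W_39 (nat_lit 3) (nat_lit 0x3400b0000800040003c0012000d0000000000000000000000000000000) (nat_lit 0x0) (nat_lit 0x100040000400000000800040000000000000000000000) := T_39 (nat_lit 142) (nat_lit 162) (nat_lit 0) (nat_lit 9) (nat_lit 9) L102787 (by decide +kernel)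
theorem L102789 : W_39 (nat_lit 4) (nat_lit 0x3400b000080004000340012000d0000000000000000000000000000000) (nat_lit 0x0) (nat_lit 0x100048000500000000800040000000000000000000000) := T_39 (nat_lit 159) (nat_lit 140) (nat_lit 0) (nat_lit 8) (nat_lit 9) L102788 (by decide +kernel)
theorem L102790 : W_39 (nat_lit 5) (nat_lit 0x34003000080004000340012000d0000000000000000000000000000000) (nat_lit 0x0) (nat_lit 0xc00000000100048000500000000800040000000000000000000000) := T_39 (nat_lit 215) (nat_lit 214) (nat_lit 1) (nat_lit 11) (nat_lit 12) L102789 (by decide +kernel)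
theorem L102791 : W_39 (nat_lit 6) (nat_lit 0x34003000080004000240012000d0000000000000000000000000000000) (nat_lit 0x0) (nat_lit 0xc00000000300058000500000000800040000000000000000000000) := T_39 (nat_lit 160) (nat_lit 177) (nat_lit 4) (nat_lit 8) (nat_lit 13) L102790 (by decide +kernel)
theorem L102792 : W_39 (nat_lit 7) (nat_lit 0x30003000080004000240012000d0000000000000000000000000000000) (nat_lit 0x0) (nat_lit 0xc00c00000000300058000500000000800040000000000000000000000) := T_39 (nat_lit 226) (nat_lit 227) (nat_lit 2) (nat_lit 5) (nat_lit 13) L102791 (by decide +kernel)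
theorem L102793 : W_39 (nat_lit 8) (nat_lit 0x10003000080004000240012000d0000000000000000000000000000000) (nat_lit 0x0) (nat_lit 0x20002c00c00000000300058000500000000800040000000000000000000000) := T_39 (nat_lit 229) (nat_lit 245) (nat_lit 5) (nat_lit 8) (nat_lit 10) L102792 (by decide +kernel)
theorem L102794 : W_39 (nat_lit 9) (nat_lit 0x3000080004000240012000d0000000000000000000000000000000) (nat_lit 0x0) (nat_lit 0x20003c00c80000000300058000500000000800040000000000000000000000) := T_39 (nat_lit 228) (nat_lit 211) (nat_lit 5) (nat_lit 8) (nat_lit 9) L102793 (by decide +kernel)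
theorem L102795 : W_39 (nat_lit 10) (nat_lit 0x2000080004000240012000d0000000000000000000000000000000) (nat_lit 0x0) (nat_lit 0x20007c00d80000000300058000500000000800040000000000000000000000) := T_39 (nat_lit 212) (nat_lit 230) (nat_lit 7) (nat_lit 8) (nat_lit 9) L102794 (by decide +kernel)
theorem L102796 : W_39 (nat_lit 11) (nat_lit 0x80004000240012000d0000000000000000000000000000000) (nat_lit 0x0) (nat_lit 0x20007c00f80010000300058000500000000800040000000000000000000000) := T_39 (nat_lit 213) (nat_lit 196) (nat_lit 7) (nat_lit 8) (nat_lit 8) L102795 (by decide +kernel)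
theorem L102797 : W_39 (nat_lit 2) (nat_lit 0x80004000240012000d0000800000000000000000000000000) (nat_lit 0x0) (nat_lit 0x20000400020000000000000000000000) := D_39 (nat_lit 106) (nat_lit 125) (nat_lit 89) (nat_lit 0) (nat_lit 8) (nat_lit 7) (nat_lit 4) (nat_lit 5) (nat_lit 9) (by decide +kernel)
theorem L102798 : W_39 (nat_lit 7) (nat_lit 0x80004000240012000d0000000000000000000000000000000) (nat_lit 0x0) (nat_lit 0x20001000034005a000400020001c000e0001000000000000000000) := Q_39 (nat_lit 107) (C_39 L102731 (C_39 L102797 (C_39 L102663 N_39))) (by decide +kernel)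
theorem L102799 : W_39 (nat_lit 2) (nat_lit 0x10003000080004000340013000d0000000000000000000000000000000) (nat_lit 0x0) (nat_lit 0x20002000000000000200000000000000000000000000000000000000000000) := D_39 (nat_lit 229) (nat_lit 245) (nat_lit 177) (nat_lit 5) (nat_lit 8) (nat_lit 10) (nat_lit 4) (nat_lit 8) (nat_lit 13) (by decide +kernel)
theorem L102800 : W_39 (nat_lit 3) (nat_lit 0x10003000080004000240013000d0000000000000000000000000000000) (nat_lit 0x0) (nat_lit 0x20002000000000000200018000000000000000000000000000000000000000) := T_39 (nat_lit 160) (nat_lit 159) (nat_lit 0) (nat_lit 8) (nat_lit 9) L102799 (by decide +kernel)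
theorem L102801 : W_39 (nat_lit 4) (nat_lit 0x3000080004000240013000d0000000000000000000000000000000) (nat_lit 0x0) (nat_lit 0x20003000080000000200018000000000000000000000000000000000000000) := T_39 (nat_lit 228) (nat_lit 211) (nat_lit 5) (nat_lit 8) (nat_lit 9) L102800 (by decide +kernel)
theorem L102802 : W_39 (nat_lit 5) (nat_lit 0x2000080004000240013000d0000000000000000000000000000000) (nat_lit 0x0) (nat_lit 0x20007000180000000200018000000000000000000000000000000000000000) := T_39 (nat_lit 212) (nat_lit 230) (nat_lit 7) (nat_lit 8) (nat_lit 9) L102801 (by decide +kernel)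
theorem L102803 : W_39 (nat_lit 6) (nat_lit 0x2000080004000240012000d0000000000000000000000000000000) (nat_lit 0x0) (nat_lit 0x20007000180000000200018000100020000000000000000000000000000000) := T_39 (nat_lit 140) (nat_lit 125) (nat_lit 1) (nat_lit 8) (nat_lit 7) L102802 (by decide +kernel)
theorem L102804 : W_39 (nat_lit 7) (nat_lit 0x80004000240012000d0000000000000000000000000000000) (nat_lit 0x0) (nat_lit 0x20007000380010000200018000100020000000000000000000000000000000) := T_39 (nat_lit 213) (nat_lit 196) (nat_lit 7) (nat_lit 8) (nat_lit 8) L102803 (by decide +kernel)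
theorem L102805 : W_39 (nat_lit 12) (nat_lit 0x80004000240012000c0000000000000000000000000000000) (nat_lit 0x0) (nat_lit 0x20007c00f8001000034005a0005c0030001c000e0007000080000000000000) := Q_39 (nat_lit 124) (C_39 L102711 (C_39 L102768 (C_39 L102779 (C_39 L102786 (C_39 L102796 (C_39 L102798 (C_39 L102804 N_39))))))) (by decide +kernel)
theorem L102806 : W_39 (nat_lit 2) (nat_lit 0x3400b0000800058003c0012000c0000000000000000000000000000000) (nat_lit 0x0) (nat_lit 0x40002000000000000000010000000000000000000000000000000) := D_39 (nat_lit 193) (nat_lit 210) (nat_lit 124) (nat_lit 4) (nat_lit 6) (nat_lit 12) (nat_lit 7) (nat_lit 5) (nat_lit 7) (by decide +kernel)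
theorem L102807 : W_39 (nat_lit 3) (nat_lit 0x3400b0000800048003c0012000c0000000000000000000000000000000) (nat_lit 0x0) (nat_lit 0x40002000100040000000010000000000000000000000000000000) := T_39 (nat_lit 176) (nat_lit 162) (nat_lit 1) (nat_lit 9) (nat_lit 9) L102806 (by decide +kernel)
theorem L102808 : W_39 (nat_lit 4) (nat_lit 0x3400b0000800040003c0012000c0000000000000000000000000000000) (nat_lit 0x0) (nat_lit 0x400020001c0040000000010000000000000000000000000000000) := T_39 (nat_lit 175) (nat_lit 174) (nat_lit 1) (nat_lit 8) (nat_lit 9) L102807 (by decide +kernel)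
theorem L102809 : W_39 (nat_lit 5) (nat_lit 0x3400b000080004000340012000c0000000000000000000000000000000) (nat_lit 0x0) (nat_lit 0x400020001c0048000100010000000000000000000000000000000) := T_39 (nat_lit 159) (nat_lit 140) (nat_lit 0) (nat_lit 8) (nat_lit 9) L102808 (by decide +kernel)
theorem L102810 : W_39 (nat_lit 6) (nat_lit 0x34003000080004000340012000c0000000000000000000000000000000) (nat_lit 0x0) (nat_lit 0xc400020001c0048000100010000000000000000000000000000000) := T_39 (nat_lit 215) (nat_lit 214) (nat_lit 1) (nat_lit 11) (nat_lit 12) L102809 (by decide +kernel)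
theorem L102811 : W_39 (nat_lit 7) (nat_lit 0x34003000080004000240012000c0000000000000000000000000000000) (nat_lit 0x0) (nat_lit 0xc400020003c0058000100010000000000000000000000000000000) := T_39 (nat_lit 160) (nat_lit 177) (nat_lit 4) (nat_lit 8) (nat_lit 13) L102810 (by decide +kernel)
theorem L102812 : W_39 (nat_lit 8) (nat_lit 0x30003000080004000240012000c0000000000000000000000000000000) (nat_lit 0x0) (nat_lit 0xc00c400020003c0058000100010000000000000000000000000000000) := T_39 (nat_lit 226) (nat_lit 227) (nat_lit 2) (nat_lit 5) (nat_lit 13) L102811 (by decide +kernel)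
theorem L102813 : W_39 (nat_lit 9) (nat_lit 0x10003000080004000240012000c0000000000000000000000000000000) (nat_lit 0x0) (nat_lit 0x20002c00c400020003c0058000100010000000000000000000000000000000) := T_39 (nat_lit 229) (nat_lit 245) (nat_lit 5) (nat_lit 8) (nat_lit 10) L102812 (by decide +kernel)
theorem L102814 : W_39 (nat_lit 10) (nat_lit 0x3000080004000240012000c0000000000000000000000000000000) (nat_lit 0x0) (nat_lit 0x20003c00cc00020003c0058000100010000000000000000000000000000000) := T_39 (nat_lit 228) (nat_lit 211) (nat_lit 5) (nat_lit 8) (nat_lit 9) L102813 (by decide +kernel)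
theorem L102815 : W_39 (nat_lit 11) (nat_lit 0x2000080004000240012000c0000000000000000000000000000000) (nat_lit 0x0) (nat_lit 0x20007c00dc00020003c0058000100010000000000000000000000000000000) := T_39 (nat_lit 212) (nat_lit 230) (nat_lit 7) (nat_lit 8) (nat_lit 9) L102814 (by decide +kernel)
theorem L102816 : W_39 (nat_lit 12) (nat_lit 0x80004000240012000c0000000000000000000000000000000) (nat_lit 0x0) (nat_lit 0x20007c00fc00120003c0058000100010000000000000000000000000000000) := T_39 (nat_lit 213) (nat_lit 196) (nat_lit 7) (nat_lit 8) (nat_lit 8) L102815 (by decide +kernel)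
theorem L102817 : W_39 (nat_lit 2) (nat_lit 0x3e00090004000240017000e0000000080000000000000000000000) (nat_lit 0x0) (nat_lit 0xe00000000000000000000000000000000000000000000000000000000) := D_39 (nat_lit 226) (nat_lit 225) (nat_lit 227) (nat_lit 1) (nat_lit 8) (nat_lit 12) (nat_lit 1) (nat_lit 9) (nat_lit 12) (by decide +kernel)
theorem L102818 : W_39 (nat_lit 3) (nat_lit 0x3c00090004000240017000e0000000080000000000000000000000) (nat_lit 0x0) (nat_lit 0xe00020000800000000000000000000000000000000000000000000000) := T_39 (nat_lit 209) (nat_lit 191) (nat_lit 0) (nat_lit 8) (nat_lit 12) L102817 (by decide +kernel)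
theorem L102819 : W_39 (nat_lit 4) (nat_lit 0x3800090004000240017000e0000000080000000000000000000000) (nat_lit 0x0) (nat_lit 0xe00060002800000000000000000000000000000000000000000000000) := T_39 (nat_lit 210) (nat_lit 193) (nat_lit 0) (nat_lit 9) (nat_lit 12) L102818 (by decide +kernel)
theorem L102820 : W_39 (nat_lit 5) (nat_lit 0x3800080004000240017000e0000000080000000000000000000000) (nat_lit 0x0) (nat_lit 0xe00060003800080000000000000000000000000000000000000000000) := T_39 (nat_lit 192) (nat_lit 175) (nat_lit 6) (nat_lit 5) (nat_lit 11) L102819 (by decide +kernel)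
theorem L102821 : W_39 (nat_lit 6) (nat_lit 0x3800080004000240017000e0000000000000000000000000000000) (nat_lit 0x0) (nat_lit 0xe00060003800080000000000000001000080000000000000000000000) := T_39 (nat_lit 91) (nat_lit 108) (nat_lit 5) (nat_lit 6) (nat_lit 5) L102820 (by decide +kernel)
theorem L102822 : W_39 (nat_lit 7) (nat_lit 0x3800080004000240013000e0000000000000000000000000000000) (nat_lit 0x0) (nat_lit 0xe00060003800080000000480000001000080000000000000000000000) := T_39 (nat_lit 142) (nat_lit 139) (nat_lit 2) (nat_lit 3) (nat_lit 8) L102821 (by decide +kernel)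
theorem L102823 : W_39 (nat_lit 8) (nat_lit 0x3000080004000240013000e0000000000000000000000000000000) (nat_lit 0x0) (nat_lit 0x1e000e0003800080000000480000001000080000000000000000000000) := T_39 (nat_lit 211) (nat_lit 228) (nat_lit 5) (nat_lit 8) (nat_lit 9) L102822 (by decide +kernel)
theorem L102824 : W_39 (nat_lit 9) (nat_lit 0x2000080004000240013000e0000000000000000000000000000000) (nat_lit 0x0) (nat_lit 0x5e001e0003800080000000480000001000080000000000000000000000) := T_39 (nat_lit 212) (nat_lit 230) (nat_lit 7) (nat_lit 8) (nat_lit 9) L102823 (by decide +kernel)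
theorem L102825 : W_39 (nat_lit 10) (nat_lit 0x2000080004000240013000c0000000000000000000000000000000) (nat_lit 0x0) (nat_lit 0x5e001e0003800080000000480030001000080000000000000000000000) := T_39 (nat_lit 125) (nat_lit 124) (nat_lit 1) (nat_lit 8) (nat_lit 7) L102824 (by decide +kernel)
theorem L102826 : W_39 (nat_lit 11) (nat_lit 0x80004000240013000c0000000000000000000000000000000) (nat_lit 0x0) (nat_lit 0x5e003e0013800080000000480030001000080000000000000000000000) := T_39 (nat_lit 213) (nat_lit 196) (nat_lit 7) (nat_lit 8) (nat_lit 8) L102825 (by decide +kernel)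
theorem L102827 : W_39 (nat_lit 12) (nat_lit 0x80004000240012000c0000000000000000000000000000000) (nat_lit 0x0) (nat_lit 0x20007e003e001380028001a0005e0033801000080000000000000000000000) := Q_39 (nat_lit 140) (C_39 L102600 (C_39 L102826 (C_39 L102778 N_39))) (by decide +kernel)
theorem L102828 : W_39 (nat_lit 2) (nat_lit 0x80005800240012000c0000000000000000000000000000000) (nat_lit 0x0) (nat_lit 0x10000200002000000000000000000000000000000000000000) := D_39 (nat_lit 177) (nat_lit 157) (nat_lit 196) (nat_lit 0) (nat_lit 8) (nat_lit 10) (nat_lit 3) (nat_lit 5) (nat_lit 10) (by decide +kernel)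
theorem L102829 : W_39 (nat_lit 2) (nat_lit 0x90005800240012000f8000000000000000000000000000000) (nat_lit 0x0) (nat_lit 0x10000800040000000000000000000000000000000000000000000) := D_39 (nat_lit 191) (nat_lit 208) (nat_lit 174) (nat_lit 5) (nat_lit 5) (nat_lit 8) (nat_lit 5) (nat_lit 5) (nat_lit 7) (by decide +kernel)
theorem L102830 : W_39 (nat_lit 3) (nat_lit 0x80005800240012000f8000000000000000000000000000000) (nat_lit 0x0) (nat_lit 0x10001800040000000400000000000000000000000000000000000) := T_39 (nat_lit 192) (nat_lit 142) (nat_lit 6) (nat_lit 5) (nat_lit 11) L102829 (by decide +kernel)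
theorem L102831 : W_39 (nat_lit 4) (nat_lit 0x80005800240012000d8000000000000000000000000000000) (nat_lit 0x0) (nat_lit 0x10001800040000000400020001000000000000000000000000000) := T_39 (nat_lit 125) (nat_lit 108) (nat_lit 6) (nat_lit 5) (nat_lit 10) L102830 (by decide +kernel)
theorem L102832 : W_39 (nat_lit 5) (nat_lit 0x80005800240012000d0000000000000000000000000000000) (nat_lit 0x0) (nat_lit 0x10001800040000000400028001400000000000000000000000000) := T_39 (nat_lit 123) (nat_lit 106) (nat_lit 4) (nat_lit 5) (nat_lit 10) L102831 (by decide +kernel)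
theorem L102833 : W_39 (nat_lit 6) (nat_lit 0x80005800240012000c0000000000000000000000000000000) (nat_lit 0x0) (nat_lit 0x10003800040000000400038001400000000000000000000000000) := T_39 (nat_lit 124) (nat_lit 193) (nat_lit 7) (nat_lit 5) (nat_lit 7) L102832 (by decide +kernel)
theorem L102834 : W_39 (nat_lit 7) (nat_lit 0x80004800240012000c0000000000000000000000000000000) (nat_lit 0x0) (nat_lit 0x10013800340002000400038001400000000000000000000000000) := Q_39 (nat_lit 176) (C_39 L102828 (C_39 L102833 N_39)) (by decide +kernel)
theorem L102835 : W_39 (nat_lit 4) (nat_lit 0x3400b000080004800340012000c0000000000000000000000000000000) (nat_lit 0x0) (nat_lit 0x1000040048000400020001000000000000000000000000000) := T_39 (nat_lit 159) (nat_lit 174) (nat_lit 1) (nat_lit 8) (nat_lit 9) L102750 (by decide +kernel)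
theorem L102836 : W_39 (nat_lit 5) (nat_lit 0x34003000080004800340012000c0000000000000000000000000000000) (nat_lit 0x0) (nat_lit 0xc00001000040048000400020001000000000000000000000000000) := T_39 (nat_lit 215) (nat_lit 214) (nat_lit 1) (nat_lit 11) (nat_lit 12) L102835 (by decide +kernel)
theorem L102837 : W_39 (nat_lit 6) (nat_lit 0x34003000080004800240012000c0000000000000000000000000000000) (nat_lit 0x0) (nat_lit 0xc00001000240058000400020001000000000000000000000000000) := T_39 (nat_lit 160) (nat_lit 177) (nat_lit 4) (nat_lit 8) (nat_lit 13) L102836 (by decide +kernel)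
theorem L102838 : W_39 (nat_lit 7) (nat_lit 0x30003000080004800240012000c0000000000000000000000000000000) (nat_lit 0x0) (nat_lit 0xc00c00001000240058000400020001000000000000000000000000000) := T_39 (nat_lit 226) (nat_lit 227) (nat_lit 2) (nat_lit 5) (nat_lit 13) L102837 (by decide +kernel)
theorem L102839 : W_39 (nat_lit 8) (nat_lit 0x10003000080004800240012000c0000000000000000000000000000000) (nat_lit 0x0) (nat_lit 0x20002c00c00001000240058000400020001000000000000000000000000000) := T_39 (nat_lit 229) (nat_lit 245) (nat_lit 5) (nat_lit 8) (nat_lit 10) L102838 (by decide +kernel)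
theorem L102840 : W_39 (nat_lit 9) (nat_lit 0x3000080004800240012000c0000000000000000000000000000000) (nat_lit 0x0) (nat_lit 0x20003c00c80001000240058000400020001000000000000000000000000000) := T_39 (nat_lit 228) (nat_lit 211) (nat_lit 5) (nat_lit 8) (nat_lit 9) L102839 (by decide +kernel)
theorem L102841 : W_39 (nat_lit 10) (nat_lit 0x2000080004800240012000c0000000000000000000000000000000) (nat_lit 0x0) (nat_lit 0x20007c00d80001000240058000400020001000000000000000000000000000) := T_39 (nat_lit 212) (nat_lit 230) (nat_lit 7) (nat_lit 8) (nat_lit 9) L102840 (by decide +kernel)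
theorem L102842 : W_39 (nat_lit 11) (nat_lit 0x80004800240012000c0000000000000000000000000000000) (nat_lit 0x0) (nat_lit 0x20007c00f80011000240058000400020001000000000000000000000000000) := T_39 (nat_lit 213) (nat_lit 196) (nat_lit 7) (nat_lit 8) (nat_lit 8) L102841 (by decide +kernel)
theorem L102843 : W_39 (nat_lit 2) (nat_lit 0x180005800240012000f8000800000000000000000000000000) (nat_lit 0x0) (nat_lit 0x800040002000000000000000000000000000000000000000) := D_39 (nat_lit 174) (nat_lit 157) (nat_lit 191) (nat_lit 5) (nat_lit 5) (nat_lit 6) (nat_lit 5) (nat_lit 5) (nat_lit 7) (by decide +kernel)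
theorem L102844 : W_39 (nat_lit 3) (nat_lit 0x180005800240012000f8000000000000000000000000000000) (nat_lit 0x0) (nat_lit 0x80004000a000000000000800000000000000000000000000) := T_39 (nat_lit 107) (nat_lit 159) (nat_lit 7) (nat_lit 5) (nat_lit 6) L102843 (by decide +kernel)
theorem L102845 : W_39 (nat_lit 4) (nat_lit 0x180005800240012000d8000000000000000000000000000000) (nat_lit 0x0) (nat_lit 0x80004000a000000020001800000000000000000000000000) := T_39 (nat_lit 125) (nat_lit 108) (nat_lit 6) (nat_lit 5) (nat_lit 10) L102844 (by decide +kernel)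
theorem L102846 : W_39 (nat_lit 5) (nat_lit 0x180005800240012000d0000000000000000000000000000000) (nat_lit 0x0) (nat_lit 0x80004000a000000028001c00000000000000000000000000) := T_39 (nat_lit 123) (nat_lit 106) (nat_lit 4) (nat_lit 5) (nat_lit 10) L102845 (by decide +kernel)
theorem L102847 : W_39 (nat_lit 6) (nat_lit 0x180005800240012000c0000000000000000000000000000000) (nat_lit 0x0) (nat_lit 0x280004000a000000038001c00000000000000000000000000) := T_39 (nat_lit 124) (nat_lit 193) (nat_lit 7) (nat_lit 5) (nat_lit 7) L102846 (by decide +kernel)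
theorem L102848 : W_39 (nat_lit 7) (nat_lit 0x180004800240012000c0000000000000000000000000000000) (nat_lit 0x0) (nat_lit 0x280034000a000000038001c00000000000000000000000000) := T_39 (nat_lit 176) (nat_lit 177) (nat_lit 3) (nat_lit 5) (nat_lit 10) L102847 (by decide +kernel)
theorem L102849 : W_39 (nat_lit 8) (nat_lit 0x80004800240012000c0000000000000000000000000000000) (nat_lit 0x0) (nat_lit 0x20001280034000a000000038001c00000000000000000000000000) := T_39 (nat_lit 196) (nat_lit 213) (nat_lit 7) (nat_lit 8) (nat_lit 8) L102848 (by decide +kernel)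
theorem L102850 : W_39 (nat_lit 4) (nat_lit 0x80004800240012000d0000000000000000000000000000000) (nat_lit 0x0) (nat_lit 0x40003000100000000400020001000000000000000000000000000) := T_39 (nat_lit 125) (nat_lit 108) (nat_lit 6) (nat_lit 5) (nat_lit 10) L102717 (by decide +kernel)
theorem L102851 : W_39 (nat_lit 6) (nat_lit 0x80004800240012000c0000000000000000000000000000000) (nat_lit 0x0) (nat_lit 0x24001380014001a000400038001c00020000000000000000000000) := Q_39 (nat_lit 124) (C_39 L102771 (C_39 L102696 (C_39 L102850 N_39))) (by decide +kernel)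
theorem L102852 : W_39 (nat_lit 6) (nat_lit 0x80004800240012000c0000000000000000000000000000000) (nat_lit 0x0) (nat_lit 0x4000380014001a000400038001c00020000000000000000000000) := Q_39 (nat_lit 124) (C_39 L102850 (C_39 L102696 N_39)) (by decide +kernel)
theorem L102853 : W_39 (nat_lit 2) (nat_lit 0x1001900058002c0012000f8000000000000000000000000000000) (nat_lit 0x0) (nat_lit 0x600020000000000000000000000000000000000000000000000000000) := D_39 (nat_lit 209) (nat_lit 225) (nat_lit 226) (nat_lit 5) (nat_lit 5) (nat_lit 9) (nat_lit 6) (nat_lit 5) (nat_lit 13) (by decide +kernel)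
theorem L102854 : W_39 (nat_lit 3) (nat_lit 0x100190005800240012000f8000000000000000000000000000000) (nat_lit 0x0) (nat_lit 0x600020000000000008000000000000800000000000000000000000000) := T_39 (nat_lit 159) (nat_lit 107) (nat_lit 7) (nat_lit 5) (nat_lit 6) L102853 (by decide +kernel)
theorem L102855 : W_39 (nat_lit 4) (nat_lit 0x190005800240012000f8000000000000000000000000000000) (nat_lit 0x0) (nat_lit 0x600030000800000008000000000000800000000000000000000000000) := T_39 (nat_lit 208) (nat_lit 191) (nat_lit 5) (nat_lit 5) (nat_lit 8) L102854 (by decide +kernel)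
theorem L102856 : W_39 (nat_lit 5) (nat_lit 0x180005800240012000f8000000000000000000000000000000) (nat_lit 0x0) (nat_lit 0x600030001800000008000400000000800000000000000000000000000) := T_39 (nat_lit 192) (nat_lit 142) (nat_lit 6) (nat_lit 5) (nat_lit 11) L102855 (by decide +kernel)
theorem L102857 : W_39 (nat_lit 6) (nat_lit 0x180005800240012000d8000000000000000000000000000000) (nat_lit 0x0) (nat_lit 0x600030001800000008000400020001800000000000000000000000000) := T_39 (nat_lit 125) (nat_lit 108) (nat_lit 6) (nat_lit 5) (nat_lit 10) L102856 (by decide +kernel)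
theorem L102858 : W_39 (nat_lit 7) (nat_lit 0x180005800240012000d0000000000000000000000000000000) (nat_lit 0x0) (nat_lit 0x600030001800000008000400028001c00000000000000000000000000) := T_39 (nat_lit 123) (nat_lit 106) (nat_lit 4) (nat_lit 5) (nat_lit 10) L102857 (by decide +kernel)
theorem L102859 : W_39 (nat_lit 8) (nat_lit 0x180005800240012000c0000000000000000000000000000000) (nat_lit 0x0) (nat_lit 0x600030003800000008000400038001c00000000000000000000000000) := T_39 (nat_lit 124) (nat_lit 193) (nat_lit 7) (nat_lit 5) (nat_lit 7) L102858 (by decide +kernel)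
theorem L102860 : W_39 (nat_lit 9) (nat_lit 0x180004800240012000c0000000000000000000000000000000) (nat_lit 0x0) (nat_lit 0x600030003800300008000400038001c00000000000000000000000000) := T_39 (nat_lit 176) (nat_lit 177) (nat_lit 3) (nat_lit 5) (nat_lit 10) L102859 (by decide +kernel)
theorem L102861 : W_39 (nat_lit 10) (nat_lit 0x80004800240012000c0000000000000000000000000000000) (nat_lit 0x0) (nat_lit 0x600230013800300008000400038001c00000000000000000000000000) := T_39 (nat_lit 196) (nat_lit 213) (nat_lit 7) (nat_lit 8) (nat_lit 8) L102860 (by decide +kernel)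
theorem L102862 : W_39 (nat_lit 2) (nat_lit 0x180005800240012000d8000800000000000000000000000000) (nat_lit 0x0) (nat_lit 0x800040002000000000000000000000000000000000000000) := D_39 (nat_lit 174) (nat_lit 157) (nat_lit 191) (nat_lit 5) (nat_lit 5) (nat_lit 6) (nat_lit 5) (nat_lit 5) (nat_lit 7) (by decide +kernel)
theorem L102863 : W_39 (nat_lit 3) (nat_lit 0x180005800240012000d8000000000000000000000000000000) (nat_lit 0x0) (nat_lit 0x80004000a000000000000800000000000000000000000000) := T_39 (nat_lit 107) (nat_lit 159) (nat_lit 7) (nat_lit 5) (nat_lit 6) L102862 (by decide +kernel)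
theorem L102864 : W_39 (nat_lit 4) (nat_lit 0x180005800240012000d0000000000000000000000000000000) (nat_lit 0x0) (nat_lit 0x80004000a000000008000c00000000000000000000000000) := T_39 (nat_lit 123) (nat_lit 106) (nat_lit 4) (nat_lit 5) (nat_lit 10) L102863 (by decide +kernel)
theorem L102865 : W_39 (nat_lit 5) (nat_lit 0x180005800240012000c0000000000000000000000000000000) (nat_lit 0x0) (nat_lit 0x280004000a000000018000c00000000000000000000000000) := T_39 (nat_lit 124) (nat_lit 193) (nat_lit 7) (nat_lit 5) (nat_lit 7) L102864 (by decide +kernel)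
theorem L102866 : W_39 (nat_lit 6) (nat_lit 0x180004800240012000c0000000000000000000000000000000) (nat_lit 0x0) (nat_lit 0x280034000a000000018000c00000000000000000000000000) := T_39 (nat_lit 176) (nat_lit 177) (nat_lit 3) (nat_lit 5) (nat_lit 10) L102865 (by decide +kernel)
theorem L102867 : W_39 (nat_lit 7) (nat_lit 0x80004800240012000c0000000000000000000000000000000) (nat_lit 0x0) (nat_lit 0x20001280034000a000000018000c00000000000000000000000000) := T_39 (nat_lit 196) (nat_lit 213) (nat_lit 7) (nat_lit 8) (nat_lit 8) L102866 (by decide +kernel)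
theorem L102868 : W_39 (nat_lit 12) (nat_lit 0x80004000240012000c0000000000000000000000000000000) (nat_lit 0x0) (nat_lit 0x20007e00ff00138003c005a000400038001c00020000000000000000000000) := Q_39 (nat_lit 175) (C_39 L102834 (C_39 L102842 (C_39 L102849 (C_39 L102851 (C_39 L102852 (C_39 L102861 (C_39 L102867 N_39))))))) (by decide +kernel)
theorem L102869 : W_39 (nat_lit 13) (nat_lit 0x80004000200012000c0000000000000000000000000000000) (nat_lit 0x0) (nat_lit 0x20007e00ff00138003e005fc005e003b801c000e0007000280000000000000) := Q_39 (nat_lit 158) (C_39 L102720 (C_39 L102748 (C_39 L102759 (C_39 L102773 (C_39 L102805 (C_39 L102816 (C_39 L102827 (C_39 L102868 N_39)))))))) (by decide +kernel)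
theorem L102870 : W_39 (nat_lit 2) (nat_lit 0x98004800340013000c0000000000000000000000000000000) (nat_lit 0x0) (nat_lit 0x4000300000000000000000000000000000000000000000000) := D_39 (nat_lit 177) (nat_lit 176) (nat_lit 194) (nat_lit 1) (nat_lit 8) (nat_lit 10) (nat_lit 5) (nat_lit 8) (nat_lit 7) (by decide +kernel)
theorem L102871 : W_39 (nat_lit 3) (nat_lit 0x90004800340013000c0000000000000000000000000000000) (nat_lit 0x0) (nat_lit 0x10004800300000000000000000000000000000000000000000000) := T_39 (nat_lit 191) (nat_lit 208) (nat_lit 5) (nat_lit 5) (nat_lit 8) L102870 (by decide +kernel)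
theorem L102872 : W_39 (nat_lit 4) (nat_lit 0x80004800340013000c0000000000000000000000000000000) (nat_lit 0x0) (nat_lit 0x10005800300000000000008000000000000000000000000000000) := T_39 (nat_lit 192) (nat_lit 123) (nat_lit 4) (nat_lit 5) (nat_lit 11) L102871 (by decide +kernel)
theorem L102873 : W_39 (nat_lit 5) (nat_lit 0x80004800240013000c0000000000000000000000000000000) (nat_lit 0x0) (nat_lit 0x10005800300018000000008000000000000000000000000000000) := T_39 (nat_lit 160) (nat_lit 159) (nat_lit 0) (nat_lit 8) (nat_lit 9) L102872 (by decide +kernel)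
theorem L102874 : W_39 (nat_lit 2) (nat_lit 0x80006800340013000c0000000000000000000000000000000) (nat_lit 0x0) (nat_lit 0x100042000000000000000000000000000000000000000) := D_39 (nat_lit 176) (nat_lit 162) (nat_lit 157) (nat_lit 2) (nat_lit 5) (nat_lit 10) (nat_lit 0) (nat_lit 8) (nat_lit 10) (by decide +kernel)
theorem L102875 : W_39 (nat_lit 3) (nat_lit 0x80004800340013000c0000000000000000000000000000000) (nat_lit 0x0) (nat_lit 0x4000300042000000000000000000000000000000000000000) := T_39 (nat_lit 177) (nat_lit 194) (nat_lit 5) (nat_lit 8) (nat_lit 7) L102874 (by decide +kernel)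
theorem L102876 : W_39 (nat_lit 4) (nat_lit 0x80004800240013000c0000000000000000000000000000000) (nat_lit 0x0) (nat_lit 0x400030005a000000000000000000000000000000000000000) := T_39 (nat_lit 160) (nat_lit 159) (nat_lit 0) (nat_lit 8) (nat_lit 9) L102875 (by decide +kernel)
theorem L102877 : W_39 (nat_lit 6) (nat_lit 0x80004000240013000c0000000000000000000000000000000) (nat_lit 0x0) (nat_lit 0x20003000580038005a000000008000000000000000000000000000000) := Q_39 (nat_lit 175) (C_39 L102605 (C_39 L102873 (C_39 L102876 N_39))) (by decide +kernel)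
theorem L102878 : W_39 (nat_lit 2) (nat_lit 0x20000000080006800340017000e0000000000000000000000000000000) (nat_lit 0x0) (nat_lit 0x10000100040000000000000000000000000000000000000000) := D_39 (nat_lit 176) (nat_lit 162) (nat_lit 196) (nat_lit 2) (nat_lit 5) (nat_lit 10) (nat_lit 3) (nat_lit 5) (nat_lit 10) (by decide +kernel)
theorem L102879 : W_39 (nat_lit 3) (nat_lit 0x20000000080006000340017000e0000000000000000000000000000000) (nat_lit 0x0) (nat_lit 0x11000180040000000000000000000000000000000000000000) := T_39 (nat_lit 175) (nat_lit 192) (nat_lit 6) (nat_lit 5) (nat_lit 11) L102878 (by decide +kernel)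
theorem L102880 : W_39 (nat_lit 4) (nat_lit 0x80006000340017000e0000000000000000000000000000000) (nat_lit 0x0) (nat_lit 0x2000100011000180040000000000000000000000000000000000000000) := T_39 (nat_lit 229) (nat_lit 212) (nat_lit 4) (nat_lit 8) (nat_lit 13) L102879 (by decide +kernel)
theorem L102881 : W_39 (nat_lit 5) (nat_lit 0x80006000340013000e0000000000000000000000000000000) (nat_lit 0x0) (nat_lit 0x2000100011000180040000480000000000000000000000000000000000) := T_39 (nat_lit 142) (nat_lit 139) (nat_lit 2) (nat_lit 3) (nat_lit 8) L102880 (by decide +kernel)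
theorem L102882 : W_39 (nat_lit 6) (nat_lit 0x80006000240013000e0000000000000000000000000000000) (nat_lit 0x0) (nat_lit 0x2000100011000180058000480000000000000000000000000000000000) := T_39 (nat_lit 160) (nat_lit 159) (nat_lit 0) (nat_lit 8) (nat_lit 9) L102881 (by decide +kernel)
theorem L102883 : W_39 (nat_lit 7) (nat_lit 0x80006000240013000c0000000000000000000000000000000) (nat_lit 0x0) (nat_lit 0x2000100011000180058000480030000000000000000000000000000000) := T_39 (nat_lit 125) (nat_lit 124) (nat_lit 1) (nat_lit 8) (nat_lit 7) L102882 (by decide +kernel)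
theorem L102884 : W_39 (nat_lit 8) (nat_lit 0x80004000240013000c0000000000000000000000000000000) (nat_lit 0x0) (nat_lit 0x2000100015000380058000480030000000000000000000000000000000) := T_39 (nat_lit 177) (nat_lit 194) (nat_lit 5) (nat_lit 8) (nat_lit 7) L102883 (by decide +kernel)
theorem L102885 : W_39 (nat_lit 12) (nat_lit 0x80004000200013000c0000000000000000000000000000000) (nat_lit 0x0) (nat_lit 0x2200130017e003f005f8004e003f800e00070000000000000000000000) := Q_39 (nat_lit 158) (C_39 L102610 (C_39 L102647 (C_39 L102600 (C_39 L102598 (C_39 L102877 (C_39 L102884 N_39)))))) (by decide +kernel)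
theorem L102886 : W_39 (nat_lit 2) (nat_lit 0x3000080006000300017000e0000000000000000000000000000000) (nat_lit 0x0) (nat_lit 0x48000000000001000000000000000000000000000) := D_39 (nat_lit 159) (nat_lit 162) (nat_lit 108) (nat_lit 0) (nat_lit 9) (nat_lit 9) (nat_lit 7) (nat_lit 6) (nat_lit 6) (by decide +kernel)
theorem L102887 : W_39 (nat_lit 3) (nat_lit 0x3000080006000200017000e0000000000000000000000000000000) (nat_lit 0x0) (nat_lit 0x2000000000000000058000000000001000000000000000000000000000) := T_39 (nat_lit 160) (nat_lit 229) (nat_lit 4) (nat_lit 8) (nat_lit 13) L102886 (by decide +kernel)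
theorem L102888 : W_39 (nat_lit 4) (nat_lit 0x3000080004000200017000e0000000000000000000000000000000) (nat_lit 0x0) (nat_lit 0x2000000004000200058000000000001000000000000000000000000000) := T_39 (nat_lit 177) (nat_lit 194) (nat_lit 5) (nat_lit 8) (nat_lit 7) L102887 (by decide +kernel)
theorem L102889 : W_39 (nat_lit 5) (nat_lit 0x2000080004000200017000e0000000000000000000000000000000) (nat_lit 0x0) (nat_lit 0x6000100004000200058000000000001000000000000000000000000000) := T_39 (nat_lit 212) (nat_lit 230) (nat_lit 7) (nat_lit 8) (nat_lit 9) L102888 (by decide +kernel)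
theorem L102890 : W_39 (nat_lit 6) (nat_lit 0x2000080004000200013000e0000000000000000000000000000000) (nat_lit 0x0) (nat_lit 0x6000100004000200058000480000001000000000000000000000000000) := T_39 (nat_lit 142) (nat_lit 139) (nat_lit 2) (nat_lit 3) (nat_lit 8) L102889 (by decide +kernel)
theorem L102891 : W_39 (nat_lit 7) (nat_lit 0x80004000200013000e0000000000000000000000000000000) (nat_lit 0x0) (nat_lit 0x6000300014000200058000480000001000000000000000000000000000) := T_39 (nat_lit 213) (nat_lit 196) (nat_lit 7) (nat_lit 8) (nat_lit 8) L102890 (by decide +kernel)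
theorem L102892 : W_39 (nat_lit 8) (nat_lit 0x80004000200013000c0000000000000000000000000000000) (nat_lit 0x0) (nat_lit 0x6000300014000200058000480030001000000000000000000000000000) := T_39 (nat_lit 125) (nat_lit 124) (nat_lit 1) (nat_lit 8) (nat_lit 7) L102891 (by decide +kernel)
theorem L102893 : W_39 (nat_lit 2) (nat_lit 0x580006800240017000e0000000000000000000000000000000) (nat_lit 0x0) (nat_lit 0x8000000000001000080000000000000000000000) := D_39 (nat_lit 108) (nat_lit 91) (nat_lit 159) (nat_lit 5) (nat_lit 6) (nat_lit 5) (nat_lit 5) (nat_lit 6) (nat_lit 6) (by decide +kernel)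
theorem L102894 : W_39 (nat_lit 3) (nat_lit 0x580006800200017000e0000000000000000000000000000000) (nat_lit 0x0) (nat_lit 0x100000000c000000000001000080000000000000000000000) := T_39 (nat_lit 158) (nat_lit 192) (nat_lit 6) (nat_lit 5) (nat_lit 11) L102893 (by decide +kernel)
theorem L102895 : W_39 (nat_lit 4) (nat_lit 0x580006800200013000e0000000000000000000000000000000) (nat_lit 0x0) (nat_lit 0x100000000c000480000001000080000000000000000000000) := T_39 (nat_lit 142) (nat_lit 139) (nat_lit 2) (nat_lit 3) (nat_lit 8) L102894 (by decide +kernel)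
theorem L102896 : W_39 (nat_lit 5) (nat_lit 0x580006800200013000c0000000000000000000000000000000) (nat_lit 0x0) (nat_lit 0x100000000c000480030001000080000000000000000000000) := T_39 (nat_lit 125) (nat_lit 124) (nat_lit 1) (nat_lit 8) (nat_lit 7) L102895 (by decide +kernel)
theorem L102897 : W_39 (nat_lit 6) (nat_lit 0x180006800200013000c0000000000000000000000000000000) (nat_lit 0x0) (nat_lit 0x6100000000c000480030001000080000000000000000000000) := T_39 (nat_lit 198) (nat_lit 197) (nat_lit 0) (nat_lit 11) (nat_lit 11) L102896 (by decide +kernel)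
theorem L102898 : W_39 (nat_lit 7) (nat_lit 0x180006000200013000c0000000000000000000000000000000) (nat_lit 0x0) (nat_lit 0x6100018000c000480030001000080000000000000000000000) := T_39 (nat_lit 175) (nat_lit 176) (nat_lit 3) (nat_lit 5) (nat_lit 10) L102897 (by decide +kernel)
theorem L102899 : W_39 (nat_lit 8) (nat_lit 0x80006000200013000c0000000000000000000000000000000) (nat_lit 0x0) (nat_lit 0x20007100018000c000480030001000080000000000000000000000) := T_39 (nat_lit 196) (nat_lit 213) (nat_lit 7) (nat_lit 8) (nat_lit 8) L102898 (by decide +kernel)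
theorem L102900 : W_39 (nat_lit 9) (nat_lit 0x80004000200013000c0000000000000000000000000000000) (nat_lit 0x0) (nat_lit 0x20007500038000c000480030001000080000000000000000000000) := T_39 (nat_lit 177) (nat_lit 194) (nat_lit 5) (nat_lit 8) (nat_lit 7) L102899 (by decide +kernel)
theorem L102901 : W_39 (nat_lit 2) (nat_lit 0x180004000260017000e8001600000000000000000000000000) (nat_lit 0x0) (nat_lit 0x20001800000000000000000000000000000000000000) := D_39 (nat_lit 156) (nat_lit 155) (nat_lit 173) (nat_lit 2) (nat_lit 2) (nat_lit 9) (nat_lit 5) (nat_lit 4) (nat_lit 6) (by decide +kernel)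
theorem L102902 : W_39 (nat_lit 3) (nat_lit 0x180004000240017000e8001600000000000000000000000000) (nat_lit 0x0) (nat_lit 0x20003800000000000000010000000000000000000000) := T_39 (nat_lit 157) (nat_lit 88) (nat_lit 4) (nat_lit 4) (nat_lit 9) L102901 (by decide +kernel)
theorem L102903 : W_39 (nat_lit 4) (nat_lit 0x180004000240017000e8001400000000000000000000000000) (nat_lit 0x0) (nat_lit 0x20003800000000000a00010000000000000000000000) := T_39 (nat_lit 105) (nat_lit 107) (nat_lit 3) (nat_lit 3) (nat_lit 6) L102902 (by decide +kernel)
theorem L102904 : W_39 (nat_lit 5) (nat_lit 0x80004000240017000e8001400000000000000000000000000) (nat_lit 0x0) (nat_lit 0x200010000020003800000000000a00010000000000000000000000) := T_39 (nat_lit 196) (nat_lit 213) (nat_lit 7) (nat_lit 8) (nat_lit 8) L102903 (by decide +kernel)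
theorem L102905 : W_39 (nat_lit 6) (nat_lit 0x80004000240017000e8000400000000000000000000000000) (nat_lit 0x0) (nat_lit 0x200010000020003800000000001a00090000000000000000000000) := T_39 (nat_lit 108) (nat_lit 91) (nat_lit 5) (nat_lit 6) (nat_lit 5) L102904 (by decide +kernel)
theorem L102906 : W_39 (nat_lit 7) (nat_lit 0x80004000240017000e8000000000000000000000000000000) (nat_lit 0x0) (nat_lit 0x200010000020003800000000001e000b0000000000000000000000) := T_39 (nat_lit 106) (nat_lit 89) (nat_lit 7) (nat_lit 4) (nat_lit 5) L102905 (by decide +kernel)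
theorem L102907 : W_39 (nat_lit 8) (nat_lit 0x80004000240013000e8000000000000000000000000000000) (nat_lit 0x0) (nat_lit 0x200010000020003800480000001e000b0000000000000000000000) := T_39 (nat_lit 142) (nat_lit 139) (nat_lit 2) (nat_lit 3) (nat_lit 8) L102906 (by decide +kernel)
theorem L102908 : W_39 (nat_lit 9) (nat_lit 0x80004000240013000c8000000000000000000000000000000) (nat_lit 0x0) (nat_lit 0x200010000020003800480030001e000b0000000000000000000000) := T_39 (nat_lit 125) (nat_lit 124) (nat_lit 1) (nat_lit 8) (nat_lit 7) L102907 (by decide +kernel)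
theorem L102909 : W_39 (nat_lit 2) (nat_lit 0x180004800200013000c0000000000000000000000000000000) (nat_lit 0x0) (nat_lit 0x4000300000000000000000000000000000000000000000000) := D_39 (nat_lit 177) (nat_lit 176) (nat_lit 194) (nat_lit 3) (nat_lit 5) (nat_lit 10) (nat_lit 5) (nat_lit 8) (nat_lit 7) (by decide +kernel)
theorem L102910 : W_39 (nat_lit 3) (nat_lit 0x80004800200013000c0000000000000000000000000000000) (nat_lit 0x0) (nat_lit 0x200014000300000000000000000000000000000000000000000000) := T_39 (nat_lit 196) (nat_lit 213) (nat_lit 7) (nat_lit 8) (nat_lit 8) L102909 (by decide +kernel)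
theorem L102911 : W_39 (nat_lit 2) (nat_lit 0x1f0004800200017000e0000000000000000000000000000000) (nat_lit 0x0) (nat_lit 0x70000000000000000000000000000000000000000000000000000) := D_39 (nat_lit 209) (nat_lit 210) (nat_lit 208) (nat_lit 1) (nat_lit 9) (nat_lit 11) (nat_lit 1) (nat_lit 8) (nat_lit 11) (by decide +kernel)
theorem L102912 : W_39 (nat_lit 3) (nat_lit 0x1d0004800200017000e0000000000000000000000000000000) (nat_lit 0x0) (nat_lit 0x70002000040000000000000000000000000000000000000000000) := T_39 (nat_lit 193) (nat_lit 174) (nat_lit 0) (nat_lit 8) (nat_lit 11) L102911 (by decide +kernel)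
theorem L102913 : W_39 (nat_lit 4) (nat_lit 0x1c0004800200017000e0000000000000000000000000000000) (nat_lit 0x0) (nat_lit 0x70003000040004000000000000000000000000000000000000000) := T_39 (nat_lit 192) (nat_lit 158) (nat_lit 6) (nat_lit 5) (nat_lit 11) L102912 (by decide +kernel)
theorem L102914 : W_39 (nat_lit 5) (nat_lit 0x1c0004800200013000e0000000000000000000000000000000) (nat_lit 0x0) (nat_lit 0x70003000040004000480000000000000000000000000000000000) := T_39 (nat_lit 142) (nat_lit 139) (nat_lit 2) (nat_lit 3) (nat_lit 8) L102913 (by decide +kernel)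
theorem L102915 : W_39 (nat_lit 6) (nat_lit 0xc0004800200013000e0000000000000000000000000000000) (nat_lit 0x0) (nat_lit 0x270013000040004000480000000000000000000000000000000000) := T_39 (nat_lit 196) (nat_lit 213) (nat_lit 7) (nat_lit 8) (nat_lit 8) L102914 (by decide +kernel)
theorem L102916 : W_39 (nat_lit 7) (nat_lit 0xc0004800200013000c0000000000000000000000000000000) (nat_lit 0x0) (nat_lit 0x270013000040004000480030000000000000000000000000000000) := T_39 (nat_lit 125) (nat_lit 124) (nat_lit 1) (nat_lit 8) (nat_lit 7) L102915 (by decide +kernel)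
theorem L102917 : W_39 (nat_lit 8) (nat_lit 0x80004800200013000c0000000000000000000000000000000) (nat_lit 0x0) (nat_lit 0x270017000240004000480030000000000000000000000000000000) := T_39 (nat_lit 194) (nat_lit 177) (nat_lit 5) (nat_lit 8) (nat_lit 7) L102916 (by decide +kernel)
theorem L102918 : W_39 (nat_lit 2) (nat_lit 0x180005800240013000d0000000000000000000000000000000) (nat_lit 0x0) (nat_lit 0x1000000000000000008000400000000000000000000000000) := D_39 (nat_lit 123) (nat_lit 106) (nat_lit 192) (nat_lit 4) (nat_lit 5) (nat_lit 10) (nat_lit 4) (nat_lit 5) (nat_lit 11) (by decide +kernel)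
theorem L102919 : W_39 (nat_lit 3) (nat_lit 0x180005800200013000d0000000000000000000000000000000) (nat_lit 0x0) (nat_lit 0x3000000004000000008000400000000000000000000000000) := T_39 (nat_lit 158) (nat_lit 193) (nat_lit 7) (nat_lit 5) (nat_lit 7) L102918 (by decide +kernel)
theorem L102920 : W_39 (nat_lit 4) (nat_lit 0x180004800200013000d0000000000000000000000000000000) (nat_lit 0x0) (nat_lit 0x3000300004000000008000400000000000000000000000000) := T_39 (nat_lit 176) (nat_lit 177) (nat_lit 3) (nat_lit 5) (nat_lit 10) L102919 (by decide +kernel)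
theorem L102921 : W_39 (nat_lit 5) (nat_lit 0x80004800200013000d0000000000000000000000000000000) (nat_lit 0x0) (nat_lit 0x200013000300004000000008000400000000000000000000000000) := T_39 (nat_lit 196) (nat_lit 213) (nat_lit 7) (nat_lit 8) (nat_lit 8) L102920 (by decide +kernel)
theorem L102922 : W_39 (nat_lit 6) (nat_lit 0x80004800200013000c0000000000000000000000000000000) (nat_lit 0x0) (nat_lit 0x200013000300004000000038000400000000000000000000000000) := T_39 (nat_lit 124) (nat_lit 125) (nat_lit 1) (nat_lit 8) (nat_lit 7) L102921 (by decide +kernel)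
theorem L102923 : W_39 (nat_lit 3) (nat_lit 0x80004800200013000c0000000000000000000000000000000) (nat_lit 0x0) (nat_lit 0x14000300040000000000000000000000000000000000000000) := T_39 (nat_lit 177) (nat_lit 194) (nat_lit 5) (nat_lit 8) (nat_lit 7) L102648 (by decide +kernel)
theorem L102924 : W_39 (nat_lit 2) (nat_lit 0x180005c00240013000d8000800040000000000000000000000) (nat_lit 0x0) (nat_lit 0x1000080004000000000000000000) := D_39 (nat_lit 91) (nat_lit 108) (nat_lit 74) (nat_lit 6) (nat_lit 5) (nat_lit 9) (nat_lit 6) (nat_lit 5) (nat_lit 8) (by decide +kernel)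
theorem L102925 : W_39 (nat_lit 3) (nat_lit 0x180005c00240013000d8000800000000000000000000000000) (nat_lit 0x0) (nat_lit 0x10000c0006000000000000000000) := T_39 (nat_lit 90) (nat_lit 73) (nat_lit 5) (nat_lit 5) (nat_lit 4) L102924 (by decide +kernel)
theorem L102926 : W_39 (nat_lit 4) (nat_lit 0x180005c00240013000d8000000000000000000000000000000) (nat_lit 0x0) (nat_lit 0x20000000000018000c0006000000000000000000) := T_39 (nat_lit 107) (nat_lit 157) (nat_lit 6) (nat_lit 4) (nat_lit 10) L102925 (by decide +kernel)
theorem L102927 : W_39 (nat_lit 5) (nat_lit 0x180005800240013000d8000000000000000000000000000000) (nat_lit 0x0) (nat_lit 0x8000400020000000000018000c0006000000000000000000) := T_39 (nat_lit 174) (nat_lit 191) (nat_lit 5) (nat_lit 5) (nat_lit 7) L102926 (by decide +kernel)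
theorem L102928 : W_39 (nat_lit 6) (nat_lit 0x180005800240013000d0000000000000000000000000000000) (nat_lit 0x0) (nat_lit 0x800040002000000008001c000c0006000000000000000000) := T_39 (nat_lit 123) (nat_lit 106) (nat_lit 4) (nat_lit 5) (nat_lit 10) L102927 (by decide +kernel)
theorem L102929 : W_39 (nat_lit 7) (nat_lit 0x180004800240013000d0000000000000000000000000000000) (nat_lit 0x0) (nat_lit 0x2800140002000000008001c000c0006000000000000000000) := T_39 (nat_lit 176) (nat_lit 193) (nat_lit 7) (nat_lit 5) (nat_lit 7) L102928 (by decide +kernel)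
theorem L102930 : W_39 (nat_lit 8) (nat_lit 0x80004800240013000d0000000000000000000000000000000) (nat_lit 0x0) (nat_lit 0x200012800140002000000008001c000c0006000000000000000000) := T_39 (nat_lit 196) (nat_lit 213) (nat_lit 7) (nat_lit 8) (nat_lit 8) L102929 (by decide +kernel)
theorem L102931 : W_39 (nat_lit 9) (nat_lit 0x80004800240013000c0000000000000000000000000000000) (nat_lit 0x0) (nat_lit 0x200012800140002000000038001c000c0006000000000000000000) := T_39 (nat_lit 124) (nat_lit 125) (nat_lit 1) (nat_lit 8) (nat_lit 7) L102930 (by decide +kernel)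
theorem L102932 : W_39 (nat_lit 2) (nat_lit 0x80004800240013000e0000000000000000000000000000000) (nat_lit 0x0) (nat_lit 0x1000000000000480000000000000000000000000000000000) := D_39 (nat_lit 142) (nat_lit 139) (nat_lit 192) (nat_lit 2) (nat_lit 3) (nat_lit 8) (nat_lit 6) (nat_lit 5) (nat_lit 11) (by decide +kernel)
theorem L102933 : W_39 (nat_lit 3) (nat_lit 0x80004800240013000c0000000000000000000000000000000) (nat_lit 0x0) (nat_lit 0x1000000000000480030000000000000000000000000000000) := T_39 (nat_lit 125) (nat_lit 124) (nat_lit 1) (nat_lit 8) (nat_lit 7) L102932 (by decide +kernel)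
theorem L102934 : W_39 (nat_lit 10) (nat_lit 0x80004800200013000c0000000000000000000000000000000) (nat_lit 0x0) (nat_lit 0x200230013800140006000480038001c000c0006000000000000000000) := Q_39 (nat_lit 158) (C_39 L102605 (C_39 L102602 (C_39 L102931 (C_39 L102933 N_39)))) (by decide +kernel)
theorem L102935 : W_39 (nat_lit 2) (nat_lit 0x80007c00200013000c0000000000000000000000000000000) (nat_lit 0x0) (nat_lit 0x7000000000000000000000000000000000000000) := D_39 (nat_lit 157) (nat_lit 156) (nat_lit 158) (nat_lit 0) (nat_lit 7) (nat_lit 10) (nat_lit 0) (nat_lit 8) (nat_lit 10) (by decide +kernel)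
theorem L102936 : W_39 (nat_lit 3) (nat_lit 0x80007800200013000c0000000000000000000000000000000) (nat_lit 0x0) (nat_lit 0x40017000000000000000000000000000000000000000) := T_39 (nat_lit 174) (nat_lit 160) (nat_lit 2) (nat_lit 4) (nat_lit 10) L102935 (by decide +kernel)
theorem L102937 : W_39 (nat_lit 4) (nat_lit 0x80006800200013000c0000000000000000000000000000000) (nat_lit 0x0) (nat_lit 0x140057000000000000000000000000000000000000000) := T_39 (nat_lit 176) (nat_lit 162) (nat_lit 2) (nat_lit 5) (nat_lit 10) L102936 (by decide +kernel)
theorem L102938 : W_39 (nat_lit 5) (nat_lit 0x80004800200013000c0000000000000000000000000000000) (nat_lit 0x0) (nat_lit 0x4000340057000000000000000000000000000000000000000) := T_39 (nat_lit 177) (nat_lit 194) (nat_lit 5) (nat_lit 8) (nat_lit 7) L102937 (by decide +kernel)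
theorem L102939 : W_39 (nat_lit 11) (nat_lit 0x80004000200013000c0000000000000000000000000000000) (nat_lit 0x0) (nat_lit 0x2002700178003c0057000480038001c000c0006000000000000000000) := Q_39 (nat_lit 175) (C_39 L102910 (C_39 L102917 (C_39 L102922 (C_39 L102923 (C_39 L102934 (C_39 L102938 N_39)))))) (by decide +kernel)
theorem L102940 : W_39 (nat_lit 2) (nat_lit 0x1000098006800340013000d0000000000000000000000000000000) (nat_lit 0x0) (nat_lit 0x4000200010000000000000000000000000000000000000000000000000) := D_39 (nat_lit 213) (nat_lit 196) (nat_lit 230) (nat_lit 7) (nat_lit 8) (nat_lit 8) (nat_lit 7) (nat_lit 8) (nat_lit 9) (by decide +kernel)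
theorem L102941 : W_39 (nat_lit 3) (nat_lit 0x98006800340013000d0000000000000000000000000000000) (nat_lit 0x0) (nat_lit 0x6000300010000000000000000000000000000000000000000000000000) := T_39 (nat_lit 212) (nat_lit 229) (nat_lit 4) (nat_lit 8) (nat_lit 13) L102940 (by decide +kernel)
theorem L102942 : W_39 (nat_lit 4) (nat_lit 0x98006800340013000c0000000000000000000000000000000) (nat_lit 0x0) (nat_lit 0x6000300010000040000000000010000000000000000000000000000000) := T_39 (nat_lit 124) (nat_lit 174) (nat_lit 5) (nat_lit 5) (nat_lit 7) L102941 (by decide +kernel)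
theorem L102943 : W_39 (nat_lit 5) (nat_lit 0x98004800340013000c0000000000000000000000000000000) (nat_lit 0x0) (nat_lit 0x6000300010000340000000000010000000000000000000000000000000) := T_39 (nat_lit 177) (nat_lit 176) (nat_lit 1) (nat_lit 8) (nat_lit 10) L102942 (by decide +kernel)
theorem L102944 : W_39 (nat_lit 6) (nat_lit 0x90004800340013000c0000000000000000000000000000000) (nat_lit 0x0) (nat_lit 0x6000310010800340000000000010000000000000000000000000000000) := T_39 (nat_lit 191) (nat_lit 208) (nat_lit 5) (nat_lit 5) (nat_lit 8) L102943 (by decide +kernel)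
theorem L102945 : W_39 (nat_lit 7) (nat_lit 0x80004800340013000c0000000000000000000000000000000) (nat_lit 0x0) (nat_lit 0x6000310011800340000000000018000000000000000000000000000000) := T_39 (nat_lit 192) (nat_lit 123) (nat_lit 4) (nat_lit 5) (nat_lit 11) L102944 (by decide +kernel)
theorem L102946 : W_39 (nat_lit 8) (nat_lit 0x80004800240013000c0000000000000000000000000000000) (nat_lit 0x0) (nat_lit 0x6000310011800340018000000018000000000000000000000000000000) := T_39 (nat_lit 160) (nat_lit 159) (nat_lit 0) (nat_lit 8) (nat_lit 9) L102945 (by decide +kernel)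
theorem L102947 : W_39 (nat_lit 2) (nat_lit 0x180005c00340013000d8000800040000000000000000000000) (nat_lit 0x0) (nat_lit 0x1000080004000000000000000000) := D_39 (nat_lit 91) (nat_lit 108) (nat_lit 74) (nat_lit 6) (nat_lit 5) (nat_lit 9) (nat_lit 6) (nat_lit 5) (nat_lit 8) (by decide +kernel)
theorem L102948 : W_39 (nat_lit 3) (nat_lit 0x180005c00340013000d8000800000000000000000000000000) (nat_lit 0x0) (nat_lit 0x10000c0006000000000000000000) := T_39 (nat_lit 90) (nat_lit 73) (nat_lit 5) (nat_lit 5) (nat_lit 4) L102947 (by decide +kernel)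
theorem L102949 : W_39 (nat_lit 4) (nat_lit 0x180005c00340013000d8000000000000000000000000000000) (nat_lit 0x0) (nat_lit 0x20000000000018000c0006000000000000000000) := T_39 (nat_lit 107) (nat_lit 157) (nat_lit 6) (nat_lit 4) (nat_lit 10) L102948 (by decide +kernel)
theorem L102950 : W_39 (nat_lit 5) (nat_lit 0x180005800340013000d8000000000000000000000000000000) (nat_lit 0x0) (nat_lit 0x8000400020000000000018000c0006000000000000000000) := T_39 (nat_lit 174) (nat_lit 191) (nat_lit 5) (nat_lit 5) (nat_lit 7) L102949 (by decide +kernel)
theorem L102951 : W_39 (nat_lit 6) (nat_lit 0x180005800340013000d0000000000000000000000000000000) (nat_lit 0x0) (nat_lit 0x800040002000000008001c000c0006000000000000000000) := T_39 (nat_lit 123) (nat_lit 106) (nat_lit 4) (nat_lit 5) (nat_lit 10) L102950 (by decide +kernel)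
theorem L102952 : W_39 (nat_lit 7) (nat_lit 0x180005800340013000c0000000000000000000000000000000) (nat_lit 0x0) (nat_lit 0x2800040002000000018001c000c0006000000000000000000) := T_39 (nat_lit 124) (nat_lit 193) (nat_lit 7) (nat_lit 5) (nat_lit 7) L102951 (by decide +kernel)
theorem L102953 : W_39 (nat_lit 8) (nat_lit 0x180004800340013000c0000000000000000000000000000000) (nat_lit 0x0) (nat_lit 0x2800340002000000018001c000c0006000000000000000000) := T_39 (nat_lit 176) (nat_lit 177) (nat_lit 3) (nat_lit 5) (nat_lit 10) L102952 (by decide +kernel)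
theorem L102954 : W_39 (nat_lit 9) (nat_lit 0x80004800340013000c0000000000000000000000000000000) (nat_lit 0x0) (nat_lit 0x200012800340002000000018001c000c0006000000000000000000) := T_39 (nat_lit 196) (nat_lit 213) (nat_lit 7) (nat_lit 8) (nat_lit 8) L102953 (by decide +kernel)
theorem L102955 : W_39 (nat_lit 10) (nat_lit 0x80004800240013000c0000000000000000000000000000000) (nat_lit 0x0) (nat_lit 0x20001280034001a000000018001c000c0006000000000000000000) := T_39 (nat_lit 160) (nat_lit 159) (nat_lit 0) (nat_lit 8) (nat_lit 9) L102954 (by decide +kernel)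
theorem L102956 : W_39 (nat_lit 3) (nat_lit 0x180005800240013000c0000000000000000000000000000000) (nat_lit 0x0) (nat_lit 0x3000000000000000018000400000000000000000000000000) := T_39 (nat_lit 124) (nat_lit 193) (nat_lit 7) (nat_lit 5) (nat_lit 7) L102918 (by decide +kernel)
theorem L102957 : W_39 (nat_lit 4) (nat_lit 0x180004800240013000c0000000000000000000000000000000) (nat_lit 0x0) (nat_lit 0x3000300000000000018000400000000000000000000000000) := T_39 (nat_lit 176) (nat_lit 177) (nat_lit 3) (nat_lit 5) (nat_lit 10) L102956 (by decide +kernel)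
theorem L102958 : W_39 (nat_lit 5) (nat_lit 0x80004800240013000c0000000000000000000000000000000) (nat_lit 0x0) (nat_lit 0x200013000300000000000018000400000000000000000000000000) := T_39 (nat_lit 196) (nat_lit 213) (nat_lit 7) (nat_lit 8) (nat_lit 8) L102957 (by decide +kernel)
theorem L102959 : W_39 (nat_lit 2) (nat_lit 0x180005800240013000d0000000000000000000000000000000) (nat_lit 0x0) (nat_lit 0x18000000000000800000000000000000000000000) := D_39 (nat_lit 159) (nat_lit 160) (nat_lit 107) (nat_lit 0) (nat_lit 8) (nat_lit 9) (nat_lit 7) (nat_lit 5) (nat_lit 6) (by decide +kernel)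
theorem L102960 : W_39 (nat_lit 3) (nat_lit 0x180005800240013000c0000000000000000000000000000000) (nat_lit 0x0) (nat_lit 0x2000000018000000010000800000000000000000000000000) := T_39 (nat_lit 124) (nat_lit 193) (nat_lit 7) (nat_lit 5) (nat_lit 7) L102959 (by decide +kernel)
theorem L102961 : W_39 (nat_lit 4) (nat_lit 0x180004800240013000c0000000000000000000000000000000) (nat_lit 0x0) (nat_lit 0x2000300018000000010000800000000000000000000000000) := T_39 (nat_lit 176) (nat_lit 177) (nat_lit 3) (nat_lit 5) (nat_lit 10) L102960 (by decide +kernel)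
theorem L102962 : W_39 (nat_lit 5) (nat_lit 0x80004800240013000c0000000000000000000000000000000) (nat_lit 0x0) (nat_lit 0x200012000300018000000010000800000000000000000000000000) := T_39 (nat_lit 196) (nat_lit 213) (nat_lit 7) (nat_lit 8) (nat_lit 8) L102961 (by decide +kernel)
theorem L102963 : W_39 (nat_lit 11) (nat_lit 0x80004000240013000c0000000000000000000000000000000) (nat_lit 0x0) (nat_lit 0x62003300138003c001a000000018001c000c0006000000000000000000) := Q_39 (nat_lit 175) (C_39 L102605 (C_39 L102946 (C_39 L102955 (C_39 L102958 (C_39 L102962 N_39))))) (by decide +kernel)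
theorem L102964 : W_39 (nat_lit 2) (nat_lit 0x3000080006800340017000e0000000000000000000000000000000) (nat_lit 0x0) (nat_lit 0x140040000000000000000000000000000000000000000) := D_39 (nat_lit 176) (nat_lit 162) (nat_lit 174) (nat_lit 2) (nat_lit 5) (nat_lit 10) (nat_lit 2) (nat_lit 4) (nat_lit 10) (by decide +kernel)
theorem L102965 : W_39 (nat_lit 3) (nat_lit 0x3000080006000340017000e0000000000000000000000000000000) (nat_lit 0x0) (nat_lit 0x10001c0040000000000000000000000000000000000000000) := T_39 (nat_lit 175) (nat_lit 192) (nat_lit 6) (nat_lit 5) (nat_lit 11) L102964 (by decide +kernel)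
theorem L102966 : W_39 (nat_lit 4) (nat_lit 0x3000080004000340017000e0000000000000000000000000000000) (nat_lit 0x0) (nat_lit 0x20000000010003c0040000000000000000000000000000000000000000) := T_39 (nat_lit 177) (nat_lit 229) (nat_lit 4) (nat_lit 8) (nat_lit 13) L102965 (by decide +kernel)
theorem L102967 : W_39 (nat_lit 5) (nat_lit 0x2000080004000340017000e0000000000000000000000000000000) (nat_lit 0x0) (nat_lit 0x60001000010003c0040000000000000000000000000000000000000000) := T_39 (nat_lit 212) (nat_lit 230) (nat_lit 7) (nat_lit 8) (nat_lit 9) L102966 (by decide +kernel)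
theorem L102968 : W_39 (nat_lit 6) (nat_lit 0x2000080004000340013000e0000000000000000000000000000000) (nat_lit 0x0) (nat_lit 0x60001000010003c0040000480000000000000000000000000000000000) := T_39 (nat_lit 142) (nat_lit 139) (nat_lit 2) (nat_lit 3) (nat_lit 8) L102967 (by decide +kernel)
theorem L102969 : W_39 (nat_lit 7) (nat_lit 0x80004000340013000e0000000000000000000000000000000) (nat_lit 0x0) (nat_lit 0x60003000110003c0040000480000000000000000000000000000000000) := T_39 (nat_lit 213) (nat_lit 196) (nat_lit 7) (nat_lit 8) (nat_lit 8) L102968 (by decide +kernel)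
theorem L102970 : W_39 (nat_lit 8) (nat_lit 0x80004000340013000c0000000000000000000000000000000) (nat_lit 0x0) (nat_lit 0x60003000110003c0040000480030000000000000000000000000000000) := T_39 (nat_lit 125) (nat_lit 124) (nat_lit 1) (nat_lit 8) (nat_lit 7) L102969 (by decide +kernel)
theorem L102971 : W_39 (nat_lit 9) (nat_lit 0x80004000240013000c0000000000000000000000000000000) (nat_lit 0x0) (nat_lit 0x60003000110003c0058000480030000000000000000000000000000000) := T_39 (nat_lit 160) (nat_lit 159) (nat_lit 0) (nat_lit 8) (nat_lit 9) L102970 (by decide +kernel)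
theorem L102972 : W_39 (nat_lit 12) (nat_lit 0x80004000200013000c0000000000000000000000000000000) (nat_lit 0x0) (nat_lit 0x6200330013e003f005f8004e003f801e000f0006000000000000000000) := Q_39 (nat_lit 158) (C_39 L102647 (C_39 L102610 (C_39 L102600 (C_39 L102598 (C_39 L102963 (C_39 L102971 N_39)))))) (by decide +kernel)
theorem L102973 : W_39 (nat_lit 2) (nat_lit 0x200190006800240013000e0000000000000000000000000000000) (nat_lit 0x0) (nat_lit 0x200010000800000000000000000000000000000000000000000000000) := D_39 (nat_lit 208) (nat_lit 225) (nat_lit 191) (nat_lit 5) (nat_lit 5) (nat_lit 9) (nat_lit 5) (nat_lit 5) (nat_lit 8) (by decide +kernel)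
theorem L102974 : W_39 (nat_lit 3) (nat_lit 0x190006800240013000e0000000000000000000000000000000) (nat_lit 0x0) (nat_lit 0x200030000800000002000000000000000000000000000000000000000) := T_39 (nat_lit 209) (nat_lit 157) (nat_lit 4) (nat_lit 5) (nat_lit 12) L102973 (by decide +kernel)
theorem L102975 : W_39 (nat_lit 4) (nat_lit 0x180006800240013000e0000000000000000000000000000000) (nat_lit 0x0) (nat_lit 0x200030001800000002000000008000000000000000000000000000000) := T_39 (nat_lit 192) (nat_lit 123) (nat_lit 4) (nat_lit 5) (nat_lit 11) L102974 (by decide +kernel)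
theorem L102976 : W_39 (nat_lit 5) (nat_lit 0x180006000240013000e0000000000000000000000000000000) (nat_lit 0x0) (nat_lit 0x200030001800180002000000008000000000000000000000000000000) := T_39 (nat_lit 175) (nat_lit 176) (nat_lit 3) (nat_lit 5) (nat_lit 10) L102975 (by decide +kernel)
theorem L102977 : W_39 (nat_lit 6) (nat_lit 0x80006000240013000e0000000000000000000000000000000) (nat_lit 0x0) (nat_lit 0x200230011800180002000000008000000000000000000000000000000) := T_39 (nat_lit 196) (nat_lit 213) (nat_lit 7) (nat_lit 8) (nat_lit 8) L102976 (by decide +kernel)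
theorem L102978 : W_39 (nat_lit 7) (nat_lit 0x80004000240013000e0000000000000000000000000000000) (nat_lit 0x0) (nat_lit 0x200230015800380002000000008000000000000000000000000000000) := T_39 (nat_lit 177) (nat_lit 194) (nat_lit 5) (nat_lit 8) (nat_lit 7) L102977 (by decide +kernel)
theorem L102979 : W_39 (nat_lit 8) (nat_lit 0x80004000240013000c0000000000000000000000000000000) (nat_lit 0x0) (nat_lit 0x200230015800380002000000038000000000000000000000000000000) := T_39 (nat_lit 125) (nat_lit 124) (nat_lit 1) (nat_lit 8) (nat_lit 7) L102978 (by decide +kernel)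
theorem L102980 : W_39 (nat_lit 2) (nat_lit 0x3000080004000340013000c0000000000000000000000000000000) (nat_lit 0x0) (nat_lit 0x2000000004000200000000000000000000000000000000000000000000) := D_39 (nat_lit 177) (nat_lit 229) (nat_lit 194) (nat_lit 4) (nat_lit 8) (nat_lit 13) (nat_lit 5) (nat_lit 8) (nat_lit 7) (by decide +kernel)
theorem L102981 : W_39 (nat_lit 3) (nat_lit 0x2000080004000340013000c0000000000000000000000000000000) (nat_lit 0x0) (nat_lit 0x6000100004000200000000000000000000000000000000000000000000) := T_39 (nat_lit 212) (nat_lit 230) (nat_lit 7) (nat_lit 8) (nat_lit 9) L102980 (by decide +kernel)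
theorem L102982 : W_39 (nat_lit 4) (nat_lit 0x2000080004000240013000c0000000000000000000000000000000) (nat_lit 0x0) (nat_lit 0x6000100004000200018000000000000000000000000000000000000000) := T_39 (nat_lit 160) (nat_lit 159) (nat_lit 0) (nat_lit 8) (nat_lit 9) L102981 (by decide +kernel)
theorem L102983 : W_39 (nat_lit 5) (nat_lit 0x80004000240013000c0000000000000000000000000000000) (nat_lit 0x0) (nat_lit 0x6000300014000200018000000000000000000000000000000000000000) := T_39 (nat_lit 213) (nat_lit 196) (nat_lit 7) (nat_lit 8) (nat_lit 8) L102982 (by decide +kernel)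
theorem L102984 : W_39 (nat_lit 12) (nat_lit 0x80004000200013000c0000000000000000000000000000000) (nat_lit 0x0) (nat_lit 0x62003300178003c005e0000c0038001c000c0006000000000000000000) := Q_39 (nat_lit 158) (C_39 L102877 (C_39 L102963 (C_39 L102979 (C_39 L102983 (C_39 L102598 N_39))))) (by decide +kernel)
theorem L102985 : W_39 (nat_lit 5) (nat_lit 0x180004c00240013000d8000000000000000000000000000000) (nat_lit 0x0) (nat_lit 0x20001000020000000000018000c0006000000000000000000) := T_39 (nat_lit 176) (nat_lit 193) (nat_lit 7) (nat_lit 5) (nat_lit 7) L102926 (by decide +kernel)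
theorem L102986 : W_39 (nat_lit 6) (nat_lit 0x180004800240013000d8000000000000000000000000000000) (nat_lit 0x0) (nat_lit 0x28001400020000000000018000c0006000000000000000000) := T_39 (nat_lit 174) (nat_lit 191) (nat_lit 5) (nat_lit 5) (nat_lit 7) L102985 (by decide +kernel)
theorem L102987 : W_39 (nat_lit 7) (nat_lit 0x180004000240013000d8000000000000000000000000000000) (nat_lit 0x0) (nat_lit 0x38001c00020000000000018000c0006000000000000000000) := T_39 (nat_lit 175) (nat_lit 192) (nat_lit 4) (nat_lit 5) (nat_lit 11) L102986 (by decide +kernel)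
theorem L102988 : W_39 (nat_lit 8) (nat_lit 0x80004000240013000d8000000000000000000000000000000) (nat_lit 0x0) (nat_lit 0x2000138001c00020000000000018000c0006000000000000000000) := T_39 (nat_lit 196) (nat_lit 213) (nat_lit 7) (nat_lit 8) (nat_lit 8) L102987 (by decide +kernel)
theorem L102989 : W_39 (nat_lit 9) (nat_lit 0x80004000240013000c8000000000000000000000000000000) (nat_lit 0x0) (nat_lit 0x2000138001c00020000000300018000c0006000000000000000000) := T_39 (nat_lit 124) (nat_lit 125) (nat_lit 1) (nat_lit 8) (nat_lit 7) L102988 (by decide +kernel)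
theorem L102990 : W_39 (nat_lit 2) (nat_lit 0x80004800240013000c8000000000000000000000000000000) (nat_lit 0x0) (nat_lit 0x10000400020000000000000000000000) := D_39 (nat_lit 106) (nat_lit 89) (nat_lit 124) (nat_lit 7) (nat_lit 4) (nat_lit 5) (nat_lit 4) (nat_lit 5) (nat_lit 10) (by decide +kernel)
theorem L102991 : W_39 (nat_lit 3) (nat_lit 0x80004000240013000c8000000000000000000000000000000) (nat_lit 0x0) (nat_lit 0x1000080000000000010000400020000000000000000000000) := T_39 (nat_lit 175) (nat_lit 192) (nat_lit 4) (nat_lit 5) (nat_lit 11) L102990 (by decide +kernel)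
theorem L102992 : W_39 (nat_lit 10) (nat_lit 0x80004000240013000c0000000000000000000000000000000) (nat_lit 0x0) (nat_lit 0x2000138001e0003800480038001e000f0006000000000000000000) := Q_39 (nat_lit 123) (C_39 L102621 (C_39 L102908 (C_39 L102989 (C_39 L102991 N_39)))) (by decide +kernel)
theorem L102993 : W_39 (nat_lit 2) (nat_lit 0x200090004800340013000c0000000000000000000000000000000) (nat_lit 0x0) (nat_lit 0x200010000800000000000000000000000000000000000000000000000) := D_39 (nat_lit 208) (nat_lit 225) (nat_lit 191) (nat_lit 5) (nat_lit 5) (nat_lit 9) (nat_lit 5) (nat_lit 5) (nat_lit 8) (by decide +kernel)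
theorem L102994 : W_39 (nat_lit 3) (nat_lit 0x90004800340013000c0000000000000000000000000000000) (nat_lit 0x0) (nat_lit 0x200030000800000002000000000000000000000000000000000000000) := T_39 (nat_lit 209) (nat_lit 157) (nat_lit 4) (nat_lit 5) (nat_lit 12) L102993 (by decide +kernel)
theorem L102995 : W_39 (nat_lit 4) (nat_lit 0x90004000340013000c0000000000000000000000000000000) (nat_lit 0x0) (nat_lit 0x200030000800080002000000008000000000000000000000000000000) := T_39 (nat_lit 175) (nat_lit 123) (nat_lit 4) (nat_lit 5) (nat_lit 11) L102994 (by decide +kernel)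
theorem L102996 : W_39 (nat_lit 5) (nat_lit 0x90004000240013000c0000000000000000000000000000000) (nat_lit 0x0) (nat_lit 0x20003000080008001a000000008000000000000000000000000000000) := T_39 (nat_lit 160) (nat_lit 159) (nat_lit 0) (nat_lit 8) (nat_lit 9) L102995 (by decide +kernel)
theorem L102997 : W_39 (nat_lit 4) (nat_lit 0x90004000240013000c0000000000000000000000000000000) (nat_lit 0x0) (nat_lit 0x200030000800080002000000008000000000000000000000000000000) := T_39 (nat_lit 175) (nat_lit 123) (nat_lit 4) (nat_lit 5) (nat_lit 11) L102604 (by decide +kernel)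
theorem L102998 : W_39 (nat_lit 2) (nat_lit 0xb8004800240013000c0000000000000000000000000000000) (nat_lit 0x0) (nat_lit 0x4000040000000000010000000000000000000000000000000) := D_39 (nat_lit 174) (nat_lit 194) (nat_lit 124) (nat_lit 0) (nat_lit 8) (nat_lit 11) (nat_lit 5) (nat_lit 5) (nat_lit 7) (by decide +kernel)
theorem L102999 : W_39 (nat_lit 3) (nat_lit 0x98004800240013000c0000000000000000000000000000000) (nat_lit 0x0) (nat_lit 0x40006000040000000000010000000000000000000000000000000) := T_39 (nat_lit 193) (nat_lit 210) (nat_lit 7) (nat_lit 5) (nat_lit 8) L102998 (by decide +kernel)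
theorem L103000 : W_39 (nat_lit 4) (nat_lit 0x90004800240013000c0000000000000000000000000000000) (nat_lit 0x0) (nat_lit 0x50006800040000000000010000000000000000000000000000000) := T_39 (nat_lit 191) (nat_lit 208) (nat_lit 5) (nat_lit 5) (nat_lit 8) L102999 (by decide +kernel)
theorem L103001 : W_39 (nat_lit 5) (nat_lit 0x90004000240013000c0000000000000000000000000000000) (nat_lit 0x0) (nat_lit 0x500068000c0000000000018000000000000000000000000000000) := T_39 (nat_lit 175) (nat_lit 123) (nat_lit 4) (nat_lit 5) (nat_lit 11) L103000 (by decide +kernel)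
theorem L103002 : W_39 (nat_lit 2) (nat_lit 0x30000b00050002c0013400c0000000000000000000000000000000) (nat_lit 0x0) (nat_lit 0x20000000000000000400010000000000000000000000000000000) := D_39 (nat_lit 142) (nat_lit 209) (nat_lit 124) (nat_lit 5) (nat_lit 6) (nat_lit 8) (nat_lit 4) (nat_lit 6) (nat_lit 11) (by decide +kernel)
theorem L103003 : W_39 (nat_lit 3) (nat_lit 0x30000b00040002c0013400c0000000000000000000000000000000) (nat_lit 0x0) (nat_lit 0x60000000100000000400010000000000000000000000000000000) := T_39 (nat_lit 176) (nat_lit 210) (nat_lit 4) (nat_lit 6) (nat_lit 12) L103002 (by decide +kernel)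
theorem L103004 : W_39 (nat_lit 4) (nat_lit 0x30000900040002c0013400c0000000000000000000000000000000) (nat_lit 0x0) (nat_lit 0x60006000100000000400010000000000000000000000000000000) := T_39 (nat_lit 193) (nat_lit 194) (nat_lit 3) (nat_lit 5) (nat_lit 11) L103003 (by decide +kernel)
theorem L103005 : W_39 (nat_lit 5) (nat_lit 0x20000900040002c0013400c0000000000000000000000000000000) (nat_lit 0x0) (nat_lit 0x4000160006000100000000400010000000000000000000000000000000) := T_39 (nat_lit 212) (nat_lit 230) (nat_lit 7) (nat_lit 8) (nat_lit 9) L103004 (by decide +kernel)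
theorem L103006 : W_39 (nat_lit 6) (nat_lit 0x20000900040002c0013000c0000000000000000000000000000000) (nat_lit 0x0) (nat_lit 0x40001600060001000000004c0010000000000000000000000000000000) := T_39 (nat_lit 138) (nat_lit 139) (nat_lit 3) (nat_lit 2) (nat_lit 8) L103005 (by decide +kernel)
theorem L103007 : W_39 (nat_lit 7) (nat_lit 0x900040002c0013000c0000000000000000000000000000000) (nat_lit 0x0) (nat_lit 0x40003600160001000000004c0010000000000000000000000000000000) := T_39 (nat_lit 213) (nat_lit 196) (nat_lit 7) (nat_lit 8) (nat_lit 8) L103006 (by decide +kernel)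
theorem L103008 : W_39 (nat_lit 8) (nat_lit 0x90004000240013000c0000000000000000000000000000000) (nat_lit 0x0) (nat_lit 0x40003600160001000180004c0010000000000000000000000000000000) := T_39 (nat_lit 159) (nat_lit 160) (nat_lit 0) (nat_lit 8) (nat_lit 9) L103007 (by decide +kernel)
theorem L103009 : W_39 (nat_lit 9) (nat_lit 0x80004000240013000c0000000000000000000000000000000) (nat_lit 0x0) (nat_lit 0x42003700178001c001a0004c0018000000000000000000000000000000) := Q_39 (nat_lit 192) (C_39 L102996 (C_39 L102997 (C_39 L103001 (C_39 L103008 N_39)))) (by decide +kernel)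
theorem L103010 : W_39 (nat_lit 2) (nat_lit 0x800040002c0013000e0000000000000000000000000000000) (nat_lit 0x0) (nat_lit 0x4c0000000000000000000000000000000000) := D_39 (nat_lit 139) (nat_lit 138) (nat_lit 142) (nat_lit 3) (nat_lit 2) (nat_lit 8) (nat_lit 2) (nat_lit 3) (nat_lit 8) (by decide +kernel)
theorem L103011 : W_39 (nat_lit 3) (nat_lit 0x800040002c0013000c0000000000000000000000000000000) (nat_lit 0x0) (nat_lit 0x4c0030000000000000000000000000000000) := T_39 (nat_lit 125) (nat_lit 124) (nat_lit 1) (nat_lit 8) (nat_lit 7) L103010 (by decide +kernel)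
theorem L103012 : W_39 (nat_lit 4) (nat_lit 0x80004000240013000c0000000000000000000000000000000) (nat_lit 0x0) (nat_lit 0x180004c0030000000000000000000000000000000) := T_39 (nat_lit 159) (nat_lit 160) (nat_lit 0) (nat_lit 8) (nat_lit 9) L103011 (by decide +kernel)
theorem L103013 : W_39 (nat_lit 2) (nat_lit 0x1800040002c0013000d0000800000000000000000000000000) (nat_lit 0x0) (nat_lit 0x40002000000000000000040000000000000000000000) := D_39 (nat_lit 157) (nat_lit 174) (nat_lit 90) (nat_lit 5) (nat_lit 5) (nat_lit 6) (nat_lit 5) (nat_lit 5) (nat_lit 5) (by decide +kernel)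
theorem L103014 : W_39 (nat_lit 3) (nat_lit 0x1800040002c0013000d0000000000000000000000000000000) (nat_lit 0x0) (nat_lit 0x140002000000000000800040000000000000000000000) := T_39 (nat_lit 107) (nat_lit 176) (nat_lit 7) (nat_lit 5) (nat_lit 6) L103013 (by decide +kernel)
theorem L103015 : W_39 (nat_lit 4) (nat_lit 0x800040002c0013000d0000000000000000000000000000000) (nat_lit 0x0) (nat_lit 0x200010000140002000000000000800040000000000000000000000) := T_39 (nat_lit 196) (nat_lit 213) (nat_lit 7) (nat_lit 8) (nat_lit 8) L103014 (by decide +kernel)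
theorem L103016 : W_39 (nat_lit 5) (nat_lit 0x800040002c0013000c0000000000000000000000000000000) (nat_lit 0x0) (nat_lit 0x200010000140002000000030000800040000000000000000000000) := T_39 (nat_lit 124) (nat_lit 125) (nat_lit 1) (nat_lit 8) (nat_lit 7) L103015 (by decide +kernel)
theorem L103017 : W_39 (nat_lit 6) (nat_lit 0x80004000240013000c0000000000000000000000000000000) (nat_lit 0x0) (nat_lit 0x20001000014001a000000030000800040000000000000000000000) := T_39 (nat_lit 159) (nat_lit 160) (nat_lit 0) (nat_lit 8) (nat_lit 9) L103016 (by decide +kernel)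
theorem L103018 : W_39 (nat_lit 12) (nat_lit 0x80004000200013000c0000000000000000000000000000000) (nat_lit 0x0) (nat_lit 0x4200370017e001f001f8004e003f801e000f0006000000000000000000) := Q_39 (nat_lit 158) (C_39 L102647 (C_39 L102600 (C_39 L102992 (C_39 L102598 (C_39 L103009 (C_39 L103012 (C_39 L103017 N_39))))))) (by decide +kernel)
theorem L103019 : W_39 (nat_lit 7) (nat_lit 0x80004000200013000c0000000000000000000000000000000) (nat_lit 0x0) (nat_lit 0x2000300078003c005e0004c0038000000000000000000000000000000) := Q_39 (nat_lit 158) (C_39 L102877 (C_39 L103012 (C_39 L102610 N_39))) (by decide +kernel)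
theorem L103020 : W_39 (nat_lit 2) (nat_lit 0x3000080006000380013000c0000000000000000000000000000000) (nat_lit 0x0) (nat_lit 0x40000480000000000000000000000000000000000) := D_39 (nat_lit 142) (nat_lit 162) (nat_lit 139) (nat_lit 0) (nat_lit 9) (nat_lit 9) (nat_lit 3) (nat_lit 3) (nat_lit 8) (by decide +kernel)
theorem L103021 : W_39 (nat_lit 3) (nat_lit 0x3000080006000300013000c0000000000000000000000000000000) (nat_lit 0x0) (nat_lit 0x4c000480000000000000000000000000000000000) := T_39 (nat_lit 159) (nat_lit 158) (nat_lit 0) (nat_lit 8) (nat_lit 9) L103020 (by decide +kernel)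
theorem L103022 : W_39 (nat_lit 4) (nat_lit 0x3000080006000200013000c0000000000000000000000000000000) (nat_lit 0x0) (nat_lit 0x200000000000000005c000480000000000000000000000000000000000) := T_39 (nat_lit 160) (nat_lit 229) (nat_lit 4) (nat_lit 8) (nat_lit 13) L103021 (by decide +kernel)
theorem L103023 : W_39 (nat_lit 5) (nat_lit 0x2000080006000200013000c0000000000000000000000000000000) (nat_lit 0x0) (nat_lit 0x600010000000000005c000480000000000000000000000000000000000) := T_39 (nat_lit 212) (nat_lit 230) (nat_lit 7) (nat_lit 8) (nat_lit 9) L103022 (by decide +kernel)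
theorem L103024 : W_39 (nat_lit 6) (nat_lit 0x2000080004000200013000c0000000000000000000000000000000) (nat_lit 0x0) (nat_lit 0x600010000400020005c000480000000000000000000000000000000000) := T_39 (nat_lit 177) (nat_lit 194) (nat_lit 5) (nat_lit 8) (nat_lit 7) L103023 (by decide +kernel)
theorem L103025 : W_39 (nat_lit 7) (nat_lit 0x80004000200013000c0000000000000000000000000000000) (nat_lit 0x0) (nat_lit 0x600030001400020005c000480000000000000000000000000000000000) := T_39 (nat_lit 213) (nat_lit 196) (nat_lit 7) (nat_lit 8) (nat_lit 8) L103024 (by decide +kernel)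
theorem L103026 : W_39 (nat_lit 2) (nat_lit 0x3000080006000380013000e0000000000000000000000000000000) (nat_lit 0x0) (nat_lit 0x40000400000001000000000000000000000000000) := D_39 (nat_lit 142) (nat_lit 162) (nat_lit 108) (nat_lit 0) (nat_lit 9) (nat_lit 9) (nat_lit 7) (nat_lit 6) (nat_lit 6) (by decide +kernel)
theorem L103027 : W_39 (nat_lit 3) (nat_lit 0x3000080006000300013000e0000000000000000000000000000000) (nat_lit 0x0) (nat_lit 0x4c000400000001000000000000000000000000000) := T_39 (nat_lit 159) (nat_lit 158) (nat_lit 0) (nat_lit 8) (nat_lit 9) L103026 (by decide +kernel)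
theorem L103028 : W_39 (nat_lit 4) (nat_lit 0x3000080006000200013000e0000000000000000000000000000000) (nat_lit 0x0) (nat_lit 0x200000000000000005c000400000001000000000000000000000000000) := T_39 (nat_lit 160) (nat_lit 229) (nat_lit 4) (nat_lit 8) (nat_lit 13) L103027 (by decide +kernel)
theorem L103029 : W_39 (nat_lit 5) (nat_lit 0x2000080006000200013000e0000000000000000000000000000000) (nat_lit 0x0) (nat_lit 0x600010000000000005c000400000001000000000000000000000000000) := T_39 (nat_lit 212) (nat_lit 230) (nat_lit 7) (nat_lit 8) (nat_lit 9) L103028 (by decide +kernel)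
theorem L103030 : W_39 (nat_lit 6) (nat_lit 0x80006000200013000e0000000000000000000000000000000) (nat_lit 0x0) (nat_lit 0x600030001000000005c000400000001000000000000000000000000000) := T_39 (nat_lit 213) (nat_lit 196) (nat_lit 7) (nat_lit 8) (nat_lit 8) L103029 (by decide +kernel)
theorem L103031 : W_39 (nat_lit 7) (nat_lit 0x80006000200013000c0000000000000000000000000000000) (nat_lit 0x0) (nat_lit 0x600030001000000005c000400030001000000000000000000000000000) := T_39 (nat_lit 125) (nat_lit 124) (nat_lit 1) (nat_lit 8) (nat_lit 7) L103030 (by decide +kernel)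
theorem L103032 : W_39 (nat_lit 8) (nat_lit 0x80004000200013000c0000000000000000000000000000000) (nat_lit 0x0) (nat_lit 0x600030001400020005c000400030001000000000000000000000000000) := T_39 (nat_lit 177) (nat_lit 194) (nat_lit 5) (nat_lit 8) (nat_lit 7) L103031 (by decide +kernel)
theorem L103033 : W_39 (nat_lit 13) (nat_lit 0x80004000200012000c0000000000000000000000000000000) (nat_lit 0x0) (nat_lit 0x6200370077e003f005f8005e003f801e000f0006000000000000000000) := Q_39 (nat_lit 140) (C_39 L102885 (C_39 L102892 (C_39 L102900 (C_39 L102939 (C_39 L102972 (C_39 L102984 (C_39 L103018 (C_39 L103019 (C_39 L103025 (C_39 L103032 N_39)))))))))) (by decide +kernel)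
theorem L103034 : W_39 (nat_lit 2) (nat_lit 0x2800080004000200012000c0000000000000000000000000000000) (nat_lit 0x0) (nat_lit 0x5000100000000000000000000000000000000000000000000000000000) := D_39 (nat_lit 212) (nat_lit 230) (nat_lit 228) (nat_lit 7) (nat_lit 8) (nat_lit 9) (nat_lit 5) (nat_lit 8) (nat_lit 9) (by decide +kernel)
theorem L103035 : W_39 (nat_lit 3) (nat_lit 0x2000080004000200012000c0000000000000000000000000000000) (nat_lit 0x0) (nat_lit 0x5000180004000000000000000000000000000000000000000000000000) := T_39 (nat_lit 211) (nat_lit 194) (nat_lit 5) (nat_lit 8) (nat_lit 8) L103034 (by decide +kernel)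
theorem L103036 : W_39 (nat_lit 4) (nat_lit 0x80004000200012000c0000000000000000000000000000000) (nat_lit 0x0) (nat_lit 0x5000380014000000000000000000000000000000000000000000000000) := T_39 (nat_lit 213) (nat_lit 196) (nat_lit 7) (nat_lit 8) (nat_lit 8) L103035 (by decide +kernel)
theorem L103037 : W_39 (nat_lit 14) (nat_lit 0x4000200012000c0000000000000000000000000000000) (nat_lit 0x0) (nat_lit 0x20007e00ff007fe003f005fc005e003f801e000f0007000280000000000000) := Q_39 (nat_lit 195) (C_39 L102586 (C_39 L102869 (C_39 L103033 (C_39 L103036 N_39)))) (by decide +kernel)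
theorem L103038 : W_39 (nat_lit 2) (nat_lit 0x4000200012001f0000000000000000000000000000000) (nat_lit 0x0) (nat_lit 0x1c00000000000000000000000000) := D_39 (nat_lit 107) (nat_lit 108) (nat_lit 106) (nat_lit 0) (nat_lit 9) (nat_lit 7) (nat_lit 0) (nat_lit 8) (nat_lit 7) (by decide +kernel)
theorem L103039 : W_39 (nat_lit 3) (nat_lit 0x4000200012001e0000000000000000000000000000000) (nat_lit 0x0) (nat_lit 0x100010001c00000000000000000000000000) := T_39 (nat_lit 124) (nat_lit 140) (nat_lit 1) (nat_lit 8) (nat_lit 7) L103038 (by decide +kernel)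
theorem L103040 : W_39 (nat_lit 4) (nat_lit 0x4000200012001c0000000000000000000000000000000) (nat_lit 0x0) (nat_lit 0x500030001c00000000000000000000000000) := T_39 (nat_lit 125) (nat_lit 142) (nat_lit 1) (nat_lit 9) (nat_lit 7) L103039 (by decide +kernel)
theorem L103041 : W_39 (nat_lit 5) (nat_lit 0x4000200012000c0000000000000000000000000000000) (nat_lit 0x0) (nat_lit 0x500130009c00000000000000000000000000) := T_39 (nat_lit 128) (nat_lit 111) (nat_lit 6) (nat_lit 8) (nat_lit 10) L103040 (by decide +kernel)
theorem L103042 : W_39 (nat_lit 2) (nat_lit 0x80004000200012001f0000000000000000000000000000000) (nat_lit 0x0) (nat_lit 0x1c00000000000000000000000000) := D_39 (nat_lit 107) (nat_lit 106) (nat_lit 108) (nat_lit 0) (nat_lit 8) (nat_lit 7) (nat_lit 0) (nat_lit 9) (nat_lit 7) (by decide +kernel)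
theorem L103043 : W_39 (nat_lit 3) (nat_lit 0x80004000200012001d0000000000000000000000000000000) (nat_lit 0x0) (nat_lit 0x100020001c00000000000000000000000000) := T_39 (nat_lit 125) (nat_lit 140) (nat_lit 1) (nat_lit 8) (nat_lit 7) L103042 (by decide +kernel)
theorem L103044 : W_39 (nat_lit 4) (nat_lit 0x80004000200012000d0000000000000000000000000000000) (nat_lit 0x0) (nat_lit 0x100120009c00000000000000000000000000) := T_39 (nat_lit 128) (nat_lit 111) (nat_lit 6) (nat_lit 8) (nat_lit 10) L103043 (by decide +kernel)
theorem L103045 : W_39 (nat_lit 2) (nat_lit 0x1000190005800240012001d8000000000000000000000000000000) (nat_lit 0x0) (nat_lit 0x10000800040000000000000000000000000000000000000000000) := D_39 (nat_lit 191) (nat_lit 208) (nat_lit 174) (nat_lit 5) (nat_lit 5) (nat_lit 8) (nat_lit 5) (nat_lit 5) (nat_lit 7) (by decide +kernel)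
theorem L103046 : W_39 (nat_lit 3) (nat_lit 0x1000180005800240012001d8000000000000000000000000000000) (nat_lit 0x0) (nat_lit 0x10001800040000000100000000000000000000000000000000000) := T_39 (nat_lit 192) (nat_lit 140) (nat_lit 4) (nat_lit 5) (nat_lit 11) L103045 (by decide +kernel)
theorem L103047 : W_39 (nat_lit 4) (nat_lit 0x1000180005800240012001d0000000000000000000000000000000) (nat_lit 0x0) (nat_lit 0x10001800040000000100008000400000000000000000000000000) := T_39 (nat_lit 123) (nat_lit 106) (nat_lit 4) (nat_lit 5) (nat_lit 10) L103046 (by decide +kernel)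
theorem L103048 : W_39 (nat_lit 5) (nat_lit 0x1000180005800200012001d0000000000000000000000000000000) (nat_lit 0x0) (nat_lit 0x10003800040004000100008000400000000000000000000000000) := T_39 (nat_lit 158) (nat_lit 193) (nat_lit 7) (nat_lit 5) (nat_lit 7) L103047 (by decide +kernel)
theorem L103049 : W_39 (nat_lit 6) (nat_lit 0x1000180004800200012001d0000000000000000000000000000000) (nat_lit 0x0) (nat_lit 0x10003800340004000100008000400000000000000000000000000) := T_39 (nat_lit 176) (nat_lit 177) (nat_lit 3) (nat_lit 5) (nat_lit 10) L103048 (by decide +kernel)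
theorem L103050 : W_39 (nat_lit 7) (nat_lit 0x1000080004800200012001d0000000000000000000000000000000) (nat_lit 0x0) (nat_lit 0x210013800340004000100008000400000000000000000000000000) := T_39 (nat_lit 196) (nat_lit 213) (nat_lit 7) (nat_lit 8) (nat_lit 8) L103049 (by decide +kernel)
theorem L103051 : W_39 (nat_lit 8) (nat_lit 0x1000080004800200012000d0000000000000000000000000000000) (nat_lit 0x0) (nat_lit 0x210013800340004000100108008400000000000000000000000000) := T_39 (nat_lit 128) (nat_lit 111) (nat_lit 6) (nat_lit 8) (nat_lit 10) L103050 (by decide +kernel)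
theorem L103052 : W_39 (nat_lit 2) (nat_lit 0x3400b0000800044003c0012001d0000000000000000000000000000000) (nat_lit 0x0) (nat_lit 0x20002000000000000800000000000000000000000000) := D_39 (nat_lit 157) (nat_lit 173) (nat_lit 107) (nat_lit 1) (nat_lit 7) (nat_lit 9) (nat_lit 5) (nat_lit 5) (nat_lit 6) (by decide +kernel)
theorem L103053 : W_39 (nat_lit 3) (nat_lit 0x3400b0000800040003c0012001d0000000000000000000000000000000) (nat_lit 0x0) (nat_lit 0xe0002000000000000800000000000000000000000000) := T_39 (nat_lit 174) (nat_lit 175) (nat_lit 1) (nat_lit 8) (nat_lit 9) L103052 (by decide +kernel)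
theorem L103054 : W_39 (nat_lit 4) (nat_lit 0x3400b000080004000340012001d0000000000000000000000000000000) (nat_lit 0x0) (nat_lit 0xe000a000100000000800000000000000000000000000) := T_39 (nat_lit 159) (nat_lit 140) (nat_lit 0) (nat_lit 8) (nat_lit 9) L103053 (by decide +kernel)
theorem L103055 : W_39 (nat_lit 5) (nat_lit 0x34003000080004000340012001d0000000000000000000000000000000) (nat_lit 0x0) (nat_lit 0xc000000000e000a000100000000800000000000000000000000000) := T_39 (nat_lit 215) (nat_lit 214) (nat_lit 1) (nat_lit 11) (nat_lit 12) L103054 (by decide +kernel)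
theorem L103056 : W_39 (nat_lit 6) (nat_lit 0x34003000080004000240012001d0000000000000000000000000000000) (nat_lit 0x0) (nat_lit 0xc000000002e001a000100000000800000000000000000000000000) := T_39 (nat_lit 160) (nat_lit 177) (nat_lit 4) (nat_lit 8) (nat_lit 13) L103055 (by decide +kernel)
theorem L103057 : W_39 (nat_lit 7) (nat_lit 0x30003000080004000240012001d0000000000000000000000000000000) (nat_lit 0x0) (nat_lit 0xc00c000000002e001a000100000000800000000000000000000000000) := T_39 (nat_lit 226) (nat_lit 227) (nat_lit 2) (nat_lit 5) (nat_lit 13) L103056 (by decide +kernel)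
theorem L103058 : W_39 (nat_lit 8) (nat_lit 0x10003000080004000240012001d0000000000000000000000000000000) (nat_lit 0x0) (nat_lit 0x20002c00c000000002e001a000100000000800000000000000000000000000) := T_39 (nat_lit 229) (nat_lit 245) (nat_lit 5) (nat_lit 8) (nat_lit 10) L103057 (by decide +kernel)
theorem L103059 : W_39 (nat_lit 9) (nat_lit 0x3000080004000240012001d0000000000000000000000000000000) (nat_lit 0x0) (nat_lit 0x20003c00c800000002e001a000100000000800000000000000000000000000) := T_39 (nat_lit 228) (nat_lit 211) (nat_lit 5) (nat_lit 8) (nat_lit 9) L103058 (by decide +kernel)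
theorem L103060 : W_39 (nat_lit 10) (nat_lit 0x2000080004000240012001d0000000000000000000000000000000) (nat_lit 0x0) (nat_lit 0x20007c00d800000002e001a000100000000800000000000000000000000000) := T_39 (nat_lit 212) (nat_lit 230) (nat_lit 7) (nat_lit 8) (nat_lit 9) L103059 (by decide +kernel)
theorem L103061 : W_39 (nat_lit 11) (nat_lit 0x2000080004000240012000d0000000000000000000000000000000) (nat_lit 0x0) (nat_lit 0x20007c00d800000002e001a000100100008800000000000000000000000000) := T_39 (nat_lit 128) (nat_lit 111) (nat_lit 6) (nat_lit 8) (nat_lit 10) L103060 (by decide +kernel)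
theorem L103062 : W_39 (nat_lit 12) (nat_lit 0x80004000240012000d0000000000000000000000000000000) (nat_lit 0x0) (nat_lit 0x20007c00f800100002e001a000100100008800000000000000000000000000) := T_39 (nat_lit 213) (nat_lit 196) (nat_lit 7) (nat_lit 8) (nat_lit 8) L103061 (by decide +kernel)
theorem L103063 : W_39 (nat_lit 2) (nat_lit 0x300030000800040003c0012001d00008000a0000000000000000000000) (nat_lit 0x0) (nat_lit 0x40005000000000000000000) := D_39 (nat_lit 90) (nat_lit 72) (nat_lit 74) (nat_lit 4) (nat_lit 5) (nat_lit 8) (nat_lit 6) (nat_lit 5) (nat_lit 8) (by decide +kernel)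
theorem L103064 : W_39 (nat_lit 3) (nat_lit 0x300030000800040003c0012001d0000800020000000000000000000000) (nat_lit 0x0) (nat_lit 0x10000c0005000000000000000000) := T_39 (nat_lit 91) (nat_lit 108) (nat_lit 6) (nat_lit 5) (nat_lit 9) L103063 (by decide +kernel)
theorem L103065 : W_39 (nat_lit 4) (nat_lit 0x300030000800040003c0012001d0000800000000000000000000000000) (nat_lit 0x0) (nat_lit 0x14000e0005000000000000000000) := T_39 (nat_lit 89) (nat_lit 106) (nat_lit 4) (nat_lit 5) (nat_lit 9) L103064 (by decide +kernel)
theorem L103066 : W_39 (nat_lit 5) (nat_lit 0x300030000800040003c0012001d0000000000000000000000000000000) (nat_lit 0x0) (nat_lit 0x100000000000000001c000e0005000000000000000000) := T_39 (nat_lit 107) (nat_lit 176) (nat_lit 7) (nat_lit 5) (nat_lit 6) L103065 (by decide +kernel)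
theorem L103067 : W_39 (nat_lit 6) (nat_lit 0x30003000080004000340012001d0000000000000000000000000000000) (nat_lit 0x0) (nat_lit 0x100008000100000001c000e0005000000000000000000) := T_39 (nat_lit 159) (nat_lit 140) (nat_lit 0) (nat_lit 8) (nat_lit 9) L103066 (by decide +kernel)
theorem L103068 : W_39 (nat_lit 7) (nat_lit 0x30003000080004000240012001d0000000000000000000000000000000) (nat_lit 0x0) (nat_lit 0x300018000100000001c000e0005000000000000000000) := T_39 (nat_lit 160) (nat_lit 177) (nat_lit 4) (nat_lit 8) (nat_lit 13) L103067 (by decide +kernel)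
theorem L103069 : W_39 (nat_lit 8) (nat_lit 0x10003000080004000240012001d0000000000000000000000000000000) (nat_lit 0x0) (nat_lit 0x20002000000000000300018000100000001c000e0005000000000000000000) := T_39 (nat_lit 229) (nat_lit 245) (nat_lit 5) (nat_lit 8) (nat_lit 10) L103068 (by decide +kernel)
theorem L103070 : W_39 (nat_lit 9) (nat_lit 0x3000080004000240012001d0000000000000000000000000000000) (nat_lit 0x0) (nat_lit 0x20003000080000000300018000100000001c000e0005000000000000000000) := T_39 (nat_lit 228) (nat_lit 211) (nat_lit 5) (nat_lit 8) (nat_lit 9) L103069 (by decide +kernel)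
theorem L103071 : W_39 (nat_lit 10) (nat_lit 0x2000080004000240012001d0000000000000000000000000000000) (nat_lit 0x0) (nat_lit 0x20007000180000000300018000100000001c000e0005000000000000000000) := T_39 (nat_lit 212) (nat_lit 230) (nat_lit 7) (nat_lit 8) (nat_lit 9) L103070 (by decide +kernel)
theorem L103072 : W_39 (nat_lit 11) (nat_lit 0x80004000240012001d0000000000000000000000000000000) (nat_lit 0x0) (nat_lit 0x20007000380010000300018000100000001c000e0005000000000000000000) := T_39 (nat_lit 213) (nat_lit 196) (nat_lit 7) (nat_lit 8) (nat_lit 8) L103071 (by decide +kernel)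
theorem L103073 : W_39 (nat_lit 12) (nat_lit 0x80004000240012000d0000000000000000000000000000000) (nat_lit 0x0) (nat_lit 0x20007000380010000300018000100100009c000e0005000000000000000000) := T_39 (nat_lit 128) (nat_lit 111) (nat_lit 6) (nat_lit 8) (nat_lit 10) L103072 (by decide +kernel)
theorem L103074 : W_39 (nat_lit 2) (nat_lit 0x190004800240012000d8000000000000000000000000000000) (nat_lit 0x0) (nat_lit 0x40002000100000000000000000000000000000000000000000000) := D_39 (nat_lit 193) (nat_lit 176) (nat_lit 210) (nat_lit 7) (nat_lit 5) (nat_lit 7) (nat_lit 7) (nat_lit 5) (nat_lit 8) (by decide +kernel)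
theorem L103075 : W_39 (nat_lit 3) (nat_lit 0x180004800240012000d8000000000000000000000000000000) (nat_lit 0x0) (nat_lit 0x40003000100000000100000000000000000000000000000000000) := T_39 (nat_lit 192) (nat_lit 140) (nat_lit 4) (nat_lit 5) (nat_lit 11) L103074 (by decide +kernel)
theorem L103076 : W_39 (nat_lit 4) (nat_lit 0x180004800240012000d0000000000000000000000000000000) (nat_lit 0x0) (nat_lit 0x40003000100000000100008000400000000000000000000000000) := T_39 (nat_lit 123) (nat_lit 106) (nat_lit 4) (nat_lit 5) (nat_lit 10) L103075 (by decide +kernel)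
theorem L103077 : W_39 (nat_lit 5) (nat_lit 0x80004800240012000d0000000000000000000000000000000) (nat_lit 0x0) (nat_lit 0x240013000100000000100008000400000000000000000000000000) := T_39 (nat_lit 196) (nat_lit 213) (nat_lit 7) (nat_lit 8) (nat_lit 8) L103076 (by decide +kernel)
theorem L103078 : W_39 (nat_lit 2) (nat_lit 0x180005800240012000d0000800000000000000000000000000) (nat_lit 0x0) (nat_lit 0x800040002000000000000000000000000000000000000000) := D_39 (nat_lit 174) (nat_lit 157) (nat_lit 191) (nat_lit 5) (nat_lit 5) (nat_lit 6) (nat_lit 5) (nat_lit 5) (nat_lit 7) (by decide +kernel)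
theorem L103079 : W_39 (nat_lit 3) (nat_lit 0x180005800240012000d0000000000000000000000000000000) (nat_lit 0x0) (nat_lit 0x80004000a000000000000800000000000000000000000000) := T_39 (nat_lit 107) (nat_lit 159) (nat_lit 7) (nat_lit 5) (nat_lit 6) L103078 (by decide +kernel)
theorem L103080 : W_39 (nat_lit 4) (nat_lit 0x80005800240012000d0000000000000000000000000000000) (nat_lit 0x0) (nat_lit 0x20001080004000a000000000000800000000000000000000000000) := T_39 (nat_lit 196) (nat_lit 213) (nat_lit 7) (nat_lit 8) (nat_lit 8) L103079 (by decide +kernel)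
theorem L103081 : W_39 (nat_lit 5) (nat_lit 0x80004800240012000d0000000000000000000000000000000) (nat_lit 0x0) (nat_lit 0x20001280014000a000000000000800000000000000000000000000) := T_39 (nat_lit 176) (nat_lit 193) (nat_lit 7) (nat_lit 5) (nat_lit 7) L103080 (by decide +kernel)
theorem L103082 : W_39 (nat_lit 6) (nat_lit 0x80004000240012000d0000000000000000000000000000000) (nat_lit 0x0) (nat_lit 0x2500138001c001a000100008000c00020000000000000000000000) := Q_39 (nat_lit 175) (C_39 L102699 (C_39 L102696 (C_39 L103077 (C_39 L103081 N_39)))) (by decide +kernel)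
theorem L103083 : W_39 (nat_lit 13) (nat_lit 0x80004000200012000d0000000000000000000000000000000) (nat_lit 0x0) (nat_lit 0x20007c00fd00138003e005e000100108009c000e0005000000000000000000) := Q_39 (nat_lit 158) (C_39 L102760 (C_39 L103062 (C_39 L103073 (C_39 L103082 (C_39 L102715 N_39))))) (by decide +kernel)
theorem L103084 : W_39 (nat_lit 2) (nat_lit 0x30001000580006800200012001f0000400000000000000000000000000) (nat_lit 0x0) (nat_lit 0x4000000008000200000000000000000000000000) := D_39 (nat_lit 123) (nat_lit 105) (nat_lit 158) (nat_lit 0) (nat_lit 7) (nat_lit 7) (nat_lit 4) (nat_lit 5) (nat_lit 10) (by decide +kernel)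
theorem L103085 : W_39 (nat_lit 3) (nat_lit 0x30001000580006800200012001f0000000000000000000000000000000) (nat_lit 0x0) (nat_lit 0x4000000008000e00000000000000000000000000) := T_39 (nat_lit 106) (nat_lit 107) (nat_lit 0) (nat_lit 8) (nat_lit 7) L103084 (by decide +kernel)
theorem L103086 : W_39 (nat_lit 4) (nat_lit 0x30001000180006800200012001f0000000000000000000000000000000) (nat_lit 0x0) (nat_lit 0x60000000004000000008000e00000000000000000000000000) := T_39 (nat_lit 198) (nat_lit 197) (nat_lit 0) (nat_lit 11) (nat_lit 11) L103085 (by decide +kernel)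
theorem L103087 : W_39 (nat_lit 5) (nat_lit 0x30001000180006000200012001f0000000000000000000000000000000) (nat_lit 0x0) (nat_lit 0x60000180004000000008000e00000000000000000000000000) := T_39 (nat_lit 175) (nat_lit 176) (nat_lit 3) (nat_lit 5) (nat_lit 10) L103086 (by decide +kernel)
theorem L103088 : W_39 (nat_lit 6) (nat_lit 0x30001000180004000200012001f0000000000000000000000000000000) (nat_lit 0x0) (nat_lit 0x60000380014000000008000e00000000000000000000000000) := T_39 (nat_lit 177) (nat_lit 160) (nat_lit 4) (nat_lit 8) (nat_lit 13) L103087 (by decide +kernel)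
theorem L103089 : W_39 (nat_lit 7) (nat_lit 0x30001000180004000200012001d0000000000000000000000000000000) (nat_lit 0x0) (nat_lit 0x60000380014000100028000e00000000000000000000000000) := T_39 (nat_lit 125) (nat_lit 140) (nat_lit 1) (nat_lit 8) (nat_lit 7) L103088 (by decide +kernel)
theorem L103090 : W_39 (nat_lit 8) (nat_lit 0x10001000180004000200012001d0000000000000000000000000000000) (nat_lit 0x0) (nat_lit 0x20002000000060000380014000100028000e00000000000000000000000000) := T_39 (nat_lit 229) (nat_lit 245) (nat_lit 5) (nat_lit 8) (nat_lit 10) L103089 (by decide +kernel)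
theorem L103091 : W_39 (nat_lit 9) (nat_lit 0x10001000180004000200012000d0000000000000000000000000000000) (nat_lit 0x0) (nat_lit 0x20002000000060000380014000100128008e00000000000000000000000000) := T_39 (nat_lit 128) (nat_lit 111) (nat_lit 6) (nat_lit 8) (nat_lit 10) L103090 (by decide +kernel)
theorem L103092 : W_39 (nat_lit 10) (nat_lit 0x1000180004000200012000d0000000000000000000000000000000) (nat_lit 0x0) (nat_lit 0x20003000080060000380014000100128008e00000000000000000000000000) := T_39 (nat_lit 228) (nat_lit 211) (nat_lit 5) (nat_lit 8) (nat_lit 9) L103091 (by decide +kernel)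
theorem L103093 : W_39 (nat_lit 11) (nat_lit 0x1000080004000200012000d0000000000000000000000000000000) (nat_lit 0x0) (nat_lit 0x20003000280070000380014000100128008e00000000000000000000000000) := T_39 (nat_lit 196) (nat_lit 213) (nat_lit 7) (nat_lit 8) (nat_lit 8) L103092 (by decide +kernel)
theorem L103094 : W_39 (nat_lit 12) (nat_lit 0x80004000200012000d0000000000000000000000000000000) (nat_lit 0x0) (nat_lit 0xa0007000380070000380054000100128008e00020001000000000000000000) := Q_39 (nat_lit 212) (C_39 L103093 (C_39 L102691 (C_39 L102668 (C_39 L102678 N_39)))) (by decide +kernel)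
theorem L103095 : W_39 (nat_lit 2) (nat_lit 0x180004000200012000f0000800000000000000000000000000) (nat_lit 0x0) (nat_lit 0x100009000000000000000000000000000) := D_39 (nat_lit 128) (nat_lit 111) (nat_lit 108) (nat_lit 6) (nat_lit 8) (nat_lit 10) (nat_lit 0) (nat_lit 9) (nat_lit 7) (by decide +kernel)
theorem L103096 : W_39 (nat_lit 3) (nat_lit 0x180004000200012000d0000800000000000000000000000000) (nat_lit 0x0) (nat_lit 0x120009400000000000000000000000000) := T_39 (nat_lit 125) (nat_lit 106) (nat_lit 0) (nat_lit 8) (nat_lit 7) L103095 (by decide +kernel)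
theorem L103097 : W_39 (nat_lit 4) (nat_lit 0x80004000200012000d0000800000000000000000000000000) (nat_lit 0x0) (nat_lit 0x200010000000000000000120009400000000000000000000000000) := T_39 (nat_lit 196) (nat_lit 213) (nat_lit 7) (nat_lit 8) (nat_lit 8) L103096 (by decide +kernel)
theorem L103098 : W_39 (nat_lit 2) (nat_lit 0x80004000260012001d00008000c0000000000000000000000) (nat_lit 0x0) (nat_lit 0x400020001000000000000000000) := D_39 (nat_lit 89) (nat_lit 72) (nat_lit 106) (nat_lit 4) (nat_lit 5) (nat_lit 8) (nat_lit 4) (nat_lit 5) (nat_lit 9) (by decide +kernel)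
theorem L103099 : W_39 (nat_lit 3) (nat_lit 0x80004000260012001d0000800080000000000000000000000) (nat_lit 0x0) (nat_lit 0x400060005000000000000000000) := T_39 (nat_lit 90) (nat_lit 74) (nat_lit 6) (nat_lit 5) (nat_lit 8) L103098 (by decide +kernel)
theorem L103100 : W_39 (nat_lit 4) (nat_lit 0x80004000240012001d0000800080000000000000000000000) (nat_lit 0x0) (nat_lit 0x40002000000000000400060005000000000000000000) := T_39 (nat_lit 157) (nat_lit 174) (nat_lit 5) (nat_lit 5) (nat_lit 6) L103099 (by decide +kernel)
theorem L103101 : W_39 (nat_lit 5) (nat_lit 0x80004000240012001d0000800000000000000000000000000) (nat_lit 0x0) (nat_lit 0x400020000000000014000e0005000000000000000000) := T_39 (nat_lit 91) (nat_lit 108) (nat_lit 6) (nat_lit 5) (nat_lit 9) L103100 (by decide +kernel)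
theorem L103102 : W_39 (nat_lit 6) (nat_lit 0x80004000240012000d0000800000000000000000000000000) (nat_lit 0x0) (nat_lit 0x400020000001000094000e0005000000000000000000) := T_39 (nat_lit 128) (nat_lit 111) (nat_lit 6) (nat_lit 8) (nat_lit 10) L103101 (by decide +kernel)
theorem L103103 : W_39 (nat_lit 2) (nat_lit 0x80004800240012000d0000c00000000000000000000000000) (nat_lit 0x0) (nat_lit 0x2000100008000000000000000000000000000000000000000) := D_39 (nat_lit 176) (nat_lit 159) (nat_lit 193) (nat_lit 7) (nat_lit 5) (nat_lit 6) (nat_lit 7) (nat_lit 5) (nat_lit 7) (by decide +kernel)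
theorem L103104 : W_39 (nat_lit 3) (nat_lit 0x80004000240012000d0000c00000000000000000000000000) (nat_lit 0x0) (nat_lit 0x2000180008000000008000000000000000000000000000000) := T_39 (nat_lit 175) (nat_lit 123) (nat_lit 4) (nat_lit 5) (nat_lit 10) L103103 (by decide +kernel)
theorem L103105 : W_39 (nat_lit 4) (nat_lit 0x80004000240012000d0000800000000000000000000000000) (nat_lit 0x0) (nat_lit 0x2000180008000000008000400020000000000000000000000) := T_39 (nat_lit 106) (nat_lit 89) (nat_lit 4) (nat_lit 5) (nat_lit 9) L103104 (by decide +kernel)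
theorem L103106 : W_39 (nat_lit 2) (nat_lit 0x180005000260012001d0001800000000000000000000000000) (nat_lit 0x0) (nat_lit 0x2000280000000000000000000000000000000000000000000) := D_39 (nat_lit 175) (nat_lit 193) (nat_lit 177) (nat_lit 7) (nat_lit 5) (nat_lit 7) (nat_lit 3) (nat_lit 5) (nat_lit 10) (by decide +kernel)
theorem L103107 : W_39 (nat_lit 3) (nat_lit 0x180004000260012001d0001800000000000000000000000000) (nat_lit 0x0) (nat_lit 0x2000380008000000000000000000000000000000000000000) := T_39 (nat_lit 176) (nat_lit 159) (nat_lit 7) (nat_lit 5) (nat_lit 6) L103106 (by decide +kernel)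
theorem L103108 : W_39 (nat_lit 4) (nat_lit 0x80004000260012001d0001800000000000000000000000000) (nat_lit 0x0) (nat_lit 0x200012000380008000000000000000000000000000000000000000) := T_39 (nat_lit 196) (nat_lit 213) (nat_lit 7) (nat_lit 8) (nat_lit 8) L103107 (by decide +kernel)
theorem L103109 : W_39 (nat_lit 5) (nat_lit 0x80004000260012001d0000800000000000000000000000000) (nat_lit 0x0) (nat_lit 0x200012000380008000000000001000080000000000000000000000) := T_39 (nat_lit 108) (nat_lit 91) (nat_lit 6) (nat_lit 5) (nat_lit 9) L103108 (by decide +kernel)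
theorem L103110 : W_39 (nat_lit 6) (nat_lit 0x80004000240012001d0000800000000000000000000000000) (nat_lit 0x0) (nat_lit 0x2000120003c000a000000000001000080000000000000000000000) := T_39 (nat_lit 157) (nat_lit 174) (nat_lit 5) (nat_lit 5) (nat_lit 6) L103109 (by decide +kernel)
theorem L103111 : W_39 (nat_lit 7) (nat_lit 0x80004000240012000d0000800000000000000000000000000) (nat_lit 0x0) (nat_lit 0x2000120003c000a000000100009000080000000000000000000000) := T_39 (nat_lit 128) (nat_lit 111) (nat_lit 6) (nat_lit 8) (nat_lit 10) L103110 (by decide +kernel)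
theorem L103112 : W_39 (nat_lit 8) (nat_lit 0x80004000200012000d0000800000000000000000000000000) (nat_lit 0x0) (nat_lit 0x2000128003c000e0000001080094000e0005000000000000000000) := Q_39 (nat_lit 158) (C_39 L103102 (C_39 L102732 (C_39 L103105 (C_39 L103111 N_39)))) (by decide +kernel)
theorem L103113 : W_39 (nat_lit 2) (nat_lit 0x1800044002c0012001d0001800000000000000000000000000) (nat_lit 0x0) (nat_lit 0x800080010000000000000000000000000000000000000000) := D_39 (nat_lit 175) (nat_lit 191) (nat_lit 160) (nat_lit 5) (nat_lit 5) (nat_lit 7) (nat_lit 1) (nat_lit 8) (nat_lit 9) (by decide +kernel)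
theorem L103114 : W_39 (nat_lit 3) (nat_lit 0x1800040002c0012001d0001800000000000000000000000000) (nat_lit 0x0) (nat_lit 0x8000c0012000000000000000000000000000000000000000) := T_39 (nat_lit 174) (nat_lit 157) (nat_lit 5) (nat_lit 5) (nat_lit 6) L103113 (by decide +kernel)
theorem L103115 : W_39 (nat_lit 4) (nat_lit 0x180004000240012001d0001800000000000000000000000000) (nat_lit 0x0) (nat_lit 0x8001c001a000000000000000000000000000000000000000) := T_39 (nat_lit 159) (nat_lit 176) (nat_lit 7) (nat_lit 5) (nat_lit 6) L103114 (by decide +kernel)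
theorem L103116 : W_39 (nat_lit 5) (nat_lit 0x180004000200012001d0001800000000000000000000000000) (nat_lit 0x0) (nat_lit 0x8001c001e000000000000000080000000000000000000000) := T_39 (nat_lit 158) (nat_lit 91) (nat_lit 6) (nat_lit 5) (nat_lit 9) L103115 (by decide +kernel)
theorem L103117 : W_39 (nat_lit 6) (nat_lit 0x80004000200012001d0001800000000000000000000000000) (nat_lit 0x0) (nat_lit 0x2000108001c001e000000000000000080000000000000000000000) := T_39 (nat_lit 196) (nat_lit 213) (nat_lit 7) (nat_lit 8) (nat_lit 8) L103116 (by decide +kernel)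
theorem L103118 : W_39 (nat_lit 7) (nat_lit 0x80004000200012001d0000800000000000000000000000000) (nat_lit 0x0) (nat_lit 0x2000108001c001e000000020001000080000000000000000000000) := T_39 (nat_lit 108) (nat_lit 125) (nat_lit 0) (nat_lit 9) (nat_lit 7) L103117 (by decide +kernel)
theorem L103119 : W_39 (nat_lit 8) (nat_lit 0x80004000200012000d0000800000000000000000000000000) (nat_lit 0x0) (nat_lit 0x2000108001c001e000000120009000080000000000000000000000) := T_39 (nat_lit 128) (nat_lit 111) (nat_lit 6) (nat_lit 8) (nat_lit 10) L103118 (by decide +kernel)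
theorem L103120 : W_39 (nat_lit 9) (nat_lit 0x80004000200012000d0000000000000000000000000000000) (nat_lit 0x0) (nat_lit 0x2000128003c001e000000128009c000e0005000000000000000000) := Q_39 (nat_lit 107) (C_39 L102667 (C_39 L103097 (C_39 L103112 (C_39 L103119 N_39)))) (by decide +kernel)
theorem L103121 : W_39 (nat_lit 2) (nat_lit 0x1a00580005800240012000d0000000000000000000000000000000) (nat_lit 0x0) (nat_lit 0x100020001000000000000000000000000000) := D_39 (nat_lit 125) (nat_lit 140) (nat_lit 108) (nat_lit 1) (nat_lit 8) (nat_lit 7) (nat_lit 6) (nat_lit 5) (nat_lit 10) (by decide +kernel)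
theorem L103122 : W_39 (nat_lit 3) (nat_lit 0x1a00580005800200012000d0000000000000000000000000000000) (nat_lit 0x0) (nat_lit 0x2000000004000100020001000000000000000000000000000) := T_39 (nat_lit 158) (nat_lit 193) (nat_lit 7) (nat_lit 5) (nat_lit 7) L103121 (by decide +kernel)
theorem L103123 : W_39 (nat_lit 4) (nat_lit 0x1a00180005800200012000d0000000000000000000000000000000) (nat_lit 0x0) (nat_lit 0x62000000004000100020001000000000000000000000000000) := T_39 (nat_lit 198) (nat_lit 197) (nat_lit 1) (nat_lit 11) (nat_lit 11) L103122 (by decide +kernel)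
theorem L103124 : W_39 (nat_lit 5) (nat_lit 0x1800180005800200012000d0000000000000000000000000000000) (nat_lit 0x0) (nat_lit 0x60062000000004000100020001000000000000000000000000000) := T_39 (nat_lit 209) (nat_lit 210) (nat_lit 2) (nat_lit 5) (nat_lit 12) L103123 (by decide +kernel)
theorem L103125 : W_39 (nat_lit 6) (nat_lit 0x1000180005800200012000d0000000000000000000000000000000) (nat_lit 0x0) (nat_lit 0x10000e0062000000004000100020001000000000000000000000000000) := T_39 (nat_lit 211) (nat_lit 228) (nat_lit 5) (nat_lit 8) (nat_lit 9) L103124 (by decide +kernel)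
theorem L103126 : W_39 (nat_lit 7) (nat_lit 0x1000180004800200012000d0000000000000000000000000000000) (nat_lit 0x0) (nat_lit 0x10000e0062000300004000100020001000000000000000000000000000) := T_39 (nat_lit 176) (nat_lit 177) (nat_lit 3) (nat_lit 5) (nat_lit 10) L103125 (by decide +kernel)
theorem L103127 : W_39 (nat_lit 8) (nat_lit 0x1000080004800200012000d0000000000000000000000000000000) (nat_lit 0x0) (nat_lit 0x10002e0072000300004000100020001000000000000000000000000000) := T_39 (nat_lit 196) (nat_lit 213) (nat_lit 7) (nat_lit 8) (nat_lit 8) L103126 (by decide +kernel)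
theorem L103128 : W_39 (nat_lit 2) (nat_lit 0x1c00590004800240012001f0000000000000000000000000000000) (nat_lit 0x0) (nat_lit 0x10000800040000000000000000000000000000000000000000000) := D_39 (nat_lit 191) (nat_lit 208) (nat_lit 174) (nat_lit 5) (nat_lit 5) (nat_lit 8) (nat_lit 5) (nat_lit 5) (nat_lit 7) (by decide +kernel)
theorem L103129 : W_39 (nat_lit 3) (nat_lit 0x1c00580004800240012001f0000000000000000000000000000000) (nat_lit 0x0) (nat_lit 0x10003800040000000000000000000000000000000000000000000) := T_39 (nat_lit 192) (nat_lit 193) (nat_lit 7) (nat_lit 5) (nat_lit 8) L103128 (by decide +kernel)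
theorem L103130 : W_39 (nat_lit 4) (nat_lit 0x1c00580004800200012001f0000000000000000000000000000000) (nat_lit 0x0) (nat_lit 0x10003800040004000000000001000000000000000000000000000) := T_39 (nat_lit 158) (nat_lit 108) (nat_lit 6) (nat_lit 5) (nat_lit 10) L103129 (by decide +kernel)
theorem L103131 : W_39 (nat_lit 5) (nat_lit 0x1c00580004800200012001d0000000000000000000000000000000) (nat_lit 0x0) (nat_lit 0x10003800040004000100020001000000000000000000000000000) := T_39 (nat_lit 125) (nat_lit 140) (nat_lit 1) (nat_lit 8) (nat_lit 7) L103130 (by decide +kernel)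
theorem L103132 : W_39 (nat_lit 6) (nat_lit 0x1c00180004800200012001d0000000000000000000000000000000) (nat_lit 0x0) (nat_lit 0x10063800040004000100020001000000000000000000000000000) := T_39 (nat_lit 198) (nat_lit 197) (nat_lit 1) (nat_lit 11) (nat_lit 11) L103131 (by decide +kernel)
theorem L103133 : W_39 (nat_lit 7) (nat_lit 0x1800180004800200012001d0000000000000000000000000000000) (nat_lit 0x0) (nat_lit 0x70063800040004000100020001000000000000000000000000000) := T_39 (nat_lit 210) (nat_lit 209) (nat_lit 2) (nat_lit 5) (nat_lit 12) L103132 (by decide +kernel)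
theorem L103134 : W_39 (nat_lit 8) (nat_lit 0x1800080004800200012001d0000000000000000000000000000000) (nat_lit 0x0) (nat_lit 0x270073800040004000100020001000000000000000000000000000) := T_39 (nat_lit 196) (nat_lit 213) (nat_lit 7) (nat_lit 8) (nat_lit 8) L103133 (by decide +kernel)
theorem L103135 : W_39 (nat_lit 9) (nat_lit 0x1800080004800200012000d0000000000000000000000000000000) (nat_lit 0x0) (nat_lit 0x270073800040004000100120009000000000000000000000000000) := T_39 (nat_lit 128) (nat_lit 111) (nat_lit 6) (nat_lit 8) (nat_lit 10) L103134 (by decide +kernel)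
theorem L103136 : W_39 (nat_lit 10) (nat_lit 0x1000080004800200012000d0000000000000000000000000000000) (nat_lit 0x0) (nat_lit 0x10002f0073800040004000100120009000000000000000000000000000) := T_39 (nat_lit 211) (nat_lit 228) (nat_lit 5) (nat_lit 8) (nat_lit 9) L103135 (by decide +kernel)
theorem L103137 : W_39 (nat_lit 2) (nat_lit 0x1800080004c00340012000f8000000000000000000000000000000) (nat_lit 0x0) (nat_lit 0x2000000000000300000000000000000000000000000000000000000000) := D_39 (nat_lit 177) (nat_lit 176) (nat_lit 229) (nat_lit 2) (nat_lit 4) (nat_lit 10) (nat_lit 4) (nat_lit 8) (nat_lit 13) (by decide +kernel)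
theorem L103138 : W_39 (nat_lit 3) (nat_lit 0x1800080004c00240012000f8000000000000000000000000000000) (nat_lit 0x0) (nat_lit 0x2000000000000300018000000000000000000000000000000000000000) := T_39 (nat_lit 160) (nat_lit 159) (nat_lit 1) (nat_lit 8) (nat_lit 9) L103137 (by decide +kernel)
theorem L103139 : W_39 (nat_lit 4) (nat_lit 0x1800080004800240012000f8000000000000000000000000000000) (nat_lit 0x0) (nat_lit 0x2000000000800340018000000000000000000000000000000000000000) := T_39 (nat_lit 174) (nat_lit 191) (nat_lit 5) (nat_lit 5) (nat_lit 7) L103138 (by decide +kernel)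
theorem L103140 : W_39 (nat_lit 5) (nat_lit 0x1800080004800240012000f0000000000000000000000000000000) (nat_lit 0x0) (nat_lit 0x2000000000800340018000000008000400000000000000000000000000) := T_39 (nat_lit 123) (nat_lit 106) (nat_lit 4) (nat_lit 5) (nat_lit 10) L103139 (by decide +kernel)
theorem L103141 : W_39 (nat_lit 6) (nat_lit 0x1800080004800200012000f0000000000000000000000000000000) (nat_lit 0x0) (nat_lit 0x200000000080034001c000000008001400000000000000000000000000) := T_39 (nat_lit 158) (nat_lit 108) (nat_lit 6) (nat_lit 5) (nat_lit 10) L103140 (by decide +kernel)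
theorem L103142 : W_39 (nat_lit 7) (nat_lit 0x1000080004800200012000f0000000000000000000000000000000) (nat_lit 0x0) (nat_lit 0x300008000080034001c000000008001400000000000000000000000000) := T_39 (nat_lit 211) (nat_lit 228) (nat_lit 5) (nat_lit 8) (nat_lit 9) L103141 (by decide +kernel)
theorem L103143 : W_39 (nat_lit 8) (nat_lit 0x1000080004800200012000d0000000000000000000000000000000) (nat_lit 0x0) (nat_lit 0x300008000080034001c000100028001400000000000000000000000000) := T_39 (nat_lit 125) (nat_lit 140) (nat_lit 1) (nat_lit 8) (nat_lit 7) L103142 (by decide +kernel)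
theorem L103144 : W_39 (nat_lit 2) (nat_lit 0x30001000180004800200012001f0000000000000000000000000000000) (nat_lit 0x0) (nat_lit 0x300010000000000000000000000000000000000000000) := D_39 (nat_lit 177) (nat_lit 176) (nat_lit 160) (nat_lit 3) (nat_lit 5) (nat_lit 10) (nat_lit 4) (nat_lit 8) (nat_lit 13) (by decide +kernel)
theorem L103145 : W_39 (nat_lit 3) (nat_lit 0x30001000080004800200012001f0000000000000000000000000000000) (nat_lit 0x0) (nat_lit 0x200010000300010000000000000000000000000000000000000000) := T_39 (nat_lit 196) (nat_lit 213) (nat_lit 7) (nat_lit 8) (nat_lit 8) L103144 (by decide +kernel)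
theorem L103146 : W_39 (nat_lit 4) (nat_lit 0x10001000080004800200012001f0000000000000000000000000000000) (nat_lit 0x0) (nat_lit 0x20002000200010000300010000000000000000000000000000000000000000) := T_39 (nat_lit 229) (nat_lit 245) (nat_lit 5) (nat_lit 8) (nat_lit 10) L103145 (by decide +kernel)
theorem L103147 : W_39 (nat_lit 5) (nat_lit 0x10001000080004800200012001d0000000000000000000000000000000) (nat_lit 0x0) (nat_lit 0x20002000200010000300010000100020000000000000000000000000000000) := T_39 (nat_lit 125) (nat_lit 140) (nat_lit 1) (nat_lit 8) (nat_lit 7) L103146 (by decide +kernel)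
theorem L103148 : W_39 (nat_lit 6) (nat_lit 0x1000080004800200012001d0000000000000000000000000000000) (nat_lit 0x0) (nat_lit 0x20003000280010000300010000100020000000000000000000000000000000) := T_39 (nat_lit 228) (nat_lit 211) (nat_lit 5) (nat_lit 8) (nat_lit 9) L103147 (by decide +kernel)
theorem L103149 : W_39 (nat_lit 7) (nat_lit 0x1000080004800200012000d0000000000000000000000000000000) (nat_lit 0x0) (nat_lit 0x20003000280010000300010000100120008000000000000000000000000000) := T_39 (nat_lit 128) (nat_lit 111) (nat_lit 6) (nat_lit 8) (nat_lit 10) L103148 (by decide +kernel)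
theorem L103150 : W_39 (nat_lit 2) (nat_lit 0x10001000180006800200012001d0000000000000000000000000000000) (nat_lit 0x0) (nat_lit 0x20002000000000000000010000000000000000000000000000000000000000) := D_39 (nat_lit 229) (nat_lit 245) (nat_lit 160) (nat_lit 5) (nat_lit 8) (nat_lit 10) (nat_lit 4) (nat_lit 8) (nat_lit 13) (by decide +kernel)
theorem L103151 : W_39 (nat_lit 3) (nat_lit 0x10001000180004800200012001d0000000000000000000000000000000) (nat_lit 0x0) (nat_lit 0x20002000000000000300010000000000000000000000000000000000000000) := T_39 (nat_lit 177) (nat_lit 176) (nat_lit 3) (nat_lit 5) (nat_lit 10) L103150 (by decide +kernel)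
theorem L103152 : W_39 (nat_lit 4) (nat_lit 0x10001000080004800200012001d0000000000000000000000000000000) (nat_lit 0x0) (nat_lit 0x20002000200010000300010000000000000000000000000000000000000000) := T_39 (nat_lit 196) (nat_lit 213) (nat_lit 7) (nat_lit 8) (nat_lit 8) L103151 (by decide +kernel)
theorem L103153 : W_39 (nat_lit 5) (nat_lit 0x1000080004800200012001d0000000000000000000000000000000) (nat_lit 0x0) (nat_lit 0x20003000280010000300010000000000000000000000000000000000000000) := T_39 (nat_lit 228) (nat_lit 211) (nat_lit 5) (nat_lit 8) (nat_lit 9) L103152 (by decide +kernel)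
theorem L103154 : W_39 (nat_lit 6) (nat_lit 0x1000080004800200012000d0000000000000000000000000000000) (nat_lit 0x0) (nat_lit 0x20003000280010000300010000000100008000000000000000000000000000) := T_39 (nat_lit 128) (nat_lit 111) (nat_lit 6) (nat_lit 8) (nat_lit 10) L103153 (by decide +kernel)
theorem L103155 : W_39 (nat_lit 11) (nat_lit 0x1000080004000200012000d0000000000000000000000000000000) (nat_lit 0x0) (nat_lit 0x200030002f00738003c001c000100128009400000000000000000000000000) := Q_39 (nat_lit 175) (C_39 L103051 (C_39 L103127 (C_39 L103136 (C_39 L103143 (C_39 L103149 (C_39 L103154 N_39)))))) (by decide +kernel)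
theorem L103156 : W_39 (nat_lit 2) (nat_lit 0x1000080005800240012001f0000000000000000000000000000000) (nat_lit 0x0) (nat_lit 0x200042000000000000000000000000000000000000000) := D_39 (nat_lit 177) (nat_lit 162) (nat_lit 157) (nat_lit 2) (nat_lit 5) (nat_lit 10) (nat_lit 0) (nat_lit 8) (nat_lit 10) (by decide +kernel)
theorem L103157 : W_39 (nat_lit 3) (nat_lit 0x1000080004800240012001f0000000000000000000000000000000) (nat_lit 0x0) (nat_lit 0x2000300042000000000000000000000000000000000000000) := T_39 (nat_lit 176) (nat_lit 193) (nat_lit 7) (nat_lit 5) (nat_lit 7) L103156 (by decide +kernel)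
theorem L103158 : W_39 (nat_lit 4) (nat_lit 0x1000080004800200012001f0000000000000000000000000000000) (nat_lit 0x0) (nat_lit 0x2000300046000000000001000000000000000000000000000) := T_39 (nat_lit 158) (nat_lit 108) (nat_lit 6) (nat_lit 5) (nat_lit 10) L103157 (by decide +kernel)
theorem L103159 : W_39 (nat_lit 5) (nat_lit 0x1000080004800200012001d0000000000000000000000000000000) (nat_lit 0x0) (nat_lit 0x2000300046000100020001000000000000000000000000000) := T_39 (nat_lit 125) (nat_lit 140) (nat_lit 1) (nat_lit 8) (nat_lit 7) L103158 (by decide +kernel)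
theorem L103160 : W_39 (nat_lit 6) (nat_lit 0x1000080004800200012000d0000000000000000000000000000000) (nat_lit 0x0) (nat_lit 0x2000300046000100120009000000000000000000000000000) := T_39 (nat_lit 128) (nat_lit 111) (nat_lit 6) (nat_lit 8) (nat_lit 10) L103159 (by decide +kernel)
theorem L103161 : W_39 (nat_lit 2) (nat_lit 0x10001000080004c00340012001f8000000000000000000000000000000) (nat_lit 0x0) (nat_lit 0x20002000000000000200000000000000000000000000000000000000000000) := D_39 (nat_lit 229) (nat_lit 177) (nat_lit 245) (nat_lit 4) (nat_lit 8) (nat_lit 13) (nat_lit 5) (nat_lit 8) (nat_lit 10) (by decide +kernel)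
theorem L103162 : W_39 (nat_lit 3) (nat_lit 0x1000080004c00340012001f8000000000000000000000000000000) (nat_lit 0x0) (nat_lit 0x20003000080000000200000000000000000000000000000000000000000000) := T_39 (nat_lit 228) (nat_lit 211) (nat_lit 5) (nat_lit 8) (nat_lit 9) L103161 (by decide +kernel)
theorem L103163 : W_39 (nat_lit 4) (nat_lit 0x1000080004c00240012001f8000000000000000000000000000000) (nat_lit 0x0) (nat_lit 0x20003000080000000200018000000000000000000000000000000000000000) := T_39 (nat_lit 160) (nat_lit 159) (nat_lit 1) (nat_lit 8) (nat_lit 9) L103162 (by decide +kernel)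
theorem L103164 : W_39 (nat_lit 5) (nat_lit 0x1000080004800240012001f8000000000000000000000000000000) (nat_lit 0x0) (nat_lit 0x20003000080000800240018000000000000000000000000000000000000000) := T_39 (nat_lit 174) (nat_lit 191) (nat_lit 5) (nat_lit 5) (nat_lit 7) L103163 (by decide +kernel)
theorem L103165 : W_39 (nat_lit 6) (nat_lit 0x1000080004800240012001f0000000000000000000000000000000) (nat_lit 0x0) (nat_lit 0x20003000080000800240018000000008000400000000000000000000000000) := T_39 (nat_lit 123) (nat_lit 106) (nat_lit 4) (nat_lit 5) (nat_lit 10) L103164 (by decide +kernel)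
theorem L103166 : W_39 (nat_lit 7) (nat_lit 0x1000080004800200012001f0000000000000000000000000000000) (nat_lit 0x0) (nat_lit 0x2000300008000080024001c000000008001400000000000000000000000000) := T_39 (nat_lit 158) (nat_lit 108) (nat_lit 6) (nat_lit 5) (nat_lit 10) L103165 (by decide +kernel)
theorem L103167 : W_39 (nat_lit 8) (nat_lit 0x1000080004800200012000f0000000000000000000000000000000) (nat_lit 0x0) (nat_lit 0x2000300008000080024001c000000108009400000000000000000000000000) := T_39 (nat_lit 128) (nat_lit 111) (nat_lit 6) (nat_lit 8) (nat_lit 10) L103166 (by decide +kernel)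
theorem L103168 : W_39 (nat_lit 9) (nat_lit 0x1000080004800200012000d0000000000000000000000000000000) (nat_lit 0x0) (nat_lit 0x2000300008000080024001c000100128009400000000000000000000000000) := T_39 (nat_lit 125) (nat_lit 140) (nat_lit 1) (nat_lit 8) (nat_lit 7) L103167 (by decide +kernel)
theorem L103169 : W_39 (nat_lit 2) (nat_lit 0x70001000080006800200012001f0000000000000000000000000000000) (nat_lit 0x0) (nat_lit 0x10000100040000000000000000000000000000000000000000) := D_39 (nat_lit 176) (nat_lit 162) (nat_lit 196) (nat_lit 2) (nat_lit 5) (nat_lit 10) (nat_lit 3) (nat_lit 5) (nat_lit 10) (by decide +kernel)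
theorem L103170 : W_39 (nat_lit 3) (nat_lit 0x70001000080004800200012001f0000000000000000000000000000000) (nat_lit 0x0) (nat_lit 0x10000300050000000000000000000000000000000000000000) := T_39 (nat_lit 177) (nat_lit 160) (nat_lit 4) (nat_lit 8) (nat_lit 13) L103169 (by decide +kernel)
theorem L103171 : W_39 (nat_lit 4) (nat_lit 0x30001000080004800200012001f0000000000000000000000000000000) (nat_lit 0x0) (nat_lit 0x80004000000010000300050000000000000000000000000000000000000000) := T_39 (nat_lit 230) (nat_lit 247) (nat_lit 7) (nat_lit 8) (nat_lit 10) L103170 (by decide +kernel)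
theorem L103172 : W_39 (nat_lit 5) (nat_lit 0x30001000080004800200012001d0000000000000000000000000000000) (nat_lit 0x0) (nat_lit 0x80004000000010000300050000100020000000000000000000000000000000) := T_39 (nat_lit 125) (nat_lit 140) (nat_lit 1) (nat_lit 8) (nat_lit 7) L103171 (by decide +kernel)
theorem L103173 : W_39 (nat_lit 6) (nat_lit 0x10001000080004800200012001d0000000000000000000000000000000) (nat_lit 0x0) (nat_lit 0xa0006000000010000300050000100020000000000000000000000000000000) := T_39 (nat_lit 229) (nat_lit 245) (nat_lit 5) (nat_lit 8) (nat_lit 10) L103172 (by decide +kernel)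
theorem L103174 : W_39 (nat_lit 7) (nat_lit 0x10001000080004800200012000d0000000000000000000000000000000) (nat_lit 0x0) (nat_lit 0xa0006000000010000300050000100120008000000000000000000000000000) := T_39 (nat_lit 128) (nat_lit 111) (nat_lit 6) (nat_lit 8) (nat_lit 10) L103173 (by decide +kernel)
theorem L103175 : W_39 (nat_lit 8) (nat_lit 0x1000080004800200012000d0000000000000000000000000000000) (nat_lit 0x0) (nat_lit 0xa0007000080010000300050000100120008000000000000000000000000000) := T_39 (nat_lit 228) (nat_lit 211) (nat_lit 5) (nat_lit 8) (nat_lit 9) L103174 (by decide +kernel)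
theorem L103176 : W_39 (nat_lit 2) (nat_lit 0x18000b0004800240012001f8000000000000000000000000000000) (nat_lit 0x0) (nat_lit 0x10000800040000000000000000000000000000000000000000000) := D_39 (nat_lit 191) (nat_lit 208) (nat_lit 174) (nat_lit 5) (nat_lit 5) (nat_lit 8) (nat_lit 5) (nat_lit 5) (nat_lit 7) (by decide +kernel)
theorem L103177 : W_39 (nat_lit 3) (nat_lit 0x18000a0004800240012001f8000000000000000000000000000000) (nat_lit 0x0) (nat_lit 0x50001800040000000000000000000000000000000000000000000) := T_39 (nat_lit 192) (nat_lit 210) (nat_lit 7) (nat_lit 5) (nat_lit 8) L103176 (by decide +kernel)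
theorem L103178 : W_39 (nat_lit 4) (nat_lit 0x18000a0004800240012001f0000000000000000000000000000000) (nat_lit 0x0) (nat_lit 0x50001800040000000000008000400000000000000000000000000) := T_39 (nat_lit 123) (nat_lit 106) (nat_lit 4) (nat_lit 5) (nat_lit 10) L103177 (by decide +kernel)
theorem L103179 : W_39 (nat_lit 5) (nat_lit 0x1800080004800240012001f0000000000000000000000000000000) (nat_lit 0x0) (nat_lit 0x50003800140000000000008000400000000000000000000000000) := T_39 (nat_lit 193) (nat_lit 176) (nat_lit 7) (nat_lit 5) (nat_lit 7) L103178 (by decide +kernel)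
theorem L103180 : W_39 (nat_lit 6) (nat_lit 0x1800080004800200012001f0000000000000000000000000000000) (nat_lit 0x0) (nat_lit 0x50003800140004000000008001400000000000000000000000000) := T_39 (nat_lit 158) (nat_lit 108) (nat_lit 6) (nat_lit 5) (nat_lit 10) L103179 (by decide +kernel)
theorem L103181 : W_39 (nat_lit 7) (nat_lit 0x1800080004800200012001d0000000000000000000000000000000) (nat_lit 0x0) (nat_lit 0x50003800140004000100028001400000000000000000000000000) := T_39 (nat_lit 125) (nat_lit 140) (nat_lit 1) (nat_lit 8) (nat_lit 7) L103180 (by decide +kernel)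
theorem L103182 : W_39 (nat_lit 8) (nat_lit 0x1000080004800200012001d0000000000000000000000000000000) (nat_lit 0x0) (nat_lit 0x10000d0003800140004000100028001400000000000000000000000000) := T_39 (nat_lit 211) (nat_lit 228) (nat_lit 5) (nat_lit 8) (nat_lit 9) L103181 (by decide +kernel)
theorem L103183 : W_39 (nat_lit 9) (nat_lit 0x1000080004800200012000d0000000000000000000000000000000) (nat_lit 0x0) (nat_lit 0x10000d0003800140004000100128009400000000000000000000000000) := T_39 (nat_lit 128) (nat_lit 111) (nat_lit 6) (nat_lit 8) (nat_lit 10) L103182 (by decide +kernel)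
theorem L103184 : W_39 (nat_lit 2) (nat_lit 0x30001000080006800200012001d0000000000000000000000000000000) (nat_lit 0x0) (nat_lit 0x10000100040000000000000000000000000000000000000000) := D_39 (nat_lit 176) (nat_lit 162) (nat_lit 196) (nat_lit 2) (nat_lit 5) (nat_lit 10) (nat_lit 3) (nat_lit 5) (nat_lit 10) (by decide +kernel)
theorem L103185 : W_39 (nat_lit 3) (nat_lit 0x30001000080004800200012001d0000000000000000000000000000000) (nat_lit 0x0) (nat_lit 0x10000300050000000000000000000000000000000000000000) := T_39 (nat_lit 177) (nat_lit 160) (nat_lit 4) (nat_lit 8) (nat_lit 13) L103184 (by decide +kernel)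
theorem L103186 : W_39 (nat_lit 4) (nat_lit 0x10001000080004800200012001d0000000000000000000000000000000) (nat_lit 0x0) (nat_lit 0x20002000000010000300050000000000000000000000000000000000000000) := T_39 (nat_lit 229) (nat_lit 245) (nat_lit 5) (nat_lit 8) (nat_lit 10) L103185 (by decide +kernel)
theorem L103187 : W_39 (nat_lit 5) (nat_lit 0x1000080004800200012001d0000000000000000000000000000000) (nat_lit 0x0) (nat_lit 0x20003000080010000300050000000000000000000000000000000000000000) := T_39 (nat_lit 228) (nat_lit 211) (nat_lit 5) (nat_lit 8) (nat_lit 9) L103186 (by decide +kernel)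
theorem L103188 : W_39 (nat_lit 6) (nat_lit 0x1000080004800200012000d0000000000000000000000000000000) (nat_lit 0x0) (nat_lit 0x20003000080010000300050000000100008000000000000000000000000000) := T_39 (nat_lit 128) (nat_lit 111) (nat_lit 6) (nat_lit 8) (nat_lit 10) L103187 (by decide +kernel)
theorem L103189 : W_39 (nat_lit 10) (nat_lit 0x1000080004000200012000d0000000000000000000000000000000) (nat_lit 0x0) (nat_lit 0xa00070000d00138003c005e000100128009400000000000000000000000000) := Q_39 (nat_lit 175) (C_39 L103160 (C_39 L103143 (C_39 L103168 (C_39 L103175 (C_39 L103183 (C_39 L103188 N_39)))))) (by decide +kernel)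
theorem L103190 : W_39 (nat_lit 12) (nat_lit 0x80004000200012000d0000000000000000000000000000000) (nat_lit 0x0) (nat_lit 0xa00070003f00738003c005e000100128009400000000000000000000000000) := Q_39 (nat_lit 212) (C_39 L103155 (C_39 L102691 (C_39 L102668 (C_39 L103189 N_39)))) (by decide +kernel)
theorem L103191 : W_39 (nat_lit 2) (nat_lit 0x30001000080006800200012001f0001000000000000000000000000000) (nat_lit 0x0) (nat_lit 0x10000100040000000000000000000000000000000000000000) := D_39 (nat_lit 176) (nat_lit 162) (nat_lit 196) (nat_lit 2) (nat_lit 5) (nat_lit 10) (nat_lit 3) (nat_lit 5) (nat_lit 10) (by decide +kernel)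
theorem L103192 : W_39 (nat_lit 3) (nat_lit 0x30001000080006000200012001f0001000000000000000000000000000) (nat_lit 0x0) (nat_lit 0x10000180044000000000000000000000000000000000000000) := T_39 (nat_lit 175) (nat_lit 158) (nat_lit 6) (nat_lit 5) (nat_lit 10) L103191 (by decide +kernel)
theorem L103193 : W_39 (nat_lit 4) (nat_lit 0x30001000080004000200012001f0001000000000000000000000000000) (nat_lit 0x0) (nat_lit 0x10000380054000000000000000000000000000000000000000) := T_39 (nat_lit 177) (nat_lit 160) (nat_lit 4) (nat_lit 8) (nat_lit 13) L103192 (by decide +kernel)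
theorem L103194 : W_39 (nat_lit 5) (nat_lit 0x30001000080004000200012001f0000000000000000000000000000000) (nat_lit 0x0) (nat_lit 0x10000380054000000000001800000000000000000000000000) := T_39 (nat_lit 108) (nat_lit 107) (nat_lit 0) (nat_lit 9) (nat_lit 7) L103193 (by decide +kernel)
theorem L103195 : W_39 (nat_lit 6) (nat_lit 0x10001000080004000200012001f0000000000000000000000000000000) (nat_lit 0x0) (nat_lit 0x20002000000010000380054000000000001800000000000000000000000000) := T_39 (nat_lit 229) (nat_lit 245) (nat_lit 5) (nat_lit 8) (nat_lit 10) L103194 (by decide +kernel)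
theorem L103196 : W_39 (nat_lit 7) (nat_lit 0x10001000080004000200012001d0000000000000000000000000000000) (nat_lit 0x0) (nat_lit 0x20002000000010000380054000100020001800000000000000000000000000) := T_39 (nat_lit 125) (nat_lit 140) (nat_lit 1) (nat_lit 8) (nat_lit 7) L103195 (by decide +kernel)
theorem L103197 : W_39 (nat_lit 8) (nat_lit 0x1000080004000200012001d0000000000000000000000000000000) (nat_lit 0x0) (nat_lit 0x20003000080010000380054000100020001800000000000000000000000000) := T_39 (nat_lit 228) (nat_lit 211) (nat_lit 5) (nat_lit 8) (nat_lit 9) L103196 (by decide +kernel)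
theorem L103198 : W_39 (nat_lit 9) (nat_lit 0x1000080004000200012000d0000000000000000000000000000000) (nat_lit 0x0) (nat_lit 0x20003000080010000380054000100120009800000000000000000000000000) := T_39 (nat_lit 128) (nat_lit 111) (nat_lit 6) (nat_lit 8) (nat_lit 10) L103197 (by decide +kernel)
theorem L103199 : W_39 (nat_lit 10) (nat_lit 0x80004000200012000d0000000000000000000000000000000) (nat_lit 0x0) (nat_lit 0xa0007000380010000380054000100120009800000000000000000000000000) := Q_39 (nat_lit 212) (C_39 L103198 (C_39 L102691 (C_39 L102668 N_39))) (by decide +kernel)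
theorem L103200 : W_39 (nat_lit 14) (nat_lit 0x80004000200012000c0000000000000000000000000000000) (nat_lit 0x0) (nat_lit 0xa0007c00ff00738003e005e000100138009e000e0005000000000000000000) := Q_39 (nat_lit 124) (C_39 L103044 (C_39 L102692 (C_39 L103083 (C_39 L103094 (C_39 L103120 (C_39 L103190 (C_39 L103199 N_39))))))) (by decide +kernel)
theorem L103201 : W_39 (nat_lit 2) (nat_lit 0x580006800240012000f0000800000000000000000000000000) (nat_lit 0x0) (nat_lit 0x800040002000000000000000000000000000000000000000) := D_39 (nat_lit 174) (nat_lit 157) (nat_lit 191) (nat_lit 5) (nat_lit 5) (nat_lit 6) (nat_lit 5) (nat_lit 5) (nat_lit 7) (by decide +kernel)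
theorem L103202 : W_39 (nat_lit 3) (nat_lit 0x580006800200012000f0000800000000000000000000000000) (nat_lit 0x0) (nat_lit 0x800040006000000000001000000000000000000000000000) := T_39 (nat_lit 158) (nat_lit 108) (nat_lit 6) (nat_lit 5) (nat_lit 10) L103201 (by decide +kernel)
theorem L103203 : W_39 (nat_lit 4) (nat_lit 0x180006800200012000f0000800000000000000000000000000) (nat_lit 0x0) (nat_lit 0x60800040006000000000001000000000000000000000000000) := T_39 (nat_lit 198) (nat_lit 197) (nat_lit 0) (nat_lit 11) (nat_lit 11) L103202 (by decide +kernel)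
theorem L103204 : W_39 (nat_lit 5) (nat_lit 0x180006000200012000f0000800000000000000000000000000) (nat_lit 0x0) (nat_lit 0x608001c0006000000000001000000000000000000000000000) := T_39 (nat_lit 175) (nat_lit 176) (nat_lit 3) (nat_lit 5) (nat_lit 10) L103203 (by decide +kernel)
theorem L103205 : W_39 (nat_lit 6) (nat_lit 0x80006000200012000f0000800000000000000000000000000) (nat_lit 0x0) (nat_lit 0x2000708001c0006000000000001000000000000000000000000000) := T_39 (nat_lit 196) (nat_lit 213) (nat_lit 7) (nat_lit 8) (nat_lit 8) L103204 (by decide +kernel)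
theorem L103206 : W_39 (nat_lit 7) (nat_lit 0x80006000200012000f0000000000000000000000000000000) (nat_lit 0x0) (nat_lit 0x2000708001c0006000000000001c00000000000000000000000000) := T_39 (nat_lit 107) (nat_lit 106) (nat_lit 0) (nat_lit 8) (nat_lit 7) L103205 (by decide +kernel)
theorem L103207 : W_39 (nat_lit 8) (nat_lit 0x80004000200012000f0000000000000000000000000000000) (nat_lit 0x0) (nat_lit 0x2000748003c0006000000000001c00000000000000000000000000) := T_39 (nat_lit 177) (nat_lit 194) (nat_lit 5) (nat_lit 8) (nat_lit 7) L103206 (by decide +kernel)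
theorem L103208 : W_39 (nat_lit 9) (nat_lit 0x80004000200012000d0000000000000000000000000000000) (nat_lit 0x0) (nat_lit 0x2000748003c0006000100020001c00000000000000000000000000) := T_39 (nat_lit 125) (nat_lit 140) (nat_lit 1) (nat_lit 8) (nat_lit 7) L103207 (by decide +kernel)
theorem L103209 : W_39 (nat_lit 2) (nat_lit 0x3000080006000340012000d0000000000000000000000000000000) (nat_lit 0x0) (nat_lit 0xa000100000000000000000000000000000000000) := D_39 (nat_lit 159) (nat_lit 157) (nat_lit 140) (nat_lit 3) (nat_lit 4) (nat_lit 9) (nat_lit 0) (nat_lit 8) (nat_lit 9) (by decide +kernel)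
theorem L103210 : W_39 (nat_lit 3) (nat_lit 0x3000080006000240012000d0000000000000000000000000000000) (nat_lit 0x0) (nat_lit 0x200000000000000001a000100000000000000000000000000000000000) := T_39 (nat_lit 160) (nat_lit 229) (nat_lit 4) (nat_lit 8) (nat_lit 13) L103209 (by decide +kernel)
theorem L103211 : W_39 (nat_lit 4) (nat_lit 0x2000080006000240012000d0000000000000000000000000000000) (nat_lit 0x0) (nat_lit 0x600010000000000001a000100000000000000000000000000000000000) := T_39 (nat_lit 212) (nat_lit 230) (nat_lit 7) (nat_lit 8) (nat_lit 9) L103210 (by decide +kernel)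
theorem L103212 : W_39 (nat_lit 5) (nat_lit 0x2000080004000240012000d0000000000000000000000000000000) (nat_lit 0x0) (nat_lit 0x600010000400020001a000100000000000000000000000000000000000) := T_39 (nat_lit 177) (nat_lit 194) (nat_lit 5) (nat_lit 8) (nat_lit 7) L103211 (by decide +kernel)
theorem L103213 : W_39 (nat_lit 6) (nat_lit 0x80004000240012000d0000000000000000000000000000000) (nat_lit 0x0) (nat_lit 0x600030001400020001a000100000000000000000000000000000000000) := T_39 (nat_lit 213) (nat_lit 196) (nat_lit 7) (nat_lit 8) (nat_lit 8) L103212 (by decide +kernel)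
theorem L103214 : W_39 (nat_lit 2) (nat_lit 0x588006800240012001d8000000000000000000000000000000) (nat_lit 0x0) (nat_lit 0x10001000000000000100000000000000000000000000000000000) := D_39 (nat_lit 192) (nat_lit 140) (nat_lit 208) (nat_lit 4) (nat_lit 5) (nat_lit 11) (nat_lit 5) (nat_lit 5) (nat_lit 8) (by decide +kernel)
theorem L103215 : W_39 (nat_lit 3) (nat_lit 0x588006800240012001d0000000000000000000000000000000) (nat_lit 0x0) (nat_lit 0x10001000000000000100008000400000000000000000000000000) := T_39 (nat_lit 123) (nat_lit 106) (nat_lit 4) (nat_lit 5) (nat_lit 10) L103214 (by decide +kernel)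
theorem L103216 : W_39 (nat_lit 4) (nat_lit 0x580006800240012001d0000000000000000000000000000000) (nat_lit 0x0) (nat_lit 0x10001800040000000100008000400000000000000000000000000) := T_39 (nat_lit 191) (nat_lit 174) (nat_lit 5) (nat_lit 5) (nat_lit 7) L103215 (by decide +kernel)
theorem L103217 : W_39 (nat_lit 5) (nat_lit 0x180006800240012001d0000000000000000000000000000000) (nat_lit 0x0) (nat_lit 0x10061800040000000100008000400000000000000000000000000) := T_39 (nat_lit 198) (nat_lit 197) (nat_lit 0) (nat_lit 11) (nat_lit 11) L103216 (by decide +kernel)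
theorem L103218 : W_39 (nat_lit 6) (nat_lit 0x180006000240012001d0000000000000000000000000000000) (nat_lit 0x0) (nat_lit 0x100618001c0000000100008000400000000000000000000000000) := T_39 (nat_lit 175) (nat_lit 176) (nat_lit 3) (nat_lit 5) (nat_lit 10) L103217 (by decide +kernel)
theorem L103219 : W_39 (nat_lit 7) (nat_lit 0x180004000240012001d0000000000000000000000000000000) (nat_lit 0x0) (nat_lit 0x100658003c0000000100008000400000000000000000000000000) := T_39 (nat_lit 177) (nat_lit 194) (nat_lit 5) (nat_lit 8) (nat_lit 7) L103218 (by decide +kernel)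
theorem L103220 : W_39 (nat_lit 8) (nat_lit 0x80004000240012001d0000000000000000000000000000000) (nat_lit 0x0) (nat_lit 0x2100758003c0000000100008000400000000000000000000000000) := T_39 (nat_lit 196) (nat_lit 213) (nat_lit 7) (nat_lit 8) (nat_lit 8) L103219 (by decide +kernel)
theorem L103221 : W_39 (nat_lit 9) (nat_lit 0x80004000240012000d0000000000000000000000000000000) (nat_lit 0x0) (nat_lit 0x2100758003c0000000100108008400000000000000000000000000) := T_39 (nat_lit 128) (nat_lit 111) (nat_lit 6) (nat_lit 8) (nat_lit 10) L103220 (by decide +kernel)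
theorem L103222 : W_39 (nat_lit 10) (nat_lit 0x80004000200012000d0000000000000000000000000000000) (nat_lit 0x0) (nat_lit 0x60003500778003c005e000100108008c00020000000000000000000000) := Q_39 (nat_lit 158) (C_39 L103082 (C_39 L102760 (C_39 L103213 (C_39 L102715 (C_39 L103221 N_39))))) (by decide +kernel)
theorem L103223 : W_39 (nat_lit 2) (nat_lit 0x80006800200012001f0000000000000000000000000000000) (nat_lit 0x0) (nat_lit 0x10000100040000000000000000000000000000000000000000) := D_39 (nat_lit 176) (nat_lit 162) (nat_lit 196) (nat_lit 2) (nat_lit 5) (nat_lit 10) (nat_lit 3) (nat_lit 5) (nat_lit 10) (by decide +kernel)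
theorem L103224 : W_39 (nat_lit 3) (nat_lit 0x80004800200012001f0000000000000000000000000000000) (nat_lit 0x0) (nat_lit 0x14000300040000000000000000000000000000000000000000) := T_39 (nat_lit 177) (nat_lit 194) (nat_lit 5) (nat_lit 8) (nat_lit 7) L103223 (by decide +kernel)
theorem L103225 : W_39 (nat_lit 4) (nat_lit 0x80004800200012001d0000000000000000000000000000000) (nat_lit 0x0) (nat_lit 0x14000300040000100020000000000000000000000000000000) := T_39 (nat_lit 125) (nat_lit 140) (nat_lit 1) (nat_lit 8) (nat_lit 7) L103224 (by decide +kernel)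
theorem L103226 : W_39 (nat_lit 5) (nat_lit 0x80004800200012000d0000000000000000000000000000000) (nat_lit 0x0) (nat_lit 0x14000300040000100120008000000000000000000000000000) := T_39 (nat_lit 128) (nat_lit 111) (nat_lit 6) (nat_lit 8) (nat_lit 10) L103225 (by decide +kernel)
theorem L103227 : W_39 (nat_lit 2) (nat_lit 0x80006800200012000f0000000000000000000000000000000) (nat_lit 0x0) (nat_lit 0x10000100040000000000000000000000000000000000000000) := D_39 (nat_lit 176) (nat_lit 162) (nat_lit 196) (nat_lit 2) (nat_lit 5) (nat_lit 10) (nat_lit 3) (nat_lit 5) (nat_lit 10) (by decide +kernel)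
theorem L103228 : W_39 (nat_lit 3) (nat_lit 0x80004800200012000f0000000000000000000000000000000) (nat_lit 0x0) (nat_lit 0x14000300040000000000000000000000000000000000000000) := T_39 (nat_lit 177) (nat_lit 194) (nat_lit 5) (nat_lit 8) (nat_lit 7) L103227 (by decide +kernel)
theorem L103229 : W_39 (nat_lit 4) (nat_lit 0x80004800200012000d0000000000000000000000000000000) (nat_lit 0x0) (nat_lit 0x14000300040000100020000000000000000000000000000000) := T_39 (nat_lit 125) (nat_lit 140) (nat_lit 1) (nat_lit 8) (nat_lit 7) L103228 (by decide +kernel)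
theorem L103230 : W_39 (nat_lit 2) (nat_lit 0x2000080006c00340012001f8000000000000000000000000000000) (nat_lit 0x0) (nat_lit 0x6000100000000000000000000000000000000000000000000000000000) := D_39 (nat_lit 212) (nat_lit 229) (nat_lit 230) (nat_lit 4) (nat_lit 8) (nat_lit 13) (nat_lit 7) (nat_lit 8) (nat_lit 9) (by decide +kernel)
theorem L103231 : W_39 (nat_lit 3) (nat_lit 0x80006c00340012001f8000000000000000000000000000000) (nat_lit 0x0) (nat_lit 0x6000300010000000000000000000000000000000000000000000000000) := T_39 (nat_lit 213) (nat_lit 196) (nat_lit 7) (nat_lit 8) (nat_lit 8) L103230 (by decide +kernel)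
theorem L103232 : W_39 (nat_lit 4) (nat_lit 0x80004c00340012001f8000000000000000000000000000000) (nat_lit 0x0) (nat_lit 0x6000300014000200000000000000000000000000000000000000000000) := T_39 (nat_lit 177) (nat_lit 194) (nat_lit 5) (nat_lit 8) (nat_lit 7) L103231 (by decide +kernel)
theorem L103233 : W_39 (nat_lit 5) (nat_lit 0x80004c00240012001f8000000000000000000000000000000) (nat_lit 0x0) (nat_lit 0x6000300014000200018000000000000000000000000000000000000000) := T_39 (nat_lit 160) (nat_lit 159) (nat_lit 1) (nat_lit 8) (nat_lit 9) L103232 (by decide +kernel)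
theorem L103234 : W_39 (nat_lit 6) (nat_lit 0x80004800240012001f8000000000000000000000000000000) (nat_lit 0x0) (nat_lit 0x6000300014800240018000000000000000000000000000000000000000) := T_39 (nat_lit 174) (nat_lit 191) (nat_lit 5) (nat_lit 5) (nat_lit 7) L103233 (by decide +kernel)
theorem L103235 : W_39 (nat_lit 7) (nat_lit 0x80004800240012001f0000000000000000000000000000000) (nat_lit 0x0) (nat_lit 0x6000300014800240018000000008000400000000000000000000000000) := T_39 (nat_lit 123) (nat_lit 106) (nat_lit 4) (nat_lit 5) (nat_lit 10) L103234 (by decide +kernel)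
theorem L103236 : W_39 (nat_lit 8) (nat_lit 0x80004800200012001f0000000000000000000000000000000) (nat_lit 0x0) (nat_lit 0x600030001480024001c000000008001400000000000000000000000000) := T_39 (nat_lit 158) (nat_lit 108) (nat_lit 6) (nat_lit 5) (nat_lit 10) L103235 (by decide +kernel)
theorem L103237 : W_39 (nat_lit 9) (nat_lit 0x80004800200012000f0000000000000000000000000000000) (nat_lit 0x0) (nat_lit 0x600030001480024001c000000108009400000000000000000000000000) := T_39 (nat_lit 128) (nat_lit 111) (nat_lit 6) (nat_lit 8) (nat_lit 10) L103236 (by decide +kernel)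
theorem L103238 : W_39 (nat_lit 10) (nat_lit 0x80004800200012000d0000000000000000000000000000000) (nat_lit 0x0) (nat_lit 0x600030001480024001c000100128009400000000000000000000000000) := T_39 (nat_lit 125) (nat_lit 140) (nat_lit 1) (nat_lit 8) (nat_lit 7) L103237 (by decide +kernel)
theorem L103239 : W_39 (nat_lit 2) (nat_lit 0x180005800200012001f0000000000000000000000000000000) (nat_lit 0x0) (nat_lit 0x2000000004000000000001000000000000000000000000000) := D_39 (nat_lit 158) (nat_lit 108) (nat_lit 193) (nat_lit 6) (nat_lit 5) (nat_lit 10) (nat_lit 7) (nat_lit 5) (nat_lit 7) (by decide +kernel)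
theorem L103240 : W_39 (nat_lit 3) (nat_lit 0x180004800200012001f0000000000000000000000000000000) (nat_lit 0x0) (nat_lit 0x2000300004000000000001000000000000000000000000000) := T_39 (nat_lit 176) (nat_lit 177) (nat_lit 3) (nat_lit 5) (nat_lit 10) L103239 (by decide +kernel)
theorem L103241 : W_39 (nat_lit 4) (nat_lit 0x80004800200012001f0000000000000000000000000000000) (nat_lit 0x0) (nat_lit 0x200012000300004000000000001000000000000000000000000000) := T_39 (nat_lit 196) (nat_lit 213) (nat_lit 7) (nat_lit 8) (nat_lit 8) L103240 (by decide +kernel)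
theorem L103242 : W_39 (nat_lit 5) (nat_lit 0x80004800200012001d0000000000000000000000000000000) (nat_lit 0x0) (nat_lit 0x200012000300004000100020001000000000000000000000000000) := T_39 (nat_lit 125) (nat_lit 140) (nat_lit 1) (nat_lit 8) (nat_lit 7) L103241 (by decide +kernel)
theorem L103243 : W_39 (nat_lit 6) (nat_lit 0x80004800200012000d0000000000000000000000000000000) (nat_lit 0x0) (nat_lit 0x200012000300004000100120009000000000000000000000000000) := T_39 (nat_lit 128) (nat_lit 111) (nat_lit 6) (nat_lit 8) (nat_lit 10) L103242 (by decide +kernel)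
theorem L103244 : W_39 (nat_lit 2) (nat_lit 0x1b0004800240012001f0000000000000000000000000000000) (nat_lit 0x0) (nat_lit 0x10000800040000000000000000000000000000000000000000000) := D_39 (nat_lit 191) (nat_lit 208) (nat_lit 174) (nat_lit 5) (nat_lit 5) (nat_lit 8) (nat_lit 5) (nat_lit 5) (nat_lit 7) (by decide +kernel)
theorem L103245 : W_39 (nat_lit 3) (nat_lit 0x1a0004800240012001f0000000000000000000000000000000) (nat_lit 0x0) (nat_lit 0x50001800040000000000000000000000000000000000000000000) := T_39 (nat_lit 192) (nat_lit 210) (nat_lit 7) (nat_lit 5) (nat_lit 8) L103244 (by decide +kernel)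
theorem L103246 : W_39 (nat_lit 4) (nat_lit 0xa0004800240012001f0000000000000000000000000000000) (nat_lit 0x0) (nat_lit 0x250011800040000000000000000000000000000000000000000000) := T_39 (nat_lit 196) (nat_lit 213) (nat_lit 7) (nat_lit 8) (nat_lit 8) L103245 (by decide +kernel)
theorem L103247 : W_39 (nat_lit 5) (nat_lit 0x80004800240012001f0000000000000000000000000000000) (nat_lit 0x0) (nat_lit 0x250013800140000000000000000000000000000000000000000000) := T_39 (nat_lit 193) (nat_lit 176) (nat_lit 7) (nat_lit 5) (nat_lit 7) L103246 (by decide +kernel)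
theorem L103248 : W_39 (nat_lit 6) (nat_lit 0x80004800200012001f0000000000000000000000000000000) (nat_lit 0x0) (nat_lit 0x250013800140004000000000001000000000000000000000000000) := T_39 (nat_lit 158) (nat_lit 108) (nat_lit 6) (nat_lit 5) (nat_lit 10) L103247 (by decide +kernel)
theorem L103249 : W_39 (nat_lit 7) (nat_lit 0x80004800200012000f0000000000000000000000000000000) (nat_lit 0x0) (nat_lit 0x250013800140004000000100009000000000000000000000000000) := T_39 (nat_lit 128) (nat_lit 111) (nat_lit 6) (nat_lit 8) (nat_lit 10) L103248 (by decide +kernel)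
theorem L103250 : W_39 (nat_lit 8) (nat_lit 0x80004800200012000d0000000000000000000000000000000) (nat_lit 0x0) (nat_lit 0x250013800140004000100120009000000000000000000000000000) := T_39 (nat_lit 125) (nat_lit 140) (nat_lit 1) (nat_lit 8) (nat_lit 7) L103249 (by decide +kernel)
theorem L103251 : W_39 (nat_lit 2) (nat_lit 0x80007800200012000d0000000000000000000000000000000) (nat_lit 0x0) (nat_lit 0x2000000006000000000000000000000000000000000000000) := D_39 (nat_lit 158) (nat_lit 157) (nat_lit 193) (nat_lit 0) (nat_lit 8) (nat_lit 10) (nat_lit 7) (nat_lit 5) (nat_lit 7) (by decide +kernel)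
theorem L103252 : W_39 (nat_lit 3) (nat_lit 0x80006800200012000d0000000000000000000000000000000) (nat_lit 0x0) (nat_lit 0x2000100046000000000000000000000000000000000000000) := T_39 (nat_lit 176) (nat_lit 162) (nat_lit 2) (nat_lit 5) (nat_lit 10) L103251 (by decide +kernel)
theorem L103253 : W_39 (nat_lit 4) (nat_lit 0x80004800200012000d0000000000000000000000000000000) (nat_lit 0x0) (nat_lit 0x6000300046000000000000000000000000000000000000000) := T_39 (nat_lit 177) (nat_lit 194) (nat_lit 5) (nat_lit 8) (nat_lit 7) L103252 (by decide +kernel)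
theorem L103254 : W_39 (nat_lit 11) (nat_lit 0x80004000200012000d0000000000000000000000000000000) (nat_lit 0x0) (nat_lit 0x60003500178003c005e000100128009400000000000000000000000000) := Q_39 (nat_lit 175) (C_39 L103226 (C_39 L103229 (C_39 L103238 (C_39 L103243 (C_39 L103250 (C_39 L103253 N_39)))))) (by decide +kernel)
theorem L103255 : W_39 (nat_lit 2) (nat_lit 0x580006800200012001f0000000000000000000000000000000) (nat_lit 0x0) (nat_lit 0x4000000000001800000000000000000000000000) := D_39 (nat_lit 108) (nat_lit 107) (nat_lit 158) (nat_lit 0) (nat_lit 9) (nat_lit 7) (nat_lit 6) (nat_lit 5) (nat_lit 10) (by decide +kernel)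
theorem L103256 : W_39 (nat_lit 3) (nat_lit 0x580006800200012001d0000000000000000000000000000000) (nat_lit 0x0) (nat_lit 0x4000100020001800000000000000000000000000) := T_39 (nat_lit 125) (nat_lit 140) (nat_lit 1) (nat_lit 8) (nat_lit 7) L103255 (by decide +kernel)
theorem L103257 : W_39 (nat_lit 4) (nat_lit 0x180006800200012001d0000000000000000000000000000000) (nat_lit 0x0) (nat_lit 0x60000000004000100020001800000000000000000000000000) := T_39 (nat_lit 198) (nat_lit 197) (nat_lit 0) (nat_lit 11) (nat_lit 11) L103256 (by decide +kernel)
theorem L103258 : W_39 (nat_lit 5) (nat_lit 0x180006000200012001d0000000000000000000000000000000) (nat_lit 0x0) (nat_lit 0x60000180004000100020001800000000000000000000000000) := T_39 (nat_lit 175) (nat_lit 176) (nat_lit 3) (nat_lit 5) (nat_lit 10) L103257 (by decide +kernel)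
theorem L103259 : W_39 (nat_lit 6) (nat_lit 0x180004000200012001d0000000000000000000000000000000) (nat_lit 0x0) (nat_lit 0x64000380004000100020001800000000000000000000000000) := T_39 (nat_lit 177) (nat_lit 194) (nat_lit 5) (nat_lit 8) (nat_lit 7) L103258 (by decide +kernel)
theorem L103260 : W_39 (nat_lit 7) (nat_lit 0x80004000200012001d0000000000000000000000000000000) (nat_lit 0x0) (nat_lit 0x200074000380004000100020001800000000000000000000000000) := T_39 (nat_lit 196) (nat_lit 213) (nat_lit 7) (nat_lit 8) (nat_lit 8) L103259 (by decide +kernel)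
theorem L103261 : W_39 (nat_lit 8) (nat_lit 0x80004000200012000d0000000000000000000000000000000) (nat_lit 0x0) (nat_lit 0x200074000380004000100120009800000000000000000000000000) := T_39 (nat_lit 128) (nat_lit 111) (nat_lit 6) (nat_lit 8) (nat_lit 10) L103260 (by decide +kernel)
theorem L103262 : W_39 (nat_lit 12) (nat_lit 0x80004000200012000c0000000000000000000000000000000) (nat_lit 0x0) (nat_lit 0x60003500778003c005e000100138009c000e0005000000000000000000) := Q_39 (nat_lit 124) (C_39 L103044 (C_39 L103120 (C_39 L103208 (C_39 L103222 (C_39 L103254 (C_39 L103261 N_39)))))) (by decide +kernel)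
theorem L103263 : W_39 (nat_lit 15) (nat_lit 0x4000200012000c0000000000000000000000000000000) (nat_lit 0x0) (nat_lit 0xa0007c00ff007f8003e005e000100138009e000e0005000000000000000000) := Q_39 (nat_lit 195) (C_39 L103036 (C_39 L102586 (C_39 L103200 (C_39 L103262 N_39)))) (by decide +kernel)
theorem L103264 : W_39 (nat_lit 2) (nat_lit 0x3400b000080004000380016001c0000000000000000000000000000000) (nat_lit 0x0) (nat_lit 0x4000180000000000000000000000000000000000) := D_39 (nat_lit 140) (nat_lit 158) (nat_lit 139) (nat_lit 0) (nat_lit 8) (nat_lit 9) (nat_lit 3) (nat_lit 3) (nat_lit 8) (by decide +kernel)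
theorem L103265 : W_39 (nat_lit 3) (nat_lit 0x3400b000080004000300016001c0000000000000000000000000000000) (nat_lit 0x0) (nat_lit 0x4c000180000000000000000000000000000000000) := T_39 (nat_lit 159) (nat_lit 162) (nat_lit 0) (nat_lit 9) (nat_lit 9) L103264 (by decide +kernel)
theorem L103266 : W_39 (nat_lit 4) (nat_lit 0x34003000080004000300016001c0000000000000000000000000000000) (nat_lit 0x0) (nat_lit 0xc0000000000004c000180000000000000000000000000000000000) := T_39 (nat_lit 215) (nat_lit 214) (nat_lit 1) (nat_lit 11) (nat_lit 12) L103265 (by decide +kernel)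
theorem L103267 : W_39 (nat_lit 5) (nat_lit 0x34003000080004000200016001c0000000000000000000000000000000) (nat_lit 0x0) (nat_lit 0xc0000000020005c000180000000000000000000000000000000000) := T_39 (nat_lit 160) (nat_lit 177) (nat_lit 4) (nat_lit 8) (nat_lit 13) L103266 (by decide +kernel)
theorem L103268 : W_39 (nat_lit 6) (nat_lit 0x30003000080004000200016001c0000000000000000000000000000000) (nat_lit 0x0) (nat_lit 0xc00c0000000020005c000180000000000000000000000000000000000) := T_39 (nat_lit 226) (nat_lit 227) (nat_lit 2) (nat_lit 5) (nat_lit 13) L103267 (by decide +kernel)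
theorem L103269 : W_39 (nat_lit 7) (nat_lit 0x10003000080004000200016001c0000000000000000000000000000000) (nat_lit 0x0) (nat_lit 0x20002c00c0000000020005c000180000000000000000000000000000000000) := T_39 (nat_lit 229) (nat_lit 245) (nat_lit 5) (nat_lit 8) (nat_lit 10) L103268 (by decide +kernel)
theorem L103270 : W_39 (nat_lit 8) (nat_lit 0x3000080004000200016001c0000000000000000000000000000000) (nat_lit 0x0) (nat_lit 0x20003c00c8000000020005c000180000000000000000000000000000000000) := T_39 (nat_lit 228) (nat_lit 211) (nat_lit 5) (nat_lit 8) (nat_lit 9) L103269 (by decide +kernel)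
theorem L103271 : W_39 (nat_lit 9) (nat_lit 0x2000080004000200016001c0000000000000000000000000000000) (nat_lit 0x0) (nat_lit 0x20007c00d8000000020005c000180000000000000000000000000000000000) := T_39 (nat_lit 212) (nat_lit 230) (nat_lit 7) (nat_lit 8) (nat_lit 9) L103270 (by decide +kernel)
theorem L103272 : W_39 (nat_lit 10) (nat_lit 0x80004000200016001c0000000000000000000000000000000) (nat_lit 0x0) (nat_lit 0x20007c00f8001000020005c000180000000000000000000000000000000000) := T_39 (nat_lit 213) (nat_lit 196) (nat_lit 7) (nat_lit 8) (nat_lit 8) L103271 (by decide +kernel)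
theorem L103273 : W_39 (nat_lit 11) (nat_lit 0x80004000200012001c0000000000000000000000000000000) (nat_lit 0x0) (nat_lit 0x20007c00f8001000020005c000580020000000000000000000000000000000) := T_39 (nat_lit 142) (nat_lit 125) (nat_lit 1) (nat_lit 9) (nat_lit 7) L103272 (by decide +kernel)
theorem L103274 : W_39 (nat_lit 12) (nat_lit 0x80004000200012000c0000000000000000000000000000000) (nat_lit 0x0) (nat_lit 0x20007c00f8001000020005c000580120008000000000000000000000000000) := T_39 (nat_lit 128) (nat_lit 111) (nat_lit 6) (nat_lit 8) (nat_lit 10) L103273 (by decide +kernel)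
theorem L103275 : W_39 (nat_lit 2) (nat_lit 0x3000080006000700016001c0000000000000000000000000000000) (nat_lit 0x0) (nat_lit 0x100180000000000000000000000000000000000000000) := D_39 (nat_lit 163) (nat_lit 164) (nat_lit 176) (nat_lit 1) (nat_lit 11) (nat_lit 9) (nat_lit 1) (nat_lit 10) (nat_lit 9) (by decide +kernel)
theorem L103276 : W_39 (nat_lit 3) (nat_lit 0x3000080006000300016001c0000000000000000000000000000000) (nat_lit 0x0) (nat_lit 0x1001c8000000000000000000000000000000000000000) := T_39 (nat_lit 162) (nat_lit 159) (nat_lit 0) (nat_lit 9) (nat_lit 9) L103275 (by decide +kernel)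
theorem L103277 : W_39 (nat_lit 4) (nat_lit 0x3000080006000300012001c0000000000000000000000000000000) (nat_lit 0x0) (nat_lit 0x1001c8000400020000000000000000000000000000000) := T_39 (nat_lit 142) (nat_lit 125) (nat_lit 1) (nat_lit 9) (nat_lit 7) L103276 (by decide +kernel)
theorem L103278 : W_39 (nat_lit 5) (nat_lit 0x3000080006000300012000c0000000000000000000000000000000) (nat_lit 0x0) (nat_lit 0x1001c8000400120008000000000000000000000000000) := T_39 (nat_lit 128) (nat_lit 111) (nat_lit 6) (nat_lit 8) (nat_lit 10) L103277 (by decide +kernel)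
theorem L103279 : W_39 (nat_lit 6) (nat_lit 0x3000080006000200012000c0000000000000000000000000000000) (nat_lit 0x0) (nat_lit 0x20000000000001001d8000400120008000000000000000000000000000) := T_39 (nat_lit 160) (nat_lit 229) (nat_lit 4) (nat_lit 8) (nat_lit 13) L103278 (by decide +kernel)
theorem L103280 : W_39 (nat_lit 7) (nat_lit 0x2000080006000200012000c0000000000000000000000000000000) (nat_lit 0x0) (nat_lit 0x60001000000001001d8000400120008000000000000000000000000000) := T_39 (nat_lit 212) (nat_lit 230) (nat_lit 7) (nat_lit 8) (nat_lit 9) L103279 (by decide +kernel)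
theorem L103281 : W_39 (nat_lit 8) (nat_lit 0x2000080004000200012000c0000000000000000000000000000000) (nat_lit 0x0) (nat_lit 0x60001000040003001d8000400120008000000000000000000000000000) := T_39 (nat_lit 177) (nat_lit 194) (nat_lit 5) (nat_lit 8) (nat_lit 7) L103280 (by decide +kernel)
theorem L103282 : W_39 (nat_lit 9) (nat_lit 0x80004000200012000c0000000000000000000000000000000) (nat_lit 0x0) (nat_lit 0x60003000140003001d8000400120008000000000000000000000000000) := T_39 (nat_lit 213) (nat_lit 196) (nat_lit 7) (nat_lit 8) (nat_lit 8) L103281 (by decide +kernel)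
theorem L103283 : W_39 (nat_lit 13) (nat_lit 0x4000200012000c0000000000000000000000000000000) (nat_lit 0x0) (nat_lit 0x20007c00f8001c0003001dc000580120008000000000000000000000000000) := Q_39 (nat_lit 195) (C_39 L103036 (C_39 L102586 (C_39 L103274 (C_39 L103282 N_39)))) (by decide +kernel)
theorem L103284 : W_39 (nat_lit 2) (nat_lit 0x80004800200012000c0000000000000000000000000000000) (nat_lit 0x0) (nat_lit 0x80004000200000000000000000000000000000000000000000000) := D_39 (nat_lit 194) (nat_lit 177) (nat_lit 211) (nat_lit 5) (nat_lit 8) (nat_lit 7) (nat_lit 5) (nat_lit 8) (nat_lit 8) (by decide +kernel)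
theorem L103285 : W_39 (nat_lit 2) (nat_lit 0x200090004800240013001c0000000000000000000000000000000) (nat_lit 0x0) (nat_lit 0x200010000800000000000000000000000000000000000000000000000) := D_39 (nat_lit 208) (nat_lit 225) (nat_lit 191) (nat_lit 5) (nat_lit 5) (nat_lit 9) (nat_lit 5) (nat_lit 5) (nat_lit 8) (by decide +kernel)
theorem L103286 : W_39 (nat_lit 3) (nat_lit 0x90004800240013001c0000000000000000000000000000000) (nat_lit 0x0) (nat_lit 0x200030000800000002000000000000000000000000000000000000000) := T_39 (nat_lit 209) (nat_lit 157) (nat_lit 4) (nat_lit 5) (nat_lit 12) L103285 (by decide +kernel)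
theorem L103287 : W_39 (nat_lit 4) (nat_lit 0x90004800240012001c0000000000000000000000000000000) (nat_lit 0x0) (nat_lit 0x200030000800000002000100008000000000000000000000000000000) := T_39 (nat_lit 140) (nat_lit 123) (nat_lit 4) (nat_lit 5) (nat_lit 11) L103286 (by decide +kernel)
theorem L103288 : W_39 (nat_lit 5) (nat_lit 0x90004800240012000c0000000000000000000000000000000) (nat_lit 0x0) (nat_lit 0x200030000800000002000100108008000000000000000000000000000) := T_39 (nat_lit 128) (nat_lit 111) (nat_lit 6) (nat_lit 8) (nat_lit 10) L103287 (by decide +kernel)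
theorem L103289 : W_39 (nat_lit 2) (nat_lit 0x198004800240012000d0000000000000000000000000000000) (nat_lit 0x0) (nat_lit 0x100008000400000000000000000000000000) := D_39 (nat_lit 123) (nat_lit 140) (nat_lit 106) (nat_lit 4) (nat_lit 5) (nat_lit 11) (nat_lit 4) (nat_lit 5) (nat_lit 10) (by decide +kernel)
theorem L103290 : W_39 (nat_lit 3) (nat_lit 0x198004800240012000c0000000000000000000000000000000) (nat_lit 0x0) (nat_lit 0x40000000100018000400000000000000000000000000) := T_39 (nat_lit 124) (nat_lit 174) (nat_lit 5) (nat_lit 5) (nat_lit 7) L103289 (by decide +kernel)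
theorem L103291 : W_39 (nat_lit 4) (nat_lit 0x98004800240012000c0000000000000000000000000000000) (nat_lit 0x0) (nat_lit 0x200010000040000000100018000400000000000000000000000000) := T_39 (nat_lit 196) (nat_lit 213) (nat_lit 7) (nat_lit 8) (nat_lit 8) L103290 (by decide +kernel)
theorem L103292 : W_39 (nat_lit 5) (nat_lit 0x90004800240012000c0000000000000000000000000000000) (nat_lit 0x0) (nat_lit 0x210010800040000000100018000400000000000000000000000000) := T_39 (nat_lit 191) (nat_lit 208) (nat_lit 5) (nat_lit 5) (nat_lit 8) L103291 (by decide +kernel)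
theorem L103293 : W_39 (nat_lit 2) (nat_lit 0x200090004800240013000c0000000000000000000000000000000) (nat_lit 0x0) (nat_lit 0x18000400000000000000000000000000000000000) := D_39 (nat_lit 159) (nat_lit 160) (nat_lit 142) (nat_lit 0) (nat_lit 8) (nat_lit 9) (nat_lit 6) (nat_lit 5) (nat_lit 12) (by decide +kernel)
theorem L103294 : W_39 (nat_lit 3) (nat_lit 0x90004800240013000c0000000000000000000000000000000) (nat_lit 0x0) (nat_lit 0x2000000000001a000400000000000000000000000000000000000) := T_39 (nat_lit 209) (nat_lit 157) (nat_lit 4) (nat_lit 5) (nat_lit 12) L103293 (by decide +kernel)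
theorem L103295 : W_39 (nat_lit 4) (nat_lit 0x90004800240012000c0000000000000000000000000000000) (nat_lit 0x0) (nat_lit 0x2000000000001a000500008000000000000000000000000000000) := T_39 (nat_lit 140) (nat_lit 123) (nat_lit 4) (nat_lit 5) (nat_lit 11) L103294 (by decide +kernel)
theorem L103296 : W_39 (nat_lit 2) (nat_lit 0x2001b8004d002c0012001c0000000000000000000000000000000) (nat_lit 0x0) (nat_lit 0x8000400000000000000002000000000000000000000000000000000000000) := D_39 (nat_lit 226) (nat_lit 157) (nat_lit 243) (nat_lit 4) (nat_lit 5) (nat_lit 13) (nat_lit 4) (nat_lit 5) (nat_lit 14) (by decide +kernel)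
theorem L103297 : W_39 (nat_lit 3) (nat_lit 0x1b8004d002c0012001c0000000000000000000000000000000) (nat_lit 0x0) (nat_lit 0x8000400020000000000002000400000000000000000000000000000000000) := T_39 (nat_lit 209) (nat_lit 142) (nat_lit 6) (nat_lit 5) (nat_lit 12) L103296 (by decide +kernel)
theorem L103298 : W_39 (nat_lit 4) (nat_lit 0x1b8004d00240012001c0000000000000000000000000000000) (nat_lit 0x0) (nat_lit 0x800040002000000000001a000400000000000000000000000000000000000) := T_39 (nat_lit 159) (nat_lit 160) (nat_lit 1) (nat_lit 8) (nat_lit 9) L103297 (by decide +kernel)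
theorem L103299 : W_39 (nat_lit 5) (nat_lit 0x1b8004c00240012001c0000000000000000000000000000000) (nat_lit 0x0) (nat_lit 0x800040002000000003001a000400000000000000000000000000000000000) := T_39 (nat_lit 172) (nat_lit 173) (nat_lit 3) (nat_lit 2) (nat_lit 10) L103298 (by decide +kernel)
theorem L103300 : W_39 (nat_lit 6) (nat_lit 0x198004c00240012001c0000000000000000000000000000000) (nat_lit 0x0) (nat_lit 0x800040006000200003001a000400000000000000000000000000000000000) := T_39 (nat_lit 193) (nat_lit 210) (nat_lit 7) (nat_lit 5) (nat_lit 8) L103299 (by decide +kernel)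
theorem L103301 : W_39 (nat_lit 7) (nat_lit 0x198004800240012001c0000000000000000000000000000000) (nat_lit 0x0) (nat_lit 0x800040006000200007001a000400010000000000000000000000000000000) := T_39 (nat_lit 174) (nat_lit 124) (nat_lit 5) (nat_lit 5) (nat_lit 7) L103300 (by decide +kernel)
theorem L103302 : W_39 (nat_lit 8) (nat_lit 0x198004800240012000c0000000000000000000000000000000) (nat_lit 0x0) (nat_lit 0x800040006000200007001a000400110008000000000000000000000000000) := T_39 (nat_lit 128) (nat_lit 111) (nat_lit 6) (nat_lit 8) (nat_lit 10) L103301 (by decide +kernel)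
theorem L103303 : W_39 (nat_lit 9) (nat_lit 0x190004800240012000c0000000000000000000000000000000) (nat_lit 0x0) (nat_lit 0x800040007000280007001a000400110008000000000000000000000000000) := T_39 (nat_lit 191) (nat_lit 208) (nat_lit 5) (nat_lit 5) (nat_lit 8) L103302 (by decide +kernel)
theorem L103304 : W_39 (nat_lit 10) (nat_lit 0x90004800240012000c0000000000000000000000000000000) (nat_lit 0x0) (nat_lit 0x800040027001280007001a000400110008000000000000000000000000000) := T_39 (nat_lit 196) (nat_lit 213) (nat_lit 7) (nat_lit 8) (nat_lit 8) L103303 (by decide +kernel)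
theorem L103305 : W_39 (nat_lit 11) (nat_lit 0x80004800240012000c0000000000000000000000000000000) (nat_lit 0x0) (nat_lit 0x800060027001380007001a000500118008400000000000000000000000000) := Q_39 (nat_lit 192) (C_39 L103288 (C_39 L103292 (C_39 L103295 (C_39 L103304 N_39)))) (by decide +kernel)
theorem L103306 : W_39 (nat_lit 2) (nat_lit 0x34003000080004800340012001c0000000000000000000000000000000) (nat_lit 0x0) (nat_lit 0x40008000100000000000000000000000000000000000) := D_39 (nat_lit 159) (nat_lit 140) (nat_lit 174) (nat_lit 0) (nat_lit 8) (nat_lit 9) (nat_lit 1) (nat_lit 8) (nat_lit 9) (by decide +kernel)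
theorem L103307 : W_39 (nat_lit 3) (nat_lit 0x34003000080004800240012001c0000000000000000000000000000000) (nat_lit 0x0) (nat_lit 0x240018000100000000000000000000000000000000000) := T_39 (nat_lit 160) (nat_lit 177) (nat_lit 4) (nat_lit 8) (nat_lit 13) L103306 (by decide +kernel)
theorem L103308 : W_39 (nat_lit 4) (nat_lit 0x30003000080004800240012001c0000000000000000000000000000000) (nat_lit 0x0) (nat_lit 0xc00000000000240018000100000000000000000000000000000000000) := T_39 (nat_lit 226) (nat_lit 227) (nat_lit 2) (nat_lit 5) (nat_lit 13) L103307 (by decide +kernel)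
theorem L103309 : W_39 (nat_lit 5) (nat_lit 0x10003000080004800240012001c0000000000000000000000000000000) (nat_lit 0x0) (nat_lit 0x20002c00000000000240018000100000000000000000000000000000000000) := T_39 (nat_lit 229) (nat_lit 245) (nat_lit 5) (nat_lit 8) (nat_lit 10) L103308 (by decide +kernel)
theorem L103310 : W_39 (nat_lit 6) (nat_lit 0x3000080004800240012001c0000000000000000000000000000000) (nat_lit 0x0) (nat_lit 0x20003c00080000000240018000100000000000000000000000000000000000) := T_39 (nat_lit 228) (nat_lit 211) (nat_lit 5) (nat_lit 8) (nat_lit 9) L103309 (by decide +kernel)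
theorem L103311 : W_39 (nat_lit 7) (nat_lit 0x2000080004800240012001c0000000000000000000000000000000) (nat_lit 0x0) (nat_lit 0x20007c00180000000240018000100000000000000000000000000000000000) := T_39 (nat_lit 212) (nat_lit 230) (nat_lit 7) (nat_lit 8) (nat_lit 9) L103310 (by decide +kernel)
theorem L103312 : W_39 (nat_lit 8) (nat_lit 0x80004800240012001c0000000000000000000000000000000) (nat_lit 0x0) (nat_lit 0x20007c00380010000240018000100000000000000000000000000000000000) := T_39 (nat_lit 213) (nat_lit 196) (nat_lit 7) (nat_lit 8) (nat_lit 8) L103311 (by decide +kernel)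
theorem L103313 : W_39 (nat_lit 9) (nat_lit 0x80004800240012000c0000000000000000000000000000000) (nat_lit 0x0) (nat_lit 0x20007c00380010000240018000100100008000000000000000000000000000) := T_39 (nat_lit 128) (nat_lit 111) (nat_lit 6) (nat_lit 8) (nat_lit 10) L103312 (by decide +kernel)
theorem L103314 : W_39 (nat_lit 2) (nat_lit 0x34003000080004800340012000c0000000000000000000000000000000) (nat_lit 0x0) (nat_lit 0x40008000100000000000000000000000000000000000) := D_39 (nat_lit 159) (nat_lit 140) (nat_lit 174) (nat_lit 0) (nat_lit 8) (nat_lit 9) (nat_lit 1) (nat_lit 8) (nat_lit 9) (by decide +kernel)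
theorem L103315 : W_39 (nat_lit 3) (nat_lit 0x34003000080004800240012000c0000000000000000000000000000000) (nat_lit 0x0) (nat_lit 0x240018000100000000000000000000000000000000000) := T_39 (nat_lit 160) (nat_lit 177) (nat_lit 4) (nat_lit 8) (nat_lit 13) L103314 (by decide +kernel)
theorem L103316 : W_39 (nat_lit 4) (nat_lit 0x30003000080004800240012000c0000000000000000000000000000000) (nat_lit 0x0) (nat_lit 0xc00000000000240018000100000000000000000000000000000000000) := T_39 (nat_lit 226) (nat_lit 227) (nat_lit 2) (nat_lit 5) (nat_lit 13) L103315 (by decide +kernel)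
theorem L103317 : W_39 (nat_lit 5) (nat_lit 0x10003000080004800240012000c0000000000000000000000000000000) (nat_lit 0x0) (nat_lit 0x20002c00000000000240018000100000000000000000000000000000000000) := T_39 (nat_lit 229) (nat_lit 245) (nat_lit 5) (nat_lit 8) (nat_lit 10) L103316 (by decide +kernel)
theorem L103318 : W_39 (nat_lit 6) (nat_lit 0x3000080004800240012000c0000000000000000000000000000000) (nat_lit 0x0) (nat_lit 0x20003c00080000000240018000100000000000000000000000000000000000) := T_39 (nat_lit 228) (nat_lit 211) (nat_lit 5) (nat_lit 8) (nat_lit 9) L103317 (by decide +kernel)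
theorem L103319 : W_39 (nat_lit 7) (nat_lit 0x2000080004800240012000c0000000000000000000000000000000) (nat_lit 0x0) (nat_lit 0x20007c00180000000240018000100000000000000000000000000000000000) := T_39 (nat_lit 212) (nat_lit 230) (nat_lit 7) (nat_lit 8) (nat_lit 9) L103318 (by decide +kernel)
theorem L103320 : W_39 (nat_lit 8) (nat_lit 0x80004800240012000c0000000000000000000000000000000) (nat_lit 0x0) (nat_lit 0x20007c00380010000240018000100000000000000000000000000000000000) := T_39 (nat_lit 213) (nat_lit 196) (nat_lit 7) (nat_lit 8) (nat_lit 8) L103319 (by decide +kernel)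
theorem L103321 : W_39 (nat_lit 2) (nat_lit 0x140030000b0004c00260012000d8000000000000000000000000000000) (nat_lit 0x0) (nat_lit 0x20002800000000000000000000000000000000000000000000000000000000) := D_39 (nat_lit 229) (nat_lit 227) (nat_lit 245) (nat_lit 2) (nat_lit 5) (nat_lit 13) (nat_lit 5) (nat_lit 8) (nat_lit 10) (by decide +kernel)
theorem L103322 : W_39 (nat_lit 3) (nat_lit 0x100030000b0004c00260012000d8000000000000000000000000000000) (nat_lit 0x0) (nat_lit 0x20002c00020000000000000000000000000000000000000000000000000000) := T_39 (nat_lit 226) (nat_lit 209) (nat_lit 4) (nat_lit 5) (nat_lit 13) L103321 (by decide +kernel)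
theorem L103323 : W_39 (nat_lit 4) (nat_lit 0x30000b0004c00260012000d8000000000000000000000000000000) (nat_lit 0x0) (nat_lit 0x20003c000a0000000000000000000000000000000000000000000000000000) := T_39 (nat_lit 228) (nat_lit 211) (nat_lit 5) (nat_lit 8) (nat_lit 9) L103322 (by decide +kernel)
theorem L103324 : W_39 (nat_lit 5) (nat_lit 0x30000b0004c00240012000d8000000000000000000000000000000) (nat_lit 0x0) (nat_lit 0x20003c000a0000000000002000000000000800000000000000000000000000) := T_39 (nat_lit 157) (nat_lit 107) (nat_lit 5) (nat_lit 5) (nat_lit 6) L103323 (by decide +kernel)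
theorem L103325 : W_39 (nat_lit 6) (nat_lit 0x20000b0004c00240012000d8000000000000000000000000000000) (nat_lit 0x0) (nat_lit 0x20007c001a0000000000002000000000000800000000000000000000000000) := T_39 (nat_lit 212) (nat_lit 230) (nat_lit 7) (nat_lit 8) (nat_lit 9) L103324 (by decide +kernel)
theorem L103326 : W_39 (nat_lit 7) (nat_lit 0x20000b0004800240012000d8000000000000000000000000000000) (nat_lit 0x0) (nat_lit 0x20007c001a0000800040002000000000000800000000000000000000000000) := T_39 (nat_lit 174) (nat_lit 191) (nat_lit 5) (nat_lit 5) (nat_lit 7) L103325 (by decide +kernel)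
theorem L103327 : W_39 (nat_lit 8) (nat_lit 0x20000b0004800240012000c8000000000000000000000000000000) (nat_lit 0x0) (nat_lit 0x20007c001a0000800040002000000010000c00000000000000000000000000) := T_39 (nat_lit 124) (nat_lit 106) (nat_lit 4) (nat_lit 5) (nat_lit 10) L103326 (by decide +kernel)
theorem L103328 : W_39 (nat_lit 9) (nat_lit 0xb0004800240012000c8000000000000000000000000000000) (nat_lit 0x0) (nat_lit 0x20007c003a0010800040002000000010000c00000000000000000000000000) := T_39 (nat_lit 213) (nat_lit 196) (nat_lit 7) (nat_lit 8) (nat_lit 8) L103327 (by decide +kernel)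
theorem L103329 : W_39 (nat_lit 10) (nat_lit 0xb0004800240012000c0000000000000000000000000000000) (nat_lit 0x0) (nat_lit 0x20007c003a0010800040002000100018000c00000000000000000000000000) := T_39 (nat_lit 123) (nat_lit 140) (nat_lit 4) (nat_lit 5) (nat_lit 11) L103328 (by decide +kernel)
theorem L103330 : W_39 (nat_lit 11) (nat_lit 0x90004800240012000c0000000000000000000000000000000) (nat_lit 0x0) (nat_lit 0x20007c003e0012800040002000100018000c00000000000000000000000000) := T_39 (nat_lit 193) (nat_lit 210) (nat_lit 7) (nat_lit 5) (nat_lit 8) L103329 (by decide +kernel)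
theorem L103331 : W_39 (nat_lit 2) (nat_lit 0x340030000b8004d00240012000c0000000000000000000000000000000) (nat_lit 0x0) (nat_lit 0x8000000020000000000002000000000000000000000000000000000000000) := D_39 (nat_lit 209) (nat_lit 243) (nat_lit 157) (nat_lit 4) (nat_lit 5) (nat_lit 14) (nat_lit 4) (nat_lit 5) (nat_lit 13) (by decide +kernel)
theorem L103332 : W_39 (nat_lit 3) (nat_lit 0x300030000b8004d00240012000c0000000000000000000000000000000) (nat_lit 0x0) (nat_lit 0x8000c00020000000000002000000000000000000000000000000000000000) := T_39 (nat_lit 226) (nat_lit 227) (nat_lit 2) (nat_lit 5) (nat_lit 13) L103331 (by decide +kernel)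
theorem L103333 : W_39 (nat_lit 4) (nat_lit 0x100030000b8004d00240012000c0000000000000000000000000000000) (nat_lit 0x0) (nat_lit 0x28002c00020000000000002000000000000000000000000000000000000000) := T_39 (nat_lit 229) (nat_lit 245) (nat_lit 5) (nat_lit 8) (nat_lit 10) L103332 (by decide +kernel)
theorem L103334 : W_39 (nat_lit 5) (nat_lit 0x30000b8004d00240012000c0000000000000000000000000000000) (nat_lit 0x0) (nat_lit 0x28003c000a0000000000002000000000000000000000000000000000000000) := T_39 (nat_lit 228) (nat_lit 211) (nat_lit 5) (nat_lit 8) (nat_lit 9) L103333 (by decide +kernel)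
theorem L103335 : W_39 (nat_lit 6) (nat_lit 0x20000b8004d00240012000c0000000000000000000000000000000) (nat_lit 0x0) (nat_lit 0x28007c001a0000000000002000000000000000000000000000000000000000) := T_39 (nat_lit 212) (nat_lit 230) (nat_lit 7) (nat_lit 8) (nat_lit 9) L103334 (by decide +kernel)
theorem L103336 : W_39 (nat_lit 7) (nat_lit 0x20000b8004c00240012000c0000000000000000000000000000000) (nat_lit 0x0) (nat_lit 0x28007c001a0000000030002000000000000000000000000000000000000000) := T_39 (nat_lit 172) (nat_lit 173) (nat_lit 3) (nat_lit 2) (nat_lit 10) L103335 (by decide +kernel)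
theorem L103337 : W_39 (nat_lit 8) (nat_lit 0xb8004c00240012000c0000000000000000000000000000000) (nat_lit 0x0) (nat_lit 0x28007c003a0010000030002000000000000000000000000000000000000000) := T_39 (nat_lit 213) (nat_lit 196) (nat_lit 7) (nat_lit 8) (nat_lit 8) L103336 (by decide +kernel)
theorem L103338 : W_39 (nat_lit 9) (nat_lit 0xb8004800240012000c0000000000000000000000000000000) (nat_lit 0x0) (nat_lit 0x28007c003a0010000070002000000010000000000000000000000000000000) := T_39 (nat_lit 174) (nat_lit 124) (nat_lit 5) (nat_lit 5) (nat_lit 7) L103337 (by decide +kernel)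
theorem L103339 : W_39 (nat_lit 10) (nat_lit 0x98004800240012000c0000000000000000000000000000000) (nat_lit 0x0) (nat_lit 0x28007c003e0012000070002000000010000000000000000000000000000000) := T_39 (nat_lit 193) (nat_lit 210) (nat_lit 7) (nat_lit 5) (nat_lit 8) L103338 (by decide +kernel)
theorem L103340 : W_39 (nat_lit 11) (nat_lit 0x90004800240012000c0000000000000000000000000000000) (nat_lit 0x0) (nat_lit 0x28007c003f0012800070002000000010000000000000000000000000000000) := T_39 (nat_lit 191) (nat_lit 208) (nat_lit 5) (nat_lit 5) (nat_lit 8) L103339 (by decide +kernel)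
theorem L103341 : W_39 (nat_lit 2) (nat_lit 0x160032000b0004800240013001c0000000000000000000000000000000) (nat_lit 0x0) (nat_lit 0x10002800000000000000000000000000000000000000000000000000000000) := D_39 (nat_lit 227) (nat_lit 244) (nat_lit 229) (nat_lit 7) (nat_lit 5) (nat_lit 10) (nat_lit 2) (nat_lit 5) (nat_lit 13) (by decide +kernel)
theorem L103342 : W_39 (nat_lit 3) (nat_lit 0x60032000b0004800240013001c0000000000000000000000000000000) (nat_lit 0x0) (nat_lit 0x10003800080000000000000000000000000000000000000000000000000000) := T_39 (nat_lit 228) (nat_lit 211) (nat_lit 5) (nat_lit 8) (nat_lit 9) L103341 (by decide +kernel)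
theorem L103343 : W_39 (nat_lit 4) (nat_lit 0x60022000b0004800240013001c0000000000000000000000000000000) (nat_lit 0x0) (nat_lit 0x10007800180000000000000000000000000000000000000000000000000000) := T_39 (nat_lit 212) (nat_lit 230) (nat_lit 7) (nat_lit 8) (nat_lit 9) L103342 (by decide +kernel)
theorem L103344 : W_39 (nat_lit 5) (nat_lit 0x20022000b0004800240013001c0000000000000000000000000000000) (nat_lit 0x0) (nat_lit 0x14007c00180000000000000000000000000000000000000000000000000000) := T_39 (nat_lit 226) (nat_lit 242) (nat_lit 5) (nat_lit 5) (nat_lit 10) L103343 (by decide +kernel)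
theorem L103345 : W_39 (nat_lit 6) (nat_lit 0x20002000b0004800240013001c0000000000000000000000000000000) (nat_lit 0x0) (nat_lit 0x14007c00380010000000000000000000000000000000000000000000000000) := T_39 (nat_lit 213) (nat_lit 196) (nat_lit 7) (nat_lit 8) (nat_lit 8) L103344 (by decide +kernel)
theorem L103346 : W_39 (nat_lit 7) (nat_lit 0x2000b0004800240013001c0000000000000000000000000000000) (nat_lit 0x0) (nat_lit 0x14007e00390010000000000000000000000000000000000000000000000000) := T_39 (nat_lit 225) (nat_lit 208) (nat_lit 5) (nat_lit 5) (nat_lit 9) L103345 (by decide +kernel)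
theorem L103347 : W_39 (nat_lit 8) (nat_lit 0xb0004800240013001c0000000000000000000000000000000) (nat_lit 0x0) (nat_lit 0x14007e003b0010000000002000000000000000000000000000000000000000) := T_39 (nat_lit 209) (nat_lit 157) (nat_lit 4) (nat_lit 5) (nat_lit 12) L103346 (by decide +kernel)
theorem L103348 : W_39 (nat_lit 9) (nat_lit 0xb0004800240012001c0000000000000000000000000000000) (nat_lit 0x0) (nat_lit 0x14007e003b0010000000002000100008000000000000000000000000000000) := T_39 (nat_lit 140) (nat_lit 123) (nat_lit 4) (nat_lit 5) (nat_lit 11) L103347 (by decide +kernel)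
theorem L103349 : W_39 (nat_lit 10) (nat_lit 0x90004800240012001c0000000000000000000000000000000) (nat_lit 0x0) (nat_lit 0x14007e003f0012000000002000100008000000000000000000000000000000) := T_39 (nat_lit 193) (nat_lit 210) (nat_lit 7) (nat_lit 5) (nat_lit 8) L103348 (by decide +kernel)
theorem L103350 : W_39 (nat_lit 11) (nat_lit 0x90004800240012000c0000000000000000000000000000000) (nat_lit 0x0) (nat_lit 0x14007e003f0012000000002000100108008000000000000000000000000000) := T_39 (nat_lit 128) (nat_lit 111) (nat_lit 6) (nat_lit 8) (nat_lit 10) L103349 (by decide +kernel)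
theorem L103351 : W_39 (nat_lit 12) (nat_lit 0x80004800240012000c0000000000000000000000000000000) (nat_lit 0x0) (nat_lit 0x3c007e003f0013800070002000100118008c00000000000000000000000000) := Q_39 (nat_lit 192) (C_39 L103288 (C_39 L103292 (C_39 L103330 (C_39 L103340 (C_39 L103350 N_39))))) (by decide +kernel)
theorem L103352 : W_39 (nat_lit 2) (nat_lit 0xb8004e002c0013801c0000000000000000000000000000000) (nat_lit 0x0) (nat_lit 0x3000000004000000000000000000000000000000) := D_39 (nat_lit 122) (nat_lit 157) (nat_lit 156) (nat_lit 4) (nat_lit 4) (nat_lit 11) (nat_lit 7) (nat_lit 3) (nat_lit 7) (by decide +kernel)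
theorem L103353 : W_39 (nat_lit 3) (nat_lit 0xb8004c002c0013801c0000000000000000000000000000000) (nat_lit 0x0) (nat_lit 0x30003000000004000000000000000000000000000000) := T_39 (nat_lit 173) (nat_lit 172) (nat_lit 3) (nat_lit 2) (nat_lit 10) L103352 (by decide +kernel)
theorem L103354 : W_39 (nat_lit 4) (nat_lit 0xb80048002c0013801c0000000000000000000000000000000) (nat_lit 0x0) (nat_lit 0x70003000000014000000000000000000000000000000) := T_39 (nat_lit 174) (nat_lit 124) (nat_lit 5) (nat_lit 5) (nat_lit 7) L103353 (by decide +kernel)
theorem L103355 : W_39 (nat_lit 5) (nat_lit 0xb80048002c0013001c0000000000000000000000000000000) (nat_lit 0x0) (nat_lit 0x700030000c0014000000000000000000000000000000) := T_39 (nat_lit 139) (nat_lit 138) (nat_lit 3) (nat_lit 2) (nat_lit 8) L103354 (by decide +kernel)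
theorem L103356 : W_39 (nat_lit 6) (nat_lit 0xb00048002c0013001c0000000000000000000000000000000) (nat_lit 0x0) (nat_lit 0x100008000700030000c0014000000000000000000000000000000) := T_39 (nat_lit 191) (nat_lit 208) (nat_lit 5) (nat_lit 5) (nat_lit 8) L103355 (by decide +kernel)
theorem L103357 : W_39 (nat_lit 7) (nat_lit 0xb0004800240013001c0000000000000000000000000000000) (nat_lit 0x0) (nat_lit 0x1000080007001b0000c0014000000000000000000000000000000) := T_39 (nat_lit 159) (nat_lit 160) (nat_lit 0) (nat_lit 8) (nat_lit 9) L103356 (by decide +kernel)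
theorem L103358 : W_39 (nat_lit 8) (nat_lit 0xb0004800240012001c0000000000000000000000000000000) (nat_lit 0x0) (nat_lit 0x1000080007001b0001c001c000000000000000000000000000000) := T_39 (nat_lit 140) (nat_lit 123) (nat_lit 4) (nat_lit 5) (nat_lit 11) L103357 (by decide +kernel)
theorem L103359 : W_39 (nat_lit 9) (nat_lit 0x90004800240012001c0000000000000000000000000000000) (nat_lit 0x0) (nat_lit 0x5000280007001b0001c001c000000000000000000000000000000) := T_39 (nat_lit 193) (nat_lit 210) (nat_lit 7) (nat_lit 5) (nat_lit 8) L103358 (by decide +kernel)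
theorem L103360 : W_39 (nat_lit 10) (nat_lit 0x90004800240012000c0000000000000000000000000000000) (nat_lit 0x0) (nat_lit 0x5000280007001b0001c011c008000000000000000000000000000) := T_39 (nat_lit 128) (nat_lit 111) (nat_lit 6) (nat_lit 8) (nat_lit 10) L103359 (by decide +kernel)
theorem L103361 : W_39 (nat_lit 2) (nat_lit 0x2000b8004d002c0012001c0000000000000000000000000000000) (nat_lit 0x0) (nat_lit 0x8000400000000000000002000000000000000000000000000000000000000) := D_39 (nat_lit 226) (nat_lit 157) (nat_lit 243) (nat_lit 4) (nat_lit 5) (nat_lit 13) (nat_lit 4) (nat_lit 5) (nat_lit 14) (by decide +kernel)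
theorem L103362 : W_39 (nat_lit 3) (nat_lit 0xb8004d002c0012001c0000000000000000000000000000000) (nat_lit 0x0) (nat_lit 0x8000400020000000000002000400000000000000000000000000000000000) := T_39 (nat_lit 209) (nat_lit 142) (nat_lit 6) (nat_lit 5) (nat_lit 12) L103361 (by decide +kernel)
theorem L103363 : W_39 (nat_lit 4) (nat_lit 0xb8004c002c0012001c0000000000000000000000000000000) (nat_lit 0x0) (nat_lit 0x8000400020000000030002000400000000000000000000000000000000000) := T_39 (nat_lit 172) (nat_lit 173) (nat_lit 3) (nat_lit 2) (nat_lit 10) L103362 (by decide +kernel)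
theorem L103364 : W_39 (nat_lit 5) (nat_lit 0xb8004c00240012001c0000000000000000000000000000000) (nat_lit 0x0) (nat_lit 0x800040002000000003001a000400000000000000000000000000000000000) := T_39 (nat_lit 159) (nat_lit 160) (nat_lit 1) (nat_lit 8) (nat_lit 9) L103363 (by decide +kernel)
theorem L103365 : W_39 (nat_lit 6) (nat_lit 0xb8004c00240012000c0000000000000000000000000000000) (nat_lit 0x0) (nat_lit 0x800040002000000003001a000400100008000000000000000000000000000) := T_39 (nat_lit 128) (nat_lit 111) (nat_lit 6) (nat_lit 8) (nat_lit 10) L103364 (by decide +kernel)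
theorem L103366 : W_39 (nat_lit 7) (nat_lit 0xb8004800240012000c0000000000000000000000000000000) (nat_lit 0x0) (nat_lit 0x800040002000000007001a000400110008000000000000000000000000000) := T_39 (nat_lit 174) (nat_lit 124) (nat_lit 5) (nat_lit 5) (nat_lit 7) L103365 (by decide +kernel)
theorem L103367 : W_39 (nat_lit 8) (nat_lit 0x98004800240012000c0000000000000000000000000000000) (nat_lit 0x0) (nat_lit 0x800040006000200007001a000400110008000000000000000000000000000) := T_39 (nat_lit 193) (nat_lit 210) (nat_lit 7) (nat_lit 5) (nat_lit 8) L103366 (by decide +kernel)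
theorem L103368 : W_39 (nat_lit 9) (nat_lit 0x90004800240012000c0000000000000000000000000000000) (nat_lit 0x0) (nat_lit 0x800040007000280007001a000400110008000000000000000000000000000) := T_39 (nat_lit 191) (nat_lit 208) (nat_lit 5) (nat_lit 5) (nat_lit 8) L103367 (by decide +kernel)
theorem L103369 : W_39 (nat_lit 2) (nat_lit 0x500090004800340013001c0000000000000000000000000000000) (nat_lit 0x0) (nat_lit 0xa00020000000000000000000000000000000000000000000000000000) := D_39 (nat_lit 209) (nat_lit 227) (nat_lit 225) (nat_lit 7) (nat_lit 5) (nat_lit 9) (nat_lit 5) (nat_lit 5) (nat_lit 9) (by decide +kernel)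
theorem L103370 : W_39 (nat_lit 3) (nat_lit 0x400090004800340013001c0000000000000000000000000000000) (nat_lit 0x0) (nat_lit 0xa00030000800000000000000000000000000000000000000000000000) := T_39 (nat_lit 208) (nat_lit 191) (nat_lit 5) (nat_lit 5) (nat_lit 8) L103369 (by decide +kernel)
theorem L103371 : W_39 (nat_lit 4) (nat_lit 0x90004800340013001c0000000000000000000000000000000) (nat_lit 0x0) (nat_lit 0xa00070002800000000000000000000000000000000000000000000000) := T_39 (nat_lit 210) (nat_lit 193) (nat_lit 7) (nat_lit 5) (nat_lit 8) L103370 (by decide +kernel)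
theorem L103372 : W_39 (nat_lit 5) (nat_lit 0x90004800240013001c0000000000000000000000000000000) (nat_lit 0x0) (nat_lit 0xa00070002800000018000000000000000000000000000000000000000) := T_39 (nat_lit 160) (nat_lit 159) (nat_lit 0) (nat_lit 8) (nat_lit 9) L103371 (by decide +kernel)
theorem L103373 : W_39 (nat_lit 6) (nat_lit 0x90004800240012001c0000000000000000000000000000000) (nat_lit 0x0) (nat_lit 0xa00070002800000018000100008000000000000000000000000000000) := T_39 (nat_lit 140) (nat_lit 123) (nat_lit 4) (nat_lit 5) (nat_lit 11) L103372 (by decide +kernel)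
theorem L103374 : W_39 (nat_lit 7) (nat_lit 0x90004800240012000c0000000000000000000000000000000) (nat_lit 0x0) (nat_lit 0xa00070002800000018000100108008000000000000000000000000000) := T_39 (nat_lit 128) (nat_lit 111) (nat_lit 6) (nat_lit 8) (nat_lit 10) L103373 (by decide +kernel)
theorem L103375 : W_39 (nat_lit 11) (nat_lit 0x80004800240012000c0000000000000000000000000000000) (nat_lit 0x0) (nat_lit 0x8000e0007000380007001b0005c011c008000000000000000000000000000) := Q_39 (nat_lit 192) (C_39 L103295 (C_39 L103288 (C_39 L103360 (C_39 L103368 (C_39 L103374 N_39))))) (by decide +kernel)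
theorem L103376 : W_39 (nat_lit 2) (nat_lit 0x3400b000080004800340013001c8000000000000000000000000000000) (nat_lit 0x0) (nat_lit 0x2000000010000400000000000000000000000000) := D_39 (nat_lit 106) (nat_lit 124) (nat_lit 157) (nat_lit 4) (nat_lit 5) (nat_lit 10) (nat_lit 7) (nat_lit 4) (nat_lit 6) (by decide +kernel)
theorem L103377 : W_39 (nat_lit 3) (nat_lit 0x3400b000080004800340013001c0000000000000000000000000000000) (nat_lit 0x0) (nat_lit 0x1000000002000000018000400000000000000000000000000) := T_39 (nat_lit 123) (nat_lit 192) (nat_lit 4) (nat_lit 5) (nat_lit 11) L103376 (by decide +kernel)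
theorem L103378 : W_39 (nat_lit 4) (nat_lit 0x3400b000080004800340012001c0000000000000000000000000000000) (nat_lit 0x0) (nat_lit 0x100000000a000100018000400000000000000000000000000) := T_39 (nat_lit 140) (nat_lit 159) (nat_lit 0) (nat_lit 8) (nat_lit 9) L103377 (by decide +kernel)
theorem L103379 : W_39 (nat_lit 5) (nat_lit 0x34003000080004800340012001c0000000000000000000000000000000) (nat_lit 0x0) (nat_lit 0xc0000100000000a000100018000400000000000000000000000000) := T_39 (nat_lit 215) (nat_lit 214) (nat_lit 1) (nat_lit 11) (nat_lit 12) L103378 (by decide +kernel)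
theorem L103380 : W_39 (nat_lit 6) (nat_lit 0x34003000080004800240012001c0000000000000000000000000000000) (nat_lit 0x0) (nat_lit 0xc0000100020001a000100018000400000000000000000000000000) := T_39 (nat_lit 160) (nat_lit 177) (nat_lit 4) (nat_lit 8) (nat_lit 13) L103379 (by decide +kernel)
theorem L103381 : W_39 (nat_lit 7) (nat_lit 0x30003000080004800240012001c0000000000000000000000000000000) (nat_lit 0x0) (nat_lit 0xc00c0000100020001a000100018000400000000000000000000000000) := T_39 (nat_lit 226) (nat_lit 227) (nat_lit 2) (nat_lit 5) (nat_lit 13) L103380 (by decide +kernel)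
theorem L103382 : W_39 (nat_lit 8) (nat_lit 0x10003000080004800240012001c0000000000000000000000000000000) (nat_lit 0x0) (nat_lit 0x20002c00c0000100020001a000100018000400000000000000000000000000) := T_39 (nat_lit 229) (nat_lit 245) (nat_lit 5) (nat_lit 8) (nat_lit 10) L103381 (by decide +kernel)
theorem L103383 : W_39 (nat_lit 9) (nat_lit 0x3000080004800240012001c0000000000000000000000000000000) (nat_lit 0x0) (nat_lit 0x20003c00c8000100020001a000100018000400000000000000000000000000) := T_39 (nat_lit 228) (nat_lit 211) (nat_lit 5) (nat_lit 8) (nat_lit 9) L103382 (by decide +kernel)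
theorem L103384 : W_39 (nat_lit 10) (nat_lit 0x2000080004800240012001c0000000000000000000000000000000) (nat_lit 0x0) (nat_lit 0x20007c00d8000100020001a000100018000400000000000000000000000000) := T_39 (nat_lit 212) (nat_lit 230) (nat_lit 7) (nat_lit 8) (nat_lit 9) L103383 (by decide +kernel)
theorem L103385 : W_39 (nat_lit 11) (nat_lit 0x80004800240012001c0000000000000000000000000000000) (nat_lit 0x0) (nat_lit 0x20007c00f8001100020001a000100018000400000000000000000000000000) := T_39 (nat_lit 213) (nat_lit 196) (nat_lit 7) (nat_lit 8) (nat_lit 8) L103384 (by decide +kernel)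
theorem L103386 : W_39 (nat_lit 12) (nat_lit 0x80004800240012000c0000000000000000000000000000000) (nat_lit 0x0) (nat_lit 0x20007c00f8001100020001a000100118008400000000000000000000000000) := T_39 (nat_lit 128) (nat_lit 111) (nat_lit 6) (nat_lit 8) (nat_lit 10) L103385 (by decide +kernel)
theorem L103387 : W_39 (nat_lit 2) (nat_lit 0x3000b000080004800340012001c0000000000000000000000000000000) (nat_lit 0x0) (nat_lit 0x40008000100000000000000000000000000000000000) := D_39 (nat_lit 159) (nat_lit 140) (nat_lit 174) (nat_lit 0) (nat_lit 8) (nat_lit 9) (nat_lit 1) (nat_lit 8) (nat_lit 9) (by decide +kernel)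
theorem L103388 : W_39 (nat_lit 3) (nat_lit 0x3000b000080004800240012001c0000000000000000000000000000000) (nat_lit 0x0) (nat_lit 0x240018000100000000000000000000000000000000000) := T_39 (nat_lit 160) (nat_lit 177) (nat_lit 4) (nat_lit 8) (nat_lit 13) L103387 (by decide +kernel)
theorem L103389 : W_39 (nat_lit 4) (nat_lit 0x30003000080004800240012001c0000000000000000000000000000000) (nat_lit 0x0) (nat_lit 0xc00000000240018000100000000000000000000000000000000000) := T_39 (nat_lit 215) (nat_lit 214) (nat_lit 1) (nat_lit 11) (nat_lit 12) L103388 (by decide +kernel)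
theorem L103390 : W_39 (nat_lit 5) (nat_lit 0x10003000080004800240012001c0000000000000000000000000000000) (nat_lit 0x0) (nat_lit 0x20002000c00000000240018000100000000000000000000000000000000000) := T_39 (nat_lit 229) (nat_lit 245) (nat_lit 5) (nat_lit 8) (nat_lit 10) L103389 (by decide +kernel)
theorem L103391 : W_39 (nat_lit 6) (nat_lit 0x3000080004800240012001c0000000000000000000000000000000) (nat_lit 0x0) (nat_lit 0x20003000c80000000240018000100000000000000000000000000000000000) := T_39 (nat_lit 228) (nat_lit 211) (nat_lit 5) (nat_lit 8) (nat_lit 9) L103390 (by decide +kernel)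
theorem L103392 : W_39 (nat_lit 7) (nat_lit 0x2000080004800240012001c0000000000000000000000000000000) (nat_lit 0x0) (nat_lit 0x20007000d80000000240018000100000000000000000000000000000000000) := T_39 (nat_lit 212) (nat_lit 230) (nat_lit 7) (nat_lit 8) (nat_lit 9) L103391 (by decide +kernel)
theorem L103393 : W_39 (nat_lit 8) (nat_lit 0x2000080004800240012000c0000000000000000000000000000000) (nat_lit 0x0) (nat_lit 0x20007000d80000000240018000100100008000000000000000000000000000) := T_39 (nat_lit 128) (nat_lit 111) (nat_lit 6) (nat_lit 8) (nat_lit 10) L103392 (by decide +kernel)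
theorem L103394 : W_39 (nat_lit 9) (nat_lit 0x80004800240012000c0000000000000000000000000000000) (nat_lit 0x0) (nat_lit 0x20007000f80010000240018000100100008000000000000000000000000000) := T_39 (nat_lit 213) (nat_lit 196) (nat_lit 7) (nat_lit 8) (nat_lit 8) L103393 (by decide +kernel)
theorem L103395 : W_39 (nat_lit 2) (nat_lit 0x3400b000088004c00340012001c0000000000000000000000000000000) (nat_lit 0x0) (nat_lit 0x200010001000000000000000000000000000000000000000000000000) := D_39 (nat_lit 208) (nat_lit 192) (nat_lit 225) (nat_lit 5) (nat_lit 5) (nat_lit 8) (nat_lit 6) (nat_lit 4) (nat_lit 13) (by decide +kernel)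
theorem L103396 : W_39 (nat_lit 3) (nat_lit 0x3400b000080004c00340012001c0000000000000000000000000000000) (nat_lit 0x0) (nat_lit 0x200010001800000000000000010000000000000000000000000000000) := T_39 (nat_lit 191) (nat_lit 124) (nat_lit 5) (nat_lit 5) (nat_lit 7) L103395 (by decide +kernel)
theorem L103397 : W_39 (nat_lit 4) (nat_lit 0x3400b000080004800340012001c0000000000000000000000000000000) (nat_lit 0x0) (nat_lit 0x200010001800040008000000010000000000000000000000000000000) := T_39 (nat_lit 174) (nat_lit 159) (nat_lit 1) (nat_lit 8) (nat_lit 9) L103396 (by decide +kernel)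
theorem L103398 : W_39 (nat_lit 5) (nat_lit 0x34003000080004800340012001c0000000000000000000000000000000) (nat_lit 0x0) (nat_lit 0x200c10001800040008000000010000000000000000000000000000000) := T_39 (nat_lit 215) (nat_lit 214) (nat_lit 1) (nat_lit 11) (nat_lit 12) L103397 (by decide +kernel)
theorem L103399 : W_39 (nat_lit 6) (nat_lit 0x34003000080004800240012001c0000000000000000000000000000000) (nat_lit 0x0) (nat_lit 0x200c10001800240018000000010000000000000000000000000000000) := T_39 (nat_lit 160) (nat_lit 177) (nat_lit 4) (nat_lit 8) (nat_lit 13) L103398 (by decide +kernel)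
theorem L103400 : W_39 (nat_lit 7) (nat_lit 0x30003000080004800240012001c0000000000000000000000000000000) (nat_lit 0x0) (nat_lit 0xe00c10001800240018000000010000000000000000000000000000000) := T_39 (nat_lit 226) (nat_lit 227) (nat_lit 2) (nat_lit 5) (nat_lit 13) L103399 (by decide +kernel)
theorem L103401 : W_39 (nat_lit 8) (nat_lit 0x10003000080004800240012001c0000000000000000000000000000000) (nat_lit 0x0) (nat_lit 0x20002e00c10001800240018000000010000000000000000000000000000000) := T_39 (nat_lit 229) (nat_lit 245) (nat_lit 5) (nat_lit 8) (nat_lit 10) L103400 (by decide +kernel)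
theorem L103402 : W_39 (nat_lit 9) (nat_lit 0x3000080004800240012001c0000000000000000000000000000000) (nat_lit 0x0) (nat_lit 0x20003e00c90001800240018000000010000000000000000000000000000000) := T_39 (nat_lit 228) (nat_lit 211) (nat_lit 5) (nat_lit 8) (nat_lit 9) L103401 (by decide +kernel)
theorem L103403 : W_39 (nat_lit 10) (nat_lit 0x2000080004800240012001c0000000000000000000000000000000) (nat_lit 0x0) (nat_lit 0x20007e00d90001800240018000000010000000000000000000000000000000) := T_39 (nat_lit 212) (nat_lit 230) (nat_lit 7) (nat_lit 8) (nat_lit 9) L103402 (by decide +kernel)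
theorem L103404 : W_39 (nat_lit 11) (nat_lit 0x80004800240012001c0000000000000000000000000000000) (nat_lit 0x0) (nat_lit 0x20007e00f90011800240018000000010000000000000000000000000000000) := T_39 (nat_lit 213) (nat_lit 196) (nat_lit 7) (nat_lit 8) (nat_lit 8) L103403 (by decide +kernel)
theorem L103405 : W_39 (nat_lit 12) (nat_lit 0x80004800240012000c0000000000000000000000000000000) (nat_lit 0x0) (nat_lit 0x20007e00f90011800240018000000110008000000000000000000000000000) := T_39 (nat_lit 128) (nat_lit 111) (nat_lit 6) (nat_lit 8) (nat_lit 10) L103404 (by decide +kernel)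
theorem L103406 : W_39 (nat_lit 13) (nat_lit 0x80004800200012000c0000000000000000000000000000000) (nat_lit 0x0) (nat_lit 0x3c007e00ff001380027001f0005c011c008c00000000000000000000000000) := Q_39 (nat_lit 158) (C_39 L103305 (C_39 L103313 (C_39 L103320 (C_39 L103351 (C_39 L103375 (C_39 L103386 (C_39 L103394 (C_39 L103405 N_39)))))))) (by decide +kernel)
theorem L103407 : W_39 (nat_lit 2) (nat_lit 0x3000080006800340012000c0000000000000000000000000000000) (nat_lit 0x0) (nat_lit 0x4000a000000000000000000000000000000000000000) := D_39 (nat_lit 159) (nat_lit 157) (nat_lit 174) (nat_lit 3) (nat_lit 4) (nat_lit 9) (nat_lit 1) (nat_lit 8) (nat_lit 9) (by decide +kernel)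
theorem L103408 : W_39 (nat_lit 3) (nat_lit 0x3000080006800240012000c0000000000000000000000000000000) (nat_lit 0x0) (nat_lit 0x200000000000004001a000000000000000000000000000000000000000) := T_39 (nat_lit 160) (nat_lit 229) (nat_lit 4) (nat_lit 8) (nat_lit 13) L103407 (by decide +kernel)
theorem L103409 : W_39 (nat_lit 4) (nat_lit 0x2000080006800240012000c0000000000000000000000000000000) (nat_lit 0x0) (nat_lit 0x600010000000004001a000000000000000000000000000000000000000) := T_39 (nat_lit 212) (nat_lit 230) (nat_lit 7) (nat_lit 8) (nat_lit 9) L103408 (by decide +kernel)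
theorem L103410 : W_39 (nat_lit 5) (nat_lit 0x2000080004800240012000c0000000000000000000000000000000) (nat_lit 0x0) (nat_lit 0x600010000400024001a000000000000000000000000000000000000000) := T_39 (nat_lit 177) (nat_lit 194) (nat_lit 5) (nat_lit 8) (nat_lit 7) L103409 (by decide +kernel)
theorem L103411 : W_39 (nat_lit 6) (nat_lit 0x80004800240012000c0000000000000000000000000000000) (nat_lit 0x0) (nat_lit 0x600030001400024001a000000000000000000000000000000000000000) := T_39 (nat_lit 213) (nat_lit 196) (nat_lit 7) (nat_lit 8) (nat_lit 8) L103410 (by decide +kernel)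
theorem L103412 : W_39 (nat_lit 2) (nat_lit 0x32000d0004800240013001c0000000000000000000000000000000) (nat_lit 0x0) (nat_lit 0x200010000800000000000000000000000000000000000000000000000) := D_39 (nat_lit 208) (nat_lit 225) (nat_lit 191) (nat_lit 5) (nat_lit 5) (nat_lit 9) (nat_lit 5) (nat_lit 5) (nat_lit 8) (by decide +kernel)
theorem L103413 : W_39 (nat_lit 3) (nat_lit 0x30000d0004800240013001c0000000000000000000000000000000) (nat_lit 0x0) (nat_lit 0x200030000800000002000000000000000000000000000000000000000) := T_39 (nat_lit 209) (nat_lit 157) (nat_lit 4) (nat_lit 5) (nat_lit 12) L103412 (by decide +kernel)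
theorem L103414 : W_39 (nat_lit 4) (nat_lit 0x30000d0004800240012001c0000000000000000000000000000000) (nat_lit 0x0) (nat_lit 0x200030000800000002000100008000000000000000000000000000000) := T_39 (nat_lit 140) (nat_lit 123) (nat_lit 4) (nat_lit 5) (nat_lit 11) L103413 (by decide +kernel)
theorem L103415 : W_39 (nat_lit 5) (nat_lit 0x30000c0004800240012001c0000000000000000000000000000000) (nat_lit 0x0) (nat_lit 0x200030003800000002000100008000000000000000000000000000000) := T_39 (nat_lit 192) (nat_lit 193) (nat_lit 3) (nat_lit 5) (nat_lit 11) L103414 (by decide +kernel)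
theorem L103416 : W_39 (nat_lit 6) (nat_lit 0x20000c0004800240012001c0000000000000000000000000000000) (nat_lit 0x0) (nat_lit 0x4200130003800000002000100008000000000000000000000000000000) := T_39 (nat_lit 212) (nat_lit 230) (nat_lit 7) (nat_lit 8) (nat_lit 9) L103415 (by decide +kernel)
theorem L103417 : W_39 (nat_lit 7) (nat_lit 0x2000080004800240012001c0000000000000000000000000000000) (nat_lit 0x0) (nat_lit 0x4200130007800200002000100008000000000000000000000000000000) := T_39 (nat_lit 194) (nat_lit 177) (nat_lit 5) (nat_lit 8) (nat_lit 7) L103416 (by decide +kernel)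
theorem L103418 : W_39 (nat_lit 8) (nat_lit 0x80004800240012001c0000000000000000000000000000000) (nat_lit 0x0) (nat_lit 0x4200330017800200002000100008000000000000000000000000000000) := T_39 (nat_lit 213) (nat_lit 196) (nat_lit 7) (nat_lit 8) (nat_lit 8) L103417 (by decide +kernel)
theorem L103419 : W_39 (nat_lit 9) (nat_lit 0x80004800240012000c0000000000000000000000000000000) (nat_lit 0x0) (nat_lit 0x4200330017800200002000100108008000000000000000000000000000) := T_39 (nat_lit 128) (nat_lit 111) (nat_lit 6) (nat_lit 8) (nat_lit 10) L103418 (by decide +kernel)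
theorem L103420 : W_39 (nat_lit 2) (nat_lit 0x3000080006800340012001c0000000000000000000000000000000) (nat_lit 0x0) (nat_lit 0x40008000100000000000000000000000000000000000) := D_39 (nat_lit 159) (nat_lit 140) (nat_lit 174) (nat_lit 0) (nat_lit 8) (nat_lit 9) (nat_lit 1) (nat_lit 8) (nat_lit 9) (by decide +kernel)
theorem L103421 : W_39 (nat_lit 3) (nat_lit 0x3000080006800240012001c0000000000000000000000000000000) (nat_lit 0x0) (nat_lit 0x2000000000000040018000100000000000000000000000000000000000) := T_39 (nat_lit 160) (nat_lit 229) (nat_lit 4) (nat_lit 8) (nat_lit 13) L103420 (by decide +kernel)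
theorem L103422 : W_39 (nat_lit 4) (nat_lit 0x2000080006800240012001c0000000000000000000000000000000) (nat_lit 0x0) (nat_lit 0x6000100000000040018000100000000000000000000000000000000000) := T_39 (nat_lit 212) (nat_lit 230) (nat_lit 7) (nat_lit 8) (nat_lit 9) L103421 (by decide +kernel)
theorem L103423 : W_39 (nat_lit 5) (nat_lit 0x80006800240012001c0000000000000000000000000000000) (nat_lit 0x0) (nat_lit 0x6000300010000040018000100000000000000000000000000000000000) := T_39 (nat_lit 213) (nat_lit 196) (nat_lit 7) (nat_lit 8) (nat_lit 8) L103422 (by decide +kernel)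
theorem L103424 : W_39 (nat_lit 6) (nat_lit 0x80006800240012000c0000000000000000000000000000000) (nat_lit 0x0) (nat_lit 0x6000300010000040018000100100008000000000000000000000000000) := T_39 (nat_lit 128) (nat_lit 111) (nat_lit 6) (nat_lit 8) (nat_lit 10) L103423 (by decide +kernel)
theorem L103425 : W_39 (nat_lit 7) (nat_lit 0x80004800240012000c0000000000000000000000000000000) (nat_lit 0x0) (nat_lit 0x6000300014000240018000100100008000000000000000000000000000) := T_39 (nat_lit 177) (nat_lit 194) (nat_lit 5) (nat_lit 8) (nat_lit 7) L103424 (by decide +kernel)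
theorem L103426 : W_39 (nat_lit 12) (nat_lit 0x80004800200012000c0000000000000000000000000000000) (nat_lit 0x0) (nat_lit 0x8006e0037001780027001f0005c011c008000000000000000000000000000) := Q_39 (nat_lit 158) (C_39 L103375 (C_39 L103411 (C_39 L103419 (C_39 L103425 N_39)))) (by decide +kernel)
theorem L103427 : W_39 (nat_lit 2) (nat_lit 0x2800080004800200012000c0000000000000000000000000000000) (nat_lit 0x0) (nat_lit 0x5000100000000000000000000000000000000000000000000000000000) := D_39 (nat_lit 212) (nat_lit 230) (nat_lit 228) (nat_lit 7) (nat_lit 8) (nat_lit 9) (nat_lit 5) (nat_lit 8) (nat_lit 9) (by decide +kernel)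
theorem L103428 : W_39 (nat_lit 3) (nat_lit 0x2000080004800200012000c0000000000000000000000000000000) (nat_lit 0x0) (nat_lit 0x5000180004000000000000000000000000000000000000000000000000) := T_39 (nat_lit 211) (nat_lit 194) (nat_lit 5) (nat_lit 8) (nat_lit 8) L103427 (by decide +kernel)
theorem L103429 : W_39 (nat_lit 4) (nat_lit 0x80004800200012000c0000000000000000000000000000000) (nat_lit 0x0) (nat_lit 0x5000380014000000000000000000000000000000000000000000000000) := T_39 (nat_lit 213) (nat_lit 196) (nat_lit 7) (nat_lit 8) (nat_lit 8) L103428 (by decide +kernel)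
theorem L103430 : W_39 (nat_lit 14) (nat_lit 0x4800200012000c0000000000000000000000000000000) (nat_lit 0x0) (nat_lit 0x3c007e00ff001f80027001f0005c011c008c00000000000000000000000000) := Q_39 (nat_lit 195) (C_39 L103284 (C_39 L103406 (C_39 L103426 (C_39 L103429 N_39)))) (by decide +kernel)
theorem L103431 : W_39 (nat_lit 2) (nat_lit 0x7c00200012000c0000000000000000000000000000000) (nat_lit 0x0) (nat_lit 0x7000000000000000000000000000000000000000) := D_39 (nat_lit 157) (nat_lit 156) (nat_lit 158) (nat_lit 0) (nat_lit 7) (nat_lit 10) (nat_lit 0) (nat_lit 8) (nat_lit 10) (by decide +kernel)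
theorem L103432 : W_39 (nat_lit 3) (nat_lit 0x7800200012000c0000000000000000000000000000000) (nat_lit 0x0) (nat_lit 0x40017000000000000000000000000000000000000000) := T_39 (nat_lit 174) (nat_lit 160) (nat_lit 2) (nat_lit 4) (nat_lit 10) L103431 (by decide +kernel)
theorem L103433 : W_39 (nat_lit 4) (nat_lit 0x6800200012000c0000000000000000000000000000000) (nat_lit 0x0) (nat_lit 0x140057000000000000000000000000000000000000000) := T_39 (nat_lit 176) (nat_lit 162) (nat_lit 2) (nat_lit 5) (nat_lit 10) L103432 (by decide +kernel)
theorem L103434 : W_39 (nat_lit 5) (nat_lit 0x4800200012000c0000000000000000000000000000000) (nat_lit 0x0) (nat_lit 0x4000340057000000000000000000000000000000000000000) := T_39 (nat_lit 177) (nat_lit 194) (nat_lit 5) (nat_lit 8) (nat_lit 7) L103433 (by decide +kernel)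
theorem L103435 : W_39 (nat_lit 2) (nat_lit 0x90007800240012000c0000000000000000000000000000000) (nat_lit 0x0) (nat_lit 0x40002000000000000000010000000000000000000000000000000) := D_39 (nat_lit 193) (nat_lit 124) (nat_lit 210) (nat_lit 7) (nat_lit 5) (nat_lit 7) (nat_lit 7) (nat_lit 5) (nat_lit 8) (by decide +kernel)
theorem L103436 : W_39 (nat_lit 3) (nat_lit 0x80007800240012000c0000000000000000000000000000000) (nat_lit 0x0) (nat_lit 0x40003800000000000000010000000000000000000000000000000) := T_39 (nat_lit 192) (nat_lit 191) (nat_lit 1) (nat_lit 8) (nat_lit 10) L103435 (by decide +kernel)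
theorem L103437 : W_39 (nat_lit 4) (nat_lit 0x80007800200012000c0000000000000000000000000000000) (nat_lit 0x0) (nat_lit 0x40003800000006000000010000000000000000000000000000000) := T_39 (nat_lit 158) (nat_lit 157) (nat_lit 0) (nat_lit 8) (nat_lit 10) L103436 (by decide +kernel)
theorem L103438 : W_39 (nat_lit 5) (nat_lit 0x7800200012000c0000000000000000000000000000000) (nat_lit 0x0) (nat_lit 0x4001b800000006000000010000000000000000000000000000000) := T_39 (nat_lit 195) (nat_lit 196) (nat_lit 3) (nat_lit 5) (nat_lit 10) L103437 (by decide +kernel)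
theorem L103439 : W_39 (nat_lit 6) (nat_lit 0x6800200012000c0000000000000000000000000000000) (nat_lit 0x0) (nat_lit 0x4001b800100046000000010000000000000000000000000000000) := T_39 (nat_lit 176) (nat_lit 162) (nat_lit 2) (nat_lit 5) (nat_lit 10) L103438 (by decide +kernel)
theorem L103440 : W_39 (nat_lit 7) (nat_lit 0x4800200012000c0000000000000000000000000000000) (nat_lit 0x0) (nat_lit 0x4001f800300046000000010000000000000000000000000000000) := T_39 (nat_lit 177) (nat_lit 194) (nat_lit 5) (nat_lit 8) (nat_lit 7) L103439 (by decide +kernel)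
theorem L103441 : W_39 (nat_lit 2) (nat_lit 0x48002c0012000c0000000000000000000000000000000) (nat_lit 0x0) (nat_lit 0x40010000100000000000000000000000000000000000) := D_39 (nat_lit 160) (nat_lit 174) (nat_lit 140) (nat_lit 1) (nat_lit 8) (nat_lit 9) (nat_lit 0) (nat_lit 8) (nat_lit 9) (by decide +kernel)
theorem L103442 : W_39 (nat_lit 2) (nat_lit 0x48002c0012000d0000000000000000000000000000000) (nat_lit 0x0) (nat_lit 0x2000100000000000000000800000000000000000000000000) := D_39 (nat_lit 176) (nat_lit 193) (nat_lit 107) (nat_lit 7) (nat_lit 5) (nat_lit 7) (nat_lit 7) (nat_lit 5) (nat_lit 6) (by decide +kernel)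
theorem L103443 : W_39 (nat_lit 2) (nat_lit 0x100048002c0012001d8000000000000000000000000000000) (nat_lit 0x0) (nat_lit 0x10000800040000000000000000000000000000000000000000000) := D_39 (nat_lit 191) (nat_lit 208) (nat_lit 174) (nat_lit 5) (nat_lit 5) (nat_lit 8) (nat_lit 5) (nat_lit 5) (nat_lit 7) (by decide +kernel)
theorem L103444 : W_39 (nat_lit 3) (nat_lit 0x48002c0012001d8000000000000000000000000000000) (nat_lit 0x0) (nat_lit 0x10001800040000000100000000000000000000000000000000000) := T_39 (nat_lit 192) (nat_lit 140) (nat_lit 4) (nat_lit 5) (nat_lit 11) L103443 (by decide +kernel)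
theorem L103445 : W_39 (nat_lit 4) (nat_lit 0x48002c0012001d0000000000000000000000000000000) (nat_lit 0x0) (nat_lit 0x10001800040000000100008000400000000000000000000000000) := T_39 (nat_lit 123) (nat_lit 106) (nat_lit 4) (nat_lit 5) (nat_lit 10) L103444 (by decide +kernel)
theorem L103446 : W_39 (nat_lit 5) (nat_lit 0x48002c0012000d0000000000000000000000000000000) (nat_lit 0x0) (nat_lit 0x10001800040000000100108008400000000000000000000000000) := T_39 (nat_lit 128) (nat_lit 111) (nat_lit 6) (nat_lit 8) (nat_lit 10) L103445 (by decide +kernel)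
theorem L103447 : W_39 (nat_lit 6) (nat_lit 0x48002c0012000c0000000000000000000000000000000) (nat_lit 0x0) (nat_lit 0x10003800140000000100118008c00000000000000000000000000) := Q_39 (nat_lit 124) (C_39 L103442 (C_39 L103446 N_39)) (by decide +kernel)
theorem L103448 : W_39 (nat_lit 4) (nat_lit 0x48002c0012001c0000000000000000000000000000000) (nat_lit 0x0) (nat_lit 0x40002000100050000100010000000000000000000000000000000) := T_39 (nat_lit 160) (nat_lit 140) (nat_lit 0) (nat_lit 8) (nat_lit 9) L102109 (by decide +kernel)
theorem L103449 : W_39 (nat_lit 5) (nat_lit 0x48002c0012000c0000000000000000000000000000000) (nat_lit 0x0) (nat_lit 0x40002000100050000100110008000000000000000000000000000) := T_39 (nat_lit 128) (nat_lit 111) (nat_lit 6) (nat_lit 8) (nat_lit 10) L103448 (by decide +kernel)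
theorem L103450 : W_39 (nat_lit 2) (nat_lit 0x48003c0012000c0000000000000000000000000000000) (nat_lit 0x0) (nat_lit 0x100040000400000000000000000000000000000000000) := D_39 (nat_lit 162) (nat_lit 176) (nat_lit 142) (nat_lit 1) (nat_lit 9) (nat_lit 9) (nat_lit 0) (nat_lit 9) (nat_lit 9) (by decide +kernel)
theorem L103451 : W_39 (nat_lit 3) (nat_lit 0x48002c0012000c0000000000000000000000000000000) (nat_lit 0x0) (nat_lit 0x140050000400000000000000000000000000000000000) := T_39 (nat_lit 160) (nat_lit 174) (nat_lit 1) (nat_lit 8) (nat_lit 9) L103450 (by decide +kernel)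
theorem L103452 : W_39 (nat_lit 7) (nat_lit 0x4800240012000c0000000000000000000000000000000) (nat_lit 0x0) (nat_lit 0x50003800140058000500118008c00000000000000000000000000) := Q_39 (nat_lit 159) (C_39 L103441 (C_39 L103447 (C_39 L103449 (C_39 L103451 N_39)))) (by decide +kernel)
theorem L103453 : W_39 (nat_lit 2) (nat_lit 0x5800240012000c0000000000000000000000000000000) (nat_lit 0x0) (nat_lit 0x200042000000000000000000000000000000000000000) := D_39 (nat_lit 177) (nat_lit 157) (nat_lit 162) (nat_lit 0) (nat_lit 8) (nat_lit 10) (nat_lit 2) (nat_lit 5) (nat_lit 10) (by decide +kernel)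
theorem L103454 : W_39 (nat_lit 2) (nat_lit 0x10007800240012000c0000000000000000000000000000000) (nat_lit 0x0) (nat_lit 0x40002000000000000000010000000000000000000000000000000) := D_39 (nat_lit 193) (nat_lit 124) (nat_lit 210) (nat_lit 7) (nat_lit 5) (nat_lit 7) (nat_lit 7) (nat_lit 5) (nat_lit 8) (by decide +kernel)
theorem L103455 : W_39 (nat_lit 3) (nat_lit 0x7800240012000c0000000000000000000000000000000) (nat_lit 0x0) (nat_lit 0x40003800000000000000010000000000000000000000000000000) := T_39 (nat_lit 192) (nat_lit 191) (nat_lit 1) (nat_lit 8) (nat_lit 10) L103454 (by decide +kernel)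
theorem L103456 : W_39 (nat_lit 4) (nat_lit 0x5800240012000c0000000000000000000000000000000) (nat_lit 0x0) (nat_lit 0x40003800200002000000010000000000000000000000000000000) := T_39 (nat_lit 177) (nat_lit 157) (nat_lit 0) (nat_lit 8) (nat_lit 10) L103455 (by decide +kernel)
theorem L103457 : W_39 (nat_lit 2) (nat_lit 0x10005800240012000d8000000000000000000000000000000) (nat_lit 0x0) (nat_lit 0x10000800040000000000000000000000000000000000000000000) := D_39 (nat_lit 191) (nat_lit 208) (nat_lit 174) (nat_lit 5) (nat_lit 5) (nat_lit 8) (nat_lit 5) (nat_lit 5) (nat_lit 7) (by decide +kernel)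
theorem L103458 : W_39 (nat_lit 3) (nat_lit 0x5800240012000d8000000000000000000000000000000) (nat_lit 0x0) (nat_lit 0x10001800040000000100000000000000000000000000000000000) := T_39 (nat_lit 192) (nat_lit 140) (nat_lit 4) (nat_lit 5) (nat_lit 11) L103457 (by decide +kernel)
theorem L103459 : W_39 (nat_lit 4) (nat_lit 0x5800240012000d0000000000000000000000000000000) (nat_lit 0x0) (nat_lit 0x10001800040000000100008000400000000000000000000000000) := T_39 (nat_lit 123) (nat_lit 106) (nat_lit 4) (nat_lit 5) (nat_lit 10) L103458 (by decide +kernel)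
theorem L103460 : W_39 (nat_lit 5) (nat_lit 0x5800240012000c0000000000000000000000000000000) (nat_lit 0x0) (nat_lit 0x10003800040000000100018000400000000000000000000000000) := T_39 (nat_lit 124) (nat_lit 193) (nat_lit 7) (nat_lit 5) (nat_lit 7) L103459 (by decide +kernel)
theorem L103461 : W_39 (nat_lit 6) (nat_lit 0x4800240012000c0000000000000000000000000000000) (nat_lit 0x0) (nat_lit 0x50003800340042000100018000400000000000000000000000000) := Q_39 (nat_lit 176) (C_39 L103453 (C_39 L103456 (C_39 L103460 N_39))) (by decide +kernel)
theorem L103462 : W_39 (nat_lit 2) (nat_lit 0x200030004800240013001c0000000000000000000000000000000) (nat_lit 0x0) (nat_lit 0x200010000800000000000000000000000000000000000000000000000) := D_39 (nat_lit 208) (nat_lit 225) (nat_lit 191) (nat_lit 5) (nat_lit 5) (nat_lit 9) (nat_lit 5) (nat_lit 5) (nat_lit 8) (by decide +kernel)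
theorem L103463 : W_39 (nat_lit 3) (nat_lit 0x30004800240013001c0000000000000000000000000000000) (nat_lit 0x0) (nat_lit 0x200030000800000002000000000000000000000000000000000000000) := T_39 (nat_lit 209) (nat_lit 157) (nat_lit 4) (nat_lit 5) (nat_lit 12) L103462 (by decide +kernel)
theorem L103464 : W_39 (nat_lit 4) (nat_lit 0x30004800240012001c0000000000000000000000000000000) (nat_lit 0x0) (nat_lit 0x200030000800000002000100008000000000000000000000000000000) := T_39 (nat_lit 140) (nat_lit 123) (nat_lit 4) (nat_lit 5) (nat_lit 11) L103463 (by decide +kernel)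
theorem L103465 : W_39 (nat_lit 5) (nat_lit 0x10004800240012001c0000000000000000000000000000000) (nat_lit 0x0) (nat_lit 0x200070002800000002000100008000000000000000000000000000000) := T_39 (nat_lit 193) (nat_lit 210) (nat_lit 7) (nat_lit 5) (nat_lit 8) L103464 (by decide +kernel)
theorem L103466 : W_39 (nat_lit 6) (nat_lit 0x10004800240012000c0000000000000000000000000000000) (nat_lit 0x0) (nat_lit 0x200070002800000002000100108008000000000000000000000000000) := T_39 (nat_lit 128) (nat_lit 111) (nat_lit 6) (nat_lit 8) (nat_lit 10) L103465 (by decide +kernel)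
theorem L103467 : W_39 (nat_lit 2) (nat_lit 0x38004800240012000d0000000000000000000000000000000) (nat_lit 0x0) (nat_lit 0x100008000400000000000000000000000000) := D_39 (nat_lit 123) (nat_lit 140) (nat_lit 106) (nat_lit 4) (nat_lit 5) (nat_lit 11) (nat_lit 4) (nat_lit 5) (nat_lit 10) (by decide +kernel)
theorem L103468 : W_39 (nat_lit 3) (nat_lit 0x38004800240012000c0000000000000000000000000000000) (nat_lit 0x0) (nat_lit 0x40000000100018000400000000000000000000000000) := T_39 (nat_lit 124) (nat_lit 174) (nat_lit 5) (nat_lit 5) (nat_lit 7) L103467 (by decide +kernel)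
theorem L103469 : W_39 (nat_lit 4) (nat_lit 0x18004800240012000c0000000000000000000000000000000) (nat_lit 0x0) (nat_lit 0x40002000040000000100018000400000000000000000000000000) := T_39 (nat_lit 193) (nat_lit 210) (nat_lit 7) (nat_lit 5) (nat_lit 8) L103468 (by decide +kernel)
theorem L103470 : W_39 (nat_lit 5) (nat_lit 0x10004800240012000c0000000000000000000000000000000) (nat_lit 0x0) (nat_lit 0x50002800040000000100018000400000000000000000000000000) := T_39 (nat_lit 191) (nat_lit 208) (nat_lit 5) (nat_lit 5) (nat_lit 8) L103469 (by decide +kernel)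
theorem L103471 : W_39 (nat_lit 2) (nat_lit 0x200010004800240013000c0000000000000000000000000000000) (nat_lit 0x0) (nat_lit 0x200010000800000000000000000000000000000000000000000000000) := D_39 (nat_lit 208) (nat_lit 225) (nat_lit 191) (nat_lit 5) (nat_lit 5) (nat_lit 9) (nat_lit 5) (nat_lit 5) (nat_lit 8) (by decide +kernel)
theorem L103472 : W_39 (nat_lit 3) (nat_lit 0x10004800240013000c0000000000000000000000000000000) (nat_lit 0x0) (nat_lit 0x200030000800000002000000000000000000000000000000000000000) := T_39 (nat_lit 209) (nat_lit 157) (nat_lit 4) (nat_lit 5) (nat_lit 12) L103471 (by decide +kernel)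
theorem L103473 : W_39 (nat_lit 4) (nat_lit 0x10004800240012000c0000000000000000000000000000000) (nat_lit 0x0) (nat_lit 0x200030000800000002000100008000000000000000000000000000000) := T_39 (nat_lit 140) (nat_lit 123) (nat_lit 4) (nat_lit 5) (nat_lit 11) L103472 (by decide +kernel)
theorem L103474 : W_39 (nat_lit 2) (nat_lit 0x200010004800240013001c0000000000000000000000000000000) (nat_lit 0x0) (nat_lit 0x18000400000000000000000000000000000000000) := D_39 (nat_lit 159) (nat_lit 160) (nat_lit 142) (nat_lit 0) (nat_lit 8) (nat_lit 9) (nat_lit 6) (nat_lit 5) (nat_lit 12) (by decide +kernel)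
theorem L103475 : W_39 (nat_lit 3) (nat_lit 0x10004800240013001c0000000000000000000000000000000) (nat_lit 0x0) (nat_lit 0x2000000000001a000400000000000000000000000000000000000) := T_39 (nat_lit 209) (nat_lit 157) (nat_lit 4) (nat_lit 5) (nat_lit 12) L103474 (by decide +kernel)
theorem L103476 : W_39 (nat_lit 4) (nat_lit 0x10004800240012001c0000000000000000000000000000000) (nat_lit 0x0) (nat_lit 0x2000000000001a000500008000000000000000000000000000000) := T_39 (nat_lit 140) (nat_lit 123) (nat_lit 4) (nat_lit 5) (nat_lit 11) L103475 (by decide +kernel)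
theorem L103477 : W_39 (nat_lit 5) (nat_lit 0x10004800240012000c0000000000000000000000000000000) (nat_lit 0x0) (nat_lit 0x2000000000001a000500108008000000000000000000000000000) := T_39 (nat_lit 128) (nat_lit 111) (nat_lit 6) (nat_lit 8) (nat_lit 10) L103476 (by decide +kernel)
theorem L103478 : W_39 (nat_lit 2) (nat_lit 0x200038004d002c0012001c0000000000000000000000000000000) (nat_lit 0x0) (nat_lit 0x8000400000000000000002000000000000000000000000000000000000000) := D_39 (nat_lit 226) (nat_lit 157) (nat_lit 243) (nat_lit 4) (nat_lit 5) (nat_lit 13) (nat_lit 4) (nat_lit 5) (nat_lit 14) (by decide +kernel)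
theorem L103479 : W_39 (nat_lit 3) (nat_lit 0x38004d002c0012001c0000000000000000000000000000000) (nat_lit 0x0) (nat_lit 0x8000400020000000000002000400000000000000000000000000000000000) := T_39 (nat_lit 209) (nat_lit 142) (nat_lit 6) (nat_lit 5) (nat_lit 12) L103478 (by decide +kernel)
theorem L103480 : W_39 (nat_lit 4) (nat_lit 0x38004d00240012001c0000000000000000000000000000000) (nat_lit 0x0) (nat_lit 0x800040002000000000001a000400000000000000000000000000000000000) := T_39 (nat_lit 159) (nat_lit 160) (nat_lit 1) (nat_lit 8) (nat_lit 9) L103479 (by decide +kernel)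
theorem L103481 : W_39 (nat_lit 5) (nat_lit 0x38004c00240012001c0000000000000000000000000000000) (nat_lit 0x0) (nat_lit 0x800040002000000003001a000400000000000000000000000000000000000) := T_39 (nat_lit 172) (nat_lit 173) (nat_lit 3) (nat_lit 2) (nat_lit 10) L103480 (by decide +kernel)
theorem L103482 : W_39 (nat_lit 6) (nat_lit 0x38004800240012001c0000000000000000000000000000000) (nat_lit 0x0) (nat_lit 0x800040002000000007001a000400010000000000000000000000000000000) := T_39 (nat_lit 174) (nat_lit 124) (nat_lit 5) (nat_lit 5) (nat_lit 7) L103481 (by decide +kernel)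
theorem L103483 : W_39 (nat_lit 7) (nat_lit 0x30004800240012001c0000000000000000000000000000000) (nat_lit 0x0) (nat_lit 0x800040003000080007001a000400010000000000000000000000000000000) := T_39 (nat_lit 191) (nat_lit 208) (nat_lit 5) (nat_lit 5) (nat_lit 8) L103482 (by decide +kernel)
theorem L103484 : W_39 (nat_lit 8) (nat_lit 0x30004800240012000c0000000000000000000000000000000) (nat_lit 0x0) (nat_lit 0x800040003000080007001a000400110008000000000000000000000000000) := T_39 (nat_lit 128) (nat_lit 111) (nat_lit 6) (nat_lit 8) (nat_lit 10) L103483 (by decide +kernel)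
theorem L103485 : W_39 (nat_lit 9) (nat_lit 0x10004800240012000c0000000000000000000000000000000) (nat_lit 0x0) (nat_lit 0x800040007000280007001a000400110008000000000000000000000000000) := T_39 (nat_lit 193) (nat_lit 210) (nat_lit 7) (nat_lit 5) (nat_lit 8) L103484 (by decide +kernel)
theorem L103486 : W_39 (nat_lit 10) (nat_lit 0x4800240012000c0000000000000000000000000000000) (nat_lit 0x0) (nat_lit 0x800060007000380007001a000500118008400000000000000000000000000) := Q_39 (nat_lit 192) (C_39 L103466 (C_39 L103470 (C_39 L103473 (C_39 L103477 (C_39 L103485 N_39))))) (by decide +kernel)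
theorem L103487 : W_39 (nat_lit 2) (nat_lit 0x5c00360013001dc000000000000000000000000000000) (nat_lit 0x0) (nat_lit 0x400003000000000000000000000000000000) := D_39 (nat_lit 121) (nat_lit 142) (nat_lit 120) (nat_lit 3) (nat_lit 2) (nat_lit 7) (nat_lit 3) (nat_lit 1) (nat_lit 7) (by decide +kernel)
theorem L103488 : W_39 (nat_lit 3) (nat_lit 0x5c00360013001d8000000000000000000000000000000) (nat_lit 0x0) (nat_lit 0x400007000200000000000000000000000000) := T_39 (nat_lit 122) (nat_lit 105) (nat_lit 4) (nat_lit 4) (nat_lit 10) L103487 (by decide +kernel)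
theorem L103489 : W_39 (nat_lit 4) (nat_lit 0x5c00340013001d8000000000000000000000000000000) (nat_lit 0x0) (nat_lit 0x2000400007000a00000000000000000000000000) := T_39 (nat_lit 157) (nat_lit 107) (nat_lit 6) (nat_lit 4) (nat_lit 10) L103488 (by decide +kernel)
theorem L103490 : W_39 (nat_lit 5) (nat_lit 0x4c00340013001d8000000000000000000000000000000) (nat_lit 0x0) (nat_lit 0x300002000400007000a00000000000000000000000000) := T_39 (nat_lit 176) (nat_lit 177) (nat_lit 2) (nat_lit 4) (nat_lit 10) L103489 (by decide +kernel)
theorem L103491 : W_39 (nat_lit 6) (nat_lit 0x4c00340012001d8000000000000000000000000000000) (nat_lit 0x0) (nat_lit 0x1000300002000500007000a00000000000000000000000000) := T_39 (nat_lit 140) (nat_lit 192) (nat_lit 4) (nat_lit 5) (nat_lit 11) L103490 (by decide +kernel)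
theorem L103492 : W_39 (nat_lit 7) (nat_lit 0x4c00340012001d0000000000000000000000000000000) (nat_lit 0x0) (nat_lit 0x100030000200050000f000e00000000000000000000000000) := T_39 (nat_lit 123) (nat_lit 106) (nat_lit 4) (nat_lit 5) (nat_lit 10) L103491 (by decide +kernel)
theorem L103493 : W_39 (nat_lit 8) (nat_lit 0x4c00240012001d0000000000000000000000000000000) (nat_lit 0x0) (nat_lit 0x100030001a00050000f000e00000000000000000000000000) := T_39 (nat_lit 160) (nat_lit 159) (nat_lit 1) (nat_lit 8) (nat_lit 9) L103492 (by decide +kernel)
theorem L103494 : W_39 (nat_lit 9) (nat_lit 0x4c00240012001c0000000000000000000000000000000) (nat_lit 0x0) (nat_lit 0x180030001a00050001f000e00000000000000000000000000) := T_39 (nat_lit 124) (nat_lit 191) (nat_lit 5) (nat_lit 5) (nat_lit 7) L103493 (by decide +kernel)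
theorem L103495 : W_39 (nat_lit 10) (nat_lit 0x4c00240012000c0000000000000000000000000000000) (nat_lit 0x0) (nat_lit 0x180030001a00050011f008e00000000000000000000000000) := T_39 (nat_lit 128) (nat_lit 111) (nat_lit 6) (nat_lit 8) (nat_lit 10) L103494 (by decide +kernel)
theorem L103496 : W_39 (nat_lit 2) (nat_lit 0x200010004c00240013001c0000000000000000000000000000000) (nat_lit 0x0) (nat_lit 0x18000400000000000000000000000000000000000) := D_39 (nat_lit 159) (nat_lit 142) (nat_lit 160) (nat_lit 6) (nat_lit 5) (nat_lit 12) (nat_lit 1) (nat_lit 8) (nat_lit 9) (by decide +kernel)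
theorem L103497 : W_39 (nat_lit 3) (nat_lit 0x10004c00240013001c0000000000000000000000000000000) (nat_lit 0x0) (nat_lit 0x2000000000001a000400000000000000000000000000000000000) := T_39 (nat_lit 209) (nat_lit 157) (nat_lit 4) (nat_lit 5) (nat_lit 12) L103496 (by decide +kernel)
theorem L103498 : W_39 (nat_lit 4) (nat_lit 0x10004c00240012001c0000000000000000000000000000000) (nat_lit 0x0) (nat_lit 0x2000000000001a000500008000000000000000000000000000000) := T_39 (nat_lit 140) (nat_lit 123) (nat_lit 4) (nat_lit 5) (nat_lit 11) L103497 (by decide +kernel)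
theorem L103499 : W_39 (nat_lit 5) (nat_lit 0x10004c00240012000c0000000000000000000000000000000) (nat_lit 0x0) (nat_lit 0x2000000000001a000500108008000000000000000000000000000) := T_39 (nat_lit 128) (nat_lit 111) (nat_lit 6) (nat_lit 8) (nat_lit 10) L103498 (by decide +kernel)
theorem L103500 : W_39 (nat_lit 2) (nat_lit 0x200010004c00240013000c0000000000000000000000000000000) (nat_lit 0x0) (nat_lit 0x18000400000000000000000000000000000000000) := D_39 (nat_lit 159) (nat_lit 142) (nat_lit 160) (nat_lit 6) (nat_lit 5) (nat_lit 12) (nat_lit 1) (nat_lit 8) (nat_lit 9) (by decide +kernel)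
theorem L103501 : W_39 (nat_lit 3) (nat_lit 0x10004c00240013000c0000000000000000000000000000000) (nat_lit 0x0) (nat_lit 0x2000000000001a000400000000000000000000000000000000000) := T_39 (nat_lit 209) (nat_lit 157) (nat_lit 4) (nat_lit 5) (nat_lit 12) L103500 (by decide +kernel)
theorem L103502 : W_39 (nat_lit 4) (nat_lit 0x10004c00240012000c0000000000000000000000000000000) (nat_lit 0x0) (nat_lit 0x2000000000001a000500008000000000000000000000000000000) := T_39 (nat_lit 140) (nat_lit 123) (nat_lit 4) (nat_lit 5) (nat_lit 11) L103501 (by decide +kernel)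
theorem L103503 : W_39 (nat_lit 2) (nat_lit 0x200010004c00240013000c0000000000000000000000000000000) (nat_lit 0x0) (nat_lit 0x200010000800000000000000000000000000000000000000000000000) := D_39 (nat_lit 208) (nat_lit 191) (nat_lit 225) (nat_lit 5) (nat_lit 5) (nat_lit 8) (nat_lit 5) (nat_lit 5) (nat_lit 9) (by decide +kernel)
theorem L103504 : W_39 (nat_lit 3) (nat_lit 0x10004c00240013000c0000000000000000000000000000000) (nat_lit 0x0) (nat_lit 0x200030000800000002000000000000000000000000000000000000000) := T_39 (nat_lit 209) (nat_lit 157) (nat_lit 4) (nat_lit 5) (nat_lit 12) L103503 (by decide +kernel)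
theorem L103505 : W_39 (nat_lit 4) (nat_lit 0x10004c00240012000c0000000000000000000000000000000) (nat_lit 0x0) (nat_lit 0x200030000800000002000100008000000000000000000000000000000) := T_39 (nat_lit 140) (nat_lit 123) (nat_lit 4) (nat_lit 5) (nat_lit 11) L103504 (by decide +kernel)
theorem L103506 : W_39 (nat_lit 2) (nat_lit 0x1c005c00368013801c0000000000000000000000000000000) (nat_lit 0x0) (nat_lit 0x400060000000000000000000000000000000000) := D_39 (nat_lit 138) (nat_lit 137) (nat_lit 154) (nat_lit 3) (nat_lit 1) (nat_lit 8) (nat_lit 1) (nat_lit 5) (nat_lit 8) (by decide +kernel)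
theorem L103507 : W_39 (nat_lit 3) (nat_lit 0x1c005c00368013001c0000000000000000000000000000000) (nat_lit 0x0) (nat_lit 0x4000e0004000000000000000000000000000000) := T_39 (nat_lit 139) (nat_lit 122) (nat_lit 4) (nat_lit 4) (nat_lit 11) L103506 (by decide +kernel)
theorem L103508 : W_39 (nat_lit 4) (nat_lit 0x1c005c00360013001c0000000000000000000000000000000) (nat_lit 0x0) (nat_lit 0x1c000e0004000000000000000000000000000000) := T_39 (nat_lit 155) (nat_lit 156) (nat_lit 3) (nat_lit 2) (nat_lit 9) L103507 (by decide +kernel)
theorem L103509 : W_39 (nat_lit 5) (nat_lit 0x1c005c00340013001c0000000000000000000000000000000) (nat_lit 0x0) (nat_lit 0x8000000000003c000e0004000000000000000000000000000000) := T_39 (nat_lit 157) (nat_lit 207) (nat_lit 5) (nat_lit 4) (nat_lit 8) L103508 (by decide +kernel)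
theorem L103510 : W_39 (nat_lit 6) (nat_lit 0x18005c00340013001c0000000000000000000000000000000) (nat_lit 0x0) (nat_lit 0x8000600000003c000e0004000000000000000000000000000000) := T_39 (nat_lit 190) (nat_lit 189) (nat_lit 2) (nat_lit 2) (nat_lit 11) L103509 (by decide +kernel)
theorem L103511 : W_39 (nat_lit 7) (nat_lit 0x18005c00340013000c0000000000000000000000000000000) (nat_lit 0x0) (nat_lit 0x8000600000003c000e0104008000000000000000000000000000) := T_39 (nat_lit 128) (nat_lit 111) (nat_lit 6) (nat_lit 8) (nat_lit 10) L103510 (by decide +kernel)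
theorem L103512 : W_39 (nat_lit 8) (nat_lit 0x18004c00340013000c0000000000000000000000000000000) (nat_lit 0x0) (nat_lit 0x8000600300003c000e0104008000000000000000000000000000) := T_39 (nat_lit 176) (nat_lit 177) (nat_lit 2) (nat_lit 4) (nat_lit 10) L103511 (by decide +kernel)
theorem L103513 : W_39 (nat_lit 9) (nat_lit 0x10004c00340013000c0000000000000000000000000000000) (nat_lit 0x0) (nat_lit 0x18000e00300003c000e0104008000000000000000000000000000) := T_39 (nat_lit 191) (nat_lit 208) (nat_lit 5) (nat_lit 5) (nat_lit 8) L103512 (by decide +kernel)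
theorem L103514 : W_39 (nat_lit 10) (nat_lit 0x10004c00240013000c0000000000000000000000000000000) (nat_lit 0x0) (nat_lit 0x18000e0030001bc000e0104008000000000000000000000000000) := T_39 (nat_lit 160) (nat_lit 159) (nat_lit 1) (nat_lit 8) (nat_lit 9) L103513 (by decide +kernel)
theorem L103515 : W_39 (nat_lit 11) (nat_lit 0x10004c00240012000c0000000000000000000000000000000) (nat_lit 0x0) (nat_lit 0x18000e0030001bc001e010c008000000000000000000000000000) := T_39 (nat_lit 140) (nat_lit 123) (nat_lit 4) (nat_lit 5) (nat_lit 11) L103514 (by decide +kernel)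
theorem L103516 : W_39 (nat_lit 2) (nat_lit 0x200018006d002c0012001c0000000000000000000000000000000) (nat_lit 0x0) (nat_lit 0x8000400000000000000002000000000000000000000000000000000000000) := D_39 (nat_lit 226) (nat_lit 243) (nat_lit 157) (nat_lit 4) (nat_lit 5) (nat_lit 14) (nat_lit 4) (nat_lit 5) (nat_lit 13) (by decide +kernel)
theorem L103517 : W_39 (nat_lit 3) (nat_lit 0x18006d002c0012001c0000000000000000000000000000000) (nat_lit 0x0) (nat_lit 0x8000400020000000000002000400000000000000000000000000000000000) := T_39 (nat_lit 209) (nat_lit 142) (nat_lit 6) (nat_lit 5) (nat_lit 12) L103516 (by decide +kernel)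
theorem L103518 : W_39 (nat_lit 4) (nat_lit 0x18006c002c0012001c0000000000000000000000000000000) (nat_lit 0x0) (nat_lit 0x8000400020000000030002000400000000000000000000000000000000000) := T_39 (nat_lit 172) (nat_lit 173) (nat_lit 2) (nat_lit 2) (nat_lit 10) L103517 (by decide +kernel)
theorem L103519 : W_39 (nat_lit 5) (nat_lit 0x18006c002c0012000c0000000000000000000000000000000) (nat_lit 0x0) (nat_lit 0x8000400020000000030002000400100008000000000000000000000000000) := T_39 (nat_lit 128) (nat_lit 111) (nat_lit 6) (nat_lit 8) (nat_lit 10) L103518 (by decide +kernel)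
theorem L103520 : W_39 (nat_lit 6) (nat_lit 0x18006c00240012000c0000000000000000000000000000000) (nat_lit 0x0) (nat_lit 0x800040002000000003001a000400100008000000000000000000000000000) := T_39 (nat_lit 159) (nat_lit 160) (nat_lit 1) (nat_lit 8) (nat_lit 9) L103519 (by decide +kernel)
theorem L103521 : W_39 (nat_lit 7) (nat_lit 0x18004c00240012000c0000000000000000000000000000000) (nat_lit 0x0) (nat_lit 0x800040002000000033001a000400100008000000000000000000000000000) := T_39 (nat_lit 177) (nat_lit 176) (nat_lit 1) (nat_lit 8) (nat_lit 10) L103520 (by decide +kernel)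
theorem L103522 : W_39 (nat_lit 8) (nat_lit 0x10004c00240012000c0000000000000000000000000000000) (nat_lit 0x0) (nat_lit 0x800040003000080033001a000400100008000000000000000000000000000) := T_39 (nat_lit 191) (nat_lit 208) (nat_lit 5) (nat_lit 5) (nat_lit 8) L103521 (by decide +kernel)
theorem L103523 : W_39 (nat_lit 2) (nat_lit 0x8000200018006c002c0013001c0000000000000000000000000000000) (nat_lit 0x0) (nat_lit 0x18000400000000000000000000000000000000000000000000000000000000) := D_39 (nat_lit 226) (nat_lit 243) (nat_lit 244) (nat_lit 4) (nat_lit 5) (nat_lit 14) (nat_lit 7) (nat_lit 5) (nat_lit 10) (by decide +kernel)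
theorem L103524 : W_39 (nat_lit 3) (nat_lit 0x200018006c002c0013001c0000000000000000000000000000000) (nat_lit 0x0) (nat_lit 0x18000c00040000000000000000000000000000000000000000000000000000) := T_39 (nat_lit 227) (nat_lit 210) (nat_lit 7) (nat_lit 5) (nat_lit 9) L103523 (by decide +kernel)
theorem L103525 : W_39 (nat_lit 4) (nat_lit 0x18006c002c0013001c0000000000000000000000000000000) (nat_lit 0x0) (nat_lit 0x18000c00060000000000000000400000000000000000000000000000000000) := T_39 (nat_lit 209) (nat_lit 142) (nat_lit 6) (nat_lit 5) (nat_lit 12) L103524 (by decide +kernel)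
theorem L103526 : W_39 (nat_lit 5) (nat_lit 0x18004c002c0013001c0000000000000000000000000000000) (nat_lit 0x0) (nat_lit 0x18000c00060000000300000000400000000000000000000000000000000000) := T_39 (nat_lit 177) (nat_lit 176) (nat_lit 1) (nat_lit 8) (nat_lit 10) L103525 (by decide +kernel)
theorem L103527 : W_39 (nat_lit 6) (nat_lit 0x10004c002c0013001c0000000000000000000000000000000) (nat_lit 0x0) (nat_lit 0x18000c00070000800300000000400000000000000000000000000000000000) := T_39 (nat_lit 191) (nat_lit 208) (nat_lit 5) (nat_lit 5) (nat_lit 8) L103526 (by decide +kernel)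
theorem L103528 : W_39 (nat_lit 7) (nat_lit 0x10004c00240013001c0000000000000000000000000000000) (nat_lit 0x0) (nat_lit 0x18000c00070000800300018000400000000000000000000000000000000000) := T_39 (nat_lit 159) (nat_lit 160) (nat_lit 1) (nat_lit 8) (nat_lit 9) L103527 (by decide +kernel)
theorem L103529 : W_39 (nat_lit 8) (nat_lit 0x10004c00240012001c0000000000000000000000000000000) (nat_lit 0x0) (nat_lit 0x18000c00070000800300018000500008000000000000000000000000000000) := T_39 (nat_lit 140) (nat_lit 123) (nat_lit 4) (nat_lit 5) (nat_lit 11) L103528 (by decide +kernel)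
theorem L103530 : W_39 (nat_lit 9) (nat_lit 0x10004c00240012000c0000000000000000000000000000000) (nat_lit 0x0) (nat_lit 0x18000c00070000800300018000500108008000000000000000000000000000) := T_39 (nat_lit 128) (nat_lit 111) (nat_lit 6) (nat_lit 8) (nat_lit 10) L103529 (by decide +kernel)
theorem L103531 : W_39 (nat_lit 12) (nat_lit 0x4c00240012000c0000000000000000000000000000000) (nat_lit 0x0) (nat_lit 0x18000e00078001e0033001bc005e010c008000000000000000000000000000) := Q_39 (nat_lit 192) (C_39 L103499 (C_39 L103502 (C_39 L103505 (C_39 L103515 (C_39 L103522 (C_39 L103530 N_39)))))) (by decide +kernel)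
theorem L103532 : W_39 (nat_lit 2) (nat_lit 0x5c00360013000dc000000000000000000000000000000) (nat_lit 0x0) (nat_lit 0x400003000000000000000000000000000000) := D_39 (nat_lit 121) (nat_lit 142) (nat_lit 120) (nat_lit 3) (nat_lit 2) (nat_lit 7) (nat_lit 3) (nat_lit 1) (nat_lit 7) (by decide +kernel)
theorem L103533 : W_39 (nat_lit 3) (nat_lit 0x5c00360013000d8000000000000000000000000000000) (nat_lit 0x0) (nat_lit 0x400007000200000000000000000000000000) := T_39 (nat_lit 122) (nat_lit 105) (nat_lit 4) (nat_lit 4) (nat_lit 10) L103532 (by decide +kernel)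
theorem L103534 : W_39 (nat_lit 4) (nat_lit 0x5c00340013000d8000000000000000000000000000000) (nat_lit 0x0) (nat_lit 0x2000400007000a00000000000000000000000000) := T_39 (nat_lit 157) (nat_lit 107) (nat_lit 6) (nat_lit 4) (nat_lit 10) L103533 (by decide +kernel)
theorem L103535 : W_39 (nat_lit 5) (nat_lit 0x4c00340013000d8000000000000000000000000000000) (nat_lit 0x0) (nat_lit 0x300002000400007000a00000000000000000000000000) := T_39 (nat_lit 176) (nat_lit 177) (nat_lit 2) (nat_lit 4) (nat_lit 10) L103534 (by decide +kernel)
theorem L103536 : W_39 (nat_lit 6) (nat_lit 0x4c00340012000d8000000000000000000000000000000) (nat_lit 0x0) (nat_lit 0x1000300002000500007000a00000000000000000000000000) := T_39 (nat_lit 140) (nat_lit 192) (nat_lit 4) (nat_lit 5) (nat_lit 11) L103535 (by decide +kernel)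
theorem L103537 : W_39 (nat_lit 7) (nat_lit 0x4c00340012000d0000000000000000000000000000000) (nat_lit 0x0) (nat_lit 0x100030000200050000f000e00000000000000000000000000) := T_39 (nat_lit 123) (nat_lit 106) (nat_lit 4) (nat_lit 5) (nat_lit 10) L103536 (by decide +kernel)
theorem L103538 : W_39 (nat_lit 8) (nat_lit 0x4c00240012000d0000000000000000000000000000000) (nat_lit 0x0) (nat_lit 0x100030001a00050000f000e00000000000000000000000000) := T_39 (nat_lit 160) (nat_lit 159) (nat_lit 1) (nat_lit 8) (nat_lit 9) L103537 (by decide +kernel)
theorem L103539 : W_39 (nat_lit 9) (nat_lit 0x4c00240012000c0000000000000000000000000000000) (nat_lit 0x0) (nat_lit 0x180030001a00050001f000e00000000000000000000000000) := T_39 (nat_lit 124) (nat_lit 191) (nat_lit 5) (nat_lit 5) (nat_lit 7) L103538 (by decide +kernel)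
theorem L103540 : W_39 (nat_lit 2) (nat_lit 0x10004c002c0012001d8000800000000000000000000000000) (nat_lit 0x0) (nat_lit 0x20000000000000000400000000000040000000000000000000000) := D_39 (nat_lit 142) (nat_lit 90) (nat_lit 209) (nat_lit 7) (nat_lit 5) (nat_lit 5) (nat_lit 6) (nat_lit 5) (nat_lit 12) (by decide +kernel)
theorem L103541 : W_39 (nat_lit 3) (nat_lit 0x10004c00240012001d8000800000000000000000000000000) (nat_lit 0x0) (nat_lit 0x20000000100008000400000000000040000000000000000000000) := T_39 (nat_lit 159) (nat_lit 176) (nat_lit 7) (nat_lit 5) (nat_lit 6) L103540 (by decide +kernel)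
theorem L103542 : W_39 (nat_lit 4) (nat_lit 0x10004c00240012001d8000000000000000000000000000000) (nat_lit 0x0) (nat_lit 0x2000000010000a000400000000800040000000000000000000000) := T_39 (nat_lit 107) (nat_lit 157) (nat_lit 5) (nat_lit 5) (nat_lit 6) L103541 (by decide +kernel)
theorem L103543 : W_39 (nat_lit 5) (nat_lit 0x4c00240012001d8000000000000000000000000000000) (nat_lit 0x0) (nat_lit 0x2000100010000a000500000000800040000000000000000000000) := T_39 (nat_lit 192) (nat_lit 140) (nat_lit 4) (nat_lit 5) (nat_lit 11) L103542 (by decide +kernel)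
theorem L103544 : W_39 (nat_lit 6) (nat_lit 0x4c00240012001d0000000000000000000000000000000) (nat_lit 0x0) (nat_lit 0x2000100010000a000500008000c00040000000000000000000000) := T_39 (nat_lit 123) (nat_lit 106) (nat_lit 4) (nat_lit 5) (nat_lit 10) L103543 (by decide +kernel)
theorem L103545 : W_39 (nat_lit 7) (nat_lit 0x4c00240012000d0000000000000000000000000000000) (nat_lit 0x0) (nat_lit 0x2000100010000a000500108008c00040000000000000000000000) := T_39 (nat_lit 128) (nat_lit 111) (nat_lit 6) (nat_lit 8) (nat_lit 10) L103544 (by decide +kernel)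
theorem L103546 : W_39 (nat_lit 8) (nat_lit 0x4c00240012000c0000000000000000000000000000000) (nat_lit 0x0) (nat_lit 0x2000180010000a000500118008c00040000000000000000000000) := T_39 (nat_lit 124) (nat_lit 191) (nat_lit 5) (nat_lit 5) (nat_lit 7) L103545 (by decide +kernel)
theorem L103547 : W_39 (nat_lit 2) (nat_lit 0x4c00340013000d8000800040000000000000000000000) (nat_lit 0x0) (nat_lit 0x1000080004000000000000000000) := D_39 (nat_lit 91) (nat_lit 108) (nat_lit 74) (nat_lit 6) (nat_lit 5) (nat_lit 9) (nat_lit 6) (nat_lit 5) (nat_lit 8) (by decide +kernel)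
theorem L103548 : W_39 (nat_lit 3) (nat_lit 0x4c00340013000d8000800000000000000000000000000) (nat_lit 0x0) (nat_lit 0x10000c0006000000000000000000) := T_39 (nat_lit 90) (nat_lit 73) (nat_lit 5) (nat_lit 5) (nat_lit 4) L103547 (by decide +kernel)
theorem L103549 : W_39 (nat_lit 4) (nat_lit 0x4c00340013000d8000000000000000000000000000000) (nat_lit 0x0) (nat_lit 0x20000000000018000c0006000000000000000000) := T_39 (nat_lit 107) (nat_lit 157) (nat_lit 6) (nat_lit 4) (nat_lit 10) L103548 (by decide +kernel)
theorem L103550 : W_39 (nat_lit 5) (nat_lit 0x4c00340012000d8000000000000000000000000000000) (nat_lit 0x0) (nat_lit 0x10000000020001000000018000c0006000000000000000000) := T_39 (nat_lit 140) (nat_lit 192) (nat_lit 4) (nat_lit 5) (nat_lit 11) L103549 (by decide +kernel)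
theorem L103551 : W_39 (nat_lit 6) (nat_lit 0x4c00340012000d0000000000000000000000000000000) (nat_lit 0x0) (nat_lit 0x1000000002000100008001c000c0006000000000000000000) := T_39 (nat_lit 123) (nat_lit 106) (nat_lit 4) (nat_lit 5) (nat_lit 10) L103550 (by decide +kernel)
theorem L103552 : W_39 (nat_lit 7) (nat_lit 0x4c00240012000d0000000000000000000000000000000) (nat_lit 0x0) (nat_lit 0x100000001a000100008001c000c0006000000000000000000) := T_39 (nat_lit 160) (nat_lit 159) (nat_lit 1) (nat_lit 8) (nat_lit 9) L103551 (by decide +kernel)
theorem L103553 : W_39 (nat_lit 8) (nat_lit 0x4c00240012000c0000000000000000000000000000000) (nat_lit 0x0) (nat_lit 0x180000001a000100018001c000c0006000000000000000000) := T_39 (nat_lit 124) (nat_lit 191) (nat_lit 5) (nat_lit 5) (nat_lit 7) L103552 (by decide +kernel)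
theorem L103554 : W_39 (nat_lit 2) (nat_lit 0x4c00240013001d8000800040000000000000000000000) (nat_lit 0x0) (nat_lit 0x1000080004000000000000000000) := D_39 (nat_lit 91) (nat_lit 108) (nat_lit 74) (nat_lit 6) (nat_lit 5) (nat_lit 9) (nat_lit 6) (nat_lit 5) (nat_lit 8) (by decide +kernel)
theorem L103555 : W_39 (nat_lit 3) (nat_lit 0x4c00240013001d8000800000000000000000000000000) (nat_lit 0x0) (nat_lit 0x10000c0006000000000000000000) := T_39 (nat_lit 90) (nat_lit 73) (nat_lit 5) (nat_lit 5) (nat_lit 4) L103554 (by decide +kernel)
theorem L103556 : W_39 (nat_lit 4) (nat_lit 0x4c00240013001d8000000000000000000000000000000) (nat_lit 0x0) (nat_lit 0x20000000000018000c0006000000000000000000) := T_39 (nat_lit 107) (nat_lit 157) (nat_lit 6) (nat_lit 4) (nat_lit 10) L103555 (by decide +kernel)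
theorem L103557 : W_39 (nat_lit 5) (nat_lit 0x4c00240012001d8000000000000000000000000000000) (nat_lit 0x0) (nat_lit 0x10000000020001000000018000c0006000000000000000000) := T_39 (nat_lit 140) (nat_lit 192) (nat_lit 4) (nat_lit 5) (nat_lit 11) L103556 (by decide +kernel)
theorem L103558 : W_39 (nat_lit 6) (nat_lit 0x4c00240012001d0000000000000000000000000000000) (nat_lit 0x0) (nat_lit 0x1000000002000100008001c000c0006000000000000000000) := T_39 (nat_lit 123) (nat_lit 106) (nat_lit 4) (nat_lit 5) (nat_lit 10) L103557 (by decide +kernel)
theorem L103559 : W_39 (nat_lit 7) (nat_lit 0x4c00240012000d0000000000000000000000000000000) (nat_lit 0x0) (nat_lit 0x1000000002000100108009c000c0006000000000000000000) := T_39 (nat_lit 128) (nat_lit 111) (nat_lit 6) (nat_lit 8) (nat_lit 10) L103558 (by decide +kernel)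
theorem L103560 : W_39 (nat_lit 8) (nat_lit 0x4c00240012000c0000000000000000000000000000000) (nat_lit 0x0) (nat_lit 0x1800000002000100118009c000c0006000000000000000000) := T_39 (nat_lit 124) (nat_lit 191) (nat_lit 5) (nat_lit 5) (nat_lit 7) L103559 (by decide +kernel)
theorem L103561 : W_39 (nat_lit 2) (nat_lit 0x5c00340012001d80008000c0001000000000000000000) (nat_lit 0x0) (nat_lit 0x100000000000000002000080000000000000) := D_39 (nat_lit 73) (nat_lit 140) (nat_lit 55) (nat_lit 5) (nat_lit 5) (nat_lit 4) (nat_lit 4) (nat_lit 5) (nat_lit 7) (by decide +kernel)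
theorem L103562 : W_39 (nat_lit 3) (nat_lit 0x5c00340012001d80008000c0000000000000000000000) (nat_lit 0x0) (nat_lit 0x100000000000020003000080000000000000) := T_39 (nat_lit 72) (nat_lit 89) (nat_lit 4) (nat_lit 5) (nat_lit 8) L103561 (by decide +kernel)
theorem L103563 : W_39 (nat_lit 4) (nat_lit 0x5c00340012001d8000800080000000000000000000000) (nat_lit 0x0) (nat_lit 0x100000000000060007000080000000000000) := T_39 (nat_lit 90) (nat_lit 74) (nat_lit 6) (nat_lit 5) (nat_lit 8) L103562 (by decide +kernel)
theorem L103564 : W_39 (nat_lit 5) (nat_lit 0x5c00340012001d8000800000000000000000000000000) (nat_lit 0x0) (nat_lit 0x1000000010000e0007000080000000000000) := T_39 (nat_lit 91) (nat_lit 108) (nat_lit 6) (nat_lit 5) (nat_lit 9) L103563 (by decide +kernel)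
theorem L103565 : W_39 (nat_lit 6) (nat_lit 0x5c00340012000d8000800000000000000000000000000) (nat_lit 0x0) (nat_lit 0x1001000090000e0007000080000000000000) := T_39 (nat_lit 128) (nat_lit 111) (nat_lit 6) (nat_lit 8) (nat_lit 10) L103564 (by decide +kernel)
theorem L103566 : W_39 (nat_lit 7) (nat_lit 0x5c00340012000d8000000000000000000000000000000) (nat_lit 0x0) (nat_lit 0x20001001000098000e0007000080000000000000) := T_39 (nat_lit 107) (nat_lit 157) (nat_lit 5) (nat_lit 5) (nat_lit 6) L103565 (by decide +kernel)
theorem L103567 : W_39 (nat_lit 8) (nat_lit 0x4c00340012000d8000000000000000000000000000000) (nat_lit 0x0) (nat_lit 0x3000020001001000098000e0007000080000000000000) := T_39 (nat_lit 176) (nat_lit 177) (nat_lit 2) (nat_lit 4) (nat_lit 10) L103566 (by decide +kernel)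
theorem L103568 : W_39 (nat_lit 9) (nat_lit 0x4c00340012000d0000000000000000000000000000000) (nat_lit 0x0) (nat_lit 0x300002000100108009c000e0007000080000000000000) := T_39 (nat_lit 123) (nat_lit 106) (nat_lit 4) (nat_lit 5) (nat_lit 10) L103567 (by decide +kernel)
theorem L103569 : W_39 (nat_lit 10) (nat_lit 0x4c00240012000d0000000000000000000000000000000) (nat_lit 0x0) (nat_lit 0x30001a000100108009c000e0007000080000000000000) := T_39 (nat_lit 160) (nat_lit 159) (nat_lit 1) (nat_lit 8) (nat_lit 9) L103568 (by decide +kernel)
theorem L103570 : W_39 (nat_lit 11) (nat_lit 0x4c00240012000c0000000000000000000000000000000) (nat_lit 0x0) (nat_lit 0x80030001a000100118009c000e0007000080000000000000) := T_39 (nat_lit 124) (nat_lit 191) (nat_lit 5) (nat_lit 5) (nat_lit 7) L103569 (by decide +kernel)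
theorem L103571 : W_39 (nat_lit 2) (nat_lit 0x4c00340012000d0000400000000000000000000000000) (nat_lit 0x0) (nat_lit 0x2000000000000800020000000000000000000000) := D_39 (nat_lit 107) (nat_lit 157) (nat_lit 89) (nat_lit 5) (nat_lit 5) (nat_lit 6) (nat_lit 4) (nat_lit 5) (nat_lit 9) (by decide +kernel)
theorem L103572 : W_39 (nat_lit 3) (nat_lit 0x4c00340012000d0000000000000000000000000000000) (nat_lit 0x0) (nat_lit 0x2000000008000c00020000000000000000000000) := T_39 (nat_lit 106) (nat_lit 123) (nat_lit 4) (nat_lit 5) (nat_lit 10) L103571 (by decide +kernel)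
theorem L103573 : W_39 (nat_lit 4) (nat_lit 0x4c00240012000d0000000000000000000000000000000) (nat_lit 0x0) (nat_lit 0x1a000000008000c00020000000000000000000000) := T_39 (nat_lit 160) (nat_lit 159) (nat_lit 1) (nat_lit 8) (nat_lit 9) L103572 (by decide +kernel)
theorem L103574 : W_39 (nat_lit 5) (nat_lit 0x4c00240012000c0000000000000000000000000000000) (nat_lit 0x0) (nat_lit 0x80000001a000000018000c00020000000000000000000000) := T_39 (nat_lit 124) (nat_lit 191) (nat_lit 5) (nat_lit 5) (nat_lit 7) L103573 (by decide +kernel)
theorem L103575 : W_39 (nat_lit 6) (nat_lit 0x4c00240012001c8000000000000000000000000000000) (nat_lit 0x0) (nat_lit 0x1000000002000100010001c000c0006000000000000000000) := T_39 (nat_lit 124) (nat_lit 106) (nat_lit 4) (nat_lit 5) (nat_lit 10) L103557 (by decide +kernel)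
theorem L103576 : W_39 (nat_lit 7) (nat_lit 0x4c00240012000c8000000000000000000000000000000) (nat_lit 0x0) (nat_lit 0x1000000002000100110009c000c0006000000000000000000) := T_39 (nat_lit 128) (nat_lit 111) (nat_lit 6) (nat_lit 8) (nat_lit 10) L103575 (by decide +kernel)
theorem L103577 : W_39 (nat_lit 2) (nat_lit 0x10004c00240012000d8000800000000000000000000000000) (nat_lit 0x0) (nat_lit 0x100018000000000000000000000000000000000000000) := D_39 (nat_lit 159) (nat_lit 160) (nat_lit 176) (nat_lit 1) (nat_lit 8) (nat_lit 9) (nat_lit 7) (nat_lit 5) (nat_lit 6) (by decide +kernel)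
theorem L103578 : W_39 (nat_lit 3) (nat_lit 0x10004c00240012000d8000000000000000000000000000000) (nat_lit 0x0) (nat_lit 0x10001a000000000000800000000000000000000000000) := T_39 (nat_lit 107) (nat_lit 157) (nat_lit 5) (nat_lit 5) (nat_lit 6) L103577 (by decide +kernel)
theorem L103579 : W_39 (nat_lit 4) (nat_lit 0x10004c00240012000c8000000000000000000000000000000) (nat_lit 0x0) (nat_lit 0x10001a000000010000c00000000000000000000000000) := T_39 (nat_lit 124) (nat_lit 106) (nat_lit 4) (nat_lit 5) (nat_lit 10) L103578 (by decide +kernel)
theorem L103580 : W_39 (nat_lit 5) (nat_lit 0x4c00240012000c8000000000000000000000000000000) (nat_lit 0x0) (nat_lit 0x100010001a000100010000c00000000000000000000000000) := T_39 (nat_lit 192) (nat_lit 140) (nat_lit 4) (nat_lit 5) (nat_lit 11) L103579 (by decide +kernel)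
theorem L103581 : W_39 (nat_lit 6) (nat_lit 0x5c00340012001d8000000000000000000000000000000) (nat_lit 0x0) (nat_lit 0x20001000000018000e0007000080000000000000) := T_39 (nat_lit 107) (nat_lit 157) (nat_lit 5) (nat_lit 5) (nat_lit 6) L103564 (by decide +kernel)
theorem L103582 : W_39 (nat_lit 7) (nat_lit 0x5c00340012001c8000000000000000000000000000000) (nat_lit 0x0) (nat_lit 0x2000100010001c000e0007000080000000000000) := T_39 (nat_lit 124) (nat_lit 106) (nat_lit 4) (nat_lit 5) (nat_lit 10) L103581 (by decide +kernel)
theorem L103583 : W_39 (nat_lit 8) (nat_lit 0x4c00340012001c8000000000000000000000000000000) (nat_lit 0x0) (nat_lit 0x300002000100010001c000e0007000080000000000000) := T_39 (nat_lit 176) (nat_lit 177) (nat_lit 2) (nat_lit 4) (nat_lit 10) L103582 (by decide +kernel)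
theorem L103584 : W_39 (nat_lit 9) (nat_lit 0x4c00340012000c8000000000000000000000000000000) (nat_lit 0x0) (nat_lit 0x300002000100110009c000e0007000080000000000000) := T_39 (nat_lit 128) (nat_lit 111) (nat_lit 6) (nat_lit 8) (nat_lit 10) L103583 (by decide +kernel)
theorem L103585 : W_39 (nat_lit 10) (nat_lit 0x4c00240012000c8000000000000000000000000000000) (nat_lit 0x0) (nat_lit 0x30001a000100110009c000e0007000080000000000000) := T_39 (nat_lit 160) (nat_lit 159) (nat_lit 1) (nat_lit 8) (nat_lit 9) L103584 (by decide +kernel)
theorem L103586 : W_39 (nat_lit 2) (nat_lit 0x200010004d002c0012001c8000000000000000000000000000000) (nat_lit 0x0) (nat_lit 0x400000000000100002000000000000000000000000000000000000000) := D_39 (nat_lit 226) (nat_lit 176) (nat_lit 157) (nat_lit 6) (nat_lit 5) (nat_lit 13) (nat_lit 4) (nat_lit 5) (nat_lit 13) (by decide +kernel)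
theorem L103587 : W_39 (nat_lit 3) (nat_lit 0x10004d002c0012001c8000000000000000000000000000000) (nat_lit 0x0) (nat_lit 0x400020000000100002000400000000000000000000000000000000000) := T_39 (nat_lit 209) (nat_lit 142) (nat_lit 6) (nat_lit 5) (nat_lit 12) L103586 (by decide +kernel)
theorem L103588 : W_39 (nat_lit 4) (nat_lit 0x10004c002c0012001c8000000000000000000000000000000) (nat_lit 0x0) (nat_lit 0x400020000000130002000400000000000000000000000000000000000) := T_39 (nat_lit 172) (nat_lit 173) (nat_lit 2) (nat_lit 2) (nat_lit 10) L103587 (by decide +kernel)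
theorem L103589 : W_39 (nat_lit 5) (nat_lit 0x10004c00240012001c8000000000000000000000000000000) (nat_lit 0x0) (nat_lit 0x40002000000013001a000400000000000000000000000000000000000) := T_39 (nat_lit 159) (nat_lit 160) (nat_lit 1) (nat_lit 8) (nat_lit 9) L103588 (by decide +kernel)
theorem L103590 : W_39 (nat_lit 6) (nat_lit 0x10004c00240012000c8000000000000000000000000000000) (nat_lit 0x0) (nat_lit 0x40002000000013001a000400100008000000000000000000000000000) := T_39 (nat_lit 128) (nat_lit 111) (nat_lit 6) (nat_lit 8) (nat_lit 10) L103589 (by decide +kernel)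
theorem L103591 : W_39 (nat_lit 7) (nat_lit 0x4c00240012000c8000000000000000000000000000000) (nat_lit 0x0) (nat_lit 0x40002000100013001a000500100008000000000000000000000000000) := T_39 (nat_lit 192) (nat_lit 140) (nat_lit 4) (nat_lit 5) (nat_lit 11) L103590 (by decide +kernel)
theorem L103592 : W_39 (nat_lit 2) (nat_lit 0x4d002c0012001d8000000000000000000000000000000) (nat_lit 0x0) (nat_lit 0x100002000000000000800000000000000000000000000) := D_39 (nat_lit 107) (nat_lit 157) (nat_lit 176) (nat_lit 5) (nat_lit 5) (nat_lit 6) (nat_lit 7) (nat_lit 5) (nat_lit 6) (by decide +kernel)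
theorem L103593 : W_39 (nat_lit 3) (nat_lit 0x4d002c0012001c8000000000000000000000000000000) (nat_lit 0x0) (nat_lit 0x100002000000010000c00000000000000000000000000) := T_39 (nat_lit 124) (nat_lit 106) (nat_lit 4) (nat_lit 5) (nat_lit 10) L103592 (by decide +kernel)
theorem L103594 : W_39 (nat_lit 4) (nat_lit 0x4c002c0012001c8000000000000000000000000000000) (nat_lit 0x0) (nat_lit 0x130002000000010000c00000000000000000000000000) := T_39 (nat_lit 172) (nat_lit 173) (nat_lit 2) (nat_lit 2) (nat_lit 10) L103593 (by decide +kernel)
theorem L103595 : W_39 (nat_lit 5) (nat_lit 0x4c002c0012000c8000000000000000000000000000000) (nat_lit 0x0) (nat_lit 0x130002000000110008c00000000000000000000000000) := T_39 (nat_lit 128) (nat_lit 111) (nat_lit 6) (nat_lit 8) (nat_lit 10) L103594 (by decide +kernel)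
theorem L103596 : W_39 (nat_lit 6) (nat_lit 0x4c00240012000c8000000000000000000000000000000) (nat_lit 0x0) (nat_lit 0x13001a000000110008c00000000000000000000000000) := T_39 (nat_lit 159) (nat_lit 160) (nat_lit 1) (nat_lit 8) (nat_lit 9) L103595 (by decide +kernel)
theorem L103597 : W_39 (nat_lit 2) (nat_lit 0x200010004d002c0012001d8000000000000000000000000000000) (nat_lit 0x0) (nat_lit 0x400000000000100000000000000000800000000000000000000000000) := D_39 (nat_lit 176) (nat_lit 226) (nat_lit 107) (nat_lit 6) (nat_lit 5) (nat_lit 13) (nat_lit 7) (nat_lit 5) (nat_lit 6) (by decide +kernel)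
theorem L103598 : W_39 (nat_lit 3) (nat_lit 0x10004d002c0012001d8000000000000000000000000000000) (nat_lit 0x0) (nat_lit 0x400020000000100000000400000000800000000000000000000000000) := T_39 (nat_lit 209) (nat_lit 142) (nat_lit 6) (nat_lit 5) (nat_lit 12) L103597 (by decide +kernel)
theorem L103599 : W_39 (nat_lit 4) (nat_lit 0x10004c002c0012001d8000000000000000000000000000000) (nat_lit 0x0) (nat_lit 0x400020000000130000000400000000800000000000000000000000000) := T_39 (nat_lit 172) (nat_lit 173) (nat_lit 2) (nat_lit 2) (nat_lit 10) L103598 (by decide +kernel)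
theorem L103600 : W_39 (nat_lit 5) (nat_lit 0x10004c00240012001d8000000000000000000000000000000) (nat_lit 0x0) (nat_lit 0x400020000000130018000400000000800000000000000000000000000) := T_39 (nat_lit 159) (nat_lit 160) (nat_lit 1) (nat_lit 8) (nat_lit 9) L103599 (by decide +kernel)
theorem L103601 : W_39 (nat_lit 6) (nat_lit 0x10004c00240012000d8000000000000000000000000000000) (nat_lit 0x0) (nat_lit 0x400020000000130018000400100008800000000000000000000000000) := T_39 (nat_lit 128) (nat_lit 111) (nat_lit 6) (nat_lit 8) (nat_lit 10) L103600 (by decide +kernel)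
theorem L103602 : W_39 (nat_lit 7) (nat_lit 0x4c00240012000d8000000000000000000000000000000) (nat_lit 0x0) (nat_lit 0x400020001000130018000500100008800000000000000000000000000) := T_39 (nat_lit 192) (nat_lit 140) (nat_lit 4) (nat_lit 5) (nat_lit 11) L103601 (by decide +kernel)
theorem L103603 : W_39 (nat_lit 8) (nat_lit 0x4c00240012000c8000000000000000000000000000000) (nat_lit 0x0) (nat_lit 0x400020001000130018000500110008c00000000000000000000000000) := T_39 (nat_lit 124) (nat_lit 106) (nat_lit 4) (nat_lit 5) (nat_lit 10) L103602 (by decide +kernel)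
theorem L103604 : W_39 (nat_lit 11) (nat_lit 0x4c00240012000c0000000000000000000000000000000) (nat_lit 0x0) (nat_lit 0x40002000100033001a000500118009c000e0007000080000000000000) := Q_39 (nat_lit 123) (C_39 L103576 (C_39 L103580 (C_39 L103585 (C_39 L103591 (C_39 L103596 (C_39 L103603 N_39)))))) (by decide +kernel)
theorem L103605 : W_39 (nat_lit 2) (nat_lit 0x8004c00340012000c0000000000000000000000000000000) (nat_lit 0x0) (nat_lit 0x200010001000000000000000000000000000000000000000000000000) := D_39 (nat_lit 208) (nat_lit 192) (nat_lit 225) (nat_lit 5) (nat_lit 5) (nat_lit 8) (nat_lit 6) (nat_lit 4) (nat_lit 13) (by decide +kernel)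
theorem L103606 : W_39 (nat_lit 3) (nat_lit 0x4c00340012000c0000000000000000000000000000000) (nat_lit 0x0) (nat_lit 0x200010001800000000000000010000000000000000000000000000000) := T_39 (nat_lit 191) (nat_lit 124) (nat_lit 5) (nat_lit 5) (nat_lit 7) L103605 (by decide +kernel)
theorem L103607 : W_39 (nat_lit 4) (nat_lit 0x4c00240012000c0000000000000000000000000000000) (nat_lit 0x0) (nat_lit 0x200010001800000018000000010000000000000000000000000000000) := T_39 (nat_lit 160) (nat_lit 159) (nat_lit 1) (nat_lit 8) (nat_lit 9) L103606 (by decide +kernel)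
theorem L103608 : W_39 (nat_lit 13) (nat_lit 0x4800240012000c0000000000000000000000000000000) (nat_lit 0x0) (nat_lit 0x18000e00078001e0037001bc005e011f009e000e0007000080000000000000) := Q_39 (nat_lit 174) (C_39 L103495 (C_39 L103531 (C_39 L103539 (C_39 L103546 (C_39 L103553 (C_39 L103560 (C_39 L103570 (C_39 L103574 (C_39 L103604 (C_39 L103607 N_39)))))))))) (by decide +kernel)
theorem L103609 : W_39 (nat_lit 6) (nat_lit 0x4800240012000c0000000000000000000000000000000) (nat_lit 0x0) (nat_lit 0x10003800340042000100018000400000000000000000000000000) := Q_39 (nat_lit 176) (C_39 L103460 (C_39 L103453 N_39)) (by decide +kernel)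
theorem L103610 : W_39 (nat_lit 2) (nat_lit 0x5800240012001d8000800000000000000000000000000) (nat_lit 0x0) (nat_lit 0x240002000000000000000000000000000000000000000) := D_39 (nat_lit 157) (nat_lit 174) (nat_lit 177) (nat_lit 5) (nat_lit 5) (nat_lit 6) (nat_lit 0) (nat_lit 8) (nat_lit 10) (by decide +kernel)
theorem L103611 : W_39 (nat_lit 3) (nat_lit 0x5800240012001d8000000000000000000000000000000) (nat_lit 0x0) (nat_lit 0x24000a000000000000800000000000000000000000000) := T_39 (nat_lit 107) (nat_lit 159) (nat_lit 7) (nat_lit 5) (nat_lit 6) L103610 (by decide +kernel)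
theorem L103612 : W_39 (nat_lit 4) (nat_lit 0x5800240012001d0000000000000000000000000000000) (nat_lit 0x0) (nat_lit 0x24000a000000008000c00000000000000000000000000) := T_39 (nat_lit 123) (nat_lit 106) (nat_lit 4) (nat_lit 5) (nat_lit 10) L103611 (by decide +kernel)
theorem L103613 : W_39 (nat_lit 5) (nat_lit 0x5800240012001c0000000000000000000000000000000) (nat_lit 0x0) (nat_lit 0x200024000a000000018000c00000000000000000000000000) := T_39 (nat_lit 124) (nat_lit 193) (nat_lit 7) (nat_lit 5) (nat_lit 7) L103612 (by decide +kernel)
theorem L103614 : W_39 (nat_lit 6) (nat_lit 0x5800240012000c0000000000000000000000000000000) (nat_lit 0x0) (nat_lit 0x200024000a000000118008c00000000000000000000000000) := T_39 (nat_lit 128) (nat_lit 111) (nat_lit 6) (nat_lit 8) (nat_lit 10) L103613 (by decide +kernel)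
theorem L103615 : W_39 (nat_lit 2) (nat_lit 0x5800240012000d8000800000000000000000000000000) (nat_lit 0x0) (nat_lit 0x800040002000000000000000000000000000000000000000) := D_39 (nat_lit 174) (nat_lit 157) (nat_lit 191) (nat_lit 5) (nat_lit 5) (nat_lit 6) (nat_lit 5) (nat_lit 5) (nat_lit 7) (by decide +kernel)
theorem L103616 : W_39 (nat_lit 3) (nat_lit 0x5800240012000d8000000000000000000000000000000) (nat_lit 0x0) (nat_lit 0x80004000a000000000000800000000000000000000000000) := T_39 (nat_lit 107) (nat_lit 159) (nat_lit 7) (nat_lit 5) (nat_lit 6) L103615 (by decide +kernel)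
theorem L103617 : W_39 (nat_lit 4) (nat_lit 0x5800240012000d0000000000000000000000000000000) (nat_lit 0x0) (nat_lit 0x80004000a000000008000c00000000000000000000000000) := T_39 (nat_lit 123) (nat_lit 106) (nat_lit 4) (nat_lit 5) (nat_lit 10) L103616 (by decide +kernel)
theorem L103618 : W_39 (nat_lit 5) (nat_lit 0x5800240012000c0000000000000000000000000000000) (nat_lit 0x0) (nat_lit 0x280004000a000000018000c00000000000000000000000000) := T_39 (nat_lit 124) (nat_lit 193) (nat_lit 7) (nat_lit 5) (nat_lit 7) L103617 (by decide +kernel)
theorem L103619 : W_39 (nat_lit 2) (nat_lit 0x5c00240012000d8000800000000000000000000000000) (nat_lit 0x0) (nat_lit 0x200050000000000000000000000000000000000000000) := D_39 (nat_lit 177) (nat_lit 160) (nat_lit 162) (nat_lit 2) (nat_lit 4) (nat_lit 10) (nat_lit 2) (nat_lit 5) (nat_lit 10) (by decide +kernel)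
theorem L103620 : W_39 (nat_lit 3) (nat_lit 0x5800240012000d8000800000000000000000000000000) (nat_lit 0x0) (nat_lit 0x800240050000000000000000000000000000000000000000) := T_39 (nat_lit 174) (nat_lit 191) (nat_lit 5) (nat_lit 5) (nat_lit 7) L103619 (by decide +kernel)
theorem L103621 : W_39 (nat_lit 4) (nat_lit 0x5800240012000d8000000000000000000000000000000) (nat_lit 0x0) (nat_lit 0x800240058000000000000800000000000000000000000000) := T_39 (nat_lit 107) (nat_lit 159) (nat_lit 7) (nat_lit 5) (nat_lit 6) L103620 (by decide +kernel)
theorem L103622 : W_39 (nat_lit 5) (nat_lit 0x5800240012000d0000000000000000000000000000000) (nat_lit 0x0) (nat_lit 0x800240058000000008000c00000000000000000000000000) := T_39 (nat_lit 123) (nat_lit 106) (nat_lit 4) (nat_lit 5) (nat_lit 10) L103621 (by decide +kernel)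
theorem L103623 : W_39 (nat_lit 6) (nat_lit 0x5800240012000c0000000000000000000000000000000) (nat_lit 0x0) (nat_lit 0x2800240058000000018000c00000000000000000000000000) := T_39 (nat_lit 124) (nat_lit 193) (nat_lit 7) (nat_lit 5) (nat_lit 7) L103622 (by decide +kernel)
theorem L103624 : W_39 (nat_lit 7) (nat_lit 0x4800240012000c0000000000000000000000000000000) (nat_lit 0x0) (nat_lit 0x280034005a000000118008c00000000000000000000000000) := Q_39 (nat_lit 176) (C_39 L103453 (C_39 L103614 (C_39 L103618 (C_39 L103623 N_39)))) (by decide +kernel)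
theorem L103625 : W_39 (nat_lit 2) (nat_lit 0x8003c005a00340013001c0000000000000000000000000000000) (nat_lit 0x0) (nat_lit 0x40003000000000000000000000000000000000000000) := D_39 (nat_lit 157) (nat_lit 174) (nat_lit 156) (nat_lit 5) (nat_lit 4) (nat_lit 8) (nat_lit 6) (nat_lit 3) (nat_lit 12) (by decide +kernel)
theorem L103626 : W_39 (nat_lit 3) (nat_lit 0x3c005a00340013001c0000000000000000000000000000000) (nat_lit 0x0) (nat_lit 0xc000000040003000000000000000000000000000000000000000) := T_39 (nat_lit 207) (nat_lit 206) (nat_lit 1) (nat_lit 6) (nat_lit 11) L103625 (by decide +kernel)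
theorem L103627 : W_39 (nat_lit 4) (nat_lit 0x3c005800340013001c0000000000000000000000000000000) (nat_lit 0x0) (nat_lit 0xc000000070003000000000000000000000000000000000000000) := T_39 (nat_lit 173) (nat_lit 172) (nat_lit 0) (nat_lit 6) (nat_lit 11) L103626 (by decide +kernel)
theorem L103628 : W_39 (nat_lit 5) (nat_lit 0x38005800340013001c0000000000000000000000000000000) (nat_lit 0x0) (nat_lit 0xc000600070003000000000000000000000000000000000000000) := T_39 (nat_lit 190) (nat_lit 189) (nat_lit 2) (nat_lit 2) (nat_lit 11) L103627 (by decide +kernel)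
theorem L103629 : W_39 (nat_lit 6) (nat_lit 0x38004800340013001c0000000000000000000000000000000) (nat_lit 0x0) (nat_lit 0xc000600370003000000000000000000000000000000000000000) := T_39 (nat_lit 176) (nat_lit 177) (nat_lit 1) (nat_lit 8) (nat_lit 10) L103628 (by decide +kernel)
theorem L103630 : W_39 (nat_lit 7) (nat_lit 0x30004800340013001c0000000000000000000000000000000) (nat_lit 0x0) (nat_lit 0x1c000e00370003000000000000000000000000000000000000000) := T_39 (nat_lit 191) (nat_lit 208) (nat_lit 5) (nat_lit 5) (nat_lit 8) L103629 (by decide +kernel)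
theorem L103631 : W_39 (nat_lit 8) (nat_lit 0x30004800240013001c0000000000000000000000000000000) (nat_lit 0x0) (nat_lit 0x1c000e0037001b000000000000000000000000000000000000000) := T_39 (nat_lit 160) (nat_lit 159) (nat_lit 0) (nat_lit 8) (nat_lit 9) L103630 (by decide +kernel)
theorem L103632 : W_39 (nat_lit 9) (nat_lit 0x30004800240012001c0000000000000000000000000000000) (nat_lit 0x0) (nat_lit 0x1c000e0037001b000100008000000000000000000000000000000) := T_39 (nat_lit 140) (nat_lit 123) (nat_lit 4) (nat_lit 5) (nat_lit 11) L103631 (by decide +kernel)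
theorem L103633 : W_39 (nat_lit 10) (nat_lit 0x30004800240012000c0000000000000000000000000000000) (nat_lit 0x0) (nat_lit 0x1c000e0037001b000100108008000000000000000000000000000) := T_39 (nat_lit 128) (nat_lit 111) (nat_lit 6) (nat_lit 8) (nat_lit 10) L103632 (by decide +kernel)
theorem L103634 : W_39 (nat_lit 11) (nat_lit 0x10004800240012000c0000000000000000000000000000000) (nat_lit 0x0) (nat_lit 0x5c002e0037001b000100108008000000000000000000000000000) := T_39 (nat_lit 193) (nat_lit 210) (nat_lit 7) (nat_lit 5) (nat_lit 8) L103633 (by decide +kernel)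
theorem L103635 : W_39 (nat_lit 2) (nat_lit 0x60001a0068002c0012001c0000000000000000000000000000000) (nat_lit 0x0) (nat_lit 0x40012000000000000000000000000000000000000000) := D_39 (nat_lit 160) (nat_lit 157) (nat_lit 174) (nat_lit 3) (nat_lit 4) (nat_lit 9) (nat_lit 1) (nat_lit 8) (nat_lit 9) (by decide +kernel)
theorem L103636 : W_39 (nat_lit 3) (nat_lit 0x60001a006800240012001c0000000000000000000000000000000) (nat_lit 0x0) (nat_lit 0x4001a000400000000000000000000000000000000000) := T_39 (nat_lit 159) (nat_lit 142) (nat_lit 6) (nat_lit 5) (nat_lit 12) L103635 (by decide +kernel)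
theorem L103637 : W_39 (nat_lit 4) (nat_lit 0x600018006800240012001c0000000000000000000000000000000) (nat_lit 0x0) (nat_lit 0x60004001a000400000000000000000000000000000000000) := T_39 (nat_lit 189) (nat_lit 190) (nat_lit 3) (nat_lit 2) (nat_lit 11) L103636 (by decide +kernel)
theorem L103638 : W_39 (nat_lit 5) (nat_lit 0x400018006800240012001c0000000000000000000000000000000) (nat_lit 0x0) (nat_lit 0x80002000060004001a000400000000000000000000000000000000000) := T_39 (nat_lit 209) (nat_lit 227) (nat_lit 7) (nat_lit 5) (nat_lit 9) L103637 (by decide +kernel)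
theorem L103639 : W_39 (nat_lit 6) (nat_lit 0x18006800240012001c0000000000000000000000000000000) (nat_lit 0x0) (nat_lit 0x80006000260004001a000400000000000000000000000000000000000) := T_39 (nat_lit 210) (nat_lit 193) (nat_lit 7) (nat_lit 5) (nat_lit 8) L103638 (by decide +kernel)
theorem L103640 : W_39 (nat_lit 7) (nat_lit 0x18006800240012000c0000000000000000000000000000000) (nat_lit 0x0) (nat_lit 0x80006000260004001a000400100008000000000000000000000000000) := T_39 (nat_lit 128) (nat_lit 111) (nat_lit 6) (nat_lit 8) (nat_lit 10) L103639 (by decide +kernel)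
theorem L103641 : W_39 (nat_lit 8) (nat_lit 0x18004800240012000c0000000000000000000000000000000) (nat_lit 0x0) (nat_lit 0x80006000260034001a000400100008000000000000000000000000000) := T_39 (nat_lit 177) (nat_lit 176) (nat_lit 1) (nat_lit 8) (nat_lit 10) L103640 (by decide +kernel)
theorem L103642 : W_39 (nat_lit 9) (nat_lit 0x10004800240012000c0000000000000000000000000000000) (nat_lit 0x0) (nat_lit 0x800070002e0034001a000400100008000000000000000000000000000) := T_39 (nat_lit 191) (nat_lit 208) (nat_lit 5) (nat_lit 5) (nat_lit 8) L103641 (by decide +kernel)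
theorem L103643 : W_39 (nat_lit 2) (nat_lit 0x38006a002d0017800c4000000000000000000000000000000) (nat_lit 0x0) (nat_lit 0x600010000000000000000000000000000000000000000000) := D_39 (nat_lit 172) (nat_lit 189) (nat_lit 190) (nat_lit 5) (nat_lit 3) (nat_lit 7) (nat_lit 0) (nat_lit 6) (nat_lit 11) (by decide +kernel)
theorem L103644 : W_39 (nat_lit 3) (nat_lit 0x380068002d0017800c4000000000000000000000000000000) (nat_lit 0x0) (nat_lit 0x600070000000000000000000000000000000000000000000) := T_39 (nat_lit 173) (nat_lit 174) (nat_lit 7) (nat_lit 3) (nat_lit 7) L103643 (by decide +kernel)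
theorem L103645 : W_39 (nat_lit 4) (nat_lit 0x380068002c0017800c4000000000000000000000000000000) (nat_lit 0x0) (nat_lit 0x600070001800000000000000000000000000000000000000) := T_39 (nat_lit 156) (nat_lit 155) (nat_lit 1) (nat_lit 6) (nat_lit 8) L103644 (by decide +kernel)
theorem L103646 : W_39 (nat_lit 5) (nat_lit 0x380068002c0017800c0000000000000000000000000000000) (nat_lit 0x0) (nat_lit 0x600070001800000006000000000000000000000000000000) := T_39 (nat_lit 122) (nat_lit 121) (nat_lit 0) (nat_lit 6) (nat_lit 8) L103645 (by decide +kernel)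
theorem L103647 : W_39 (nat_lit 6) (nat_lit 0x380068002c0013800c0000000000000000000000000000000) (nat_lit 0x0) (nat_lit 0x20000600070001800400006000000000000000000000000000000) := T_39 (nat_lit 142) (nat_lit 209) (nat_lit 6) (nat_lit 5) (nat_lit 12) L103646 (by decide +kernel)
theorem L103648 : W_39 (nat_lit 7) (nat_lit 0x380068002c0013000c0000000000000000000000000000000) (nat_lit 0x0) (nat_lit 0x200006000700018004c0006000000000000000000000000000000) := T_39 (nat_lit 139) (nat_lit 138) (nat_lit 3) (nat_lit 2) (nat_lit 8) L103647 (by decide +kernel)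
theorem L103649 : W_39 (nat_lit 8) (nat_lit 0x380048002c0013000c0000000000000000000000000000000) (nat_lit 0x0) (nat_lit 0x200006003700018004c0006000000000000000000000000000000) := T_39 (nat_lit 177) (nat_lit 176) (nat_lit 1) (nat_lit 8) (nat_lit 10) L103648 (by decide +kernel)
theorem L103650 : W_39 (nat_lit 9) (nat_lit 0x300048002c0013000c0000000000000000000000000000000) (nat_lit 0x0) (nat_lit 0x30000e003700018004c0006000000000000000000000000000000) := T_39 (nat_lit 191) (nat_lit 208) (nat_lit 5) (nat_lit 5) (nat_lit 8) L103649 (by decide +kernel)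
theorem L103651 : W_39 (nat_lit 10) (nat_lit 0x30004800240013000c0000000000000000000000000000000) (nat_lit 0x0) (nat_lit 0x30000e003700198004c0006000000000000000000000000000000) := T_39 (nat_lit 159) (nat_lit 160) (nat_lit 0) (nat_lit 8) (nat_lit 9) L103650 (by decide +kernel)
theorem L103652 : W_39 (nat_lit 11) (nat_lit 0x30004800240012000c0000000000000000000000000000000) (nat_lit 0x0) (nat_lit 0x30000e003700198005c000e000000000000000000000000000000) := T_39 (nat_lit 140) (nat_lit 123) (nat_lit 4) (nat_lit 5) (nat_lit 11) L103651 (by decide +kernel)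
theorem L103653 : W_39 (nat_lit 12) (nat_lit 0x10004800240012000c0000000000000000000000000000000) (nat_lit 0x0) (nat_lit 0x70002e003700198005c000e000000000000000000000000000000) := T_39 (nat_lit 193) (nat_lit 210) (nat_lit 7) (nat_lit 5) (nat_lit 8) L103652 (by decide +kernel)
theorem L103654 : W_39 (nat_lit 13) (nat_lit 0x4800240012000c0000000000000000000000000000000) (nat_lit 0x0) (nat_lit 0xa0007c003e0037001b8005c010e008000000000000000000000000000) := Q_39 (nat_lit 192) (C_39 L103477 (C_39 L103473 (C_39 L103634 (C_39 L103642 (C_39 L103653 N_39))))) (by decide +kernel)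
theorem L103655 : W_39 (nat_lit 2) (nat_lit 0x1a0058002c0012001d8000000000000000000000000000000) (nat_lit 0x0) (nat_lit 0x400020000000000000000400000000000000000000000000000000000) := D_39 (nat_lit 209) (nat_lit 226) (nat_lit 142) (nat_lit 6) (nat_lit 5) (nat_lit 13) (nat_lit 6) (nat_lit 5) (nat_lit 12) (by decide +kernel)
theorem L103656 : W_39 (nat_lit 3) (nat_lit 0x1a005800240012001d8000000000000000000000000000000) (nat_lit 0x0) (nat_lit 0x400020000000000008000400000000800000000000000000000000000) := T_39 (nat_lit 159) (nat_lit 107) (nat_lit 7) (nat_lit 5) (nat_lit 6) L103655 (by decide +kernel)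
theorem L103657 : W_39 (nat_lit 4) (nat_lit 0x18005800240012001d8000000000000000000000000000000) (nat_lit 0x0) (nat_lit 0x400020000600000008000400000000800000000000000000000000000) := T_39 (nat_lit 189) (nat_lit 190) (nat_lit 2) (nat_lit 2) (nat_lit 11) L103656 (by decide +kernel)
theorem L103658 : W_39 (nat_lit 5) (nat_lit 0x10005800240012001d8000000000000000000000000000000) (nat_lit 0x0) (nat_lit 0x400030000e00000008000400000000800000000000000000000000000) := T_39 (nat_lit 191) (nat_lit 208) (nat_lit 5) (nat_lit 5) (nat_lit 8) L103657 (by decide +kernel)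
theorem L103659 : W_39 (nat_lit 6) (nat_lit 0x5800240012001d8000000000000000000000000000000) (nat_lit 0x0) (nat_lit 0x400030001e00000008000500000000800000000000000000000000000) := T_39 (nat_lit 192) (nat_lit 140) (nat_lit 4) (nat_lit 5) (nat_lit 11) L103658 (by decide +kernel)
theorem L103660 : W_39 (nat_lit 7) (nat_lit 0x5800240012001d0000000000000000000000000000000) (nat_lit 0x0) (nat_lit 0x400030001e00000008000500008000c00000000000000000000000000) := T_39 (nat_lit 123) (nat_lit 106) (nat_lit 4) (nat_lit 5) (nat_lit 10) L103659 (by decide +kernel)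
theorem L103661 : W_39 (nat_lit 8) (nat_lit 0x5800240012001c0000000000000000000000000000000) (nat_lit 0x0) (nat_lit 0x400030003e00000008000500018000c00000000000000000000000000) := T_39 (nat_lit 124) (nat_lit 193) (nat_lit 7) (nat_lit 5) (nat_lit 7) L103660 (by decide +kernel)
theorem L103662 : W_39 (nat_lit 9) (nat_lit 0x5800240012000c0000000000000000000000000000000) (nat_lit 0x0) (nat_lit 0x400030003e00000008000500118008c00000000000000000000000000) := T_39 (nat_lit 128) (nat_lit 111) (nat_lit 6) (nat_lit 8) (nat_lit 10) L103661 (by decide +kernel)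
theorem L103663 : W_39 (nat_lit 10) (nat_lit 0x4800240012000c0000000000000000000000000000000) (nat_lit 0x0) (nat_lit 0x400070003e0030004a000500118008c00000000000000000000000000) := Q_39 (nat_lit 176) (C_39 L103456 (C_39 L103453 (C_39 L103662 N_39))) (by decide +kernel)
theorem L103664 : W_39 (nat_lit 2) (nat_lit 0x4000100048002c0012001d8000000000000000000000000000000) (nat_lit 0x0) (nat_lit 0x800020000000000000000400000000000000000000000000000000000) := D_39 (nat_lit 209) (nat_lit 142) (nat_lit 227) (nat_lit 6) (nat_lit 5) (nat_lit 12) (nat_lit 7) (nat_lit 5) (nat_lit 9) (by decide +kernel)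
theorem L103665 : W_39 (nat_lit 3) (nat_lit 0x100048002c0012001d8000000000000000000000000000000) (nat_lit 0x0) (nat_lit 0x800060002000000000000400000000000000000000000000000000000) := T_39 (nat_lit 210) (nat_lit 193) (nat_lit 7) (nat_lit 5) (nat_lit 8) L103664 (by decide +kernel)
theorem L103666 : W_39 (nat_lit 4) (nat_lit 0x48002c0012001d8000000000000000000000000000000) (nat_lit 0x0) (nat_lit 0x800060003000000000000500000000000000000000000000000000000) := T_39 (nat_lit 192) (nat_lit 140) (nat_lit 4) (nat_lit 5) (nat_lit 11) L103665 (by decide +kernel)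
theorem L103667 : W_39 (nat_lit 5) (nat_lit 0x48002c0012001d0000000000000000000000000000000) (nat_lit 0x0) (nat_lit 0x800060003000000000000500008000400000000000000000000000000) := T_39 (nat_lit 123) (nat_lit 106) (nat_lit 4) (nat_lit 5) (nat_lit 10) L103666 (by decide +kernel)
theorem L103668 : W_39 (nat_lit 6) (nat_lit 0x48002c0012000d0000000000000000000000000000000) (nat_lit 0x0) (nat_lit 0x800060003000000000000500108008400000000000000000000000000) := T_39 (nat_lit 128) (nat_lit 111) (nat_lit 6) (nat_lit 8) (nat_lit 10) L103667 (by decide +kernel)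
theorem L103669 : W_39 (nat_lit 2) (nat_lit 0x100048002c0012000d8000800000000000000000000000000) (nat_lit 0x0) (nat_lit 0x20000000000000000400000000000040000000000000000000000) := D_39 (nat_lit 142) (nat_lit 209) (nat_lit 90) (nat_lit 6) (nat_lit 5) (nat_lit 12) (nat_lit 7) (nat_lit 5) (nat_lit 5) (by decide +kernel)
theorem L103670 : W_39 (nat_lit 3) (nat_lit 0x100048002c0012000d8000000000000000000000000000000) (nat_lit 0x0) (nat_lit 0x20000000100000000400000000800040000000000000000000000) := T_39 (nat_lit 107) (nat_lit 176) (nat_lit 7) (nat_lit 5) (nat_lit 6) L103669 (by decide +kernel)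
theorem L103671 : W_39 (nat_lit 4) (nat_lit 0x48002c0012000d8000000000000000000000000000000) (nat_lit 0x0) (nat_lit 0x20001000100000000500000000800040000000000000000000000) := T_39 (nat_lit 192) (nat_lit 140) (nat_lit 4) (nat_lit 5) (nat_lit 11) L103670 (by decide +kernel)
theorem L103672 : W_39 (nat_lit 5) (nat_lit 0x48002c0012000d0000000000000000000000000000000) (nat_lit 0x0) (nat_lit 0x20001000100000000500008000c00040000000000000000000000) := T_39 (nat_lit 123) (nat_lit 106) (nat_lit 4) (nat_lit 5) (nat_lit 10) L103671 (by decide +kernel)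
theorem L103673 : W_39 (nat_lit 7) (nat_lit 0x48002c0012000c0000000000000000000000000000000) (nat_lit 0x0) (nat_lit 0x800060003000100000000500118008c00040000000000000000000000) := Q_39 (nat_lit 124) (C_39 L103442 (C_39 L103668 (C_39 L103672 N_39))) (by decide +kernel)
theorem L103674 : W_39 (nat_lit 8) (nat_lit 0x4800240012000c0000000000000000000000000000000) (nat_lit 0x0) (nat_lit 0x800060003000140058000500118008c00040000000000000000000000) := Q_39 (nat_lit 159) (C_39 L103451 (C_39 L103673 (C_39 L103441 N_39))) (by decide +kernel)
theorem L103675 : W_39 (nat_lit 2) (nat_lit 0x2000100048002c0012001c0000000000000000000000000000000) (nat_lit 0x0) (nat_lit 0x200010000800000000000000000000000000000000000000000000000) := D_39 (nat_lit 208) (nat_lit 191) (nat_lit 225) (nat_lit 5) (nat_lit 5) (nat_lit 8) (nat_lit 5) (nat_lit 5) (nat_lit 9) (by decide +kernel)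
theorem L103676 : W_39 (nat_lit 3) (nat_lit 0x100048002c0012001c0000000000000000000000000000000) (nat_lit 0x0) (nat_lit 0x200030000800000000000400000000000000000000000000000000000) := T_39 (nat_lit 209) (nat_lit 142) (nat_lit 6) (nat_lit 5) (nat_lit 12) L103675 (by decide +kernel)
theorem L103677 : W_39 (nat_lit 4) (nat_lit 0x100048002c0012000c0000000000000000000000000000000) (nat_lit 0x0) (nat_lit 0x200030000800000000000400100008000000000000000000000000000) := T_39 (nat_lit 128) (nat_lit 111) (nat_lit 6) (nat_lit 8) (nat_lit 10) L103676 (by decide +kernel)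
theorem L103678 : W_39 (nat_lit 2) (nat_lit 0x300048002c0012000d0000000000000000000000000000000) (nat_lit 0x0) (nat_lit 0x10000800040000000000000000000000000000000000000000000) := D_39 (nat_lit 191) (nat_lit 174) (nat_lit 208) (nat_lit 5) (nat_lit 5) (nat_lit 7) (nat_lit 5) (nat_lit 5) (nat_lit 8) (by decide +kernel)
theorem L103679 : W_39 (nat_lit 3) (nat_lit 0x300048002c0012000c0000000000000000000000000000000) (nat_lit 0x0) (nat_lit 0x10000800140000000000010000000000000000000000000000000) := T_39 (nat_lit 124) (nat_lit 176) (nat_lit 7) (nat_lit 5) (nat_lit 7) L103678 (by decide +kernel)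
theorem L103680 : W_39 (nat_lit 4) (nat_lit 0x100048002c0012000c0000000000000000000000000000000) (nat_lit 0x0) (nat_lit 0x50002800140000000000010000000000000000000000000000000) := T_39 (nat_lit 193) (nat_lit 210) (nat_lit 7) (nat_lit 5) (nat_lit 8) L103679 (by decide +kernel)
theorem L103681 : W_39 (nat_lit 2) (nat_lit 0x30004d002c0012000d0000800000000000000000000000000) (nat_lit 0x0) (nat_lit 0x20000000000000000400000000000040000000000000000000000) := D_39 (nat_lit 142) (nat_lit 209) (nat_lit 90) (nat_lit 6) (nat_lit 5) (nat_lit 12) (nat_lit 7) (nat_lit 5) (nat_lit 5) (by decide +kernel)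
theorem L103682 : W_39 (nat_lit 3) (nat_lit 0x30004d002c0012000d0000000000000000000000000000000) (nat_lit 0x0) (nat_lit 0x20000000000002000400000000800040000000000000000000000) := T_39 (nat_lit 107) (nat_lit 157) (nat_lit 5) (nat_lit 5) (nat_lit 6) L103681 (by decide +kernel)
theorem L103683 : W_39 (nat_lit 4) (nat_lit 0x30004c002c0012000d0000000000000000000000000000000) (nat_lit 0x0) (nat_lit 0x20000000030002000400000000800040000000000000000000000) := T_39 (nat_lit 172) (nat_lit 173) (nat_lit 3) (nat_lit 2) (nat_lit 10) L103682 (by decide +kernel)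
theorem L103684 : W_39 (nat_lit 5) (nat_lit 0x300048002c0012000d0000000000000000000000000000000) (nat_lit 0x0) (nat_lit 0x20000800070002000400000000800040000000000000000000000) := T_39 (nat_lit 174) (nat_lit 191) (nat_lit 5) (nat_lit 5) (nat_lit 7) L103683 (by decide +kernel)
theorem L103685 : W_39 (nat_lit 6) (nat_lit 0x300048002c0012000c0000000000000000000000000000000) (nat_lit 0x0) (nat_lit 0x20000800170002000400010000800040000000000000000000000) := T_39 (nat_lit 124) (nat_lit 176) (nat_lit 7) (nat_lit 5) (nat_lit 7) L103684 (by decide +kernel)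
theorem L103686 : W_39 (nat_lit 7) (nat_lit 0x100048002c0012000c0000000000000000000000000000000) (nat_lit 0x0) (nat_lit 0x60002800170002000400010000800040000000000000000000000) := T_39 (nat_lit 193) (nat_lit 210) (nat_lit 7) (nat_lit 5) (nat_lit 8) L103685 (by decide +kernel)
theorem L103687 : W_39 (nat_lit 2) (nat_lit 0x2000100048002c0012000c0000000000000000000000000000000) (nat_lit 0x0) (nat_lit 0x800040002000000000000000000000000000000000000000000000000) := D_39 (nat_lit 210) (nat_lit 193) (nat_lit 227) (nat_lit 7) (nat_lit 5) (nat_lit 8) (nat_lit 7) (nat_lit 5) (nat_lit 9) (by decide +kernel)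
theorem L103688 : W_39 (nat_lit 3) (nat_lit 0x100048002c0012000c0000000000000000000000000000000) (nat_lit 0x0) (nat_lit 0x800060002000000000000400000000000000000000000000000000000) := T_39 (nat_lit 209) (nat_lit 142) (nat_lit 6) (nat_lit 5) (nat_lit 12) L103687 (by decide +kernel)
theorem L103689 : W_39 (nat_lit 8) (nat_lit 0x48002c0012000c0000000000000000000000000000000) (nat_lit 0x0) (nat_lit 0xa00070003800170002000400110008800040000000000000000000000) := Q_39 (nat_lit 192) (C_39 L103677 (C_39 L103680 (C_39 L103686 (C_39 L103688 N_39)))) (by decide +kernel)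
theorem L103690 : W_39 (nat_lit 9) (nat_lit 0x4800240012000c0000000000000000000000000000000) (nat_lit 0x0) (nat_lit 0xa0007000380017005a000500110008800040000000000000000000000) := Q_39 (nat_lit 159) (C_39 L103451 (C_39 L103689 (C_39 L103441 (C_39 L103449 N_39)))) (by decide +kernel)
theorem L103691 : W_39 (nat_lit 14) (nat_lit 0x4800200012000c0000000000000000000000000000000) (nat_lit 0x0) (nat_lit 0x18000e0007c003e0037005fc005e011f009e000e0007000080000000000000) := Q_39 (nat_lit 158) (C_39 L103452 (C_39 L103461 (C_39 L103486 (C_39 L103608 (C_39 L103609 (C_39 L103624 (C_39 L103654 (C_39 L103663 (C_39 L103674 (C_39 L103690 N_39)))))))))) (by decide +kernel)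
theorem L103692 : W_39 (nat_lit 2) (nat_lit 0x7c00200012001c0000000000000000000000000000000) (nat_lit 0x0) (nat_lit 0x1c00000000000000000000000000000000000000000000000) := D_39 (nat_lit 191) (nat_lit 192) (nat_lit 190) (nat_lit 1) (nat_lit 8) (nat_lit 10) (nat_lit 1) (nat_lit 7) (nat_lit 10) (by decide +kernel)
theorem L103693 : W_39 (nat_lit 3) (nat_lit 0x7800200012001c0000000000000000000000000000000) (nat_lit 0x0) (nat_lit 0x1c00040010000000000000000000000000000000000000000) := T_39 (nat_lit 174) (nat_lit 160) (nat_lit 2) (nat_lit 4) (nat_lit 10) L103692 (by decide +kernel)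
theorem L103694 : W_39 (nat_lit 4) (nat_lit 0x6800200012001c0000000000000000000000000000000) (nat_lit 0x0) (nat_lit 0x1c00140050000000000000000000000000000000000000000) := T_39 (nat_lit 176) (nat_lit 162) (nat_lit 2) (nat_lit 5) (nat_lit 10) L103693 (by decide +kernel)
theorem L103695 : W_39 (nat_lit 5) (nat_lit 0x4800200012001c0000000000000000000000000000000) (nat_lit 0x0) (nat_lit 0x5c00340050000000000000000000000000000000000000000) := T_39 (nat_lit 177) (nat_lit 194) (nat_lit 5) (nat_lit 8) (nat_lit 7) L103694 (by decide +kernel)
theorem L103696 : W_39 (nat_lit 6) (nat_lit 0x4800200012000c0000000000000000000000000000000) (nat_lit 0x0) (nat_lit 0x5c00340050000000100008000000000000000000000000000) := T_39 (nat_lit 128) (nat_lit 111) (nat_lit 6) (nat_lit 8) (nat_lit 10) L103695 (by decide +kernel)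
theorem L103697 : W_39 (nat_lit 2) (nat_lit 0x200030004800240013000c0000000000000000000000000000000) (nat_lit 0x0) (nat_lit 0x18000400000000000000000000000000000000000) := D_39 (nat_lit 159) (nat_lit 160) (nat_lit 142) (nat_lit 0) (nat_lit 8) (nat_lit 9) (nat_lit 6) (nat_lit 5) (nat_lit 12) (by decide +kernel)
theorem L103698 : W_39 (nat_lit 3) (nat_lit 0x30004800240013000c0000000000000000000000000000000) (nat_lit 0x0) (nat_lit 0x2000000000001a000400000000000000000000000000000000000) := T_39 (nat_lit 209) (nat_lit 157) (nat_lit 4) (nat_lit 5) (nat_lit 12) L103697 (by decide +kernel)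
theorem L103699 : W_39 (nat_lit 4) (nat_lit 0x30004800240012000c0000000000000000000000000000000) (nat_lit 0x0) (nat_lit 0x2000000000001a000500008000000000000000000000000000000) := T_39 (nat_lit 140) (nat_lit 123) (nat_lit 4) (nat_lit 5) (nat_lit 11) L103698 (by decide +kernel)
theorem L103700 : W_39 (nat_lit 5) (nat_lit 0x10004800240012000c0000000000000000000000000000000) (nat_lit 0x0) (nat_lit 0x6000200000001a000500008000000000000000000000000000000) := T_39 (nat_lit 193) (nat_lit 210) (nat_lit 7) (nat_lit 5) (nat_lit 8) L103699 (by decide +kernel)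
theorem L103701 : W_39 (nat_lit 2) (nat_lit 0x38004800240012000c0000000000000000000000000000000) (nat_lit 0x0) (nat_lit 0x140000000000010000000000000000000000000000000) := D_39 (nat_lit 124) (nat_lit 176) (nat_lit 174) (nat_lit 7) (nat_lit 5) (nat_lit 7) (nat_lit 5) (nat_lit 5) (nat_lit 7) (by decide +kernel)
theorem L103702 : W_39 (nat_lit 3) (nat_lit 0x30004800240012000c0000000000000000000000000000000) (nat_lit 0x0) (nat_lit 0x10000800140000000000010000000000000000000000000000000) := T_39 (nat_lit 191) (nat_lit 208) (nat_lit 5) (nat_lit 5) (nat_lit 8) L103701 (by decide +kernel)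
theorem L103703 : W_39 (nat_lit 4) (nat_lit 0x10004800240012000c0000000000000000000000000000000) (nat_lit 0x0) (nat_lit 0x50002800140000000000010000000000000000000000000000000) := T_39 (nat_lit 193) (nat_lit 210) (nat_lit 7) (nat_lit 5) (nat_lit 8) L103702 (by decide +kernel)
theorem L103704 : W_39 (nat_lit 6) (nat_lit 0x4800240012000c0000000000000000000000000000000) (nat_lit 0x0) (nat_lit 0x20007000380014001a000500018000400000000000000000000000000) := Q_39 (nat_lit 192) (C_39 L103473 (C_39 L103470 (C_39 L103700 (C_39 L103703 N_39)))) (by decide +kernel)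
theorem L103705 : W_39 (nat_lit 8) (nat_lit 0x4800240012001d0000000000000000000000000000000) (nat_lit 0x0) (nat_lit 0x400030003e00100008000500008000c00000000000000000000000000) := T_39 (nat_lit 176) (nat_lit 193) (nat_lit 7) (nat_lit 5) (nat_lit 7) L103660 (by decide +kernel)
theorem L103706 : W_39 (nat_lit 9) (nat_lit 0x4800240012000d0000000000000000000000000000000) (nat_lit 0x0) (nat_lit 0x400030003e00100008000500108008c00000000000000000000000000) := T_39 (nat_lit 128) (nat_lit 111) (nat_lit 6) (nat_lit 8) (nat_lit 10) L103705 (by decide +kernel)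
theorem L103707 : W_39 (nat_lit 2) (nat_lit 0x10004800240012000d8000000000000000000000000000000) (nat_lit 0x0) (nat_lit 0x10000800040000000000000000000000000000000000000000000) := D_39 (nat_lit 191) (nat_lit 208) (nat_lit 174) (nat_lit 5) (nat_lit 5) (nat_lit 8) (nat_lit 5) (nat_lit 5) (nat_lit 7) (by decide +kernel)
theorem L103708 : W_39 (nat_lit 3) (nat_lit 0x4800240012000d8000000000000000000000000000000) (nat_lit 0x0) (nat_lit 0x10001800040000000100000000000000000000000000000000000) := T_39 (nat_lit 192) (nat_lit 140) (nat_lit 4) (nat_lit 5) (nat_lit 11) L103707 (by decide +kernel)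
theorem L103709 : W_39 (nat_lit 4) (nat_lit 0x4800240012000d0000000000000000000000000000000) (nat_lit 0x0) (nat_lit 0x10001800040000000100008000400000000000000000000000000) := T_39 (nat_lit 123) (nat_lit 106) (nat_lit 4) (nat_lit 5) (nat_lit 10) L103708 (by decide +kernel)
theorem L103710 : W_39 (nat_lit 5) (nat_lit 0x4800240012000d0000000000000000000000000000000) (nat_lit 0x0) (nat_lit 0x280014000a000000008000c00000000000000000000000000) := T_39 (nat_lit 176) (nat_lit 193) (nat_lit 7) (nat_lit 5) (nat_lit 7) L103617 (by decide +kernel)
theorem L103711 : W_39 (nat_lit 2) (nat_lit 0x5c00240012001d0000000000000000000000000000000) (nat_lit 0x0) (nat_lit 0xa000000000000800000000000000000000000000) := D_39 (nat_lit 107) (nat_lit 159) (nat_lit 157) (nat_lit 7) (nat_lit 5) (nat_lit 6) (nat_lit 5) (nat_lit 5) (nat_lit 6) (by decide +kernel)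
theorem L103712 : W_39 (nat_lit 3) (nat_lit 0x5800240012001d0000000000000000000000000000000) (nat_lit 0x0) (nat_lit 0x80004000a000000000000800000000000000000000000000) := T_39 (nat_lit 174) (nat_lit 191) (nat_lit 5) (nat_lit 5) (nat_lit 7) L103711 (by decide +kernel)
theorem L103713 : W_39 (nat_lit 4) (nat_lit 0x4800240012001d0000000000000000000000000000000) (nat_lit 0x0) (nat_lit 0x280014000a000000000000800000000000000000000000000) := T_39 (nat_lit 176) (nat_lit 193) (nat_lit 7) (nat_lit 5) (nat_lit 7) L103712 (by decide +kernel)
theorem L103714 : W_39 (nat_lit 5) (nat_lit 0x4800240012000d0000000000000000000000000000000) (nat_lit 0x0) (nat_lit 0x280014000a000000100008800000000000000000000000000) := T_39 (nat_lit 128) (nat_lit 111) (nat_lit 6) (nat_lit 8) (nat_lit 10) L103713 (by decide +kernel)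
theorem L103715 : W_39 (nat_lit 2) (nat_lit 0x5800240012001d0000800000000000000000000000000) (nat_lit 0x0) (nat_lit 0x8000400020000000000000000000000) := D_39 (nat_lit 106) (nat_lit 89) (nat_lit 123) (nat_lit 4) (nat_lit 5) (nat_lit 9) (nat_lit 4) (nat_lit 5) (nat_lit 10) (by decide +kernel)
theorem L103716 : W_39 (nat_lit 3) (nat_lit 0x5800240012001d0000000000000000000000000000000) (nat_lit 0x0) (nat_lit 0x8000000008000c00020000000000000000000000) := T_39 (nat_lit 107) (nat_lit 159) (nat_lit 7) (nat_lit 5) (nat_lit 6) L103715 (by decide +kernel)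
theorem L103717 : W_39 (nat_lit 4) (nat_lit 0x5800240012000d0000000000000000000000000000000) (nat_lit 0x0) (nat_lit 0x8000000108008c00020000000000000000000000) := T_39 (nat_lit 128) (nat_lit 111) (nat_lit 6) (nat_lit 8) (nat_lit 10) L103716 (by decide +kernel)
theorem L103718 : W_39 (nat_lit 5) (nat_lit 0x4800240012000d0000000000000000000000000000000) (nat_lit 0x0) (nat_lit 0x2000100008000000108008c00020000000000000000000000) := T_39 (nat_lit 176) (nat_lit 193) (nat_lit 7) (nat_lit 5) (nat_lit 7) L103717 (by decide +kernel)
theorem L103719 : W_39 (nat_lit 10) (nat_lit 0x4800240012000c0000000000000000000000000000000) (nat_lit 0x0) (nat_lit 0x400030003e0014000a000500118008c00020000000000000000000000) := Q_39 (nat_lit 124) (C_39 L103706 (C_39 L103709 (C_39 L103710 (C_39 L103714 (C_39 L103718 N_39))))) (by decide +kernel)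
theorem L103720 : W_39 (nat_lit 2) (nat_lit 0x200010004800240013001c0000000000000000000000000000000) (nat_lit 0x0) (nat_lit 0x800040002000000000000000000000000000000000000000000000000) := D_39 (nat_lit 210) (nat_lit 193) (nat_lit 227) (nat_lit 7) (nat_lit 5) (nat_lit 8) (nat_lit 7) (nat_lit 5) (nat_lit 9) (by decide +kernel)
theorem L103721 : W_39 (nat_lit 3) (nat_lit 0x10004800240013001c0000000000000000000000000000000) (nat_lit 0x0) (nat_lit 0x800060002000000002000000000000000000000000000000000000000) := T_39 (nat_lit 209) (nat_lit 157) (nat_lit 4) (nat_lit 5) (nat_lit 12) L103720 (by decide +kernel)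
theorem L103722 : W_39 (nat_lit 4) (nat_lit 0x10004800240012001c0000000000000000000000000000000) (nat_lit 0x0) (nat_lit 0x800060002000000002000100008000000000000000000000000000000) := T_39 (nat_lit 140) (nat_lit 123) (nat_lit 4) (nat_lit 5) (nat_lit 11) L103721 (by decide +kernel)
theorem L103723 : W_39 (nat_lit 5) (nat_lit 0x10004800240012000c0000000000000000000000000000000) (nat_lit 0x0) (nat_lit 0x800060002000000002000100108008000000000000000000000000000) := T_39 (nat_lit 128) (nat_lit 111) (nat_lit 6) (nat_lit 8) (nat_lit 10) L103722 (by decide +kernel)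
theorem L103724 : W_39 (nat_lit 6) (nat_lit 0x4800240012000c0000000000000000000000000000000) (nat_lit 0x0) (nat_lit 0xa00070003800140002000100118008000000000000000000000000000) := Q_39 (nat_lit 192) (C_39 L103703 (C_39 L103473 (C_39 L103723 N_39))) (by decide +kernel)
theorem L103725 : W_39 (nat_lit 2) (nat_lit 0x1c004d002e0013801c0000000000000000000000000000000) (nat_lit 0x0) (nat_lit 0x200108000000000000000000000000000000000000000000) := D_39 (nat_lit 189) (nat_lit 176) (nat_lit 171) (nat_lit 2) (nat_lit 2) (nat_lit 11) (nat_lit 0) (nat_lit 5) (nat_lit 11) (by decide +kernel)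
theorem L103726 : W_39 (nat_lit 3) (nat_lit 0x18004d002e0013801c0000000000000000000000000000000) (nat_lit 0x0) (nat_lit 0x8000600108000000000000000000000000000000000000000000) := T_39 (nat_lit 190) (nat_lit 207) (nat_lit 5) (nat_lit 4) (nat_lit 8) L103725 (by decide +kernel)
theorem L103727 : W_39 (nat_lit 4) (nat_lit 0x18004d002c0013801c0000000000000000000000000000000) (nat_lit 0x0) (nat_lit 0x8000600108002000000004000000000000000000000000000000) := T_39 (nat_lit 157) (nat_lit 122) (nat_lit 4) (nat_lit 4) (nat_lit 11) L103726 (by decide +kernel)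
theorem L103728 : W_39 (nat_lit 5) (nat_lit 0x18004d002c0013001c0000000000000000000000000000000) (nat_lit 0x0) (nat_lit 0x80006001080020000c0004000000000000000000000000000000) := T_39 (nat_lit 139) (nat_lit 138) (nat_lit 3) (nat_lit 2) (nat_lit 8) L103727 (by decide +kernel)
theorem L103729 : W_39 (nat_lit 6) (nat_lit 0x18004c002c0013001c0000000000000000000000000000000) (nat_lit 0x0) (nat_lit 0x80006001380020000c0004000000000000000000000000000000) := T_39 (nat_lit 172) (nat_lit 173) (nat_lit 2) (nat_lit 2) (nat_lit 10) L103728 (by decide +kernel)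
theorem L103730 : W_39 (nat_lit 7) (nat_lit 0x10004c002c0013001c0000000000000000000000000000000) (nat_lit 0x0) (nat_lit 0x18000e001380020000c0004000000000000000000000000000000) := T_39 (nat_lit 191) (nat_lit 208) (nat_lit 5) (nat_lit 5) (nat_lit 8) L103729 (by decide +kernel)
theorem L103731 : W_39 (nat_lit 8) (nat_lit 0x10004c00240013001c0000000000000000000000000000000) (nat_lit 0x0) (nat_lit 0x18000e0013801a0000c0004000000000000000000000000000000) := T_39 (nat_lit 159) (nat_lit 160) (nat_lit 1) (nat_lit 8) (nat_lit 9) L103730 (by decide +kernel)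
theorem L103732 : W_39 (nat_lit 9) (nat_lit 0x10004c00240012001c0000000000000000000000000000000) (nat_lit 0x0) (nat_lit 0x18000e0013801a0001c000c000000000000000000000000000000) := T_39 (nat_lit 140) (nat_lit 123) (nat_lit 4) (nat_lit 5) (nat_lit 11) L103731 (by decide +kernel)
theorem L103733 : W_39 (nat_lit 10) (nat_lit 0x10004c00240012000c0000000000000000000000000000000) (nat_lit 0x0) (nat_lit 0x18000e0013801a0001c010c008000000000000000000000000000) := T_39 (nat_lit 128) (nat_lit 111) (nat_lit 6) (nat_lit 8) (nat_lit 10) L103732 (by decide +kernel)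
theorem L103734 : W_39 (nat_lit 2) (nat_lit 0x200018004d002c0012001c0000000000000000000000000000000) (nat_lit 0x0) (nat_lit 0x8000400000000000100000000000000000000000000000000000000000000) := D_39 (nat_lit 226) (nat_lit 176) (nat_lit 243) (nat_lit 6) (nat_lit 5) (nat_lit 13) (nat_lit 4) (nat_lit 5) (nat_lit 14) (by decide +kernel)
theorem L103735 : W_39 (nat_lit 3) (nat_lit 0x18004d002c0012001c0000000000000000000000000000000) (nat_lit 0x0) (nat_lit 0x8000400020000000100000000400000000000000000000000000000000000) := T_39 (nat_lit 209) (nat_lit 142) (nat_lit 6) (nat_lit 5) (nat_lit 12) L103734 (by decide +kernel)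
theorem L103736 : W_39 (nat_lit 4) (nat_lit 0x18004c002c0012001c0000000000000000000000000000000) (nat_lit 0x0) (nat_lit 0x8000400020000000130000000400000000000000000000000000000000000) := T_39 (nat_lit 172) (nat_lit 173) (nat_lit 2) (nat_lit 2) (nat_lit 10) L103735 (by decide +kernel)
theorem L103737 : W_39 (nat_lit 5) (nat_lit 0x18004c00240012001c0000000000000000000000000000000) (nat_lit 0x0) (nat_lit 0x8000400020000000130018000400000000000000000000000000000000000) := T_39 (nat_lit 159) (nat_lit 160) (nat_lit 1) (nat_lit 8) (nat_lit 9) L103736 (by decide +kernel)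
theorem L103738 : W_39 (nat_lit 6) (nat_lit 0x18004c00240012000c0000000000000000000000000000000) (nat_lit 0x0) (nat_lit 0x8000400020000000130018000400100008000000000000000000000000000) := T_39 (nat_lit 128) (nat_lit 111) (nat_lit 6) (nat_lit 8) (nat_lit 10) L103737 (by decide +kernel)
theorem L103739 : W_39 (nat_lit 7) (nat_lit 0x10004c00240012000c0000000000000000000000000000000) (nat_lit 0x0) (nat_lit 0x8000400030000800130018000400100008000000000000000000000000000) := T_39 (nat_lit 191) (nat_lit 208) (nat_lit 5) (nat_lit 5) (nat_lit 8) L103738 (by decide +kernel)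
theorem L103740 : W_39 (nat_lit 11) (nat_lit 0x4c00240012000c0000000000000000000000000000000) (nat_lit 0x0) (nat_lit 0x8000600038001e0013801a0005c010c008000000000000000000000000000) := Q_39 (nat_lit 192) (C_39 L103505 (C_39 L103733 (C_39 L103502 (C_39 L103739 N_39)))) (by decide +kernel)
theorem L103741 : W_39 (nat_lit 9) (nat_lit 0x4c00240012000c0000000000000000000000000000000) (nat_lit 0x0) (nat_lit 0x40002000100013001a000500118009c000c0006000000000000000000) := Q_39 (nat_lit 123) (C_39 L103603 (C_39 L103580 (C_39 L103576 (C_39 L103596 (C_39 L103591 N_39))))) (by decide +kernel)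
theorem L103742 : W_39 (nat_lit 12) (nat_lit 0x4800240012000c0000000000000000000000000000000) (nat_lit 0x0) (nat_lit 0x8000600038001e0017801a0005c011c009c000e0006000000000000000000) := Q_39 (nat_lit 174) (C_39 L103607 (C_39 L103740 (C_39 L103560 (C_39 L103574 (C_39 L103741 N_39))))) (by decide +kernel)
theorem L103743 : W_39 (nat_lit 2) (nat_lit 0x4c00340012001d80008000c0001000000000000000000) (nat_lit 0x0) (nat_lit 0x100000000000000002000080000000000000) := D_39 (nat_lit 73) (nat_lit 140) (nat_lit 55) (nat_lit 5) (nat_lit 5) (nat_lit 4) (nat_lit 4) (nat_lit 5) (nat_lit 7) (by decide +kernel)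
theorem L103744 : W_39 (nat_lit 3) (nat_lit 0x4c00340012001d80008000c0000000000000000000000) (nat_lit 0x0) (nat_lit 0x100000000000020003000080000000000000) := T_39 (nat_lit 72) (nat_lit 89) (nat_lit 4) (nat_lit 5) (nat_lit 8) L103743 (by decide +kernel)
theorem L103745 : W_39 (nat_lit 4) (nat_lit 0x4c00340012001d8000800080000000000000000000000) (nat_lit 0x0) (nat_lit 0x100000000000060007000080000000000000) := T_39 (nat_lit 90) (nat_lit 74) (nat_lit 6) (nat_lit 5) (nat_lit 8) L103744 (by decide +kernel)
theorem L103746 : W_39 (nat_lit 5) (nat_lit 0x4c00340012001d8000800000000000000000000000000) (nat_lit 0x0) (nat_lit 0x1000000010000e0007000080000000000000) := T_39 (nat_lit 91) (nat_lit 108) (nat_lit 6) (nat_lit 5) (nat_lit 9) L103745 (by decide +kernel)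
theorem L103747 : W_39 (nat_lit 6) (nat_lit 0x4c00340012001d8000000000000000000000000000000) (nat_lit 0x0) (nat_lit 0x20001000000018000e0007000080000000000000) := T_39 (nat_lit 107) (nat_lit 157) (nat_lit 5) (nat_lit 5) (nat_lit 6) L103746 (by decide +kernel)
theorem L103748 : W_39 (nat_lit 7) (nat_lit 0x4c00240012001d8000000000000000000000000000000) (nat_lit 0x0) (nat_lit 0x1a0001000000018000e0007000080000000000000) := T_39 (nat_lit 160) (nat_lit 159) (nat_lit 1) (nat_lit 8) (nat_lit 9) L103747 (by decide +kernel)
theorem L103749 : W_39 (nat_lit 8) (nat_lit 0x4800240012001d8000000000000000000000000000000) (nat_lit 0x0) (nat_lit 0x80004001a0001000000018000e0007000080000000000000) := T_39 (nat_lit 174) (nat_lit 191) (nat_lit 5) (nat_lit 5) (nat_lit 7) L103748 (by decide +kernel)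
theorem L103750 : W_39 (nat_lit 9) (nat_lit 0x4800240012001d0000000000000000000000000000000) (nat_lit 0x0) (nat_lit 0x80004001a000100008001c000e0007000080000000000000) := T_39 (nat_lit 123) (nat_lit 106) (nat_lit 4) (nat_lit 5) (nat_lit 10) L103749 (by decide +kernel)
theorem L103751 : W_39 (nat_lit 10) (nat_lit 0x4800240012000d0000000000000000000000000000000) (nat_lit 0x0) (nat_lit 0x80004001a000100108009c000e0007000080000000000000) := T_39 (nat_lit 128) (nat_lit 111) (nat_lit 6) (nat_lit 8) (nat_lit 10) L103750 (by decide +kernel)
theorem L103752 : W_39 (nat_lit 2) (nat_lit 0x5c00240012000d0000800000000000000000000000000) (nat_lit 0x0) (nat_lit 0x8000400020000000000000000000000) := D_39 (nat_lit 106) (nat_lit 123) (nat_lit 89) (nat_lit 4) (nat_lit 5) (nat_lit 10) (nat_lit 4) (nat_lit 5) (nat_lit 9) (by decide +kernel)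
theorem L103753 : W_39 (nat_lit 3) (nat_lit 0x5c00240012000d0000000000000000000000000000000) (nat_lit 0x0) (nat_lit 0x2000000008000c00020000000000000000000000) := T_39 (nat_lit 107) (nat_lit 157) (nat_lit 5) (nat_lit 5) (nat_lit 6) L103752 (by decide +kernel)
theorem L103754 : W_39 (nat_lit 4) (nat_lit 0x4c00240012000d0000000000000000000000000000000) (nat_lit 0x0) (nat_lit 0x2000100002000000008000c00020000000000000000000000) := T_39 (nat_lit 176) (nat_lit 193) (nat_lit 7) (nat_lit 5) (nat_lit 7) L103753 (by decide +kernel)
theorem L103755 : W_39 (nat_lit 5) (nat_lit 0x4800240012000d0000000000000000000000000000000) (nat_lit 0x0) (nat_lit 0x2800140002000000008000c00020000000000000000000000) := T_39 (nat_lit 174) (nat_lit 191) (nat_lit 5) (nat_lit 5) (nat_lit 7) L103754 (by decide +kernel)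
theorem L103756 : W_39 (nat_lit 2) (nat_lit 0x4005e002d0012001d8000000000000000000000000000000) (nat_lit 0x0) (nat_lit 0x2000180000000000000000000000000000000000) := D_39 (nat_lit 140) (nat_lit 157) (nat_lit 139) (nat_lit 5) (nat_lit 4) (nat_lit 7) (nat_lit 6) (nat_lit 3) (nat_lit 11) (by decide +kernel)
theorem L103757 : W_39 (nat_lit 3) (nat_lit 0x5e002d0012001d8000000000000000000000000000000) (nat_lit 0x0) (nat_lit 0x600000002000180000000000000000000000000000000000) := T_39 (nat_lit 190) (nat_lit 189) (nat_lit 1) (nat_lit 6) (nat_lit 10) L103756 (by decide +kernel)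
theorem L103758 : W_39 (nat_lit 4) (nat_lit 0x5e002c0012001d8000000000000000000000000000000) (nat_lit 0x0) (nat_lit 0x600000003800180000000000000000000000000000000000) := T_39 (nat_lit 156) (nat_lit 155) (nat_lit 0) (nat_lit 6) (nat_lit 10) L103757 (by decide +kernel)
theorem L103759 : W_39 (nat_lit 5) (nat_lit 0x5c002c0012001d8000000000000000000000000000000) (nat_lit 0x0) (nat_lit 0x600030003800180000000000000000000000000000000000) := T_39 (nat_lit 173) (nat_lit 172) (nat_lit 2) (nat_lit 2) (nat_lit 10) L103758 (by decide +kernel)
theorem L103760 : W_39 (nat_lit 6) (nat_lit 0x5c002c0012001d0000000000000000000000000000000) (nat_lit 0x0) (nat_lit 0x600030003800180008000400000000000000000000000000) := T_39 (nat_lit 123) (nat_lit 106) (nat_lit 4) (nat_lit 5) (nat_lit 10) L103759 (by decide +kernel)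
theorem L103761 : W_39 (nat_lit 7) (nat_lit 0x5c00240012001d0000000000000000000000000000000) (nat_lit 0x0) (nat_lit 0x60003001b800180008000400000000000000000000000000) := T_39 (nat_lit 159) (nat_lit 160) (nat_lit 1) (nat_lit 8) (nat_lit 9) L103760 (by decide +kernel)
theorem L103762 : W_39 (nat_lit 8) (nat_lit 0x5800240012001d0000000000000000000000000000000) (nat_lit 0x0) (nat_lit 0xe0007001b800180008000400000000000000000000000000) := T_39 (nat_lit 174) (nat_lit 191) (nat_lit 5) (nat_lit 5) (nat_lit 7) L103761 (by decide +kernel)
theorem L103763 : W_39 (nat_lit 9) (nat_lit 0x4800240012001d0000000000000000000000000000000) (nat_lit 0x0) (nat_lit 0x2e0017001b800180008000400000000000000000000000000) := T_39 (nat_lit 176) (nat_lit 193) (nat_lit 7) (nat_lit 5) (nat_lit 7) L103762 (by decide +kernel)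
theorem L103764 : W_39 (nat_lit 10) (nat_lit 0x4800240012000d0000000000000000000000000000000) (nat_lit 0x0) (nat_lit 0x2e0017001b800180108008400000000000000000000000000) := T_39 (nat_lit 128) (nat_lit 111) (nat_lit 6) (nat_lit 8) (nat_lit 10) L103763 (by decide +kernel)
theorem L103765 : W_39 (nat_lit 11) (nat_lit 0x4800240012000c0000000000000000000000000000000) (nat_lit 0x0) (nat_lit 0x2e0017001b800180118009c000e0007000080000000000000) := Q_39 (nat_lit 124) (C_39 L103718 (C_39 L103710 (C_39 L103751 (C_39 L103755 (C_39 L103764 (C_39 L103714 N_39)))))) (by decide +kernel)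
theorem L103766 : W_39 (nat_lit 2) (nat_lit 0x30004e00340012000c0000000000000000000000000000000) (nat_lit 0x0) (nat_lit 0xc800000000000000000000000000000000000000000000000) := D_39 (nat_lit 194) (nat_lit 195) (nat_lit 191) (nat_lit 0) (nat_lit 8) (nat_lit 11) (nat_lit 0) (nat_lit 7) (nat_lit 11) (by decide +kernel)
theorem L103767 : W_39 (nat_lit 3) (nat_lit 0x30004c00340012000c0000000000000000000000000000000) (nat_lit 0x0) (nat_lit 0xc800030000000000000000000000000000000000000000000) := T_39 (nat_lit 173) (nat_lit 172) (nat_lit 3) (nat_lit 2) (nat_lit 10) L103766 (by decide +kernel)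
theorem L103768 : W_39 (nat_lit 4) (nat_lit 0x10004c00340012000c0000000000000000000000000000000) (nat_lit 0x0) (nat_lit 0x4000e800030000000000000000000000000000000000000000000) := T_39 (nat_lit 193) (nat_lit 210) (nat_lit 7) (nat_lit 5) (nat_lit 8) L103767 (by decide +kernel)
theorem L103769 : W_39 (nat_lit 5) (nat_lit 0x10004c00240012000c0000000000000000000000000000000) (nat_lit 0x0) (nat_lit 0x4000e800030018000000000000000000000000000000000000000) := T_39 (nat_lit 160) (nat_lit 159) (nat_lit 1) (nat_lit 8) (nat_lit 9) L103768 (by decide +kernel)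
theorem L103770 : W_39 (nat_lit 2) (nat_lit 0x30004e00240013001c0000000000000000000000000000000) (nat_lit 0x0) (nat_lit 0xc800000000000000000000000000000000000000000000000) := D_39 (nat_lit 194) (nat_lit 195) (nat_lit 191) (nat_lit 0) (nat_lit 8) (nat_lit 11) (nat_lit 0) (nat_lit 7) (nat_lit 11) (by decide +kernel)
theorem L103771 : W_39 (nat_lit 3) (nat_lit 0x30004c00240013001c0000000000000000000000000000000) (nat_lit 0x0) (nat_lit 0xc800030000000000000000000000000000000000000000000) := T_39 (nat_lit 173) (nat_lit 172) (nat_lit 3) (nat_lit 2) (nat_lit 10) L103770 (by decide +kernel)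
theorem L103772 : W_39 (nat_lit 4) (nat_lit 0x10004c00240013001c0000000000000000000000000000000) (nat_lit 0x0) (nat_lit 0x4000e800030000000000000000000000000000000000000000000) := T_39 (nat_lit 193) (nat_lit 210) (nat_lit 7) (nat_lit 5) (nat_lit 8) L103771 (by decide +kernel)
theorem L103773 : W_39 (nat_lit 5) (nat_lit 0x10004c00240013000c0000000000000000000000000000000) (nat_lit 0x0) (nat_lit 0x4000e800030000000000100008000000000000000000000000000) := T_39 (nat_lit 128) (nat_lit 111) (nat_lit 6) (nat_lit 8) (nat_lit 10) L103772 (by decide +kernel)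
theorem L103774 : W_39 (nat_lit 6) (nat_lit 0x10004c00240012000c0000000000000000000000000000000) (nat_lit 0x0) (nat_lit 0x4000e800030000000100108008000000000000000000000000000) := T_39 (nat_lit 140) (nat_lit 123) (nat_lit 4) (nat_lit 5) (nat_lit 11) L103773 (by decide +kernel)
theorem L103775 : W_39 (nat_lit 2) (nat_lit 0xbc004c002e0013801c0000000000000000000000000000000) (nat_lit 0x0) (nat_lit 0x300100000000000000000000000000000000000000000000) := D_39 (nat_lit 189) (nat_lit 176) (nat_lit 188) (nat_lit 2) (nat_lit 2) (nat_lit 11) (nat_lit 2) (nat_lit 1) (nat_lit 11) (by decide +kernel)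
theorem L103776 : W_39 (nat_lit 3) (nat_lit 0xb8004c002e0013801c0000000000000000000000000000000) (nat_lit 0x0) (nat_lit 0x8000700100000000000000000000000000000000000000000000) := T_39 (nat_lit 190) (nat_lit 207) (nat_lit 5) (nat_lit 4) (nat_lit 8) L103775 (by decide +kernel)
theorem L103777 : W_39 (nat_lit 4) (nat_lit 0xb8004c002c0013801c0000000000000000000000000000000) (nat_lit 0x0) (nat_lit 0x8000700100002000000004000000000000000000000000000000) := T_39 (nat_lit 157) (nat_lit 122) (nat_lit 4) (nat_lit 4) (nat_lit 11) L103776 (by decide +kernel)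
theorem L103778 : W_39 (nat_lit 5) (nat_lit 0xb8004c002c0013001c0000000000000000000000000000000) (nat_lit 0x0) (nat_lit 0x80007001000020000c0004000000000000000000000000000000) := T_39 (nat_lit 139) (nat_lit 138) (nat_lit 3) (nat_lit 2) (nat_lit 8) L103777 (by decide +kernel)
theorem L103779 : W_39 (nat_lit 6) (nat_lit 0xb8004c002c0012001c0000000000000000000000000000000) (nat_lit 0x0) (nat_lit 0x80007001000020001c000c000000000000000000000000000000) := T_39 (nat_lit 140) (nat_lit 123) (nat_lit 4) (nat_lit 5) (nat_lit 11) L103778 (by decide +kernel)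
theorem L103780 : W_39 (nat_lit 7) (nat_lit 0xb8004c002c0012000c0000000000000000000000000000000) (nat_lit 0x0) (nat_lit 0x80007001000020001c010c008000000000000000000000000000) := T_39 (nat_lit 128) (nat_lit 111) (nat_lit 6) (nat_lit 8) (nat_lit 10) L103779 (by decide +kernel)
theorem L103781 : W_39 (nat_lit 8) (nat_lit 0x38004c002c0012000c0000000000000000000000000000000) (nat_lit 0x0) (nat_lit 0x800c7001000020001c010c008000000000000000000000000000) := T_39 (nat_lit 195) (nat_lit 194) (nat_lit 0) (nat_lit 8) (nat_lit 11) L103780 (by decide +kernel)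
theorem L103782 : W_39 (nat_lit 9) (nat_lit 0x18004c002c0012000c0000000000000000000000000000000) (nat_lit 0x0) (nat_lit 0x4800e7001000020001c010c008000000000000000000000000000) := T_39 (nat_lit 193) (nat_lit 210) (nat_lit 7) (nat_lit 5) (nat_lit 8) L103781 (by decide +kernel)
theorem L103783 : W_39 (nat_lit 10) (nat_lit 0x18004c00240012000c0000000000000000000000000000000) (nat_lit 0x0) (nat_lit 0x4800e70010001a0001c010c008000000000000000000000000000) := T_39 (nat_lit 159) (nat_lit 160) (nat_lit 1) (nat_lit 8) (nat_lit 9) L103782 (by decide +kernel)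
theorem L103784 : W_39 (nat_lit 11) (nat_lit 0x10004c00240012000c0000000000000000000000000000000) (nat_lit 0x0) (nat_lit 0x5800ef0010001a0001c010c008000000000000000000000000000) := T_39 (nat_lit 191) (nat_lit 208) (nat_lit 5) (nat_lit 5) (nat_lit 8) L103783 (by decide +kernel)
theorem L103785 : W_39 (nat_lit 2) (nat_lit 0x30004e00340012001c0000000000000000000000000000000) (nat_lit 0x0) (nat_lit 0xc000100000000000000000000000000000000000000000000) := D_39 (nat_lit 194) (nat_lit 195) (nat_lit 176) (nat_lit 0) (nat_lit 8) (nat_lit 11) (nat_lit 3) (nat_lit 3) (nat_lit 10) (by decide +kernel)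
theorem L103786 : W_39 (nat_lit 3) (nat_lit 0x30004c00340012001c0000000000000000000000000000000) (nat_lit 0x0) (nat_lit 0xc000130000000000000000000000000000000000000000000) := T_39 (nat_lit 173) (nat_lit 172) (nat_lit 3) (nat_lit 2) (nat_lit 10) L103785 (by decide +kernel)
theorem L103787 : W_39 (nat_lit 4) (nat_lit 0x10004c00340012001c0000000000000000000000000000000) (nat_lit 0x0) (nat_lit 0x4000e000130000000000000000000000000000000000000000000) := T_39 (nat_lit 193) (nat_lit 210) (nat_lit 7) (nat_lit 5) (nat_lit 8) L103786 (by decide +kernel)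
theorem L103788 : W_39 (nat_lit 5) (nat_lit 0x10004c00240012001c0000000000000000000000000000000) (nat_lit 0x0) (nat_lit 0x4000e000130018000000000000000000000000000000000000000) := T_39 (nat_lit 160) (nat_lit 159) (nat_lit 1) (nat_lit 8) (nat_lit 9) L103787 (by decide +kernel)
theorem L103789 : W_39 (nat_lit 6) (nat_lit 0x10004c00240012000c0000000000000000000000000000000) (nat_lit 0x0) (nat_lit 0x4000e000130018000000100008000000000000000000000000000) := T_39 (nat_lit 128) (nat_lit 111) (nat_lit 6) (nat_lit 8) (nat_lit 10) L103788 (by decide +kernel)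
theorem L103790 : W_39 (nat_lit 12) (nat_lit 0x10004800240012000c0000000000000000000000000000000) (nat_lit 0x0) (nat_lit 0x5800ef0017801a0001c010c008000000000000000000000000000) := Q_39 (nat_lit 174) (C_39 L103733 (C_39 L103769 (C_39 L103774 (C_39 L103784 (C_39 L103789 N_39))))) (by decide +kernel)
theorem L103791 : W_39 (nat_lit 2) (nat_lit 0x400060001a0048002c0012001c0000000000000000000000000000000) (nat_lit 0x0) (nat_lit 0x40012000000000000000000000000000000000000000) := D_39 (nat_lit 174) (nat_lit 157) (nat_lit 160) (nat_lit 4) (nat_lit 5) (nat_lit 13) (nat_lit 1) (nat_lit 8) (nat_lit 9) (by decide +kernel)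
theorem L103792 : W_39 (nat_lit 3) (nat_lit 0x60001a0048002c0012001c0000000000000000000000000000000) (nat_lit 0x0) (nat_lit 0x400000000000140012000000000000000000000000000000000000000) := T_39 (nat_lit 226) (nat_lit 176) (nat_lit 6) (nat_lit 5) (nat_lit 13) L103791 (by decide +kernel)
theorem L103793 : W_39 (nat_lit 4) (nat_lit 0x60001a004800240012001c0000000000000000000000000000000) (nat_lit 0x0) (nat_lit 0x40000000000014001a000400000000000000000000000000000000000) := T_39 (nat_lit 159) (nat_lit 142) (nat_lit 6) (nat_lit 5) (nat_lit 12) L103792 (by decide +kernel)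
theorem L103794 : W_39 (nat_lit 5) (nat_lit 0x600018004800240012001c0000000000000000000000000000000) (nat_lit 0x0) (nat_lit 0x40000000060014001a000400000000000000000000000000000000000) := T_39 (nat_lit 189) (nat_lit 190) (nat_lit 3) (nat_lit 2) (nat_lit 11) L103793 (by decide +kernel)
theorem L103795 : W_39 (nat_lit 6) (nat_lit 0x400018004800240012001c0000000000000000000000000000000) (nat_lit 0x0) (nat_lit 0xc0002000060014001a000400000000000000000000000000000000000) := T_39 (nat_lit 209) (nat_lit 227) (nat_lit 7) (nat_lit 5) (nat_lit 9) L103794 (by decide +kernel)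
theorem L103796 : W_39 (nat_lit 7) (nat_lit 0x18004800240012001c0000000000000000000000000000000) (nat_lit 0x0) (nat_lit 0xc0006000260014001a000400000000000000000000000000000000000) := T_39 (nat_lit 210) (nat_lit 193) (nat_lit 7) (nat_lit 5) (nat_lit 8) L103795 (by decide +kernel)
theorem L103797 : W_39 (nat_lit 8) (nat_lit 0x10004800240012001c0000000000000000000000000000000) (nat_lit 0x0) (nat_lit 0xc00070002e0014001a000400000000000000000000000000000000000) := T_39 (nat_lit 191) (nat_lit 208) (nat_lit 5) (nat_lit 5) (nat_lit 8) L103796 (by decide +kernel)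
theorem L103798 : W_39 (nat_lit 9) (nat_lit 0x10004800240012000c0000000000000000000000000000000) (nat_lit 0x0) (nat_lit 0xc00070002e0014001a000400100008000000000000000000000000000) := T_39 (nat_lit 128) (nat_lit 111) (nat_lit 6) (nat_lit 8) (nat_lit 10) L103797 (by decide +kernel)
theorem L103799 : W_39 (nat_lit 2) (nat_lit 0x2000300048002c0013401c0000000000000000000000000000000) (nat_lit 0x0) (nat_lit 0x200010000800000000000000000000000000000000000000000000000) := D_39 (nat_lit 208) (nat_lit 191) (nat_lit 225) (nat_lit 5) (nat_lit 5) (nat_lit 8) (nat_lit 5) (nat_lit 5) (nat_lit 9) (by decide +kernel)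
theorem L103800 : W_39 (nat_lit 3) (nat_lit 0x300048002c0013401c0000000000000000000000000000000) (nat_lit 0x0) (nat_lit 0x200030000800000000000400000000000000000000000000000000000) := T_39 (nat_lit 209) (nat_lit 142) (nat_lit 6) (nat_lit 5) (nat_lit 12) L103799 (by decide +kernel)
theorem L103801 : W_39 (nat_lit 4) (nat_lit 0x300048002c0013001c0000000000000000000000000000000) (nat_lit 0x0) (nat_lit 0x2000300008000000000004c0000000000000000000000000000000000) := T_39 (nat_lit 138) (nat_lit 139) (nat_lit 3) (nat_lit 2) (nat_lit 8) L103800 (by decide +kernel)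
theorem L103802 : W_39 (nat_lit 5) (nat_lit 0x300048002c0013000c0000000000000000000000000000000) (nat_lit 0x0) (nat_lit 0x2000300008000000000004c0100008000000000000000000000000000) := T_39 (nat_lit 128) (nat_lit 111) (nat_lit 6) (nat_lit 8) (nat_lit 10) L103801 (by decide +kernel)
theorem L103803 : W_39 (nat_lit 6) (nat_lit 0x30004800240013000c0000000000000000000000000000000) (nat_lit 0x0) (nat_lit 0x2000300008000000180004c0100008000000000000000000000000000) := T_39 (nat_lit 159) (nat_lit 160) (nat_lit 0) (nat_lit 8) (nat_lit 9) L103802 (by decide +kernel)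
theorem L103804 : W_39 (nat_lit 7) (nat_lit 0x30004800240012000c0000000000000000000000000000000) (nat_lit 0x0) (nat_lit 0x2000300008000000180005c0108008000000000000000000000000000) := T_39 (nat_lit 140) (nat_lit 123) (nat_lit 4) (nat_lit 5) (nat_lit 11) L103803 (by decide +kernel)
theorem L103805 : W_39 (nat_lit 8) (nat_lit 0x10004800240012000c0000000000000000000000000000000) (nat_lit 0x0) (nat_lit 0x2000700028000000180005c0108008000000000000000000000000000) := T_39 (nat_lit 193) (nat_lit 210) (nat_lit 7) (nat_lit 5) (nat_lit 8) L103804 (by decide +kernel)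
theorem L103806 : W_39 (nat_lit 13) (nat_lit 0x4800240012000c0000000000000000000000000000000) (nat_lit 0x0) (nat_lit 0xe0007800ff0017801a0005c010c008000000000000000000000000000) := Q_39 (nat_lit 192) (C_39 L103723 (C_39 L103700 (C_39 L103477 (C_39 L103790 (C_39 L103798 (C_39 L103805 N_39)))))) (by decide +kernel)
theorem L103807 : W_39 (nat_lit 2) (nat_lit 0x8003c005a002c0013401c0000000000000000000000000000000) (nat_lit 0x0) (nat_lit 0x3800000000000000000000000000000000000000) := D_39 (nat_lit 156) (nat_lit 155) (nat_lit 157) (nat_lit 4) (nat_lit 3) (nat_lit 12) (nat_lit 6) (nat_lit 3) (nat_lit 12) (by decide +kernel)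
theorem L103808 : W_39 (nat_lit 3) (nat_lit 0x3c005a002c0013401c0000000000000000000000000000000) (nat_lit 0x0) (nat_lit 0xc000000000003800000000000000000000000000000000000000) := T_39 (nat_lit 207) (nat_lit 206) (nat_lit 1) (nat_lit 6) (nat_lit 11) L103807 (by decide +kernel)
theorem L103809 : W_39 (nat_lit 4) (nat_lit 0x3c0058002c0013401c0000000000000000000000000000000) (nat_lit 0x0) (nat_lit 0xc000000030003800000000000000000000000000000000000000) := T_39 (nat_lit 173) (nat_lit 172) (nat_lit 0) (nat_lit 6) (nat_lit 11) L103808 (by decide +kernel)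
theorem L103810 : W_39 (nat_lit 5) (nat_lit 0x380058002c0013401c0000000000000000000000000000000) (nat_lit 0x0) (nat_lit 0xc000600030003800000000000000000000000000000000000000) := T_39 (nat_lit 190) (nat_lit 189) (nat_lit 2) (nat_lit 2) (nat_lit 11) L103809 (by decide +kernel)
theorem L103811 : W_39 (nat_lit 6) (nat_lit 0x300058002c0013401c0000000000000000000000000000000) (nat_lit 0x0) (nat_lit 0x1c000e00030003800000000000000000000000000000000000000) := T_39 (nat_lit 191) (nat_lit 208) (nat_lit 5) (nat_lit 5) (nat_lit 8) L103810 (by decide +kernel)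
theorem L103812 : W_39 (nat_lit 7) (nat_lit 0x300058002c0013001c0000000000000000000000000000000) (nat_lit 0x0) (nat_lit 0x1c000e000300038000c0000000000000000000000000000000000) := T_39 (nat_lit 138) (nat_lit 139) (nat_lit 3) (nat_lit 2) (nat_lit 8) L103811 (by decide +kernel)
theorem L103813 : W_39 (nat_lit 8) (nat_lit 0x300048002c0013001c0000000000000000000000000000000) (nat_lit 0x0) (nat_lit 0x1c000e001300038000c0010000000000000000000000000000000) := T_39 (nat_lit 176) (nat_lit 124) (nat_lit 7) (nat_lit 5) (nat_lit 7) L103812 (by decide +kernel)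
theorem L103814 : W_39 (nat_lit 9) (nat_lit 0x30004800240013001c0000000000000000000000000000000) (nat_lit 0x0) (nat_lit 0x1c000e0013001b8000c0010000000000000000000000000000000) := T_39 (nat_lit 159) (nat_lit 160) (nat_lit 0) (nat_lit 8) (nat_lit 9) L103813 (by decide +kernel)
theorem L103815 : W_39 (nat_lit 10) (nat_lit 0x30004800240012001c0000000000000000000000000000000) (nat_lit 0x0) (nat_lit 0x1c000e0013001b8001c0018000000000000000000000000000000) := T_39 (nat_lit 140) (nat_lit 123) (nat_lit 4) (nat_lit 5) (nat_lit 11) L103814 (by decide +kernel)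
theorem L103816 : W_39 (nat_lit 11) (nat_lit 0x10004800240012001c0000000000000000000000000000000) (nat_lit 0x0) (nat_lit 0x5c002e0013001b8001c0018000000000000000000000000000000) := T_39 (nat_lit 193) (nat_lit 210) (nat_lit 7) (nat_lit 5) (nat_lit 8) L103815 (by decide +kernel)
theorem L103817 : W_39 (nat_lit 12) (nat_lit 0x10004800240012000c0000000000000000000000000000000) (nat_lit 0x0) (nat_lit 0x5c002e0013001b8001c0118008000000000000000000000000000) := T_39 (nat_lit 128) (nat_lit 111) (nat_lit 6) (nat_lit 8) (nat_lit 10) L103816 (by decide +kernel)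
theorem L103818 : W_39 (nat_lit 2) (nat_lit 0x300010004800240012001c0000000000000000000000000000000) (nat_lit 0x0) (nat_lit 0x800040002000000000000000000000000000000000000000000000000) := D_39 (nat_lit 210) (nat_lit 193) (nat_lit 227) (nat_lit 7) (nat_lit 5) (nat_lit 8) (nat_lit 7) (nat_lit 5) (nat_lit 9) (by decide +kernel)
theorem L103819 : W_39 (nat_lit 3) (nat_lit 0x100010004800240012001c0000000000000000000000000000000) (nat_lit 0x0) (nat_lit 0xa00060002000000000000000000000000000000000000000000000000) := T_39 (nat_lit 209) (nat_lit 225) (nat_lit 5) (nat_lit 5) (nat_lit 9) L103818 (by decide +kernel)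
theorem L103820 : W_39 (nat_lit 4) (nat_lit 0x100010004800240012000c0000000000000000000000000000000) (nat_lit 0x0) (nat_lit 0xa00060002000000000000000100008000000000000000000000000000) := T_39 (nat_lit 128) (nat_lit 111) (nat_lit 6) (nat_lit 8) (nat_lit 10) L103819 (by decide +kernel)
theorem L103821 : W_39 (nat_lit 5) (nat_lit 0x10004800240012000c0000000000000000000000000000000) (nat_lit 0x0) (nat_lit 0xa00070002800000000000000100008000000000000000000000000000) := T_39 (nat_lit 208) (nat_lit 191) (nat_lit 5) (nat_lit 5) (nat_lit 8) L103820 (by decide +kernel)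
theorem L103822 : W_39 (nat_lit 13) (nat_lit 0x4800240012000c0000000000000000000000000000000) (nat_lit 0x0) (nat_lit 0xa0007c003e0013001b8005c0118008000000000000000000000000000) := Q_39 (nat_lit 192) (C_39 L103805 (C_39 L103700 (C_39 L103723 (C_39 L103477 (C_39 L103817 (C_39 L103821 N_39)))))) (by decide +kernel)
theorem L103823 : W_39 (nat_lit 2) (nat_lit 0x4d002c0012001d8000800080000000000000000000000) (nat_lit 0x0) (nat_lit 0x400000000000040004000000000000000000) := D_39 (nat_lit 90) (nat_lit 142) (nat_lit 74) (nat_lit 7) (nat_lit 5) (nat_lit 5) (nat_lit 6) (nat_lit 5) (nat_lit 8) (by decide +kernel)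
theorem L103824 : W_39 (nat_lit 3) (nat_lit 0x4d002c0012001d8000800000000000000000000000000) (nat_lit 0x0) (nat_lit 0x4000000010000c0004000000000000000000) := T_39 (nat_lit 91) (nat_lit 108) (nat_lit 6) (nat_lit 5) (nat_lit 9) L103823 (by decide +kernel)
theorem L103825 : W_39 (nat_lit 4) (nat_lit 0x4c002c0012001d8000800000000000000000000000000) (nat_lit 0x0) (nat_lit 0x300000004000000010000c0004000000000000000000) := T_39 (nat_lit 172) (nat_lit 173) (nat_lit 2) (nat_lit 2) (nat_lit 10) L103824 (by decide +kernel)
theorem L103826 : W_39 (nat_lit 5) (nat_lit 0x4c002c0012001d8000000000000000000000000000000) (nat_lit 0x0) (nat_lit 0x300020004000000018000c0004000000000000000000) := T_39 (nat_lit 107) (nat_lit 157) (nat_lit 5) (nat_lit 5) (nat_lit 6) L103825 (by decide +kernel)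
theorem L103827 : W_39 (nat_lit 6) (nat_lit 0x4c00240012001d8000000000000000000000000000000) (nat_lit 0x0) (nat_lit 0x3001a0004000000018000c0004000000000000000000) := T_39 (nat_lit 159) (nat_lit 160) (nat_lit 1) (nat_lit 8) (nat_lit 9) L103826 (by decide +kernel)
theorem L103828 : W_39 (nat_lit 7) (nat_lit 0x4800240012001d8000000000000000000000000000000) (nat_lit 0x0) (nat_lit 0x80007001a0004000000018000c0004000000000000000000) := T_39 (nat_lit 174) (nat_lit 191) (nat_lit 5) (nat_lit 5) (nat_lit 7) L103827 (by decide +kernel)
theorem L103829 : W_39 (nat_lit 8) (nat_lit 0x4800240012001d0000000000000000000000000000000) (nat_lit 0x0) (nat_lit 0x80007001a000400008001c000c0004000000000000000000) := T_39 (nat_lit 123) (nat_lit 106) (nat_lit 4) (nat_lit 5) (nat_lit 10) L103828 (by decide +kernel)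
theorem L103830 : W_39 (nat_lit 9) (nat_lit 0x4800240012000d0000000000000000000000000000000) (nat_lit 0x0) (nat_lit 0x80007001a000400108009c000c0004000000000000000000) := T_39 (nat_lit 128) (nat_lit 111) (nat_lit 6) (nat_lit 8) (nat_lit 10) L103829 (by decide +kernel)
theorem L103831 : W_39 (nat_lit 2) (nat_lit 0x4000200030004d002c0012000d0000000000000000000000000000000) (nat_lit 0x0) (nat_lit 0x4000200010000000000000000000000000000000000000000000000000000) := D_39 (nat_lit 225) (nat_lit 242) (nat_lit 208) (nat_lit 5) (nat_lit 5) (nat_lit 10) (nat_lit 5) (nat_lit 5) (nat_lit 9) (by decide +kernel)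
theorem L103832 : W_39 (nat_lit 3) (nat_lit 0x200030004d002c0012000d0000000000000000000000000000000) (nat_lit 0x0) (nat_lit 0x4000600010000000000002000000000000000000000000000000000000000) := T_39 (nat_lit 226) (nat_lit 157) (nat_lit 4) (nat_lit 5) (nat_lit 13) L103831 (by decide +kernel)
theorem L103833 : W_39 (nat_lit 4) (nat_lit 0x30004d002c0012000d0000000000000000000000000000000) (nat_lit 0x0) (nat_lit 0x4000600030000000000002000400000000000000000000000000000000000) := T_39 (nat_lit 209) (nat_lit 142) (nat_lit 6) (nat_lit 5) (nat_lit 12) L103832 (by decide +kernel)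
theorem L103834 : W_39 (nat_lit 5) (nat_lit 0x30004c002c0012000d0000000000000000000000000000000) (nat_lit 0x0) (nat_lit 0x4000600030000000030002000400000000000000000000000000000000000) := T_39 (nat_lit 172) (nat_lit 173) (nat_lit 3) (nat_lit 2) (nat_lit 10) L103833 (by decide +kernel)
theorem L103835 : W_39 (nat_lit 6) (nat_lit 0x20004c002c0012000d0000000000000000000000000000000) (nat_lit 0x0) (nat_lit 0x4000600070001000030002000400000000000000000000000000000000000) := T_39 (nat_lit 192) (nat_lit 210) (nat_lit 7) (nat_lit 5) (nat_lit 8) L103834 (by decide +kernel)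
theorem L103836 : W_39 (nat_lit 7) (nat_lit 0x20004c00240012000d0000000000000000000000000000000) (nat_lit 0x0) (nat_lit 0x400060007000100003001a000400000000000000000000000000000000000) := T_39 (nat_lit 159) (nat_lit 160) (nat_lit 1) (nat_lit 8) (nat_lit 9) L103835 (by decide +kernel)
theorem L103837 : W_39 (nat_lit 8) (nat_lit 0x20004800240012000d0000000000000000000000000000000) (nat_lit 0x0) (nat_lit 0x400060007000180007001a000400000000000000000000000000000000000) := T_39 (nat_lit 174) (nat_lit 191) (nat_lit 5) (nat_lit 5) (nat_lit 7) L103836 (by decide +kernel)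
theorem L103838 : W_39 (nat_lit 9) (nat_lit 0x4800240012000d0000000000000000000000000000000) (nat_lit 0x0) (nat_lit 0x400060007000380017001a000400000000000000000000000000000000000) := T_39 (nat_lit 193) (nat_lit 176) (nat_lit 7) (nat_lit 5) (nat_lit 7) L103837 (by decide +kernel)
theorem L103839 : W_39 (nat_lit 10) (nat_lit 0x4800240012000c0000000000000000000000000000000) (nat_lit 0x0) (nat_lit 0x400060007000380017001a000400118009c000e0004000000000000000000) := Q_39 (nat_lit 124) (C_39 L103755 (C_39 L103830 (C_39 L103718 (C_39 L103838 N_39)))) (by decide +kernel)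
theorem L103840 : W_39 (nat_lit 14) (nat_lit 0x4800200012000c0000000000000000000000000000000) (nat_lit 0x0) (nat_lit 0xc000e0007c00ff0017805f8005c011c009c000e0007000080000000000000) := Q_39 (nat_lit 158) (C_39 L103690 (C_39 L103704 (C_39 L103719 (C_39 L103486 (C_39 L103724 (C_39 L103742 (C_39 L103452 (C_39 L103765 (C_39 L103806 (C_39 L103822 (C_39 L103839 (C_39 L103674 N_39)))))))))))) (by decide +kernel)
theorem L103841 : W_39 (nat_lit 15) (nat_lit 0x4000200012000c0000000000000000000000000000000) (nat_lit 0x0) (nat_lit 0x3c007e00ffc01ff003f805fc005e011f009e000e0007000080000000000000) := Q_39 (nat_lit 175) (C_39 L103430 (C_39 L103434 (C_39 L103440 (C_39 L103691 (C_39 L103696 (C_39 L103840 N_39)))))) (by decide +kernel)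
theorem L103842 : W_39 (nat_lit 2) (nat_lit 0x70001000080007000200012001e0001000000000000000000000000000) (nat_lit 0x0) (nat_lit 0x10000080040000000000000000000000000000000000000000) := D_39 (nat_lit 175) (nat_lit 162) (nat_lit 196) (nat_lit 2) (nat_lit 5) (nat_lit 10) (nat_lit 3) (nat_lit 5) (nat_lit 10) (by decide +kernel)
theorem L103843 : W_39 (nat_lit 3) (nat_lit 0x70001000080005000200012001e0001000000000000000000000000000) (nat_lit 0x0) (nat_lit 0x10000280050000000000000000000000000000000000000000) := T_39 (nat_lit 177) (nat_lit 160) (nat_lit 4) (nat_lit 8) (nat_lit 13) L103842 (by decide +kernel)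
theorem L103844 : W_39 (nat_lit 4) (nat_lit 0x30001000080005000200012001e0001000000000000000000000000000) (nat_lit 0x0) (nat_lit 0x80004000000010000280050000000000000000000000000000000000000000) := T_39 (nat_lit 230) (nat_lit 247) (nat_lit 7) (nat_lit 8) (nat_lit 10) L103843 (by decide +kernel)
theorem L103845 : W_39 (nat_lit 5) (nat_lit 0x30001000080005000200012001e0000000000000000000000000000000) (nat_lit 0x0) (nat_lit 0x80004000000010000280050000000000001800000000000000000000000000) := T_39 (nat_lit 108) (nat_lit 107) (nat_lit 0) (nat_lit 9) (nat_lit 7) L103844 (by decide +kernel)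
theorem L103846 : W_39 (nat_lit 6) (nat_lit 0x10001000080005000200012001e0000000000000000000000000000000) (nat_lit 0x0) (nat_lit 0xa0006000000010000280050000000000001800000000000000000000000000) := T_39 (nat_lit 229) (nat_lit 245) (nat_lit 5) (nat_lit 8) (nat_lit 10) L103845 (by decide +kernel)
theorem L103847 : W_39 (nat_lit 7) (nat_lit 0x10001000080005000200012001c0000000000000000000000000000000) (nat_lit 0x0) (nat_lit 0xa0006000000010000280050000400020001800000000000000000000000000) := T_39 (nat_lit 125) (nat_lit 142) (nat_lit 1) (nat_lit 9) (nat_lit 7) L103846 (by decide +kernel)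
theorem L103848 : W_39 (nat_lit 8) (nat_lit 0x10001000080005000200012000c0000000000000000000000000000000) (nat_lit 0x0) (nat_lit 0xa0006000000010000280050000400120009800000000000000000000000000) := T_39 (nat_lit 128) (nat_lit 111) (nat_lit 6) (nat_lit 8) (nat_lit 10) L103847 (by decide +kernel)
theorem L103849 : W_39 (nat_lit 2) (nat_lit 0x30001000080007000200012000c0000000000000000000000000000000) (nat_lit 0x0) (nat_lit 0x10000080040000000000000000000000000000000000000000) := D_39 (nat_lit 175) (nat_lit 162) (nat_lit 196) (nat_lit 2) (nat_lit 5) (nat_lit 10) (nat_lit 3) (nat_lit 5) (nat_lit 10) (by decide +kernel)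
theorem L103850 : W_39 (nat_lit 3) (nat_lit 0x30001000080005000200012000c0000000000000000000000000000000) (nat_lit 0x0) (nat_lit 0x10000280050000000000000000000000000000000000000000) := T_39 (nat_lit 177) (nat_lit 160) (nat_lit 4) (nat_lit 8) (nat_lit 13) L103849 (by decide +kernel)
theorem L103851 : W_39 (nat_lit 4) (nat_lit 0x10001000080005000200012000c0000000000000000000000000000000) (nat_lit 0x0) (nat_lit 0x20002000000010000280050000000000000000000000000000000000000000) := T_39 (nat_lit 229) (nat_lit 245) (nat_lit 5) (nat_lit 8) (nat_lit 10) L103850 (by decide +kernel)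
theorem L103852 : W_39 (nat_lit 2) (nat_lit 0x70001000080005800240012001f0000800000000000000000000000000) (nat_lit 0x0) (nat_lit 0x800040002000000000000000000000000000000000000000) := D_39 (nat_lit 174) (nat_lit 191) (nat_lit 157) (nat_lit 5) (nat_lit 5) (nat_lit 7) (nat_lit 5) (nat_lit 5) (nat_lit 6) (by decide +kernel)
theorem L103853 : W_39 (nat_lit 3) (nat_lit 0x70001000080005000240012001f0000800000000000000000000000000) (nat_lit 0x0) (nat_lit 0x28000c0002000000000000000000000000000000000000000) := T_39 (nat_lit 175) (nat_lit 193) (nat_lit 7) (nat_lit 5) (nat_lit 7) L103852 (by decide +kernel)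
theorem L103854 : W_39 (nat_lit 4) (nat_lit 0x70001000080005000200012001f0000800000000000000000000000000) (nat_lit 0x0) (nat_lit 0x28000c000e000000000000000000000000000000000000000) := T_39 (nat_lit 158) (nat_lit 159) (nat_lit 7) (nat_lit 5) (nat_lit 6) L103853 (by decide +kernel)
theorem L103855 : W_39 (nat_lit 5) (nat_lit 0x70001000080005000200012001e0000800000000000000000000000000) (nat_lit 0x0) (nat_lit 0x28000c000e000000010000400000000000000000000000000) := T_39 (nat_lit 124) (nat_lit 106) (nat_lit 0) (nat_lit 8) (nat_lit 7) L103854 (by decide +kernel)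
theorem L103856 : W_39 (nat_lit 6) (nat_lit 0x70001000080005000200012001e0000000000000000000000000000000) (nat_lit 0x0) (nat_lit 0x28000c000e000000010001c00000000000000000000000000) := T_39 (nat_lit 107) (nat_lit 108) (nat_lit 0) (nat_lit 9) (nat_lit 7) L103855 (by decide +kernel)
theorem L103857 : W_39 (nat_lit 7) (nat_lit 0x30001000080005000200012001e0000000000000000000000000000000) (nat_lit 0x0) (nat_lit 0x800040000000028000c000e000000010001c00000000000000000000000000) := T_39 (nat_lit 230) (nat_lit 247) (nat_lit 7) (nat_lit 8) (nat_lit 10) L103856 (by decide +kernel)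
theorem L103858 : W_39 (nat_lit 8) (nat_lit 0x30001000080005000200012001c0000000000000000000000000000000) (nat_lit 0x0) (nat_lit 0x800040000000028000c000e000400030001c00000000000000000000000000) := T_39 (nat_lit 125) (nat_lit 142) (nat_lit 1) (nat_lit 9) (nat_lit 7) L103857 (by decide +kernel)
theorem L103859 : W_39 (nat_lit 9) (nat_lit 0x30001000080005000200012000c0000000000000000000000000000000) (nat_lit 0x0) (nat_lit 0x800040000000028000c000e000400130009c00000000000000000000000000) := T_39 (nat_lit 128) (nat_lit 111) (nat_lit 6) (nat_lit 8) (nat_lit 10) L103858 (by decide +kernel)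
theorem L103860 : W_39 (nat_lit 10) (nat_lit 0x10001000080005000200012000c0000000000000000000000000000000) (nat_lit 0x0) (nat_lit 0xa00060000000028000c000e000400130009c00000000000000000000000000) := T_39 (nat_lit 229) (nat_lit 245) (nat_lit 5) (nat_lit 8) (nat_lit 10) L103859 (by decide +kernel)
theorem L103861 : W_39 (nat_lit 2) (nat_lit 0x10001000080005800240012001f0000800000000000000000000000000) (nat_lit 0x0) (nat_lit 0x800040002000000000000000000000000000000000000000) := D_39 (nat_lit 174) (nat_lit 191) (nat_lit 157) (nat_lit 5) (nat_lit 5) (nat_lit 7) (nat_lit 5) (nat_lit 5) (nat_lit 6) (by decide +kernel)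
theorem L103862 : W_39 (nat_lit 3) (nat_lit 0x10001000080005000240012001f0000800000000000000000000000000) (nat_lit 0x0) (nat_lit 0x28000c0002000000000000000000000000000000000000000) := T_39 (nat_lit 175) (nat_lit 193) (nat_lit 7) (nat_lit 5) (nat_lit 7) L103861 (by decide +kernel)
theorem L103863 : W_39 (nat_lit 4) (nat_lit 0x10001000080005000200012001f0000800000000000000000000000000) (nat_lit 0x0) (nat_lit 0x28000c000e000000000000000000000000000000000000000) := T_39 (nat_lit 158) (nat_lit 159) (nat_lit 7) (nat_lit 5) (nat_lit 6) L103862 (by decide +kernel)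
theorem L103864 : W_39 (nat_lit 5) (nat_lit 0x10001000080005000200012001e0000800000000000000000000000000) (nat_lit 0x0) (nat_lit 0x28000c000e000000010000400000000000000000000000000) := T_39 (nat_lit 124) (nat_lit 106) (nat_lit 0) (nat_lit 8) (nat_lit 7) L103863 (by decide +kernel)
theorem L103865 : W_39 (nat_lit 6) (nat_lit 0x10001000080005000200012001e0000000000000000000000000000000) (nat_lit 0x0) (nat_lit 0x28000c000e000000010001c00000000000000000000000000) := T_39 (nat_lit 107) (nat_lit 108) (nat_lit 0) (nat_lit 9) (nat_lit 7) L103864 (by decide +kernel)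
theorem L103866 : W_39 (nat_lit 7) (nat_lit 0x10001000080005000200012001c0000000000000000000000000000000) (nat_lit 0x0) (nat_lit 0x28000c000e000400030001c00000000000000000000000000) := T_39 (nat_lit 125) (nat_lit 142) (nat_lit 1) (nat_lit 9) (nat_lit 7) L103865 (by decide +kernel)
theorem L103867 : W_39 (nat_lit 8) (nat_lit 0x10001000080005000200012000c0000000000000000000000000000000) (nat_lit 0x0) (nat_lit 0x28000c000e000400130009c00000000000000000000000000) := T_39 (nat_lit 128) (nat_lit 111) (nat_lit 6) (nat_lit 8) (nat_lit 10) L103866 (by decide +kernel)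
theorem L103868 : W_39 (nat_lit 2) (nat_lit 0x700014000a0005000380016001c0000000000000000000000000000000) (nat_lit 0x0) (nat_lit 0x400020001000000000000000000000000000000000000000000000000) := D_39 (nat_lit 209) (nat_lit 226) (nat_lit 192) (nat_lit 5) (nat_lit 6) (nat_lit 9) (nat_lit 5) (nat_lit 6) (nat_lit 8) (by decide +kernel)
theorem L103869 : W_39 (nat_lit 3) (nat_lit 0x700010000a0005000380016001c0000000000000000000000000000000) (nat_lit 0x0) (nat_lit 0x400060001000000004000000000000000000000000000000000000000) := T_39 (nat_lit 210) (nat_lit 158) (nat_lit 4) (nat_lit 6) (nat_lit 12) L103868 (by decide +kernel)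
theorem L103870 : W_39 (nat_lit 4) (nat_lit 0x70001000080005000380016001c0000000000000000000000000000000) (nat_lit 0x0) (nat_lit 0x400060003000000004000000010000000000000000000000000000000) := T_39 (nat_lit 193) (nat_lit 124) (nat_lit 4) (nat_lit 6) (nat_lit 11) L103869 (by decide +kernel)
theorem L103871 : W_39 (nat_lit 5) (nat_lit 0x70001000080005000300016001c0000000000000000000000000000000) (nat_lit 0x0) (nat_lit 0x40006000300000004c000000010000000000000000000000000000000) := T_39 (nat_lit 159) (nat_lit 162) (nat_lit 0) (nat_lit 9) (nat_lit 9) L103870 (by decide +kernel)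
theorem L103872 : W_39 (nat_lit 6) (nat_lit 0x30001000080005000300016001c0000000000000000000000000000000) (nat_lit 0x0) (nat_lit 0x8000440006000300000004c000000010000000000000000000000000000000) := T_39 (nat_lit 230) (nat_lit 247) (nat_lit 7) (nat_lit 8) (nat_lit 10) L103871 (by decide +kernel)
theorem L103873 : W_39 (nat_lit 7) (nat_lit 0x30001000080005000200016001c0000000000000000000000000000000) (nat_lit 0x0) (nat_lit 0x8000440006000300020005c000000010000000000000000000000000000000) := T_39 (nat_lit 160) (nat_lit 177) (nat_lit 4) (nat_lit 8) (nat_lit 13) L103872 (by decide +kernel)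
theorem L103874 : W_39 (nat_lit 8) (nat_lit 0x10001000080005000200016001c0000000000000000000000000000000) (nat_lit 0x0) (nat_lit 0xa000640006000300020005c000000010000000000000000000000000000000) := T_39 (nat_lit 229) (nat_lit 245) (nat_lit 5) (nat_lit 8) (nat_lit 10) L103873 (by decide +kernel)
theorem L103875 : W_39 (nat_lit 9) (nat_lit 0x10001000080005000200012001c0000000000000000000000000000000) (nat_lit 0x0) (nat_lit 0xa000640006000300020005c000400030000000000000000000000000000000) := T_39 (nat_lit 142) (nat_lit 125) (nat_lit 1) (nat_lit 9) (nat_lit 7) L103874 (by decide +kernel)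
theorem L103876 : W_39 (nat_lit 10) (nat_lit 0x10001000080005000200012000c0000000000000000000000000000000) (nat_lit 0x0) (nat_lit 0xa000640006000300020005c000400130008000000000000000000000000000) := T_39 (nat_lit 128) (nat_lit 111) (nat_lit 6) (nat_lit 8) (nat_lit 10) L103875 (by decide +kernel)
theorem L103877 : W_39 (nat_lit 11) (nat_lit 0x10001000080004000200012000c0000000000000000000000000000000) (nat_lit 0x0) (nat_lit 0xa00064000600138003c005e000400130009c00000000000000000000000000) := Q_39 (nat_lit 176) (C_39 L103848 (C_39 L103851 (C_39 L103860 (C_39 L103867 (C_39 L103876 N_39))))) (by decide +kernel)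
theorem L103878 : W_39 (nat_lit 12) (nat_lit 0x1000080004000200012000c0000000000000000000000000000000) (nat_lit 0x0) (nat_lit 0xa00074000e00138003c005e000400130009c00000000000000000000000000) := T_39 (nat_lit 228) (nat_lit 211) (nat_lit 5) (nat_lit 8) (nat_lit 9) L103877 (by decide +kernel)
theorem L103879 : W_39 (nat_lit 2) (nat_lit 0x20001000180006800200012001e0001000000000000000000000000000) (nat_lit 0x0) (nat_lit 0x20001000080000000000000000000000000000000000000000000000000000) := D_39 (nat_lit 228) (nat_lit 245) (nat_lit 211) (nat_lit 5) (nat_lit 8) (nat_lit 10) (nat_lit 5) (nat_lit 8) (nat_lit 9) (by decide +kernel)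
theorem L103880 : W_39 (nat_lit 3) (nat_lit 0x1000180006800200012001e0001000000000000000000000000000) (nat_lit 0x0) (nat_lit 0x20003000080000000000010000000000000000000000000000000000000000) := T_39 (nat_lit 229) (nat_lit 160) (nat_lit 4) (nat_lit 8) (nat_lit 13) L103879 (by decide +kernel)
theorem L103881 : W_39 (nat_lit 4) (nat_lit 0x1000180006800200012001e0000000000000000000000000000000) (nat_lit 0x0) (nat_lit 0x20003000080000000000010000000000001800000000000000000000000000) := T_39 (nat_lit 108) (nat_lit 107) (nat_lit 0) (nat_lit 9) (nat_lit 7) L103880 (by decide +kernel)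
theorem L103882 : W_39 (nat_lit 5) (nat_lit 0x1000180004800200012001e0000000000000000000000000000000) (nat_lit 0x0) (nat_lit 0x20003000080000000300010000000000001800000000000000000000000000) := T_39 (nat_lit 177) (nat_lit 176) (nat_lit 3) (nat_lit 5) (nat_lit 10) L103881 (by decide +kernel)
theorem L103883 : W_39 (nat_lit 6) (nat_lit 0x1000080004800200012001e0000000000000000000000000000000) (nat_lit 0x0) (nat_lit 0x20003000280010000300010000000000001800000000000000000000000000) := T_39 (nat_lit 196) (nat_lit 213) (nat_lit 7) (nat_lit 8) (nat_lit 8) L103882 (by decide +kernel)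
theorem L103884 : W_39 (nat_lit 7) (nat_lit 0x1000080004800200012001c0000000000000000000000000000000) (nat_lit 0x0) (nat_lit 0x20003000280010000300010000400020001800000000000000000000000000) := T_39 (nat_lit 125) (nat_lit 142) (nat_lit 1) (nat_lit 9) (nat_lit 7) L103883 (by decide +kernel)
theorem L103885 : W_39 (nat_lit 8) (nat_lit 0x1000080004800200012000c0000000000000000000000000000000) (nat_lit 0x0) (nat_lit 0x20003000280010000300010000400120009800000000000000000000000000) := T_39 (nat_lit 128) (nat_lit 111) (nat_lit 6) (nat_lit 8) (nat_lit 10) L103884 (by decide +kernel)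
theorem L103886 : W_39 (nat_lit 2) (nat_lit 0x10001000180006800200012000c0000000000000000000000000000000) (nat_lit 0x0) (nat_lit 0x20002000000000000000010000000000000000000000000000000000000000) := D_39 (nat_lit 229) (nat_lit 160) (nat_lit 245) (nat_lit 4) (nat_lit 8) (nat_lit 13) (nat_lit 5) (nat_lit 8) (nat_lit 10) (by decide +kernel)
theorem L103887 : W_39 (nat_lit 3) (nat_lit 0x1000180006800200012000c0000000000000000000000000000000) (nat_lit 0x0) (nat_lit 0x20003000080000000000010000000000000000000000000000000000000000) := T_39 (nat_lit 228) (nat_lit 211) (nat_lit 5) (nat_lit 8) (nat_lit 9) L103886 (by decide +kernel)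
theorem L103888 : W_39 (nat_lit 4) (nat_lit 0x1000180004800200012000c0000000000000000000000000000000) (nat_lit 0x0) (nat_lit 0x20003000080000000300010000000000000000000000000000000000000000) := T_39 (nat_lit 177) (nat_lit 176) (nat_lit 3) (nat_lit 5) (nat_lit 10) L103887 (by decide +kernel)
theorem L103889 : W_39 (nat_lit 5) (nat_lit 0x1000080004800200012000c0000000000000000000000000000000) (nat_lit 0x0) (nat_lit 0x20003000280010000300010000000000000000000000000000000000000000) := T_39 (nat_lit 196) (nat_lit 213) (nat_lit 7) (nat_lit 8) (nat_lit 8) L103888 (by decide +kernel)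
theorem L103890 : W_39 (nat_lit 2) (nat_lit 0x1a00580005800200012001f0000800000000000000000000000000) (nat_lit 0x0) (nat_lit 0x200000000c000000000000000000000000000000000000000) := D_39 (nat_lit 158) (nat_lit 193) (nat_lit 159) (nat_lit 7) (nat_lit 5) (nat_lit 7) (nat_lit 7) (nat_lit 5) (nat_lit 6) (by decide +kernel)
theorem L103891 : W_39 (nat_lit 3) (nat_lit 0x1a00580005800200012001e0000800000000000000000000000000) (nat_lit 0x0) (nat_lit 0x200000000c000000010000400000000000000000000000000) := T_39 (nat_lit 124) (nat_lit 106) (nat_lit 0) (nat_lit 8) (nat_lit 7) L103890 (by decide +kernel)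
theorem L103892 : W_39 (nat_lit 4) (nat_lit 0x1a00580005800200012001e0000000000000000000000000000000) (nat_lit 0x0) (nat_lit 0x200000000c000000010001c00000000000000000000000000) := T_39 (nat_lit 107) (nat_lit 108) (nat_lit 0) (nat_lit 9) (nat_lit 7) L103891 (by decide +kernel)
theorem L103893 : W_39 (nat_lit 5) (nat_lit 0x1a00180005800200012001e0000000000000000000000000000000) (nat_lit 0x0) (nat_lit 0x6200000000c000000010001c00000000000000000000000000) := T_39 (nat_lit 198) (nat_lit 197) (nat_lit 1) (nat_lit 11) (nat_lit 11) L103892 (by decide +kernel)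
theorem L103894 : W_39 (nat_lit 6) (nat_lit 0x1a00180004800200012001e0000000000000000000000000000000) (nat_lit 0x0) (nat_lit 0x6200030000c000000010001c00000000000000000000000000) := T_39 (nat_lit 176) (nat_lit 177) (nat_lit 3) (nat_lit 5) (nat_lit 10) L103893 (by decide +kernel)
theorem L103895 : W_39 (nat_lit 7) (nat_lit 0x1800180004800200012001e0000000000000000000000000000000) (nat_lit 0x0) (nat_lit 0x6006200030000c000000010001c00000000000000000000000000) := T_39 (nat_lit 209) (nat_lit 210) (nat_lit 2) (nat_lit 5) (nat_lit 12) L103894 (by decide +kernel)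
theorem L103896 : W_39 (nat_lit 8) (nat_lit 0x1800080004800200012001e0000000000000000000000000000000) (nat_lit 0x0) (nat_lit 0x26007200030000c000000010001c00000000000000000000000000) := T_39 (nat_lit 196) (nat_lit 213) (nat_lit 7) (nat_lit 8) (nat_lit 8) L103895 (by decide +kernel)
theorem L103897 : W_39 (nat_lit 9) (nat_lit 0x1800080004800200012001c0000000000000000000000000000000) (nat_lit 0x0) (nat_lit 0x26007200030000c000400030001c00000000000000000000000000) := T_39 (nat_lit 125) (nat_lit 142) (nat_lit 1) (nat_lit 9) (nat_lit 7) L103896 (by decide +kernel)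
theorem L103898 : W_39 (nat_lit 10) (nat_lit 0x1800080004800200012000c0000000000000000000000000000000) (nat_lit 0x0) (nat_lit 0x26007200030000c000400130009c00000000000000000000000000) := T_39 (nat_lit 128) (nat_lit 111) (nat_lit 6) (nat_lit 8) (nat_lit 10) L103897 (by decide +kernel)
theorem L103899 : W_39 (nat_lit 11) (nat_lit 0x1000080004800200012000c0000000000000000000000000000000) (nat_lit 0x0) (nat_lit 0x10002e007200030000c000400130009c00000000000000000000000000) := T_39 (nat_lit 211) (nat_lit 228) (nat_lit 5) (nat_lit 8) (nat_lit 9) L103898 (by decide +kernel)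
theorem L103900 : W_39 (nat_lit 2) (nat_lit 0x1800080004800240012001e0000000000000000000000000000000) (nat_lit 0x0) (nat_lit 0x10001800000000000000000000000000) := D_39 (nat_lit 108) (nat_lit 107) (nat_lit 124) (nat_lit 0) (nat_lit 9) (nat_lit 7) (nat_lit 6) (nat_lit 5) (nat_lit 10) (by decide +kernel)
theorem L103901 : W_39 (nat_lit 3) (nat_lit 0x1800080004800240012001c0000000000000000000000000000000) (nat_lit 0x0) (nat_lit 0x400030001800000000000000000000000000) := T_39 (nat_lit 125) (nat_lit 142) (nat_lit 1) (nat_lit 9) (nat_lit 7) L103900 (by decide +kernel)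
theorem L103902 : W_39 (nat_lit 4) (nat_lit 0x1800080004800240012000c0000000000000000000000000000000) (nat_lit 0x0) (nat_lit 0x400130009800000000000000000000000000) := T_39 (nat_lit 128) (nat_lit 111) (nat_lit 6) (nat_lit 8) (nat_lit 10) L103901 (by decide +kernel)
theorem L103903 : W_39 (nat_lit 5) (nat_lit 0x1000080004800240012000c0000000000000000000000000000000) (nat_lit 0x0) (nat_lit 0x1000080000000000000000400130009800000000000000000000000000) := T_39 (nat_lit 211) (nat_lit 228) (nat_lit 5) (nat_lit 8) (nat_lit 9) L103902 (by decide +kernel)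
theorem L103904 : W_39 (nat_lit 2) (nat_lit 0x1000080004800240012001e0000000000000000000000000000000) (nat_lit 0x0) (nat_lit 0x10001800000000000000000000000000) := D_39 (nat_lit 108) (nat_lit 107) (nat_lit 124) (nat_lit 0) (nat_lit 9) (nat_lit 7) (nat_lit 6) (nat_lit 5) (nat_lit 10) (by decide +kernel)
theorem L103905 : W_39 (nat_lit 3) (nat_lit 0x1000080004800240012001c0000000000000000000000000000000) (nat_lit 0x0) (nat_lit 0x400030001800000000000000000000000000) := T_39 (nat_lit 125) (nat_lit 142) (nat_lit 1) (nat_lit 9) (nat_lit 7) L103904 (by decide +kernel)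
theorem L103906 : W_39 (nat_lit 4) (nat_lit 0x1000080004800240012000c0000000000000000000000000000000) (nat_lit 0x0) (nat_lit 0x400130009800000000000000000000000000) := T_39 (nat_lit 128) (nat_lit 111) (nat_lit 6) (nat_lit 8) (nat_lit 10) L103905 (by decide +kernel)
theorem L103907 : W_39 (nat_lit 2) (nat_lit 0x1c00598004800240012000e0000000000000000000000000000000) (nat_lit 0x0) (nat_lit 0x40000000000010001000000000000000000000000000) := D_39 (nat_lit 124) (nat_lit 174) (nat_lit 108) (nat_lit 5) (nat_lit 5) (nat_lit 7) (nat_lit 6) (nat_lit 5) (nat_lit 10) (by decide +kernel)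
theorem L103908 : W_39 (nat_lit 3) (nat_lit 0x1c00598004800240012000c0000000000000000000000000000000) (nat_lit 0x0) (nat_lit 0x40000000400030001000000000000000000000000000) := T_39 (nat_lit 125) (nat_lit 142) (nat_lit 6) (nat_lit 5) (nat_lit 11) L103907 (by decide +kernel)
theorem L103909 : W_39 (nat_lit 4) (nat_lit 0x1c00590004800240012000c0000000000000000000000000000000) (nat_lit 0x0) (nat_lit 0x10000800040000000400030001000000000000000000000000000) := T_39 (nat_lit 191) (nat_lit 208) (nat_lit 5) (nat_lit 5) (nat_lit 8) L103908 (by decide +kernel)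
theorem L103910 : W_39 (nat_lit 5) (nat_lit 0x1c00580004800240012000c0000000000000000000000000000000) (nat_lit 0x0) (nat_lit 0x10003800040000000400030001000000000000000000000000000) := T_39 (nat_lit 192) (nat_lit 193) (nat_lit 7) (nat_lit 5) (nat_lit 8) L103909 (by decide +kernel)
theorem L103911 : W_39 (nat_lit 6) (nat_lit 0x1c00180004800240012000c0000000000000000000000000000000) (nat_lit 0x0) (nat_lit 0x10063800040000000400030001000000000000000000000000000) := T_39 (nat_lit 198) (nat_lit 197) (nat_lit 1) (nat_lit 11) (nat_lit 11) L103910 (by decide +kernel)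
theorem L103912 : W_39 (nat_lit 7) (nat_lit 0x1800180004800240012000c0000000000000000000000000000000) (nat_lit 0x0) (nat_lit 0x70063800040000000400030001000000000000000000000000000) := T_39 (nat_lit 210) (nat_lit 209) (nat_lit 2) (nat_lit 5) (nat_lit 12) L103911 (by decide +kernel)
theorem L103913 : W_39 (nat_lit 8) (nat_lit 0x1000180004800240012000c0000000000000000000000000000000) (nat_lit 0x0) (nat_lit 0x10000f0063800040000000400030001000000000000000000000000000) := T_39 (nat_lit 211) (nat_lit 228) (nat_lit 5) (nat_lit 8) (nat_lit 9) L103912 (by decide +kernel)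
theorem L103914 : W_39 (nat_lit 9) (nat_lit 0x1000080004800240012000c0000000000000000000000000000000) (nat_lit 0x0) (nat_lit 0x10002f0073800040000000400030001000000000000000000000000000) := T_39 (nat_lit 196) (nat_lit 213) (nat_lit 7) (nat_lit 8) (nat_lit 8) L103913 (by decide +kernel)
theorem L103915 : W_39 (nat_lit 2) (nat_lit 0x1c00598004800240012001d0000400000000000000000000000000) (nat_lit 0x0) (nat_lit 0x20001800000000000000000000000000) := D_39 (nat_lit 125) (nat_lit 108) (nat_lit 107) (nat_lit 6) (nat_lit 5) (nat_lit 10) (nat_lit 0) (nat_lit 8) (nat_lit 7) (by decide +kernel)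
theorem L103916 : W_39 (nat_lit 3) (nat_lit 0x1c00598004800240012001d0000000000000000000000000000000) (nat_lit 0x0) (nat_lit 0x28001c00000000000000000000000000) := T_39 (nat_lit 106) (nat_lit 123) (nat_lit 4) (nat_lit 5) (nat_lit 10) L103915 (by decide +kernel)
theorem L103917 : W_39 (nat_lit 4) (nat_lit 0x1c00598004800240012001c0000000000000000000000000000000) (nat_lit 0x0) (nat_lit 0x40000000000038001c00000000000000000000000000) := T_39 (nat_lit 124) (nat_lit 174) (nat_lit 5) (nat_lit 5) (nat_lit 7) L103916 (by decide +kernel)
theorem L103918 : W_39 (nat_lit 5) (nat_lit 0x1c00590004800240012001c0000000000000000000000000000000) (nat_lit 0x0) (nat_lit 0x10000800040000000000038001c00000000000000000000000000) := T_39 (nat_lit 191) (nat_lit 208) (nat_lit 5) (nat_lit 5) (nat_lit 8) L103917 (by decide +kernel)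
theorem L103919 : W_39 (nat_lit 6) (nat_lit 0x1c00580004800240012001c0000000000000000000000000000000) (nat_lit 0x0) (nat_lit 0x10003800040000000000038001c00000000000000000000000000) := T_39 (nat_lit 192) (nat_lit 193) (nat_lit 7) (nat_lit 5) (nat_lit 8) L103918 (by decide +kernel)
theorem L103920 : W_39 (nat_lit 7) (nat_lit 0x1c00180004800240012001c0000000000000000000000000000000) (nat_lit 0x0) (nat_lit 0x10063800040000000000038001c00000000000000000000000000) := T_39 (nat_lit 198) (nat_lit 197) (nat_lit 1) (nat_lit 11) (nat_lit 11) L103919 (by decide +kernel)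
theorem L103921 : W_39 (nat_lit 8) (nat_lit 0x1800180004800240012001c0000000000000000000000000000000) (nat_lit 0x0) (nat_lit 0x70063800040000000000038001c00000000000000000000000000) := T_39 (nat_lit 210) (nat_lit 209) (nat_lit 2) (nat_lit 5) (nat_lit 12) L103920 (by decide +kernel)
theorem L103922 : W_39 (nat_lit 9) (nat_lit 0x1800080004800240012001c0000000000000000000000000000000) (nat_lit 0x0) (nat_lit 0x270073800040000000000038001c00000000000000000000000000) := T_39 (nat_lit 196) (nat_lit 213) (nat_lit 7) (nat_lit 8) (nat_lit 8) L103921 (by decide +kernel)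
theorem L103923 : W_39 (nat_lit 10) (nat_lit 0x1800080004800240012000c0000000000000000000000000000000) (nat_lit 0x0) (nat_lit 0x270073800040000000000138009c00000000000000000000000000) := T_39 (nat_lit 128) (nat_lit 111) (nat_lit 6) (nat_lit 8) (nat_lit 10) L103922 (by decide +kernel)
theorem L103924 : W_39 (nat_lit 11) (nat_lit 0x1000080004800240012000c0000000000000000000000000000000) (nat_lit 0x0) (nat_lit 0x10002f0073800040000000000138009c00000000000000000000000000) := T_39 (nat_lit 211) (nat_lit 228) (nat_lit 5) (nat_lit 8) (nat_lit 9) L103923 (by decide +kernel)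
theorem L103925 : W_39 (nat_lit 2) (nat_lit 0x1a00590004800240016001c0000000000000000000000000000000) (nat_lit 0x0) (nat_lit 0x200010000800000000000000000000000000000000000000000000000) := D_39 (nat_lit 208) (nat_lit 191) (nat_lit 225) (nat_lit 5) (nat_lit 5) (nat_lit 8) (nat_lit 5) (nat_lit 5) (nat_lit 9) (by decide +kernel)
theorem L103926 : W_39 (nat_lit 3) (nat_lit 0x1a00580004800240016001c0000000000000000000000000000000) (nat_lit 0x0) (nat_lit 0x200010001800000008000000000000000000000000000000000000000) := T_39 (nat_lit 192) (nat_lit 159) (nat_lit 6) (nat_lit 5) (nat_lit 12) L103925 (by decide +kernel)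
theorem L103927 : W_39 (nat_lit 4) (nat_lit 0x1a00580004800240012001c0000000000000000000000000000000) (nat_lit 0x0) (nat_lit 0x200010001800000008000400020000000000000000000000000000000) := T_39 (nat_lit 142) (nat_lit 125) (nat_lit 1) (nat_lit 9) (nat_lit 7) L103926 (by decide +kernel)
theorem L103928 : W_39 (nat_lit 5) (nat_lit 0x1a00580004800240012000c0000000000000000000000000000000) (nat_lit 0x0) (nat_lit 0x200010001800000008000400120008000000000000000000000000000) := T_39 (nat_lit 128) (nat_lit 111) (nat_lit 6) (nat_lit 8) (nat_lit 10) L103927 (by decide +kernel)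
theorem L103929 : W_39 (nat_lit 6) (nat_lit 0x1a00180004800240012000c0000000000000000000000000000000) (nat_lit 0x0) (nat_lit 0x200010061800000008000400120008000000000000000000000000000) := T_39 (nat_lit 198) (nat_lit 197) (nat_lit 1) (nat_lit 11) (nat_lit 11) L103928 (by decide +kernel)
theorem L103930 : W_39 (nat_lit 7) (nat_lit 0x1800180004800240012000c0000000000000000000000000000000) (nat_lit 0x0) (nat_lit 0x200070061800000008000400120008000000000000000000000000000) := T_39 (nat_lit 209) (nat_lit 210) (nat_lit 2) (nat_lit 5) (nat_lit 12) L103929 (by decide +kernel)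
theorem L103931 : W_39 (nat_lit 8) (nat_lit 0x1000180004800240012000c0000000000000000000000000000000) (nat_lit 0x0) (nat_lit 0x12000f0061800000008000400120008000000000000000000000000000) := T_39 (nat_lit 211) (nat_lit 228) (nat_lit 5) (nat_lit 8) (nat_lit 9) L103930 (by decide +kernel)
theorem L103932 : W_39 (nat_lit 9) (nat_lit 0x1000080004800240012000c0000000000000000000000000000000) (nat_lit 0x0) (nat_lit 0x12002f0071800000008000400120008000000000000000000000000000) := T_39 (nat_lit 196) (nat_lit 213) (nat_lit 7) (nat_lit 8) (nat_lit 8) L103931 (by decide +kernel)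
theorem L103933 : W_39 (nat_lit 2) (nat_lit 0x30001000180004c00340012001d0000800000000000000000000000000) (nat_lit 0x0) (nat_lit 0x8000400020000000000000000000000) := D_39 (nat_lit 106) (nat_lit 123) (nat_lit 89) (nat_lit 4) (nat_lit 5) (nat_lit 10) (nat_lit 4) (nat_lit 5) (nat_lit 9) (by decide +kernel)
theorem L103934 : W_39 (nat_lit 3) (nat_lit 0x30001000180004c00340012001d0000000000000000000000000000000) (nat_lit 0x0) (nat_lit 0x2000000008000c00020000000000000000000000) := T_39 (nat_lit 107) (nat_lit 157) (nat_lit 5) (nat_lit 5) (nat_lit 6) L103933 (by decide +kernel)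
theorem L103935 : W_39 (nat_lit 4) (nat_lit 0x30001000180004c00340012001c0000000000000000000000000000000) (nat_lit 0x0) (nat_lit 0x800000002000000018000c00020000000000000000000000) := T_39 (nat_lit 124) (nat_lit 191) (nat_lit 5) (nat_lit 5) (nat_lit 7) L103934 (by decide +kernel)
theorem L103936 : W_39 (nat_lit 5) (nat_lit 0x30001000180004800340012001c0000000000000000000000000000000) (nat_lit 0x0) (nat_lit 0x80004000a000000018000c00020000000000000000000000) := T_39 (nat_lit 174) (nat_lit 159) (nat_lit 1) (nat_lit 8) (nat_lit 9) L103935 (by decide +kernel)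
theorem L103937 : W_39 (nat_lit 6) (nat_lit 0x30001000180004800240012001c0000000000000000000000000000000) (nat_lit 0x0) (nat_lit 0x80024001a000000018000c00020000000000000000000000) := T_39 (nat_lit 160) (nat_lit 177) (nat_lit 4) (nat_lit 8) (nat_lit 13) L103936 (by decide +kernel)
theorem L103938 : W_39 (nat_lit 7) (nat_lit 0x10001000180004800240012001c0000000000000000000000000000000) (nat_lit 0x0) (nat_lit 0x2000200000000080024001a000000018000c00020000000000000000000000) := T_39 (nat_lit 229) (nat_lit 245) (nat_lit 5) (nat_lit 8) (nat_lit 10) L103937 (by decide +kernel)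
theorem L103939 : W_39 (nat_lit 8) (nat_lit 0x1000180004800240012001c0000000000000000000000000000000) (nat_lit 0x0) (nat_lit 0x2000300008000080024001a000000018000c00020000000000000000000000) := T_39 (nat_lit 228) (nat_lit 211) (nat_lit 5) (nat_lit 8) (nat_lit 9) L103938 (by decide +kernel)
theorem L103940 : W_39 (nat_lit 9) (nat_lit 0x1000080004800240012001c0000000000000000000000000000000) (nat_lit 0x0) (nat_lit 0x2000300028001080024001a000000018000c00020000000000000000000000) := T_39 (nat_lit 196) (nat_lit 213) (nat_lit 7) (nat_lit 8) (nat_lit 8) L103939 (by decide +kernel)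
theorem L103941 : W_39 (nat_lit 10) (nat_lit 0x1000080004800240012000c0000000000000000000000000000000) (nat_lit 0x0) (nat_lit 0x2000300028001080024001a000000118008c00020000000000000000000000) := T_39 (nat_lit 128) (nat_lit 111) (nat_lit 6) (nat_lit 8) (nat_lit 10) L103940 (by decide +kernel)
theorem L103942 : W_39 (nat_lit 12) (nat_lit 0x1000080004800200012000c0000000000000000000000000000000) (nat_lit 0x0) (nat_lit 0x200032002f007380024001e000400138009c00020000000000000000000000) := Q_39 (nat_lit 158) (C_39 L103903 (C_39 L103906 (C_39 L103914 (C_39 L103924 (C_39 L103932 (C_39 L103941 N_39)))))) (by decide +kernel)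
theorem L103943 : W_39 (nat_lit 2) (nat_lit 0x30001000080006800200012001e0001000000000000000000000000000) (nat_lit 0x0) (nat_lit 0x10000100040000000000000000000000000000000000000000) := D_39 (nat_lit 176) (nat_lit 162) (nat_lit 196) (nat_lit 2) (nat_lit 5) (nat_lit 10) (nat_lit 3) (nat_lit 5) (nat_lit 10) (by decide +kernel)
theorem L103944 : W_39 (nat_lit 3) (nat_lit 0x30001000080004800200012001e0001000000000000000000000000000) (nat_lit 0x0) (nat_lit 0x10000300050000000000000000000000000000000000000000) := T_39 (nat_lit 177) (nat_lit 160) (nat_lit 4) (nat_lit 8) (nat_lit 13) L103943 (by decide +kernel)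
theorem L103945 : W_39 (nat_lit 4) (nat_lit 0x30001000080004800200012001e0000000000000000000000000000000) (nat_lit 0x0) (nat_lit 0x10000300050000000000001800000000000000000000000000) := T_39 (nat_lit 108) (nat_lit 107) (nat_lit 0) (nat_lit 9) (nat_lit 7) L103944 (by decide +kernel)
theorem L103946 : W_39 (nat_lit 5) (nat_lit 0x10001000080004800200012001e0000000000000000000000000000000) (nat_lit 0x0) (nat_lit 0x20002000000010000300050000000000001800000000000000000000000000) := T_39 (nat_lit 229) (nat_lit 245) (nat_lit 5) (nat_lit 8) (nat_lit 10) L103945 (by decide +kernel)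
theorem L103947 : W_39 (nat_lit 6) (nat_lit 0x10001000080004800200012001c0000000000000000000000000000000) (nat_lit 0x0) (nat_lit 0x20002000000010000300050000400020001800000000000000000000000000) := T_39 (nat_lit 125) (nat_lit 142) (nat_lit 1) (nat_lit 9) (nat_lit 7) L103946 (by decide +kernel)
theorem L103948 : W_39 (nat_lit 7) (nat_lit 0x10001000080004800200012000c0000000000000000000000000000000) (nat_lit 0x0) (nat_lit 0x20002000000010000300050000400120009800000000000000000000000000) := T_39 (nat_lit 128) (nat_lit 111) (nat_lit 6) (nat_lit 8) (nat_lit 10) L103947 (by decide +kernel)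
theorem L103949 : W_39 (nat_lit 8) (nat_lit 0x1000080004800200012000c0000000000000000000000000000000) (nat_lit 0x0) (nat_lit 0x20003000080010000300050000400120009800000000000000000000000000) := T_39 (nat_lit 228) (nat_lit 211) (nat_lit 5) (nat_lit 8) (nat_lit 9) L103948 (by decide +kernel)
theorem L103950 : W_39 (nat_lit 2) (nat_lit 0x1000180005800200012001f0000800000000000000000000000000) (nat_lit 0x0) (nat_lit 0x200000000c000000000000000000000000000000000000000) := D_39 (nat_lit 158) (nat_lit 193) (nat_lit 159) (nat_lit 7) (nat_lit 5) (nat_lit 7) (nat_lit 7) (nat_lit 5) (nat_lit 6) (by decide +kernel)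
theorem L103951 : W_39 (nat_lit 3) (nat_lit 0x1000180005800200012001e0000800000000000000000000000000) (nat_lit 0x0) (nat_lit 0x200000000c000000010000400000000000000000000000000) := T_39 (nat_lit 124) (nat_lit 106) (nat_lit 0) (nat_lit 8) (nat_lit 7) L103950 (by decide +kernel)
theorem L103952 : W_39 (nat_lit 4) (nat_lit 0x1000180005800200012001e0000000000000000000000000000000) (nat_lit 0x0) (nat_lit 0x200000000c000000010001c00000000000000000000000000) := T_39 (nat_lit 107) (nat_lit 108) (nat_lit 0) (nat_lit 9) (nat_lit 7) L103951 (by decide +kernel)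
theorem L103953 : W_39 (nat_lit 5) (nat_lit 0x1000180004800200012001e0000000000000000000000000000000) (nat_lit 0x0) (nat_lit 0x200030000c000000010001c00000000000000000000000000) := T_39 (nat_lit 176) (nat_lit 177) (nat_lit 3) (nat_lit 5) (nat_lit 10) L103952 (by decide +kernel)
theorem L103954 : W_39 (nat_lit 6) (nat_lit 0x1000080004800200012001e0000000000000000000000000000000) (nat_lit 0x0) (nat_lit 0x20001200030000c000000010001c00000000000000000000000000) := T_39 (nat_lit 196) (nat_lit 213) (nat_lit 7) (nat_lit 8) (nat_lit 8) L103953 (by decide +kernel)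
theorem L103955 : W_39 (nat_lit 7) (nat_lit 0x1000080004800200012001c0000000000000000000000000000000) (nat_lit 0x0) (nat_lit 0x20001200030000c000400030001c00000000000000000000000000) := T_39 (nat_lit 125) (nat_lit 142) (nat_lit 1) (nat_lit 9) (nat_lit 7) L103954 (by decide +kernel)
theorem L103956 : W_39 (nat_lit 8) (nat_lit 0x1000080004800200012000c0000000000000000000000000000000) (nat_lit 0x0) (nat_lit 0x20001200030000c000400130009c00000000000000000000000000) := T_39 (nat_lit 128) (nat_lit 111) (nat_lit 6) (nat_lit 8) (nat_lit 10) L103955 (by decide +kernel)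
theorem L103957 : W_39 (nat_lit 2) (nat_lit 0x1c005a0004800240012001e0001000000000000000000000000000) (nat_lit 0x0) (nat_lit 0x800000000000100008000000000000000000000000000000000000000) := D_39 (nat_lit 176) (nat_lit 159) (nat_lit 227) (nat_lit 4) (nat_lit 6) (nat_lit 12) (nat_lit 4) (nat_lit 6) (nat_lit 13) (by decide +kernel)
theorem L103958 : W_39 (nat_lit 3) (nat_lit 0x1c00580004800240012001e0001000000000000000000000000000) (nat_lit 0x0) (nat_lit 0x800000003000100008000000000000000000000000000000000000000) := T_39 (nat_lit 193) (nat_lit 192) (nat_lit 7) (nat_lit 5) (nat_lit 8) L103957 (by decide +kernel)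
theorem L103959 : W_39 (nat_lit 4) (nat_lit 0x1c00580004800200012001e0001000000000000000000000000000) (nat_lit 0x0) (nat_lit 0x80000000300010000c000000010000000000000000000000000000000) := T_39 (nat_lit 158) (nat_lit 124) (nat_lit 6) (nat_lit 5) (nat_lit 10) L103958 (by decide +kernel)
theorem L103960 : W_39 (nat_lit 5) (nat_lit 0x1c00580004800200012001e0000000000000000000000000000000) (nat_lit 0x0) (nat_lit 0x80000000300010000c000000010001800000000000000000000000000) := T_39 (nat_lit 108) (nat_lit 107) (nat_lit 0) (nat_lit 9) (nat_lit 7) L103959 (by decide +kernel)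
theorem L103961 : W_39 (nat_lit 6) (nat_lit 0x1c00580004800200012001c0000000000000000000000000000000) (nat_lit 0x0) (nat_lit 0x80000000300010000c000400030001800000000000000000000000000) := T_39 (nat_lit 125) (nat_lit 142) (nat_lit 1) (nat_lit 9) (nat_lit 7) L103960 (by decide +kernel)
theorem L103962 : W_39 (nat_lit 7) (nat_lit 0x1c00580004800200012000c0000000000000000000000000000000) (nat_lit 0x0) (nat_lit 0x80000000300010000c000400130009800000000000000000000000000) := T_39 (nat_lit 128) (nat_lit 111) (nat_lit 6) (nat_lit 8) (nat_lit 10) L103961 (by decide +kernel)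
theorem L103963 : W_39 (nat_lit 8) (nat_lit 0x1c00180004800200012000c0000000000000000000000000000000) (nat_lit 0x0) (nat_lit 0x80000006300010000c000400130009800000000000000000000000000) := T_39 (nat_lit 198) (nat_lit 197) (nat_lit 1) (nat_lit 11) (nat_lit 11) L103962 (by decide +kernel)
theorem L103964 : W_39 (nat_lit 9) (nat_lit 0x1800180004800200012000c0000000000000000000000000000000) (nat_lit 0x0) (nat_lit 0x80006006300010000c000400130009800000000000000000000000000) := T_39 (nat_lit 210) (nat_lit 209) (nat_lit 2) (nat_lit 5) (nat_lit 12) L103963 (by decide +kernel)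
theorem L103965 : W_39 (nat_lit 10) (nat_lit 0x1000180004800200012000c0000000000000000000000000000000) (nat_lit 0x0) (nat_lit 0x18000e006300010000c000400130009800000000000000000000000000) := T_39 (nat_lit 211) (nat_lit 228) (nat_lit 5) (nat_lit 8) (nat_lit 9) L103964 (by decide +kernel)
theorem L103966 : W_39 (nat_lit 11) (nat_lit 0x1000080004800200012000c0000000000000000000000000000000) (nat_lit 0x0) (nat_lit 0x18002e007300010000c000400130009800000000000000000000000000) := T_39 (nat_lit 196) (nat_lit 213) (nat_lit 7) (nat_lit 8) (nat_lit 8) L103965 (by decide +kernel)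
theorem L103967 : W_39 (nat_lit 2) (nat_lit 0x30001000080006800240012001e0001000000000000000000000000000) (nat_lit 0x0) (nat_lit 0x100042000000000000000000000000000000000000000) := D_39 (nat_lit 176) (nat_lit 162) (nat_lit 157) (nat_lit 2) (nat_lit 5) (nat_lit 10) (nat_lit 0) (nat_lit 8) (nat_lit 10) (by decide +kernel)
theorem L103968 : W_39 (nat_lit 3) (nat_lit 0x30001000080004800240012001e0001000000000000000000000000000) (nat_lit 0x0) (nat_lit 0x300052000000000000000000000000000000000000000) := T_39 (nat_lit 177) (nat_lit 160) (nat_lit 4) (nat_lit 8) (nat_lit 13) L103967 (by decide +kernel)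
theorem L103969 : W_39 (nat_lit 4) (nat_lit 0x30001000080004800200012001e0001000000000000000000000000000) (nat_lit 0x0) (nat_lit 0x300056000000010000000000000000000000000000000) := T_39 (nat_lit 158) (nat_lit 124) (nat_lit 6) (nat_lit 5) (nat_lit 10) L103968 (by decide +kernel)
theorem L103970 : W_39 (nat_lit 5) (nat_lit 0x10001000080004800200012001e0001000000000000000000000000000) (nat_lit 0x0) (nat_lit 0x20002000000000000300056000000010000000000000000000000000000000) := T_39 (nat_lit 229) (nat_lit 245) (nat_lit 5) (nat_lit 8) (nat_lit 10) L103969 (by decide +kernel)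
theorem L103971 : W_39 (nat_lit 6) (nat_lit 0x10001000080004800200012001e0000000000000000000000000000000) (nat_lit 0x0) (nat_lit 0x20002000000000000300056000000010001800000000000000000000000000) := T_39 (nat_lit 108) (nat_lit 107) (nat_lit 0) (nat_lit 9) (nat_lit 7) L103970 (by decide +kernel)
theorem L103972 : W_39 (nat_lit 7) (nat_lit 0x1000080004800200012001e0000000000000000000000000000000) (nat_lit 0x0) (nat_lit 0x20003000080000000300056000000010001800000000000000000000000000) := T_39 (nat_lit 228) (nat_lit 211) (nat_lit 5) (nat_lit 8) (nat_lit 9) L103971 (by decide +kernel)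
theorem L103973 : W_39 (nat_lit 8) (nat_lit 0x1000080004800200012001c0000000000000000000000000000000) (nat_lit 0x0) (nat_lit 0x20003000080000000300056000400030001800000000000000000000000000) := T_39 (nat_lit 125) (nat_lit 142) (nat_lit 1) (nat_lit 9) (nat_lit 7) L103972 (by decide +kernel)
theorem L103974 : W_39 (nat_lit 9) (nat_lit 0x1000080004800200012000c0000000000000000000000000000000) (nat_lit 0x0) (nat_lit 0x20003000080000000300056000400130009800000000000000000000000000) := T_39 (nat_lit 128) (nat_lit 111) (nat_lit 6) (nat_lit 8) (nat_lit 10) L103973 (by decide +kernel)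
theorem L103975 : W_39 (nat_lit 13) (nat_lit 0x1000080004000200012000c0000000000000000000000000000000) (nat_lit 0x0) (nat_lit 0x20003a002f00738003c005e000400138009c00020000000000000000000000) := Q_39 (nat_lit 175) (C_39 L103885 (C_39 L103889 (C_39 L103899 (C_39 L103942 (C_39 L103949 (C_39 L103956 (C_39 L103966 (C_39 L103974 N_39)))))))) (by decide +kernel)
theorem L103976 : W_39 (nat_lit 14) (nat_lit 0x80004000200012000c0000000000000000000000000000000) (nat_lit 0x0) (nat_lit 0xa0007e003f00738003c005e000400138009c00020000000000000000000000) := Q_39 (nat_lit 212) (C_39 L103878 (C_39 L102590 (C_39 L102587 (C_39 L103975 N_39)))) (by decide +kernel)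
theorem L103977 : W_39 (nat_lit 15) (nat_lit 0x4000200012000c0000000000000000000000000000000) (nat_lit 0x0) (nat_lit 0xa0007e003f007f8003c01de000400138009c00020000000000000000000000) := Q_39 (nat_lit 195) (C_39 L103036 (C_39 L103282 (C_39 L102586 (C_39 L103976 N_39)))) (by decide +kernel)
theorem L103978 : W_39 (nat_lit 16) (nat_lit 0x4000200010000c0000000000000000000000000000000) (nat_lit 0x0) (nat_lit 0xbc007e00ffc07ff003f81dfc007e013f809e000f0007000280000000000000) := Q_39 (nat_lit 141) (C_39 L102585 (C_39 L103037 (C_39 L103041 (C_39 L103263 (C_39 L103283 (C_39 L103841 (C_39 L103977 N_39))))))) (by decide +kernel)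
theorem L103979 : W_39 (nat_lit 17) (nat_lit 0x400020001000080000000000000000000000000000000) (nat_lit 0x0) (nat_lit 0xbc007e00ffc07ff003f81dfc007e017f80be000f0007000280000000000000) := T_39 (nat_lit 126) (nat_lit 109) (nat_lit 4) (nat_lit 8) (nat_lit 10) L103978 (by decide +kernel)
theorem L103980 : W_39 (nat_lit 2) (nat_lit 0x200000000400020001000080000000000000000000000000000000) (nat_lit 0x0) (nat_lit 0x18000800000000000000000000000000000000000000000000) := D_39 (nat_lit 196) (nat_lit 195) (nat_lit 179) (nat_lit 7) (nat_lit 8) (nat_lit 8) (nat_lit 7) (nat_lit 8) (nat_lit 7) (by decide +kernel)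
theorem L103981 : W_39 (nat_lit 2) (nat_lit 0x2000000004000e0001000080000000000000000000000000000000) (nat_lit 0x0) (nat_lit 0x4000200100000000000000000000000000000000000000000) := D_39 (nat_lit 177) (nat_lit 164) (nat_lit 194) (nat_lit 1) (nat_lit 11) (nat_lit 9) (nat_lit 5) (nat_lit 8) (nat_lit 7) (by decide +kernel)
theorem L103982 : W_39 (nat_lit 2) (nat_lit 0x200000000c000e0001000180000000000000000000000000000000) (nat_lit 0x0) (nat_lit 0x200300000000000000000000000000000000000000000) := D_39 (nat_lit 164) (nat_lit 165) (nat_lit 177) (nat_lit 1) (nat_lit 12) (nat_lit 9) (nat_lit 1) (nat_lit 11) (nat_lit 9) (by decide +kernel)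
theorem L103983 : W_39 (nat_lit 3) (nat_lit 0x2000000004000e0001000180000000000000000000000000000000) (nat_lit 0x0) (nat_lit 0x10000a00300000000000000000000000000000000000000000) := T_39 (nat_lit 179) (nat_lit 196) (nat_lit 7) (nat_lit 8) (nat_lit 7) L103982 (by decide +kernel)
theorem L103984 : W_39 (nat_lit 4) (nat_lit 0x2000000004000e0001000080000000000000000000000000000000) (nat_lit 0x0) (nat_lit 0x10000a00300000000100008000000000000000000000000000) := T_39 (nat_lit 128) (nat_lit 111) (nat_lit 6) (nat_lit 8) (nat_lit 10) L103983 (by decide +kernel)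
theorem L103985 : W_39 (nat_lit 2) (nat_lit 0x2000000014000f00010000c0000000000000000000000000000000) (nat_lit 0x0) (nat_lit 0x10000800008000000000000000000000000000000000000000) := D_39 (nat_lit 179) (nat_lit 159) (nat_lit 196) (nat_lit 3) (nat_lit 6) (nat_lit 9) (nat_lit 7) (nat_lit 8) (nat_lit 7) (by decide +kernel)
theorem L103986 : W_39 (nat_lit 3) (nat_lit 0x2000000014000e00010000c0000000000000000000000000000000) (nat_lit 0x0) (nat_lit 0x10002800018000000000000000000000000000000000000000) := T_39 (nat_lit 160) (nat_lit 181) (nat_lit 3) (nat_lit 7) (nat_lit 9) L103985 (by decide +kernel)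
theorem L103987 : W_39 (nat_lit 4) (nat_lit 0x2000000014000e0001000080000000000000000000000000000000) (nat_lit 0x0) (nat_lit 0x10002800018000000040002000000000000000000000000000) := T_39 (nat_lit 126) (nat_lit 109) (nat_lit 4) (nat_lit 8) (nat_lit 10) L103986 (by decide +kernel)
theorem L103988 : W_39 (nat_lit 2) (nat_lit 0x2000000014000f0001000080000000000000000000000000000000) (nat_lit 0x0) (nat_lit 0x10000800008000000000000000000000000000000000000000) := D_39 (nat_lit 179) (nat_lit 159) (nat_lit 196) (nat_lit 3) (nat_lit 6) (nat_lit 9) (nat_lit 7) (nat_lit 8) (nat_lit 7) (by decide +kernel)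
theorem L103989 : W_39 (nat_lit 3) (nat_lit 0x2000000014000e0001000080000000000000000000000000000000) (nat_lit 0x0) (nat_lit 0x10002800018000000000000000000000000000000000000000) := T_39 (nat_lit 160) (nat_lit 181) (nat_lit 3) (nat_lit 7) (nat_lit 9) L103988 (by decide +kernel)
theorem L103990 : W_39 (nat_lit 2) (nat_lit 0x200020001e000e00010001c0000000000000000000000000000000) (nat_lit 0x0) (nat_lit 0xc000400000000000000000000000000000000000000000000000000000) := D_39 (nat_lit 214) (nat_lit 230) (nat_lit 231) (nat_lit 5) (nat_lit 10) (nat_lit 9) (nat_lit 4) (nat_lit 10) (nat_lit 13) (by decide +kernel)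
theorem L103991 : W_39 (nat_lit 3) (nat_lit 0x200000001e000e00010001c0000000000000000000000000000000) (nat_lit 0x0) (nat_lit 0xc000400060000000000000000000000000000000000000000000000000) := T_39 (nat_lit 197) (nat_lit 198) (nat_lit 3) (nat_lit 7) (nat_lit 10) L103990 (by decide +kernel)
theorem L103992 : W_39 (nat_lit 4) (nat_lit 0x2000000016000e00010001c0000000000000000000000000000000) (nat_lit 0x0) (nat_lit 0xc000400070000800000000000000000000000000000000000000000000) := T_39 (nat_lit 179) (nat_lit 196) (nat_lit 7) (nat_lit 8) (nat_lit 7) L103991 (by decide +kernel)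
theorem L103993 : W_39 (nat_lit 5) (nat_lit 0x2000000014000e00010001c0000000000000000000000000000000) (nat_lit 0x0) (nat_lit 0xc000400074000a00000000000000000000000000000000000000000000) := T_39 (nat_lit 177) (nat_lit 194) (nat_lit 5) (nat_lit 8) (nat_lit 7) L103992 (by decide +kernel)
theorem L103994 : W_39 (nat_lit 6) (nat_lit 0x2000000014000e00010000c0000000000000000000000000000000) (nat_lit 0x0) (nat_lit 0xc000400074000a00000000000100008000000000000000000000000000) := T_39 (nat_lit 128) (nat_lit 111) (nat_lit 6) (nat_lit 8) (nat_lit 10) L103993 (by decide +kernel)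
theorem L103995 : W_39 (nat_lit 7) (nat_lit 0x2000000014000e0001000080000000000000000000000000000000) (nat_lit 0x0) (nat_lit 0xc000400074000a0000000000014000a000000000000000000000000000) := T_39 (nat_lit 126) (nat_lit 109) (nat_lit 4) (nat_lit 8) (nat_lit 10) L103994 (by decide +kernel)
theorem L103996 : W_39 (nat_lit 2) (nat_lit 0x6000200016000f0005000180000000000000000000000000000000) (nat_lit 0x0) (nat_lit 0x10000800040000000000000000000000000000000000000000000000000) := D_39 (nat_lit 215) (nat_lit 198) (nat_lit 232) (nat_lit 7) (nat_lit 10) (nat_lit 8) (nat_lit 7) (nat_lit 10) (nat_lit 9) (by decide +kernel)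
theorem L103997 : W_39 (nat_lit 3) (nat_lit 0x2000200016000f0005000180000000000000000000000000000000) (nat_lit 0x0) (nat_lit 0x14000c00040000000000000000000000000000000000000000000000000) := T_39 (nat_lit 214) (nat_lit 230) (nat_lit 5) (nat_lit 10) (nat_lit 9) L103996 (by decide +kernel)
theorem L103998 : W_39 (nat_lit 4) (nat_lit 0x2000000016000f0005000180000000000000000000000000000000) (nat_lit 0x0) (nat_lit 0x14000c00070000000000000000000000000000000000000000000000000) := T_39 (nat_lit 197) (nat_lit 196) (nat_lit 5) (nat_lit 10) (nat_lit 8) L103997 (by decide +kernel)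
theorem L103999 : W_39 (nat_lit 5) (nat_lit 0x2000000014000f0005000180000000000000000000000000000000) (nat_lit 0x0) (nat_lit 0x14000c00074000200000000000000000000000000000000000000000000) := T_39 (nat_lit 177) (nat_lit 194) (nat_lit 5) (nat_lit 8) (nat_lit 7) L103998 (by decide +kernel)
theorem L104000 : W_39 (nat_lit 6) (nat_lit 0x2000000014000f0001000180000000000000000000000000000000) (nat_lit 0x0) (nat_lit 0x14000c0007400020000000c000000000000000000000000000000000000) := T_39 (nat_lit 146) (nat_lit 147) (nat_lit 2) (nat_lit 7) (nat_lit 9) L103999 (by decide +kernel)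
theorem L104001 : W_39 (nat_lit 7) (nat_lit 0x2000000014000f0001000080000000000000000000000000000000) (nat_lit 0x0) (nat_lit 0x14000c0007400020000000c000100008000000000000000000000000000) := T_39 (nat_lit 128) (nat_lit 111) (nat_lit 6) (nat_lit 8) (nat_lit 10) L104000 (by decide +kernel)
theorem L104002 : W_39 (nat_lit 8) (nat_lit 0x2000000014000e0001000080000000000000000000000000000000) (nat_lit 0x0) (nat_lit 0x14000c0007400220001000c000100008000000000000000000000000000) := T_39 (nat_lit 160) (nat_lit 181) (nat_lit 3) (nat_lit 7) (nat_lit 9) L104001 (by decide +kernel)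
theorem L104003 : W_39 (nat_lit 2) (nat_lit 0x2000000016000f8001200080000000000000000000000000000000) (nat_lit 0x0) (nat_lit 0x6000100000000000000000000000000000000000) := D_39 (nat_lit 158) (nat_lit 157) (nat_lit 140) (nat_lit 3) (nat_lit 4) (nat_lit 9) (nat_lit 0) (nat_lit 8) (nat_lit 9) (by decide +kernel)
theorem L104004 : W_39 (nat_lit 3) (nat_lit 0x2000000014000f8001200080000000000000000000000000000000) (nat_lit 0x0) (nat_lit 0x4000200006000100000000000000000000000000000000000) := T_39 (nat_lit 177) (nat_lit 194) (nat_lit 5) (nat_lit 8) (nat_lit 7) L104003 (by decide +kernel)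
theorem L104005 : W_39 (nat_lit 4) (nat_lit 0x2000000014000f8001000080000000000000000000000000000000) (nat_lit 0x0) (nat_lit 0x4000200006000700000000000000000000000000000000000) := T_39 (nat_lit 141) (nat_lit 142) (nat_lit 0) (nat_lit 9) (nat_lit 9) L104004 (by decide +kernel)
theorem L104006 : W_39 (nat_lit 5) (nat_lit 0x2000000014000f0001000080000000000000000000000000000000) (nat_lit 0x0) (nat_lit 0x4000a0000e000700000000000000000000000000000000000) := T_39 (nat_lit 159) (nat_lit 179) (nat_lit 3) (nat_lit 6) (nat_lit 9) L104005 (by decide +kernel)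
theorem L104007 : W_39 (nat_lit 6) (nat_lit 0x2000000014000e0001000080000000000000000000000000000000) (nat_lit 0x0) (nat_lit 0x4002a0001e000700000000000000000000000000000000000) := T_39 (nat_lit 160) (nat_lit 181) (nat_lit 3) (nat_lit 7) (nat_lit 9) L104006 (by decide +kernel)
theorem L104008 : W_39 (nat_lit 9) (nat_lit 0x2000000004000e0001000080000000000000000000000000000000) (nat_lit 0x0) (nat_lit 0x1c000c00074003a0001e00c70014000a000000000000000000000000000) := Q_39 (nat_lit 180) (C_39 L103987 (C_39 L103989 (C_39 L103995 (C_39 L104002 (C_39 L104007 N_39))))) (by decide +kernel)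
theorem L104009 : W_39 (nat_lit 2) (nat_lit 0x200000000c001e00090001c0000000000000000000000000000000) (nat_lit 0x0) (nat_lit 0x10004000200000000000000000000000000000000) := D_39 (nat_lit 146) (nat_lit 160) (nat_lit 129) (nat_lit 2) (nat_lit 7) (nat_lit 9) (nat_lit 3) (nat_lit 7) (nat_lit 7) (by decide +kernel)
theorem L104010 : W_39 (nat_lit 3) (nat_lit 0x200000000c001e00010001c0000000000000000000000000000000) (nat_lit 0x0) (nat_lit 0x1001c000200000000000000000000000000000000) := T_39 (nat_lit 147) (nat_lit 148) (nat_lit 2) (nat_lit 8) (nat_lit 9) L104009 (by decide +kernel)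
theorem L104011 : W_39 (nat_lit 4) (nat_lit 0x200000000c001e0001000180000000000000000000000000000000) (nat_lit 0x0) (nat_lit 0x1001c000240002000000000000000000000000000) := T_39 (nat_lit 126) (nat_lit 109) (nat_lit 4) (nat_lit 8) (nat_lit 10) L104010 (by decide +kernel)
theorem L104012 : W_39 (nat_lit 5) (nat_lit 0x200000000c000e0001000180000000000000000000000000000000) (nat_lit 0x0) (nat_lit 0x31001c000240002000000000000000000000000000) := T_39 (nat_lit 164) (nat_lit 165) (nat_lit 1) (nat_lit 12) (nat_lit 9) L104011 (by decide +kernel)
theorem L104013 : W_39 (nat_lit 6) (nat_lit 0x200000000c000e0001000080000000000000000000000000000000) (nat_lit 0x0) (nat_lit 0x31001c00034000a000000000000000000000000000) := T_39 (nat_lit 128) (nat_lit 111) (nat_lit 6) (nat_lit 8) (nat_lit 10) L104012 (by decide +kernel)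
theorem L104014 : W_39 (nat_lit 7) (nat_lit 0x2000000004000e0001000080000000000000000000000000000000) (nat_lit 0x0) (nat_lit 0x1000080031001c00034000a000000000000000000000000000) := T_39 (nat_lit 179) (nat_lit 196) (nat_lit 7) (nat_lit 8) (nat_lit 7) L104013 (by decide +kernel)
theorem L104015 : W_39 (nat_lit 10) (nat_lit 0x200000000400060001000080000000000000000000000000000000) (nat_lit 0x0) (nat_lit 0x1c000c00074003a0039e01c70034000a000000000000000000000000000) := Q_39 (nat_lit 163) (C_39 L103981 (C_39 L103984 (C_39 L104008 (C_39 L104014 N_39)))) (by decide +kernel)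
theorem L104016 : W_39 (nat_lit 2) (nat_lit 0x200000000e00060001000180000000000000000000000000000000) (nat_lit 0x0) (nat_lit 0x180080000000000000000000000000000000000000000) := D_39 (nat_lit 176) (nat_lit 163) (nat_lit 175) (nat_lit 2) (nat_lit 6) (nat_lit 10) (nat_lit 2) (nat_lit 5) (nat_lit 10) (by decide +kernel)
theorem L104017 : W_39 (nat_lit 3) (nat_lit 0x200000000c00060001000180000000000000000000000000000000) (nat_lit 0x0) (nat_lit 0x4000380080000000000000000000000000000000000000000) := T_39 (nat_lit 177) (nat_lit 194) (nat_lit 5) (nat_lit 8) (nat_lit 7) L104016 (by decide +kernel)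
theorem L104018 : W_39 (nat_lit 4) (nat_lit 0x200000000c00060001000080000000000000000000000000000000) (nat_lit 0x0) (nat_lit 0x4000380080000000100008000000000000000000000000000) := T_39 (nat_lit 128) (nat_lit 111) (nat_lit 6) (nat_lit 8) (nat_lit 10) L104017 (by decide +kernel)
theorem L104019 : W_39 (nat_lit 5) (nat_lit 0x200000000400060001000080000000000000000000000000000000) (nat_lit 0x0) (nat_lit 0x14000b80080000000100008000000000000000000000000000) := T_39 (nat_lit 179) (nat_lit 196) (nat_lit 7) (nat_lit 8) (nat_lit 7) L104018 (by decide +kernel)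
theorem L104020 : W_39 (nat_lit 2) (nat_lit 0x200000000700060001000080000000000000000000000000000000) (nat_lit 0x0) (nat_lit 0x190000000000000000000000000000000000000000) := D_39 (nat_lit 163) (nat_lit 164) (nat_lit 160) (nat_lit 1) (nat_lit 11) (nat_lit 9) (nat_lit 1) (nat_lit 10) (nat_lit 9) (by decide +kernel)
theorem L104021 : W_39 (nat_lit 3) (nat_lit 0x200000000600060001000080000000000000000000000000000000) (nat_lit 0x0) (nat_lit 0x180190000000000000000000000000000000000000000) := T_39 (nat_lit 176) (nat_lit 175) (nat_lit 2) (nat_lit 5) (nat_lit 10) L104020 (by decide +kernel)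
theorem L104022 : W_39 (nat_lit 4) (nat_lit 0x200000000400060001000080000000000000000000000000000000) (nat_lit 0x0) (nat_lit 0x4000380190000000000000000000000000000000000000000) := T_39 (nat_lit 177) (nat_lit 194) (nat_lit 5) (nat_lit 8) (nat_lit 7) L104021 (by decide +kernel)
theorem L104023 : W_39 (nat_lit 2) (nat_lit 0x200042001f000680010001c0000000000000000000000000000000) (nat_lit 0x0) (nat_lit 0x80006000000000000000000000000000000000000000000000) := D_39 (nat_lit 181) (nat_lit 182) (nat_lit 199) (nat_lit 0) (nat_lit 12) (nat_lit 10) (nat_lit 3) (nat_lit 8) (nat_lit 10) (by decide +kernel)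
theorem L104024 : W_39 (nat_lit 3) (nat_lit 0x200002001f000680010001c0000000000000000000000000000000) (nat_lit 0x0) (nat_lit 0xe0006000000000000000000000000000000000000000000000) := T_39 (nat_lit 198) (nat_lit 197) (nat_lit 3) (nat_lit 7) (nat_lit 10) L104023 (by decide +kernel)
theorem L104025 : W_39 (nat_lit 4) (nat_lit 0x200002000f000680010001c0000000000000000000000000000000) (nat_lit 0x0) (nat_lit 0xe0007000010000000000000000000000000000000000000000) := T_39 (nat_lit 180) (nat_lit 160) (nat_lit 3) (nat_lit 6) (nat_lit 9) L104024 (by decide +kernel)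
theorem L104026 : W_39 (nat_lit 5) (nat_lit 0x200002000f000600010001c0000000000000000000000000000000) (nat_lit 0x0) (nat_lit 0xe000700001c000000000000000000000000000000000000000) := T_39 (nat_lit 159) (nat_lit 158) (nat_lit 0) (nat_lit 9) (nat_lit 10) L104025 (by decide +kernel)
theorem L104027 : W_39 (nat_lit 6) (nat_lit 0x200000000f000600010001c0000000000000000000000000000000) (nat_lit 0x0) (nat_lit 0xe300700001c000000000000000000000000000000000000000) := T_39 (nat_lit 193) (nat_lit 192) (nat_lit 1) (nat_lit 9) (nat_lit 10) L104026 (by decide +kernel)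
theorem L104028 : W_39 (nat_lit 7) (nat_lit 0x2000000007000600010001c0000000000000000000000000000000) (nat_lit 0x0) (nat_lit 0xf300780001c000000000000000000000000000000000000000) := T_39 (nat_lit 179) (nat_lit 196) (nat_lit 7) (nat_lit 8) (nat_lit 7) L104027 (by decide +kernel)
theorem L104029 : W_39 (nat_lit 8) (nat_lit 0x2000000006000600010001c0000000000000000000000000000000) (nat_lit 0x0) (nat_lit 0xf300798001c000000000000000000000000000000000000000) := T_39 (nat_lit 176) (nat_lit 175) (nat_lit 2) (nat_lit 5) (nat_lit 10) L104028 (by decide +kernel)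
theorem L104030 : W_39 (nat_lit 9) (nat_lit 0x2000000004000600010001c0000000000000000000000000000000) (nat_lit 0x0) (nat_lit 0xf7007b8001c000000000000000000000000000000000000000) := T_39 (nat_lit 177) (nat_lit 194) (nat_lit 5) (nat_lit 8) (nat_lit 7) L104029 (by decide +kernel)
theorem L104031 : W_39 (nat_lit 10) (nat_lit 0x2000000004000600010000c0000000000000000000000000000000) (nat_lit 0x0) (nat_lit 0xf7007b8001c000000100008000000000000000000000000000) := T_39 (nat_lit 128) (nat_lit 111) (nat_lit 6) (nat_lit 8) (nat_lit 10) L104030 (by decide +kernel)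
theorem L104032 : W_39 (nat_lit 11) (nat_lit 0x200000000400060001000080000000000000000000000000000000) (nat_lit 0x0) (nat_lit 0xf7007b8001c00000014000a000000000000000000000000000) := T_39 (nat_lit 126) (nat_lit 109) (nat_lit 4) (nat_lit 8) (nat_lit 10) L104031 (by decide +kernel)
theorem L104033 : W_39 (nat_lit 2) (nat_lit 0x200000000c000e0001000080000000000000000000000000000000) (nat_lit 0x0) (nat_lit 0x300100000000000000000000000000000000000000000) := D_39 (nat_lit 177) (nat_lit 176) (nat_lit 164) (nat_lit 2) (nat_lit 6) (nat_lit 10) (nat_lit 1) (nat_lit 11) (nat_lit 9) (by decide +kernel)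
theorem L104034 : W_39 (nat_lit 3) (nat_lit 0x2000000004000e0001000080000000000000000000000000000000) (nat_lit 0x0) (nat_lit 0x10000b00100000000000000000000000000000000000000000) := T_39 (nat_lit 179) (nat_lit 196) (nat_lit 7) (nat_lit 8) (nat_lit 7) L104033 (by decide +kernel)
theorem L104035 : W_39 (nat_lit 2) (nat_lit 0x2000000004001e00090001c0000000000000000000000000000000) (nat_lit 0x0) (nat_lit 0x10004000200000000000000000000000000000000) := D_39 (nat_lit 146) (nat_lit 160) (nat_lit 129) (nat_lit 2) (nat_lit 7) (nat_lit 9) (nat_lit 3) (nat_lit 7) (nat_lit 7) (by decide +kernel)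
theorem L104036 : W_39 (nat_lit 3) (nat_lit 0x2000000004001e00010001c0000000000000000000000000000000) (nat_lit 0x0) (nat_lit 0x1001c000200000000000000000000000000000000) := T_39 (nat_lit 147) (nat_lit 148) (nat_lit 2) (nat_lit 8) (nat_lit 9) L104035 (by decide +kernel)
theorem L104037 : W_39 (nat_lit 4) (nat_lit 0x2000000004001e00010000c0000000000000000000000000000000) (nat_lit 0x0) (nat_lit 0x1001c000300008000000000000000000000000000) := T_39 (nat_lit 128) (nat_lit 111) (nat_lit 6) (nat_lit 8) (nat_lit 10) L104036 (by decide +kernel)
theorem L104038 : W_39 (nat_lit 5) (nat_lit 0x2000000004000e00010000c0000000000000000000000000000000) (nat_lit 0x0) (nat_lit 0x20011001c000300008000000000000000000000000000) := T_39 (nat_lit 164) (nat_lit 177) (nat_lit 1) (nat_lit 11) (nat_lit 9) L104037 (by decide +kernel)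
theorem L104039 : W_39 (nat_lit 6) (nat_lit 0x2000000004000e0001000080000000000000000000000000000000) (nat_lit 0x0) (nat_lit 0x20011001c00034000a000000000000000000000000000) := T_39 (nat_lit 126) (nat_lit 109) (nat_lit 4) (nat_lit 8) (nat_lit 10) L104038 (by decide +kernel)
theorem L104040 : W_39 (nat_lit 2) (nat_lit 0x2000100014000f0001000080000000000000000000000000000000) (nat_lit 0x0) (nat_lit 0x2000000000000c000000000000000000000000000000000000) := D_39 (nat_lit 146) (nat_lit 147) (nat_lit 197) (nat_lit 2) (nat_lit 7) (nat_lit 9) (nat_lit 5) (nat_lit 10) (nat_lit 8) (by decide +kernel)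
theorem L104041 : W_39 (nat_lit 3) (nat_lit 0x2000100004000f0001000080000000000000000000000000000000) (nat_lit 0x0) (nat_lit 0x2000300000000c000000000000000000000000000000000000) := T_39 (nat_lit 180) (nat_lit 181) (nat_lit 3) (nat_lit 7) (nat_lit 9) L104040 (by decide +kernel)
theorem L104042 : W_39 (nat_lit 4) (nat_lit 0x2000000004000f0001000080000000000000000000000000000000) (nat_lit 0x0) (nat_lit 0x3000380000000c000000000000000000000000000000000000) := T_39 (nat_lit 196) (nat_lit 179) (nat_lit 7) (nat_lit 8) (nat_lit 7) L104041 (by decide +kernel)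
theorem L104043 : W_39 (nat_lit 2) (nat_lit 0x2000000005000f8005000080000000000000000000000000000000) (nat_lit 0x0) (nat_lit 0x10000800004000000000000000000000000000000000000000) := D_39 (nat_lit 179) (nat_lit 196) (nat_lit 158) (nat_lit 7) (nat_lit 8) (nat_lit 7) (nat_lit 3) (nat_lit 5) (nat_lit 9) (by decide +kernel)
theorem L104044 : W_39 (nat_lit 3) (nat_lit 0x2000000005000f0005000080000000000000000000000000000000) (nat_lit 0x0) (nat_lit 0x1000088000c000000000000000000000000000000000000000) := T_39 (nat_lit 159) (nat_lit 175) (nat_lit 1) (nat_lit 9) (nat_lit 9) L104043 (by decide +kernel)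
theorem L104045 : W_39 (nat_lit 4) (nat_lit 0x2000000005000f0001000080000000000000000000000000000000) (nat_lit 0x0) (nat_lit 0x1000088000c00c000000000000000000000000000000000000) := T_39 (nat_lit 146) (nat_lit 147) (nat_lit 2) (nat_lit 7) (nat_lit 9) L104044 (by decide +kernel)
theorem L104046 : W_39 (nat_lit 5) (nat_lit 0x2000000004000f0001000080000000000000000000000000000000) (nat_lit 0x0) (nat_lit 0x10000b8000c00c000000000000000000000000000000000000) := T_39 (nat_lit 176) (nat_lit 177) (nat_lit 1) (nat_lit 10) (nat_lit 9) L104045 (by decide +kernel)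
theorem L104047 : W_39 (nat_lit 3) (nat_lit 0x2000000004000f0001000080000000000000000000000000000000) (nat_lit 0x0) (nat_lit 0x10003800008000000000000000000000000000000000000000) := T_39 (nat_lit 180) (nat_lit 181) (nat_lit 3) (nat_lit 7) (nat_lit 9) L103988 (by decide +kernel)
theorem L104048 : W_39 (nat_lit 2) (nat_lit 0x6000200016000f00050001c0000000000000000000000000000000) (nat_lit 0x0) (nat_lit 0x10000800040000000000000000000000000000000000000000000000000) := D_39 (nat_lit 215) (nat_lit 198) (nat_lit 232) (nat_lit 7) (nat_lit 10) (nat_lit 8) (nat_lit 7) (nat_lit 10) (nat_lit 9) (by decide +kernel)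
theorem L104049 : W_39 (nat_lit 3) (nat_lit 0x2000200016000f00050001c0000000000000000000000000000000) (nat_lit 0x0) (nat_lit 0x14000c00040000000000000000000000000000000000000000000000000) := T_39 (nat_lit 214) (nat_lit 230) (nat_lit 5) (nat_lit 10) (nat_lit 9) L104048 (by decide +kernel)
theorem L104050 : W_39 (nat_lit 4) (nat_lit 0x2000000016000f00050001c0000000000000000000000000000000) (nat_lit 0x0) (nat_lit 0x14000c00070000000000000000000000000000000000000000000000000) := T_39 (nat_lit 197) (nat_lit 196) (nat_lit 5) (nat_lit 10) (nat_lit 8) L104049 (by decide +kernel)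
theorem L104051 : W_39 (nat_lit 5) (nat_lit 0x2000000016000f00050000c0000000000000000000000000000000) (nat_lit 0x0) (nat_lit 0x14000c00070000000000000000100008000000000000000000000000000) := T_39 (nat_lit 128) (nat_lit 111) (nat_lit 6) (nat_lit 8) (nat_lit 10) L104050 (by decide +kernel)
theorem L104052 : W_39 (nat_lit 6) (nat_lit 0x2000000006000f00050000c0000000000000000000000000000000) (nat_lit 0x0) (nat_lit 0x14000c00070003000000000000100008000000000000000000000000000) := T_39 (nat_lit 180) (nat_lit 181) (nat_lit 3) (nat_lit 7) (nat_lit 9) L104051 (by decide +kernel)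
theorem L104053 : W_39 (nat_lit 7) (nat_lit 0x2000000006000f00010000c0000000000000000000000000000000) (nat_lit 0x0) (nat_lit 0x14000c0007000300000000c000100008000000000000000000000000000) := T_39 (nat_lit 146) (nat_lit 147) (nat_lit 2) (nat_lit 7) (nat_lit 9) L104052 (by decide +kernel)
theorem L104054 : W_39 (nat_lit 8) (nat_lit 0x2000000006000f0001000080000000000000000000000000000000) (nat_lit 0x0) (nat_lit 0x14000c0007000300000000c00014000a000000000000000000000000000) := T_39 (nat_lit 126) (nat_lit 109) (nat_lit 4) (nat_lit 8) (nat_lit 10) L104053 (by decide +kernel)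
theorem L104055 : W_39 (nat_lit 9) (nat_lit 0x2000000004000f0001000080000000000000000000000000000000) (nat_lit 0x0) (nat_lit 0x14000c0007000330000000c00014000a000000000000000000000000000) := T_39 (nat_lit 177) (nat_lit 176) (nat_lit 1) (nat_lit 10) (nat_lit 9) L104054 (by decide +kernel)
theorem L104056 : W_39 (nat_lit 2) (nat_lit 0x2000000014000f8001000080000000000000000000000000000000) (nat_lit 0x0) (nat_lit 0x380000000000000000000000000000000000000000000) := D_39 (nat_lit 176) (nat_lit 177) (nat_lit 175) (nat_lit 1) (nat_lit 10) (nat_lit 9) (nat_lit 1) (nat_lit 9) (nat_lit 9) (by decide +kernel)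
theorem L104057 : W_39 (nat_lit 3) (nat_lit 0x2000000014000f0001000080000000000000000000000000000000) (nat_lit 0x0) (nat_lit 0xb80008000000000000000000000000000000000000000) := T_39 (nat_lit 159) (nat_lit 179) (nat_lit 3) (nat_lit 6) (nat_lit 9) L104056 (by decide +kernel)
theorem L104058 : W_39 (nat_lit 4) (nat_lit 0x2000000004000f0001000080000000000000000000000000000000) (nat_lit 0x0) (nat_lit 0x3b80008000000000000000000000000000000000000000) := T_39 (nat_lit 180) (nat_lit 181) (nat_lit 3) (nat_lit 7) (nat_lit 9) L104057 (by decide +kernel)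
theorem L104059 : W_39 (nat_lit 10) (nat_lit 0x2000000004000e0001000080000000000000000000000000000000) (nat_lit 0x0) (nat_lit 0x14000c00070003b8001c00c00014000a000000000000000000000000000) := Q_39 (nat_lit 160) (C_39 L104042 (C_39 L104046 (C_39 L104047 (C_39 L104055 (C_39 L104058 N_39))))) (by decide +kernel)
theorem L104060 : W_39 (nat_lit 11) (nat_lit 0x200000000400060001000080000000000000000000000000000000) (nat_lit 0x0) (nat_lit 0x14000c00070003b8039c01c00034000a000000000000000000000000000) := Q_39 (nat_lit 163) (C_39 L104014 (C_39 L103984 (C_39 L104034 (C_39 L104039 (C_39 L104059 N_39))))) (by decide +kernel)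
theorem L104061 : W_39 (nat_lit 2) (nat_lit 0x200000002c001f0001000180000000000000000000000000000000) (nat_lit 0x0) (nat_lit 0x1c000000000000000000000000000000000000) := D_39 (nat_lit 147) (nat_lit 146) (nat_lit 148) (nat_lit 2) (nat_lit 7) (nat_lit 9) (nat_lit 2) (nat_lit 8) (nat_lit 9) (by decide +kernel)
theorem L104062 : W_39 (nat_lit 3) (nat_lit 0x200000002c001e0001000180000000000000000000000000000000) (nat_lit 0x0) (nat_lit 0x100001001c000000000000000000000000000000000000) := T_39 (nat_lit 160) (nat_lit 180) (nat_lit 3) (nat_lit 7) (nat_lit 9) L104061 (by decide +kernel)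
theorem L104063 : W_39 (nat_lit 4) (nat_lit 0x200000000c001e0001000180000000000000000000000000000000) (nat_lit 0x0) (nat_lit 0x700001001c000000000000000000000000000000000000) := T_39 (nat_lit 181) (nat_lit 182) (nat_lit 3) (nat_lit 8) (nat_lit 9) L104062 (by decide +kernel)
theorem L104064 : W_39 (nat_lit 5) (nat_lit 0x200000000c000e0001000180000000000000000000000000000000) (nat_lit 0x0) (nat_lit 0x700031001c000000000000000000000000000000000000) := T_39 (nat_lit 164) (nat_lit 165) (nat_lit 1) (nat_lit 12) (nat_lit 9) L104063 (by decide +kernel)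
theorem L104065 : W_39 (nat_lit 6) (nat_lit 0x2000000004000e0001000180000000000000000000000000000000) (nat_lit 0x0) (nat_lit 0x1000780031001c000000000000000000000000000000000000) := T_39 (nat_lit 179) (nat_lit 196) (nat_lit 7) (nat_lit 8) (nat_lit 7) L104064 (by decide +kernel)
theorem L104066 : W_39 (nat_lit 7) (nat_lit 0x2000000004000e0001000080000000000000000000000000000000) (nat_lit 0x0) (nat_lit 0x1000780031001c000100008000000000000000000000000000) := T_39 (nat_lit 128) (nat_lit 111) (nat_lit 6) (nat_lit 8) (nat_lit 10) L104065 (by decide +kernel)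
theorem L104067 : W_39 (nat_lit 2) (nat_lit 0x200000000c001f00090000c0000000000000000000000000000000) (nat_lit 0x0) (nat_lit 0x3000008000000000000000000000000000000000000000) := D_39 (nat_lit 180) (nat_lit 181) (nat_lit 159) (nat_lit 3) (nat_lit 7) (nat_lit 9) (nat_lit 3) (nat_lit 6) (nat_lit 9) (by decide +kernel)
theorem L104068 : W_39 (nat_lit 3) (nat_lit 0x200000000c001e00090000c0000000000000000000000000000000) (nat_lit 0x0) (nat_lit 0x3000018004000000000000000000000000000000000000) := T_39 (nat_lit 160) (nat_lit 146) (nat_lit 2) (nat_lit 7) (nat_lit 9) L104067 (by decide +kernel)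
theorem L104069 : W_39 (nat_lit 4) (nat_lit 0x200000000c001e00010000c0000000000000000000000000000000) (nat_lit 0x0) (nat_lit 0x300001801c000000000000000000000000000000000000) := T_39 (nat_lit 147) (nat_lit 148) (nat_lit 2) (nat_lit 8) (nat_lit 9) L104068 (by decide +kernel)
theorem L104070 : W_39 (nat_lit 5) (nat_lit 0x200000000c001e0001000080000000000000000000000000000000) (nat_lit 0x0) (nat_lit 0x300001801c000040002000000000000000000000000000) := T_39 (nat_lit 126) (nat_lit 109) (nat_lit 4) (nat_lit 8) (nat_lit 10) L104069 (by decide +kernel)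
theorem L104071 : W_39 (nat_lit 6) (nat_lit 0x200000000c000e0001000080000000000000000000000000000000) (nat_lit 0x0) (nat_lit 0x300031801c000040002000000000000000000000000000) := T_39 (nat_lit 164) (nat_lit 165) (nat_lit 1) (nat_lit 12) (nat_lit 9) L104070 (by decide +kernel)
theorem L104072 : W_39 (nat_lit 7) (nat_lit 0x2000000004000e0001000080000000000000000000000000000000) (nat_lit 0x0) (nat_lit 0x1000380031801c000040002000000000000000000000000000) := T_39 (nat_lit 179) (nat_lit 196) (nat_lit 7) (nat_lit 8) (nat_lit 7) L104071 (by decide +kernel)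
theorem L104073 : W_39 (nat_lit 2) (nat_lit 0x200000002c001e00090003c0000000000000000000000000000000) (nat_lit 0x0) (nat_lit 0x400030000000000000000000000000000) := D_39 (nat_lit 112) (nat_lit 113) (nat_lit 130) (nat_lit 2) (nat_lit 7) (nat_lit 7) (nat_lit 4) (nat_lit 11) (nat_lit 10) (by decide +kernel)
theorem L104074 : W_39 (nat_lit 3) (nat_lit 0x200000002c001e00090001c0000000000000000000000000000000) (nat_lit 0x0) (nat_lit 0x4000600030000000000000000000000000000) := T_39 (nat_lit 129) (nat_lit 146) (nat_lit 3) (nat_lit 7) (nat_lit 7) L104073 (by decide +kernel)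
theorem L104075 : W_39 (nat_lit 4) (nat_lit 0x200000002c001e0009000180000000000000000000000000000000) (nat_lit 0x0) (nat_lit 0x4000640032000000000000000000000000000) := T_39 (nat_lit 126) (nat_lit 109) (nat_lit 4) (nat_lit 8) (nat_lit 10) L104074 (by decide +kernel)
theorem L104076 : W_39 (nat_lit 5) (nat_lit 0x200000000c001e0009000180000000000000000000000000000000) (nat_lit 0x0) (nat_lit 0x6000000004000640032000000000000000000000000000) := T_39 (nat_lit 181) (nat_lit 182) (nat_lit 3) (nat_lit 8) (nat_lit 9) L104075 (by decide +kernel)
theorem L104077 : W_39 (nat_lit 6) (nat_lit 0x200000000c001e0001000180000000000000000000000000000000) (nat_lit 0x0) (nat_lit 0x600000001c000640032000000000000000000000000000) := T_39 (nat_lit 147) (nat_lit 148) (nat_lit 2) (nat_lit 8) (nat_lit 9) L104076 (by decide +kernel)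
theorem L104078 : W_39 (nat_lit 7) (nat_lit 0x200000000c001e0001000080000000000000000000000000000000) (nat_lit 0x0) (nat_lit 0x600000001c00074003a000000000000000000000000000) := T_39 (nat_lit 128) (nat_lit 111) (nat_lit 6) (nat_lit 8) (nat_lit 10) L104077 (by decide +kernel)
theorem L104079 : W_39 (nat_lit 8) (nat_lit 0x200000000c000e0001000080000000000000000000000000000000) (nat_lit 0x0) (nat_lit 0x600030001c00074003a000000000000000000000000000) := T_39 (nat_lit 164) (nat_lit 165) (nat_lit 1) (nat_lit 12) (nat_lit 9) L104078 (by decide +kernel)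
theorem L104080 : W_39 (nat_lit 9) (nat_lit 0x2000000004000e0001000080000000000000000000000000000000) (nat_lit 0x0) (nat_lit 0x1000680030001c00074003a000000000000000000000000000) := T_39 (nat_lit 179) (nat_lit 196) (nat_lit 7) (nat_lit 8) (nat_lit 7) L104079 (by decide +kernel)
theorem L104081 : W_39 (nat_lit 2) (nat_lit 0x200040003c001e00010001c0000000000000000000000000000000) (nat_lit 0x0) (nat_lit 0x10000800000000000000004000000000000000000000000000000000000) := D_39 (nat_lit 215) (nat_lit 232) (nat_lit 146) (nat_lit 4) (nat_lit 11) (nat_lit 13) (nat_lit 4) (nat_lit 11) (nat_lit 12) (by decide +kernel)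
theorem L104082 : W_39 (nat_lit 3) (nat_lit 0x200000003c001e00010001c0000000000000000000000000000000) (nat_lit 0x0) (nat_lit 0x100008000c0000000000004000000000000000000000000000000000000) := T_39 (nat_lit 198) (nat_lit 199) (nat_lit 3) (nat_lit 8) (nat_lit 10) L104081 (by decide +kernel)
theorem L104083 : W_39 (nat_lit 4) (nat_lit 0x200000002c001e00010001c0000000000000000000000000000000) (nat_lit 0x0) (nat_lit 0x100008000c0001000010004000000000000000000000000000000000000) := T_39 (nat_lit 180) (nat_lit 160) (nat_lit 3) (nat_lit 7) (nat_lit 9) L104082 (by decide +kernel)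
theorem L104084 : W_39 (nat_lit 5) (nat_lit 0x200000000c001e00010001c0000000000000000000000000000000) (nat_lit 0x0) (nat_lit 0x100008000c0007000010004000000000000000000000000000000000000) := T_39 (nat_lit 181) (nat_lit 182) (nat_lit 3) (nat_lit 8) (nat_lit 9) L104083 (by decide +kernel)
theorem L104085 : W_39 (nat_lit 6) (nat_lit 0x200000000c000e00010001c0000000000000000000000000000000) (nat_lit 0x0) (nat_lit 0x100008000c0007000310004000000000000000000000000000000000000) := T_39 (nat_lit 164) (nat_lit 165) (nat_lit 1) (nat_lit 12) (nat_lit 9) L104084 (by decide +kernel)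
theorem L104086 : W_39 (nat_lit 7) (nat_lit 0x200000000c000e00010000c0000000000000000000000000000000) (nat_lit 0x0) (nat_lit 0x100008000c0007000310004000100008000000000000000000000000000) := T_39 (nat_lit 128) (nat_lit 111) (nat_lit 6) (nat_lit 8) (nat_lit 10) L104085 (by decide +kernel)
theorem L104087 : W_39 (nat_lit 8) (nat_lit 0x2000000004000e00010000c0000000000000000000000000000000) (nat_lit 0x0) (nat_lit 0x100008000d0007800310004000100008000000000000000000000000000) := T_39 (nat_lit 179) (nat_lit 196) (nat_lit 7) (nat_lit 8) (nat_lit 7) L104086 (by decide +kernel)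
theorem L104088 : W_39 (nat_lit 9) (nat_lit 0x2000000004000e0001000080000000000000000000000000000000) (nat_lit 0x0) (nat_lit 0x100008000d000780031000400014000a000000000000000000000000000) := T_39 (nat_lit 126) (nat_lit 109) (nat_lit 4) (nat_lit 8) (nat_lit 10) L104087 (by decide +kernel)
theorem L104089 : W_39 (nat_lit 2) (nat_lit 0x2000000024001e00090000c0000000000000000000000000000000) (nat_lit 0x0) (nat_lit 0x1000010004000000000000000000000000000000000000) := D_39 (nat_lit 160) (nat_lit 180) (nat_lit 146) (nat_lit 3) (nat_lit 7) (nat_lit 9) (nat_lit 2) (nat_lit 7) (nat_lit 9) (by decide +kernel)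
theorem L104090 : W_39 (nat_lit 3) (nat_lit 0x2000000004001e00090000c0000000000000000000000000000000) (nat_lit 0x0) (nat_lit 0x7000010004000000000000000000000000000000000000) := T_39 (nat_lit 181) (nat_lit 182) (nat_lit 3) (nat_lit 8) (nat_lit 9) L104089 (by decide +kernel)
theorem L104091 : W_39 (nat_lit 4) (nat_lit 0x2000000004000e00090000c0000000000000000000000000000000) (nat_lit 0x0) (nat_lit 0x7000110014000000000000000000000000000000000000) := T_39 (nat_lit 164) (nat_lit 148) (nat_lit 2) (nat_lit 8) (nat_lit 9) L104090 (by decide +kernel)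
theorem L104092 : W_39 (nat_lit 5) (nat_lit 0x2000000004000e0009000080000000000000000000000000000000) (nat_lit 0x0) (nat_lit 0x7000110014000040002000000000000000000000000000) := T_39 (nat_lit 126) (nat_lit 109) (nat_lit 4) (nat_lit 8) (nat_lit 10) L104091 (by decide +kernel)
theorem L104093 : W_39 (nat_lit 2) (nat_lit 0x2000000024000f0009000080000000000000000000000000000000) (nat_lit 0x0) (nat_lit 0x4000100010000000000000000000000000000000000000) := D_39 (nat_lit 164) (nat_lit 148) (nat_lit 182) (nat_lit 2) (nat_lit 8) (nat_lit 9) (nat_lit 3) (nat_lit 8) (nat_lit 9) (by decide +kernel)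
theorem L104094 : W_39 (nat_lit 3) (nat_lit 0x2000000004000f0009000080000000000000000000000000000000) (nat_lit 0x0) (nat_lit 0x7000100010000000000000000000000000000000000000) := T_39 (nat_lit 181) (nat_lit 180) (nat_lit 3) (nat_lit 7) (nat_lit 9) L104093 (by decide +kernel)
theorem L104095 : W_39 (nat_lit 4) (nat_lit 0x2000000004000e0009000080000000000000000000000000000000) (nat_lit 0x0) (nat_lit 0x7000110014000000000000000000000000000000000000) := T_39 (nat_lit 160) (nat_lit 146) (nat_lit 2) (nat_lit 7) (nat_lit 9) L104094 (by decide +kernel)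
theorem L104096 : W_39 (nat_lit 2) (nat_lit 0x2000000024001e000d0000c0000000000000000000000000000000) (nat_lit 0x0) (nat_lit 0x300008000000000000000000000000000) := D_39 (nat_lit 128) (nat_lit 111) (nat_lit 129) (nat_lit 6) (nat_lit 8) (nat_lit 10) (nat_lit 3) (nat_lit 7) (nat_lit 7) (by decide +kernel)
theorem L104097 : W_39 (nat_lit 3) (nat_lit 0x2000000024001e00090000c0000000000000000000000000000000) (nat_lit 0x0) (nat_lit 0x10004000300008000000000000000000000000000) := T_39 (nat_lit 146) (nat_lit 160) (nat_lit 2) (nat_lit 7) (nat_lit 9) L104096 (by decide +kernel)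
theorem L104098 : W_39 (nat_lit 4) (nat_lit 0x2000000024001e0009000080000000000000000000000000000000) (nat_lit 0x0) (nat_lit 0x1000400034000a000000000000000000000000000) := T_39 (nat_lit 126) (nat_lit 109) (nat_lit 4) (nat_lit 8) (nat_lit 10) L104097 (by decide +kernel)
theorem L104099 : W_39 (nat_lit 5) (nat_lit 0x2000000004001e0009000080000000000000000000000000000000) (nat_lit 0x0) (nat_lit 0x600001000400034000a000000000000000000000000000) := T_39 (nat_lit 181) (nat_lit 182) (nat_lit 3) (nat_lit 8) (nat_lit 9) L104098 (by decide +kernel)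
theorem L104100 : W_39 (nat_lit 6) (nat_lit 0x2000000004000e0009000080000000000000000000000000000000) (nat_lit 0x0) (nat_lit 0x600011001400034000a000000000000000000000000000) := T_39 (nat_lit 164) (nat_lit 148) (nat_lit 2) (nat_lit 8) (nat_lit 9) L104099 (by decide +kernel)
theorem L104101 : W_39 (nat_lit 2) (nat_lit 0x2000000004000e00090003c0000000000000000000000000000000) (nat_lit 0x0) (nat_lit 0x100010000400000000000000000000000000000000) := D_39 (nat_lit 148) (nat_lit 164) (nat_lit 130) (nat_lit 2) (nat_lit 8) (nat_lit 9) (nat_lit 3) (nat_lit 8) (nat_lit 7) (by decide +kernel)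
theorem L104102 : W_39 (nat_lit 3) (nat_lit 0x2000000004000e00090001c0000000000000000000000000000000) (nat_lit 0x0) (nat_lit 0x100014000600000000000000000000000000000000) := T_39 (nat_lit 129) (nat_lit 146) (nat_lit 3) (nat_lit 7) (nat_lit 7) L104101 (by decide +kernel)
theorem L104103 : W_39 (nat_lit 4) (nat_lit 0x2000000004000e0009000180000000000000000000000000000000) (nat_lit 0x0) (nat_lit 0x100014000640002000000000000000000000000000) := T_39 (nat_lit 126) (nat_lit 109) (nat_lit 4) (nat_lit 8) (nat_lit 10) L104102 (by decide +kernel)
theorem L104104 : W_39 (nat_lit 5) (nat_lit 0x2000000004000e0009000080000000000000000000000000000000) (nat_lit 0x0) (nat_lit 0x10001400074000a000000000000000000000000000) := T_39 (nat_lit 128) (nat_lit 111) (nat_lit 6) (nat_lit 8) (nat_lit 10) L104103 (by decide +kernel)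
theorem L104105 : W_39 (nat_lit 2) (nat_lit 0x2000000004000e000d0000c0000000000000000000000000000000) (nat_lit 0x0) (nat_lit 0x300008000000000000000000000000000) := D_39 (nat_lit 128) (nat_lit 129) (nat_lit 111) (nat_lit 3) (nat_lit 7) (nat_lit 7) (nat_lit 6) (nat_lit 8) (nat_lit 10) (by decide +kernel)
theorem L104106 : W_39 (nat_lit 3) (nat_lit 0x2000000004000e000d000080000000000000000000000000000000) (nat_lit 0x0) (nat_lit 0x34000a000000000000000000000000000) := T_39 (nat_lit 126) (nat_lit 109) (nat_lit 4) (nat_lit 8) (nat_lit 10) L104105 (by decide +kernel)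
theorem L104107 : W_39 (nat_lit 4) (nat_lit 0x2000000004000e0009000080000000000000000000000000000000) (nat_lit 0x0) (nat_lit 0x1000400034000a000000000000000000000000000) := T_39 (nat_lit 146) (nat_lit 160) (nat_lit 2) (nat_lit 7) (nat_lit 9) L104106 (by decide +kernel)
theorem L104108 : W_39 (nat_lit 2) (nat_lit 0x2000000034001e00090000c0000000000000000000000000000000) (nat_lit 0x0) (nat_lit 0x20000000000000000400020000000000000000000000000000) := D_39 (nat_lit 130) (nat_lit 197) (nat_lit 113) (nat_lit 5) (nat_lit 11) (nat_lit 7) (nat_lit 5) (nat_lit 11) (nat_lit 6) (by decide +kernel)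
theorem L104109 : W_39 (nat_lit 3) (nat_lit 0x2000000024001e00090000c0000000000000000000000000000000) (nat_lit 0x0) (nat_lit 0x20001000010000000400020000000000000000000000000000) := T_39 (nat_lit 180) (nat_lit 160) (nat_lit 3) (nat_lit 7) (nat_lit 9) L104108 (by decide +kernel)
theorem L104110 : W_39 (nat_lit 4) (nat_lit 0x2000000004001e00090000c0000000000000000000000000000000) (nat_lit 0x0) (nat_lit 0x20007000010000000400020000000000000000000000000000) := T_39 (nat_lit 181) (nat_lit 182) (nat_lit 3) (nat_lit 8) (nat_lit 9) L104109 (by decide +kernel)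
theorem L104111 : W_39 (nat_lit 5) (nat_lit 0x2000000004000e00090000c0000000000000000000000000000000) (nat_lit 0x0) (nat_lit 0x20007000110010000400020000000000000000000000000000) := T_39 (nat_lit 164) (nat_lit 148) (nat_lit 2) (nat_lit 8) (nat_lit 9) L104110 (by decide +kernel)
theorem L104112 : W_39 (nat_lit 6) (nat_lit 0x2000000004000e0009000080000000000000000000000000000000) (nat_lit 0x0) (nat_lit 0x20007000110010000440022000000000000000000000000000) := T_39 (nat_lit 126) (nat_lit 109) (nat_lit 4) (nat_lit 8) (nat_lit 10) L104111 (by decide +kernel)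
theorem L104113 : W_39 (nat_lit 7) (nat_lit 0x2000000004000e0001000080000000000000000000000000000000) (nat_lit 0x0) (nat_lit 0x2000700011001c00074002a000000000000000000000000000) := Q_39 (nat_lit 147) (C_39 L104092 (C_39 L104095 (C_39 L104100 (C_39 L104104 (C_39 L104107 (C_39 L104112 N_39)))))) (by decide +kernel)
theorem L104114 : W_39 (nat_lit 2) (nat_lit 0x2000100014000e00050003c0000000000000000000000000000000) (nat_lit 0x0) (nat_lit 0x400030000000000000000000000000000) := D_39 (nat_lit 113) (nat_lit 112) (nat_lit 130) (nat_lit 2) (nat_lit 7) (nat_lit 7) (nat_lit 6) (nat_lit 10) (nat_lit 10) (by decide +kernel)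
theorem L104115 : W_39 (nat_lit 3) (nat_lit 0x2000100014000e00050001c0000000000000000000000000000000) (nat_lit 0x0) (nat_lit 0x8000600030000000000000000000000000000) := T_39 (nat_lit 129) (nat_lit 147) (nat_lit 3) (nat_lit 7) (nat_lit 7) L104114 (by decide +kernel)
theorem L104116 : W_39 (nat_lit 4) (nat_lit 0x2000100014000e0005000180000000000000000000000000000000) (nat_lit 0x0) (nat_lit 0x8000640032000000000000000000000000000) := T_39 (nat_lit 126) (nat_lit 109) (nat_lit 4) (nat_lit 8) (nat_lit 10) L104115 (by decide +kernel)
theorem L104117 : W_39 (nat_lit 5) (nat_lit 0x2000100014000e0001000180000000000000000000000000000000) (nat_lit 0x0) (nat_lit 0x2000000000000c000640032000000000000000000000000000) := T_39 (nat_lit 146) (nat_lit 197) (nat_lit 5) (nat_lit 10) (nat_lit 8) L104116 (by decide +kernel)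
theorem L104118 : W_39 (nat_lit 6) (nat_lit 0x2000000014000e0001000180000000000000000000000000000000) (nat_lit 0x0) (nat_lit 0x3000080000000c000640032000000000000000000000000000) := T_39 (nat_lit 196) (nat_lit 179) (nat_lit 7) (nat_lit 8) (nat_lit 7) L104117 (by decide +kernel)
theorem L104119 : W_39 (nat_lit 7) (nat_lit 0x2000000014000e0001000080000000000000000000000000000000) (nat_lit 0x0) (nat_lit 0x3000080000000c00074003a000000000000000000000000000) := T_39 (nat_lit 128) (nat_lit 111) (nat_lit 6) (nat_lit 8) (nat_lit 10) L104118 (by decide +kernel)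
theorem L104120 : W_39 (nat_lit 2) (nat_lit 0x6000200014000f00050001c0000000000000000000000000000000) (nat_lit 0x0) (nat_lit 0x10000800040000000000000000000000000000000000000000000000000) := D_39 (nat_lit 215) (nat_lit 198) (nat_lit 232) (nat_lit 7) (nat_lit 10) (nat_lit 8) (nat_lit 7) (nat_lit 10) (nat_lit 9) (by decide +kernel)
theorem L104121 : W_39 (nat_lit 3) (nat_lit 0x2000200014000f00050001c0000000000000000000000000000000) (nat_lit 0x0) (nat_lit 0x14000c00040000000000000000000000000000000000000000000000000) := T_39 (nat_lit 214) (nat_lit 230) (nat_lit 5) (nat_lit 10) (nat_lit 9) L104120 (by decide +kernel)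
theorem L104122 : W_39 (nat_lit 4) (nat_lit 0x2000000014000f00050001c0000000000000000000000000000000) (nat_lit 0x0) (nat_lit 0x14000c00070000000000000000000000000000000000000000000000000) := T_39 (nat_lit 197) (nat_lit 196) (nat_lit 5) (nat_lit 10) (nat_lit 8) L104121 (by decide +kernel)
theorem L104123 : W_39 (nat_lit 5) (nat_lit 0x2000000014000f00010001c0000000000000000000000000000000) (nat_lit 0x0) (nat_lit 0x14000c0007000000000000c000000000000000000000000000000000000) := T_39 (nat_lit 146) (nat_lit 147) (nat_lit 2) (nat_lit 7) (nat_lit 9) L104122 (by decide +kernel)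
theorem L104124 : W_39 (nat_lit 6) (nat_lit 0x2000000014000e00010001c0000000000000000000000000000000) (nat_lit 0x0) (nat_lit 0x14000c0007000200001000c000000000000000000000000000000000000) := T_39 (nat_lit 160) (nat_lit 181) (nat_lit 3) (nat_lit 7) (nat_lit 9) L104123 (by decide +kernel)
theorem L104125 : W_39 (nat_lit 7) (nat_lit 0x2000000014000e00010000c0000000000000000000000000000000) (nat_lit 0x0) (nat_lit 0x14000c0007000200001000c000100008000000000000000000000000000) := T_39 (nat_lit 128) (nat_lit 111) (nat_lit 6) (nat_lit 8) (nat_lit 10) L104124 (by decide +kernel)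
theorem L104126 : W_39 (nat_lit 8) (nat_lit 0x2000000014000e0001000080000000000000000000000000000000) (nat_lit 0x0) (nat_lit 0x14000c0007000200001000c00014000a000000000000000000000000000) := T_39 (nat_lit 126) (nat_lit 109) (nat_lit 4) (nat_lit 8) (nat_lit 10) L104125 (by decide +kernel)
theorem L104127 : W_39 (nat_lit 2) (nat_lit 0x2000000014000fc0012000c0000000000000000000000000000000) (nat_lit 0x0) (nat_lit 0x1c0000000000000000000000000000000000000000000) := D_39 (nat_lit 175) (nat_lit 174) (nat_lit 176) (nat_lit 1) (nat_lit 8) (nat_lit 9) (nat_lit 1) (nat_lit 9) (nat_lit 9) (by decide +kernel)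
theorem L104128 : W_39 (nat_lit 3) (nat_lit 0x2000000014000f80012000c0000000000000000000000000000000) (nat_lit 0x0) (nat_lit 0x1c0004000100000000000000000000000000000000000) := T_39 (nat_lit 158) (nat_lit 140) (nat_lit 0) (nat_lit 8) (nat_lit 9) L104127 (by decide +kernel)
theorem L104129 : W_39 (nat_lit 4) (nat_lit 0x2000000014000f8001200080000000000000000000000000000000) (nat_lit 0x0) (nat_lit 0x1c0004000100040002000000000000000000000000000) := T_39 (nat_lit 126) (nat_lit 109) (nat_lit 4) (nat_lit 8) (nat_lit 10) L104128 (by decide +kernel)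
theorem L104130 : W_39 (nat_lit 5) (nat_lit 0x2000000014000f8001000080000000000000000000000000000000) (nat_lit 0x0) (nat_lit 0x1c0004000700040002000000000000000000000000000) := T_39 (nat_lit 141) (nat_lit 142) (nat_lit 0) (nat_lit 9) (nat_lit 9) L104129 (by decide +kernel)
theorem L104131 : W_39 (nat_lit 6) (nat_lit 0x2000000014000f0001000080000000000000000000000000000000) (nat_lit 0x0) (nat_lit 0x9c000c000700040002000000000000000000000000000) := T_39 (nat_lit 159) (nat_lit 179) (nat_lit 3) (nat_lit 6) (nat_lit 9) L104130 (by decide +kernel)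
theorem L104132 : W_39 (nat_lit 7) (nat_lit 0x2000000014000e0001000080000000000000000000000000000000) (nat_lit 0x0) (nat_lit 0x29c001c000700040002000000000000000000000000000) := T_39 (nat_lit 160) (nat_lit 181) (nat_lit 3) (nat_lit 7) (nat_lit 9) L104131 (by decide +kernel)
theorem L104133 : W_39 (nat_lit 9) (nat_lit 0x2000000004000e0001000080000000000000000000000000000000) (nat_lit 0x0) (nat_lit 0x14000c000700039c001c00c70074003a000000000000000000000000000) := Q_39 (nat_lit 180) (C_39 L103989 (C_39 L104119 (C_39 L104126 (C_39 L104132 N_39)))) (by decide +kernel)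
theorem L104134 : W_39 (nat_lit 2) (nat_lit 0x200000003c001e0009000180000000000000000000000000000000) (nat_lit 0x0) (nat_lit 0x400020000000000000000400000000000000000000000000000000) := D_39 (nat_lit 197) (nat_lit 214) (nat_lit 130) (nat_lit 6) (nat_lit 10) (nat_lit 12) (nat_lit 5) (nat_lit 11) (nat_lit 7) (by decide +kernel)
theorem L104135 : W_39 (nat_lit 3) (nat_lit 0x200000002c001e0009000180000000000000000000000000000000) (nat_lit 0x0) (nat_lit 0x400020001000010000000400000000000000000000000000000000) := T_39 (nat_lit 180) (nat_lit 160) (nat_lit 3) (nat_lit 7) (nat_lit 9) L104134 (by decide +kernel)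
theorem L104136 : W_39 (nat_lit 4) (nat_lit 0x200000000c001e0009000180000000000000000000000000000000) (nat_lit 0x0) (nat_lit 0x400020007000010000000400000000000000000000000000000000) := T_39 (nat_lit 181) (nat_lit 182) (nat_lit 3) (nat_lit 8) (nat_lit 9) L104135 (by decide +kernel)
theorem L104137 : W_39 (nat_lit 5) (nat_lit 0x200000000c001e0001000180000000000000000000000000000000) (nat_lit 0x0) (nat_lit 0x400020007000010018000400000000000000000000000000000000) := T_39 (nat_lit 147) (nat_lit 148) (nat_lit 2) (nat_lit 8) (nat_lit 9) L104136 (by decide +kernel)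
theorem L104138 : W_39 (nat_lit 6) (nat_lit 0x200000000c001e0001000080000000000000000000000000000000) (nat_lit 0x0) (nat_lit 0x400020007000010018000500008000000000000000000000000000) := T_39 (nat_lit 128) (nat_lit 111) (nat_lit 6) (nat_lit 8) (nat_lit 10) L104137 (by decide +kernel)
theorem L104139 : W_39 (nat_lit 7) (nat_lit 0x200000000c000e0001000080000000000000000000000000000000) (nat_lit 0x0) (nat_lit 0x400020007000310018000500008000000000000000000000000000) := T_39 (nat_lit 164) (nat_lit 165) (nat_lit 1) (nat_lit 12) (nat_lit 9) L104138 (by decide +kernel)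
theorem L104140 : W_39 (nat_lit 8) (nat_lit 0x2000000004000e0001000080000000000000000000000000000000) (nat_lit 0x0) (nat_lit 0x400030007800310018000500008000000000000000000000000000) := T_39 (nat_lit 179) (nat_lit 196) (nat_lit 7) (nat_lit 8) (nat_lit 7) L104139 (by decide +kernel)
theorem L104141 : W_39 (nat_lit 10) (nat_lit 0x200000000400060001000080000000000000000000000000000000) (nat_lit 0x0) (nat_lit 0x14000c000f00079c039c01c70074003a000000000000000000000000000) := Q_39 (nat_lit 163) (C_39 L104014 (C_39 L104066 (C_39 L104072 (C_39 L104080 (C_39 L104088 (C_39 L104113 (C_39 L104133 (C_39 L104140 N_39)))))))) (by decide +kernel)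
theorem L104142 : W_39 (nat_lit 12) (nat_lit 0x200000000400020001000080000000000000000000000000000000) (nat_lit 0x0) (nat_lit 0x1c000c000f7007bc03de01c70074003a000000000000000000000000000) := Q_39 (nat_lit 162) (C_39 L104015 (C_39 L104019 (C_39 L104022 (C_39 L104032 (C_39 L104060 (C_39 L104141 N_39)))))) (by decide +kernel)
theorem L104143 : W_39 (nat_lit 2) (nat_lit 0x4000200000000400020001000080000000000000000000000000000000) (nat_lit 0x0) (nat_lit 0x100018000000000000000000000000000000000000000000000000) := D_39 (nat_lit 195) (nat_lit 196) (nat_lit 212) (nat_lit 7) (nat_lit 8) (nat_lit 8) (nat_lit 7) (nat_lit 8) (nat_lit 9) (by decide +kernel)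
theorem L104144 : W_39 (nat_lit 2) (nat_lit 0x10000c0004000200030000400020001000080000000000000000000000000000000) (nat_lit 0x0) (nat_lit 0x40002000100000000000000000000000000000000000000000000000000000000000000) := D_39 (nat_lit 265) (nat_lit 282) (nat_lit 248) (nat_lit 7) (nat_lit 9) (nat_lit 12) (nat_lit 7) (nat_lit 9) (nat_lit 11) (by decide +kernel)
theorem L104145 : W_39 (nat_lit 3) (nat_lit 0xc0004000200030000400020001000080000000000000000000000000000000) (nat_lit 0x0) (nat_lit 0x40003000100000000400000000000000000000000000000000000000000000000000000) := T_39 (nat_lit 264) (nat_lit 214) (nat_lit 6) (nat_lit 9) (nat_lit 15) L104144 (by decide +kernel)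
theorem L104146 : W_39 (nat_lit 4) (nat_lit 0xc0004000200010000400020001000080000000000000000000000000000000) (nat_lit 0x0) (nat_lit 0x40003000100000000400020001000000000000000000000000000000000000000000000) := T_39 (nat_lit 197) (nat_lit 180) (nat_lit 6) (nat_lit 9) (nat_lit 14) L104145 (by decide +kernel)
theorem L104147 : W_39 (nat_lit 5) (nat_lit 0x80004000200010000400020001000080000000000000000000000000000000) (nat_lit 0x0) (nat_lit 0x40003800140000000400020001000000000000000000000000000000000000000000000) := T_39 (nat_lit 246) (nat_lit 263) (nat_lit 5) (nat_lit 9) (nat_lit 11) L104146 (by decide +kernel)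
theorem L104148 : W_39 (nat_lit 2) (nat_lit 0xb0000e000c0006000100006000200010001c0000000000000000000000000000000) (nat_lit 0x0) (nat_lit 0x32000000000000000000000000000000000000000000000000000000000) := D_39 (nat_lit 232) (nat_lit 233) (nat_lit 229) (nat_lit 1) (nat_lit 12) (nat_lit 13) (nat_lit 1) (nat_lit 11) (nat_lit 13) (by decide +kernel)
theorem L104149 : W_39 (nat_lit 3) (nat_lit 0xb0000e00040006000100006000200010001c0000000000000000000000000000000) (nat_lit 0x0) (nat_lit 0x2000000000003a000000000000000000000000000000000000000000000000000000000) := T_39 (nat_lit 231) (nat_lit 281) (nat_lit 6) (nat_lit 9) (nat_lit 16) L104148 (by decide +kernel)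
theorem L104150 : W_39 (nat_lit 4) (nat_lit 0xb0000e00040002000100006000200010001c0000000000000000000000000000000) (nat_lit 0x0) (nat_lit 0x2000000000003a000400020000000000000000000000000000000000000000000000000) := T_39 (nat_lit 214) (nat_lit 197) (nat_lit 6) (nat_lit 9) (nat_lit 15) L104149 (by decide +kernel)
theorem L104151 : W_39 (nat_lit 5) (nat_lit 0x30000e00040002000100006000200010001c0000000000000000000000000000000) (nat_lit 0x0) (nat_lit 0x2000c00000003a000400020000000000000000000000000000000000000000000000000) := T_39 (nat_lit 267) (nat_lit 266) (nat_lit 0) (nat_lit 12) (nat_lit 15) L104150 (by decide +kernel)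
theorem L104152 : W_39 (nat_lit 6) (nat_lit 0x30000e00040002000100004000200010001c0000000000000000000000000000000) (nat_lit 0x0) (nat_lit 0x2000c00000003a000400024000200000000000000000000000000000000000000000000) := T_39 (nat_lit 177) (nat_lit 194) (nat_lit 5) (nat_lit 8) (nat_lit 7) L104151 (by decide +kernel)
theorem L104153 : W_39 (nat_lit 7) (nat_lit 0x30000c00040002000100004000200010001c0000000000000000000000000000000) (nat_lit 0x0) (nat_lit 0x2000c00003003a000400024000200000000000000000000000000000000000000000000) := T_39 (nat_lit 245) (nat_lit 244) (nat_lit 3) (nat_lit 6) (nat_lit 14) L104152 (by decide +kernel)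
theorem L104154 : W_39 (nat_lit 8) (nat_lit 0x20000c00040002000100004000200010001c0000000000000000000000000000000) (nat_lit 0x0) (nat_lit 0x6000d00003003a000400024000200000000000000000000000000000000000000000000) := T_39 (nat_lit 264) (nat_lit 282) (nat_lit 7) (nat_lit 9) (nat_lit 12) L104153 (by decide +kernel)
theorem L104155 : W_39 (nat_lit 9) (nat_lit 0x20000c0004000200010000400020001000180000000000000000000000000000000) (nat_lit 0x0) (nat_lit 0x6000d00003003a000400024000200000000000040002000000000000000000000000000) := T_39 (nat_lit 126) (nat_lit 109) (nat_lit 4) (nat_lit 8) (nat_lit 10) L104154 (by decide +kernel)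
theorem L104156 : W_39 (nat_lit 10) (nat_lit 0xc0004000200010000400020001000180000000000000000000000000000000) (nat_lit 0x0) (nat_lit 0x6000f00013003a000400024000200000000000040002000000000000000000000000000) := T_39 (nat_lit 265) (nat_lit 248) (nat_lit 7) (nat_lit 9) (nat_lit 11) L104155 (by decide +kernel)
theorem L104157 : W_39 (nat_lit 11) (nat_lit 0xc0004000200010000400020001000080000000000000000000000000000000) (nat_lit 0x0) (nat_lit 0x6000f00013003a00040002400020000000000014000a000000000000000000000000000) := T_39 (nat_lit 128) (nat_lit 111) (nat_lit 6) (nat_lit 8) (nat_lit 10) L104156 (by decide +kernel)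
theorem L104158 : W_39 (nat_lit 12) (nat_lit 0x80004000200010000400020001000080000000000000000000000000000000) (nat_lit 0x0) (nat_lit 0x6000f80017003a00040002400020000000000014000a000000000000000000000000000) := T_39 (nat_lit 246) (nat_lit 263) (nat_lit 5) (nat_lit 9) (nat_lit 11) L104157 (by decide +kernel)
theorem L104159 : W_39 (nat_lit 2) (nat_lit 0x28000800040002000100004000200010001c0000000000000000000000000000000) (nat_lit 0x0) (nat_lit 0x50001000000000000000000000000000000000000000000000000000000000000000000) := D_39 (nat_lit 264) (nat_lit 282) (nat_lit 280) (nat_lit 7) (nat_lit 9) (nat_lit 12) (nat_lit 5) (nat_lit 9) (nat_lit 12) (by decide +kernel)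
theorem L104160 : W_39 (nat_lit 3) (nat_lit 0x20000800040002000100004000200010001c0000000000000000000000000000000) (nat_lit 0x0) (nat_lit 0x50001800040000000000000000000000000000000000000000000000000000000000000) := T_39 (nat_lit 263) (nat_lit 246) (nat_lit 5) (nat_lit 9) (nat_lit 11) L104159 (by decide +kernel)
theorem L104161 : W_39 (nat_lit 4) (nat_lit 0x800040002000100004000200010001c0000000000000000000000000000000) (nat_lit 0x0) (nat_lit 0x50003800140000000000000000000000000000000000000000000000000000000000000) := T_39 (nat_lit 265) (nat_lit 248) (nat_lit 7) (nat_lit 9) (nat_lit 11) L104160 (by decide +kernel)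
theorem L104162 : W_39 (nat_lit 2) (nat_lit 0x8003c000200000000400020001000180000000000000000000000000000000) (nat_lit 0x0) (nat_lit 0x100040000400000000000000000000000000000000000000000000000000000) := D_39 (nat_lit 234) (nat_lit 248) (nat_lit 214) (nat_lit 1) (nat_lit 13) (nat_lit 13) (nat_lit 0) (nat_lit 13) (nat_lit 13) (by decide +kernel)
theorem L104163 : W_39 (nat_lit 2) (nat_lit 0x48003c001e000a000000006000200010001c0000000000000000000000000000000) (nat_lit 0x0) (nat_lit 0x80000000000000000400020000000000000000000000000000000000000000000000000) := D_39 (nat_lit 214) (nat_lit 283) (nat_lit 197) (nat_lit 4) (nat_lit 11) (nat_lit 16) (nat_lit 7) (nat_lit 10) (nat_lit 11) (by decide +kernel)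
theorem L104164 : W_39 (nat_lit 3) (nat_lit 0x8003c001e000a000000006000200010001c0000000000000000000000000000000) (nat_lit 0x0) (nat_lit 0x8000c000000000000400020000000000000000000000000000000000000000000000000) := T_39 (nat_lit 266) (nat_lit 267) (nat_lit 3) (nat_lit 8) (nat_lit 14) L104163 (by decide +kernel)
theorem L104165 : W_39 (nat_lit 4) (nat_lit 0x8002c001e000a000000006000200010001c0000000000000000000000000000000) (nat_lit 0x0) (nat_lit 0x8000c400100000000400020000000000000000000000000000000000000000000000000) := T_39 (nat_lit 248) (nat_lit 262) (nat_lit 1) (nat_lit 11) (nat_lit 14) L104164 (by decide +kernel)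
theorem L104166 : W_39 (nat_lit 2) (nat_lit 0x8007c000200000000600020001000180000000000000000000000000000000) (nat_lit 0x0) (nat_lit 0x7000000000000000000000000000000000000000000000000000000) := D_39 (nat_lit 217) (nat_lit 216) (nat_lit 218) (nat_lit 2) (nat_lit 9) (nat_lit 13) (nat_lit 2) (nat_lit 10) (nat_lit 13) (by decide +kernel)
theorem L104167 : W_39 (nat_lit 3) (nat_lit 0x8003c000200000000600020001000180000000000000000000000000000000) (nat_lit 0x0) (nat_lit 0x100040007000000000000000000000000000000000000000000000000000000) := T_39 (nat_lit 234) (nat_lit 248) (nat_lit 1) (nat_lit 13) (nat_lit 13) L104166 (by decide +kernel)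
theorem L104168 : W_39 (nat_lit 2) (nat_lit 0x8007c000200000000600020001000080000000000000000000000000000000) (nat_lit 0x0) (nat_lit 0x1c00000000000000000000000000000000000000000000000000000000000000) := D_39 (nat_lit 251) (nat_lit 250) (nat_lit 252) (nat_lit 3) (nat_lit 9) (nat_lit 13) (nat_lit 3) (nat_lit 10) (nat_lit 13) (by decide +kernel)
theorem L104169 : W_39 (nat_lit 3) (nat_lit 0x8003c000200000000600020001000080000000000000000000000000000000) (nat_lit 0x0) (nat_lit 0x1d00040000000000000000000000000000000000000000000000000000000000) := T_39 (nat_lit 234) (nat_lit 248) (nat_lit 1) (nat_lit 13) (nat_lit 13) L104168 (by decide +kernel)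
theorem L104170 : W_39 (nat_lit 4) (nat_lit 0x8001c000200000000600020001000080000000000000000000000000000000) (nat_lit 0x0) (nat_lit 0x1d40060000000000000000000000000000000000000000000000000000000000) := T_39 (nat_lit 233) (nat_lit 246) (nat_lit 1) (nat_lit 12) (nat_lit 13) L104169 (by decide +kernel)
theorem L104171 : W_39 (nat_lit 5) (nat_lit 0x8001c000200000000400020001000080000000000000000000000000000000) (nat_lit 0x0) (nat_lit 0x1d40060000000004000200000000000000000000000000000000000000000000) := T_39 (nat_lit 177) (nat_lit 194) (nat_lit 5) (nat_lit 8) (nat_lit 7) L104170 (by decide +kernel)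
theorem L104172 : W_39 (nat_lit 2) (nat_lit 0xc001c000200000000400020001000080000000000000000000000000000000) (nat_lit 0x0) (nat_lit 0x30002000000000000000000000000000000000000000000000000000000000) := D_39 (nat_lit 245) (nat_lit 229) (nat_lit 244) (nat_lit 1) (nat_lit 11) (nat_lit 13) (nat_lit 2) (nat_lit 6) (nat_lit 14) (by decide +kernel)
theorem L104173 : W_39 (nat_lit 2) (nat_lit 0xc001c000200000000400020001000080000000000000000000000000000000) (nat_lit 0x0) (nat_lit 0x130000000000000000000000000000000000000000000000000000000000000) := D_39 (nat_lit 245) (nat_lit 248) (nat_lit 244) (nat_lit 2) (nat_lit 7) (nat_lit 14) (nat_lit 2) (nat_lit 6) (nat_lit 14) (by decide +kernel)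
theorem L104174 : W_39 (nat_lit 2) (nat_lit 0x8007c0002000000006000200010000c0000000000000000000000000000000) (nat_lit 0x0) (nat_lit 0x7000000000000000000000000000000000000000000000000000000) := D_39 (nat_lit 217) (nat_lit 216) (nat_lit 218) (nat_lit 2) (nat_lit 9) (nat_lit 13) (nat_lit 2) (nat_lit 10) (nat_lit 13) (by decide +kernel)
theorem L104175 : W_39 (nat_lit 3) (nat_lit 0x8003c0002000000006000200010000c0000000000000000000000000000000) (nat_lit 0x0) (nat_lit 0x100040007000000000000000000000000000000000000000000000000000000) := T_39 (nat_lit 234) (nat_lit 248) (nat_lit 1) (nat_lit 13) (nat_lit 13) L104174 (by decide +kernel)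
theorem L104176 : W_39 (nat_lit 4) (nat_lit 0x8003c0002000000004000200010000c0000000000000000000000000000000) (nat_lit 0x0) (nat_lit 0x100040007000004000200000000000000000000000000000000000000000000) := T_39 (nat_lit 177) (nat_lit 194) (nat_lit 5) (nat_lit 8) (nat_lit 7) L104175 (by decide +kernel)
theorem L104177 : W_39 (nat_lit 2) (nat_lit 0x34001e00080000600020001000080000000000000000000000000000000) (nat_lit 0x0) (nat_lit 0x200000000000000004000200000000000000000000000000000000000000000) := D_39 (nat_lit 182) (nat_lit 249) (nat_lit 165) (nat_lit 5) (nat_lit 12) (nat_lit 10) (nat_lit 5) (nat_lit 12) (nat_lit 9) (by decide +kernel)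
theorem L104178 : W_39 (nat_lit 3) (nat_lit 0x34001e00000000600020001000080000000000000000000000000000000) (nat_lit 0x0) (nat_lit 0x200000000000180004000200000000000000000000000000000000000000000) := T_39 (nat_lit 199) (nat_lit 200) (nat_lit 2) (nat_lit 9) (nat_lit 12) L104177 (by decide +kernel)
theorem L104179 : W_39 (nat_lit 4) (nat_lit 0x14001e00000000600020001000080000000000000000000000000000000) (nat_lit 0x0) (nat_lit 0x200060000000180004000200000000000000000000000000000000000000000) := T_39 (nat_lit 233) (nat_lit 234) (nat_lit 3) (nat_lit 9) (nat_lit 12) L104178 (by decide +kernel)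
theorem L104180 : W_39 (nat_lit 5) (nat_lit 0x14001e00000000400020001000080000000000000000000000000000000) (nat_lit 0x0) (nat_lit 0x200060000000184004200200000000000000000000000000000000000000000) := T_39 (nat_lit 177) (nat_lit 194) (nat_lit 5) (nat_lit 8) (nat_lit 7) L104179 (by decide +kernel)
theorem L104181 : W_39 (nat_lit 2) (nat_lit 0x34001e00080000400020001000180000000000000000000000000000000) (nat_lit 0x0) (nat_lit 0x200000000000000004000200000000000000000000000000000000000000000) := D_39 (nat_lit 182) (nat_lit 249) (nat_lit 165) (nat_lit 5) (nat_lit 12) (nat_lit 10) (nat_lit 5) (nat_lit 12) (nat_lit 9) (by decide +kernel)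
theorem L104182 : W_39 (nat_lit 3) (nat_lit 0x34001e00000000400020001000180000000000000000000000000000000) (nat_lit 0x0) (nat_lit 0x200000000000180004000200000000000000000000000000000000000000000) := T_39 (nat_lit 199) (nat_lit 200) (nat_lit 2) (nat_lit 9) (nat_lit 12) L104181 (by decide +kernel)
theorem L104183 : W_39 (nat_lit 4) (nat_lit 0x14001e00000000400020001000180000000000000000000000000000000) (nat_lit 0x0) (nat_lit 0x200060000000180004000200000000000000000000000000000000000000000) := T_39 (nat_lit 233) (nat_lit 234) (nat_lit 3) (nat_lit 9) (nat_lit 12) L104182 (by decide +kernel)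
theorem L104184 : W_39 (nat_lit 5) (nat_lit 0x14001e00000000400020001000080000000000000000000000000000000) (nat_lit 0x0) (nat_lit 0x200060000000180004000200000000100008000000000000000000000000000) := T_39 (nat_lit 128) (nat_lit 111) (nat_lit 6) (nat_lit 8) (nat_lit 10) L104183 (by decide +kernel)
theorem L104185 : W_39 (nat_lit 2) (nat_lit 0x48003c000e00000000400020001000180000000000000000000000000000000) (nat_lit 0x0) (nat_lit 0x1000000000000000020001000000000000000000000000000000000000000000000) := D_39 (nat_lit 197) (nat_lit 180) (nat_lit 264) (nat_lit 5) (nat_lit 10) (nat_lit 10) (nat_lit 6) (nat_lit 9) (nat_lit 15) (by decide +kernel)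
theorem L104186 : W_39 (nat_lit 3) (nat_lit 0x40003c000e00000000400020001000180000000000000000000000000000000) (nat_lit 0x0) (nat_lit 0x10000c0000000000020001000000000000000000000000000000000000000000000) := T_39 (nat_lit 247) (nat_lit 246) (nat_lit 1) (nat_lit 12) (nat_lit 13) L104185 (by decide +kernel)
theorem L104187 : W_39 (nat_lit 4) (nat_lit 0x3c000e00000000400020001000180000000000000000000000000000000) (nat_lit 0x0) (nat_lit 0x1000cc0000000000020001000000000000000000000000000000000000000000000) := T_39 (nat_lit 250) (nat_lit 251) (nat_lit 3) (nat_lit 9) (nat_lit 13) L104186 (by decide +kernel)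
theorem L104188 : W_39 (nat_lit 5) (nat_lit 0x3c000e00000000400020001000080000000000000000000000000000000) (nat_lit 0x0) (nat_lit 0x1000cc0000000000020001000000000000100008000000000000000000000000000) := T_39 (nat_lit 128) (nat_lit 111) (nat_lit 6) (nat_lit 8) (nat_lit 10) L104187 (by decide +kernel)
theorem L104189 : W_39 (nat_lit 6) (nat_lit 0x1c000e00000000400020001000080000000000000000000000000000000) (nat_lit 0x0) (nat_lit 0x1000cc0060000000020001000000000000100008000000000000000000000000000) := T_39 (nat_lit 233) (nat_lit 234) (nat_lit 0) (nat_lit 13) (nat_lit 13) L104188 (by decide +kernel)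
theorem L104190 : W_39 (nat_lit 2) (nat_lit 0xe000200014000e00000000600020001000080000000000000000000000000000000) (nat_lit 0x0) (nat_lit 0x500000000000040000000000000000000000000000000000000000000000000) := D_39 (nat_lit 198) (nat_lit 248) (nat_lit 250) (nat_lit 5) (nat_lit 11) (nat_lit 11) (nat_lit 7) (nat_lit 11) (nat_lit 11) (by decide +kernel)
theorem L104191 : W_39 (nat_lit 3) (nat_lit 0x6000200014000e00000000600020001000080000000000000000000000000000000) (nat_lit 0x0) (nat_lit 0x100008000500000000000040000000000000000000000000000000000000000000000000) := T_39 (nat_lit 267) (nat_lit 284) (nat_lit 7) (nat_lit 11) (nat_lit 12) L104190 (by decide +kernel)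
theorem L104192 : W_39 (nat_lit 4) (nat_lit 0x4000200014000e00000000600020001000080000000000000000000000000000000) (nat_lit 0x0) (nat_lit 0x14000a000500000000000040000000000000000000000000000000000000000000000000) := T_39 (nat_lit 265) (nat_lit 282) (nat_lit 5) (nat_lit 11) (nat_lit 12) L104191 (by decide +kernel)
theorem L104193 : W_39 (nat_lit 5) (nat_lit 0x200014000e00000000600020001000080000000000000000000000000000000) (nat_lit 0x0) (nat_lit 0x14000e000500000000000060000000000000000000000000000000000000000000000000) := T_39 (nat_lit 266) (nat_lit 197) (nat_lit 4) (nat_lit 11) (nat_lit 15) L104192 (by decide +kernel)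
theorem L104194 : W_39 (nat_lit 6) (nat_lit 0x200014000e00000000400020001000080000000000000000000000000000000) (nat_lit 0x0) (nat_lit 0x14000e000500000000000064000200000000000000000000000000000000000000000000) := T_39 (nat_lit 177) (nat_lit 194) (nat_lit 5) (nat_lit 8) (nat_lit 7) L104193 (by decide +kernel)
theorem L104195 : W_39 (nat_lit 2) (nat_lit 0x14000e000000006000e0001000080000000000000000000000000000000) (nat_lit 0x0) (nat_lit 0x180010000000000000000000000000000000000000000) := D_39 (nat_lit 176) (nat_lit 160) (nat_lit 175) (nat_lit 1) (nat_lit 10) (nat_lit 9) (nat_lit 2) (nat_lit 5) (nat_lit 10) (by decide +kernel)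
theorem L104196 : W_39 (nat_lit 3) (nat_lit 0x14000e000000006000a0001000080000000000000000000000000000000) (nat_lit 0x0) (nat_lit 0x180150000000000000000000000000000000000000000) := T_39 (nat_lit 162) (nat_lit 164) (nat_lit 1) (nat_lit 11) (nat_lit 9) L104195 (by decide +kernel)
theorem L104197 : W_39 (nat_lit 4) (nat_lit 0x14000e000000004000a0001000080000000000000000000000000000000) (nat_lit 0x0) (nat_lit 0x4000380150000000000000000000000000000000000000000) := T_39 (nat_lit 177) (nat_lit 194) (nat_lit 5) (nat_lit 8) (nat_lit 7) L104196 (by decide +kernel)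
theorem L104198 : W_39 (nat_lit 2) (nat_lit 0x1000e00024005e000e00000000400020001000180000000000000000000000000000000) (nat_lit 0x0) (nat_lit 0x1000180000000000000000000000000000000000000000000000000000000000000) := D_39 (nat_lit 247) (nat_lit 248) (nat_lit 264) (nat_lit 3) (nat_lit 8) (nat_lit 14) (nat_lit 0) (nat_lit 12) (nat_lit 15) (by decide +kernel)
theorem L104199 : W_39 (nat_lit 3) (nat_lit 0x1000600024005e000e00000000400020001000180000000000000000000000000000000) (nat_lit 0x0) (nat_lit 0x100009000180000000000000000000000000000000000000000000000000000000000000) := T_39 (nat_lit 267) (nat_lit 284) (nat_lit 7) (nat_lit 11) (nat_lit 12) L104198 (by decide +kernel)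
theorem L104200 : W_39 (nat_lit 4) (nat_lit 0x1000400024005e000e00000000400020001000180000000000000000000000000000000) (nat_lit 0x0) (nat_lit 0x14000b000180000000000000000000000000000000000000000000000000000000000000) := T_39 (nat_lit 265) (nat_lit 282) (nat_lit 5) (nat_lit 11) (nat_lit 12) L104199 (by decide +kernel)
theorem L104201 : W_39 (nat_lit 5) (nat_lit 0x1000000024005e000e00000000400020001000180000000000000000000000000000000) (nat_lit 0x0) (nat_lit 0x1c000f000180000000000000000000000000000000000000000000000000000000000000) := T_39 (nat_lit 266) (nat_lit 283) (nat_lit 4) (nat_lit 11) (nat_lit 16) L104200 (by decide +kernel)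
theorem L104202 : W_39 (nat_lit 6) (nat_lit 0x24005e000e00000000400020001000180000000000000000000000000000000) (nat_lit 0x0) (nat_lit 0x1d000f800180000000000000000000000000000000000000000000000000000000000000) := T_39 (nat_lit 280) (nat_lit 263) (nat_lit 6) (nat_lit 8) (nat_lit 16) L104201 (by decide +kernel)
theorem L104203 : W_39 (nat_lit 7) (nat_lit 0x4005e000e00000000400020001000180000000000000000000000000000000) (nat_lit 0x0) (nat_lit 0x1d000f800780000000000000000000000000000000000000000000000000000000000000) := T_39 (nat_lit 249) (nat_lit 250) (nat_lit 3) (nat_lit 8) (nat_lit 13) L104202 (by decide +kernel)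
theorem L104204 : W_39 (nat_lit 8) (nat_lit 0x5e000e00000000400020001000180000000000000000000000000000000) (nat_lit 0x0) (nat_lit 0x1d000f8007e0000000000000000000000000000000000000000000000000000000000000) := T_39 (nat_lit 246) (nat_lit 245) (nat_lit 1) (nat_lit 11) (nat_lit 13) L104203 (by decide +kernel)
theorem L104205 : W_39 (nat_lit 9) (nat_lit 0x5e000e00000000400020001000080000000000000000000000000000000) (nat_lit 0x0) (nat_lit 0x1d000f8007e0000000000000000000000000000100008000000000000000000000000000) := T_39 (nat_lit 128) (nat_lit 111) (nat_lit 6) (nat_lit 8) (nat_lit 10) L104204 (by decide +kernel)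
theorem L104206 : W_39 (nat_lit 10) (nat_lit 0x5c000e00000000400020001000080000000000000000000000000000000) (nat_lit 0x0) (nat_lit 0x1d000f8007e0003000000000000000000000000100008000000000000000000000000000) := T_39 (nat_lit 229) (nat_lit 228) (nat_lit 2) (nat_lit 7) (nat_lit 13) L104205 (by decide +kernel)
theorem L104207 : W_39 (nat_lit 11) (nat_lit 0x1c000e00000000400020001000080000000000000000000000000000000) (nat_lit 0x0) (nat_lit 0x1d000f8007e0063000000000000000000000000100008000000000000000000000000000) := T_39 (nat_lit 234) (nat_lit 233) (nat_lit 0) (nat_lit 13) (nat_lit 13) L104206 (by decide +kernel)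
theorem L104208 : W_39 (nat_lit 2) (nat_lit 0x380018003d000e00000000600020001000180000000000000000000000000000000) (nat_lit 0x0) (nat_lit 0x600200000000000000000000000000000000000000000000000000000000000000) := D_39 (nat_lit 262) (nat_lit 261) (nat_lit 249) (nat_lit 2) (nat_lit 6) (nat_lit 15) (nat_lit 2) (nat_lit 7) (nat_lit 15) (by decide +kernel)
theorem L104209 : W_39 (nat_lit 3) (nat_lit 0x380008003d000e00000000600020001000180000000000000000000000000000000) (nat_lit 0x0) (nat_lit 0x600300000000000040000000000000000000000000000000000000000000000000) := T_39 (nat_lit 248) (nat_lit 198) (nat_lit 6) (nat_lit 10) (nat_lit 15) L104208 (by decide +kernel)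
theorem L104210 : W_39 (nat_lit 4) (nat_lit 0x300008003d000e00000000600020001000180000000000000000000000000000000) (nat_lit 0x0) (nat_lit 0x10000e00300000000000040000000000000000000000000000000000000000000000000) := T_39 (nat_lit 263) (nat_lit 280) (nat_lit 5) (nat_lit 9) (nat_lit 12) L104209 (by decide +kernel)
theorem L104211 : W_39 (nat_lit 5) (nat_lit 0x100008003d000e00000000600020001000180000000000000000000000000000000) (nat_lit 0x0) (nat_lit 0x50002e00300000000000040000000000000000000000000000000000000000000000000) := T_39 (nat_lit 265) (nat_lit 282) (nat_lit 7) (nat_lit 9) (nat_lit 12) L104210 (by decide +kernel)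
theorem L104212 : W_39 (nat_lit 6) (nat_lit 0x8003d000e00000000600020001000180000000000000000000000000000000) (nat_lit 0x0) (nat_lit 0x70003e00300000000000040000000000000000000000000000000000000000000000000) := T_39 (nat_lit 264) (nat_lit 281) (nat_lit 6) (nat_lit 9) (nat_lit 16) L104211 (by decide +kernel)
theorem L104213 : W_39 (nat_lit 7) (nat_lit 0x3d000e00000000600020001000180000000000000000000000000000000) (nat_lit 0x0) (nat_lit 0x70003e003c0000000000040000000000000000000000000000000000000000000000000) := T_39 (nat_lit 247) (nat_lit 246) (nat_lit 1) (nat_lit 12) (nat_lit 13) L104212 (by decide +kernel)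
theorem L104214 : W_39 (nat_lit 8) (nat_lit 0x1d000e00000000600020001000180000000000000000000000000000000) (nat_lit 0x0) (nat_lit 0x70003e003c0060000000040000000000000000000000000000000000000000000000000) := T_39 (nat_lit 233) (nat_lit 234) (nat_lit 0) (nat_lit 13) (nat_lit 13) L104213 (by decide +kernel)
theorem L104215 : W_39 (nat_lit 9) (nat_lit 0x1c000e00000000600020001000180000000000000000000000000000000) (nat_lit 0x0) (nat_lit 0x70003e003c0063000000040000000000000000000000000000000000000000000000000) := T_39 (nat_lit 228) (nat_lit 229) (nat_lit 2) (nat_lit 7) (nat_lit 13) L104214 (by decide +kernel)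
theorem L104216 : W_39 (nat_lit 10) (nat_lit 0x1c000e00000000600020001000080000000000000000000000000000000) (nat_lit 0x0) (nat_lit 0x70003e003c0063000000040000000000000000100008000000000000000000000000000) := T_39 (nat_lit 128) (nat_lit 111) (nat_lit 6) (nat_lit 8) (nat_lit 10) L104215 (by decide +kernel)
theorem L104217 : W_39 (nat_lit 11) (nat_lit 0x1c000e00000000400020001000080000000000000000000000000000000) (nat_lit 0x0) (nat_lit 0x70003e003c0063000000044000200000000000100008000000000000000000000000000) := T_39 (nat_lit 177) (nat_lit 194) (nat_lit 5) (nat_lit 8) (nat_lit 7) L104216 (by decide +kernel)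
theorem L104218 : W_39 (nat_lit 2) (nat_lit 0x3f0016000000004000200010000c0000000000000000000000000000000) (nat_lit 0x0) (nat_lit 0x70000000000000000000000000000000000000000000000000000000000000) := D_39 (nat_lit 245) (nat_lit 246) (nat_lit 244) (nat_lit 1) (nat_lit 11) (nat_lit 13) (nat_lit 1) (nat_lit 10) (nat_lit 13) (by decide +kernel)
theorem L104219 : W_39 (nat_lit 3) (nat_lit 0x3e0016000000004000200010000c0000000000000000000000000000000) (nat_lit 0x0) (nat_lit 0x70001800000000000000000000000000000000000000000000000000000000) := T_39 (nat_lit 228) (nat_lit 227) (nat_lit 2) (nat_lit 6) (nat_lit 13) L104218 (by decide +kernel)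
theorem L104220 : W_39 (nat_lit 4) (nat_lit 0x3c0016000000004000200010000c0000000000000000000000000000000) (nat_lit 0x0) (nat_lit 0x70003800800000000000000000000000000000000000000000000000000000) := T_39 (nat_lit 229) (nat_lit 215) (nat_lit 2) (nat_lit 8) (nat_lit 13) L104219 (by decide +kernel)
theorem L104221 : W_39 (nat_lit 5) (nat_lit 0x3c0006000000004000200010000c0000000000000000000000000000000) (nat_lit 0x0) (nat_lit 0x70003803800000000000000000000000000000000000000000000000000000) := T_39 (nat_lit 216) (nat_lit 217) (nat_lit 2) (nat_lit 9) (nat_lit 13) L104220 (by decide +kernel)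
theorem L104222 : W_39 (nat_lit 6) (nat_lit 0x3c000600000000400020001000080000000000000000000000000000000) (nat_lit 0x0) (nat_lit 0x70003803800000000000000000000040002000000000000000000000000000) := T_39 (nat_lit 126) (nat_lit 109) (nat_lit 4) (nat_lit 8) (nat_lit 10) L104221 (by decide +kernel)
theorem L104223 : W_39 (nat_lit 7) (nat_lit 0x1c000600000000400020001000080000000000000000000000000000000) (nat_lit 0x0) (nat_lit 0x70063803800000000000000000000040002000000000000000000000000000) := T_39 (nat_lit 233) (nat_lit 234) (nat_lit 0) (nat_lit 13) (nat_lit 13) L104222 (by decide +kernel)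
theorem L104224 : W_39 (nat_lit 2) (nat_lit 0x34001e000800006000200010000c0000000000000000000000000000000) (nat_lit 0x0) (nat_lit 0x200000000000000004000200000000000000000000000000000000000000000) := D_39 (nat_lit 182) (nat_lit 249) (nat_lit 165) (nat_lit 5) (nat_lit 12) (nat_lit 10) (nat_lit 5) (nat_lit 12) (nat_lit 9) (by decide +kernel)
theorem L104225 : W_39 (nat_lit 2) (nat_lit 0x48003c0016000000004000200010001c0000000000000000000000000000000) (nat_lit 0x0) (nat_lit 0x1000000000000000020001000000000000000000000000000000000000000000000) := D_39 (nat_lit 197) (nat_lit 180) (nat_lit 264) (nat_lit 5) (nat_lit 10) (nat_lit 10) (nat_lit 6) (nat_lit 9) (nat_lit 15) (by decide +kernel)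
theorem L104226 : W_39 (nat_lit 2) (nat_lit 0x40007c001200000000600020001000080000000000000000000000000000000) (nat_lit 0x0) (nat_lit 0x1c0000000000000000000000000000000000000000000000000000000000000) := D_39 (nat_lit 247) (nat_lit 248) (nat_lit 246) (nat_lit 1) (nat_lit 13) (nat_lit 13) (nat_lit 1) (nat_lit 12) (nat_lit 13) (by decide +kernel)
theorem L104227 : W_39 (nat_lit 3) (nat_lit 0x40003c001200000000600020001000080000000000000000000000000000000) (nat_lit 0x0) (nat_lit 0x1c0040000400000000000000000000000000000000000000000000000000000) := T_39 (nat_lit 234) (nat_lit 214) (nat_lit 0) (nat_lit 13) (nat_lit 13) L104226 (by decide +kernel)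
theorem L104228 : W_39 (nat_lit 4) (nat_lit 0x3c001200000000600020001000080000000000000000000000000000000) (nat_lit 0x0) (nat_lit 0xdc0040000400000000000000000000000000000000000000000000000000000) := T_39 (nat_lit 250) (nat_lit 251) (nat_lit 3) (nat_lit 9) (nat_lit 13) L104227 (by decide +kernel)
theorem L104229 : W_39 (nat_lit 5) (nat_lit 0x3c000200000000600020001000080000000000000000000000000000000) (nat_lit 0x0) (nat_lit 0xdc0040003400000000000000000000000000000000000000000000000000000) := T_39 (nat_lit 216) (nat_lit 217) (nat_lit 2) (nat_lit 9) (nat_lit 13) L104228 (by decide +kernel)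
theorem L104230 : W_39 (nat_lit 6) (nat_lit 0x3c000200000000400020001000080000000000000000000000000000000) (nat_lit 0x0) (nat_lit 0xdc0040003400004000200000000000000000000000000000000000000000000) := T_39 (nat_lit 177) (nat_lit 194) (nat_lit 5) (nat_lit 8) (nat_lit 7) L104229 (by decide +kernel)
theorem L104231 : W_39 (nat_lit 2) (nat_lit 0x7c000200000000400020001000080000000000000000000000000000000) (nat_lit 0x0) (nat_lit 0x1c0000000000000000000000000000000000000000000000000000000000000) := D_39 (nat_lit 247) (nat_lit 248) (nat_lit 246) (nat_lit 1) (nat_lit 13) (nat_lit 13) (nat_lit 1) (nat_lit 12) (nat_lit 13) (by decide +kernel)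
theorem L104232 : W_39 (nat_lit 3) (nat_lit 0x3c000200000000400020001000080000000000000000000000000000000) (nat_lit 0x0) (nat_lit 0x1c0040000400000000000000000000000000000000000000000000000000000) := T_39 (nat_lit 234) (nat_lit 214) (nat_lit 0) (nat_lit 13) (nat_lit 13) L104231 (by decide +kernel)
theorem L104233 : W_39 (nat_lit 2) (nat_lit 0x3e001200000000600020001000080000000000000000000000000000000) (nat_lit 0x0) (nat_lit 0xe0000000000000000000000000000000000000000000000000000000000000) := D_39 (nat_lit 246) (nat_lit 245) (nat_lit 247) (nat_lit 1) (nat_lit 11) (nat_lit 13) (nat_lit 1) (nat_lit 12) (nat_lit 13) (by decide +kernel)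
theorem L104234 : W_39 (nat_lit 3) (nat_lit 0x3c001200000000600020001000080000000000000000000000000000000) (nat_lit 0x0) (nat_lit 0xe0002000800000000000000000000000000000000000000000000000000000) := T_39 (nat_lit 229) (nat_lit 215) (nat_lit 2) (nat_lit 8) (nat_lit 13) L104233 (by decide +kernel)
theorem L104235 : W_39 (nat_lit 4) (nat_lit 0x3c000200000000600020001000080000000000000000000000000000000) (nat_lit 0x0) (nat_lit 0xe0002003800000000000000000000000000000000000000000000000000000) := T_39 (nat_lit 216) (nat_lit 217) (nat_lit 2) (nat_lit 9) (nat_lit 13) L104234 (by decide +kernel)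
theorem L104236 : W_39 (nat_lit 5) (nat_lit 0x3c000200000000400020001000080000000000000000000000000000000) (nat_lit 0x0) (nat_lit 0xe0002003800004000200000000000000000000000000000000000000000000) := T_39 (nat_lit 177) (nat_lit 194) (nat_lit 5) (nat_lit 8) (nat_lit 7) L104235 (by decide +kernel)
theorem L104237 : W_39 (nat_lit 2) (nat_lit 0x42003e001600000000600020001000080000000000000000000000000000000) (nat_lit 0x0) (nat_lit 0x10001800000000000000000000000000000000000000000000000000000000) := D_39 (nat_lit 228) (nat_lit 244) (nat_lit 227) (nat_lit 1) (nat_lit 10) (nat_lit 13) (nat_lit 2) (nat_lit 6) (nat_lit 13) (by decide +kernel)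
theorem L104238 : W_39 (nat_lit 3) (nat_lit 0x42003e001200000000600020001000080000000000000000000000000000000) (nat_lit 0x0) (nat_lit 0x10041800400000000000000000000000000000000000000000000000000000) := T_39 (nat_lit 214) (nat_lit 234) (nat_lit 0) (nat_lit 13) (nat_lit 13) L104237 (by decide +kernel)
theorem L104239 : W_39 (nat_lit 4) (nat_lit 0x40003e001200000000600020001000080000000000000000000000000000000) (nat_lit 0x0) (nat_lit 0x70041800400000000000000000000000000000000000000000000000000000) := T_39 (nat_lit 245) (nat_lit 246) (nat_lit 1) (nat_lit 11) (nat_lit 13) L104238 (by decide +kernel)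
theorem L104240 : W_39 (nat_lit 5) (nat_lit 0x40003c001200000000600020001000080000000000000000000000000000000) (nat_lit 0x0) (nat_lit 0x70043800c00000000000000000000000000000000000000000000000000000) := T_39 (nat_lit 229) (nat_lit 215) (nat_lit 2) (nat_lit 8) (nat_lit 13) L104239 (by decide +kernel)
theorem L104241 : W_39 (nat_lit 6) (nat_lit 0x40003c000200000000600020001000080000000000000000000000000000000) (nat_lit 0x0) (nat_lit 0x70043803c00000000000000000000000000000000000000000000000000000) := T_39 (nat_lit 216) (nat_lit 217) (nat_lit 2) (nat_lit 9) (nat_lit 13) L104240 (by decide +kernel)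
theorem L104242 : W_39 (nat_lit 7) (nat_lit 0x40003c000200000000400020001000080000000000000000000000000000000) (nat_lit 0x0) (nat_lit 0x70043803c00004000200000000000000000000000000000000000000000000) := T_39 (nat_lit 177) (nat_lit 194) (nat_lit 5) (nat_lit 8) (nat_lit 7) L104241 (by decide +kernel)
theorem L104243 : W_39 (nat_lit 8) (nat_lit 0x3c000200000000400020001000080000000000000000000000000000000) (nat_lit 0x0) (nat_lit 0xc70043803c00004000200000000000000000000000000000000000000000000) := T_39 (nat_lit 250) (nat_lit 251) (nat_lit 3) (nat_lit 9) (nat_lit 13) L104242 (by decide +kernel)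
theorem L104244 : W_39 (nat_lit 2) (nat_lit 0x40003c001a00000000600020001000180000000000000000000000000000000) (nat_lit 0x0) (nat_lit 0x8000000000000000040002000000000000000000000000000000000000000000000) := D_39 (nat_lit 198) (nat_lit 181) (nat_lit 267) (nat_lit 7) (nat_lit 11) (nat_lit 10) (nat_lit 4) (nat_lit 12) (nat_lit 15) (by decide +kernel)
theorem L104245 : W_39 (nat_lit 3) (nat_lit 0x40003c001200000000600020001000180000000000000000000000000000000) (nat_lit 0x0) (nat_lit 0x8000000002000800040002000000000000000000000000000000000000000000000) := T_39 (nat_lit 215) (nat_lit 229) (nat_lit 2) (nat_lit 8) (nat_lit 13) L104244 (by decide +kernel)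
theorem L104246 : W_39 (nat_lit 4) (nat_lit 0x40003c000200000000600020001000180000000000000000000000000000000) (nat_lit 0x0) (nat_lit 0x8000000002003800040002000000000000000000000000000000000000000000000) := T_39 (nat_lit 216) (nat_lit 217) (nat_lit 2) (nat_lit 9) (nat_lit 13) L104245 (by decide +kernel)
theorem L104247 : W_39 (nat_lit 5) (nat_lit 0x40003c000200000000400020001000180000000000000000000000000000000) (nat_lit 0x0) (nat_lit 0x8000000002003800044002200000000000000000000000000000000000000000000) := T_39 (nat_lit 177) (nat_lit 194) (nat_lit 5) (nat_lit 8) (nat_lit 7) L104246 (by decide +kernel)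
theorem L104248 : W_39 (nat_lit 6) (nat_lit 0x3c000200000000400020001000180000000000000000000000000000000) (nat_lit 0x0) (nat_lit 0x8000c00002003800044002200000000000000000000000000000000000000000000) := T_39 (nat_lit 250) (nat_lit 251) (nat_lit 3) (nat_lit 9) (nat_lit 13) L104247 (by decide +kernel)
theorem L104249 : W_39 (nat_lit 7) (nat_lit 0x3c000200000000400020001000080000000000000000000000000000000) (nat_lit 0x0) (nat_lit 0x8000c00002003800044002200000000000100008000000000000000000000000000) := T_39 (nat_lit 128) (nat_lit 111) (nat_lit 6) (nat_lit 8) (nat_lit 10) L104248 (by decide +kernel)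
theorem L104250 : W_39 (nat_lit 9) (nat_lit 0x1c000200000000400020001000080000000000000000000000000000000) (nat_lit 0x0) (nat_lit 0x8000df0063803c00044002200000000000100008000000000000000000000000000) := Q_39 (nat_lit 233) (C_39 L104230 (C_39 L104232 (C_39 L104236 (C_39 L104243 (C_39 L104249 N_39))))) (by decide +kernel)
theorem L104251 : W_39 (nat_lit 2) (nat_lit 0x40007c0022000000004000200010001c0000000000000000000000000000000) (nat_lit 0x0) (nat_lit 0x1c0000000000000000000000000000000000000000000000000000000000000) := D_39 (nat_lit 247) (nat_lit 248) (nat_lit 246) (nat_lit 1) (nat_lit 13) (nat_lit 13) (nat_lit 1) (nat_lit 12) (nat_lit 13) (by decide +kernel)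
theorem L104252 : W_39 (nat_lit 3) (nat_lit 0x40003c0022000000004000200010001c0000000000000000000000000000000) (nat_lit 0x0) (nat_lit 0x1c0040004000000000000000000000000000000000000000000000000000000) := T_39 (nat_lit 234) (nat_lit 218) (nat_lit 2) (nat_lit 10) (nat_lit 13) L104251 (by decide +kernel)
theorem L104253 : W_39 (nat_lit 4) (nat_lit 0x40003c002200000000400020001000180000000000000000000000000000000) (nat_lit 0x0) (nat_lit 0x1c0040004000000000000000000000040002000000000000000000000000000) := T_39 (nat_lit 126) (nat_lit 109) (nat_lit 4) (nat_lit 8) (nat_lit 10) L104252 (by decide +kernel)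
theorem L104254 : W_39 (nat_lit 5) (nat_lit 0x40003c000200000000400020001000180000000000000000000000000000000) (nat_lit 0x0) (nat_lit 0x1c0040007000000000000000000000040002000000000000000000000000000) := T_39 (nat_lit 217) (nat_lit 216) (nat_lit 2) (nat_lit 9) (nat_lit 13) L104253 (by decide +kernel)
theorem L104255 : W_39 (nat_lit 6) (nat_lit 0x3c000200000000400020001000180000000000000000000000000000000) (nat_lit 0x0) (nat_lit 0xdc0040007000000000000000000000040002000000000000000000000000000) := T_39 (nat_lit 250) (nat_lit 251) (nat_lit 3) (nat_lit 9) (nat_lit 13) L104254 (by decide +kernel)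
theorem L104256 : W_39 (nat_lit 7) (nat_lit 0x3c000200000000400020001000080000000000000000000000000000000) (nat_lit 0x0) (nat_lit 0xdc004000700000000000000000000014000a000000000000000000000000000) := T_39 (nat_lit 128) (nat_lit 111) (nat_lit 6) (nat_lit 8) (nat_lit 10) L104255 (by decide +kernel)
theorem L104257 : W_39 (nat_lit 2) (nat_lit 0x80003c001200000000400020001000180000000000000000000000000000000) (nat_lit 0x0) (nat_lit 0x1000040000400000000000000000000000000000000000000000000000000000) := D_39 (nat_lit 234) (nat_lit 214) (nat_lit 252) (nat_lit 0) (nat_lit 13) (nat_lit 13) (nat_lit 3) (nat_lit 10) (nat_lit 13) (by decide +kernel)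
theorem L104258 : W_39 (nat_lit 3) (nat_lit 0x3c001200000000400020001000180000000000000000000000000000000) (nat_lit 0x0) (nat_lit 0x1c00040000400000000000000000000000000000000000000000000000000000) := T_39 (nat_lit 251) (nat_lit 250) (nat_lit 3) (nat_lit 9) (nat_lit 13) L104257 (by decide +kernel)
theorem L104259 : W_39 (nat_lit 4) (nat_lit 0x3c001200000000400020001000080000000000000000000000000000000) (nat_lit 0x0) (nat_lit 0x1c00040000400000000000000000000100008000000000000000000000000000) := T_39 (nat_lit 128) (nat_lit 111) (nat_lit 6) (nat_lit 8) (nat_lit 10) L104258 (by decide +kernel)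
theorem L104260 : W_39 (nat_lit 5) (nat_lit 0x3c000200000000400020001000080000000000000000000000000000000) (nat_lit 0x0) (nat_lit 0x1c00040003400000000000000000000100008000000000000000000000000000) := T_39 (nat_lit 216) (nat_lit 217) (nat_lit 2) (nat_lit 9) (nat_lit 13) L104259 (by decide +kernel)
theorem L104261 : W_39 (nat_lit 2) (nat_lit 0x40003c000a00040000600020001000080000000000000000000000000000000) (nat_lit 0x0) (nat_lit 0x100008000200000000000000000000000000000000000000000000000000000000000000) := D_39 (nat_lit 267) (nat_lit 284) (nat_lit 249) (nat_lit 4) (nat_lit 12) (nat_lit 16) (nat_lit 7) (nat_lit 11) (nat_lit 11) (by decide +kernel)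
theorem L104262 : W_39 (nat_lit 3) (nat_lit 0x40003c000a00000000600020001000080000000000000000000000000000000) (nat_lit 0x0) (nat_lit 0x100008000200000000000040002000000000000000000000000000000000000000000000) := T_39 (nat_lit 198) (nat_lit 181) (nat_lit 7) (nat_lit 11) (nat_lit 10) L104261 (by decide +kernel)
theorem L104263 : W_39 (nat_lit 4) (nat_lit 0x40003c000a00000000400020001000080000000000000000000000000000000) (nat_lit 0x0) (nat_lit 0x100008000200000000000044002200000000000000000000000000000000000000000000) := T_39 (nat_lit 177) (nat_lit 194) (nat_lit 5) (nat_lit 8) (nat_lit 7) L104262 (by decide +kernel)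
theorem L104264 : W_39 (nat_lit 5) (nat_lit 0x3c000a00000000400020001000080000000000000000000000000000000) (nat_lit 0x0) (nat_lit 0x100008000e00000000000044002200000000000000000000000000000000000000000000) := T_39 (nat_lit 250) (nat_lit 251) (nat_lit 3) (nat_lit 9) (nat_lit 13) L104263 (by decide +kernel)
theorem L104265 : W_39 (nat_lit 2) (nat_lit 0x48003c001a000000004000200010001c0000000000000000000000000000000) (nat_lit 0x0) (nat_lit 0x100008000000000000000040000000000000000000000000000000000000000000000000) := D_39 (nat_lit 267) (nat_lit 284) (nat_lit 198) (nat_lit 4) (nat_lit 12) (nat_lit 16) (nat_lit 4) (nat_lit 12) (nat_lit 15) (by decide +kernel)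
theorem L104266 : W_39 (nat_lit 3) (nat_lit 0x8003c001a000000004000200010001c0000000000000000000000000000000) (nat_lit 0x0) (nat_lit 0x100008000c00000000000040000000000000000000000000000000000000000000000000) := T_39 (nat_lit 250) (nat_lit 251) (nat_lit 3) (nat_lit 9) (nat_lit 13) L104265 (by decide +kernel)
theorem L104267 : W_39 (nat_lit 4) (nat_lit 0x8003c001a000000004000200010000c0000000000000000000000000000000) (nat_lit 0x0) (nat_lit 0x100008000c00000000000040000000000000000100008000000000000000000000000000) := T_39 (nat_lit 128) (nat_lit 111) (nat_lit 6) (nat_lit 8) (nat_lit 10) L104266 (by decide +kernel)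
theorem L104268 : W_39 (nat_lit 5) (nat_lit 0x8003c001a00000000400020001000080000000000000000000000000000000) (nat_lit 0x0) (nat_lit 0x100008000c0000000000004000000000000000014000a000000000000000000000000000) := T_39 (nat_lit 126) (nat_lit 109) (nat_lit 4) (nat_lit 8) (nat_lit 10) L104267 (by decide +kernel)
theorem L104269 : W_39 (nat_lit 6) (nat_lit 0x8003c000a00000000400020001000080000000000000000000000000000000) (nat_lit 0x0) (nat_lit 0x100008000c0000000300004000000000000000014000a000000000000000000000000000) := T_39 (nat_lit 216) (nat_lit 217) (nat_lit 2) (nat_lit 9) (nat_lit 13) L104268 (by decide +kernel)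
theorem L104270 : W_39 (nat_lit 7) (nat_lit 0x3c000a00000000400020001000080000000000000000000000000000000) (nat_lit 0x0) (nat_lit 0x100008000cc000000300004000000000000000014000a000000000000000000000000000) := T_39 (nat_lit 247) (nat_lit 246) (nat_lit 1) (nat_lit 12) (nat_lit 13) L104269 (by decide +kernel)
theorem L104271 : W_39 (nat_lit 2) (nat_lit 0x1c00060003c001a000000006000200010001c0000000000000000000000000000000) (nat_lit 0x0) (nat_lit 0x1c0000000000000000000000000000000000000000000000000000000000000) := D_39 (nat_lit 247) (nat_lit 246) (nat_lit 248) (nat_lit 1) (nat_lit 12) (nat_lit 13) (nat_lit 3) (nat_lit 9) (nat_lit 14) (by decide +kernel)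
theorem L104272 : W_39 (nat_lit 3) (nat_lit 0x1c00040003c001a000000006000200010001c0000000000000000000000000000000) (nat_lit 0x0) (nat_lit 0x3c0000000000080000000000000000000000000000000000000000000000000) := T_39 (nat_lit 249) (nat_lit 199) (nat_lit 6) (nat_lit 11) (nat_lit 15) L104271 (by decide +kernel)
theorem L104273 : W_39 (nat_lit 4) (nat_lit 0x1c00040003c001a000000006000200010000c0000000000000000000000000000000) (nat_lit 0x0) (nat_lit 0x3c0000000000080000000000000000100008000000000000000000000000000) := T_39 (nat_lit 128) (nat_lit 111) (nat_lit 6) (nat_lit 8) (nat_lit 10) L104272 (by decide +kernel)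
theorem L104274 : W_39 (nat_lit 5) (nat_lit 0x1800040003c001a000000006000200010000c0000000000000000000000000000000) (nat_lit 0x0) (nat_lit 0x800040003c0000000000080000000000000000100008000000000000000000000000000) := T_39 (nat_lit 266) (nat_lit 283) (nat_lit 5) (nat_lit 12) (nat_lit 12) L104273 (by decide +kernel)
theorem L104275 : W_39 (nat_lit 6) (nat_lit 0x800040003c001a000000006000200010000c0000000000000000000000000000000) (nat_lit 0x0) (nat_lit 0x2800140003c0000000000080000000000000000100008000000000000000000000000000) := T_39 (nat_lit 268) (nat_lit 285) (nat_lit 7) (nat_lit 12) (nat_lit 12) L104274 (by decide +kernel)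
theorem L104276 : W_39 (nat_lit 7) (nat_lit 0x800040003c000a000000006000200010000c0000000000000000000000000000000) (nat_lit 0x0) (nat_lit 0x2800140003c0000003000080000000000000000100008000000000000000000000000000) := T_39 (nat_lit 216) (nat_lit 217) (nat_lit 2) (nat_lit 9) (nat_lit 13) L104275 (by decide +kernel)
theorem L104277 : W_39 (nat_lit 8) (nat_lit 0x800040003c000a00000000600020001000080000000000000000000000000000000) (nat_lit 0x0) (nat_lit 0x2800140003c000000300008000000000000000014000a000000000000000000000000000) := T_39 (nat_lit 126) (nat_lit 109) (nat_lit 4) (nat_lit 8) (nat_lit 10) L104276 (by decide +kernel)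
theorem L104278 : W_39 (nat_lit 9) (nat_lit 0x40003c000a00000000600020001000080000000000000000000000000000000) (nat_lit 0x0) (nat_lit 0x38001c0003c000000300008000000000000000014000a000000000000000000000000000) := T_39 (nat_lit 267) (nat_lit 284) (nat_lit 4) (nat_lit 12) (nat_lit 16) L104277 (by decide +kernel)
theorem L104279 : W_39 (nat_lit 10) (nat_lit 0x40003c000a00000000400020001000080000000000000000000000000000000) (nat_lit 0x0) (nat_lit 0x38001c0003c000000300008400020000000000014000a000000000000000000000000000) := T_39 (nat_lit 177) (nat_lit 194) (nat_lit 5) (nat_lit 8) (nat_lit 7) L104278 (by decide +kernel)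
theorem L104280 : W_39 (nat_lit 11) (nat_lit 0x3c000a00000000400020001000080000000000000000000000000000000) (nat_lit 0x0) (nat_lit 0x38001c000fc000000300008400020000000000014000a000000000000000000000000000) := T_39 (nat_lit 250) (nat_lit 251) (nat_lit 3) (nat_lit 9) (nat_lit 13) L104279 (by decide +kernel)
theorem L104281 : W_39 (nat_lit 2) (nat_lit 0x8003c0006000000004000200010000c0000000000000000000000000000000) (nat_lit 0x0) (nat_lit 0x1000000000000000020001000000000000000000000000000000000000000000000) := D_39 (nat_lit 197) (nat_lit 180) (nat_lit 264) (nat_lit 5) (nat_lit 10) (nat_lit 10) (nat_lit 6) (nat_lit 9) (nat_lit 15) (by decide +kernel)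
theorem L104282 : W_39 (nat_lit 3) (nat_lit 0x3c0006000000004000200010000c0000000000000000000000000000000) (nat_lit 0x0) (nat_lit 0x10000c0000000000020001000000000000000000000000000000000000000000000) := T_39 (nat_lit 247) (nat_lit 246) (nat_lit 1) (nat_lit 12) (nat_lit 13) L104281 (by decide +kernel)
theorem L104283 : W_39 (nat_lit 4) (nat_lit 0x3c000600000000400020001000080000000000000000000000000000000) (nat_lit 0x0) (nat_lit 0x10000c0000000000020001000000000000040002000000000000000000000000000) := T_39 (nat_lit 126) (nat_lit 109) (nat_lit 4) (nat_lit 8) (nat_lit 10) L104282 (by decide +kernel)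
theorem L104284 : W_39 (nat_lit 2) (nat_lit 0x1c000600020000400020001000080000000000000000000000000000000) (nat_lit 0x0) (nat_lit 0x200000000000000001000080000000000000000000000000000000000000000) := D_39 (nat_lit 180) (nat_lit 249) (nat_lit 163) (nat_lit 7) (nat_lit 10) (nat_lit 10) (nat_lit 5) (nat_lit 10) (nat_lit 9) (by decide +kernel)
theorem L104285 : W_39 (nat_lit 2) (nat_lit 0xc001c000600020000600020001000180000000000000000000000000000000) (nat_lit 0x0) (nat_lit 0x130000000000000000000000000000000000000000000000000000000000000) := D_39 (nat_lit 245) (nat_lit 244) (nat_lit 248) (nat_lit 2) (nat_lit 6) (nat_lit 14) (nat_lit 2) (nat_lit 7) (nat_lit 14) (by decide +kernel)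
theorem L104286 : W_39 (nat_lit 3) (nat_lit 0x8001c000600020000600020001000180000000000000000000000000000000) (nat_lit 0x0) (nat_lit 0x170020000000000000000000000000000000000000000000000000000000000) := T_39 (nat_lit 246) (nat_lit 233) (nat_lit 1) (nat_lit 12) (nat_lit 13) L104285 (by decide +kernel)
theorem L104287 : W_39 (nat_lit 4) (nat_lit 0x8001c000600020000600020001000080000000000000000000000000000000) (nat_lit 0x0) (nat_lit 0x170020000000000000000000000000100008000000000000000000000000000) := T_39 (nat_lit 128) (nat_lit 111) (nat_lit 6) (nat_lit 8) (nat_lit 10) L104286 (by decide +kernel)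
theorem L104288 : W_39 (nat_lit 5) (nat_lit 0x1c000600020000600020001000080000000000000000000000000000000) (nat_lit 0x0) (nat_lit 0x10001f0020000000000000000000000000100008000000000000000000000000000) := T_39 (nat_lit 247) (nat_lit 264) (nat_lit 6) (nat_lit 9) (nat_lit 15) L104287 (by decide +kernel)
theorem L104289 : W_39 (nat_lit 6) (nat_lit 0x1c000600020000400020001000080000000000000000000000000000000) (nat_lit 0x0) (nat_lit 0x10001f0020000000004000200000000000100008000000000000000000000000000) := T_39 (nat_lit 177) (nat_lit 194) (nat_lit 5) (nat_lit 8) (nat_lit 7) L104288 (by decide +kernel)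
theorem L104290 : W_39 (nat_lit 7) (nat_lit 0x1c000600000000400020001000080000000000000000000000000000000) (nat_lit 0x0) (nat_lit 0x10003f0020000000024001200080000000100008000000000000000000000000000) := Q_39 (nat_lit 197) (C_39 L104284 (C_39 L104289 N_39)) (by decide +kernel)
theorem L104291 : W_39 (nat_lit 2) (nat_lit 0x20001c001e000800004000200010001c0000000000000000000000000000000) (nat_lit 0x0) (nat_lit 0x40004000200000000000000000000000000000000000000000) := D_39 (nat_lit 182) (nat_lit 165) (nat_lit 198) (nat_lit 5) (nat_lit 12) (nat_lit 9) (nat_lit 6) (nat_lit 11) (nat_lit 14) (by decide +kernel)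
theorem L104292 : W_39 (nat_lit 3) (nat_lit 0x1c001e000800004000200010001c0000000000000000000000000000000) (nat_lit 0x0) (nat_lit 0x4000200000000000040004000200000000000000000000000000000000000000000) := T_39 (nat_lit 249) (nat_lit 266) (nat_lit 6) (nat_lit 11) (nat_lit 15) L104291 (by decide +kernel)
theorem L104293 : W_39 (nat_lit 4) (nat_lit 0x1c001e000800004000200010000c0000000000000000000000000000000) (nat_lit 0x0) (nat_lit 0x4000200000000000040004000200000000100008000000000000000000000000000) := T_39 (nat_lit 128) (nat_lit 111) (nat_lit 6) (nat_lit 8) (nat_lit 10) L104292 (by decide +kernel)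
theorem L104294 : W_39 (nat_lit 5) (nat_lit 0x1c001e000000004000200010000c0000000000000000000000000000000) (nat_lit 0x0) (nat_lit 0x40002000000000001c0004000200000000100008000000000000000000000000000) := T_39 (nat_lit 199) (nat_lit 200) (nat_lit 2) (nat_lit 9) (nat_lit 12) L104293 (by decide +kernel)
theorem L104295 : W_39 (nat_lit 6) (nat_lit 0x1c001e00000000400020001000080000000000000000000000000000000) (nat_lit 0x0) (nat_lit 0x40002000000000001c000400020000000014000a000000000000000000000000000) := T_39 (nat_lit 126) (nat_lit 109) (nat_lit 4) (nat_lit 8) (nat_lit 10) L104294 (by decide +kernel)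
theorem L104296 : W_39 (nat_lit 7) (nat_lit 0x1c000e00000000400020001000080000000000000000000000000000000) (nat_lit 0x0) (nat_lit 0x40002000000030001c000400020000000014000a000000000000000000000000000) := T_39 (nat_lit 216) (nat_lit 217) (nat_lit 1) (nat_lit 13) (nat_lit 12) L104295 (by decide +kernel)
theorem L104297 : W_39 (nat_lit 5) (nat_lit 0x3c0002000000004000200010000c0000000000000000000000000000000) (nat_lit 0x0) (nat_lit 0x1c0040007000004000200000000000000000000000000000000000000000000) := T_39 (nat_lit 247) (nat_lit 246) (nat_lit 1) (nat_lit 12) (nat_lit 13) L104176 (by decide +kernel)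
theorem L104298 : W_39 (nat_lit 2) (nat_lit 0x7c000200000000400020001000180000000000000000000000000000000) (nat_lit 0x0) (nat_lit 0x1c0000000000000000000000000000000000000000000000000000000000000) := D_39 (nat_lit 247) (nat_lit 248) (nat_lit 246) (nat_lit 1) (nat_lit 13) (nat_lit 13) (nat_lit 1) (nat_lit 12) (nat_lit 13) (by decide +kernel)
theorem L104299 : W_39 (nat_lit 3) (nat_lit 0x3c000200000000400020001000180000000000000000000000000000000) (nat_lit 0x0) (nat_lit 0x1c0040000400000000000000000000000000000000000000000000000000000) := T_39 (nat_lit 234) (nat_lit 214) (nat_lit 0) (nat_lit 13) (nat_lit 13) L104298 (by decide +kernel)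
theorem L104300 : W_39 (nat_lit 2) (nat_lit 0x7c000200000000400020001000180000000000000000000000000000000) (nat_lit 0x0) (nat_lit 0x1c00000000000000000000000000000000000000000000000000000000000000) := D_39 (nat_lit 251) (nat_lit 250) (nat_lit 252) (nat_lit 3) (nat_lit 9) (nat_lit 13) (nat_lit 3) (nat_lit 10) (nat_lit 13) (by decide +kernel)
theorem L104301 : W_39 (nat_lit 3) (nat_lit 0x3c000200000000400020001000180000000000000000000000000000000) (nat_lit 0x0) (nat_lit 0x1c00040000400000000000000000000000000000000000000000000000000000) := T_39 (nat_lit 234) (nat_lit 214) (nat_lit 0) (nat_lit 13) (nat_lit 13) L104300 (by decide +kernel)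
theorem L104302 : W_39 (nat_lit 2) (nat_lit 0x20001e000e00000000600020001000080000000000000000000000000000000) (nat_lit 0x0) (nat_lit 0x80004000000000000000020000000000000000000000000000000000000000000000000) := D_39 (nat_lit 266) (nat_lit 197) (nat_lit 283) (nat_lit 4) (nat_lit 11) (nat_lit 15) (nat_lit 4) (nat_lit 11) (nat_lit 16) (by decide +kernel)
theorem L104303 : W_39 (nat_lit 3) (nat_lit 0x20001e000600000000600020001000080000000000000000000000000000000) (nat_lit 0x0) (nat_lit 0x80004000000000001800020000000000000000000000000000000000000000000000000) := T_39 (nat_lit 215) (nat_lit 216) (nat_lit 2) (nat_lit 8) (nat_lit 13) L104302 (by decide +kernel)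
theorem L104304 : W_39 (nat_lit 4) (nat_lit 0x1e000600000000600020001000080000000000000000000000000000000) (nat_lit 0x0) (nat_lit 0x80004000600000001800020000000000000000000000000000000000000000000000000) := T_39 (nat_lit 249) (nat_lit 250) (nat_lit 3) (nat_lit 8) (nat_lit 13) L104303 (by decide +kernel)
theorem L104305 : W_39 (nat_lit 5) (nat_lit 0x1e000600000000400020001000080000000000000000000000000000000) (nat_lit 0x0) (nat_lit 0x80004000600000001800024000200000000000000000000000000000000000000000000) := T_39 (nat_lit 177) (nat_lit 194) (nat_lit 5) (nat_lit 8) (nat_lit 7) L104304 (by decide +kernel)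
theorem L104306 : W_39 (nat_lit 2) (nat_lit 0x20001e000e000000004000200010000c0000000000000000000000000000000) (nat_lit 0x0) (nat_lit 0x80004000000000000000020000000000000000000000000000000000000000000000000) := D_39 (nat_lit 266) (nat_lit 197) (nat_lit 283) (nat_lit 4) (nat_lit 11) (nat_lit 15) (nat_lit 4) (nat_lit 11) (nat_lit 16) (by decide +kernel)
theorem L104307 : W_39 (nat_lit 3) (nat_lit 0x20001e0006000000004000200010000c0000000000000000000000000000000) (nat_lit 0x0) (nat_lit 0x80004000000000001800020000000000000000000000000000000000000000000000000) := T_39 (nat_lit 215) (nat_lit 216) (nat_lit 2) (nat_lit 8) (nat_lit 13) L104306 (by decide +kernel)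
theorem L104308 : W_39 (nat_lit 4) (nat_lit 0x1e0006000000004000200010000c0000000000000000000000000000000) (nat_lit 0x0) (nat_lit 0x80004000600000001800020000000000000000000000000000000000000000000000000) := T_39 (nat_lit 249) (nat_lit 250) (nat_lit 3) (nat_lit 8) (nat_lit 13) L104307 (by decide +kernel)
theorem L104309 : W_39 (nat_lit 5) (nat_lit 0x1e000600000000400020001000080000000000000000000000000000000) (nat_lit 0x0) (nat_lit 0x80004000600000001800020000000000000000040002000000000000000000000000000) := T_39 (nat_lit 126) (nat_lit 109) (nat_lit 4) (nat_lit 8) (nat_lit 10) L104308 (by decide +kernel)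
theorem L104310 : W_39 (nat_lit 2) (nat_lit 0x200010001e000a00000000400020001000080000000000000000000000000000000) (nat_lit 0x0) (nat_lit 0x400040002000000000000000000000000000000000000000000000) := D_39 (nat_lit 198) (nat_lit 181) (nat_lit 214) (nat_lit 5) (nat_lit 11) (nat_lit 10) (nat_lit 6) (nat_lit 10) (nat_lit 15) (by decide +kernel)
theorem L104311 : W_39 (nat_lit 3) (nat_lit 0x10001e000a00000000400020001000080000000000000000000000000000000) (nat_lit 0x0) (nat_lit 0x40002000000000000400040002000000000000000000000000000000000000000000000) := T_39 (nat_lit 265) (nat_lit 282) (nat_lit 6) (nat_lit 10) (nat_lit 16) L104310 (by decide +kernel)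
theorem L104312 : W_39 (nat_lit 4) (nat_lit 0x10001e000200000000400020001000080000000000000000000000000000000) (nat_lit 0x0) (nat_lit 0x40002000000000001c00040002000000000000000000000000000000000000000000000) := T_39 (nat_lit 215) (nat_lit 216) (nat_lit 2) (nat_lit 8) (nat_lit 13) L104311 (by decide +kernel)
theorem L104313 : W_39 (nat_lit 2) (nat_lit 0x400048003c001e0002000000006000200010001c0000000000000000000000000000000) (nat_lit 0x0) (nat_lit 0x80000000000000000400020000000000000000000000000000000000000000000000000) := D_39 (nat_lit 214) (nat_lit 283) (nat_lit 197) (nat_lit 4) (nat_lit 11) (nat_lit 16) (nat_lit 7) (nat_lit 10) (nat_lit 11) (by decide +kernel)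
theorem L104314 : W_39 (nat_lit 3) (nat_lit 0x400008003c001e0002000000006000200010001c0000000000000000000000000000000) (nat_lit 0x0) (nat_lit 0x8000c000000000000400020000000000000000000000000000000000000000000000000) := T_39 (nat_lit 266) (nat_lit 267) (nat_lit 3) (nat_lit 8) (nat_lit 14) L104313 (by decide +kernel)
theorem L104315 : W_39 (nat_lit 4) (nat_lit 0x4000080034001e0002000000006000200010001c0000000000000000000000000000000) (nat_lit 0x0) (nat_lit 0x8000c400080000000400020000000000000000000000000000000000000000000000000) := T_39 (nat_lit 247) (nat_lit 262) (nat_lit 1) (nat_lit 11) (nat_lit 14) L104314 (by decide +kernel)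
theorem L104316 : W_39 (nat_lit 5) (nat_lit 0x4000000034001e0002000000006000200010001c0000000000000000000000000000000) (nat_lit 0x0) (nat_lit 0x9000cc00080000000400020000000000000000000000000000000000000000000000000) := T_39 (nat_lit 263) (nat_lit 280) (nat_lit 6) (nat_lit 8) (nat_lit 16) L104315 (by decide +kernel)
theorem L104317 : W_39 (nat_lit 6) (nat_lit 0x4000000034001e0002000000004000200010001c0000000000000000000000000000000) (nat_lit 0x0) (nat_lit 0x9000cc00080000000400024000200000000000000000000000000000000000000000000) := T_39 (nat_lit 177) (nat_lit 194) (nat_lit 5) (nat_lit 8) (nat_lit 7) L104316 (by decide +kernel)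
theorem L104318 : W_39 (nat_lit 7) (nat_lit 0x4000000030001e0002000000004000200010001c0000000000000000000000000000000) (nat_lit 0x0) (nat_lit 0x9000cc000e0000000400024000200000000000000000000000000000000000000000000) := T_39 (nat_lit 246) (nat_lit 245) (nat_lit 1) (nat_lit 11) (nat_lit 13) L104317 (by decide +kernel)
theorem L104319 : W_39 (nat_lit 8) (nat_lit 0x4000000030001e000200000000400020001000180000000000000000000000000000000) (nat_lit 0x0) (nat_lit 0x9000cc000e0000000400024000200000000000040002000000000000000000000000000) := T_39 (nat_lit 126) (nat_lit 109) (nat_lit 4) (nat_lit 8) (nat_lit 10) L104318 (by decide +kernel)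
theorem L104320 : W_39 (nat_lit 9) (nat_lit 0x4000000030001e000200000000400020001000080000000000000000000000000000000) (nat_lit 0x0) (nat_lit 0x9000cc000e000000040002400020000000000014000a000000000000000000000000000) := T_39 (nat_lit 128) (nat_lit 111) (nat_lit 6) (nat_lit 8) (nat_lit 10) L104319 (by decide +kernel)
theorem L104321 : W_39 (nat_lit 10) (nat_lit 0x30001e000200000000400020001000080000000000000000000000000000000) (nat_lit 0x0) (nat_lit 0xd000ec000e000000040002400020000000000014000a000000000000000000000000000) := T_39 (nat_lit 282) (nat_lit 265) (nat_lit 4) (nat_lit 10) (nat_lit 16) L104320 (by decide +kernel)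
theorem L104322 : W_39 (nat_lit 11) (nat_lit 0x10001e000200000000400020001000080000000000000000000000000000000) (nat_lit 0x0) (nat_lit 0xd000ec006e000000040002400020000000000014000a000000000000000000000000000) := T_39 (nat_lit 249) (nat_lit 250) (nat_lit 3) (nat_lit 8) (nat_lit 13) L104321 (by decide +kernel)
theorem L104323 : W_39 (nat_lit 2) (nat_lit 0x1000200014001e000a00000000400020001000080000000000000000000000000000000) (nat_lit 0x0) (nat_lit 0x600000000000040000000000000000000000000000000000000000000000000) := D_39 (nat_lit 249) (nat_lit 250) (nat_lit 198) (nat_lit 3) (nat_lit 8) (nat_lit 13) (nat_lit 5) (nat_lit 11) (nat_lit 11) (by decide +kernel)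
theorem L104324 : W_39 (nat_lit 3) (nat_lit 0x1000000014001e000a00000000400020001000080000000000000000000000000000000) (nat_lit 0x0) (nat_lit 0x40002000600000000000040000000000000000000000000000000000000000000000000) := T_39 (nat_lit 265) (nat_lit 282) (nat_lit 6) (nat_lit 10) (nat_lit 16) L104323 (by decide +kernel)
theorem L104325 : W_39 (nat_lit 4) (nat_lit 0x14001e000a00000000400020001000080000000000000000000000000000000) (nat_lit 0x0) (nat_lit 0x50002800600000000000040000000000000000000000000000000000000000000000000) := T_39 (nat_lit 280) (nat_lit 263) (nat_lit 6) (nat_lit 8) (nat_lit 16) L104324 (by decide +kernel)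
theorem L104326 : W_39 (nat_lit 5) (nat_lit 0x14001e000200000000400020001000080000000000000000000000000000000) (nat_lit 0x0) (nat_lit 0x50002800600000001800040000000000000000000000000000000000000000000000000) := T_39 (nat_lit 215) (nat_lit 216) (nat_lit 2) (nat_lit 8) (nat_lit 13) L104325 (by decide +kernel)
theorem L104327 : W_39 (nat_lit 6) (nat_lit 0x10001e000200000000400020001000080000000000000000000000000000000) (nat_lit 0x0) (nat_lit 0x50002800660000001800040000000000000000000000000000000000000000000000000) := T_39 (nat_lit 246) (nat_lit 245) (nat_lit 1) (nat_lit 11) (nat_lit 13) L104326 (by decide +kernel)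
theorem L104328 : W_39 (nat_lit 2) (nat_lit 0x48003c001e000a00000002600020001000180000000000000000000000000000000) (nat_lit 0x0) (nat_lit 0x80000000000000000400020000000000000000000000000000000000000000000000000) := D_39 (nat_lit 214) (nat_lit 283) (nat_lit 197) (nat_lit 4) (nat_lit 11) (nat_lit 16) (nat_lit 7) (nat_lit 10) (nat_lit 11) (by decide +kernel)
theorem L104329 : W_39 (nat_lit 3) (nat_lit 0x8003c001e000a00000002600020001000180000000000000000000000000000000) (nat_lit 0x0) (nat_lit 0x8000c000000000000400020000000000000000000000000000000000000000000000000) := T_39 (nat_lit 266) (nat_lit 267) (nat_lit 3) (nat_lit 8) (nat_lit 14) L104328 (by decide +kernel)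
theorem L104330 : W_39 (nat_lit 4) (nat_lit 0x80034001e000a00000002600020001000180000000000000000000000000000000) (nat_lit 0x0) (nat_lit 0x8000c400080000000400020000000000000000000000000000000000000000000000000) := T_39 (nat_lit 247) (nat_lit 262) (nat_lit 1) (nat_lit 11) (nat_lit 14) L104329 (by decide +kernel)
theorem L104331 : W_39 (nat_lit 5) (nat_lit 0x80014001e000a00000002600020001000180000000000000000000000000000000) (nat_lit 0x0) (nat_lit 0x8000c400680000000400020000000000000000000000000000000000000000000000000) := T_39 (nat_lit 249) (nat_lit 250) (nat_lit 3) (nat_lit 8) (nat_lit 13) L104330 (by decide +kernel)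
theorem L104332 : W_39 (nat_lit 6) (nat_lit 0x80014001e000a00000002600020001000080000000000000000000000000000000) (nat_lit 0x0) (nat_lit 0x8000c400680000000400020000000000000000100008000000000000000000000000000) := T_39 (nat_lit 128) (nat_lit 111) (nat_lit 6) (nat_lit 8) (nat_lit 10) L104331 (by decide +kernel)
theorem L104333 : W_39 (nat_lit 7) (nat_lit 0x14001e000a00000002600020001000080000000000000000000000000000000) (nat_lit 0x0) (nat_lit 0x9000cc00680000000400020000000000000000100008000000000000000000000000000) := T_39 (nat_lit 263) (nat_lit 280) (nat_lit 6) (nat_lit 8) (nat_lit 16) L104332 (by decide +kernel)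
theorem L104334 : W_39 (nat_lit 8) (nat_lit 0x14001e000a00000000600020001000080000000000000000000000000000000) (nat_lit 0x0) (nat_lit 0x9000cc00680000000400060002000000000000100008000000000000000000000000000) := T_39 (nat_lit 181) (nat_lit 198) (nat_lit 5) (nat_lit 11) (nat_lit 10) L104333 (by decide +kernel)
theorem L104335 : W_39 (nat_lit 9) (nat_lit 0x14001e000200000000600020001000080000000000000000000000000000000) (nat_lit 0x0) (nat_lit 0x9000cc00680000001c00060002000000000000100008000000000000000000000000000) := T_39 (nat_lit 215) (nat_lit 216) (nat_lit 2) (nat_lit 8) (nat_lit 13) L104334 (by decide +kernel)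
theorem L104336 : W_39 (nat_lit 10) (nat_lit 0x10001e000200000000600020001000080000000000000000000000000000000) (nat_lit 0x0) (nat_lit 0x9000cc006e0000001c00060002000000000000100008000000000000000000000000000) := T_39 (nat_lit 246) (nat_lit 245) (nat_lit 1) (nat_lit 11) (nat_lit 13) L104335 (by decide +kernel)
theorem L104337 : W_39 (nat_lit 11) (nat_lit 0x10001e000200000000400020001000080000000000000000000000000000000) (nat_lit 0x0) (nat_lit 0x9000cc006e0000001c00064002200000000000100008000000000000000000000000000) := T_39 (nat_lit 177) (nat_lit 194) (nat_lit 5) (nat_lit 8) (nat_lit 7) L104336 (by decide +kernel)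
theorem L104338 : W_39 (nat_lit 12) (nat_lit 0x1e000200000000400020001000080000000000000000000000000000000) (nat_lit 0x0) (nat_lit 0xd000ec007e0000001c0006400220000000000014000a000000000000000000000000000) := Q_39 (nat_lit 248) (C_39 L104312 (C_39 L104322 (C_39 L104327 (C_39 L104337 N_39)))) (by decide +kernel)
theorem L104339 : W_39 (nat_lit 2) (nat_lit 0x20001f000a00000000600020001000080000000000000000000000000000000) (nat_lit 0x0) (nat_lit 0x70000000000000000000000000000000000000000000000000000000000000) := D_39 (nat_lit 245) (nat_lit 244) (nat_lit 246) (nat_lit 1) (nat_lit 10) (nat_lit 13) (nat_lit 1) (nat_lit 11) (nat_lit 13) (by decide +kernel)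
theorem L104340 : W_39 (nat_lit 3) (nat_lit 0x20001e000a00000000600020001000080000000000000000000000000000000) (nat_lit 0x0) (nat_lit 0x170001000000000000000000000000000000000000000000000000000000000) := T_39 (nat_lit 228) (nat_lit 248) (nat_lit 3) (nat_lit 7) (nat_lit 13) L104339 (by decide +kernel)
theorem L104341 : W_39 (nat_lit 4) (nat_lit 0x1e000a00000000600020001000080000000000000000000000000000000) (nat_lit 0x0) (nat_lit 0x770001000000000000000000000000000000000000000000000000000000000) := T_39 (nat_lit 249) (nat_lit 250) (nat_lit 3) (nat_lit 8) (nat_lit 13) L104340 (by decide +kernel)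
theorem L104342 : W_39 (nat_lit 2) (nat_lit 0x48007c0002000000006000200010000c0000000000000000000000000000000) (nat_lit 0x0) (nat_lit 0x7000000000000000000000000000000000000000000000000000000) := D_39 (nat_lit 217) (nat_lit 216) (nat_lit 218) (nat_lit 2) (nat_lit 9) (nat_lit 13) (nat_lit 2) (nat_lit 10) (nat_lit 13) (by decide +kernel)
theorem L104343 : W_39 (nat_lit 3) (nat_lit 0x48003c0002000000006000200010000c0000000000000000000000000000000) (nat_lit 0x0) (nat_lit 0x40007400000000000000000000000000000000000000000000000000000) := T_39 (nat_lit 234) (nat_lit 214) (nat_lit 0) (nat_lit 13) (nat_lit 13) L104342 (by decide +kernel)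
theorem L104344 : W_39 (nat_lit 4) (nat_lit 0x48003c000200000000600020001000080000000000000000000000000000000) (nat_lit 0x0) (nat_lit 0x40007400000000000000000000040002000000000000000000000000000) := T_39 (nat_lit 126) (nat_lit 109) (nat_lit 4) (nat_lit 8) (nat_lit 10) L104343 (by decide +kernel)
theorem L104345 : W_39 (nat_lit 5) (nat_lit 0x48003c000200000000400020001000080000000000000000000000000000000) (nat_lit 0x0) (nat_lit 0x40007400004000200000000000040002000000000000000000000000000) := T_39 (nat_lit 177) (nat_lit 194) (nat_lit 5) (nat_lit 8) (nat_lit 7) L104344 (by decide +kernel)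
theorem L104346 : W_39 (nat_lit 6) (nat_lit 0x8003c000200000000400020001000080000000000000000000000000000000) (nat_lit 0x0) (nat_lit 0xc00040007400004000200000000000040002000000000000000000000000000) := T_39 (nat_lit 250) (nat_lit 251) (nat_lit 3) (nat_lit 9) (nat_lit 13) L104345 (by decide +kernel)
theorem L104347 : W_39 (nat_lit 2) (nat_lit 0x8007c0002000000006000200010001c0000000000000000000000000000000) (nat_lit 0x0) (nat_lit 0x1c00000000000000000000000000000000000000000000000000000000000000) := D_39 (nat_lit 251) (nat_lit 250) (nat_lit 252) (nat_lit 3) (nat_lit 9) (nat_lit 13) (nat_lit 3) (nat_lit 10) (nat_lit 13) (by decide +kernel)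
theorem L104348 : W_39 (nat_lit 3) (nat_lit 0x8003c0002000000006000200010001c0000000000000000000000000000000) (nat_lit 0x0) (nat_lit 0x1c00040000400000000000000000000000000000000000000000000000000000) := T_39 (nat_lit 234) (nat_lit 214) (nat_lit 0) (nat_lit 13) (nat_lit 13) L104347 (by decide +kernel)
theorem L104349 : W_39 (nat_lit 2) (nat_lit 0x200010001e000a00000000400020001000080000000000000000000000000000000) (nat_lit 0x0) (nat_lit 0x600000000000040000000000000000000000000000000000000000000000000) := D_39 (nat_lit 249) (nat_lit 250) (nat_lit 198) (nat_lit 3) (nat_lit 8) (nat_lit 13) (nat_lit 5) (nat_lit 11) (nat_lit 11) (by decide +kernel)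
theorem L104350 : W_39 (nat_lit 3) (nat_lit 0x10001e000a00000000400020001000080000000000000000000000000000000) (nat_lit 0x0) (nat_lit 0x40002000600000000000040000000000000000000000000000000000000000000000000) := T_39 (nat_lit 265) (nat_lit 282) (nat_lit 6) (nat_lit 10) (nat_lit 16) L104349 (by decide +kernel)
theorem L104351 : W_39 (nat_lit 4) (nat_lit 0x10001e000200000000400020001000080000000000000000000000000000000) (nat_lit 0x0) (nat_lit 0x40002000600000001800040000000000000000000000000000000000000000000000000) := T_39 (nat_lit 215) (nat_lit 216) (nat_lit 2) (nat_lit 8) (nat_lit 13) L104350 (by decide +kernel)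
theorem L104352 : W_39 (nat_lit 2) (nat_lit 0x20001f000a00000000400020001000080000000000000000000000000000000) (nat_lit 0x0) (nat_lit 0x70000000000000000000000000000000000000000000000000000000000000) := D_39 (nat_lit 245) (nat_lit 244) (nat_lit 246) (nat_lit 1) (nat_lit 10) (nat_lit 13) (nat_lit 1) (nat_lit 11) (nat_lit 13) (by decide +kernel)
theorem L104353 : W_39 (nat_lit 3) (nat_lit 0x20001e000a00000000400020001000080000000000000000000000000000000) (nat_lit 0x0) (nat_lit 0x170001000000000000000000000000000000000000000000000000000000000) := T_39 (nat_lit 228) (nat_lit 248) (nat_lit 3) (nat_lit 7) (nat_lit 13) L104352 (by decide +kernel)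
theorem L104354 : W_39 (nat_lit 4) (nat_lit 0x1e000a00000000400020001000080000000000000000000000000000000) (nat_lit 0x0) (nat_lit 0x770001000000000000000000000000000000000000000000000000000000000) := T_39 (nat_lit 249) (nat_lit 250) (nat_lit 3) (nat_lit 8) (nat_lit 13) L104353 (by decide +kernel)
theorem L104355 : W_39 (nat_lit 5) (nat_lit 0x1e000200000000400020001000080000000000000000000000000000000) (nat_lit 0x0) (nat_lit 0x770001001800000000000000000000000000000000000000000000000000000) := T_39 (nat_lit 215) (nat_lit 216) (nat_lit 2) (nat_lit 8) (nat_lit 13) L104354 (by decide +kernel)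
theorem L104356 : W_39 (nat_lit 2) (nat_lit 0x2001f000200000000600020001000080000000000000000000000000000000) (nat_lit 0x0) (nat_lit 0x700000000000000000000000000000000000000000000000000000000000000) := D_39 (nat_lit 249) (nat_lit 250) (nat_lit 248) (nat_lit 3) (nat_lit 8) (nat_lit 13) (nat_lit 3) (nat_lit 7) (nat_lit 13) (by decide +kernel)
theorem L104357 : W_39 (nat_lit 3) (nat_lit 0x2001e000200000000600020001000080000000000000000000000000000000) (nat_lit 0x0) (nat_lit 0x710001000000000000000000000000000000000000000000000000000000000) := T_39 (nat_lit 228) (nat_lit 244) (nat_lit 1) (nat_lit 10) (nat_lit 13) L104356 (by decide +kernel)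
theorem L104358 : W_39 (nat_lit 4) (nat_lit 0x2001e000200000000400020001000080000000000000000000000000000000) (nat_lit 0x0) (nat_lit 0x710001000000004000200000000000000000000000000000000000000000000) := T_39 (nat_lit 177) (nat_lit 194) (nat_lit 5) (nat_lit 8) (nat_lit 7) L104357 (by decide +kernel)
theorem L104359 : W_39 (nat_lit 5) (nat_lit 0x1e000200000000400020001000080000000000000000000000000000000) (nat_lit 0x0) (nat_lit 0x770001000000004000200000000000000000000000000000000000000000000) := T_39 (nat_lit 245) (nat_lit 246) (nat_lit 1) (nat_lit 11) (nat_lit 13) L104358 (by decide +kernel)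
theorem L104360 : W_39 (nat_lit 2) (nat_lit 0x1c001a00000000400020001000080000000000000000000000000000000) (nat_lit 0x0) (nat_lit 0x20006000000000000000000000000000000000000000000000000000000) := D_39 (nat_lit 217) (nat_lit 233) (nat_lit 218) (nat_lit 2) (nat_lit 9) (nat_lit 13) (nat_lit 1) (nat_lit 14) (nat_lit 12) (by decide +kernel)
theorem L104361 : W_39 (nat_lit 2) (nat_lit 0x40003e0002000000004000200010001c0000000000000000000000000000000) (nat_lit 0x0) (nat_lit 0x3800000000000000000000000000000000000000000000000000000) := D_39 (nat_lit 216) (nat_lit 217) (nat_lit 215) (nat_lit 2) (nat_lit 9) (nat_lit 13) (nat_lit 2) (nat_lit 8) (nat_lit 13) (by decide +kernel)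
theorem L104362 : W_39 (nat_lit 3) (nat_lit 0x40003c0002000000004000200010001c0000000000000000000000000000000) (nat_lit 0x0) (nat_lit 0x200002003800000000000000000000000000000000000000000000000000000) := T_39 (nat_lit 229) (nat_lit 249) (nat_lit 3) (nat_lit 8) (nat_lit 13) L104361 (by decide +kernel)
theorem L104363 : W_39 (nat_lit 4) (nat_lit 0x3c0002000000004000200010001c0000000000000000000000000000000) (nat_lit 0x0) (nat_lit 0xe00002003800000000000000000000000000000000000000000000000000000) := T_39 (nat_lit 250) (nat_lit 251) (nat_lit 3) (nat_lit 9) (nat_lit 13) L104362 (by decide +kernel)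
theorem L104364 : W_39 (nat_lit 5) (nat_lit 0x3c0002000000004000200010000c0000000000000000000000000000000) (nat_lit 0x0) (nat_lit 0xe00002003800000000000000000000100008000000000000000000000000000) := T_39 (nat_lit 128) (nat_lit 111) (nat_lit 6) (nat_lit 8) (nat_lit 10) L104363 (by decide +kernel)
theorem L104365 : W_39 (nat_lit 2) (nat_lit 0x3e001200000000400020001000180000000000000000000000000000000) (nat_lit 0x0) (nat_lit 0xe00000000000000000000000000000000000000000000000000000000000000) := D_39 (nat_lit 250) (nat_lit 249) (nat_lit 251) (nat_lit 3) (nat_lit 8) (nat_lit 13) (nat_lit 3) (nat_lit 9) (nat_lit 13) (by decide +kernel)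
theorem L104366 : W_39 (nat_lit 3) (nat_lit 0x3c001200000000400020001000180000000000000000000000000000000) (nat_lit 0x0) (nat_lit 0xe00002000800000000000000000000000000000000000000000000000000000) := T_39 (nat_lit 229) (nat_lit 215) (nat_lit 2) (nat_lit 8) (nat_lit 13) L104365 (by decide +kernel)
theorem L104367 : W_39 (nat_lit 4) (nat_lit 0x3c000200000000400020001000180000000000000000000000000000000) (nat_lit 0x0) (nat_lit 0xe00002003800000000000000000000000000000000000000000000000000000) := T_39 (nat_lit 216) (nat_lit 217) (nat_lit 2) (nat_lit 9) (nat_lit 13) L104366 (by decide +kernel)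
theorem L104368 : W_39 (nat_lit 2) (nat_lit 0x40003c001a000000006000200010000c0000000000000000000000000000000) (nat_lit 0x0) (nat_lit 0x100008000000000000000040000000000000000000000000000000000000000000000000) := D_39 (nat_lit 267) (nat_lit 284) (nat_lit 198) (nat_lit 4) (nat_lit 12) (nat_lit 16) (nat_lit 4) (nat_lit 12) (nat_lit 15) (by decide +kernel)
theorem L104369 : W_39 (nat_lit 3) (nat_lit 0x3c001a000000006000200010000c0000000000000000000000000000000) (nat_lit 0x0) (nat_lit 0x100008000c00000000000040000000000000000000000000000000000000000000000000) := T_39 (nat_lit 250) (nat_lit 251) (nat_lit 3) (nat_lit 9) (nat_lit 13) L104368 (by decide +kernel)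
theorem L104370 : W_39 (nat_lit 4) (nat_lit 0x3c0012000000006000200010000c0000000000000000000000000000000) (nat_lit 0x0) (nat_lit 0x100008000c00002000800040000000000000000000000000000000000000000000000000) := T_39 (nat_lit 215) (nat_lit 229) (nat_lit 2) (nat_lit 8) (nat_lit 13) L104369 (by decide +kernel)
theorem L104371 : W_39 (nat_lit 5) (nat_lit 0x3c0002000000006000200010000c0000000000000000000000000000000) (nat_lit 0x0) (nat_lit 0x100008000c00002003800040000000000000000000000000000000000000000000000000) := T_39 (nat_lit 216) (nat_lit 217) (nat_lit 2) (nat_lit 9) (nat_lit 13) L104370 (by decide +kernel)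
theorem L104372 : W_39 (nat_lit 6) (nat_lit 0x3c000200000000600020001000080000000000000000000000000000000) (nat_lit 0x0) (nat_lit 0x100008000c00002003800040000000000000000040002000000000000000000000000000) := T_39 (nat_lit 126) (nat_lit 109) (nat_lit 4) (nat_lit 8) (nat_lit 10) L104371 (by decide +kernel)
theorem L104373 : W_39 (nat_lit 2) (nat_lit 0x80007c0002000000006000200010000c0000000000000000000000000000000) (nat_lit 0x0) (nat_lit 0x7000000000000000000000000000000000000000000000000000000) := D_39 (nat_lit 217) (nat_lit 216) (nat_lit 218) (nat_lit 2) (nat_lit 9) (nat_lit 13) (nat_lit 2) (nat_lit 10) (nat_lit 13) (by decide +kernel)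
theorem L104374 : W_39 (nat_lit 3) (nat_lit 0x80003c0002000000006000200010000c0000000000000000000000000000000) (nat_lit 0x0) (nat_lit 0x1000040007000000000000000000000000000000000000000000000000000000) := T_39 (nat_lit 234) (nat_lit 252) (nat_lit 3) (nat_lit 10) (nat_lit 13) L104373 (by decide +kernel)
theorem L104375 : W_39 (nat_lit 4) (nat_lit 0x80003c000200000000600020001000080000000000000000000000000000000) (nat_lit 0x0) (nat_lit 0x1000040007000000000000000000000040002000000000000000000000000000) := T_39 (nat_lit 126) (nat_lit 109) (nat_lit 4) (nat_lit 8) (nat_lit 10) L104374 (by decide +kernel)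
theorem L104376 : W_39 (nat_lit 5) (nat_lit 0x3c000200000000600020001000080000000000000000000000000000000) (nat_lit 0x0) (nat_lit 0x1c00040007000000000000000000000040002000000000000000000000000000) := T_39 (nat_lit 251) (nat_lit 250) (nat_lit 3) (nat_lit 9) (nat_lit 13) L104375 (by decide +kernel)
theorem L104377 : W_39 (nat_lit 2) (nat_lit 0x8007c0002000000004000200010001c0000000000000000000000000000000) (nat_lit 0x0) (nat_lit 0x7000000000000000000000000000000000000000000000000000000) := D_39 (nat_lit 217) (nat_lit 216) (nat_lit 218) (nat_lit 2) (nat_lit 9) (nat_lit 13) (nat_lit 2) (nat_lit 10) (nat_lit 13) (by decide +kernel)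
theorem L104378 : W_39 (nat_lit 3) (nat_lit 0x8003c0002000000004000200010001c0000000000000000000000000000000) (nat_lit 0x0) (nat_lit 0x100040007000000000000000000000000000000000000000000000000000000) := T_39 (nat_lit 234) (nat_lit 248) (nat_lit 1) (nat_lit 13) (nat_lit 13) L104377 (by decide +kernel)
theorem L104379 : W_39 (nat_lit 4) (nat_lit 0x8003c000200000000400020001000180000000000000000000000000000000) (nat_lit 0x0) (nat_lit 0x100040007000000000000000000000040002000000000000000000000000000) := T_39 (nat_lit 126) (nat_lit 109) (nat_lit 4) (nat_lit 8) (nat_lit 10) L104378 (by decide +kernel)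
theorem L104380 : W_39 (nat_lit 5) (nat_lit 0x3c000200000000400020001000180000000000000000000000000000000) (nat_lit 0x0) (nat_lit 0x1c0040007000000000000000000000040002000000000000000000000000000) := T_39 (nat_lit 247) (nat_lit 246) (nat_lit 1) (nat_lit 12) (nat_lit 13) L104379 (by decide +kernel)
theorem L104381 : W_39 (nat_lit 2) (nat_lit 0x40003e0002000000006000200010000c0000000000000000000000000000000) (nat_lit 0x0) (nat_lit 0xe0000000000000000000000000000000000000000000000000000000000000) := D_39 (nat_lit 246) (nat_lit 245) (nat_lit 247) (nat_lit 1) (nat_lit 11) (nat_lit 13) (nat_lit 1) (nat_lit 12) (nat_lit 13) (by decide +kernel)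
theorem L104382 : W_39 (nat_lit 3) (nat_lit 0x40003c0002000000006000200010000c0000000000000000000000000000000) (nat_lit 0x0) (nat_lit 0x2e0002000000000000000000000000000000000000000000000000000000000) := T_39 (nat_lit 229) (nat_lit 249) (nat_lit 3) (nat_lit 8) (nat_lit 13) L104381 (by decide +kernel)
theorem L104383 : W_39 (nat_lit 4) (nat_lit 0x3c0002000000006000200010000c0000000000000000000000000000000) (nat_lit 0x0) (nat_lit 0xee0002000000000000000000000000000000000000000000000000000000000) := T_39 (nat_lit 250) (nat_lit 251) (nat_lit 3) (nat_lit 9) (nat_lit 13) L104382 (by decide +kernel)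
theorem L104384 : W_39 (nat_lit 5) (nat_lit 0x3c0002000000004000200010000c0000000000000000000000000000000) (nat_lit 0x0) (nat_lit 0xee0002000000004000200000000000000000000000000000000000000000000) := T_39 (nat_lit 177) (nat_lit 194) (nat_lit 5) (nat_lit 8) (nat_lit 7) L104383 (by decide +kernel)
theorem L104385 : W_39 (nat_lit 6) (nat_lit 0x1c0002000000004000200010000c0000000000000000000000000000000) (nat_lit 0x0) (nat_lit 0xfe0062007800004000200000000000100008000000000000000000000000000) := Q_39 (nat_lit 233) (C_39 L104297 (C_39 L104364 (C_39 L104384 N_39))) (by decide +kernel)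
theorem L104386 : W_39 (nat_lit 4) (nat_lit 0x3c000200000000600020001000080000000000000000000000000000000) (nat_lit 0x0) (nat_lit 0x1dc0040000000000000000000000000000000000000000000000000000000000) := T_39 (nat_lit 247) (nat_lit 246) (nat_lit 1) (nat_lit 12) (nat_lit 13) L104169 (by decide +kernel)
theorem L104387 : W_39 (nat_lit 2) (nat_lit 0x200016000a00000000400020001000080000000000000000000000000000000) (nat_lit 0x0) (nat_lit 0x400008001000000000000000000000000000000000000000000000000000000) := D_39 (nat_lit 231) (nat_lit 250) (nat_lit 216) (nat_lit 3) (nat_lit 8) (nat_lit 13) (nat_lit 2) (nat_lit 8) (nat_lit 13) (by decide +kernel)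
theorem L104388 : W_39 (nat_lit 2) (nat_lit 0x30001e000a000000006000200010000c0000000000000000000000000000000) (nat_lit 0x0) (nat_lit 0x40002000000000000000040000000000000000000000000000000000000000000000000) := D_39 (nat_lit 265) (nat_lit 282) (nat_lit 198) (nat_lit 6) (nat_lit 10) (nat_lit 16) (nat_lit 5) (nat_lit 11) (nat_lit 11) (by decide +kernel)
theorem L104389 : W_39 (nat_lit 3) (nat_lit 0x30001e0002000000006000200010000c0000000000000000000000000000000) (nat_lit 0x0) (nat_lit 0x40002000000000001800040000000000000000000000000000000000000000000000000) := T_39 (nat_lit 215) (nat_lit 216) (nat_lit 2) (nat_lit 8) (nat_lit 13) L104388 (by decide +kernel)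
theorem L104390 : W_39 (nat_lit 2) (nat_lit 0x30001e000a00000000600020001000180000000000000000000000000000000) (nat_lit 0x0) (nat_lit 0x2000000000000000040002000000000000000000000000000000000000000000000) := D_39 (nat_lit 198) (nat_lit 265) (nat_lit 181) (nat_lit 5) (nat_lit 11) (nat_lit 11) (nat_lit 5) (nat_lit 11) (nat_lit 10) (by decide +kernel)
theorem L104391 : W_39 (nat_lit 3) (nat_lit 0x20001e000a00000000600020001000180000000000000000000000000000000) (nat_lit 0x0) (nat_lit 0x2000100001000000040002000000000000000000000000000000000000000000000) := T_39 (nat_lit 248) (nat_lit 228) (nat_lit 3) (nat_lit 7) (nat_lit 13) L104390 (by decide +kernel)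
theorem L104392 : W_39 (nat_lit 4) (nat_lit 0x1e000a00000000600020001000180000000000000000000000000000000) (nat_lit 0x0) (nat_lit 0x2000700001000000040002000000000000000000000000000000000000000000000) := T_39 (nat_lit 249) (nat_lit 250) (nat_lit 3) (nat_lit 8) (nat_lit 13) L104391 (by decide +kernel)
theorem L104393 : W_39 (nat_lit 2) (nat_lit 0x30001c000200000000400020001000080000000000000000000000000000000) (nat_lit 0x0) (nat_lit 0xc00002000000000000000000000000000000000000000000000000000000000) := D_39 (nat_lit 250) (nat_lit 251) (nat_lit 229) (nat_lit 0) (nat_lit 13) (nat_lit 14) (nat_lit 3) (nat_lit 8) (nat_lit 13) (by decide +kernel)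
theorem L104394 : W_39 (nat_lit 2) (nat_lit 0x40003c001a00000000600020001000080000000000000000000000000000000) (nat_lit 0x0) (nat_lit 0x100008000000000000000040000000000000000000000000000000000000000000000000) := D_39 (nat_lit 267) (nat_lit 284) (nat_lit 198) (nat_lit 4) (nat_lit 12) (nat_lit 16) (nat_lit 4) (nat_lit 12) (nat_lit 15) (by decide +kernel)
theorem L104395 : W_39 (nat_lit 3) (nat_lit 0x3c001a00000000600020001000080000000000000000000000000000000) (nat_lit 0x0) (nat_lit 0x100008000c00000000000040000000000000000000000000000000000000000000000000) := T_39 (nat_lit 250) (nat_lit 251) (nat_lit 3) (nat_lit 9) (nat_lit 13) L104394 (by decide +kernel)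
theorem L104396 : W_39 (nat_lit 4) (nat_lit 0x34001a00000000600020001000080000000000000000000000000000000) (nat_lit 0x0) (nat_lit 0x100008000c00008002000040000000000000000000000000000000000000000000000000) := T_39 (nat_lit 231) (nat_lit 217) (nat_lit 2) (nat_lit 9) (nat_lit 13) L104395 (by decide +kernel)
theorem L104397 : W_39 (nat_lit 5) (nat_lit 0x34001a00000000400020001000080000000000000000000000000000000) (nat_lit 0x0) (nat_lit 0x100008000c00008002000044000200000000000000000000000000000000000000000000) := T_39 (nat_lit 177) (nat_lit 194) (nat_lit 5) (nat_lit 8) (nat_lit 7) L104396 (by decide +kernel)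
theorem L104398 : W_39 (nat_lit 2) (nat_lit 0x40003c001a000000004000200010001c0000000000000000000000000000000) (nat_lit 0x0) (nat_lit 0x100008000000000000000040000000000000000000000000000000000000000000000000) := D_39 (nat_lit 267) (nat_lit 284) (nat_lit 198) (nat_lit 4) (nat_lit 12) (nat_lit 16) (nat_lit 4) (nat_lit 12) (nat_lit 15) (by decide +kernel)
theorem L104399 : W_39 (nat_lit 3) (nat_lit 0x3c001a000000004000200010001c0000000000000000000000000000000) (nat_lit 0x0) (nat_lit 0x100008000c00000000000040000000000000000000000000000000000000000000000000) := T_39 (nat_lit 250) (nat_lit 251) (nat_lit 3) (nat_lit 9) (nat_lit 13) L104398 (by decide +kernel)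
theorem L104400 : W_39 (nat_lit 4) (nat_lit 0x34001a000000004000200010001c0000000000000000000000000000000) (nat_lit 0x0) (nat_lit 0x100008000c00008002000040000000000000000000000000000000000000000000000000) := T_39 (nat_lit 231) (nat_lit 217) (nat_lit 2) (nat_lit 9) (nat_lit 13) L104399 (by decide +kernel)
theorem L104401 : W_39 (nat_lit 5) (nat_lit 0x34001a00000000400020001000180000000000000000000000000000000) (nat_lit 0x0) (nat_lit 0x100008000c00008002000040000000000000000040002000000000000000000000000000) := T_39 (nat_lit 126) (nat_lit 109) (nat_lit 4) (nat_lit 8) (nat_lit 10) L104400 (by decide +kernel)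
theorem L104402 : W_39 (nat_lit 6) (nat_lit 0x34001a00000000400020001000080000000000000000000000000000000) (nat_lit 0x0) (nat_lit 0x100008000c0000800200004000000000000000014000a000000000000000000000000000) := T_39 (nat_lit 128) (nat_lit 111) (nat_lit 6) (nat_lit 8) (nat_lit 10) L104401 (by decide +kernel)
theorem L104403 : W_39 (nat_lit 2) (nat_lit 0x8000e000200014001a00000000600020001000080000000000000000000000000000000) (nat_lit 0x0) (nat_lit 0x500000000000040000000000000000000000000000000000000000000000000) := D_39 (nat_lit 198) (nat_lit 250) (nat_lit 248) (nat_lit 7) (nat_lit 11) (nat_lit 11) (nat_lit 5) (nat_lit 11) (nat_lit 11) (by decide +kernel)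
theorem L104404 : W_39 (nat_lit 3) (nat_lit 0x8000c000200014001a00000000600020001000080000000000000000000000000000000) (nat_lit 0x0) (nat_lit 0x40002000500000000000040000000000000000000000000000000000000000000000000) := T_39 (nat_lit 265) (nat_lit 282) (nat_lit 5) (nat_lit 11) (nat_lit 12) L104403 (by decide +kernel)
theorem L104405 : W_39 (nat_lit 2) (nat_lit 0x1c001a00000000600020001000180000000000000000000000000000000) (nat_lit 0x0) (nat_lit 0x20006000000000000000000000000000000000000000000000000000000) := D_39 (nat_lit 217) (nat_lit 218) (nat_lit 233) (nat_lit 1) (nat_lit 14) (nat_lit 12) (nat_lit 2) (nat_lit 9) (nat_lit 13) (by decide +kernel)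
theorem L104406 : W_39 (nat_lit 2) (nat_lit 0x400034007e001000006000200010000c0000000000000000000000000000000) (nat_lit 0x0) (nat_lit 0x60002000000000000000000000000000000000000000000000) := D_39 (nat_lit 198) (nat_lit 197) (nat_lit 181) (nat_lit 0) (nat_lit 14) (nat_lit 12) (nat_lit 7) (nat_lit 11) (nat_lit 10) (by decide +kernel)
theorem L104407 : W_39 (nat_lit 3) (nat_lit 0x34007e001000006000200010000c0000000000000000000000000000000) (nat_lit 0x0) (nat_lit 0x8000400000000000060002000000000000000000000000000000000000000000000) := T_39 (nat_lit 250) (nat_lit 267) (nat_lit 6) (nat_lit 12) (nat_lit 15) L104406 (by decide +kernel)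
theorem L104408 : W_39 (nat_lit 4) (nat_lit 0x34003e001000006000200010000c0000000000000000000000000000000) (nat_lit 0x0) (nat_lit 0x800040000000c000060002000000000000000000000000000000000000000000000) := T_39 (nat_lit 218) (nat_lit 219) (nat_lit 1) (nat_lit 15) (nat_lit 12) L104407 (by decide +kernel)
theorem L104409 : W_39 (nat_lit 5) (nat_lit 0x34001e001000006000200010000c0000000000000000000000000000000) (nat_lit 0x0) (nat_lit 0x800040000000e000260002000000000000000000000000000000000000000000000) := T_39 (nat_lit 217) (nat_lit 201) (nat_lit 2) (nat_lit 10) (nat_lit 12) L104408 (by decide +kernel)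
theorem L104410 : W_39 (nat_lit 6) (nat_lit 0x34001e001000004000200010000c0000000000000000000000000000000) (nat_lit 0x0) (nat_lit 0x800040000000e000264002200000000000000000000000000000000000000000000) := T_39 (nat_lit 177) (nat_lit 194) (nat_lit 5) (nat_lit 8) (nat_lit 7) L104409 (by decide +kernel)
theorem L104411 : W_39 (nat_lit 7) (nat_lit 0x34001e000000004000200010000c0000000000000000000000000000000) (nat_lit 0x0) (nat_lit 0x800040000000e0003e4002200000000000000000000000000000000000000000000) := T_39 (nat_lit 200) (nat_lit 199) (nat_lit 2) (nat_lit 9) (nat_lit 12) L104410 (by decide +kernel)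
theorem L104412 : W_39 (nat_lit 8) (nat_lit 0x34001a000000004000200010000c0000000000000000000000000000000) (nat_lit 0x0) (nat_lit 0x800040004000e4003e4002200000000000000000000000000000000000000000000) := T_39 (nat_lit 214) (nat_lit 234) (nat_lit 3) (nat_lit 9) (nat_lit 12) L104411 (by decide +kernel)
theorem L104413 : W_39 (nat_lit 9) (nat_lit 0x34001a00000000400020001000080000000000000000000000000000000) (nat_lit 0x0) (nat_lit 0x800040004000e4003e4002200000000000040002000000000000000000000000000) := T_39 (nat_lit 126) (nat_lit 109) (nat_lit 4) (nat_lit 8) (nat_lit 10) L104412 (by decide +kernel)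
theorem L104414 : W_39 (nat_lit 5) (nat_lit 0x1c000200000000400020001000180000000000000000000000000000000) (nat_lit 0x0) (nat_lit 0x1fc0062003c00000000000000000000000000000000000000000000000000000) := Q_39 (nat_lit 233) (C_39 L104367 (C_39 L104301 (C_39 L104299 N_39))) (by decide +kernel)
theorem L104415 : W_39 (nat_lit 2) (nat_lit 0x1f000a00000000400020001000180000000000000000000000000000000) (nat_lit 0x0) (nat_lit 0x70000000000000000000000000000000000000000000000000000000000000) := D_39 (nat_lit 245) (nat_lit 244) (nat_lit 246) (nat_lit 1) (nat_lit 10) (nat_lit 13) (nat_lit 1) (nat_lit 11) (nat_lit 13) (by decide +kernel)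
theorem L104416 : W_39 (nat_lit 3) (nat_lit 0x1e000a00000000400020001000180000000000000000000000000000000) (nat_lit 0x0) (nat_lit 0x70001000400000000000000000000000000000000000000000000000000000) := T_39 (nat_lit 228) (nat_lit 214) (nat_lit 2) (nat_lit 7) (nat_lit 13) L104415 (by decide +kernel)
theorem L104417 : W_39 (nat_lit 2) (nat_lit 0x1c001a000000004000200010001c0000000000000000000000000000000) (nat_lit 0x0) (nat_lit 0x20006000000000000000000000000000000000000000000000000000000) := D_39 (nat_lit 217) (nat_lit 218) (nat_lit 233) (nat_lit 1) (nat_lit 14) (nat_lit 12) (nat_lit 2) (nat_lit 9) (nat_lit 13) (by decide +kernel)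
theorem L104418 : W_39 (nat_lit 5) (nat_lit 0x80004000200010000400020001000180000000000000000000000000000000) (nat_lit 0x0) (nat_lit 0x50003800140000000000000000000000000000040002000000000000000000000000000) := T_39 (nat_lit 126) (nat_lit 109) (nat_lit 4) (nat_lit 8) (nat_lit 10) L104161 (by decide +kernel)
theorem L104419 : W_39 (nat_lit 2) (nat_lit 0x8003c0002000000004000200010000c0000000000000000000000000000000) (nat_lit 0x0) (nat_lit 0x100040000400000000000000000000000000000000000000000000000000000) := D_39 (nat_lit 234) (nat_lit 248) (nat_lit 214) (nat_lit 1) (nat_lit 13) (nat_lit 13) (nat_lit 0) (nat_lit 13) (nat_lit 13) (by decide +kernel)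
theorem L104420 : W_39 (nat_lit 2) (nat_lit 0x40003e0006000000006000200010000c0000000000000000000000000000000) (nat_lit 0x0) (nat_lit 0x1800800000000000000000000000000000000000000000000000000000) := D_39 (nat_lit 228) (nat_lit 227) (nat_lit 215) (nat_lit 2) (nat_lit 6) (nat_lit 13) (nat_lit 2) (nat_lit 7) (nat_lit 13) (by decide +kernel)
theorem L104421 : W_39 (nat_lit 3) (nat_lit 0x40003e0002000000006000200010000c0000000000000000000000000000000) (nat_lit 0x0) (nat_lit 0x41800c00000000000000000000000000000000000000000000000000000) := T_39 (nat_lit 214) (nat_lit 234) (nat_lit 0) (nat_lit 13) (nat_lit 13) L104420 (by decide +kernel)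
theorem L104422 : W_39 (nat_lit 4) (nat_lit 0x40003c0002000000006000200010000c0000000000000000000000000000000) (nat_lit 0x0) (nat_lit 0x200043800c00000000000000000000000000000000000000000000000000000) := T_39 (nat_lit 229) (nat_lit 249) (nat_lit 3) (nat_lit 8) (nat_lit 13) L104421 (by decide +kernel)
theorem L104423 : W_39 (nat_lit 5) (nat_lit 0x3c0002000000006000200010000c0000000000000000000000000000000) (nat_lit 0x0) (nat_lit 0xe00043800c00000000000000000000000000000000000000000000000000000) := T_39 (nat_lit 250) (nat_lit 251) (nat_lit 3) (nat_lit 9) (nat_lit 13) L104422 (by decide +kernel)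
theorem L104424 : W_39 (nat_lit 5) (nat_lit 0x80024001e000a000000006000200010001c0000000000000000000000000000000) (nat_lit 0x0) (nat_lit 0x8000c400180000000400030000000000000000000000000000000000000000000000000) := T_39 (nat_lit 247) (nat_lit 196) (nat_lit 5) (nat_lit 9) (nat_lit 11) L104165 (by decide +kernel)
theorem L104425 : W_39 (nat_lit 2) (nat_lit 0x7c000200000000600020001000080000000000000000000000000000000) (nat_lit 0x0) (nat_lit 0x7000000000000000000000000000000000000000000000000000000) := D_39 (nat_lit 217) (nat_lit 216) (nat_lit 218) (nat_lit 2) (nat_lit 9) (nat_lit 13) (nat_lit 2) (nat_lit 10) (nat_lit 13) (by decide +kernel)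
theorem L104426 : W_39 (nat_lit 3) (nat_lit 0x3c000200000000600020001000080000000000000000000000000000000) (nat_lit 0x0) (nat_lit 0x40007400000000000000000000000000000000000000000000000000000) := T_39 (nat_lit 234) (nat_lit 214) (nat_lit 0) (nat_lit 13) (nat_lit 13) L104425 (by decide +kernel)
theorem L104427 : W_39 (nat_lit 6) (nat_lit 0x3c000200000000600020001000080000000000000000000000000000000) (nat_lit 0x0) (nat_lit 0xe00043800c00000000000000000000040002000000000000000000000000000) := T_39 (nat_lit 126) (nat_lit 109) (nat_lit 4) (nat_lit 8) (nat_lit 10) L104423 (by decide +kernel)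
theorem L104428 : W_39 (nat_lit 7) (nat_lit 0x1c000200000000600020001000080000000000000000000000000000000) (nat_lit 0x0) (nat_lit 0x100008001e00063807c00040000000000000000040002000000000000000000000000000) := Q_39 (nat_lit 233) (C_39 L104426 (C_39 L104376 (C_39 L104427 (C_39 L104372 N_39)))) (by decide +kernel)
theorem L104429 : W_39 (nat_lit 2) (nat_lit 0x60003c0012000000006000200010000c0000000000000000000000000000000) (nat_lit 0x0) (nat_lit 0x4000000000000000080004000000000000000000000000000000000000000000000) := D_39 (nat_lit 199) (nat_lit 266) (nat_lit 182) (nat_lit 5) (nat_lit 12) (nat_lit 11) (nat_lit 5) (nat_lit 12) (nat_lit 10) (by decide +kernel)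
theorem L104430 : W_39 (nat_lit 3) (nat_lit 0x40003c0012000000006000200010000c0000000000000000000000000000000) (nat_lit 0x0) (nat_lit 0x4000200002000000080004000000000000000000000000000000000000000000000) := T_39 (nat_lit 249) (nat_lit 229) (nat_lit 3) (nat_lit 8) (nat_lit 13) L104429 (by decide +kernel)
theorem L104431 : W_39 (nat_lit 4) (nat_lit 0x3c0012000000006000200010000c0000000000000000000000000000000) (nat_lit 0x0) (nat_lit 0x4000e00002000000080004000000000000000000000000000000000000000000000) := T_39 (nat_lit 250) (nat_lit 251) (nat_lit 3) (nat_lit 9) (nat_lit 13) L104430 (by decide +kernel)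
theorem L104432 : W_39 (nat_lit 5) (nat_lit 0x3c001200000000600020001000080000000000000000000000000000000) (nat_lit 0x0) (nat_lit 0x4000e00002000000080004000000000000040002000000000000000000000000000) := T_39 (nat_lit 126) (nat_lit 109) (nat_lit 4) (nat_lit 8) (nat_lit 10) L104431 (by decide +kernel)
theorem L104433 : W_39 (nat_lit 6) (nat_lit 0x3c000200000000600020001000080000000000000000000000000000000) (nat_lit 0x0) (nat_lit 0x4000e00002003000080004000000000000040002000000000000000000000000000) := T_39 (nat_lit 216) (nat_lit 217) (nat_lit 2) (nat_lit 9) (nat_lit 13) L104432 (by decide +kernel)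
theorem L104434 : W_39 (nat_lit 2) (nat_lit 0x60007c0002000000006000200010000c0000000000000000000000000000000) (nat_lit 0x0) (nat_lit 0x100180000000000000000000000000000000000000000000000000000000000) := D_39 (nat_lit 235) (nat_lit 236) (nat_lit 248) (nat_lit 1) (nat_lit 15) (nat_lit 13) (nat_lit 1) (nat_lit 14) (nat_lit 13) (by decide +kernel)
theorem L104435 : W_39 (nat_lit 3) (nat_lit 0x60003c0002000000006000200010000c0000000000000000000000000000000) (nat_lit 0x0) (nat_lit 0x1001c0000400000000000000000000000000000000000000000000000000000) := T_39 (nat_lit 234) (nat_lit 214) (nat_lit 0) (nat_lit 13) (nat_lit 13) L104434 (by decide +kernel)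
theorem L104436 : W_39 (nat_lit 4) (nat_lit 0x40003c0002000000006000200010000c0000000000000000000000000000000) (nat_lit 0x0) (nat_lit 0x3001c2000400000000000000000000000000000000000000000000000000000) := T_39 (nat_lit 249) (nat_lit 229) (nat_lit 3) (nat_lit 8) (nat_lit 13) L104435 (by decide +kernel)
theorem L104437 : W_39 (nat_lit 5) (nat_lit 0x3c0002000000006000200010000c0000000000000000000000000000000) (nat_lit 0x0) (nat_lit 0xf001c2000400000000000000000000000000000000000000000000000000000) := T_39 (nat_lit 250) (nat_lit 251) (nat_lit 3) (nat_lit 9) (nat_lit 13) L104436 (by decide +kernel)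
theorem L104438 : W_39 (nat_lit 6) (nat_lit 0x3c000200000000600020001000080000000000000000000000000000000) (nat_lit 0x0) (nat_lit 0xf001c2000400000000000000000000040002000000000000000000000000000) := T_39 (nat_lit 126) (nat_lit 109) (nat_lit 4) (nat_lit 8) (nat_lit 10) L104437 (by decide +kernel)
theorem L104439 : W_39 (nat_lit 7) (nat_lit 0x1c000200000000600020001000080000000000000000000000000000000) (nat_lit 0x0) (nat_lit 0x4000f001e2007400080004000000000000040002000000000000000000000000000) := Q_39 (nat_lit 233) (C_39 L104433 (C_39 L104426 (C_39 L104438 N_39))) (by decide +kernel)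
theorem L104440 : W_39 (nat_lit 6) (nat_lit 0x80004000200010000400020001000080000000000000000000000000000000) (nat_lit 0x0) (nat_lit 0x5000380014000000000000000000000000000014000a000000000000000000000000000) := T_39 (nat_lit 128) (nat_lit 111) (nat_lit 6) (nat_lit 8) (nat_lit 10) L104418 (by decide +kernel)
theorem L104441 : W_39 (nat_lit 2) (nat_lit 0x3000080004000200010000600020001000080000000000000000000000000000000) (nat_lit 0x0) (nat_lit 0x400020001000000000000000000000000000000000000000000000) := D_39 (nat_lit 197) (nat_lit 180) (nat_lit 214) (nat_lit 6) (nat_lit 9) (nat_lit 14) (nat_lit 6) (nat_lit 9) (nat_lit 15) (by decide +kernel)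
theorem L104442 : W_39 (nat_lit 3) (nat_lit 0x2000080004000200010000600020001000080000000000000000000000000000000) (nat_lit 0x0) (nat_lit 0x40001000000000000400020001000000000000000000000000000000000000000000000) := T_39 (nat_lit 264) (nat_lit 282) (nat_lit 7) (nat_lit 9) (nat_lit 12) L104441 (by decide +kernel)
theorem L104443 : W_39 (nat_lit 4) (nat_lit 0x2000080004000200010000400020001000080000000000000000000000000000000) (nat_lit 0x0) (nat_lit 0x40001000000000000400024001200000000000000000000000000000000000000000000) := T_39 (nat_lit 177) (nat_lit 194) (nat_lit 5) (nat_lit 8) (nat_lit 7) L104442 (by decide +kernel)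
theorem L104444 : W_39 (nat_lit 5) (nat_lit 0x80004000200010000400020001000080000000000000000000000000000000) (nat_lit 0x0) (nat_lit 0x40003000100000000400024001200000000000000000000000000000000000000000000) := T_39 (nat_lit 265) (nat_lit 248) (nat_lit 7) (nat_lit 9) (nat_lit 11) L104443 (by decide +kernel)
theorem L104445 : W_39 (nat_lit 2) (nat_lit 0xc00078002c0002000300006000200010001c0000000000000000000000000000000) (nat_lit 0x0) (nat_lit 0x80000000000000001000080000000000000000000000000000000000000000000000000) := D_39 (nat_lit 216) (nat_lit 199) (nat_lit 283) (nat_lit 5) (nat_lit 12) (nat_lit 11) (nat_lit 5) (nat_lit 12) (nat_lit 12) (by decide +kernel)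
theorem L104446 : W_39 (nat_lit 3) (nat_lit 0x800078002c0002000300006000200010001c0000000000000000000000000000000) (nat_lit 0x0) (nat_lit 0x80004000000000001400080000000000000000000000000000000000000000000000000) := T_39 (nat_lit 266) (nat_lit 214) (nat_lit 7) (nat_lit 10) (nat_lit 11) L104445 (by decide +kernel)
theorem L104447 : W_39 (nat_lit 4) (nat_lit 0x800078002c0002000100006000200010001c0000000000000000000000000000000) (nat_lit 0x0) (nat_lit 0x800040000000000014000a0001000000000000000000000000000000000000000000000) := T_39 (nat_lit 197) (nat_lit 180) (nat_lit 6) (nat_lit 9) (nat_lit 14) L104446 (by decide +kernel)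
theorem L104448 : W_39 (nat_lit 2) (nat_lit 0x7c0004000200010000400020001000080000000000000000000000000000000) (nat_lit 0x0) (nat_lit 0x70000000000000000000000000000000000000000000000000000000000) := D_39 (nat_lit 233) (nat_lit 232) (nat_lit 234) (nat_lit 2) (nat_lit 8) (nat_lit 14) (nat_lit 2) (nat_lit 9) (nat_lit 14) (by decide +kernel)
theorem L104449 : W_39 (nat_lit 3) (nat_lit 0x780004000200010000400020001000080000000000000000000000000000000) (nat_lit 0x0) (nat_lit 0x800040070000000000000000000000000000000000000000000000000000000000) := T_39 (nat_lit 246) (nat_lit 263) (nat_lit 5) (nat_lit 9) (nat_lit 11) L104448 (by decide +kernel)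
theorem L104450 : W_39 (nat_lit 4) (nat_lit 0x380004000200010000400020001000080000000000000000000000000000000) (nat_lit 0x0) (nat_lit 0x800440072000000000000000000000000000000000000000000000000000000000) := T_39 (nat_lit 250) (nat_lit 229) (nat_lit 0) (nat_lit 12) (nat_lit 14) L104449 (by decide +kernel)
theorem L104451 : W_39 (nat_lit 2) (nat_lit 0x2003e00148002000300006000200010001c0000000000000000000000000000000) (nat_lit 0x0) (nat_lit 0x100010000400000000000000000000000000000000000000000000000000000000) := D_39 (nat_lit 244) (nat_lit 226) (nat_lit 260) (nat_lit 0) (nat_lit 9) (nat_lit 14) (nat_lit 1) (nat_lit 9) (nat_lit 14) (by decide +kernel)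
theorem L104452 : W_39 (nat_lit 3) (nat_lit 0x3e00148002000300006000200010001c0000000000000000000000000000000) (nat_lit 0x0) (nat_lit 0x700010000400000000000000000000000000000000000000000000000000000000) := T_39 (nat_lit 261) (nat_lit 262) (nat_lit 1) (nat_lit 10) (nat_lit 14) L104451 (by decide +kernel)
theorem L104453 : W_39 (nat_lit 4) (nat_lit 0x3e00140002000300006000200010001c0000000000000000000000000000000) (nat_lit 0x0) (nat_lit 0x700010001c00000000000000000000000000000000000000000000000000000000) := T_39 (nat_lit 227) (nat_lit 228) (nat_lit 0) (nat_lit 10) (nat_lit 14) L104452 (by decide +kernel)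
theorem L104454 : W_39 (nat_lit 5) (nat_lit 0x3c00140002000300006000200010001c0000000000000000000000000000000) (nat_lit 0x0) (nat_lit 0x700030009c00000000000000000000000000000000000000000000000000000000) := T_39 (nat_lit 245) (nat_lit 231) (nat_lit 2) (nat_lit 7) (nat_lit 14) L104453 (by decide +kernel)
theorem L104455 : W_39 (nat_lit 6) (nat_lit 0x3c00040002000300006000200010001c0000000000000000000000000000000) (nat_lit 0x0) (nat_lit 0x700030039c00000000000000000000000000000000000000000000000000000000) := T_39 (nat_lit 232) (nat_lit 233) (nat_lit 2) (nat_lit 8) (nat_lit 14) L104454 (by decide +kernel)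
theorem L104456 : W_39 (nat_lit 7) (nat_lit 0x3800040002000300006000200010001c0000000000000000000000000000000) (nat_lit 0x0) (nat_lit 0xf00070039c00000000000000000000000000000000000000000000000000000000) := T_39 (nat_lit 246) (nat_lit 263) (nat_lit 5) (nat_lit 9) (nat_lit 11) L104455 (by decide +kernel)
theorem L104457 : W_39 (nat_lit 8) (nat_lit 0x380004000200030000600020001000180000000000000000000000000000000) (nat_lit 0x0) (nat_lit 0xf00070039c00000000000000000000000040002000000000000000000000000000) := T_39 (nat_lit 126) (nat_lit 109) (nat_lit 4) (nat_lit 8) (nat_lit 10) L104456 (by decide +kernel)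
theorem L104458 : W_39 (nat_lit 9) (nat_lit 0x380004000200030000400020001000180000000000000000000000000000000) (nat_lit 0x0) (nat_lit 0xf00070039c00000004000200000000000040002000000000000000000000000000) := T_39 (nat_lit 177) (nat_lit 194) (nat_lit 5) (nat_lit 8) (nat_lit 7) L104457 (by decide +kernel)
theorem L104459 : W_39 (nat_lit 10) (nat_lit 0x380004000200010000400020001000180000000000000000000000000000000) (nat_lit 0x0) (nat_lit 0xf00070039c00000024001200000000000040002000000000000000000000000000) := T_39 (nat_lit 197) (nat_lit 180) (nat_lit 6) (nat_lit 9) (nat_lit 14) L104458 (by decide +kernel)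
theorem L104460 : W_39 (nat_lit 11) (nat_lit 0x380004000200010000400020001000080000000000000000000000000000000) (nat_lit 0x0) (nat_lit 0xf00070039c0000002400120000000000014000a000000000000000000000000000) := T_39 (nat_lit 128) (nat_lit 111) (nat_lit 6) (nat_lit 8) (nat_lit 10) L104459 (by decide +kernel)
theorem L104461 : W_39 (nat_lit 5) (nat_lit 0x800078002c0002000100004000200010001c0000000000000000000000000000000) (nat_lit 0x0) (nat_lit 0x800040000000000014000a4001200000000000000000000000000000000000000000000) := T_39 (nat_lit 177) (nat_lit 194) (nat_lit 5) (nat_lit 8) (nat_lit 7) L104447 (by decide +kernel)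
theorem L104462 : W_39 (nat_lit 6) (nat_lit 0x800078002c000200010000400020001000180000000000000000000000000000000) (nat_lit 0x0) (nat_lit 0x800040000000000014000a4001200000000000040002000000000000000000000000000) := T_39 (nat_lit 126) (nat_lit 109) (nat_lit 4) (nat_lit 8) (nat_lit 10) L104461 (by decide +kernel)
theorem L104463 : W_39 (nat_lit 7) (nat_lit 0x8000780024000200010000400020001000180000000000000000000000000000000) (nat_lit 0x0) (nat_lit 0x800040008000080014000a4001200000000000040002000000000000000000000000000) := T_39 (nat_lit 231) (nat_lit 251) (nat_lit 0) (nat_lit 13) (nat_lit 14) L104462 (by decide +kernel)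
theorem L104464 : W_39 (nat_lit 8) (nat_lit 0x780024000200010000400020001000180000000000000000000000000000000) (nat_lit 0x0) (nat_lit 0x8001c0008000080014000a4001200000000000040002000000000000000000000000000) := T_39 (nat_lit 267) (nat_lit 268) (nat_lit 3) (nat_lit 9) (nat_lit 14) L104463 (by decide +kernel)
theorem L104465 : W_39 (nat_lit 9) (nat_lit 0x780004000200010000400020001000180000000000000000000000000000000) (nat_lit 0x0) (nat_lit 0x8001c0008000680014000a4001200000000000040002000000000000000000000000000) := T_39 (nat_lit 233) (nat_lit 234) (nat_lit 2) (nat_lit 9) (nat_lit 14) L104464 (by decide +kernel)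
theorem L104466 : W_39 (nat_lit 10) (nat_lit 0x780004000200010000400020001000080000000000000000000000000000000) (nat_lit 0x0) (nat_lit 0x8001c0008000680014000a400120000000000014000a000000000000000000000000000) := T_39 (nat_lit 128) (nat_lit 111) (nat_lit 6) (nat_lit 8) (nat_lit 10) L104465 (by decide +kernel)
theorem L104467 : W_39 (nat_lit 11) (nat_lit 0x380004000200010000400020001000080000000000000000000000000000000) (nat_lit 0x0) (nat_lit 0x8001c000c0006a0014000a400120000000000014000a000000000000000000000000000) := T_39 (nat_lit 250) (nat_lit 229) (nat_lit 0) (nat_lit 12) (nat_lit 14) L104466 (by decide +kernel)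
theorem L104468 : W_39 (nat_lit 2) (nat_lit 0x3c0004000200030000400020001000080000000000000000000000000000000) (nat_lit 0x0) (nat_lit 0x400003000000000000000000000000000000000000000000000000000000000) := D_39 (nat_lit 229) (nat_lit 250) (nat_lit 228) (nat_lit 0) (nat_lit 12) (nat_lit 14) (nat_lit 0) (nat_lit 11) (nat_lit 14) (by decide +kernel)
theorem L104469 : W_39 (nat_lit 3) (nat_lit 0x380004000200030000400020001000080000000000000000000000000000000) (nat_lit 0x0) (nat_lit 0x800440003000000000000000000000000000000000000000000000000000000000) := T_39 (nat_lit 246) (nat_lit 263) (nat_lit 5) (nat_lit 9) (nat_lit 11) L104468 (by decide +kernel)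
theorem L104470 : W_39 (nat_lit 4) (nat_lit 0x380004000200010000400020001000080000000000000000000000000000000) (nat_lit 0x0) (nat_lit 0x800440003000000020001000000000000000000000000000000000000000000000) := T_39 (nat_lit 197) (nat_lit 180) (nat_lit 6) (nat_lit 9) (nat_lit 14) L104469 (by decide +kernel)
theorem L104471 : W_39 (nat_lit 12) (nat_lit 0x180004000200010000400020001000080000000000000000000000000000000) (nat_lit 0x0) (nat_lit 0x8001cf00e7007bc014000a400120000000000014000a000000000000000000000000000) := Q_39 (nat_lit 249) (C_39 L104450 (C_39 L104460 (C_39 L104467 (C_39 L104470 N_39)))) (by decide +kernel)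
theorem L104472 : W_39 (nat_lit 13) (nat_lit 0x80004000200010000400020001000080000000000000000000000000000000) (nat_lit 0x0) (nat_lit 0x8001ef00f7007bc014000a400120000000000014000a000000000000000000000000000) := T_39 (nat_lit 248) (nat_lit 265) (nat_lit 7) (nat_lit 9) (nat_lit 11) L104471 (by decide +kernel)
theorem L104473 : W_39 (nat_lit 2) (nat_lit 0x1800080004000200010000600020001000180000000000000000000000000000000) (nat_lit 0x0) (nat_lit 0x400020001000000000000000000000000000000000000000000000) := D_39 (nat_lit 197) (nat_lit 180) (nat_lit 214) (nat_lit 6) (nat_lit 9) (nat_lit 14) (nat_lit 6) (nat_lit 9) (nat_lit 15) (by decide +kernel)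
theorem L104474 : W_39 (nat_lit 3) (nat_lit 0x800080004000200010000600020001000180000000000000000000000000000000) (nat_lit 0x0) (nat_lit 0x10001000000000000400020001000000000000000000000000000000000000000000000) := T_39 (nat_lit 264) (nat_lit 280) (nat_lit 5) (nat_lit 9) (nat_lit 12) L104473 (by decide +kernel)
theorem L104475 : W_39 (nat_lit 4) (nat_lit 0x800080004000200010000400020001000180000000000000000000000000000000) (nat_lit 0x0) (nat_lit 0x10001000000000000400024001200000000000000000000000000000000000000000000) := T_39 (nat_lit 177) (nat_lit 194) (nat_lit 5) (nat_lit 8) (nat_lit 7) L104474 (by decide +kernel)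
theorem L104476 : W_39 (nat_lit 5) (nat_lit 0x80004000200010000400020001000180000000000000000000000000000000) (nat_lit 0x0) (nat_lit 0x10001800040000000400024001200000000000000000000000000000000000000000000) := T_39 (nat_lit 263) (nat_lit 246) (nat_lit 5) (nat_lit 9) (nat_lit 11) L104475 (by decide +kernel)
theorem L104477 : W_39 (nat_lit 6) (nat_lit 0x80004000200010000400020001000080000000000000000000000000000000) (nat_lit 0x0) (nat_lit 0x10001800040000000400024001200000000000100008000000000000000000000000000) := T_39 (nat_lit 128) (nat_lit 111) (nat_lit 6) (nat_lit 8) (nat_lit 10) L104476 (by decide +kernel)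
theorem L104478 : W_39 (nat_lit 14) (nat_lit 0x4000200010000400020001000080000000000000000000000000000000) (nat_lit 0x0) (nat_lit 0xf001ff00ff007bc014000a400120000000000014000a000000000000000000000000000) := Q_39 (nat_lit 247) (C_39 L104158 (C_39 L104147 (C_39 L104440 (C_39 L104444 (C_39 L104472 (C_39 L104477 N_39)))))) (by decide +kernel)
theorem L104479 : W_39 (nat_lit 15) (nat_lit 0x4000200000000400020001000080000000000000000000000000000000) (nat_lit 0x0) (nat_lit 0xf001ff00ff007bc014000bc00120000000000014000a000000000000000000000000000) := T_39 (nat_lit 196) (nat_lit 195) (nat_lit 7) (nat_lit 8) (nat_lit 8) L104478 (by decide +kernel)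
theorem L104480 : W_39 (nat_lit 2) (nat_lit 0x180034000200000000400020001000080000000000000000000000000000000) (nat_lit 0x0) (nat_lit 0x40048000000000000000000000000000000000000000000000000000000000) := D_39 (nat_lit 231) (nat_lit 246) (nat_lit 234) (nat_lit 1) (nat_lit 12) (nat_lit 13) (nat_lit 1) (nat_lit 13) (nat_lit 13) (by decide +kernel)
theorem L104481 : W_39 (nat_lit 2) (nat_lit 0x180034000200000000400020001000080000000000000000000000000000000) (nat_lit 0x0) (nat_lit 0x48000100000000000000000000000000000000000000000000000000000) := D_39 (nat_lit 231) (nat_lit 212) (nat_lit 234) (nat_lit 0) (nat_lit 12) (nat_lit 13) (nat_lit 1) (nat_lit 13) (nat_lit 13) (by decide +kernel)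
theorem L104482 : W_39 (nat_lit 2) (nat_lit 0x8000c001f000a000000006000200010001c0000000000000000000000000000000) (nat_lit 0x0) (nat_lit 0x100000c00000000000000000000000000000000000000000000000000000000) := D_39 (nat_lit 227) (nat_lit 226) (nat_lit 248) (nat_lit 3) (nat_lit 5) (nat_lit 13) (nat_lit 3) (nat_lit 6) (nat_lit 13) (by decide +kernel)
theorem L104483 : W_39 (nat_lit 3) (nat_lit 0x8000c001e000a000000006000200010001c0000000000000000000000000000000) (nat_lit 0x0) (nat_lit 0x100001c00400000000000000000000000000000000000000000000000000000) := T_39 (nat_lit 228) (nat_lit 214) (nat_lit 2) (nat_lit 7) (nat_lit 13) L104482 (by decide +kernel)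
theorem L104484 : W_39 (nat_lit 4) (nat_lit 0x8000c001e0002000000006000200010001c0000000000000000000000000000000) (nat_lit 0x0) (nat_lit 0x100001c01c00000000000000000000000000000000000000000000000000000) := T_39 (nat_lit 215) (nat_lit 216) (nat_lit 2) (nat_lit 8) (nat_lit 13) L104483 (by decide +kernel)
theorem L104485 : W_39 (nat_lit 5) (nat_lit 0x8000c001c0002000000006000200010001c0000000000000000000000000000000) (nat_lit 0x0) (nat_lit 0x10000000100003c01c00000000000000000000000000000000000000000000000000000) := T_39 (nat_lit 229) (nat_lit 280) (nat_lit 6) (nat_lit 8) (nat_lit 16) L104484 (by decide +kernel)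
theorem L104486 : W_39 (nat_lit 6) (nat_lit 0x8000c001c0002000000006000200010000c0000000000000000000000000000000) (nat_lit 0x0) (nat_lit 0x10000000100003c01c00000000000000000000100008000000000000000000000000000) := T_39 (nat_lit 128) (nat_lit 111) (nat_lit 6) (nat_lit 8) (nat_lit 10) L104485 (by decide +kernel)
theorem L104487 : W_39 (nat_lit 4) (nat_lit 0x8001c0002000000006000200010001c0000000000000000000000000000000) (nat_lit 0x0) (nat_lit 0x1c00060000500000000000000000000000000000000000000000000000000000) := T_39 (nat_lit 233) (nat_lit 212) (nat_lit 0) (nat_lit 12) (nat_lit 13) L104348 (by decide +kernel)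
theorem L104488 : W_39 (nat_lit 5) (nat_lit 0x8001c000200000000600020001000180000000000000000000000000000000) (nat_lit 0x0) (nat_lit 0x1c00060000500000000000000000000040002000000000000000000000000000) := T_39 (nat_lit 126) (nat_lit 109) (nat_lit 4) (nat_lit 8) (nat_lit 10) L104487 (by decide +kernel)
theorem L104489 : W_39 (nat_lit 6) (nat_lit 0x8001c000200000000400020001000180000000000000000000000000000000) (nat_lit 0x0) (nat_lit 0x1c00060000500004000200000000000040002000000000000000000000000000) := T_39 (nat_lit 177) (nat_lit 194) (nat_lit 5) (nat_lit 8) (nat_lit 7) L104488 (by decide +kernel)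
theorem L104490 : W_39 (nat_lit 7) (nat_lit 0x8001c000200000000400020001000080000000000000000000000000000000) (nat_lit 0x0) (nat_lit 0x1c0006000050000400020000000000014000a000000000000000000000000000) := T_39 (nat_lit 128) (nat_lit 111) (nat_lit 6) (nat_lit 8) (nat_lit 10) L104489 (by decide +kernel)
theorem L104491 : W_39 (nat_lit 7) (nat_lit 0x8000c001c0002000000004000200010000c0000000000000000000000000000000) (nat_lit 0x0) (nat_lit 0x10000000100003c01c00004000200000000000100008000000000000000000000000000) := T_39 (nat_lit 177) (nat_lit 194) (nat_lit 5) (nat_lit 8) (nat_lit 7) L104486 (by decide +kernel)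
theorem L104492 : W_39 (nat_lit 8) (nat_lit 0xc001c0002000000004000200010000c0000000000000000000000000000000) (nat_lit 0x0) (nat_lit 0x10000800100003c01c00014000200000000000100008000000000000000000000000000) := T_39 (nat_lit 263) (nat_lit 196) (nat_lit 5) (nat_lit 9) (nat_lit 11) L104491 (by decide +kernel)
theorem L104493 : W_39 (nat_lit 9) (nat_lit 0xc001c000200000000400020001000080000000000000000000000000000000) (nat_lit 0x0) (nat_lit 0x10000800100003c01c0001400020000000000014000a000000000000000000000000000) := T_39 (nat_lit 126) (nat_lit 109) (nat_lit 4) (nat_lit 8) (nat_lit 10) L104492 (by decide +kernel)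
theorem L104494 : W_39 (nat_lit 10) (nat_lit 0x8001c000200000000400020001000080000000000000000000000000000000) (nat_lit 0x0) (nat_lit 0x10000800170003c01c0001400020000000000014000a000000000000000000000000000) := Q_39 (nat_lit 246) (C_39 L104173 (C_39 L104493 (C_39 L104172 N_39))) (by decide +kernel)
theorem L104495 : W_39 (nat_lit 4) (nat_lit 0x8001c0002000000004000200010001c0000000000000000000000000000000) (nat_lit 0x0) (nat_lit 0x100060007100000000000000000000000000000000000000000000000000000) := T_39 (nat_lit 233) (nat_lit 212) (nat_lit 0) (nat_lit 12) (nat_lit 13) L104378 (by decide +kernel)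
theorem L104496 : W_39 (nat_lit 5) (nat_lit 0x8001c0002000000004000200010000c0000000000000000000000000000000) (nat_lit 0x0) (nat_lit 0x100060007100000000000000000000100008000000000000000000000000000) := T_39 (nat_lit 128) (nat_lit 111) (nat_lit 6) (nat_lit 8) (nat_lit 10) L104495 (by decide +kernel)
theorem L104497 : W_39 (nat_lit 6) (nat_lit 0x8001c000200000000400020001000080000000000000000000000000000000) (nat_lit 0x0) (nat_lit 0x10006000710000000000000000000014000a000000000000000000000000000) := T_39 (nat_lit 126) (nat_lit 109) (nat_lit 4) (nat_lit 8) (nat_lit 10) L104496 (by decide +kernel)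
theorem L104498 : W_39 (nat_lit 3) (nat_lit 0x8001c0002000000004000200010000c0000000000000000000000000000000) (nat_lit 0x0) (nat_lit 0x100060000500000000000000000000000000000000000000000000000000000) := T_39 (nat_lit 233) (nat_lit 212) (nat_lit 0) (nat_lit 12) (nat_lit 13) L104419 (by decide +kernel)
theorem L104499 : W_39 (nat_lit 3) (nat_lit 0x8001c000200000000400020001000180000000000000000000000000000000) (nat_lit 0x0) (nat_lit 0x100060000500000000000000000000000000000000000000000000000000000) := T_39 (nat_lit 233) (nat_lit 212) (nat_lit 0) (nat_lit 12) (nat_lit 13) L104162 (by decide +kernel)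
theorem L104500 : W_39 (nat_lit 2) (nat_lit 0x8001c000200000000400020001000080000000000000000000000000000000) (nat_lit 0x0) (nat_lit 0x40020000100000000000000000000000000000000000000000000000000000) := D_39 (nat_lit 233) (nat_lit 212) (nat_lit 246) (nat_lit 0) (nat_lit 12) (nat_lit 13) (nat_lit 1) (nat_lit 12) (nat_lit 13) (by decide +kernel)
theorem L104501 : W_39 (nat_lit 2) (nat_lit 0x80034000200000000400020001000080000000000000000000000000000000) (nat_lit 0x0) (nat_lit 0x40008000100000000000000000000000000000000000000000000000000000) := D_39 (nat_lit 231) (nat_lit 246) (nat_lit 212) (nat_lit 1) (nat_lit 12) (nat_lit 13) (nat_lit 0) (nat_lit 12) (nat_lit 13) (by decide +kernel)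
theorem L104502 : W_39 (nat_lit 5) (nat_lit 0x80034000200000000400020001000180000000000000000000000000000000) (nat_lit 0x0) (nat_lit 0x140048007000000000000000000000040002000000000000000000000000000) := T_39 (nat_lit 231) (nat_lit 246) (nat_lit 1) (nat_lit 12) (nat_lit 13) L104379 (by decide +kernel)
theorem L104503 : W_39 (nat_lit 6) (nat_lit 0x80034000200000000400020001000080000000000000000000000000000000) (nat_lit 0x0) (nat_lit 0x14004800700000000000000000000014000a000000000000000000000000000) := T_39 (nat_lit 128) (nat_lit 111) (nat_lit 6) (nat_lit 8) (nat_lit 10) L104502 (by decide +kernel)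
theorem L104504 : W_39 (nat_lit 2) (nat_lit 0x80034000e00000000400020001000180000000000000000000000000000000) (nat_lit 0x0) (nat_lit 0xc0001000000000000000000000000000000000000000000000000000000) := D_39 (nat_lit 234) (nat_lit 235) (nat_lit 216) (nat_lit 0) (nat_lit 14) (nat_lit 13) (nat_lit 3) (nat_lit 9) (nat_lit 12) (by decide +kernel)
theorem L104505 : W_39 (nat_lit 3) (nat_lit 0x80034000600000000400020001000180000000000000000000000000000000) (nat_lit 0x0) (nat_lit 0xc0001900000000000000000000000000000000000000000000000000000) := T_39 (nat_lit 215) (nat_lit 212) (nat_lit 3) (nat_lit 8) (nat_lit 12) L104504 (by decide +kernel)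
theorem L104506 : W_39 (nat_lit 4) (nat_lit 0x80034000600000000400020001000080000000000000000000000000000000) (nat_lit 0x0) (nat_lit 0xc0001900000000000000000000100008000000000000000000000000000) := T_39 (nat_lit 128) (nat_lit 111) (nat_lit 6) (nat_lit 8) (nat_lit 10) L104505 (by decide +kernel)
theorem L104507 : W_39 (nat_lit 2) (nat_lit 0x80034000e00000000600020001000080000000000000000000000000000000) (nat_lit 0x0) (nat_lit 0xc0001000000000000000000000000000000000000000000000000000000) := D_39 (nat_lit 234) (nat_lit 235) (nat_lit 216) (nat_lit 0) (nat_lit 14) (nat_lit 13) (nat_lit 3) (nat_lit 9) (nat_lit 12) (by decide +kernel)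
theorem L104508 : W_39 (nat_lit 3) (nat_lit 0x80034000600000000600020001000080000000000000000000000000000000) (nat_lit 0x0) (nat_lit 0xc0001900000000000000000000000000000000000000000000000000000) := T_39 (nat_lit 215) (nat_lit 212) (nat_lit 3) (nat_lit 8) (nat_lit 12) L104507 (by decide +kernel)
theorem L104509 : W_39 (nat_lit 4) (nat_lit 0x80034000600000000400020001000080000000000000000000000000000000) (nat_lit 0x0) (nat_lit 0xc0001900004000200000000000000000000000000000000000000000000) := T_39 (nat_lit 177) (nat_lit 194) (nat_lit 5) (nat_lit 8) (nat_lit 7) L104508 (by decide +kernel)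
theorem L104510 : W_39 (nat_lit 2) (nat_lit 0x40003c0014000a000b00006000200010001c0000000000000000000000000000000) (nat_lit 0x0) (nat_lit 0x100040004000000000000000000000000000000000000000000000) := D_39 (nat_lit 198) (nat_lit 212) (nat_lit 182) (nat_lit 1) (nat_lit 12) (nat_lit 11) (nat_lit 6) (nat_lit 11) (nat_lit 14) (by decide +kernel)
theorem L104511 : W_39 (nat_lit 3) (nat_lit 0x40003c0014000a000300006000200010001c0000000000000000000000000000000) (nat_lit 0x0) (nat_lit 0x11000c0004000000000000000000000000000000000000000000000) := T_39 (nat_lit 199) (nat_lit 216) (nat_lit 6) (nat_lit 11) (nat_lit 15) L104510 (by decide +kernel)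
theorem L104512 : W_39 (nat_lit 4) (nat_lit 0x40003c00140002000300006000200010001c0000000000000000000000000000000) (nat_lit 0x0) (nat_lit 0x1d000c0004000000000000000000000000000000000000000000000) := T_39 (nat_lit 215) (nat_lit 214) (nat_lit 4) (nat_lit 11) (nat_lit 15) L104511 (by decide +kernel)
theorem L104513 : W_39 (nat_lit 5) (nat_lit 0x40003c00140002000300004000200010001c0000000000000000000000000000000) (nat_lit 0x0) (nat_lit 0x1d000c4004200000000000000000000000000000000000000000000) := T_39 (nat_lit 177) (nat_lit 194) (nat_lit 5) (nat_lit 8) (nat_lit 7) L104512 (by decide +kernel)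
theorem L104514 : W_39 (nat_lit 6) (nat_lit 0x3c00140002000300004000200010001c0000000000000000000000000000000) (nat_lit 0x0) (nat_lit 0xc000000000001d000c4004200000000000000000000000000000000000000000000) := T_39 (nat_lit 266) (nat_lit 267) (nat_lit 3) (nat_lit 8) (nat_lit 14) L104513 (by decide +kernel)
theorem L104515 : W_39 (nat_lit 7) (nat_lit 0x1c00140002000300004000200010001c0000000000000000000000000000000) (nat_lit 0x0) (nat_lit 0xc000200020001d000c4004200000000000000000000000000000000000000000000) := T_39 (nat_lit 249) (nat_lit 233) (nat_lit 2) (nat_lit 8) (nat_lit 14) L104514 (by decide +kernel)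
theorem L104516 : W_39 (nat_lit 8) (nat_lit 0xc00140002000300004000200010001c0000000000000000000000000000000) (nat_lit 0x0) (nat_lit 0xe000300020001d000c4004200000000000000000000000000000000000000000000) := T_39 (nat_lit 248) (nat_lit 265) (nat_lit 7) (nat_lit 9) (nat_lit 11) L104515 (by decide +kernel)
theorem L104517 : W_39 (nat_lit 2) (nat_lit 0x40003c0014000a000b00004000200010001c0000000000000000000000000000000) (nat_lit 0x0) (nat_lit 0x100040004000000000000000000000000000000000000000000000) := D_39 (nat_lit 198) (nat_lit 212) (nat_lit 182) (nat_lit 1) (nat_lit 12) (nat_lit 11) (nat_lit 6) (nat_lit 11) (nat_lit 14) (by decide +kernel)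
theorem L104518 : W_39 (nat_lit 3) (nat_lit 0x40003c0014000a000300004000200010001c0000000000000000000000000000000) (nat_lit 0x0) (nat_lit 0x11000c0004000000000000000000000000000000000000000000000) := T_39 (nat_lit 199) (nat_lit 216) (nat_lit 6) (nat_lit 11) (nat_lit 15) L104517 (by decide +kernel)
theorem L104519 : W_39 (nat_lit 4) (nat_lit 0x40003c0014000a00030000400020001000180000000000000000000000000000000) (nat_lit 0x0) (nat_lit 0x11000c0004000000000000040002000000000000000000000000000) := T_39 (nat_lit 126) (nat_lit 109) (nat_lit 4) (nat_lit 8) (nat_lit 10) L104518 (by decide +kernel)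
theorem L104520 : W_39 (nat_lit 5) (nat_lit 0x40003c0014000200030000400020001000180000000000000000000000000000000) (nat_lit 0x0) (nat_lit 0x1d000c0004000000000000040002000000000000000000000000000) := T_39 (nat_lit 215) (nat_lit 214) (nat_lit 4) (nat_lit 11) (nat_lit 15) L104519 (by decide +kernel)
theorem L104521 : W_39 (nat_lit 6) (nat_lit 0x40003c0014000200010000400020001000180000000000000000000000000000000) (nat_lit 0x0) (nat_lit 0x1d000e0005000000000000040002000000000000000000000000000) := T_39 (nat_lit 197) (nat_lit 180) (nat_lit 6) (nat_lit 9) (nat_lit 14) L104520 (by decide +kernel)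
theorem L104522 : W_39 (nat_lit 7) (nat_lit 0x3c0014000200010000400020001000180000000000000000000000000000000) (nat_lit 0x0) (nat_lit 0xc000000000001d000e0005000000000000040002000000000000000000000000000) := T_39 (nat_lit 266) (nat_lit 267) (nat_lit 3) (nat_lit 8) (nat_lit 14) L104521 (by decide +kernel)
theorem L104523 : W_39 (nat_lit 8) (nat_lit 0x1c0014000200010000400020001000180000000000000000000000000000000) (nat_lit 0x0) (nat_lit 0xc000200020001d000e0005000000000000040002000000000000000000000000000) := T_39 (nat_lit 249) (nat_lit 233) (nat_lit 2) (nat_lit 8) (nat_lit 14) L104522 (by decide +kernel)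
theorem L104524 : W_39 (nat_lit 9) (nat_lit 0x180014000200010000400020001000180000000000000000000000000000000) (nat_lit 0x0) (nat_lit 0xc800240020001d000e0005000000000000040002000000000000000000000000000) := T_39 (nat_lit 246) (nat_lit 263) (nat_lit 5) (nat_lit 9) (nat_lit 11) L104523 (by decide +kernel)
theorem L104525 : W_39 (nat_lit 10) (nat_lit 0x180014000200000000400020001000180000000000000000000000000000000) (nat_lit 0x0) (nat_lit 0xe800240020001d000f0005000000000000040002000000000000000000000000000) := T_39 (nat_lit 196) (nat_lit 265) (nat_lit 7) (nat_lit 9) (nat_lit 11) L104524 (by decide +kernel)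
theorem L104526 : W_39 (nat_lit 11) (nat_lit 0x180014000200000000400020001000080000000000000000000000000000000) (nat_lit 0x0) (nat_lit 0xe800240020001d000f000500000000000014000a000000000000000000000000000) := T_39 (nat_lit 128) (nat_lit 111) (nat_lit 6) (nat_lit 8) (nat_lit 10) L104525 (by decide +kernel)
theorem L104527 : W_39 (nat_lit 2) (nat_lit 0x1c0014000200010000600020001000080000000000000000000000000000000) (nat_lit 0x0) (nat_lit 0x200028000000000000000000000000000000000000000000000000000000000) := D_39 (nat_lit 233) (nat_lit 249) (nat_lit 231) (nat_lit 2) (nat_lit 8) (nat_lit 14) (nat_lit 1) (nat_lit 12) (nat_lit 13) (by decide +kernel)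
theorem L104528 : W_39 (nat_lit 3) (nat_lit 0x180014000200010000600020001000080000000000000000000000000000000) (nat_lit 0x0) (nat_lit 0x800240028000000000000000000000000000000000000000000000000000000000) := T_39 (nat_lit 246) (nat_lit 263) (nat_lit 5) (nat_lit 9) (nat_lit 11) L104527 (by decide +kernel)
theorem L104529 : W_39 (nat_lit 4) (nat_lit 0x180014000200000000600020001000080000000000000000000000000000000) (nat_lit 0x0) (nat_lit 0x2800240028000000010000000000000000000000000000000000000000000000000) := T_39 (nat_lit 196) (nat_lit 265) (nat_lit 7) (nat_lit 9) (nat_lit 11) L104528 (by decide +kernel)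
theorem L104530 : W_39 (nat_lit 5) (nat_lit 0x180014000200000000400020001000080000000000000000000000000000000) (nat_lit 0x0) (nat_lit 0x2800240028000000014000200000000000000000000000000000000000000000000) := T_39 (nat_lit 177) (nat_lit 194) (nat_lit 5) (nat_lit 8) (nat_lit 7) L104529 (by decide +kernel)
theorem L104531 : W_39 (nat_lit 2) (nat_lit 0x380034000200000000400020001000180000000000000000000000000000000) (nat_lit 0x0) (nat_lit 0x4000c0000000000000000000000000000000000000000000000000000000000) := D_39 (nat_lit 234) (nat_lit 235) (nat_lit 250) (nat_lit 1) (nat_lit 14) (nat_lit 13) (nat_lit 2) (nat_lit 9) (nat_lit 14) (by decide +kernel)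
theorem L104532 : W_39 (nat_lit 3) (nat_lit 0x180034000200000000400020001000180000000000000000000000000000000) (nat_lit 0x0) (nat_lit 0x6400c0000000000000000000000000000000000000000000000000000000000) := T_39 (nat_lit 249) (nat_lit 246) (nat_lit 2) (nat_lit 8) (nat_lit 14) L104531 (by decide +kernel)
theorem L104533 : W_39 (nat_lit 4) (nat_lit 0x180034000200000000400020001000080000000000000000000000000000000) (nat_lit 0x0) (nat_lit 0x6400c0000000000000000000000000100008000000000000000000000000000) := T_39 (nat_lit 128) (nat_lit 111) (nat_lit 6) (nat_lit 8) (nat_lit 10) L104532 (by decide +kernel)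
theorem L104534 : W_39 (nat_lit 2) (nat_lit 0x180034000200000000400020001000080000000000000000000000000000000) (nat_lit 0x0) (nat_lit 0x240008000000000000000000000000000000000000000000000000000000000) := D_39 (nat_lit 246) (nat_lit 249) (nat_lit 231) (nat_lit 2) (nat_lit 8) (nat_lit 14) (nat_lit 1) (nat_lit 12) (nat_lit 13) (by decide +kernel)
theorem L104535 : W_39 (nat_lit 5) (nat_lit 0x180014000200000000400020001000080000000000000000000000000000000) (nat_lit 0x0) (nat_lit 0x6400e8000100000000000000000000100008000000000000000000000000000) := Q_39 (nat_lit 233) (C_39 L104481 (C_39 L104480 (C_39 L104533 (C_39 L104534 N_39)))) (by decide +kernel)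
theorem L104536 : W_39 (nat_lit 2) (nat_lit 0x200018001c000200000000600020001000180000000000000000000000000000000) (nat_lit 0x0) (nat_lit 0x60000100000000000000000000000000000000000000000000000000000) := D_39 (nat_lit 233) (nat_lit 212) (nat_lit 234) (nat_lit 0) (nat_lit 12) (nat_lit 13) (nat_lit 1) (nat_lit 13) (nat_lit 13) (by decide +kernel)
theorem L104537 : W_39 (nat_lit 3) (nat_lit 0x2000180014000200000000600020001000180000000000000000000000000000000) (nat_lit 0x0) (nat_lit 0x40000000000068000100000000000000000000000000000000000000000000000000000) := T_39 (nat_lit 231) (nat_lit 282) (nat_lit 4) (nat_lit 10) (nat_lit 16) L104536 (by decide +kernel)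
theorem L104538 : W_39 (nat_lit 4) (nat_lit 0x2000180014000200000000600020001000080000000000000000000000000000000) (nat_lit 0x0) (nat_lit 0x40000000000068000100000000000000000000100008000000000000000000000000000) := T_39 (nat_lit 128) (nat_lit 111) (nat_lit 6) (nat_lit 8) (nat_lit 10) L104537 (by decide +kernel)
theorem L104539 : W_39 (nat_lit 5) (nat_lit 0x180014000200000000600020001000080000000000000000000000000000000) (nat_lit 0x0) (nat_lit 0x40002000000068000100010000000000000000100008000000000000000000000000000) := T_39 (nat_lit 265) (nat_lit 196) (nat_lit 7) (nat_lit 9) (nat_lit 11) L104538 (by decide +kernel)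
theorem L104540 : W_39 (nat_lit 6) (nat_lit 0x180014000200000000400020001000080000000000000000000000000000000) (nat_lit 0x0) (nat_lit 0x40002000000068000100014000200000000000100008000000000000000000000000000) := T_39 (nat_lit 177) (nat_lit 194) (nat_lit 5) (nat_lit 8) (nat_lit 7) L104539 (by decide +kernel)
theorem L104541 : W_39 (nat_lit 2) (nat_lit 0x2001e00148002000100006000200010000c0000000000000000000000000000000) (nat_lit 0x0) (nat_lit 0x100010000400000000000000000000000000000000000000000000000000000000) := D_39 (nat_lit 244) (nat_lit 226) (nat_lit 260) (nat_lit 0) (nat_lit 9) (nat_lit 14) (nat_lit 1) (nat_lit 9) (nat_lit 14) (by decide +kernel)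
theorem L104542 : W_39 (nat_lit 3) (nat_lit 0x1e00148002000100006000200010000c0000000000000000000000000000000) (nat_lit 0x0) (nat_lit 0x700010000400000000000000000000000000000000000000000000000000000000) := T_39 (nat_lit 261) (nat_lit 262) (nat_lit 1) (nat_lit 10) (nat_lit 14) L104541 (by decide +kernel)
theorem L104543 : W_39 (nat_lit 4) (nat_lit 0x1e00140002000100006000200010000c0000000000000000000000000000000) (nat_lit 0x0) (nat_lit 0x700010001c00000000000000000000000000000000000000000000000000000000) := T_39 (nat_lit 227) (nat_lit 228) (nat_lit 0) (nat_lit 10) (nat_lit 14) L104542 (by decide +kernel)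
theorem L104544 : W_39 (nat_lit 5) (nat_lit 0x1c00140002000100006000200010000c0000000000000000000000000000000) (nat_lit 0x0) (nat_lit 0x700030009c00000000000000000000000000000000000000000000000000000000) := T_39 (nat_lit 245) (nat_lit 231) (nat_lit 2) (nat_lit 7) (nat_lit 14) L104543 (by decide +kernel)
theorem L104545 : W_39 (nat_lit 6) (nat_lit 0x1800140002000100006000200010000c0000000000000000000000000000000) (nat_lit 0x0) (nat_lit 0xf00070009c00000000000000000000000000000000000000000000000000000000) := T_39 (nat_lit 246) (nat_lit 263) (nat_lit 5) (nat_lit 9) (nat_lit 11) L104544 (by decide +kernel)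
theorem L104546 : W_39 (nat_lit 7) (nat_lit 0x1800140002000000006000200010000c0000000000000000000000000000000) (nat_lit 0x0) (nat_lit 0x2f00070009c00000010000000000000000000000000000000000000000000000000) := T_39 (nat_lit 196) (nat_lit 265) (nat_lit 7) (nat_lit 9) (nat_lit 11) L104545 (by decide +kernel)
theorem L104547 : W_39 (nat_lit 8) (nat_lit 0x1800140002000000004000200010000c0000000000000000000000000000000) (nat_lit 0x0) (nat_lit 0x2f00070009c00000014000200000000000000000000000000000000000000000000) := T_39 (nat_lit 177) (nat_lit 194) (nat_lit 5) (nat_lit 8) (nat_lit 7) L104546 (by decide +kernel)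
theorem L104548 : W_39 (nat_lit 9) (nat_lit 0x180014000200000000400020001000080000000000000000000000000000000) (nat_lit 0x0) (nat_lit 0x2f00070009c00000014000200000000000040002000000000000000000000000000) := T_39 (nat_lit 126) (nat_lit 109) (nat_lit 4) (nat_lit 8) (nat_lit 10) L104547 (by decide +kernel)
theorem L104549 : W_39 (nat_lit 12) (nat_lit 0x80014000200000000400020001000080000000000000000000000000000000) (nat_lit 0x0) (nat_lit 0x4000ef007700e9c01d000f400520000000000014000a000000000000000000000000000) := Q_39 (nat_lit 248) (C_39 L104526 (C_39 L104530 (C_39 L104535 (C_39 L104540 (C_39 L104548 N_39))))) (by decide +kernel)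
theorem L104550 : W_39 (nat_lit 2) (nat_lit 0x180034000200010000400020001000080000000000000000000000000000000) (nat_lit 0x0) (nat_lit 0x800240000000000000000000000000000000000000000000000000000000000000) := D_39 (nat_lit 246) (nat_lit 263) (nat_lit 249) (nat_lit 5) (nat_lit 9) (nat_lit 11) (nat_lit 2) (nat_lit 8) (nat_lit 14) (by decide +kernel)
theorem L104551 : W_39 (nat_lit 3) (nat_lit 0x180034000200000000400020001000080000000000000000000000000000000) (nat_lit 0x0) (nat_lit 0x2800240000000000010000000000000000000000000000000000000000000000000) := T_39 (nat_lit 196) (nat_lit 265) (nat_lit 7) (nat_lit 9) (nat_lit 11) L104550 (by decide +kernel)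
theorem L104552 : W_39 (nat_lit 4) (nat_lit 0x80034000200000000600020001000180000000000000000000000000000000) (nat_lit 0x0) (nat_lit 0x100048007100000000000000000000000000000000000000000000000000000) := T_39 (nat_lit 231) (nat_lit 212) (nat_lit 0) (nat_lit 12) (nat_lit 13) L104167 (by decide +kernel)
theorem L104553 : W_39 (nat_lit 5) (nat_lit 0x80034000200000000400020001000180000000000000000000000000000000) (nat_lit 0x0) (nat_lit 0x100048007100004000200000000000000000000000000000000000000000000) := T_39 (nat_lit 177) (nat_lit 194) (nat_lit 5) (nat_lit 8) (nat_lit 7) L104552 (by decide +kernel)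
theorem L104554 : W_39 (nat_lit 6) (nat_lit 0x80034000200000000400020001000080000000000000000000000000000000) (nat_lit 0x0) (nat_lit 0x100048007100004000200000000000100008000000000000000000000000000) := T_39 (nat_lit 128) (nat_lit 111) (nat_lit 6) (nat_lit 8) (nat_lit 10) L104553 (by decide +kernel)
theorem L104555 : W_39 (nat_lit 7) (nat_lit 0x80034000200000000400020001000080000000000000000000000000000000) (nat_lit 0x0) (nat_lit 0xc00048007500004000200000000000040002000000000000000000000000000) := T_39 (nat_lit 231) (nat_lit 212) (nat_lit 0) (nat_lit 12) (nat_lit 13) L104346 (by decide +kernel)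
theorem L104556 : W_39 (nat_lit 3) (nat_lit 0x800340002000000004000200010000c0000000000000000000000000000000) (nat_lit 0x0) (nat_lit 0x100048000500000000000000000000000000000000000000000000000000000) := T_39 (nat_lit 231) (nat_lit 212) (nat_lit 0) (nat_lit 12) (nat_lit 13) L104419 (by decide +kernel)
theorem L104557 : W_39 (nat_lit 4) (nat_lit 0x80034000200000000400020001000080000000000000000000000000000000) (nat_lit 0x0) (nat_lit 0x100048000500000000000000000000040002000000000000000000000000000) := T_39 (nat_lit 126) (nat_lit 109) (nat_lit 4) (nat_lit 8) (nat_lit 10) L104556 (by decide +kernel)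
theorem L104558 : W_39 (nat_lit 2) (nat_lit 0x800140002000200016000e00010001c0000000000000000000000000000000) (nat_lit 0x0) (nat_lit 0x2100010000000000000000000000000000000000000000) := D_39 (nat_lit 160) (nat_lit 176) (nat_lit 181) (nat_lit 1) (nat_lit 10) (nat_lit 9) (nat_lit 3) (nat_lit 7) (nat_lit 9) (by decide +kernel)
theorem L104559 : W_39 (nat_lit 3) (nat_lit 0x800140002000200016000a00010001c0000000000000000000000000000000) (nat_lit 0x0) (nat_lit 0x2100150000000000000000000000000000000000000000) := T_39 (nat_lit 162) (nat_lit 164) (nat_lit 1) (nat_lit 11) (nat_lit 9) L104558 (by decide +kernel)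
theorem L104560 : W_39 (nat_lit 4) (nat_lit 0x800140002000200016000200010001c0000000000000000000000000000000) (nat_lit 0x0) (nat_lit 0x4000000021001d0000000000000000000000000000000000000000) := T_39 (nat_lit 163) (nat_lit 214) (nat_lit 5) (nat_lit 10) (nat_lit 9) L104559 (by decide +kernel)
theorem L104561 : W_39 (nat_lit 5) (nat_lit 0x800140002000200014000200010001c0000000000000000000000000000000) (nat_lit 0x0) (nat_lit 0x4000040023001d0000000000000000000000000000000000000000) := T_39 (nat_lit 177) (nat_lit 194) (nat_lit 5) (nat_lit 8) (nat_lit 7) L104560 (by decide +kernel)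
theorem L104562 : W_39 (nat_lit 6) (nat_lit 0x800140002000200004000200010001c0000000000000000000000000000000) (nat_lit 0x0) (nat_lit 0x4000140033001d0000000000000000000000000000000000000000) := T_39 (nat_lit 180) (nat_lit 196) (nat_lit 6) (nat_lit 9) (nat_lit 14) L104561 (by decide +kernel)
theorem L104563 : W_39 (nat_lit 7) (nat_lit 0x80014000200020000400020001000180000000000000000000000000000000) (nat_lit 0x0) (nat_lit 0x4000140033001d0000000040002000000000000000000000000000) := T_39 (nat_lit 126) (nat_lit 109) (nat_lit 4) (nat_lit 8) (nat_lit 10) L104562 (by decide +kernel)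
theorem L104564 : W_39 (nat_lit 8) (nat_lit 0x80014000200020000400020001000080000000000000000000000000000000) (nat_lit 0x0) (nat_lit 0x4000140033001d000000014000a000000000000000000000000000) := T_39 (nat_lit 128) (nat_lit 111) (nat_lit 6) (nat_lit 8) (nat_lit 10) L104563 (by decide +kernel)
theorem L104565 : W_39 (nat_lit 2) (nat_lit 0x4001e000e000000004000200010001c0000000000000000000000000000000) (nat_lit 0x0) (nat_lit 0x80060000000000000000000000000000000000000000000000000000000000) := D_39 (nat_lit 233) (nat_lit 234) (nat_lit 247) (nat_lit 0) (nat_lit 13) (nat_lit 13) (nat_lit 1) (nat_lit 12) (nat_lit 13) (by decide +kernel)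
theorem L104566 : W_39 (nat_lit 3) (nat_lit 0x1e000e000000004000200010001c0000000000000000000000000000000) (nat_lit 0x0) (nat_lit 0xe0060000000000000000000000000000000000000000000000000000000000) := T_39 (nat_lit 246) (nat_lit 245) (nat_lit 1) (nat_lit 11) (nat_lit 13) L104565 (by decide +kernel)
theorem L104567 : W_39 (nat_lit 4) (nat_lit 0x1e000e00000000400020001000180000000000000000000000000000000) (nat_lit 0x0) (nat_lit 0xe0060000000000000000000000000040002000000000000000000000000000) := T_39 (nat_lit 126) (nat_lit 109) (nat_lit 4) (nat_lit 8) (nat_lit 10) L104566 (by decide +kernel)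
theorem L104568 : W_39 (nat_lit 5) (nat_lit 0x1c000e00000000400020001000180000000000000000000000000000000) (nat_lit 0x0) (nat_lit 0xe0063000000000000000000000000040002000000000000000000000000000) := T_39 (nat_lit 229) (nat_lit 228) (nat_lit 2) (nat_lit 7) (nat_lit 13) L104567 (by decide +kernel)
theorem L104569 : W_39 (nat_lit 6) (nat_lit 0x1c000e00000000400020001000080000000000000000000000000000000) (nat_lit 0x0) (nat_lit 0xe006300000000000000000000000014000a000000000000000000000000000) := T_39 (nat_lit 128) (nat_lit 111) (nat_lit 6) (nat_lit 8) (nat_lit 10) L104568 (by decide +kernel)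
theorem L104570 : W_39 (nat_lit 2) (nat_lit 0x600016000f00060000600020001000080000000000000000000000000000000) (nat_lit 0x0) (nat_lit 0x2000180000000000000000000000000000000000000000000000000000000000000) := D_39 (nat_lit 248) (nat_lit 247) (nat_lit 265) (nat_lit 0) (nat_lit 12) (nat_lit 14) (nat_lit 5) (nat_lit 11) (nat_lit 11) (by decide +kernel)
theorem L104571 : W_39 (nat_lit 3) (nat_lit 0x200016000f00060000600020001000080000000000000000000000000000000) (nat_lit 0x0) (nat_lit 0xa000580000000000000000000000000000000000000000000000000000000000000) := T_39 (nat_lit 250) (nat_lit 267) (nat_lit 7) (nat_lit 11) (nat_lit 11) L104570 (by decide +kernel)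
theorem L104572 : W_39 (nat_lit 4) (nat_lit 0x200016000f00060000400020001000080000000000000000000000000000000) (nat_lit 0x0) (nat_lit 0xa000580000000000004000200000000000000000000000000000000000000000000) := T_39 (nat_lit 177) (nat_lit 194) (nat_lit 5) (nat_lit 8) (nat_lit 7) L104571 (by decide +kernel)
theorem L104573 : W_39 (nat_lit 5) (nat_lit 0x16000f00060000400020001000080000000000000000000000000000000) (nat_lit 0x0) (nat_lit 0xe000780000000000004000200000000000000000000000000000000000000000000) := T_39 (nat_lit 249) (nat_lit 266) (nat_lit 4) (nat_lit 11) (nat_lit 15) L104572 (by decide +kernel)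
theorem L104574 : W_39 (nat_lit 6) (nat_lit 0x16000f00020000400020001000080000000000000000000000000000000) (nat_lit 0x0) (nat_lit 0xe0007800000000000c4000200000000000000000000000000000000000000000000) := T_39 (nat_lit 198) (nat_lit 199) (nat_lit 2) (nat_lit 8) (nat_lit 12) L104573 (by decide +kernel)
theorem L104575 : W_39 (nat_lit 7) (nat_lit 0x14000f00020000400020001000080000000000000000000000000000000) (nat_lit 0x0) (nat_lit 0xe0007800030000000c4000200000000000000000000000000000000000000000000) := T_39 (nat_lit 229) (nat_lit 228) (nat_lit 1) (nat_lit 11) (nat_lit 12) L104574 (by decide +kernel)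
theorem L104576 : W_39 (nat_lit 8) (nat_lit 0x14000e00020000400020001000080000000000000000000000000000000) (nat_lit 0x0) (nat_lit 0xe0007800230001000c4000200000000000000000000000000000000000000000000) := T_39 (nat_lit 212) (nat_lit 233) (nat_lit 3) (nat_lit 8) (nat_lit 12) L104575 (by decide +kernel)
theorem L104577 : W_39 (nat_lit 2) (nat_lit 0x16000f000600006001a0001000080000000000000000000000000000000) (nat_lit 0x0) (nat_lit 0x200000000c000000000000000000000000000000000000) := D_39 (nat_lit 181) (nat_lit 147) (nat_lit 146) (nat_lit 5) (nat_lit 11) (nat_lit 8) (nat_lit 4) (nat_lit 11) (nat_lit 12) (by decide +kernel)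
theorem L104578 : W_39 (nat_lit 3) (nat_lit 0x16000f000200006001a0001000080000000000000000000000000000000) (nat_lit 0x0) (nat_lit 0xc000200000000c000000000000000000000000000000000000) := T_39 (nat_lit 198) (nat_lit 199) (nat_lit 2) (nat_lit 8) (nat_lit 12) L104577 (by decide +kernel)
theorem L104579 : W_39 (nat_lit 4) (nat_lit 0x14000f000200006001a0001000080000000000000000000000000000000) (nat_lit 0x0) (nat_lit 0x30000000c000200000000c000000000000000000000000000000000000) := T_39 (nat_lit 229) (nat_lit 228) (nat_lit 1) (nat_lit 11) (nat_lit 12) L104578 (by decide +kernel)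
theorem L104580 : W_39 (nat_lit 5) (nat_lit 0x14000e000200006001a0001000080000000000000000000000000000000) (nat_lit 0x0) (nat_lit 0x230001000c000200000000c000000000000000000000000000000000000) := T_39 (nat_lit 212) (nat_lit 233) (nat_lit 3) (nat_lit 8) (nat_lit 12) L104579 (by decide +kernel)
theorem L104581 : W_39 (nat_lit 6) (nat_lit 0x14000e000200006000a0001000080000000000000000000000000000000) (nat_lit 0x0) (nat_lit 0x230001000c000200014000c000000000000000000000000000000000000) := T_39 (nat_lit 164) (nat_lit 162) (nat_lit 1) (nat_lit 11) (nat_lit 9) L104580 (by decide +kernel)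
theorem L104582 : W_39 (nat_lit 7) (nat_lit 0x14000e00020000600020001000080000000000000000000000000000000) (nat_lit 0x0) (nat_lit 0x230001000c00030001c000c000000000000000000000000000000000000) := T_39 (nat_lit 163) (nat_lit 180) (nat_lit 7) (nat_lit 10) (nat_lit 9) L104581 (by decide +kernel)
theorem L104583 : W_39 (nat_lit 8) (nat_lit 0x14000e00020000400020001000080000000000000000000000000000000) (nat_lit 0x0) (nat_lit 0x230001000c40032001c000c000000000000000000000000000000000000) := T_39 (nat_lit 177) (nat_lit 194) (nat_lit 5) (nat_lit 8) (nat_lit 7) L104582 (by decide +kernel)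
theorem L104584 : W_39 (nat_lit 2) (nat_lit 0x14000e000200006000e0001000080000000000000000000000000000000) (nat_lit 0x0) (nat_lit 0x180010000000000000000000000000000000000000000) := D_39 (nat_lit 176) (nat_lit 160) (nat_lit 175) (nat_lit 1) (nat_lit 10) (nat_lit 9) (nat_lit 2) (nat_lit 5) (nat_lit 10) (by decide +kernel)
theorem L104585 : W_39 (nat_lit 3) (nat_lit 0x14000e000200006000a0001000080000000000000000000000000000000) (nat_lit 0x0) (nat_lit 0x180150000000000000000000000000000000000000000) := T_39 (nat_lit 162) (nat_lit 164) (nat_lit 1) (nat_lit 11) (nat_lit 9) L104584 (by decide +kernel)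
theorem L104586 : W_39 (nat_lit 4) (nat_lit 0x14000e00020000600020001000080000000000000000000000000000000) (nat_lit 0x0) (nat_lit 0x11801d0000000000000000000000000000000000000000) := T_39 (nat_lit 163) (nat_lit 180) (nat_lit 7) (nat_lit 10) (nat_lit 9) L104585 (by decide +kernel)
theorem L104587 : W_39 (nat_lit 5) (nat_lit 0x14000e00020000400020001000080000000000000000000000000000000) (nat_lit 0x0) (nat_lit 0x40013801d0000000000000000000000000000000000000000) := T_39 (nat_lit 177) (nat_lit 194) (nat_lit 5) (nat_lit 8) (nat_lit 7) L104586 (by decide +kernel)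
theorem L104588 : W_39 (nat_lit 2) (nat_lit 0x14000e000000034000e00010001c0000000000000000000000000000000) (nat_lit 0x0) (nat_lit 0xc000100000000000000000000000000000000000000000) := D_39 (nat_lit 182) (nat_lit 183) (nat_lit 164) (nat_lit 0) (nat_lit 13) (nat_lit 10) (nat_lit 3) (nat_lit 8) (nat_lit 9) (by decide +kernel)
theorem L104589 : W_39 (nat_lit 3) (nat_lit 0x14000e000000034000a00010001c0000000000000000000000000000000) (nat_lit 0x0) (nat_lit 0xc000150000000000000000000000000000000000000000) := T_39 (nat_lit 162) (nat_lit 160) (nat_lit 3) (nat_lit 7) (nat_lit 9) L104588 (by decide +kernel)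
theorem L104590 : W_39 (nat_lit 4) (nat_lit 0x14000e000000034000a0001000180000000000000000000000000000000) (nat_lit 0x0) (nat_lit 0xc000150000000040002000000000000000000000000000) := T_39 (nat_lit 126) (nat_lit 109) (nat_lit 4) (nat_lit 8) (nat_lit 10) L104589 (by decide +kernel)
theorem L104591 : W_39 (nat_lit 5) (nat_lit 0x14000e000000014000a0001000180000000000000000000000000000000) (nat_lit 0x0) (nat_lit 0x4000e000150000000040002000000000000000000000000000) := T_39 (nat_lit 181) (nat_lit 198) (nat_lit 4) (nat_lit 11) (nat_lit 13) L104590 (by decide +kernel)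
theorem L104592 : W_39 (nat_lit 6) (nat_lit 0x14000e000000004000a0001000180000000000000000000000000000000) (nat_lit 0x0) (nat_lit 0x6000f000150000000040002000000000000000000000000000) := T_39 (nat_lit 180) (nat_lit 197) (nat_lit 7) (nat_lit 10) (nat_lit 9) L104591 (by decide +kernel)
theorem L104593 : W_39 (nat_lit 7) (nat_lit 0x14000e000000004000a0001000080000000000000000000000000000000) (nat_lit 0x0) (nat_lit 0x6000f00015000000014000a000000000000000000000000000) := T_39 (nat_lit 128) (nat_lit 111) (nat_lit 6) (nat_lit 8) (nat_lit 10) L104592 (by decide +kernel)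
theorem L104594 : W_39 (nat_lit 2) (nat_lit 0x14000f000400004000a00010000c0000000000000000000000000000000) (nat_lit 0x0) (nat_lit 0x20003000000000000000000000000000000000000000000000) := D_39 (nat_lit 180) (nat_lit 197) (nat_lit 181) (nat_lit 7) (nat_lit 10) (nat_lit 9) (nat_lit 4) (nat_lit 11) (nat_lit 13) (by decide +kernel)
theorem L104595 : W_39 (nat_lit 3) (nat_lit 0x14000f000000004000a00010000c0000000000000000000000000000000) (nat_lit 0x0) (nat_lit 0xe0003000000000000000000000000000000000000000000000) := T_39 (nat_lit 198) (nat_lit 199) (nat_lit 2) (nat_lit 8) (nat_lit 12) L104594 (by decide +kernel)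
theorem L104596 : W_39 (nat_lit 4) (nat_lit 0x14000e000000004000a00010000c0000000000000000000000000000000) (nat_lit 0x0) (nat_lit 0x200001000e0003000000000000000000000000000000000000000000000) := T_39 (nat_lit 212) (nat_lit 233) (nat_lit 3) (nat_lit 8) (nat_lit 12) L104595 (by decide +kernel)
theorem L104597 : W_39 (nat_lit 5) (nat_lit 0x14000e000000004000a0001000080000000000000000000000000000000) (nat_lit 0x0) (nat_lit 0x200001000e0003000000000000040002000000000000000000000000000) := T_39 (nat_lit 126) (nat_lit 109) (nat_lit 4) (nat_lit 8) (nat_lit 10) L104596 (by decide +kernel)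
theorem L104598 : W_39 (nat_lit 2) (nat_lit 0x24001e000e00000000600020001000080000000000000000000000000000000) (nat_lit 0x0) (nat_lit 0x80004000000000000000020000000000000000000000000000000000000000000000000) := D_39 (nat_lit 266) (nat_lit 283) (nat_lit 197) (nat_lit 4) (nat_lit 11) (nat_lit 16) (nat_lit 4) (nat_lit 11) (nat_lit 15) (by decide +kernel)
theorem L104599 : W_39 (nat_lit 3) (nat_lit 0x4001e000e00000000600020001000080000000000000000000000000000000) (nat_lit 0x0) (nat_lit 0x80004000600000000000020000000000000000000000000000000000000000000000000) := T_39 (nat_lit 249) (nat_lit 250) (nat_lit 3) (nat_lit 8) (nat_lit 13) L104598 (by decide +kernel)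
theorem L104600 : W_39 (nat_lit 4) (nat_lit 0x1e000e00000000600020001000080000000000000000000000000000000) (nat_lit 0x0) (nat_lit 0x80004000660000000000020000000000000000000000000000000000000000000000000) := T_39 (nat_lit 246) (nat_lit 245) (nat_lit 1) (nat_lit 11) (nat_lit 13) L104599 (by decide +kernel)
theorem L104601 : W_39 (nat_lit 5) (nat_lit 0x1e000e00000000400020001000080000000000000000000000000000000) (nat_lit 0x0) (nat_lit 0x80004000660000000000024000200000000000000000000000000000000000000000000) := T_39 (nat_lit 177) (nat_lit 194) (nat_lit 5) (nat_lit 8) (nat_lit 7) L104600 (by decide +kernel)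
theorem L104602 : W_39 (nat_lit 6) (nat_lit 0x1c000e00000000400020001000080000000000000000000000000000000) (nat_lit 0x0) (nat_lit 0x80004000660003000000024000200000000000000000000000000000000000000000000) := T_39 (nat_lit 229) (nat_lit 228) (nat_lit 2) (nat_lit 7) (nat_lit 13) L104601 (by decide +kernel)
theorem L104603 : W_39 (nat_lit 2) (nat_lit 0x20005e000e00000000600020001000080000000000000000000000000000000) (nat_lit 0x0) (nat_lit 0x80004000000000000000020000000000000000000000000000000000000000000000000) := D_39 (nat_lit 266) (nat_lit 283) (nat_lit 197) (nat_lit 4) (nat_lit 11) (nat_lit 16) (nat_lit 4) (nat_lit 11) (nat_lit 15) (by decide +kernel)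
theorem L104604 : W_39 (nat_lit 3) (nat_lit 0x5e000e00000000600020001000080000000000000000000000000000000) (nat_lit 0x0) (nat_lit 0x80004000600000000000020000000000000000000000000000000000000000000000000) := T_39 (nat_lit 249) (nat_lit 250) (nat_lit 3) (nat_lit 8) (nat_lit 13) L104603 (by decide +kernel)
theorem L104605 : W_39 (nat_lit 4) (nat_lit 0x5e000e00000000400020001000080000000000000000000000000000000) (nat_lit 0x0) (nat_lit 0x80004000600000000000024000200000000000000000000000000000000000000000000) := T_39 (nat_lit 177) (nat_lit 194) (nat_lit 5) (nat_lit 8) (nat_lit 7) L104604 (by decide +kernel)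
theorem L104606 : W_39 (nat_lit 5) (nat_lit 0x5c000e00000000400020001000080000000000000000000000000000000) (nat_lit 0x0) (nat_lit 0x80004000600003000000024000200000000000000000000000000000000000000000000) := T_39 (nat_lit 229) (nat_lit 228) (nat_lit 2) (nat_lit 7) (nat_lit 13) L104605 (by decide +kernel)
theorem L104607 : W_39 (nat_lit 6) (nat_lit 0x1c000e00000000400020001000080000000000000000000000000000000) (nat_lit 0x0) (nat_lit 0x80004000600063000000024000200000000000000000000000000000000000000000000) := T_39 (nat_lit 234) (nat_lit 233) (nat_lit 0) (nat_lit 13) (nat_lit 13) L104606 (by decide +kernel)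
theorem L104608 : W_39 (nat_lit 3) (nat_lit 0x1e000e000000004000200010000c0000000000000000000000000000000) (nat_lit 0x0) (nat_lit 0x80004000600000000000020000000000000000000000000000000000000000000000000) := T_39 (nat_lit 249) (nat_lit 250) (nat_lit 3) (nat_lit 8) (nat_lit 13) L104306 (by decide +kernel)
theorem L104609 : W_39 (nat_lit 4) (nat_lit 0x1c000e000000004000200010000c0000000000000000000000000000000) (nat_lit 0x0) (nat_lit 0x80004000600003000000020000000000000000000000000000000000000000000000000) := T_39 (nat_lit 229) (nat_lit 228) (nat_lit 2) (nat_lit 7) (nat_lit 13) L104608 (by decide +kernel)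
theorem L104610 : W_39 (nat_lit 5) (nat_lit 0x1c000e00000000400020001000080000000000000000000000000000000) (nat_lit 0x0) (nat_lit 0x80004000600003000000020000000000000000040002000000000000000000000000000) := T_39 (nat_lit 126) (nat_lit 109) (nat_lit 4) (nat_lit 8) (nat_lit 10) L104609 (by decide +kernel)
theorem L104611 : W_39 (nat_lit 2) (nat_lit 0x16000f00060000400020001000080000000000000000000000000000000) (nat_lit 0x0) (nat_lit 0x4000200000000000000001000000000000000000000000000000000000000000000) := D_39 (nat_lit 249) (nat_lit 180) (nat_lit 266) (nat_lit 4) (nat_lit 11) (nat_lit 14) (nat_lit 4) (nat_lit 11) (nat_lit 15) (by decide +kernel)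
theorem L104612 : W_39 (nat_lit 3) (nat_lit 0x16000f00020000400020001000080000000000000000000000000000000) (nat_lit 0x0) (nat_lit 0x40002000000000000c0001000000000000000000000000000000000000000000000) := T_39 (nat_lit 198) (nat_lit 199) (nat_lit 2) (nat_lit 8) (nat_lit 12) L104611 (by decide +kernel)
theorem L104613 : W_39 (nat_lit 4) (nat_lit 0x14000f00020000400020001000080000000000000000000000000000000) (nat_lit 0x0) (nat_lit 0x40002000030000000c0001000000000000000000000000000000000000000000000) := T_39 (nat_lit 229) (nat_lit 228) (nat_lit 1) (nat_lit 11) (nat_lit 12) L104612 (by decide +kernel)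
theorem L104614 : W_39 (nat_lit 5) (nat_lit 0x14000e00020000400020001000080000000000000000000000000000000) (nat_lit 0x0) (nat_lit 0x40002000230001000c0001000000000000000000000000000000000000000000000) := T_39 (nat_lit 212) (nat_lit 233) (nat_lit 3) (nat_lit 8) (nat_lit 12) L104613 (by decide +kernel)
theorem L104615 : W_39 (nat_lit 9) (nat_lit 0x14000e00000000400020001000080000000000000000000000000000000) (nat_lit 0x0) (nat_lit 0xe0007800230001000e40033801d000c000000000000000000000000000000000000) := Q_39 (nat_lit 197) (C_39 L104587 (C_39 L104583 (C_39 L104576 (C_39 L104614 N_39)))) (by decide +kernel)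
theorem L104616 : W_39 (nat_lit 2) (nat_lit 0x600016000e000c00016001a00010000c0000000000000000000000000000000) (nat_lit 0x0) (nat_lit 0x2000180000000000000000000000000000000000000000000000000000000000000) := D_39 (nat_lit 248) (nat_lit 247) (nat_lit 265) (nat_lit 0) (nat_lit 12) (nat_lit 14) (nat_lit 5) (nat_lit 11) (nat_lit 11) (by decide +kernel)
theorem L104617 : W_39 (nat_lit 3) (nat_lit 0x600014000e000c00016001a00010000c0000000000000000000000000000000) (nat_lit 0x0) (nat_lit 0x200018000a000000000000000000000000000000000000000000000000000000000) := T_39 (nat_lit 229) (nat_lit 231) (nat_lit 3) (nat_lit 8) (nat_lit 13) L104616 (by decide +kernel)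
theorem L104618 : W_39 (nat_lit 4) (nat_lit 0x200014000e000c00016001a00010000c0000000000000000000000000000000) (nat_lit 0x0) (nat_lit 0xa00058000a000000000000000000000000000000000000000000000000000000000) := T_39 (nat_lit 250) (nat_lit 267) (nat_lit 7) (nat_lit 11) (nat_lit 11) L104617 (by decide +kernel)
theorem L104619 : W_39 (nat_lit 5) (nat_lit 0x14000e000c00016001a00010000c0000000000000000000000000000000) (nat_lit 0x0) (nat_lit 0xa00078000a000000000004000000000000000000000000000000000000000000000) := T_39 (nat_lit 249) (nat_lit 182) (nat_lit 6) (nat_lit 11) (nat_lit 14) L104618 (by decide +kernel)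
theorem L104620 : W_39 (nat_lit 6) (nat_lit 0x14000e000c00016000a00010000c0000000000000000000000000000000) (nat_lit 0x0) (nat_lit 0xa00078000a000000000004000140000000000000000000000000000000000000000) := T_39 (nat_lit 164) (nat_lit 162) (nat_lit 1) (nat_lit 11) (nat_lit 9) L104619 (by decide +kernel)
theorem L104621 : W_39 (nat_lit 7) (nat_lit 0x14000e000c00014000a00010000c0000000000000000000000000000000) (nat_lit 0x0) (nat_lit 0xa00078000a000000004004200140000000000000000000000000000000000000000) := T_39 (nat_lit 177) (nat_lit 194) (nat_lit 5) (nat_lit 8) (nat_lit 7) L104620 (by decide +kernel)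
theorem L104622 : W_39 (nat_lit 8) (nat_lit 0x14000e000400014000a00010000c0000000000000000000000000000000) (nat_lit 0x0) (nat_lit 0xa00078000a000100084004200140000000000000000000000000000000000000000) := T_39 (nat_lit 199) (nat_lit 212) (nat_lit 2) (nat_lit 8) (nat_lit 12) L104621 (by decide +kernel)
theorem L104623 : W_39 (nat_lit 9) (nat_lit 0x14000e000000014000a00010000c0000000000000000000000000000000) (nat_lit 0x0) (nat_lit 0xa00078000a0001000c4006200140000000000000000000000000000000000000000) := T_39 (nat_lit 198) (nat_lit 181) (nat_lit 4) (nat_lit 11) (nat_lit 13) L104622 (by decide +kernel)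
theorem L104624 : W_39 (nat_lit 10) (nat_lit 0x14000e000000004000a00010000c0000000000000000000000000000000) (nat_lit 0x0) (nat_lit 0xa00078000a0001000e4007200140000000000000000000000000000000000000000) := T_39 (nat_lit 180) (nat_lit 197) (nat_lit 7) (nat_lit 10) (nat_lit 9) L104623 (by decide +kernel)
theorem L104625 : W_39 (nat_lit 11) (nat_lit 0x14000e000000004000a0001000080000000000000000000000000000000) (nat_lit 0x0) (nat_lit 0xa00078000a0001000e4007200140000000040002000000000000000000000000000) := T_39 (nat_lit 126) (nat_lit 109) (nat_lit 4) (nat_lit 8) (nat_lit 10) L104624 (by decide +kernel)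
theorem L104626 : W_39 (nat_lit 2) (nat_lit 0x600016000e002c00016000a00010000c0000000000000000000000000000000) (nat_lit 0x0) (nat_lit 0x2000180000000000000000000000000000000000000000000000000000000000000) := D_39 (nat_lit 248) (nat_lit 247) (nat_lit 265) (nat_lit 0) (nat_lit 12) (nat_lit 14) (nat_lit 5) (nat_lit 11) (nat_lit 11) (by decide +kernel)
theorem L104627 : W_39 (nat_lit 3) (nat_lit 0x600014000e002c00016000a00010000c0000000000000000000000000000000) (nat_lit 0x0) (nat_lit 0x200018000a000000000000000000000000000000000000000000000000000000000) := T_39 (nat_lit 229) (nat_lit 231) (nat_lit 3) (nat_lit 8) (nat_lit 13) L104626 (by decide +kernel)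
theorem L104628 : W_39 (nat_lit 4) (nat_lit 0x200014000e002c00016000a00010000c0000000000000000000000000000000) (nat_lit 0x0) (nat_lit 0xa00058000a000000000000000000000000000000000000000000000000000000000) := T_39 (nat_lit 250) (nat_lit 267) (nat_lit 7) (nat_lit 11) (nat_lit 11) L104627 (by decide +kernel)
theorem L104629 : W_39 (nat_lit 5) (nat_lit 0x14000e002c00016000a00010000c0000000000000000000000000000000) (nat_lit 0x0) (nat_lit 0xa00078000a000000000004000000000000000000000000000000000000000000000) := T_39 (nat_lit 249) (nat_lit 182) (nat_lit 6) (nat_lit 11) (nat_lit 14) L104628 (by decide +kernel)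
theorem L104630 : W_39 (nat_lit 6) (nat_lit 0x14000e000c00016000a00010000c0000000000000000000000000000000) (nat_lit 0x0) (nat_lit 0xa00078000a000000300004000000000000000000000000000000000000000000000) := T_39 (nat_lit 201) (nat_lit 200) (nat_lit 1) (nat_lit 14) (nat_lit 11) L104629 (by decide +kernel)
theorem L104631 : W_39 (nat_lit 7) (nat_lit 0x14000e000400016000a00010000c0000000000000000000000000000000) (nat_lit 0x0) (nat_lit 0xa00078000a000100380004000000000000000000000000000000000000000000000) := T_39 (nat_lit 199) (nat_lit 212) (nat_lit 2) (nat_lit 8) (nat_lit 12) L104630 (by decide +kernel)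
theorem L104632 : W_39 (nat_lit 8) (nat_lit 0x14000e000000016000a00010000c0000000000000000000000000000000) (nat_lit 0x0) (nat_lit 0xa00078000a0001003c0006000000000000000000000000000000000000000000000) := T_39 (nat_lit 198) (nat_lit 181) (nat_lit 4) (nat_lit 11) (nat_lit 13) L104631 (by decide +kernel)
theorem L104633 : W_39 (nat_lit 9) (nat_lit 0x14000e000000006000a00010000c0000000000000000000000000000000) (nat_lit 0x0) (nat_lit 0xa00078000a0001003e0007000000000000000000000000000000000000000000000) := T_39 (nat_lit 180) (nat_lit 197) (nat_lit 7) (nat_lit 10) (nat_lit 9) L104632 (by decide +kernel)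
theorem L104634 : W_39 (nat_lit 10) (nat_lit 0x14000e000000006000a0001000080000000000000000000000000000000) (nat_lit 0x0) (nat_lit 0xa00078000a0001003e0007000000000000040002000000000000000000000000000) := T_39 (nat_lit 126) (nat_lit 109) (nat_lit 4) (nat_lit 8) (nat_lit 10) L104633 (by decide +kernel)
theorem L104635 : W_39 (nat_lit 11) (nat_lit 0x14000e000000004000a0001000080000000000000000000000000000000) (nat_lit 0x0) (nat_lit 0xa00078000a0001003e4007200000000000040002000000000000000000000000000) := T_39 (nat_lit 177) (nat_lit 194) (nat_lit 5) (nat_lit 8) (nat_lit 7) L104634 (by decide +kernel)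
theorem L104636 : W_39 (nat_lit 2) (nat_lit 0x600016000e002c00014000a00010000c0000000000000000000000000000000) (nat_lit 0x0) (nat_lit 0x2000180000000000000000000000000000000000000000000000000000000000000) := D_39 (nat_lit 248) (nat_lit 247) (nat_lit 265) (nat_lit 0) (nat_lit 12) (nat_lit 14) (nat_lit 5) (nat_lit 11) (nat_lit 11) (by decide +kernel)
theorem L104637 : W_39 (nat_lit 3) (nat_lit 0x600014000e002c00014000a00010000c0000000000000000000000000000000) (nat_lit 0x0) (nat_lit 0x200018000a000000000000000000000000000000000000000000000000000000000) := T_39 (nat_lit 229) (nat_lit 231) (nat_lit 3) (nat_lit 8) (nat_lit 13) L104636 (by decide +kernel)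
theorem L104638 : W_39 (nat_lit 4) (nat_lit 0x200014000e002c00014000a00010000c0000000000000000000000000000000) (nat_lit 0x0) (nat_lit 0xa00058000a000000000000000000000000000000000000000000000000000000000) := T_39 (nat_lit 250) (nat_lit 267) (nat_lit 7) (nat_lit 11) (nat_lit 11) L104637 (by decide +kernel)
theorem L104639 : W_39 (nat_lit 5) (nat_lit 0x14000e002c00014000a00010000c0000000000000000000000000000000) (nat_lit 0x0) (nat_lit 0xa00078000a000000000004000000000000000000000000000000000000000000000) := T_39 (nat_lit 249) (nat_lit 182) (nat_lit 6) (nat_lit 11) (nat_lit 14) L104638 (by decide +kernel)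
theorem L104640 : W_39 (nat_lit 6) (nat_lit 0x14000e000c00014000a00010000c0000000000000000000000000000000) (nat_lit 0x0) (nat_lit 0xa00078000a000000300004000000000000000000000000000000000000000000000) := T_39 (nat_lit 201) (nat_lit 200) (nat_lit 1) (nat_lit 14) (nat_lit 11) L104639 (by decide +kernel)
theorem L104641 : W_39 (nat_lit 7) (nat_lit 0x14000e000400014000a00010000c0000000000000000000000000000000) (nat_lit 0x0) (nat_lit 0xa00078000a000100380004000000000000000000000000000000000000000000000) := T_39 (nat_lit 199) (nat_lit 212) (nat_lit 2) (nat_lit 8) (nat_lit 12) L104640 (by decide +kernel)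
theorem L104642 : W_39 (nat_lit 8) (nat_lit 0x14000e000000014000a00010000c0000000000000000000000000000000) (nat_lit 0x0) (nat_lit 0xa00078000a0001003c0006000000000000000000000000000000000000000000000) := T_39 (nat_lit 198) (nat_lit 181) (nat_lit 4) (nat_lit 11) (nat_lit 13) L104641 (by decide +kernel)
theorem L104643 : W_39 (nat_lit 9) (nat_lit 0x14000e000000014000a0001000080000000000000000000000000000000) (nat_lit 0x0) (nat_lit 0xa00078000a0001003c0006000000000000040002000000000000000000000000000) := T_39 (nat_lit 126) (nat_lit 109) (nat_lit 4) (nat_lit 8) (nat_lit 10) L104642 (by decide +kernel)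
theorem L104644 : W_39 (nat_lit 10) (nat_lit 0x14000e000000004000a0001000080000000000000000000000000000000) (nat_lit 0x0) (nat_lit 0xa00078000a0001003e0007000000000000040002000000000000000000000000000) := T_39 (nat_lit 180) (nat_lit 197) (nat_lit 7) (nat_lit 10) (nat_lit 9) L104643 (by decide +kernel)
theorem L104645 : W_39 (nat_lit 12) (nat_lit 0x14000e00000000400020001000080000000000000000000000000000000) (nat_lit 0x0) (nat_lit 0xa00078000a0001003e40073801d0000000040002000000000000000000000000000) := Q_39 (nat_lit 163) (C_39 L104197 (C_39 L104625 (C_39 L104635 (C_39 L104644 N_39)))) (by decide +kernel)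
theorem L104646 : W_39 (nat_lit 2) (nat_lit 0x280016000f000600004000200010001c0000000000000000000000000000000) (nat_lit 0x0) (nat_lit 0x2000500000000000000000000000000000000000000000000000000000000000000) := D_39 (nat_lit 248) (nat_lit 265) (nat_lit 250) (nat_lit 5) (nat_lit 11) (nat_lit 11) (nat_lit 0) (nat_lit 12) (nat_lit 14) (by decide +kernel)
theorem L104647 : W_39 (nat_lit 3) (nat_lit 0x80016000f000600004000200010001c0000000000000000000000000000000) (nat_lit 0x0) (nat_lit 0x6000700000000000000000000000000000000000000000000000000000000000000) := T_39 (nat_lit 249) (nat_lit 266) (nat_lit 4) (nat_lit 11) (nat_lit 15) L104646 (by decide +kernel)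
theorem L104648 : W_39 (nat_lit 4) (nat_lit 0x80016000f000600004000200010000c0000000000000000000000000000000) (nat_lit 0x0) (nat_lit 0x6000700000000000000000000000000000100008000000000000000000000000000) := T_39 (nat_lit 128) (nat_lit 111) (nat_lit 6) (nat_lit 8) (nat_lit 10) L104647 (by decide +kernel)
theorem L104649 : W_39 (nat_lit 2) (nat_lit 0xe000200014000e00000000400020001000180000000000000000000000000000000) (nat_lit 0x0) (nat_lit 0x500000000000040000000000000000000000000000000000000000000000000) := D_39 (nat_lit 198) (nat_lit 248) (nat_lit 250) (nat_lit 5) (nat_lit 11) (nat_lit 11) (nat_lit 7) (nat_lit 11) (nat_lit 11) (by decide +kernel)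
theorem L104650 : W_39 (nat_lit 3) (nat_lit 0x6000200014000e00000000400020001000180000000000000000000000000000000) (nat_lit 0x0) (nat_lit 0x100008000500000000000040000000000000000000000000000000000000000000000000) := T_39 (nat_lit 267) (nat_lit 284) (nat_lit 7) (nat_lit 11) (nat_lit 12) L104649 (by decide +kernel)
theorem L104651 : W_39 (nat_lit 4) (nat_lit 0x4000200014000e00000000400020001000180000000000000000000000000000000) (nat_lit 0x0) (nat_lit 0x14000a000500000000000040000000000000000000000000000000000000000000000000) := T_39 (nat_lit 265) (nat_lit 282) (nat_lit 5) (nat_lit 11) (nat_lit 12) L104650 (by decide +kernel)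
theorem L104652 : W_39 (nat_lit 5) (nat_lit 0x200014000e00000000400020001000180000000000000000000000000000000) (nat_lit 0x0) (nat_lit 0x14000e000500000000000060000000000000000000000000000000000000000000000000) := T_39 (nat_lit 266) (nat_lit 197) (nat_lit 4) (nat_lit 11) (nat_lit 15) L104651 (by decide +kernel)
theorem L104653 : W_39 (nat_lit 6) (nat_lit 0x200014000e00000000400020001000080000000000000000000000000000000) (nat_lit 0x0) (nat_lit 0x14000e000500000000000060000000000000000100008000000000000000000000000000) := T_39 (nat_lit 128) (nat_lit 111) (nat_lit 6) (nat_lit 8) (nat_lit 10) L104652 (by decide +kernel)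
theorem L104654 : W_39 (nat_lit 2) (nat_lit 0x600016000f000400006000200010001c0000000000000000000000000000000) (nat_lit 0x0) (nat_lit 0x2000180000000000000000000000000000000000000000000000000000000000000) := D_39 (nat_lit 248) (nat_lit 247) (nat_lit 265) (nat_lit 0) (nat_lit 12) (nat_lit 14) (nat_lit 5) (nat_lit 11) (nat_lit 11) (by decide +kernel)
theorem L104655 : W_39 (nat_lit 3) (nat_lit 0x200016000f000400006000200010001c0000000000000000000000000000000) (nat_lit 0x0) (nat_lit 0xa000580000000000000000000000000000000000000000000000000000000000000) := T_39 (nat_lit 250) (nat_lit 267) (nat_lit 7) (nat_lit 11) (nat_lit 11) L104654 (by decide +kernel)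
theorem L104656 : W_39 (nat_lit 4) (nat_lit 0x200016000f00040000600020001000180000000000000000000000000000000) (nat_lit 0x0) (nat_lit 0xa000580000000000000000000000000000040002000000000000000000000000000) := T_39 (nat_lit 126) (nat_lit 109) (nat_lit 4) (nat_lit 8) (nat_lit 10) L104655 (by decide +kernel)
theorem L104657 : W_39 (nat_lit 5) (nat_lit 0x200016000f00000000600020001000180000000000000000000000000000000) (nat_lit 0x0) (nat_lit 0xa0005800000000000c0000000000000000040002000000000000000000000000000) := T_39 (nat_lit 198) (nat_lit 199) (nat_lit 2) (nat_lit 8) (nat_lit 12) L104656 (by decide +kernel)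
theorem L104658 : W_39 (nat_lit 6) (nat_lit 0x200014000f00000000600020001000180000000000000000000000000000000) (nat_lit 0x0) (nat_lit 0xa0005800030000000c0000000000000000040002000000000000000000000000000) := T_39 (nat_lit 229) (nat_lit 228) (nat_lit 1) (nat_lit 11) (nat_lit 12) L104657 (by decide +kernel)
theorem L104659 : W_39 (nat_lit 7) (nat_lit 0x200014000e00000000600020001000180000000000000000000000000000000) (nat_lit 0x0) (nat_lit 0xa0005800230001000c0000000000000000040002000000000000000000000000000) := T_39 (nat_lit 212) (nat_lit 233) (nat_lit 3) (nat_lit 8) (nat_lit 12) L104658 (by decide +kernel)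
theorem L104660 : W_39 (nat_lit 8) (nat_lit 0x200014000e00000000600020001000080000000000000000000000000000000) (nat_lit 0x0) (nat_lit 0xa0005800230001000c000000000000000014000a000000000000000000000000000) := T_39 (nat_lit 128) (nat_lit 111) (nat_lit 6) (nat_lit 8) (nat_lit 10) L104659 (by decide +kernel)
theorem L104661 : W_39 (nat_lit 9) (nat_lit 0x200014000e00000000400020001000080000000000000000000000000000000) (nat_lit 0x0) (nat_lit 0xa0005800230001000c400020000000000014000a000000000000000000000000000) := T_39 (nat_lit 177) (nat_lit 194) (nat_lit 5) (nat_lit 8) (nat_lit 7) L104660 (by decide +kernel)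
theorem L104662 : W_39 (nat_lit 2) (nat_lit 0x7800b4000e000200006000200010001c0000000000000000000000000000000) (nat_lit 0x0) (nat_lit 0x100018000000000000000000000000000000000000000000000000000000000000000000) := D_39 (nat_lit 267) (nat_lit 268) (nat_lit 284) (nat_lit 3) (nat_lit 9) (nat_lit 14) (nat_lit 4) (nat_lit 12) (nat_lit 16) (by decide +kernel)
theorem L104663 : W_39 (nat_lit 3) (nat_lit 0x3800b4000e000200006000200010001c0000000000000000000000000000000) (nat_lit 0x0) (nat_lit 0x100018000400002000000000000000000000000000000000000000000000000000000000) := T_39 (nat_lit 250) (nat_lit 229) (nat_lit 0) (nat_lit 12) (nat_lit 14) L104662 (by decide +kernel)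
theorem L104664 : W_39 (nat_lit 4) (nat_lit 0x2800b4000e000200006000200010001c0000000000000000000000000000000) (nat_lit 0x0) (nat_lit 0x100018000540002000000000000000000000000000000000000000000000000000000000) := T_39 (nat_lit 248) (nat_lit 246) (nat_lit 2) (nat_lit 8) (nat_lit 14) L104663 (by decide +kernel)
theorem L104665 : W_39 (nat_lit 5) (nat_lit 0x2000b4000e000200006000200010001c0000000000000000000000000000000) (nat_lit 0x0) (nat_lit 0x1000190005c0002000000000000000000000000000000000000000000000000000000000) := T_39 (nat_lit 247) (nat_lit 264) (nat_lit 6) (nat_lit 9) (nat_lit 15) L104664 (by decide +kernel)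
theorem L104666 : W_39 (nat_lit 6) (nat_lit 0x2000b4000e00020000600020001000180000000000000000000000000000000) (nat_lit 0x0) (nat_lit 0x1000190005c0002000000000000000000000000040002000000000000000000000000000) := T_39 (nat_lit 126) (nat_lit 109) (nat_lit 4) (nat_lit 8) (nat_lit 10) L104665 (by decide +kernel)
theorem L104667 : W_39 (nat_lit 7) (nat_lit 0x2000b4000e00000000600020001000180000000000000000000000000000000) (nat_lit 0x0) (nat_lit 0x10001d0005c0002000000020000000000000000040002000000000000000000000000000) := T_39 (nat_lit 197) (nat_lit 266) (nat_lit 4) (nat_lit 11) (nat_lit 15) L104666 (by decide +kernel)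
theorem L104668 : W_39 (nat_lit 8) (nat_lit 0x2000b4000e00000000400020001000180000000000000000000000000000000) (nat_lit 0x0) (nat_lit 0x10001d0005c0002000000024000200000000000040002000000000000000000000000000) := T_39 (nat_lit 177) (nat_lit 194) (nat_lit 5) (nat_lit 8) (nat_lit 7) L104667 (by decide +kernel)
theorem L104669 : W_39 (nat_lit 9) (nat_lit 0x200034000e00000000400020001000180000000000000000000000000000000) (nat_lit 0x0) (nat_lit 0x10001d0005c00c2000000024000200000000000040002000000000000000000000000000) := T_39 (nat_lit 235) (nat_lit 234) (nat_lit 0) (nat_lit 14) (nat_lit 13) L104668 (by decide +kernel)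
theorem L104670 : W_39 (nat_lit 10) (nat_lit 0x200034000e00000000400020001000080000000000000000000000000000000) (nat_lit 0x0) (nat_lit 0x10001d0005c00c200000002400020000000000014000a000000000000000000000000000) := T_39 (nat_lit 128) (nat_lit 111) (nat_lit 6) (nat_lit 8) (nat_lit 10) L104669 (by decide +kernel)
theorem L104671 : W_39 (nat_lit 11) (nat_lit 0x200014000e00000000400020001000080000000000000000000000000000000) (nat_lit 0x0) (nat_lit 0x10001d0005c00e200010002400020000000000014000a000000000000000000000000000) := T_39 (nat_lit 233) (nat_lit 212) (nat_lit 3) (nat_lit 8) (nat_lit 12) L104670 (by decide +kernel)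
theorem L104672 : W_39 (nat_lit 2) (nat_lit 0xe000200014000f00000000400020001000080000000000000000000000000000000) (nat_lit 0x0) (nat_lit 0x4000000000000c0000000000000000000000000000000000000000000000000) := D_39 (nat_lit 198) (nat_lit 250) (nat_lit 199) (nat_lit 7) (nat_lit 11) (nat_lit 11) (nat_lit 2) (nat_lit 8) (nat_lit 12) (by decide +kernel)
theorem L104673 : W_39 (nat_lit 3) (nat_lit 0xe000200014000e00000000400020001000080000000000000000000000000000000) (nat_lit 0x0) (nat_lit 0x4000200001000c0000000000000000000000000000000000000000000000000) := T_39 (nat_lit 212) (nat_lit 233) (nat_lit 3) (nat_lit 8) (nat_lit 12) L104672 (by decide +kernel)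
theorem L104674 : W_39 (nat_lit 4) (nat_lit 0x6000200014000e00000000400020001000080000000000000000000000000000000) (nat_lit 0x0) (nat_lit 0x1000080004000200001000c0000000000000000000000000000000000000000000000000) := T_39 (nat_lit 267) (nat_lit 284) (nat_lit 7) (nat_lit 11) (nat_lit 12) L104673 (by decide +kernel)
theorem L104675 : W_39 (nat_lit 5) (nat_lit 0x4000200014000e00000000400020001000080000000000000000000000000000000) (nat_lit 0x0) (nat_lit 0x14000a0004000200001000c0000000000000000000000000000000000000000000000000) := T_39 (nat_lit 265) (nat_lit 282) (nat_lit 5) (nat_lit 11) (nat_lit 12) L104674 (by decide +kernel)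
theorem L104676 : W_39 (nat_lit 6) (nat_lit 0x200014000e00000000400020001000080000000000000000000000000000000) (nat_lit 0x0) (nat_lit 0x14000e0004000200001000e0000000000000000000000000000000000000000000000000) := T_39 (nat_lit 266) (nat_lit 197) (nat_lit 4) (nat_lit 11) (nat_lit 15) L104675 (by decide +kernel)
theorem L104677 : W_39 (nat_lit 2) (nat_lit 0x4000200016000f00040000400020001000080000000000000000000000000000000) (nat_lit 0x0) (nat_lit 0x40002000100000000000000000000000000000000000000000000000000000000000000) := D_39 (nat_lit 265) (nat_lit 282) (nat_lit 248) (nat_lit 5) (nat_lit 11) (nat_lit 12) (nat_lit 5) (nat_lit 11) (nat_lit 11) (by decide +kernel)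
theorem L104678 : W_39 (nat_lit 3) (nat_lit 0x200016000f00040000400020001000080000000000000000000000000000000) (nat_lit 0x0) (nat_lit 0x40006000100000000000020000000000000000000000000000000000000000000000000) := T_39 (nat_lit 266) (nat_lit 197) (nat_lit 4) (nat_lit 11) (nat_lit 15) L104677 (by decide +kernel)
theorem L104679 : W_39 (nat_lit 4) (nat_lit 0x200016000f00000000400020001000080000000000000000000000000000000) (nat_lit 0x0) (nat_lit 0x400060001000000000000e0000000000000000000000000000000000000000000000000) := T_39 (nat_lit 198) (nat_lit 199) (nat_lit 2) (nat_lit 8) (nat_lit 12) L104678 (by decide +kernel)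
theorem L104680 : W_39 (nat_lit 5) (nat_lit 0x200014000f00000000400020001000080000000000000000000000000000000) (nat_lit 0x0) (nat_lit 0x400060001000030000000e0000000000000000000000000000000000000000000000000) := T_39 (nat_lit 229) (nat_lit 228) (nat_lit 1) (nat_lit 11) (nat_lit 12) L104679 (by decide +kernel)
theorem L104681 : W_39 (nat_lit 6) (nat_lit 0x200014000e00000000400020001000080000000000000000000000000000000) (nat_lit 0x0) (nat_lit 0x400060001000230001000e0000000000000000000000000000000000000000000000000) := T_39 (nat_lit 212) (nat_lit 233) (nat_lit 3) (nat_lit 8) (nat_lit 12) L104680 (by decide +kernel)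
theorem L104682 : W_39 (nat_lit 12) (nat_lit 0x14000e00000000400020001000080000000000000000000000000000000) (nat_lit 0x0) (nat_lit 0x14001f0007c00e30001000e400020000000000014000a000000000000000000000000000) := Q_39 (nat_lit 249) (C_39 L104194 (C_39 L104653 (C_39 L104661 (C_39 L104671 (C_39 L104676 (C_39 L104681 N_39)))))) (by decide +kernel)
theorem L104683 : W_39 (nat_lit 2) (nat_lit 0x1c000e00000000400020001000080000000000000000000000000000000) (nat_lit 0x0) (nat_lit 0x2003000000000000000000000000000000000000000000000000000000) := D_39 (nat_lit 216) (nat_lit 229) (nat_lit 217) (nat_lit 2) (nat_lit 8) (nat_lit 13) (nat_lit 1) (nat_lit 13) (nat_lit 12) (by decide +kernel)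
theorem L104684 : W_39 (nat_lit 5) (nat_lit 0x80016000f00060000400020001000080000000000000000000000000000000) (nat_lit 0x0) (nat_lit 0x600070000000000000000000000000000014000a000000000000000000000000000) := T_39 (nat_lit 126) (nat_lit 109) (nat_lit 4) (nat_lit 8) (nat_lit 10) L104648 (by decide +kernel)
theorem L104685 : W_39 (nat_lit 2) (nat_lit 0x80014000e00020000400020001000180000000000000000000000000000000) (nat_lit 0x0) (nat_lit 0x10001000080000000000000000000000000000000000000000) := D_39 (nat_lit 180) (nat_lit 163) (nat_lit 196) (nat_lit 7) (nat_lit 10) (nat_lit 9) (nat_lit 6) (nat_lit 9) (nat_lit 14) (by decide +kernel)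
theorem L104686 : W_39 (nat_lit 3) (nat_lit 0x14000e00020000400020001000180000000000000000000000000000000) (nat_lit 0x0) (nat_lit 0x1000080000000000010001000080000000000000000000000000000000000000000) := T_39 (nat_lit 247) (nat_lit 264) (nat_lit 6) (nat_lit 9) (nat_lit 15) L104685 (by decide +kernel)
theorem L104687 : W_39 (nat_lit 4) (nat_lit 0x14000e00020000400020001000080000000000000000000000000000000) (nat_lit 0x0) (nat_lit 0x1000080000000000010001000080000000100008000000000000000000000000000) := T_39 (nat_lit 128) (nat_lit 111) (nat_lit 6) (nat_lit 8) (nat_lit 10) L104686 (by decide +kernel)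
theorem L104688 : W_39 (nat_lit 6) (nat_lit 0x80016000f00020000400020001000080000000000000000000000000000000) (nat_lit 0x0) (nat_lit 0x60007000000000000c000000000000000014000a000000000000000000000000000) := T_39 (nat_lit 198) (nat_lit 199) (nat_lit 2) (nat_lit 8) (nat_lit 12) L104684 (by decide +kernel)
theorem L104689 : W_39 (nat_lit 7) (nat_lit 0x80014000f00020000400020001000080000000000000000000000000000000) (nat_lit 0x0) (nat_lit 0x60007000030000000c000000000000000014000a000000000000000000000000000) := T_39 (nat_lit 229) (nat_lit 228) (nat_lit 1) (nat_lit 11) (nat_lit 12) L104688 (by decide +kernel)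
theorem L104690 : W_39 (nat_lit 8) (nat_lit 0x80014000e00020000400020001000080000000000000000000000000000000) (nat_lit 0x0) (nat_lit 0x60007000230001000c000000000000000014000a000000000000000000000000000) := T_39 (nat_lit 212) (nat_lit 233) (nat_lit 3) (nat_lit 8) (nat_lit 12) L104689 (by decide +kernel)
theorem L104691 : W_39 (nat_lit 9) (nat_lit 0x14000e00020000400020001000080000000000000000000000000000000) (nat_lit 0x0) (nat_lit 0x70007800230001000c000000000000000014000a000000000000000000000000000) := T_39 (nat_lit 247) (nat_lit 264) (nat_lit 6) (nat_lit 9) (nat_lit 15) L104690 (by decide +kernel)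
theorem L104692 : W_39 (nat_lit 10) (nat_lit 0x14000e00000000400020001000080000000000000000000000000000000) (nat_lit 0x0) (nat_lit 0x70007800230001000f000100008000000014000a000000000000000000000000000) := Q_39 (nat_lit 197) (C_39 L104687 (C_39 L104614 (C_39 L104691 N_39))) (by decide +kernel)
theorem L104693 : W_39 (nat_lit 2) (nat_lit 0x14000e000c0000400020001000080000000000000000000000000000000) (nat_lit 0x0) (nat_lit 0x320000000000000000000000000000000000000000000000000) := D_39 (nat_lit 200) (nat_lit 201) (nat_lit 197) (nat_lit 1) (nat_lit 14) (nat_lit 11) (nat_lit 1) (nat_lit 13) (nat_lit 11) (by decide +kernel)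
theorem L104694 : W_39 (nat_lit 3) (nat_lit 0x14000e00040000400020001000080000000000000000000000000000000) (nat_lit 0x0) (nat_lit 0x1003a0000000000000000000000000000000000000000000000000) := T_39 (nat_lit 199) (nat_lit 212) (nat_lit 2) (nat_lit 8) (nat_lit 12) L104693 (by decide +kernel)
theorem L104695 : W_39 (nat_lit 2) (nat_lit 0x800140006000200006000e0001000080000000000000000000000000000000) (nat_lit 0x0) (nat_lit 0x180010000000000000000000000000000000000000000) := D_39 (nat_lit 176) (nat_lit 160) (nat_lit 175) (nat_lit 1) (nat_lit 10) (nat_lit 9) (nat_lit 2) (nat_lit 5) (nat_lit 10) (by decide +kernel)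
theorem L104696 : W_39 (nat_lit 3) (nat_lit 0x800140006000200006000a0001000080000000000000000000000000000000) (nat_lit 0x0) (nat_lit 0x180150000000000000000000000000000000000000000) := T_39 (nat_lit 162) (nat_lit 164) (nat_lit 1) (nat_lit 11) (nat_lit 9) L104695 (by decide +kernel)
theorem L104697 : W_39 (nat_lit 4) (nat_lit 0x80014000600020000600020001000080000000000000000000000000000000) (nat_lit 0x0) (nat_lit 0x11801d0000000000000000000000000000000000000000) := T_39 (nat_lit 163) (nat_lit 180) (nat_lit 5) (nat_lit 10) (nat_lit 9) L104696 (by decide +kernel)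
theorem L104698 : W_39 (nat_lit 2) (nat_lit 0x80074000600000000400020001000180000000000000000000000000000000) (nat_lit 0x0) (nat_lit 0x80001800000000000000000000000000000000000000000000000000000) := D_39 (nat_lit 215) (nat_lit 216) (nat_lit 235) (nat_lit 3) (nat_lit 9) (nat_lit 12) (nat_lit 0) (nat_lit 14) (nat_lit 13) (by decide +kernel)
theorem L104699 : W_39 (nat_lit 3) (nat_lit 0x80034000600000000400020001000180000000000000000000000000000000) (nat_lit 0x0) (nat_lit 0xc8001800000000000000000000000000000000000000000000000000000) := T_39 (nat_lit 234) (nat_lit 231) (nat_lit 0) (nat_lit 13) (nat_lit 13) L104698 (by decide +kernel)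
theorem L104700 : W_39 (nat_lit 4) (nat_lit 0x80034000600000000400020001000080000000000000000000000000000000) (nat_lit 0x0) (nat_lit 0xc8001800000000000000000000100008000000000000000000000000000) := T_39 (nat_lit 128) (nat_lit 111) (nat_lit 6) (nat_lit 8) (nat_lit 10) L104699 (by decide +kernel)
theorem L104701 : W_39 (nat_lit 2) (nat_lit 0x34000e00000000400020001000080000000000000000000000000000000) (nat_lit 0x0) (nat_lit 0xc0001000000000000000000000000000000000000000000000000000000) := D_39 (nat_lit 234) (nat_lit 235) (nat_lit 216) (nat_lit 0) (nat_lit 14) (nat_lit 13) (nat_lit 3) (nat_lit 9) (nat_lit 12) (by decide +kernel)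
theorem L104702 : W_39 (nat_lit 2) (nat_lit 0x200038001800140006000000004000200010001c0000000000000000000000000000000) (nat_lit 0x0) (nat_lit 0x600200000000000000000000000000000000000000000000000000000000000000) := D_39 (nat_lit 262) (nat_lit 249) (nat_lit 261) (nat_lit 2) (nat_lit 7) (nat_lit 15) (nat_lit 2) (nat_lit 6) (nat_lit 15) (by decide +kernel)
theorem L104703 : W_39 (nat_lit 2) (nat_lit 0x14003e00000000400020001000080000000000000000000000000000000) (nat_lit 0x0) (nat_lit 0x380000000000000000000000000000000000000000000000000) := D_39 (nat_lit 200) (nat_lit 199) (nat_lit 201) (nat_lit 2) (nat_lit 9) (nat_lit 12) (nat_lit 2) (nat_lit 10) (nat_lit 12) (by decide +kernel)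
theorem L104704 : W_39 (nat_lit 3) (nat_lit 0x14001e00000000400020001000080000000000000000000000000000000) (nat_lit 0x0) (nat_lit 0x8002000380000000000000000000000000000000000000000000000000) := T_39 (nat_lit 217) (nat_lit 231) (nat_lit 1) (nat_lit 13) (nat_lit 12) L104703 (by decide +kernel)
theorem L104705 : W_39 (nat_lit 2) (nat_lit 0x40003c001e00000000400020001000180000000000000000000000000000000) (nat_lit 0x0) (nat_lit 0x100008000000000000000040000000000000000000000000000000000000000000000000) := D_39 (nat_lit 267) (nat_lit 284) (nat_lit 198) (nat_lit 4) (nat_lit 12) (nat_lit 16) (nat_lit 4) (nat_lit 12) (nat_lit 15) (by decide +kernel)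
theorem L104706 : W_39 (nat_lit 3) (nat_lit 0x3c001e00000000400020001000180000000000000000000000000000000) (nat_lit 0x0) (nat_lit 0x100008000c00000000000040000000000000000000000000000000000000000000000000) := T_39 (nat_lit 250) (nat_lit 251) (nat_lit 3) (nat_lit 9) (nat_lit 13) L104705 (by decide +kernel)
theorem L104707 : W_39 (nat_lit 4) (nat_lit 0x34001e00000000400020001000180000000000000000000000000000000) (nat_lit 0x0) (nat_lit 0x100008000c00008002000040000000000000000000000000000000000000000000000000) := T_39 (nat_lit 231) (nat_lit 217) (nat_lit 2) (nat_lit 9) (nat_lit 13) L104706 (by decide +kernel)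
theorem L104708 : W_39 (nat_lit 5) (nat_lit 0x14001e00000000400020001000180000000000000000000000000000000) (nat_lit 0x0) (nat_lit 0x100008000c00068002000040000000000000000000000000000000000000000000000000) := T_39 (nat_lit 233) (nat_lit 234) (nat_lit 3) (nat_lit 9) (nat_lit 12) L104707 (by decide +kernel)
theorem L104709 : W_39 (nat_lit 6) (nat_lit 0x14001e00000000400020001000080000000000000000000000000000000) (nat_lit 0x0) (nat_lit 0x100008000c00068002000040000000000000000100008000000000000000000000000000) := T_39 (nat_lit 128) (nat_lit 111) (nat_lit 6) (nat_lit 8) (nat_lit 10) L104708 (by decide +kernel)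
theorem L104710 : W_39 (nat_lit 2) (nat_lit 0x20003800180014000600000000600020001000180000000000000000000000000000000) (nat_lit 0x0) (nat_lit 0x600200000000000000000000000000000000000000000000000000000000000000) := D_39 (nat_lit 262) (nat_lit 249) (nat_lit 261) (nat_lit 2) (nat_lit 7) (nat_lit 15) (nat_lit 2) (nat_lit 6) (nat_lit 15) (by decide +kernel)
theorem L104711 : W_39 (nat_lit 3) (nat_lit 0x20003800080014000600000000600020001000180000000000000000000000000000000) (nat_lit 0x0) (nat_lit 0x600300000000000010000000000000000000000000000000000000000000000000) := T_39 (nat_lit 248) (nat_lit 196) (nat_lit 7) (nat_lit 9) (nat_lit 11) L104710 (by decide +kernel)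
theorem L104712 : W_39 (nat_lit 4) (nat_lit 0x20003000080014000600000000600020001000180000000000000000000000000000000) (nat_lit 0x0) (nat_lit 0x10000e00300000000000010000000000000000000000000000000000000000000000000) := T_39 (nat_lit 263) (nat_lit 280) (nat_lit 5) (nat_lit 9) (nat_lit 12) L104711 (by decide +kernel)
theorem L104713 : W_39 (nat_lit 5) (nat_lit 0x20001000080014000600000000600020001000180000000000000000000000000000000) (nat_lit 0x0) (nat_lit 0x50002e00300000000000010000000000000000000000000000000000000000000000000) := T_39 (nat_lit 265) (nat_lit 282) (nat_lit 7) (nat_lit 9) (nat_lit 12) L104712 (by decide +kernel)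
theorem L104714 : W_39 (nat_lit 6) (nat_lit 0x1000080014000600000000600020001000180000000000000000000000000000000) (nat_lit 0x0) (nat_lit 0x70002e00300008000000010000000000000000000000000000000000000000000000000) := T_39 (nat_lit 281) (nat_lit 231) (nat_lit 6) (nat_lit 9) (nat_lit 16) L104713 (by decide +kernel)
theorem L104715 : W_39 (nat_lit 2) (nat_lit 0x3c0024001e000b000000004000200010001c0000000000000000000000000000000) (nat_lit 0x0) (nat_lit 0xc0004000000000000000000000000000000000000000000000000000000000000000000) := D_39 (nat_lit 282) (nat_lit 283) (nat_lit 266) (nat_lit 3) (nat_lit 7) (nat_lit 15) (nat_lit 5) (nat_lit 11) (nat_lit 12) (by decide +kernel)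
theorem L104716 : W_39 (nat_lit 3) (nat_lit 0x1c0024001e000b000000004000200010001c0000000000000000000000000000000) (nat_lit 0x0) (nat_lit 0xc0006000100000000000000000000000000000000000000000000000000000000000000) := T_39 (nat_lit 265) (nat_lit 248) (nat_lit 2) (nat_lit 7) (nat_lit 15) L104715 (by decide +kernel)
theorem L104717 : W_39 (nat_lit 2) (nat_lit 0x80024001e000a00000000600020001000180000000000000000000000000000000) (nat_lit 0x0) (nat_lit 0x80000000100010000000000000000000000000000000000000000000000000) := D_39 (nat_lit 196) (nat_lit 247) (nat_lit 212) (nat_lit 5) (nat_lit 9) (nat_lit 11) (nat_lit 6) (nat_lit 8) (nat_lit 15) (by decide +kernel)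
theorem L104718 : W_39 (nat_lit 3) (nat_lit 0x24001e000a00000000600020001000180000000000000000000000000000000) (nat_lit 0x0) (nat_lit 0x10000800080000000100010000000000000000000000000000000000000000000000000) := T_39 (nat_lit 263) (nat_lit 280) (nat_lit 6) (nat_lit 8) (nat_lit 16) L104717 (by decide +kernel)
theorem L104719 : W_39 (nat_lit 4) (nat_lit 0x20001e000a00000000600020001000180000000000000000000000000000000) (nat_lit 0x0) (nat_lit 0x100008000e0000000100010000000000000000000000000000000000000000000000000) := T_39 (nat_lit 246) (nat_lit 245) (nat_lit 1) (nat_lit 11) (nat_lit 13) L104718 (by decide +kernel)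
theorem L104720 : W_39 (nat_lit 5) (nat_lit 0x20001e000a00000000400020001000180000000000000000000000000000000) (nat_lit 0x0) (nat_lit 0x100008000e0000000100014000200000000000000000000000000000000000000000000) := T_39 (nat_lit 177) (nat_lit 194) (nat_lit 5) (nat_lit 8) (nat_lit 7) L104719 (by decide +kernel)
theorem L104721 : W_39 (nat_lit 6) (nat_lit 0x1e000a00000000400020001000180000000000000000000000000000000) (nat_lit 0x0) (nat_lit 0x100008006e0000000100014000200000000000000000000000000000000000000000000) := T_39 (nat_lit 249) (nat_lit 250) (nat_lit 3) (nat_lit 8) (nat_lit 13) L104720 (by decide +kernel)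
theorem L104722 : W_39 (nat_lit 7) (nat_lit 0x1e000a00000000400020001000080000000000000000000000000000000) (nat_lit 0x0) (nat_lit 0x100008006e0000000100014000200000000000100008000000000000000000000000000) := T_39 (nat_lit 128) (nat_lit 111) (nat_lit 6) (nat_lit 8) (nat_lit 10) L104721 (by decide +kernel)
theorem L104723 : W_39 (nat_lit 8) (nat_lit 0x1e000200000000400020001000080000000000000000000000000000000) (nat_lit 0x0) (nat_lit 0x100008006e0000001900014000200000000000100008000000000000000000000000000) := T_39 (nat_lit 215) (nat_lit 216) (nat_lit 2) (nat_lit 8) (nat_lit 13) L104722 (by decide +kernel)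
theorem L104724 : W_39 (nat_lit 2) (nat_lit 0x80024001e0002000000004000200010000c0000000000000000000000000000000) (nat_lit 0x0) (nat_lit 0x80000000100010000000000000000000000000000000000000000000000000) := D_39 (nat_lit 196) (nat_lit 247) (nat_lit 212) (nat_lit 5) (nat_lit 9) (nat_lit 11) (nat_lit 6) (nat_lit 8) (nat_lit 15) (by decide +kernel)
theorem L104725 : W_39 (nat_lit 3) (nat_lit 0x24001e0002000000004000200010000c0000000000000000000000000000000) (nat_lit 0x0) (nat_lit 0x10000800080000000100010000000000000000000000000000000000000000000000000) := T_39 (nat_lit 263) (nat_lit 280) (nat_lit 6) (nat_lit 8) (nat_lit 16) L104724 (by decide +kernel)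
theorem L104726 : W_39 (nat_lit 4) (nat_lit 0x4001e0002000000004000200010000c0000000000000000000000000000000) (nat_lit 0x0) (nat_lit 0x10000800680000000100010000000000000000000000000000000000000000000000000) := T_39 (nat_lit 249) (nat_lit 250) (nat_lit 3) (nat_lit 8) (nat_lit 13) L104725 (by decide +kernel)
theorem L104727 : W_39 (nat_lit 5) (nat_lit 0x1e0002000000004000200010000c0000000000000000000000000000000) (nat_lit 0x0) (nat_lit 0x100008006e0000000100010000000000000000000000000000000000000000000000000) := T_39 (nat_lit 246) (nat_lit 245) (nat_lit 1) (nat_lit 11) (nat_lit 13) L104726 (by decide +kernel)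
theorem L104728 : W_39 (nat_lit 6) (nat_lit 0x1e000200000000400020001000080000000000000000000000000000000) (nat_lit 0x0) (nat_lit 0x100008006e0000000100010000000000000000040002000000000000000000000000000) := T_39 (nat_lit 126) (nat_lit 109) (nat_lit 4) (nat_lit 8) (nat_lit 10) L104727 (by decide +kernel)
theorem L104729 : W_39 (nat_lit 4) (nat_lit 0x180024001e000b000000004000200010001c0000000000000000000000000000000) (nat_lit 0x0) (nat_lit 0xc8006400100000000000000000000000000000000000000000000000000000000000000) := T_39 (nat_lit 262) (nat_lit 279) (nat_lit 5) (nat_lit 8) (nat_lit 12) L104716 (by decide +kernel)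
theorem L104730 : W_39 (nat_lit 5) (nat_lit 0x80024001e000b000000004000200010001c0000000000000000000000000000000) (nat_lit 0x0) (nat_lit 0xe8007400100000000000000000000000000000000000000000000000000000000000000) := T_39 (nat_lit 264) (nat_lit 281) (nat_lit 7) (nat_lit 8) (nat_lit 12) L104729 (by decide +kernel)
theorem L104731 : W_39 (nat_lit 6) (nat_lit 0x80024001e000a000000004000200010001c0000000000000000000000000000000) (nat_lit 0x0) (nat_lit 0xe8007400100000000100010000000000000000000000000000000000000000000000000) := T_39 (nat_lit 212) (nat_lit 196) (nat_lit 6) (nat_lit 8) (nat_lit 15) L104730 (by decide +kernel)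
theorem L104732 : W_39 (nat_lit 7) (nat_lit 0x24001e000a000000004000200010001c0000000000000000000000000000000) (nat_lit 0x0) (nat_lit 0xf8007c00100000000100010000000000000000000000000000000000000000000000000) := T_39 (nat_lit 263) (nat_lit 280) (nat_lit 6) (nat_lit 8) (nat_lit 16) L104731 (by decide +kernel)
theorem L104733 : W_39 (nat_lit 8) (nat_lit 0x24001e0002000000004000200010001c0000000000000000000000000000000) (nat_lit 0x0) (nat_lit 0xf8007c00100000001900010000000000000000000000000000000000000000000000000) := T_39 (nat_lit 215) (nat_lit 216) (nat_lit 2) (nat_lit 8) (nat_lit 13) L104732 (by decide +kernel)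
theorem L104734 : W_39 (nat_lit 9) (nat_lit 0x20001e0002000000004000200010001c0000000000000000000000000000000) (nat_lit 0x0) (nat_lit 0xf8007c00160000001900010000000000000000000000000000000000000000000000000) := T_39 (nat_lit 246) (nat_lit 245) (nat_lit 1) (nat_lit 11) (nat_lit 13) L104733 (by decide +kernel)
theorem L104735 : W_39 (nat_lit 10) (nat_lit 0x20001e0002000000004000200010000c0000000000000000000000000000000) (nat_lit 0x0) (nat_lit 0xf8007c00160000001900010000000000000000100008000000000000000000000000000) := T_39 (nat_lit 128) (nat_lit 111) (nat_lit 6) (nat_lit 8) (nat_lit 10) L104734 (by decide +kernel)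
theorem L104736 : W_39 (nat_lit 11) (nat_lit 0x1e0002000000004000200010000c0000000000000000000000000000000) (nat_lit 0x0) (nat_lit 0xf8007c00760000001900010000000000000000100008000000000000000000000000000) := T_39 (nat_lit 249) (nat_lit 250) (nat_lit 3) (nat_lit 8) (nat_lit 13) L104735 (by decide +kernel)
theorem L104737 : W_39 (nat_lit 12) (nat_lit 0x1e000200000000400020001000080000000000000000000000000000000) (nat_lit 0x0) (nat_lit 0xf8007c0076000000190001000000000000000014000a000000000000000000000000000) := T_39 (nat_lit 126) (nat_lit 109) (nat_lit 4) (nat_lit 8) (nat_lit 10) L104736 (by decide +kernel)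
theorem L104738 : W_39 (nat_lit 2) (nat_lit 0x200030001e000200000000600020001000180000000000000000000000000000000) (nat_lit 0x0) (nat_lit 0x80000000400010000000000000000000000000000000000000000000000000) := D_39 (nat_lit 196) (nat_lit 214) (nat_lit 247) (nat_lit 4) (nat_lit 10) (nat_lit 15) (nat_lit 7) (nat_lit 9) (nat_lit 11) (by decide +kernel)
theorem L104739 : W_39 (nat_lit 3) (nat_lit 0x30001e000200000000600020001000180000000000000000000000000000000) (nat_lit 0x0) (nat_lit 0x40002000080000000400010000000000000000000000000000000000000000000000000) := T_39 (nat_lit 265) (nat_lit 282) (nat_lit 4) (nat_lit 10) (nat_lit 16) L104738 (by decide +kernel)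
theorem L104740 : W_39 (nat_lit 4) (nat_lit 0x30001e000200000000400020001000180000000000000000000000000000000) (nat_lit 0x0) (nat_lit 0x40002000080000000400014000200000000000000000000000000000000000000000000) := T_39 (nat_lit 177) (nat_lit 194) (nat_lit 5) (nat_lit 8) (nat_lit 7) L104739 (by decide +kernel)
theorem L104741 : W_39 (nat_lit 5) (nat_lit 0x10001e000200000000400020001000180000000000000000000000000000000) (nat_lit 0x0) (nat_lit 0x40002000680000000400014000200000000000000000000000000000000000000000000) := T_39 (nat_lit 249) (nat_lit 250) (nat_lit 3) (nat_lit 8) (nat_lit 13) L104740 (by decide +kernel)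
theorem L104742 : W_39 (nat_lit 6) (nat_lit 0x10001e000200000000400020001000080000000000000000000000000000000) (nat_lit 0x0) (nat_lit 0x40002000680000000400014000200000000000100008000000000000000000000000000) := T_39 (nat_lit 128) (nat_lit 111) (nat_lit 6) (nat_lit 8) (nat_lit 10) L104741 (by decide +kernel)
theorem L104743 : W_39 (nat_lit 2) (nat_lit 0x30001e000e000600006000200010001c0000000000000000000000000000000) (nat_lit 0x0) (nat_lit 0x180004000000000000000000000000000000000000000000000) := D_39 (nat_lit 199) (nat_lit 182) (nat_lit 200) (nat_lit 6) (nat_lit 11) (nat_lit 14) (nat_lit 1) (nat_lit 13) (nat_lit 11) (by decide +kernel)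
theorem L104744 : W_39 (nat_lit 3) (nat_lit 0x30001e000a000600006000200010001c0000000000000000000000000000000) (nat_lit 0x0) (nat_lit 0x4000000000000400180004000000000000000000000000000000000000000000000) := T_39 (nat_lit 214) (nat_lit 266) (nat_lit 7) (nat_lit 10) (nat_lit 11) L104743 (by decide +kernel)
theorem L104745 : W_39 (nat_lit 4) (nat_lit 0x30001e000a000400006000200010001c0000000000000000000000000000000) (nat_lit 0x0) (nat_lit 0x40000000000004001a0005000000000000000000000000000000000000000000000) := T_39 (nat_lit 197) (nat_lit 180) (nat_lit 4) (nat_lit 11) (nat_lit 14) L104744 (by decide +kernel)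
theorem L104746 : W_39 (nat_lit 5) (nat_lit 0x10001e000a000400006000200010001c0000000000000000000000000000000) (nat_lit 0x0) (nat_lit 0x40006000000004001a0005000000000000000000000000000000000000000000000) := T_39 (nat_lit 249) (nat_lit 250) (nat_lit 3) (nat_lit 8) (nat_lit 13) L104745 (by decide +kernel)
theorem L104747 : W_39 (nat_lit 6) (nat_lit 0x10001e000a000400004000200010001c0000000000000000000000000000000) (nat_lit 0x0) (nat_lit 0x40006000000004001a4005200000000000000000000000000000000000000000000) := T_39 (nat_lit 177) (nat_lit 194) (nat_lit 5) (nat_lit 8) (nat_lit 7) L104746 (by decide +kernel)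
theorem L104748 : W_39 (nat_lit 7) (nat_lit 0x10001e000a000000004000200010001c0000000000000000000000000000000) (nat_lit 0x0) (nat_lit 0x40006000000004001e4007200000000000000000000000000000000000000000000) := T_39 (nat_lit 198) (nat_lit 181) (nat_lit 5) (nat_lit 11) (nat_lit 10) L104747 (by decide +kernel)
theorem L104749 : W_39 (nat_lit 8) (nat_lit 0x10001e0002000000004000200010001c0000000000000000000000000000000) (nat_lit 0x0) (nat_lit 0x4000600000001c001e4007200000000000000000000000000000000000000000000) := T_39 (nat_lit 215) (nat_lit 216) (nat_lit 2) (nat_lit 8) (nat_lit 13) L104748 (by decide +kernel)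
theorem L104750 : W_39 (nat_lit 9) (nat_lit 0x10001e0002000000004000200010000c0000000000000000000000000000000) (nat_lit 0x0) (nat_lit 0x4000600000001c001e4007200000000000100008000000000000000000000000000) := T_39 (nat_lit 128) (nat_lit 111) (nat_lit 6) (nat_lit 8) (nat_lit 10) L104749 (by decide +kernel)
theorem L104751 : W_39 (nat_lit 10) (nat_lit 0x10001e000200000000400020001000080000000000000000000000000000000) (nat_lit 0x0) (nat_lit 0x4000600000001c001e400720000000000014000a000000000000000000000000000) := T_39 (nat_lit 126) (nat_lit 109) (nat_lit 4) (nat_lit 8) (nat_lit 10) L104750 (by decide +kernel)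
theorem L104752 : W_39 (nat_lit 11) (nat_lit 0x1e000200000000400020001000080000000000000000000000000000000) (nat_lit 0x0) (nat_lit 0x40006000780000001c001f400720000000000014000a000000000000000000000000000) := Q_39 (nat_lit 248) (C_39 L104351 (C_39 L104742 (C_39 L104312 (C_39 L104751 N_39)))) (by decide +kernel)
theorem L104753 : W_39 (nat_lit 7) (nat_lit 0x1c000200000000400020001000080000000000000000000000000000000) (nat_lit 0x0) (nat_lit 0xfe006200780000400020000000000014000a000000000000000000000000000) := T_39 (nat_lit 126) (nat_lit 109) (nat_lit 4) (nat_lit 8) (nat_lit 10) L104385 (by decide +kernel)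
theorem L104754 : W_39 (nat_lit 6) (nat_lit 0x1c000200000000400020001000080000000000000000000000000000000) (nat_lit 0x0) (nat_lit 0x1c00060003500000000000000000000100008000000000000000000000000000) := T_39 (nat_lit 233) (nat_lit 212) (nat_lit 0) (nat_lit 12) (nat_lit 13) L104260 (by decide +kernel)
theorem L104755 : W_39 (nat_lit 6) (nat_lit 0x1c000200000000400020001000080000000000000000000000000000000) (nat_lit 0x0) (nat_lit 0xe0022003900004000200000000000000000000000000000000000000000000) := T_39 (nat_lit 233) (nat_lit 212) (nat_lit 0) (nat_lit 12) (nat_lit 13) L104236 (by decide +kernel)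
theorem L104756 : W_39 (nat_lit 4) (nat_lit 0x1c000200000000400020001000080000000000000000000000000000000) (nat_lit 0x0) (nat_lit 0x1c0060000500000000000000000000000000000000000000000000000000000) := T_39 (nat_lit 233) (nat_lit 212) (nat_lit 0) (nat_lit 12) (nat_lit 13) L104232 (by decide +kernel)
theorem L104757 : W_39 (nat_lit 2) (nat_lit 0x80004001e000a00000000600020001000180000000000000000000000000000000) (nat_lit 0x0) (nat_lit 0x80000000100010000000000000000000000000000000000000000000000000) := D_39 (nat_lit 196) (nat_lit 247) (nat_lit 212) (nat_lit 5) (nat_lit 9) (nat_lit 11) (nat_lit 6) (nat_lit 8) (nat_lit 15) (by decide +kernel)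
theorem L104758 : W_39 (nat_lit 3) (nat_lit 0x4001e000a00000000600020001000180000000000000000000000000000000) (nat_lit 0x0) (nat_lit 0x10000800080000000100010000000000000000000000000000000000000000000000000) := T_39 (nat_lit 263) (nat_lit 280) (nat_lit 6) (nat_lit 8) (nat_lit 16) L104757 (by decide +kernel)
theorem L104759 : W_39 (nat_lit 4) (nat_lit 0x4001e000a00000000400020001000180000000000000000000000000000000) (nat_lit 0x0) (nat_lit 0x10000800080000000100014000200000000000000000000000000000000000000000000) := T_39 (nat_lit 177) (nat_lit 194) (nat_lit 5) (nat_lit 8) (nat_lit 7) L104758 (by decide +kernel)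
theorem L104760 : W_39 (nat_lit 5) (nat_lit 0x1e000a00000000400020001000180000000000000000000000000000000) (nat_lit 0x0) (nat_lit 0x100008000e0000000100014000200000000000000000000000000000000000000000000) := T_39 (nat_lit 246) (nat_lit 245) (nat_lit 1) (nat_lit 11) (nat_lit 13) L104759 (by decide +kernel)
theorem L104761 : W_39 (nat_lit 6) (nat_lit 0x1e000a00000000400020001000080000000000000000000000000000000) (nat_lit 0x0) (nat_lit 0x100008000e0000000100014000200000000000100008000000000000000000000000000) := T_39 (nat_lit 128) (nat_lit 111) (nat_lit 6) (nat_lit 8) (nat_lit 10) L104760 (by decide +kernel)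
theorem L104762 : W_39 (nat_lit 7) (nat_lit 0x1e000200000000400020001000080000000000000000000000000000000) (nat_lit 0x0) (nat_lit 0x100008000e0000001900014000200000000000100008000000000000000000000000000) := T_39 (nat_lit 215) (nat_lit 216) (nat_lit 2) (nat_lit 8) (nat_lit 13) L104761 (by decide +kernel)
theorem L104763 : W_39 (nat_lit 13) (nat_lit 0x1c000200000000400020001000080000000000000000000000000000000) (nat_lit 0x0) (nat_lit 0xf800fc007e0002001d001f400720000000000014000a000000000000000000000000000) := Q_39 (nat_lit 229) (C_39 L104338 (C_39 L104752 (C_39 L104723 (C_39 L104728 (C_39 L104737 (C_39 L104762 N_39)))))) (by decide +kernel)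
theorem L104764 : W_39 (nat_lit 6) (nat_lit 0x1c000200000000400020001000180000000000000000000000000000000) (nat_lit 0x0) (nat_lit 0x1c0060007100000000000000000000040002000000000000000000000000000) := T_39 (nat_lit 233) (nat_lit 212) (nat_lit 0) (nat_lit 12) (nat_lit 13) L104380 (by decide +kernel)
theorem L104765 : W_39 (nat_lit 7) (nat_lit 0x1c000200000000400020001000080000000000000000000000000000000) (nat_lit 0x0) (nat_lit 0x1c006000710000000000000000000014000a000000000000000000000000000) := T_39 (nat_lit 128) (nat_lit 111) (nat_lit 6) (nat_lit 8) (nat_lit 10) L104764 (by decide +kernel)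
theorem L104766 : W_39 (nat_lit 2) (nat_lit 0x10000300050003c001e000800004000200010000c0000000000000000000000000000000) (nat_lit 0x0) (nat_lit 0x80004000200000000000000000000000000000000000000000000000000000000000000) := D_39 (nat_lit 266) (nat_lit 283) (nat_lit 249) (nat_lit 7) (nat_lit 10) (nat_lit 12) (nat_lit 6) (nat_lit 11) (nat_lit 15) (by decide +kernel)
theorem L104767 : W_39 (nat_lit 3) (nat_lit 0x10000300050003c001e000000004000200010000c0000000000000000000000000000000) (nat_lit 0x0) (nat_lit 0x80004000200000000000180000000000000000000000000000000000000000000000000) := T_39 (nat_lit 199) (nat_lit 200) (nat_lit 2) (nat_lit 9) (nat_lit 12) L104766 (by decide +kernel)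
theorem L104768 : W_39 (nat_lit 4) (nat_lit 0x300050003c001e000000004000200010000c0000000000000000000000000000000) (nat_lit 0x0) (nat_lit 0x18000c000200000000000180000000000000000000000000000000000000000000000000) := T_39 (nat_lit 284) (nat_lit 267) (nat_lit 4) (nat_lit 12) (nat_lit 16) L104767 (by decide +kernel)
theorem L104769 : W_39 (nat_lit 5) (nat_lit 0x300050003c0016000000004000200010000c0000000000000000000000000000000) (nat_lit 0x0) (nat_lit 0x18000c0002000000008001c0000000000000000000000000000000000000000000000000) := T_39 (nat_lit 215) (nat_lit 198) (nat_lit 6) (nat_lit 10) (nat_lit 15) L104768 (by decide +kernel)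
theorem L104770 : W_39 (nat_lit 6) (nat_lit 0x200050003c0016000000004000200010000c0000000000000000000000000000000) (nat_lit 0x0) (nat_lit 0x1a000d0002000000008001c0000000000000000000000000000000000000000000000000) := T_39 (nat_lit 264) (nat_lit 281) (nat_lit 5) (nat_lit 10) (nat_lit 12) L104769 (by decide +kernel)
theorem L104771 : W_39 (nat_lit 7) (nat_lit 0x200050003c0012000000004000200010000c0000000000000000000000000000000) (nat_lit 0x0) (nat_lit 0x1a000d000200000000c001d0000000000000000000000000000000000000000000000000) := T_39 (nat_lit 214) (nat_lit 196) (nat_lit 4) (nat_lit 10) (nat_lit 15) L104770 (by decide +kernel)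
theorem L104772 : W_39 (nat_lit 8) (nat_lit 0x200050003c001200000000400020001000080000000000000000000000000000000) (nat_lit 0x0) (nat_lit 0x1a000d000200000000c001d0000000000000000040002000000000000000000000000000) := T_39 (nat_lit 126) (nat_lit 109) (nat_lit 4) (nat_lit 8) (nat_lit 10) L104771 (by decide +kernel)
theorem L104773 : W_39 (nat_lit 9) (nat_lit 0x200040003c001200000000400020001000080000000000000000000000000000000) (nat_lit 0x0) (nat_lit 0x1e000d000300000000c001d0000000000000000040002000000000000000000000000000) := T_39 (nat_lit 248) (nat_lit 282) (nat_lit 4) (nat_lit 10) (nat_lit 16) L104772 (by decide +kernel)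
theorem L104774 : W_39 (nat_lit 10) (nat_lit 0x200000003c001200000000400020001000080000000000000000000000000000000) (nat_lit 0x0) (nat_lit 0x1e000d000f00000000c001d0000000000000000040002000000000000000000000000000) := T_39 (nat_lit 250) (nat_lit 251) (nat_lit 3) (nat_lit 9) (nat_lit 13) L104773 (by decide +kernel)
theorem L104775 : W_39 (nat_lit 11) (nat_lit 0x200000003c000200000000400020001000080000000000000000000000000000000) (nat_lit 0x0) (nat_lit 0x1e000d000f00000003c001d0000000000000000040002000000000000000000000000000) := T_39 (nat_lit 216) (nat_lit 217) (nat_lit 2) (nat_lit 9) (nat_lit 13) L104774 (by decide +kernel)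
theorem L104776 : W_39 (nat_lit 2) (nat_lit 0x4000200000003c000200000000400020001000080000000000000000000000000000000) (nat_lit 0x0) (nat_lit 0x10000c0000000000000000000000000000000000000000000000000000000000000) := D_39 (nat_lit 247) (nat_lit 246) (nat_lit 264) (nat_lit 1) (nat_lit 12) (nat_lit 13) (nat_lit 7) (nat_lit 9) (nat_lit 12) (by decide +kernel)
theorem L104777 : W_39 (nat_lit 3) (nat_lit 0x200000003c000200000000400020001000080000000000000000000000000000000) (nat_lit 0x0) (nat_lit 0x400010001c0000000000000000000000000000000000000000000000000000000000000) := T_39 (nat_lit 282) (nat_lit 248) (nat_lit 4) (nat_lit 10) (nat_lit 16) L104776 (by decide +kernel)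
theorem L104778 : W_39 (nat_lit 2) (nat_lit 0x200010003c0012000000004000200010000c0000000000000000000000000000000) (nat_lit 0x0) (nat_lit 0xc0000000000010000000000000000000000000000000000000000000000000) := D_39 (nat_lit 247) (nat_lit 246) (nat_lit 196) (nat_lit 1) (nat_lit 12) (nat_lit 13) (nat_lit 7) (nat_lit 9) (nat_lit 11) (by decide +kernel)
theorem L104779 : W_39 (nat_lit 3) (nat_lit 0x200000003c0012000000004000200010000c0000000000000000000000000000000) (nat_lit 0x0) (nat_lit 0x400000001c0000000000010000000000000000000000000000000000000000000000000) := T_39 (nat_lit 248) (nat_lit 282) (nat_lit 4) (nat_lit 10) (nat_lit 16) L104778 (by decide +kernel)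
theorem L104780 : W_39 (nat_lit 4) (nat_lit 0x200000003c001200000000400020001000080000000000000000000000000000000) (nat_lit 0x0) (nat_lit 0x400000001c0000000000010000000000000000040002000000000000000000000000000) := T_39 (nat_lit 126) (nat_lit 109) (nat_lit 4) (nat_lit 8) (nat_lit 10) L104779 (by decide +kernel)
theorem L104781 : W_39 (nat_lit 5) (nat_lit 0x200000003c000200000000400020001000080000000000000000000000000000000) (nat_lit 0x0) (nat_lit 0x400000001c0000003000010000000000000000040002000000000000000000000000000) := T_39 (nat_lit 216) (nat_lit 217) (nat_lit 2) (nat_lit 9) (nat_lit 13) L104780 (by decide +kernel)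
theorem L104782 : W_39 (nat_lit 2) (nat_lit 0x300008003c0012000000006000200010001c0000000000000000000000000000000) (nat_lit 0x0) (nat_lit 0x20000000000000000400020000000000000000000000000000000000000000000000000) := D_39 (nat_lit 214) (nat_lit 281) (nat_lit 197) (nat_lit 6) (nat_lit 9) (nat_lit 16) (nat_lit 6) (nat_lit 9) (nat_lit 15) (by decide +kernel)
theorem L104783 : W_39 (nat_lit 3) (nat_lit 0x200008003c0012000000006000200010001c0000000000000000000000000000000) (nat_lit 0x0) (nat_lit 0x60001000000000000400020000000000000000000000000000000000000000000000000) := T_39 (nat_lit 264) (nat_lit 282) (nat_lit 7) (nat_lit 9) (nat_lit 12) L104782 (by decide +kernel)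
theorem L104784 : W_39 (nat_lit 4) (nat_lit 0x200008003c0012000000006000200010000c0000000000000000000000000000000) (nat_lit 0x0) (nat_lit 0x60001000000000000400020000000000000000100008000000000000000000000000000) := T_39 (nat_lit 128) (nat_lit 111) (nat_lit 6) (nat_lit 8) (nat_lit 10) L104783 (by decide +kernel)
theorem L104785 : W_39 (nat_lit 5) (nat_lit 0x200000003c0012000000006000200010000c0000000000000000000000000000000) (nat_lit 0x0) (nat_lit 0x600010000c0000000400020000000000000000100008000000000000000000000000000) := T_39 (nat_lit 247) (nat_lit 246) (nat_lit 1) (nat_lit 12) (nat_lit 13) L104784 (by decide +kernel)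
theorem L104786 : W_39 (nat_lit 6) (nat_lit 0x200000003c0002000000006000200010000c0000000000000000000000000000000) (nat_lit 0x0) (nat_lit 0x600010000c0000003400020000000000000000100008000000000000000000000000000) := T_39 (nat_lit 216) (nat_lit 217) (nat_lit 2) (nat_lit 9) (nat_lit 13) L104785 (by decide +kernel)
theorem L104787 : W_39 (nat_lit 7) (nat_lit 0x200000003c000200000000600020001000080000000000000000000000000000000) (nat_lit 0x0) (nat_lit 0x600010000c000000340002000000000000000014000a000000000000000000000000000) := T_39 (nat_lit 126) (nat_lit 109) (nat_lit 4) (nat_lit 8) (nat_lit 10) L104786 (by decide +kernel)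
theorem L104788 : W_39 (nat_lit 8) (nat_lit 0x200000003c000200000000400020001000080000000000000000000000000000000) (nat_lit 0x0) (nat_lit 0x600010000c000000340002400020000000000014000a000000000000000000000000000) := T_39 (nat_lit 177) (nat_lit 194) (nat_lit 5) (nat_lit 8) (nat_lit 7) L104787 (by decide +kernel)
theorem L104789 : W_39 (nat_lit 2) (nat_lit 0x780048003c001200030000600020001000080000000000000000000000000000000) (nat_lit 0x0) (nat_lit 0x180008000000000000000000000000000000000000000000000000000000000000000000) := D_39 (nat_lit 283) (nat_lit 284) (nat_lit 267) (nat_lit 3) (nat_lit 8) (nat_lit 15) (nat_lit 5) (nat_lit 12) (nat_lit 12) (by decide +kernel)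
theorem L104790 : W_39 (nat_lit 3) (nat_lit 0x380048003c001200030000600020001000080000000000000000000000000000000) (nat_lit 0x0) (nat_lit 0x18000c000200000000000000000000000000000000000000000000000000000000000000) := T_39 (nat_lit 266) (nat_lit 249) (nat_lit 2) (nat_lit 8) (nat_lit 15) L104789 (by decide +kernel)
theorem L104791 : W_39 (nat_lit 4) (nat_lit 0x380048003c000200030000600020001000080000000000000000000000000000000) (nat_lit 0x0) (nat_lit 0x18000c000200000003000000000000000000000000000000000000000000000000000000) := T_39 (nat_lit 216) (nat_lit 217) (nat_lit 2) (nat_lit 9) (nat_lit 13) L104790 (by decide +kernel)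
theorem L104792 : W_39 (nat_lit 5) (nat_lit 0x380008003c000200030000600020001000080000000000000000000000000000000) (nat_lit 0x0) (nat_lit 0x18000c000e00000003000000000000000000000000000000000000000000000000000000) := T_39 (nat_lit 250) (nat_lit 251) (nat_lit 3) (nat_lit 9) (nat_lit 13) L104791 (by decide +kernel)
theorem L104793 : W_39 (nat_lit 6) (nat_lit 0x300008003c000200030000600020001000080000000000000000000000000000000) (nat_lit 0x0) (nat_lit 0x19000c800e00000003000000000000000000000000000000000000000000000000000000) := T_39 (nat_lit 263) (nat_lit 280) (nat_lit 5) (nat_lit 9) (nat_lit 12) L104792 (by decide +kernel)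
theorem L104794 : W_39 (nat_lit 7) (nat_lit 0x200008003c000200030000600020001000080000000000000000000000000000000) (nat_lit 0x0) (nat_lit 0x19000d800e00000003400000000000000000000000000000000000000000000000000000) := T_39 (nat_lit 264) (nat_lit 214) (nat_lit 6) (nat_lit 9) (nat_lit 15) L104793 (by decide +kernel)
theorem L104795 : W_39 (nat_lit 8) (nat_lit 0x200008003c000200010000600020001000080000000000000000000000000000000) (nat_lit 0x0) (nat_lit 0x19000d800e00000003400020001000000000000000000000000000000000000000000000) := T_39 (nat_lit 197) (nat_lit 180) (nat_lit 6) (nat_lit 9) (nat_lit 14) L104794 (by decide +kernel)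
theorem L104796 : W_39 (nat_lit 9) (nat_lit 0x200008003c000200000000600020001000080000000000000000000000000000000) (nat_lit 0x0) (nat_lit 0x19000d800f00000003400030001000000000000000000000000000000000000000000000) := T_39 (nat_lit 196) (nat_lit 248) (nat_lit 7) (nat_lit 9) (nat_lit 11) L104795 (by decide +kernel)
theorem L104797 : W_39 (nat_lit 10) (nat_lit 0x200008003c000200000000400020001000080000000000000000000000000000000) (nat_lit 0x0) (nat_lit 0x19000d800f00000003400034001200000000000000000000000000000000000000000000) := T_39 (nat_lit 177) (nat_lit 194) (nat_lit 5) (nat_lit 8) (nat_lit 7) L104796 (by decide +kernel)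
theorem L104798 : W_39 (nat_lit 11) (nat_lit 0x200000003c000200000000400020001000080000000000000000000000000000000) (nat_lit 0x0) (nat_lit 0x19000d800fc0000003400034001200000000000000000000000000000000000000000000) := T_39 (nat_lit 247) (nat_lit 246) (nat_lit 1) (nat_lit 12) (nat_lit 13) L104797 (by decide +kernel)
theorem L104799 : W_39 (nat_lit 12) (nat_lit 0x3c000200000000400020001000080000000000000000000000000000000) (nat_lit 0x0) (nat_lit 0x1f000f800fc0000003c001f400120000000000014000a000000000000000000000000000) := Q_39 (nat_lit 265) (C_39 L104775 (C_39 L104777 (C_39 L104781 (C_39 L104788 (C_39 L104798 N_39))))) (by decide +kernel)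
theorem L104800 : W_39 (nat_lit 13) (nat_lit 0x1c000200000000400020001000080000000000000000000000000000000) (nat_lit 0x0) (nat_lit 0x1f000f801fc0060007c001f400120000000000014000a000000000000000000000000000) := Q_39 (nat_lit 233) (C_39 L104260 (C_39 L104232 (C_39 L104256 (C_39 L104799 N_39)))) (by decide +kernel)
theorem L104801 : W_39 (nat_lit 2) (nat_lit 0x1f000a00000000400020001000080000000000000000000000000000000) (nat_lit 0x0) (nat_lit 0x700000000000000000000000000000000000000000000000000000000000000) := D_39 (nat_lit 249) (nat_lit 248) (nat_lit 250) (nat_lit 3) (nat_lit 7) (nat_lit 13) (nat_lit 3) (nat_lit 8) (nat_lit 13) (by decide +kernel)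
theorem L104802 : W_39 (nat_lit 3) (nat_lit 0x1e000a00000000400020001000080000000000000000000000000000000) (nat_lit 0x0) (nat_lit 0x700001000400000000000000000000000000000000000000000000000000000) := T_39 (nat_lit 228) (nat_lit 214) (nat_lit 2) (nat_lit 7) (nat_lit 13) L104801 (by decide +kernel)
theorem L104803 : W_39 (nat_lit 4) (nat_lit 0x1e000200000000400020001000080000000000000000000000000000000) (nat_lit 0x0) (nat_lit 0x700001001c00000000000000000000000000000000000000000000000000000) := T_39 (nat_lit 215) (nat_lit 216) (nat_lit 2) (nat_lit 8) (nat_lit 13) L104802 (by decide +kernel)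
theorem L104804 : W_39 (nat_lit 8) (nat_lit 0x1c000200000000400020001000080000000000000000000000000000000) (nat_lit 0x0) (nat_lit 0x100008007f0003001d00014000200000000000100008000000000000000000000000000) := Q_39 (nat_lit 229) (C_39 L104762 (C_39 L104359 (C_39 L104355 (C_39 L104803 N_39)))) (by decide +kernel)
theorem L104805 : W_39 (nat_lit 2) (nat_lit 0x1f000a00000000600020001000080000000000000000000000000000000) (nat_lit 0x0) (nat_lit 0x70000000000000000000000000000000000000000000000000000000000000) := D_39 (nat_lit 245) (nat_lit 244) (nat_lit 246) (nat_lit 1) (nat_lit 10) (nat_lit 13) (nat_lit 1) (nat_lit 11) (nat_lit 13) (by decide +kernel)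
theorem L104806 : W_39 (nat_lit 3) (nat_lit 0x1e000a00000000600020001000080000000000000000000000000000000) (nat_lit 0x0) (nat_lit 0x70001000400000000000000000000000000000000000000000000000000000) := T_39 (nat_lit 228) (nat_lit 214) (nat_lit 2) (nat_lit 7) (nat_lit 13) L104805 (by decide +kernel)
theorem L104807 : W_39 (nat_lit 4) (nat_lit 0x1e000200000000600020001000080000000000000000000000000000000) (nat_lit 0x0) (nat_lit 0x70001001c00000000000000000000000000000000000000000000000000000) := T_39 (nat_lit 215) (nat_lit 216) (nat_lit 2) (nat_lit 8) (nat_lit 13) L104806 (by decide +kernel)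
theorem L104808 : W_39 (nat_lit 5) (nat_lit 0x1e000200000000400020001000080000000000000000000000000000000) (nat_lit 0x0) (nat_lit 0x70001001c00004000200000000000000000000000000000000000000000000) := T_39 (nat_lit 177) (nat_lit 194) (nat_lit 5) (nat_lit 8) (nat_lit 7) L104807 (by decide +kernel)
theorem L104809 : W_39 (nat_lit 7) (nat_lit 0x1c000200000000400020001000080000000000000000000000000000000) (nat_lit 0x0) (nat_lit 0x100008007f0003001d00014000200000000000040002000000000000000000000000000) := Q_39 (nat_lit 229) (C_39 L104803 (C_39 L104728 (C_39 L104808 N_39))) (by decide +kernel)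
theorem L104810 : W_39 (nat_lit 8) (nat_lit 0x1c000200000000400020001000080000000000000000000000000000000) (nat_lit 0x0) (nat_lit 0x4000f001e2007400084004200000000000040002000000000000000000000000000) := T_39 (nat_lit 177) (nat_lit 194) (nat_lit 5) (nat_lit 8) (nat_lit 7) L104439 (by decide +kernel)
theorem L104811 : W_39 (nat_lit 2) (nat_lit 0x1f000a000000004000200010000c0000000000000000000000000000000) (nat_lit 0x0) (nat_lit 0x70000000000000000000000000000000000000000000000000000000000000) := D_39 (nat_lit 245) (nat_lit 244) (nat_lit 246) (nat_lit 1) (nat_lit 10) (nat_lit 13) (nat_lit 1) (nat_lit 11) (nat_lit 13) (by decide +kernel)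
theorem L104812 : W_39 (nat_lit 3) (nat_lit 0x1e000a000000004000200010000c0000000000000000000000000000000) (nat_lit 0x0) (nat_lit 0x70001000400000000000000000000000000000000000000000000000000000) := T_39 (nat_lit 228) (nat_lit 214) (nat_lit 2) (nat_lit 7) (nat_lit 13) L104811 (by decide +kernel)
theorem L104813 : W_39 (nat_lit 4) (nat_lit 0x1e0002000000004000200010000c0000000000000000000000000000000) (nat_lit 0x0) (nat_lit 0x70001001c00000000000000000000000000000000000000000000000000000) := T_39 (nat_lit 215) (nat_lit 216) (nat_lit 2) (nat_lit 8) (nat_lit 13) L104812 (by decide +kernel)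
theorem L104814 : W_39 (nat_lit 5) (nat_lit 0x1e000200000000400020001000080000000000000000000000000000000) (nat_lit 0x0) (nat_lit 0x70001001c00000000000000000000040002000000000000000000000000000) := T_39 (nat_lit 126) (nat_lit 109) (nat_lit 4) (nat_lit 8) (nat_lit 10) L104813 (by decide +kernel)
theorem L104815 : W_39 (nat_lit 13) (nat_lit 0x1c000200000000400020001000080000000000000000000000000000000) (nat_lit 0x0) (nat_lit 0xf8007c007f0003001d0001000000000000000014000a000000000000000000000000000) := Q_39 (nat_lit 229) (C_39 L104803 (C_39 L104737 (C_39 L104728 (C_39 L104814 N_39)))) (by decide +kernel)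
theorem L104816 : W_39 (nat_lit 6) (nat_lit 0x1c000200000000400020001000080000000000000000000000000000000) (nat_lit 0x0) (nat_lit 0x1fc0062003c00000000000000000000100008000000000000000000000000000) := T_39 (nat_lit 128) (nat_lit 111) (nat_lit 6) (nat_lit 8) (nat_lit 10) L104414 (by decide +kernel)
theorem L104817 : W_39 (nat_lit 4) (nat_lit 0x30001e0002000000004000200010000c0000000000000000000000000000000) (nat_lit 0x0) (nat_lit 0x40002000000000001800044000200000000000000000000000000000000000000000000) := T_39 (nat_lit 177) (nat_lit 194) (nat_lit 5) (nat_lit 8) (nat_lit 7) L104389 (by decide +kernel)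
theorem L104818 : W_39 (nat_lit 5) (nat_lit 0x20001e0002000000004000200010000c0000000000000000000000000000000) (nat_lit 0x0) (nat_lit 0x40002000100001001800044000200000000000000000000000000000000000000000000) := T_39 (nat_lit 248) (nat_lit 228) (nat_lit 3) (nat_lit 7) (nat_lit 13) L104817 (by decide +kernel)
theorem L104819 : W_39 (nat_lit 6) (nat_lit 0x1e0002000000004000200010000c0000000000000000000000000000000) (nat_lit 0x0) (nat_lit 0x40002000700001001800044000200000000000000000000000000000000000000000000) := T_39 (nat_lit 249) (nat_lit 250) (nat_lit 3) (nat_lit 8) (nat_lit 13) L104818 (by decide +kernel)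
theorem L104820 : W_39 (nat_lit 7) (nat_lit 0x1e000200000000400020001000080000000000000000000000000000000) (nat_lit 0x0) (nat_lit 0x40002000700001001800044000200000000000040002000000000000000000000000000) := T_39 (nat_lit 126) (nat_lit 109) (nat_lit 4) (nat_lit 8) (nat_lit 10) L104819 (by decide +kernel)
theorem L104821 : W_39 (nat_lit 8) (nat_lit 0x1c000200000000400020001000080000000000000000000000000000000) (nat_lit 0x0) (nat_lit 0x500028007f000300190005400020000000000014000a000000000000000000000000000) := Q_39 (nat_lit 229) (C_39 L104762 (C_39 L104728 (C_39 L104359 (C_39 L104820 N_39)))) (by decide +kernel)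
theorem L104822 : W_39 (nat_lit 8) (nat_lit 0x1c000200000000400020001000080000000000000000000000000000000) (nat_lit 0x0) (nat_lit 0x8000c00022003900044002200000000000100008000000000000000000000000000) := T_39 (nat_lit 233) (nat_lit 212) (nat_lit 0) (nat_lit 12) (nat_lit 13) L104249 (by decide +kernel)
theorem L104823 : W_39 (nat_lit 5) (nat_lit 0x1c000200000000600020001000080000000000000000000000000000000) (nat_lit 0x0) (nat_lit 0x1dc0060000100000000000000000000000000000000000000000000000000000) := T_39 (nat_lit 233) (nat_lit 212) (nat_lit 0) (nat_lit 12) (nat_lit 13) L104386 (by decide +kernel)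
theorem L104824 : W_39 (nat_lit 6) (nat_lit 0x1c000200000000400020001000080000000000000000000000000000000) (nat_lit 0x0) (nat_lit 0x1dc0060000100004000200000000000000000000000000000000000000000000) := T_39 (nat_lit 177) (nat_lit 194) (nat_lit 5) (nat_lit 8) (nat_lit 7) L104823 (by decide +kernel)
theorem L104825 : W_39 (nat_lit 13) (nat_lit 0x1c000200000000400020001000080000000000000000000000000000000) (nat_lit 0x0) (nat_lit 0xf8007c00770003001d0005400020000000000014000a000000000000000000000000000) := Q_39 (nat_lit 229) (C_39 L104814 (C_39 L104820 (C_39 L104808 (C_39 L104737 (C_39 L104359 N_39))))) (by decide +kernel)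
theorem L104826 : W_39 (nat_lit 2) (nat_lit 0x7c0002000000006000200010001c0000000000000000000000000000000) (nat_lit 0x0) (nat_lit 0x1c00000000000000000000000000000000000000000000000000000000000000) := D_39 (nat_lit 251) (nat_lit 250) (nat_lit 252) (nat_lit 3) (nat_lit 9) (nat_lit 13) (nat_lit 3) (nat_lit 10) (nat_lit 13) (by decide +kernel)
theorem L104827 : W_39 (nat_lit 3) (nat_lit 0x3c0002000000006000200010001c0000000000000000000000000000000) (nat_lit 0x0) (nat_lit 0x1c00040000400000000000000000000000000000000000000000000000000000) := T_39 (nat_lit 234) (nat_lit 214) (nat_lit 0) (nat_lit 13) (nat_lit 13) L104826 (by decide +kernel)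
theorem L104828 : W_39 (nat_lit 4) (nat_lit 0x1c0002000000006000200010001c0000000000000000000000000000000) (nat_lit 0x0) (nat_lit 0x1c00060000500000000000000000000000000000000000000000000000000000) := T_39 (nat_lit 233) (nat_lit 212) (nat_lit 0) (nat_lit 12) (nat_lit 13) L104827 (by decide +kernel)
theorem L104829 : W_39 (nat_lit 5) (nat_lit 0x1c000200000000600020001000180000000000000000000000000000000) (nat_lit 0x0) (nat_lit 0x1c00060000500000000000000000000040002000000000000000000000000000) := T_39 (nat_lit 126) (nat_lit 109) (nat_lit 4) (nat_lit 8) (nat_lit 10) L104828 (by decide +kernel)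
theorem L104830 : W_39 (nat_lit 6) (nat_lit 0x1c000200000000400020001000180000000000000000000000000000000) (nat_lit 0x0) (nat_lit 0x1c00060000500004000200000000000040002000000000000000000000000000) := T_39 (nat_lit 177) (nat_lit 194) (nat_lit 5) (nat_lit 8) (nat_lit 7) L104829 (by decide +kernel)
theorem L104831 : W_39 (nat_lit 7) (nat_lit 0x1c000200000000400020001000080000000000000000000000000000000) (nat_lit 0x0) (nat_lit 0x1c0006000050000400020000000000014000a000000000000000000000000000) := T_39 (nat_lit 128) (nat_lit 111) (nat_lit 6) (nat_lit 8) (nat_lit 10) L104830 (by decide +kernel)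
theorem L104832 : W_39 (nat_lit 2) (nat_lit 0x1000000014003f0016000000004000200010001c0000000000000000000000000000000) (nat_lit 0x0) (nat_lit 0x40002000000000000000010000000000000000000000000000000000000000000000000) := D_39 (nat_lit 265) (nat_lit 282) (nat_lit 196) (nat_lit 4) (nat_lit 10) (nat_lit 16) (nat_lit 4) (nat_lit 10) (nat_lit 15) (by decide +kernel)
theorem L104833 : W_39 (nat_lit 3) (nat_lit 0x1000000004003f0016000000004000200010001c0000000000000000000000000000000) (nat_lit 0x0) (nat_lit 0x40002000300000000000010000000000000000000000000000000000000000000000000) := T_39 (nat_lit 248) (nat_lit 249) (nat_lit 3) (nat_lit 7) (nat_lit 13) L104832 (by decide +kernel)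
theorem L104834 : W_39 (nat_lit 4) (nat_lit 0x1000000004003f001600000000400020001000180000000000000000000000000000000) (nat_lit 0x0) (nat_lit 0x40002000300000000000010000000000000000040002000000000000000000000000000) := T_39 (nat_lit 126) (nat_lit 109) (nat_lit 4) (nat_lit 8) (nat_lit 10) L104833 (by decide +kernel)
theorem L104835 : W_39 (nat_lit 5) (nat_lit 0x1000000004003e001600000000400020001000180000000000000000000000000000000) (nat_lit 0x0) (nat_lit 0x40002000300001800000010000000000000000040002000000000000000000000000000) := T_39 (nat_lit 228) (nat_lit 227) (nat_lit 2) (nat_lit 6) (nat_lit 13) L104834 (by decide +kernel)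
theorem L104836 : W_39 (nat_lit 6) (nat_lit 0x4003e001600000000400020001000180000000000000000000000000000000) (nat_lit 0x0) (nat_lit 0x50002800300001800000010000000000000000040002000000000000000000000000000) := T_39 (nat_lit 280) (nat_lit 263) (nat_lit 6) (nat_lit 8) (nat_lit 16) L104835 (by decide +kernel)
theorem L104837 : W_39 (nat_lit 7) (nat_lit 0x4003e001200000000400020001000180000000000000000000000000000000) (nat_lit 0x0) (nat_lit 0x50002800300041800400010000000000000000040002000000000000000000000000000) := T_39 (nat_lit 214) (nat_lit 234) (nat_lit 0) (nat_lit 13) (nat_lit 13) L104836 (by decide +kernel)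
theorem L104838 : W_39 (nat_lit 8) (nat_lit 0x3e001200000000400020001000180000000000000000000000000000000) (nat_lit 0x0) (nat_lit 0x50002800360041800400010000000000000000040002000000000000000000000000000) := T_39 (nat_lit 246) (nat_lit 245) (nat_lit 1) (nat_lit 11) (nat_lit 13) L104837 (by decide +kernel)
theorem L104839 : W_39 (nat_lit 9) (nat_lit 0x3c001200000000400020001000180000000000000000000000000000000) (nat_lit 0x0) (nat_lit 0x50002800360043800c00010000000000000000040002000000000000000000000000000) := T_39 (nat_lit 229) (nat_lit 215) (nat_lit 2) (nat_lit 8) (nat_lit 13) L104838 (by decide +kernel)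
theorem L104840 : W_39 (nat_lit 10) (nat_lit 0x3c000200000000400020001000180000000000000000000000000000000) (nat_lit 0x0) (nat_lit 0x50002800360043803c00010000000000000000040002000000000000000000000000000) := T_39 (nat_lit 216) (nat_lit 217) (nat_lit 2) (nat_lit 9) (nat_lit 13) L104839 (by decide +kernel)
theorem L104841 : W_39 (nat_lit 11) (nat_lit 0x3c000200000000400020001000080000000000000000000000000000000) (nat_lit 0x0) (nat_lit 0x50002800360043803c0001000000000000000014000a000000000000000000000000000) := T_39 (nat_lit 128) (nat_lit 111) (nat_lit 6) (nat_lit 8) (nat_lit 10) L104840 (by decide +kernel)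
theorem L104842 : W_39 (nat_lit 12) (nat_lit 0x1c000200000000400020001000080000000000000000000000000000000) (nat_lit 0x0) (nat_lit 0x50002800360063803d0001000000000000000014000a000000000000000000000000000) := T_39 (nat_lit 233) (nat_lit 212) (nat_lit 0) (nat_lit 12) (nat_lit 13) L104841 (by decide +kernel)
theorem L104843 : W_39 (nat_lit 2) (nat_lit 0xf0001a001c002e00000000400020001000180000000000000000000000000000000) (nat_lit 0x0) (nat_lit 0x300000000200000000000000000000000000000000000000000000000000000000000000) := D_39 (nat_lit 284) (nat_lit 285) (nat_lit 249) (nat_lit 3) (nat_lit 9) (nat_lit 15) (nat_lit 7) (nat_lit 11) (nat_lit 12) (by decide +kernel)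
theorem L104844 : W_39 (nat_lit 3) (nat_lit 0x70001a001c002e00000000400020001000180000000000000000000000000000000) (nat_lit 0x0) (nat_lit 0x300018000200000000000000000000000000000000000000000000000000000000000000) := T_39 (nat_lit 267) (nat_lit 268) (nat_lit 0) (nat_lit 13) (nat_lit 15) L104843 (by decide +kernel)
theorem L104845 : W_39 (nat_lit 4) (nat_lit 0x30001a001c002e00000000400020001000180000000000000000000000000000000) (nat_lit 0x0) (nat_lit 0x38001c000200000000000000000000000000000000000000000000000000000000000000) := T_39 (nat_lit 266) (nat_lit 283) (nat_lit 7) (nat_lit 10) (nat_lit 12) L104844 (by decide +kernel)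
theorem L104846 : W_39 (nat_lit 5) (nat_lit 0x30001a001c000e00000000400020001000180000000000000000000000000000000) (nat_lit 0x0) (nat_lit 0x38001c000200000003000000000000000000000000000000000000000000000000000000) := T_39 (nat_lit 217) (nat_lit 216) (nat_lit 1) (nat_lit 13) (nat_lit 12) L104845 (by decide +kernel)
theorem L104847 : W_39 (nat_lit 6) (nat_lit 0x30001a001c000600000000400020001000180000000000000000000000000000000) (nat_lit 0x0) (nat_lit 0x38001c000200000003800040000000000000000000000000000000000000000000000000) := T_39 (nat_lit 215) (nat_lit 198) (nat_lit 6) (nat_lit 10) (nat_lit 15) L104846 (by decide +kernel)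
theorem L104848 : W_39 (nat_lit 7) (nat_lit 0x300018001c000600000000400020001000180000000000000000000000000000000) (nat_lit 0x0) (nat_lit 0x38001c000260000003800040000000000000000000000000000000000000000000000000) := T_39 (nat_lit 245) (nat_lit 246) (nat_lit 2) (nat_lit 7) (nat_lit 14) L104847 (by decide +kernel)
theorem L104849 : W_39 (nat_lit 8) (nat_lit 0x300008001c000600000000400020001000180000000000000000000000000000000) (nat_lit 0x0) (nat_lit 0x38001c000360000003800050000000000000000000000000000000000000000000000000) := T_39 (nat_lit 248) (nat_lit 196) (nat_lit 7) (nat_lit 9) (nat_lit 11) L104848 (by decide +kernel)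
theorem L104850 : W_39 (nat_lit 9) (nat_lit 0x100008001c000600000000400020001000180000000000000000000000000000000) (nat_lit 0x0) (nat_lit 0x3c001e000360000003800050000000000000000000000000000000000000000000000000) := T_39 (nat_lit 265) (nat_lit 282) (nat_lit 7) (nat_lit 9) (nat_lit 12) L104849 (by decide +kernel)
theorem L104851 : W_39 (nat_lit 10) (nat_lit 0x100008001c000200000000400020001000180000000000000000000000000000000) (nat_lit 0x0) (nat_lit 0x3e001e000360000003c00050000000000000000000000000000000000000000000000000) := T_39 (nat_lit 214) (nat_lit 281) (nat_lit 6) (nat_lit 9) (nat_lit 16) L104850 (by decide +kernel)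
theorem L104852 : W_39 (nat_lit 11) (nat_lit 0x100008001c000200000000400020001000080000000000000000000000000000000) (nat_lit 0x0) (nat_lit 0x3e001e000360000003c00050000000000000000100008000000000000000000000000000) := T_39 (nat_lit 128) (nat_lit 111) (nat_lit 6) (nat_lit 8) (nat_lit 10) L104851 (by decide +kernel)
theorem L104853 : W_39 (nat_lit 2) (nat_lit 0x70001a001c001e000000006000200010000c0000000000000000000000000000000) (nat_lit 0x0) (nat_lit 0x200000000000180000000000000000000000000000000000000000000000000) := D_39 (nat_lit 199) (nat_lit 249) (nat_lit 200) (nat_lit 6) (nat_lit 11) (nat_lit 15) (nat_lit 2) (nat_lit 9) (nat_lit 12) (by decide +kernel)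
theorem L104854 : W_39 (nat_lit 3) (nat_lit 0x30001a001c001e000000006000200010000c0000000000000000000000000000000) (nat_lit 0x0) (nat_lit 0x80004000200000000000180000000000000000000000000000000000000000000000000) := T_39 (nat_lit 266) (nat_lit 283) (nat_lit 7) (nat_lit 10) (nat_lit 12) L104853 (by decide +kernel)
theorem L104855 : W_39 (nat_lit 4) (nat_lit 0x30001a001c000e000000006000200010000c0000000000000000000000000000000) (nat_lit 0x0) (nat_lit 0x80004000200000003000180000000000000000000000000000000000000000000000000) := T_39 (nat_lit 216) (nat_lit 217) (nat_lit 1) (nat_lit 13) (nat_lit 12) L104854 (by decide +kernel)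
theorem L104856 : W_39 (nat_lit 5) (nat_lit 0x30001a001c0006000000006000200010000c0000000000000000000000000000000) (nat_lit 0x0) (nat_lit 0x800040002000000038001c0000000000000000000000000000000000000000000000000) := T_39 (nat_lit 215) (nat_lit 198) (nat_lit 6) (nat_lit 10) (nat_lit 15) L104855 (by decide +kernel)
theorem L104857 : W_39 (nat_lit 2) (nat_lit 0x14000e00040000400020001000080000000000000000000000000000000) (nat_lit 0x0) (nat_lit 0x20000100080000000000000000000000000000000000000000000000000) := D_39 (nat_lit 212) (nat_lit 233) (nat_lit 199) (nat_lit 3) (nat_lit 8) (nat_lit 12) (nat_lit 2) (nat_lit 8) (nat_lit 12) (by decide +kernel)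
theorem L104858 : W_39 (nat_lit 2) (nat_lit 0x200014001a00080000400020001000080000000000000000000000000000000) (nat_lit 0x0) (nat_lit 0x20000000000004000200000000000000000000000000000000000000000) := D_39 (nat_lit 182) (nat_lit 165) (nat_lit 233) (nat_lit 5) (nat_lit 12) (nat_lit 9) (nat_lit 5) (nat_lit 12) (nat_lit 10) (by decide +kernel)
theorem L104859 : W_39 (nat_lit 3) (nat_lit 0x200014001a00000000400020001000080000000000000000000000000000000) (nat_lit 0x0) (nat_lit 0x4000000020000000080004000200000000000000000000000000000000000000000) := T_39 (nat_lit 199) (nat_lit 266) (nat_lit 6) (nat_lit 11) (nat_lit 15) L104858 (by decide +kernel)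
theorem L104860 : W_39 (nat_lit 3) (nat_lit 0x14001a000000004000200010001c0000000000000000000000000000000) (nat_lit 0x0) (nat_lit 0x2a006000000000000000000000000000000000000000000000000000000) := T_39 (nat_lit 231) (nat_lit 229) (nat_lit 2) (nat_lit 8) (nat_lit 13) L104417 (by decide +kernel)
theorem L104861 : W_39 (nat_lit 4) (nat_lit 0x14001a00000000400020001000180000000000000000000000000000000) (nat_lit 0x0) (nat_lit 0x2a006000000000000000000000040002000000000000000000000000000) := T_39 (nat_lit 126) (nat_lit 109) (nat_lit 4) (nat_lit 8) (nat_lit 10) L104860 (by decide +kernel)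
theorem L104862 : W_39 (nat_lit 5) (nat_lit 0x16000a00000000600020001000180000000000000000000000000000000) (nat_lit 0x0) (nat_lit 0x2000700009001000040002000000000000000000000000000000000000000000000) := T_39 (nat_lit 231) (nat_lit 216) (nat_lit 2) (nat_lit 8) (nat_lit 13) L104392 (by decide +kernel)
theorem L104863 : W_39 (nat_lit 6) (nat_lit 0x16000a00000000600020001000080000000000000000000000000000000) (nat_lit 0x0) (nat_lit 0x2000700009001000040002000000000000100008000000000000000000000000000) := T_39 (nat_lit 128) (nat_lit 111) (nat_lit 6) (nat_lit 8) (nat_lit 10) L104862 (by decide +kernel)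
theorem L104864 : W_39 (nat_lit 5) (nat_lit 0x16000a00000000600020001000080000000000000000000000000000000) (nat_lit 0x0) (nat_lit 0x770009001000000000000000000000000000000000000000000000000000000) := T_39 (nat_lit 231) (nat_lit 216) (nat_lit 2) (nat_lit 8) (nat_lit 13) L104341 (by decide +kernel)
theorem L104865 : W_39 (nat_lit 2) (nat_lit 0x20001f000a000000004000200010001c0000000000000000000000000000000) (nat_lit 0x0) (nat_lit 0x70000000000000000000000000000000000000000000000000000000000000) := D_39 (nat_lit 245) (nat_lit 244) (nat_lit 246) (nat_lit 1) (nat_lit 10) (nat_lit 13) (nat_lit 1) (nat_lit 11) (nat_lit 13) (by decide +kernel)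
theorem L104866 : W_39 (nat_lit 3) (nat_lit 0x20001e000a000000004000200010001c0000000000000000000000000000000) (nat_lit 0x0) (nat_lit 0x170001000000000000000000000000000000000000000000000000000000000) := T_39 (nat_lit 228) (nat_lit 248) (nat_lit 3) (nat_lit 7) (nat_lit 13) L104865 (by decide +kernel)
theorem L104867 : W_39 (nat_lit 4) (nat_lit 0x1e000a000000004000200010001c0000000000000000000000000000000) (nat_lit 0x0) (nat_lit 0x770001000000000000000000000000000000000000000000000000000000000) := T_39 (nat_lit 249) (nat_lit 250) (nat_lit 3) (nat_lit 8) (nat_lit 13) L104866 (by decide +kernel)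
theorem L104868 : W_39 (nat_lit 2) (nat_lit 0x20001f000a00000000400020001000180000000000000000000000000000000) (nat_lit 0x0) (nat_lit 0x70000000000000000000000000000000000000000000000000000000000000) := D_39 (nat_lit 245) (nat_lit 244) (nat_lit 246) (nat_lit 1) (nat_lit 10) (nat_lit 13) (nat_lit 1) (nat_lit 11) (nat_lit 13) (by decide +kernel)
theorem L104869 : W_39 (nat_lit 3) (nat_lit 0x20001e000a00000000400020001000180000000000000000000000000000000) (nat_lit 0x0) (nat_lit 0x170001000000000000000000000000000000000000000000000000000000000) := T_39 (nat_lit 228) (nat_lit 248) (nat_lit 3) (nat_lit 7) (nat_lit 13) L104868 (by decide +kernel)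
theorem L104870 : W_39 (nat_lit 4) (nat_lit 0x1e000a00000000400020001000180000000000000000000000000000000) (nat_lit 0x0) (nat_lit 0x770001000000000000000000000000000000000000000000000000000000000) := T_39 (nat_lit 249) (nat_lit 250) (nat_lit 3) (nat_lit 8) (nat_lit 13) L104869 (by decide +kernel)
theorem L104871 : W_39 (nat_lit 5) (nat_lit 0x16000a00000000400020001000180000000000000000000000000000000) (nat_lit 0x0) (nat_lit 0x770009001000000000000000000000000000000000000000000000000000000) := T_39 (nat_lit 231) (nat_lit 216) (nat_lit 2) (nat_lit 8) (nat_lit 13) L104870 (by decide +kernel)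
theorem L104872 : W_39 (nat_lit 2) (nat_lit 0x30001e000a000000004000200010000c0000000000000000000000000000000) (nat_lit 0x0) (nat_lit 0x2000000000000000040002000000000000000000000000000000000000000000000) := D_39 (nat_lit 198) (nat_lit 265) (nat_lit 181) (nat_lit 5) (nat_lit 11) (nat_lit 11) (nat_lit 5) (nat_lit 11) (nat_lit 10) (by decide +kernel)
theorem L104873 : W_39 (nat_lit 3) (nat_lit 0x20001e000a000000004000200010000c0000000000000000000000000000000) (nat_lit 0x0) (nat_lit 0x2000100001000000040002000000000000000000000000000000000000000000000) := T_39 (nat_lit 248) (nat_lit 228) (nat_lit 3) (nat_lit 7) (nat_lit 13) L104872 (by decide +kernel)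
theorem L104874 : W_39 (nat_lit 4) (nat_lit 0x1e000a000000004000200010000c0000000000000000000000000000000) (nat_lit 0x0) (nat_lit 0x2000700001000000040002000000000000000000000000000000000000000000000) := T_39 (nat_lit 249) (nat_lit 250) (nat_lit 3) (nat_lit 8) (nat_lit 13) L104873 (by decide +kernel)
theorem L104875 : W_39 (nat_lit 5) (nat_lit 0x16000a000000004000200010000c0000000000000000000000000000000) (nat_lit 0x0) (nat_lit 0x2000700009001000040002000000000000000000000000000000000000000000000) := T_39 (nat_lit 231) (nat_lit 216) (nat_lit 2) (nat_lit 8) (nat_lit 13) L104874 (by decide +kernel)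
theorem L104876 : W_39 (nat_lit 5) (nat_lit 0x1c000a00000000600020001000080000000000000000000000000000000) (nat_lit 0x0) (nat_lit 0x770003001000000000000000000000000000000000000000000000000000000) := T_39 (nat_lit 229) (nat_lit 216) (nat_lit 2) (nat_lit 8) (nat_lit 13) L104341 (by decide +kernel)
theorem L104877 : W_39 (nat_lit 6) (nat_lit 0x1c000a00000000400020001000080000000000000000000000000000000) (nat_lit 0x0) (nat_lit 0x770003001000004000200000000000000000000000000000000000000000000) := T_39 (nat_lit 177) (nat_lit 194) (nat_lit 5) (nat_lit 8) (nat_lit 7) L104876 (by decide +kernel)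
theorem L104878 : W_39 (nat_lit 2) (nat_lit 0x7c000a000000004000200010000c0000000000000000000000000000000) (nat_lit 0x0) (nat_lit 0x1c0000000000000000000000000000000000000000000000000000000000000) := D_39 (nat_lit 247) (nat_lit 248) (nat_lit 246) (nat_lit 1) (nat_lit 13) (nat_lit 13) (nat_lit 1) (nat_lit 12) (nat_lit 13) (by decide +kernel)
theorem L104879 : W_39 (nat_lit 3) (nat_lit 0x3c000a000000004000200010000c0000000000000000000000000000000) (nat_lit 0x0) (nat_lit 0x1c0040000400000000000000000000000000000000000000000000000000000) := T_39 (nat_lit 234) (nat_lit 214) (nat_lit 0) (nat_lit 13) (nat_lit 13) L104878 (by decide +kernel)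
theorem L104880 : W_39 (nat_lit 4) (nat_lit 0x3c000a00000000400020001000080000000000000000000000000000000) (nat_lit 0x0) (nat_lit 0x1c0040000400000000000000000000040002000000000000000000000000000) := T_39 (nat_lit 126) (nat_lit 109) (nat_lit 4) (nat_lit 8) (nat_lit 10) L104879 (by decide +kernel)
theorem L104881 : W_39 (nat_lit 6) (nat_lit 0x1c000a00000000400020001000080000000000000000000000000000000) (nat_lit 0x0) (nat_lit 0x100008000fc0060000400044002200000000000040002000000000000000000000000000) := Q_39 (nat_lit 233) (C_39 L104264 (C_39 L104880 N_39)) (by decide +kernel)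
theorem L104882 : W_39 (nat_lit 2) (nat_lit 0x34000a00000000400020001000080000000000000000000000000000000) (nat_lit 0x0) (nat_lit 0x8000500000000000000000000000000000000000000000000000000000) := D_39 (nat_lit 212) (nat_lit 231) (nat_lit 214) (nat_lit 0) (nat_lit 12) (nat_lit 13) (nat_lit 3) (nat_lit 8) (nat_lit 12) (by decide +kernel)
theorem L104883 : W_39 (nat_lit 3) (nat_lit 0x34000a00000000400020001000080000000000000000000000000000000) (nat_lit 0x0) (nat_lit 0xc0001500000000000000000000000000000000000000000000000000000) := T_39 (nat_lit 214) (nat_lit 212) (nat_lit 3) (nat_lit 8) (nat_lit 12) L104701 (by decide +kernel)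
theorem L104884 : W_39 (nat_lit 5) (nat_lit 0x1c000a000000004000200010001c0000000000000000000000000000000) (nat_lit 0x0) (nat_lit 0x770003001000000000000000000000000000000000000000000000000000000) := T_39 (nat_lit 229) (nat_lit 216) (nat_lit 2) (nat_lit 8) (nat_lit 13) L104867 (by decide +kernel)
theorem L104885 : W_39 (nat_lit 6) (nat_lit 0x1c000a000000004000200010000c0000000000000000000000000000000) (nat_lit 0x0) (nat_lit 0x770003001000000000000000000000100008000000000000000000000000000) := T_39 (nat_lit 128) (nat_lit 111) (nat_lit 6) (nat_lit 8) (nat_lit 10) L104884 (by decide +kernel)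
theorem L104886 : W_39 (nat_lit 7) (nat_lit 0x1c000a00000000400020001000080000000000000000000000000000000) (nat_lit 0x0) (nat_lit 0x77000300100000000000000000000014000a000000000000000000000000000) := T_39 (nat_lit 126) (nat_lit 109) (nat_lit 4) (nat_lit 8) (nat_lit 10) L104885 (by decide +kernel)
theorem L104887 : W_39 (nat_lit 4) (nat_lit 0x1c000a00000000400020001000080000000000000000000000000000000) (nat_lit 0x0) (nat_lit 0x700003001400000000000000000000000000000000000000000000000000000) := T_39 (nat_lit 229) (nat_lit 216) (nat_lit 2) (nat_lit 8) (nat_lit 13) L104802 (by decide +kernel)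
theorem L104888 : W_39 (nat_lit 4) (nat_lit 0x1c000a00000000600020001000080000000000000000000000000000000) (nat_lit 0x0) (nat_lit 0x70003001400000000000000000000000000000000000000000000000000000) := T_39 (nat_lit 229) (nat_lit 216) (nat_lit 2) (nat_lit 8) (nat_lit 13) L104806 (by decide +kernel)
theorem L104889 : W_39 (nat_lit 5) (nat_lit 0x1c000a00000000400020001000080000000000000000000000000000000) (nat_lit 0x0) (nat_lit 0x70003001400004000200000000000000000000000000000000000000000000) := T_39 (nat_lit 177) (nat_lit 194) (nat_lit 5) (nat_lit 8) (nat_lit 7) L104888 (by decide +kernel)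
theorem L104890 : W_39 (nat_lit 8) (nat_lit 0x14000a00000000400020001000080000000000000000000000000000000) (nat_lit 0x0) (nat_lit 0x100008000ff006b00140004400220000000000014000a000000000000000000000000000) := Q_39 (nat_lit 231) (C_39 L104877 (C_39 L104881 (C_39 L104886 (C_39 L104887 (C_39 L104889 N_39))))) (by decide +kernel)
theorem L104891 : W_39 (nat_lit 2) (nat_lit 0x14000f00000000400020001000080000000000000000000000000000000) (nat_lit 0x0) (nat_lit 0x3001000000000000000000000000000000000000000000000000000000) := D_39 (nat_lit 229) (nat_lit 228) (nat_lit 216) (nat_lit 1) (nat_lit 11) (nat_lit 12) (nat_lit 1) (nat_lit 12) (nat_lit 12) (by decide +kernel)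
theorem L104892 : W_39 (nat_lit 3) (nat_lit 0x14000e00000000400020001000080000000000000000000000000000000) (nat_lit 0x0) (nat_lit 0x23001100000000000000000000000000000000000000000000000000000) := T_39 (nat_lit 212) (nat_lit 233) (nat_lit 3) (nat_lit 8) (nat_lit 12) L104891 (by decide +kernel)
theorem L104893 : W_39 (nat_lit 3) (nat_lit 0x14001e000800006000200010000c0000000000000000000000000000000) (nat_lit 0x0) (nat_lit 0x200060000000000004000200000000000000000000000000000000000000000) := T_39 (nat_lit 233) (nat_lit 234) (nat_lit 3) (nat_lit 9) (nat_lit 12) L104224 (by decide +kernel)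
theorem L104894 : W_39 (nat_lit 4) (nat_lit 0x14001e000000006000200010000c0000000000000000000000000000000) (nat_lit 0x0) (nat_lit 0x200060000000180004000200000000000000000000000000000000000000000) := T_39 (nat_lit 199) (nat_lit 200) (nat_lit 2) (nat_lit 9) (nat_lit 12) L104893 (by decide +kernel)
theorem L104895 : W_39 (nat_lit 5) (nat_lit 0x14001e000000004000200010000c0000000000000000000000000000000) (nat_lit 0x0) (nat_lit 0x200060000000184004200200000000000000000000000000000000000000000) := T_39 (nat_lit 177) (nat_lit 194) (nat_lit 5) (nat_lit 8) (nat_lit 7) L104894 (by decide +kernel)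
theorem L104896 : W_39 (nat_lit 6) (nat_lit 0x14000e000000004000200010000c0000000000000000000000000000000) (nat_lit 0x0) (nat_lit 0x200062001000184004200200000000000000000000000000000000000000000) := T_39 (nat_lit 216) (nat_lit 229) (nat_lit 1) (nat_lit 12) (nat_lit 12) L104895 (by decide +kernel)
theorem L104897 : W_39 (nat_lit 7) (nat_lit 0x14000e00000000400020001000080000000000000000000000000000000) (nat_lit 0x0) (nat_lit 0x200062001000184004200200000000040002000000000000000000000000000) := T_39 (nat_lit 126) (nat_lit 109) (nat_lit 4) (nat_lit 8) (nat_lit 10) L104896 (by decide +kernel)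
theorem L104898 : W_39 (nat_lit 3) (nat_lit 0x14000e00000000400020001000080000000000000000000000000000000) (nat_lit 0x0) (nat_lit 0xe0001100000000000000000000000000000000000000000000000000000) := T_39 (nat_lit 233) (nat_lit 212) (nat_lit 3) (nat_lit 8) (nat_lit 12) L104701 (by decide +kernel)
theorem L104899 : W_39 (nat_lit 5) (nat_lit 0x14001a00000000600020001000080000000000000000000000000000000) (nat_lit 0x0) (nat_lit 0x200062000400180004000200000000000000000000000000000000000000000) := T_39 (nat_lit 214) (nat_lit 229) (nat_lit 1) (nat_lit 12) (nat_lit 12) L104179 (by decide +kernel)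
theorem L104900 : W_39 (nat_lit 6) (nat_lit 0x14001a00000000400020001000080000000000000000000000000000000) (nat_lit 0x0) (nat_lit 0x200062000400184004200200000000000000000000000000000000000000000) := T_39 (nat_lit 177) (nat_lit 194) (nat_lit 5) (nat_lit 8) (nat_lit 7) L104899 (by decide +kernel)
theorem L104901 : W_39 (nat_lit 5) (nat_lit 0x14001a00000000400020001000180000000000000000000000000000000) (nat_lit 0x0) (nat_lit 0x200062000400180004000200000000000000000000000000000000000000000) := T_39 (nat_lit 214) (nat_lit 229) (nat_lit 1) (nat_lit 12) (nat_lit 12) L104183 (by decide +kernel)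
theorem L104902 : W_39 (nat_lit 6) (nat_lit 0x14001a00000000400020001000080000000000000000000000000000000) (nat_lit 0x0) (nat_lit 0x200062000400180004000200000000100008000000000000000000000000000) := T_39 (nat_lit 128) (nat_lit 111) (nat_lit 6) (nat_lit 8) (nat_lit 10) L104901 (by decide +kernel)
theorem L104903 : W_39 (nat_lit 2) (nat_lit 0x6000200034000a000400074000200010000c0000000000000000000000000000000) (nat_lit 0x0) (nat_lit 0x80000000000000001000000000000100000000000000000000000000000000000000000) := D_39 (nat_lit 216) (nat_lit 164) (nat_lit 283) (nat_lit 7) (nat_lit 11) (nat_lit 9) (nat_lit 6) (nat_lit 11) (nat_lit 16) (by decide +kernel)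
theorem L104904 : W_39 (nat_lit 3) (nat_lit 0x2000200034000a000400074000200010000c0000000000000000000000000000000) (nat_lit 0x0) (nat_lit 0xc0004000000000001000000000000100000000000000000000000000000000000000000) := T_39 (nat_lit 266) (nat_lit 282) (nat_lit 5) (nat_lit 11) (nat_lit 12) L104903 (by decide +kernel)
theorem L104905 : W_39 (nat_lit 4) (nat_lit 0x2000200034000a00040007400020001000080000000000000000000000000000000) (nat_lit 0x0) (nat_lit 0xc0004000000000001000000000000100000000040002000000000000000000000000000) := T_39 (nat_lit 126) (nat_lit 109) (nat_lit 4) (nat_lit 8) (nat_lit 10) L104904 (by decide +kernel)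
theorem L104906 : W_39 (nat_lit 5) (nat_lit 0x200034000a00040007400020001000080000000000000000000000000000000) (nat_lit 0x0) (nat_lit 0xc0006000100000001000000000000100000000040002000000000000000000000000000) := T_39 (nat_lit 265) (nat_lit 248) (nat_lit 5) (nat_lit 11) (nat_lit 11) L104905 (by decide +kernel)
theorem L104907 : W_39 (nat_lit 6) (nat_lit 0x34000a00040007400020001000080000000000000000000000000000000) (nat_lit 0x0) (nat_lit 0xc0006000300000001000080000000100000000040002000000000000000000000000000) := T_39 (nat_lit 249) (nat_lit 199) (nat_lit 6) (nat_lit 11) (nat_lit 14) L104906 (by decide +kernel)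
theorem L104908 : W_39 (nat_lit 7) (nat_lit 0x34000a00040003400020001000080000000000000000000000000000000) (nat_lit 0x0) (nat_lit 0xc0006000300000001000080004000300000000040002000000000000000000000000000) := T_39 (nat_lit 182) (nat_lit 165) (nat_lit 6) (nat_lit 11) (nat_lit 13) L104907 (by decide +kernel)
theorem L104909 : W_39 (nat_lit 8) (nat_lit 0x34000a00040002400020001000080000000000000000000000000000000) (nat_lit 0x0) (nat_lit 0xc0006000300000001000080005000380000000040002000000000000000000000000000) := T_39 (nat_lit 180) (nat_lit 163) (nat_lit 4) (nat_lit 11) (nat_lit 13) L104908 (by decide +kernel)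
theorem L104910 : W_39 (nat_lit 2) (nat_lit 0x400034000a00040000400020001000080000000000000000000000000000000) (nat_lit 0x0) (nat_lit 0x100008000200000000000000000000000000000000000000000000000000000000000000) := D_39 (nat_lit 267) (nat_lit 249) (nat_lit 284) (nat_lit 7) (nat_lit 11) (nat_lit 11) (nat_lit 4) (nat_lit 12) (nat_lit 16) (by decide +kernel)
theorem L104911 : W_39 (nat_lit 3) (nat_lit 0x34000a00040000400020001000080000000000000000000000000000000) (nat_lit 0x0) (nat_lit 0x100008000600000000000000002000000000000000000000000000000000000000000000) := T_39 (nat_lit 250) (nat_lit 181) (nat_lit 7) (nat_lit 11) (nat_lit 10) L104910 (by decide +kernel)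
theorem L104912 : W_39 (nat_lit 2) (nat_lit 0x34000a000400034002200010000c0000000000000000000000000000000) (nat_lit 0x0) (nat_lit 0x1000000000000100010000000000000000000000000000000000000) := D_39 (nat_lit 164) (nat_lit 216) (nat_lit 148) (nat_lit 7) (nat_lit 11) (nat_lit 9) (nat_lit 6) (nat_lit 11) (nat_lit 12) (by decide +kernel)
theorem L104913 : W_39 (nat_lit 3) (nat_lit 0x34000a000400034000200010000c0000000000000000000000000000000) (nat_lit 0x0) (nat_lit 0x1000000004000300010000000000000000000000000000000000000) := T_39 (nat_lit 165) (nat_lit 182) (nat_lit 6) (nat_lit 11) (nat_lit 13) L104912 (by decide +kernel)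
theorem L104914 : W_39 (nat_lit 4) (nat_lit 0x34000a000400024000200010000c0000000000000000000000000000000) (nat_lit 0x0) (nat_lit 0x1000000005000380010000000000000000000000000000000000000) := T_39 (nat_lit 180) (nat_lit 163) (nat_lit 4) (nat_lit 11) (nat_lit 13) L104913 (by decide +kernel)
theorem L104915 : W_39 (nat_lit 2) (nat_lit 0x200014000a00040006400020001000180000000000000000000000000000000) (nat_lit 0x0) (nat_lit 0x8000400020000000000000000000000000000000000000000000000000000000000) := D_39 (nat_lit 250) (nat_lit 267) (nat_lit 233) (nat_lit 7) (nat_lit 11) (nat_lit 11) (nat_lit 7) (nat_lit 11) (nat_lit 10) (by decide +kernel)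
theorem L104916 : W_39 (nat_lit 3) (nat_lit 0x14000a00040006400020001000180000000000000000000000000000000) (nat_lit 0x0) (nat_lit 0x8000600020000000080000000000000000000000000000000000000000000000000) := T_39 (nat_lit 249) (nat_lit 199) (nat_lit 6) (nat_lit 11) (nat_lit 14) L104915 (by decide +kernel)
theorem L104917 : W_39 (nat_lit 4) (nat_lit 0x14000a00040002400020001000180000000000000000000000000000000) (nat_lit 0x0) (nat_lit 0x8000600020000000080004000200000000000000000000000000000000000000000) := T_39 (nat_lit 182) (nat_lit 165) (nat_lit 6) (nat_lit 11) (nat_lit 13) L104916 (by decide +kernel)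
theorem L104918 : W_39 (nat_lit 5) (nat_lit 0x14000a00040002400020001000080000000000000000000000000000000) (nat_lit 0x0) (nat_lit 0x8000600020000000080004000200000000100008000000000000000000000000000) := T_39 (nat_lit 128) (nat_lit 111) (nat_lit 6) (nat_lit 8) (nat_lit 10) L104917 (by decide +kernel)
theorem L104919 : W_39 (nat_lit 9) (nat_lit 0x14000a00040002400020001000080000000000000000000000000000000) (nat_lit 0x0) (nat_lit 0xc0006000700020001000080005000380000000040002000000000000000000000000000) := T_39 (nat_lit 233) (nat_lit 250) (nat_lit 7) (nat_lit 11) (nat_lit 10) L104909 (by decide +kernel)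
theorem L104920 : W_39 (nat_lit 2) (nat_lit 0x34000a000400036001200190001c0000000000000000000000000000000) (nat_lit 0x0) (nat_lit 0x4000600000000000000000000000000000000) := D_39 (nat_lit 129) (nat_lit 146) (nat_lit 130) (nat_lit 3) (nat_lit 7) (nat_lit 7) (nat_lit 3) (nat_lit 8) (nat_lit 7) (by decide +kernel)
theorem L104921 : W_39 (nat_lit 3) (nat_lit 0x34000a000400036001200110001c0000000000000000000000000000000) (nat_lit 0x0) (nat_lit 0xc000e00000000000000000000000000000000) := T_39 (nat_lit 147) (nat_lit 131) (nat_lit 6) (nat_lit 11) (nat_lit 11) L104920 (by decide +kernel)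
theorem L104922 : W_39 (nat_lit 4) (nat_lit 0x34000a000400034001200110001c0000000000000000000000000000000) (nat_lit 0x0) (nat_lit 0x400020000000c000e00000000000000000000000000000000) := T_39 (nat_lit 177) (nat_lit 194) (nat_lit 5) (nat_lit 8) (nat_lit 7) L104921 (by decide +kernel)
theorem L104923 : W_39 (nat_lit 5) (nat_lit 0x34000a000400034001200010001c0000000000000000000000000000000) (nat_lit 0x0) (nat_lit 0x400020020001c000e00000000000000000000000000000000) := T_39 (nat_lit 148) (nat_lit 165) (nat_lit 6) (nat_lit 11) (nat_lit 12) L104922 (by decide +kernel)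
theorem L104924 : W_39 (nat_lit 6) (nat_lit 0x34000a00040003400120001000180000000000000000000000000000000) (nat_lit 0x0) (nat_lit 0x400020020001c000e40002000000000000000000000000000) := T_39 (nat_lit 126) (nat_lit 109) (nat_lit 4) (nat_lit 8) (nat_lit 10) L104923 (by decide +kernel)
theorem L104925 : W_39 (nat_lit 7) (nat_lit 0x34000a00040003400020001000180000000000000000000000000000000) (nat_lit 0x0) (nat_lit 0x100000400020030001c000e40002000000000000000000000000000) := T_39 (nat_lit 164) (nat_lit 216) (nat_lit 7) (nat_lit 11) (nat_lit 9) L104924 (by decide +kernel)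
theorem L104926 : W_39 (nat_lit 8) (nat_lit 0x34000a00040002400020001000180000000000000000000000000000000) (nat_lit 0x0) (nat_lit 0x100000400120038001c000e40002000000000000000000000000000) := T_39 (nat_lit 180) (nat_lit 163) (nat_lit 4) (nat_lit 11) (nat_lit 13) L104925 (by decide +kernel)
theorem L104927 : W_39 (nat_lit 9) (nat_lit 0x14000a00040002400020001000180000000000000000000000000000000) (nat_lit 0x0) (nat_lit 0x40002000100000400120038001c000e40002000000000000000000000000000) := T_39 (nat_lit 233) (nat_lit 250) (nat_lit 7) (nat_lit 11) (nat_lit 10) L104926 (by decide +kernel)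
theorem L104928 : W_39 (nat_lit 10) (nat_lit 0x14000a00040002400020001000080000000000000000000000000000000) (nat_lit 0x0) (nat_lit 0x40002000100000400120038001c000f4000a000000000000000000000000000) := T_39 (nat_lit 128) (nat_lit 111) (nat_lit 6) (nat_lit 8) (nat_lit 10) L104927 (by decide +kernel)
theorem L104929 : W_39 (nat_lit 2) (nat_lit 0x1000780014000a000400064000a0001000180000000000000000000000000000000) (nat_lit 0x0) (nat_lit 0x140004000000000000000000000000000000000000) := D_39 (nat_lit 164) (nat_lit 162) (nat_lit 146) (nat_lit 3) (nat_lit 8) (nat_lit 9) (nat_lit 4) (nat_lit 11) (nat_lit 12) (by decide +kernel)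
theorem L104930 : W_39 (nat_lit 3) (nat_lit 0x1000780014000a00040006400020001000180000000000000000000000000000000) (nat_lit 0x0) (nat_lit 0x10001c0004000000000000000000000000000000000000) := T_39 (nat_lit 163) (nat_lit 180) (nat_lit 4) (nat_lit 11) (nat_lit 13) L104929 (by decide +kernel)
theorem L104931 : W_39 (nat_lit 4) (nat_lit 0x1000780014000a00040006400020001000080000000000000000000000000000000) (nat_lit 0x0) (nat_lit 0x10001c0004000100008000000000000000000000000000) := T_39 (nat_lit 128) (nat_lit 111) (nat_lit 6) (nat_lit 8) (nat_lit 10) L104930 (by decide +kernel)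
theorem L104932 : W_39 (nat_lit 5) (nat_lit 0x780014000a00040006400020001000080000000000000000000000000000000) (nat_lit 0x0) (nat_lit 0x18000000000000000000010001c0004000100008000000000000000000000000000) := T_39 (nat_lit 264) (nat_lit 263) (nat_lit 1) (nat_lit 12) (nat_lit 14) L104931 (by decide +kernel)
theorem L104933 : W_39 (nat_lit 6) (nat_lit 0x700014000a00040006400020001000080000000000000000000000000000000) (nat_lit 0x0) (nat_lit 0x18000800020000000000010001c0004000100008000000000000000000000000000) := T_39 (nat_lit 247) (nat_lit 229) (nat_lit 0) (nat_lit 12) (nat_lit 14) L104932 (by decide +kernel)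
theorem L104934 : W_39 (nat_lit 7) (nat_lit 0x600014000a00040006400020001000080000000000000000000000000000000) (nat_lit 0x0) (nat_lit 0x38001800020000000000010001c0004000100008000000000000000000000000000) := T_39 (nat_lit 248) (nat_lit 265) (nat_lit 5) (nat_lit 11) (nat_lit 11) L104933 (by decide +kernel)
theorem L104935 : W_39 (nat_lit 8) (nat_lit 0x200014000a00040006400020001000080000000000000000000000000000000) (nat_lit 0x0) (nat_lit 0xb8005800020000000000010001c0004000100008000000000000000000000000000) := T_39 (nat_lit 250) (nat_lit 267) (nat_lit 7) (nat_lit 11) (nat_lit 11) L104934 (by decide +kernel)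
theorem L104936 : W_39 (nat_lit 9) (nat_lit 0x14000a00040006400020001000080000000000000000000000000000000) (nat_lit 0x0) (nat_lit 0xb8007800020000000800010001c0004000100008000000000000000000000000000) := T_39 (nat_lit 249) (nat_lit 199) (nat_lit 6) (nat_lit 11) (nat_lit 14) L104935 (by decide +kernel)
theorem L104937 : W_39 (nat_lit 10) (nat_lit 0x14000a00040002400020001000080000000000000000000000000000000) (nat_lit 0x0) (nat_lit 0xb8007800020000000800050003c0004000100008000000000000000000000000000) := T_39 (nat_lit 182) (nat_lit 165) (nat_lit 6) (nat_lit 11) (nat_lit 13) L104936 (by decide +kernel)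
theorem L104938 : W_39 (nat_lit 2) (nat_lit 0x34000a000400024001200010001c0000000000000000000000000000000) (nat_lit 0x0) (nat_lit 0x1000080004000000000000000000000000000000000000) := D_39 (nat_lit 163) (nat_lit 146) (nat_lit 180) (nat_lit 4) (nat_lit 11) (nat_lit 12) (nat_lit 4) (nat_lit 11) (nat_lit 13) (by decide +kernel)
theorem L104939 : W_39 (nat_lit 3) (nat_lit 0x34000a000400024000200010001c0000000000000000000000000000000) (nat_lit 0x0) (nat_lit 0x1000000001000180004000000000000000000000000000000000000) := T_39 (nat_lit 164) (nat_lit 216) (nat_lit 7) (nat_lit 11) (nat_lit 9) L104938 (by decide +kernel)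
theorem L104940 : W_39 (nat_lit 4) (nat_lit 0x34000a000400024000200010000c0000000000000000000000000000000) (nat_lit 0x0) (nat_lit 0x1000000001000180004000100008000000000000000000000000000) := T_39 (nat_lit 128) (nat_lit 111) (nat_lit 6) (nat_lit 8) (nat_lit 10) L104939 (by decide +kernel)
theorem L104941 : W_39 (nat_lit 5) (nat_lit 0x14000a000400024000200010000c0000000000000000000000000000000) (nat_lit 0x0) (nat_lit 0x400020001000000001000180004000100008000000000000000000000000000) := T_39 (nat_lit 233) (nat_lit 250) (nat_lit 7) (nat_lit 11) (nat_lit 10) L104940 (by decide +kernel)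
theorem L104942 : W_39 (nat_lit 6) (nat_lit 0x14000a00040002400020001000080000000000000000000000000000000) (nat_lit 0x0) (nat_lit 0x40002000100000000100018000400014000a000000000000000000000000000) := T_39 (nat_lit 126) (nat_lit 109) (nat_lit 4) (nat_lit 8) (nat_lit 10) L104941 (by decide +kernel)
theorem L104943 : W_39 (nat_lit 2) (nat_lit 0x14001a000400036003200090003c0000000000000000000000000000000) (nat_lit 0x0) (nat_lit 0x400030000000000000000000000000000) := D_39 (nat_lit 112) (nat_lit 113) (nat_lit 130) (nat_lit 2) (nat_lit 7) (nat_lit 7) (nat_lit 4) (nat_lit 11) (nat_lit 10) (by decide +kernel)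
theorem L104944 : W_39 (nat_lit 3) (nat_lit 0x14001a000400036003200090001c0000000000000000000000000000000) (nat_lit 0x0) (nat_lit 0x4000600030000000000000000000000000000) := T_39 (nat_lit 129) (nat_lit 146) (nat_lit 3) (nat_lit 7) (nat_lit 7) L104943 (by decide +kernel)
theorem L104945 : W_39 (nat_lit 4) (nat_lit 0x14001a000400036003200010001c0000000000000000000000000000000) (nat_lit 0x0) (nat_lit 0x8000000000000c000600030000000000000000000000000000) := T_39 (nat_lit 147) (nat_lit 199) (nat_lit 7) (nat_lit 11) (nat_lit 8) L104944 (by decide +kernel)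
theorem L104946 : W_39 (nat_lit 5) (nat_lit 0x14000a000400036003200010001c0000000000000000000000000000000) (nat_lit 0x0) (nat_lit 0x2000100008000000000000c000600030000000000000000000000000000) := T_39 (nat_lit 216) (nat_lit 233) (nat_lit 7) (nat_lit 11) (nat_lit 9) L104945 (by decide +kernel)
theorem L104947 : W_39 (nat_lit 6) (nat_lit 0x14000a000400036002200010001c0000000000000000000000000000000) (nat_lit 0x0) (nat_lit 0x2000100008000000010001c000600030000000000000000000000000000) := T_39 (nat_lit 164) (nat_lit 148) (nat_lit 6) (nat_lit 11) (nat_lit 12) L104946 (by decide +kernel)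
theorem L104948 : W_39 (nat_lit 7) (nat_lit 0x14000a000400034002200010001c0000000000000000000000000000000) (nat_lit 0x0) (nat_lit 0x2000100008400020010001c000600030000000000000000000000000000) := T_39 (nat_lit 177) (nat_lit 194) (nat_lit 5) (nat_lit 8) (nat_lit 7) L104947 (by decide +kernel)
theorem L104949 : W_39 (nat_lit 8) (nat_lit 0x14000a000400034000200010001c0000000000000000000000000000000) (nat_lit 0x0) (nat_lit 0x2000100008400420030001c000600030000000000000000000000000000) := T_39 (nat_lit 165) (nat_lit 182) (nat_lit 6) (nat_lit 11) (nat_lit 13) L104948 (by decide +kernel)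
theorem L104950 : W_39 (nat_lit 9) (nat_lit 0x14000a000400034000200010000c0000000000000000000000000000000) (nat_lit 0x0) (nat_lit 0x2000100008400420030001c000700038000000000000000000000000000) := T_39 (nat_lit 128) (nat_lit 111) (nat_lit 6) (nat_lit 8) (nat_lit 10) L104949 (by decide +kernel)
theorem L104951 : W_39 (nat_lit 10) (nat_lit 0x14000a00040003400020001000080000000000000000000000000000000) (nat_lit 0x0) (nat_lit 0x2000100008400420030001c00074003a000000000000000000000000000) := T_39 (nat_lit 126) (nat_lit 109) (nat_lit 4) (nat_lit 8) (nat_lit 10) L104950 (by decide +kernel)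
theorem L104952 : W_39 (nat_lit 11) (nat_lit 0x14000a00040002400020001000080000000000000000000000000000000) (nat_lit 0x0) (nat_lit 0x2000100008400520038001c00074003a000000000000000000000000000) := T_39 (nat_lit 180) (nat_lit 163) (nat_lit 4) (nat_lit 11) (nat_lit 13) L104951 (by decide +kernel)
theorem L104953 : W_39 (nat_lit 12) (nat_lit 0x14000a00040000400020001000080000000000000000000000000000000) (nat_lit 0x0) (nat_lit 0xc000f8007800220010000840072003c001c000f4003a000000000000000000000000000) := Q_39 (nat_lit 181) (C_39 L104918 (C_39 L104919 (C_39 L104928 (C_39 L104937 (C_39 L104942 (C_39 L104952 N_39)))))) (by decide +kernel)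
theorem L104954 : W_39 (nat_lit 2) (nat_lit 0x34000b000400026000a0001000080000000000000000000000000000000) (nat_lit 0x0) (nat_lit 0x140004000000000000000000000000000000000000) := D_39 (nat_lit 164) (nat_lit 162) (nat_lit 146) (nat_lit 1) (nat_lit 11) (nat_lit 9) (nat_lit 4) (nat_lit 11) (nat_lit 12) (by decide +kernel)
theorem L104955 : W_39 (nat_lit 3) (nat_lit 0x34000b00040002600020001000080000000000000000000000000000000) (nat_lit 0x0) (nat_lit 0x10001c0004000000000000000000000000000000000000) := T_39 (nat_lit 163) (nat_lit 180) (nat_lit 4) (nat_lit 11) (nat_lit 13) L104954 (by decide +kernel)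
theorem L104956 : W_39 (nat_lit 4) (nat_lit 0x34000a00040002600020001000080000000000000000000000000000000) (nat_lit 0x0) (nat_lit 0x5000000010001c0004000000000000000000000000000000000000) := T_39 (nat_lit 212) (nat_lit 214) (nat_lit 3) (nat_lit 8) (nat_lit 12) L104955 (by decide +kernel)
theorem L104957 : W_39 (nat_lit 5) (nat_lit 0x14000a00040002600020001000080000000000000000000000000000000) (nat_lit 0x0) (nat_lit 0x4000200005000000010001c0004000000000000000000000000000000000000) := T_39 (nat_lit 233) (nat_lit 250) (nat_lit 7) (nat_lit 11) (nat_lit 10) L104956 (by decide +kernel)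
theorem L104958 : W_39 (nat_lit 6) (nat_lit 0x14000a00040002400020001000080000000000000000000000000000000) (nat_lit 0x0) (nat_lit 0x4000200005000040012001c0004000000000000000000000000000000000000) := T_39 (nat_lit 177) (nat_lit 194) (nat_lit 5) (nat_lit 8) (nat_lit 7) L104957 (by decide +kernel)
theorem L104959 : W_39 (nat_lit 2) (nat_lit 0x300014000a000400066000a0001000180000000000000000000000000000000) (nat_lit 0x0) (nat_lit 0x140004000000000000000000000000000000000000) := D_39 (nat_lit 164) (nat_lit 162) (nat_lit 146) (nat_lit 3) (nat_lit 8) (nat_lit 9) (nat_lit 4) (nat_lit 11) (nat_lit 12) (by decide +kernel)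
theorem L104960 : W_39 (nat_lit 3) (nat_lit 0x300014000a00040006600020001000180000000000000000000000000000000) (nat_lit 0x0) (nat_lit 0x10001c0004000000000000000000000000000000000000) := T_39 (nat_lit 163) (nat_lit 180) (nat_lit 4) (nat_lit 11) (nat_lit 13) L104959 (by decide +kernel)
theorem L104961 : W_39 (nat_lit 4) (nat_lit 0x300014000a00040006600020001000080000000000000000000000000000000) (nat_lit 0x0) (nat_lit 0x10001c0004000100008000000000000000000000000000) := T_39 (nat_lit 128) (nat_lit 111) (nat_lit 6) (nat_lit 8) (nat_lit 10) L104960 (by decide +kernel)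
theorem L104962 : W_39 (nat_lit 5) (nat_lit 0x300014000a00040006400020001000080000000000000000000000000000000) (nat_lit 0x0) (nat_lit 0x40012001c0004000100008000000000000000000000000000) := T_39 (nat_lit 177) (nat_lit 194) (nat_lit 5) (nat_lit 8) (nat_lit 7) L104961 (by decide +kernel)
theorem L104963 : W_39 (nat_lit 6) (nat_lit 0x200014000a00040006400020001000080000000000000000000000000000000) (nat_lit 0x0) (nat_lit 0x20001000000000000040012001c0004000100008000000000000000000000000000) := T_39 (nat_lit 248) (nat_lit 265) (nat_lit 5) (nat_lit 11) (nat_lit 11) L104962 (by decide +kernel)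
theorem L104964 : W_39 (nat_lit 7) (nat_lit 0x14000a00040006400020001000080000000000000000000000000000000) (nat_lit 0x0) (nat_lit 0x20003000000000000840012001c0004000100008000000000000000000000000000) := T_39 (nat_lit 249) (nat_lit 199) (nat_lit 6) (nat_lit 11) (nat_lit 14) L104963 (by decide +kernel)
theorem L104965 : W_39 (nat_lit 8) (nat_lit 0x14000a00040002400020001000080000000000000000000000000000000) (nat_lit 0x0) (nat_lit 0x20003000000000000840052003c0004000100008000000000000000000000000000) := T_39 (nat_lit 182) (nat_lit 165) (nat_lit 6) (nat_lit 11) (nat_lit 13) L104964 (by decide +kernel)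
theorem L104966 : W_39 (nat_lit 11) (nat_lit 0x14000a00040000400020001000080000000000000000000000000000000) (nat_lit 0x0) (nat_lit 0xb8007800220005000840072003c0004000100008000000000000000000000000000) := Q_39 (nat_lit 181) (C_39 L104918 (C_39 L104937 (C_39 L104958 (C_39 L104965 N_39)))) (by decide +kernel)
theorem L104967 : W_39 (nat_lit 2) (nat_lit 0x14001e000c00006000200010000c0000000000000000000000000000000) (nat_lit 0x0) (nat_lit 0x4000200000000000000004000000000000000000000000000000000000000000000) := D_39 (nat_lit 249) (nat_lit 182) (nat_lit 266) (nat_lit 6) (nat_lit 11) (nat_lit 14) (nat_lit 6) (nat_lit 11) (nat_lit 15) (by decide +kernel)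
theorem L104968 : W_39 (nat_lit 3) (nat_lit 0x14001e000400006000200010000c0000000000000000000000000000000) (nat_lit 0x0) (nat_lit 0x4000200000000000180004000000000000000000000000000000000000000000000) := T_39 (nat_lit 199) (nat_lit 200) (nat_lit 2) (nat_lit 9) (nat_lit 12) L104967 (by decide +kernel)
theorem L104969 : W_39 (nat_lit 4) (nat_lit 0x14001e000400004000200010000c0000000000000000000000000000000) (nat_lit 0x0) (nat_lit 0x4000200000000000184004200000000000000000000000000000000000000000000) := T_39 (nat_lit 177) (nat_lit 194) (nat_lit 5) (nat_lit 8) (nat_lit 7) L104968 (by decide +kernel)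
theorem L104970 : W_39 (nat_lit 5) (nat_lit 0x14000e000400004000200010000c0000000000000000000000000000000) (nat_lit 0x0) (nat_lit 0x4000200002001000184004200000000000000000000000000000000000000000000) := T_39 (nat_lit 216) (nat_lit 229) (nat_lit 1) (nat_lit 12) (nat_lit 12) L104969 (by decide +kernel)
theorem L104971 : W_39 (nat_lit 6) (nat_lit 0x14000e00040000400020001000080000000000000000000000000000000) (nat_lit 0x0) (nat_lit 0x4000200002001000184004200000000000040002000000000000000000000000000) := T_39 (nat_lit 126) (nat_lit 109) (nat_lit 4) (nat_lit 8) (nat_lit 10) L104970 (by decide +kernel)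
theorem L104972 : W_39 (nat_lit 2) (nat_lit 0x14000f00040000600020001000080000000000000000000000000000000) (nat_lit 0x0) (nat_lit 0x3001000000000000000000000000000000000000000000000000000000) := D_39 (nat_lit 229) (nat_lit 228) (nat_lit 216) (nat_lit 1) (nat_lit 11) (nat_lit 12) (nat_lit 1) (nat_lit 12) (nat_lit 12) (by decide +kernel)
theorem L104973 : W_39 (nat_lit 3) (nat_lit 0x14000e00040000600020001000080000000000000000000000000000000) (nat_lit 0x0) (nat_lit 0x23001100000000000000000000000000000000000000000000000000000) := T_39 (nat_lit 212) (nat_lit 233) (nat_lit 3) (nat_lit 8) (nat_lit 12) L104972 (by decide +kernel)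
theorem L104974 : W_39 (nat_lit 4) (nat_lit 0x14000e00040000400020001000080000000000000000000000000000000) (nat_lit 0x0) (nat_lit 0x23001100004000200000000000000000000000000000000000000000000) := T_39 (nat_lit 177) (nat_lit 194) (nat_lit 5) (nat_lit 8) (nat_lit 7) L104973 (by decide +kernel)
theorem L104975 : W_39 (nat_lit 7) (nat_lit 0x14000a00040000400020001000080000000000000000000000000000000) (nat_lit 0x0) (nat_lit 0x4000200023001500184004200000000000040002000000000000000000000000000) := Q_39 (nat_lit 214) (C_39 L104857 (C_39 L104971 (C_39 L104974 N_39))) (by decide +kernel)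
theorem L104976 : W_39 (nat_lit 2) (nat_lit 0x14001e000c00004000200010001c0000000000000000000000000000000) (nat_lit 0x0) (nat_lit 0x4000200000000000000004000000000000000000000000000000000000000000000) := D_39 (nat_lit 249) (nat_lit 182) (nat_lit 266) (nat_lit 6) (nat_lit 11) (nat_lit 14) (nat_lit 6) (nat_lit 11) (nat_lit 15) (by decide +kernel)
theorem L104977 : W_39 (nat_lit 3) (nat_lit 0x14001e000400004000200010001c0000000000000000000000000000000) (nat_lit 0x0) (nat_lit 0x4000200000000000180004000000000000000000000000000000000000000000000) := T_39 (nat_lit 199) (nat_lit 200) (nat_lit 2) (nat_lit 9) (nat_lit 12) L104976 (by decide +kernel)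
theorem L104978 : W_39 (nat_lit 4) (nat_lit 0x14001e000400004000200010000c0000000000000000000000000000000) (nat_lit 0x0) (nat_lit 0x4000200000000000180004000000000000100008000000000000000000000000000) := T_39 (nat_lit 128) (nat_lit 111) (nat_lit 6) (nat_lit 8) (nat_lit 10) L104977 (by decide +kernel)
theorem L104979 : W_39 (nat_lit 5) (nat_lit 0x14000e000400004000200010000c0000000000000000000000000000000) (nat_lit 0x0) (nat_lit 0x4000200002001000180004000000000000100008000000000000000000000000000) := T_39 (nat_lit 216) (nat_lit 229) (nat_lit 1) (nat_lit 12) (nat_lit 12) L104978 (by decide +kernel)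
theorem L104980 : W_39 (nat_lit 6) (nat_lit 0x14000e00040000400020001000080000000000000000000000000000000) (nat_lit 0x0) (nat_lit 0x400020000200100018000400000000000014000a000000000000000000000000000) := T_39 (nat_lit 126) (nat_lit 109) (nat_lit 4) (nat_lit 8) (nat_lit 10) L104979 (by decide +kernel)
theorem L104981 : W_39 (nat_lit 2) (nat_lit 0x14000f00040000400020001000180000000000000000000000000000000) (nat_lit 0x0) (nat_lit 0x3001000000000000000000000000000000000000000000000000000000) := D_39 (nat_lit 229) (nat_lit 228) (nat_lit 216) (nat_lit 1) (nat_lit 11) (nat_lit 12) (nat_lit 1) (nat_lit 12) (nat_lit 12) (by decide +kernel)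
theorem L104982 : W_39 (nat_lit 3) (nat_lit 0x14000e00040000400020001000180000000000000000000000000000000) (nat_lit 0x0) (nat_lit 0x23001100000000000000000000000000000000000000000000000000000) := T_39 (nat_lit 212) (nat_lit 233) (nat_lit 3) (nat_lit 8) (nat_lit 12) L104981 (by decide +kernel)
theorem L104983 : W_39 (nat_lit 4) (nat_lit 0x14000e00040000400020001000080000000000000000000000000000000) (nat_lit 0x0) (nat_lit 0x23001100000000000000000000100008000000000000000000000000000) := T_39 (nat_lit 128) (nat_lit 111) (nat_lit 6) (nat_lit 8) (nat_lit 10) L104982 (by decide +kernel)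
theorem L104984 : W_39 (nat_lit 7) (nat_lit 0x14000a00040000400020001000080000000000000000000000000000000) (nat_lit 0x0) (nat_lit 0x400020002300150018000400000000000014000a000000000000000000000000000) := Q_39 (nat_lit 214) (C_39 L104857 (C_39 L104980 (C_39 L104983 N_39))) (by decide +kernel)
theorem L104985 : W_39 (nat_lit 9) (nat_lit 0x14000a00040000400020001000080000000000000000000000000000000) (nat_lit 0x0) (nat_lit 0xa0007000200005000840072003c0004000100008000000000000000000000000000) := Q_39 (nat_lit 181) (C_39 L104918 (C_39 L104965 (C_39 L104958 N_39))) (by decide +kernel)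
theorem L104986 : W_39 (nat_lit 2) (nat_lit 0x4000000034001e000c00006000200010000c0000000000000000000000000000000) (nat_lit 0x0) (nat_lit 0x400000000000000002000100000000000000000000000000000000000000000) := D_39 (nat_lit 181) (nat_lit 164) (nat_lit 250) (nat_lit 7) (nat_lit 11) (nat_lit 9) (nat_lit 7) (nat_lit 11) (nat_lit 10) (by decide +kernel)
theorem L104987 : W_39 (nat_lit 3) (nat_lit 0x4000000014001e000c00006000200010000c0000000000000000000000000000000) (nat_lit 0x0) (nat_lit 0x400060000000000002000100000000000000000000000000000000000000000) := T_39 (nat_lit 233) (nat_lit 234) (nat_lit 3) (nat_lit 9) (nat_lit 12) L104986 (by decide +kernel)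
theorem L104988 : W_39 (nat_lit 4) (nat_lit 0x14001e000c00006000200010000c0000000000000000000000000000000) (nat_lit 0x0) (nat_lit 0x4000600060000000000002000100000000000000000000000000000000000000000) := T_39 (nat_lit 266) (nat_lit 249) (nat_lit 6) (nat_lit 11) (nat_lit 15) L104987 (by decide +kernel)
theorem L104989 : W_39 (nat_lit 5) (nat_lit 0x14001e000400006000200010000c0000000000000000000000000000000) (nat_lit 0x0) (nat_lit 0x4000600060000000180002000100000000000000000000000000000000000000000) := T_39 (nat_lit 199) (nat_lit 200) (nat_lit 2) (nat_lit 9) (nat_lit 12) L104988 (by decide +kernel)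
theorem L104990 : W_39 (nat_lit 6) (nat_lit 0x14001e000400004000200010000c0000000000000000000000000000000) (nat_lit 0x0) (nat_lit 0x4000600060000000184002200100000000000000000000000000000000000000000) := T_39 (nat_lit 177) (nat_lit 194) (nat_lit 5) (nat_lit 8) (nat_lit 7) L104989 (by decide +kernel)
theorem L104991 : W_39 (nat_lit 7) (nat_lit 0x14000e000400004000200010000c0000000000000000000000000000000) (nat_lit 0x0) (nat_lit 0x4000600062001000184002200100000000000000000000000000000000000000000) := T_39 (nat_lit 216) (nat_lit 229) (nat_lit 1) (nat_lit 12) (nat_lit 12) L104990 (by decide +kernel)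
theorem L104992 : W_39 (nat_lit 8) (nat_lit 0x14000e00040000400020001000080000000000000000000000000000000) (nat_lit 0x0) (nat_lit 0x4000600062001000184002200100000000040002000000000000000000000000000) := T_39 (nat_lit 126) (nat_lit 109) (nat_lit 4) (nat_lit 8) (nat_lit 10) L104991 (by decide +kernel)
theorem L104993 : W_39 (nat_lit 2) (nat_lit 0x14000f00040000400020001000080000000000000000000000000000000) (nat_lit 0x0) (nat_lit 0x3001000000000000000000000000000000000000000000000000000000) := D_39 (nat_lit 229) (nat_lit 228) (nat_lit 216) (nat_lit 1) (nat_lit 11) (nat_lit 12) (nat_lit 1) (nat_lit 12) (nat_lit 12) (by decide +kernel)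
theorem L104994 : W_39 (nat_lit 3) (nat_lit 0x14000e00040000400020001000080000000000000000000000000000000) (nat_lit 0x0) (nat_lit 0x3001100080000000000000000000000000000000000000000000000000) := T_39 (nat_lit 212) (nat_lit 199) (nat_lit 2) (nat_lit 8) (nat_lit 12) L104993 (by decide +kernel)
theorem L104995 : W_39 (nat_lit 9) (nat_lit 0x14000a00040000400020001000080000000000000000000000000000000) (nat_lit 0x0) (nat_lit 0x400060006300150018400220010000000014000a000000000000000000000000000) := Q_39 (nat_lit 214) (C_39 L104983 (C_39 L104974 (C_39 L104992 (C_39 L104857 (C_39 L104994 N_39))))) (by decide +kernel)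
theorem L104996 : W_39 (nat_lit 2) (nat_lit 0x4000200014000a000c0000400020001000180000000000000000000000000000000) (nat_lit 0x0) (nat_lit 0x100008000400000000000000000000000000000000000000000000000000000000000000) := D_39 (nat_lit 267) (nat_lit 284) (nat_lit 250) (nat_lit 7) (nat_lit 11) (nat_lit 12) (nat_lit 7) (nat_lit 11) (nat_lit 11) (by decide +kernel)
theorem L104997 : W_39 (nat_lit 3) (nat_lit 0x200014000a000c0000400020001000180000000000000000000000000000000) (nat_lit 0x0) (nat_lit 0x10000c000400000001000000000000000000000000000000000000000000000000000000) := T_39 (nat_lit 266) (nat_lit 216) (nat_lit 6) (nat_lit 11) (nat_lit 15) L104996 (by decide +kernel)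
theorem L104998 : W_39 (nat_lit 4) (nat_lit 0x200014000a00040000400020001000180000000000000000000000000000000) (nat_lit 0x0) (nat_lit 0x10000c000400000001000080004000000000000000000000000000000000000000000000) := T_39 (nat_lit 199) (nat_lit 182) (nat_lit 6) (nat_lit 11) (nat_lit 14) L104997 (by decide +kernel)
theorem L104999 : W_39 (nat_lit 5) (nat_lit 0x200014000a00040000400020001000080000000000000000000000000000000) (nat_lit 0x0) (nat_lit 0x10000c000400000001000080004000000000000100008000000000000000000000000000) := T_39 (nat_lit 128) (nat_lit 111) (nat_lit 6) (nat_lit 8) (nat_lit 10) L104998 (by decide +kernel)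
theorem L105000 : W_39 (nat_lit 2) (nat_lit 0x4000600014000a000c0000400020001000080000000000000000000000000000000) (nat_lit 0x0) (nat_lit 0x40002000100000000000000000000000000000000000000000000000000000000000000) := D_39 (nat_lit 265) (nat_lit 282) (nat_lit 248) (nat_lit 5) (nat_lit 11) (nat_lit 12) (nat_lit 5) (nat_lit 11) (nat_lit 11) (by decide +kernel)
theorem L105001 : W_39 (nat_lit 3) (nat_lit 0x600014000a000c0000400020001000080000000000000000000000000000000) (nat_lit 0x0) (nat_lit 0x40006000100000001000000000000000000000000000000000000000000000000000000) := T_39 (nat_lit 266) (nat_lit 216) (nat_lit 6) (nat_lit 11) (nat_lit 15) L105000 (by decide +kernel)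
theorem L105002 : W_39 (nat_lit 4) (nat_lit 0x600014000a00040000400020001000080000000000000000000000000000000) (nat_lit 0x0) (nat_lit 0x40006000100000001000080004000000000000000000000000000000000000000000000) := T_39 (nat_lit 199) (nat_lit 182) (nat_lit 6) (nat_lit 11) (nat_lit 14) L105001 (by decide +kernel)
theorem L105003 : W_39 (nat_lit 5) (nat_lit 0x200014000a00040000400020001000080000000000000000000000000000000) (nat_lit 0x0) (nat_lit 0x4000e000500000001000080004000000000000000000000000000000000000000000000) := T_39 (nat_lit 250) (nat_lit 267) (nat_lit 7) (nat_lit 11) (nat_lit 11) L105002 (by decide +kernel)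
theorem L105004 : W_39 (nat_lit 2) (nat_lit 0x800780014000a00040000400020001000080000000000000000000000000000000) (nat_lit 0x0) (nat_lit 0x400040000000000010000000000000000000000000000000000000000000000000) := D_39 (nat_lit 246) (nat_lit 262) (nat_lit 196) (nat_lit 1) (nat_lit 11) (nat_lit 14) (nat_lit 5) (nat_lit 9) (nat_lit 11) (by decide +kernel)
theorem L105005 : W_39 (nat_lit 3) (nat_lit 0x780014000a00040000400020001000080000000000000000000000000000000) (nat_lit 0x0) (nat_lit 0x1c00040000000000010000000000000000000000000000000000000000000000000) := T_39 (nat_lit 263) (nat_lit 264) (nat_lit 1) (nat_lit 12) (nat_lit 14) L105004 (by decide +kernel)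
theorem L105006 : W_39 (nat_lit 4) (nat_lit 0x700014000a00040000400020001000080000000000000000000000000000000) (nat_lit 0x0) (nat_lit 0x1c000c0002000000010000000000000000000000000000000000000000000000000) := T_39 (nat_lit 247) (nat_lit 229) (nat_lit 0) (nat_lit 12) (nat_lit 14) L105005 (by decide +kernel)
theorem L105007 : W_39 (nat_lit 5) (nat_lit 0x300014000a00040000400020001000080000000000000000000000000000000) (nat_lit 0x0) (nat_lit 0x9c004c0002000000010000000000000000000000000000000000000000000000000) := T_39 (nat_lit 250) (nat_lit 267) (nat_lit 7) (nat_lit 11) (nat_lit 11) L105006 (by decide +kernel)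
theorem L105008 : W_39 (nat_lit 6) (nat_lit 0x200014000a00040000400020001000080000000000000000000000000000000) (nat_lit 0x0) (nat_lit 0xbc005c0002000000010000000000000000000000000000000000000000000000000) := T_39 (nat_lit 248) (nat_lit 265) (nat_lit 5) (nat_lit 11) (nat_lit 11) L105007 (by decide +kernel)
theorem L105009 : W_39 (nat_lit 2) (nat_lit 0x300014001a000c00004000200010000c0000000000000000000000000000000) (nat_lit 0x0) (nat_lit 0x500100000000000000000000000000000000000000000000000000) := D_39 (nat_lit 214) (nat_lit 212) (nat_lit 200) (nat_lit 2) (nat_lit 8) (nat_lit 12) (nat_lit 2) (nat_lit 9) (nat_lit 12) (by decide +kernel)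
theorem L105010 : W_39 (nat_lit 3) (nat_lit 0x300014000a000c00004000200010000c0000000000000000000000000000000) (nat_lit 0x0) (nat_lit 0x4000000000001500100000000000000000000000000000000000000000000000000) := T_39 (nat_lit 216) (nat_lit 266) (nat_lit 6) (nat_lit 11) (nat_lit 15) L105009 (by decide +kernel)
theorem L105011 : W_39 (nat_lit 4) (nat_lit 0x300014000a000400004000200010000c0000000000000000000000000000000) (nat_lit 0x0) (nat_lit 0x4000000000001500180004000000000000000000000000000000000000000000000) := T_39 (nat_lit 199) (nat_lit 182) (nat_lit 6) (nat_lit 11) (nat_lit 14) L105010 (by decide +kernel)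
theorem L105012 : W_39 (nat_lit 5) (nat_lit 0x200014000a000400004000200010000c0000000000000000000000000000000) (nat_lit 0x0) (nat_lit 0x6000100000001500180004000000000000000000000000000000000000000000000) := T_39 (nat_lit 248) (nat_lit 265) (nat_lit 5) (nat_lit 11) (nat_lit 11) L105011 (by decide +kernel)
theorem L105013 : W_39 (nat_lit 6) (nat_lit 0x200014000a00040000400020001000080000000000000000000000000000000) (nat_lit 0x0) (nat_lit 0x6000100000001500180004000000000000040002000000000000000000000000000) := T_39 (nat_lit 126) (nat_lit 109) (nat_lit 4) (nat_lit 8) (nat_lit 10) L105012 (by decide +kernel)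
theorem L105014 : W_39 (nat_lit 7) (nat_lit 0x14000a00040000400020001000080000000000000000000000000000000) (nat_lit 0x0) (nat_lit 0x14000fc007c000200150019000400000000000014000a000000000000000000000000000) := Q_39 (nat_lit 249) (C_39 L104999 (C_39 L105003 (C_39 L105008 (C_39 L105013 N_39)))) (by decide +kernel)
theorem L105015 : W_39 (nat_lit 2) (nat_lit 0x34000e00040006400020001000180000000000000000000000000000000) (nat_lit 0x0) (nat_lit 0xc0001000000000000000000000000000000000000000000000000000000) := D_39 (nat_lit 234) (nat_lit 235) (nat_lit 216) (nat_lit 0) (nat_lit 14) (nat_lit 13) (nat_lit 3) (nat_lit 9) (nat_lit 12) (by decide +kernel)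
theorem L105016 : W_39 (nat_lit 3) (nat_lit 0x34000a00040006400020001000180000000000000000000000000000000) (nat_lit 0x0) (nat_lit 0xc0001500000000000000000000000000000000000000000000000000000) := T_39 (nat_lit 214) (nat_lit 212) (nat_lit 3) (nat_lit 8) (nat_lit 12) L105015 (by decide +kernel)
theorem L105017 : W_39 (nat_lit 4) (nat_lit 0x14000a00040006400020001000180000000000000000000000000000000) (nat_lit 0x0) (nat_lit 0x4000e0001500000000000000000000000000000000000000000000000000000) := T_39 (nat_lit 233) (nat_lit 250) (nat_lit 7) (nat_lit 11) (nat_lit 10) L105016 (by decide +kernel)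
theorem L105018 : W_39 (nat_lit 5) (nat_lit 0x14000a00040002400020001000180000000000000000000000000000000) (nat_lit 0x0) (nat_lit 0x4000e0001500000004000200000000000000000000000000000000000000000) := T_39 (nat_lit 182) (nat_lit 165) (nat_lit 6) (nat_lit 11) (nat_lit 13) L105017 (by decide +kernel)
theorem L105019 : W_39 (nat_lit 6) (nat_lit 0x14000a00040002400020001000080000000000000000000000000000000) (nat_lit 0x0) (nat_lit 0x4000e0001500000004000200000000100008000000000000000000000000000) := T_39 (nat_lit 128) (nat_lit 111) (nat_lit 6) (nat_lit 8) (nat_lit 10) L105018 (by decide +kernel)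
theorem L105020 : W_39 (nat_lit 2) (nat_lit 0x14000a000400066000a00010001c0000000000000000000000000000000) (nat_lit 0x0) (nat_lit 0x140004000000000000000000000000000000000000) := D_39 (nat_lit 164) (nat_lit 162) (nat_lit 146) (nat_lit 3) (nat_lit 8) (nat_lit 9) (nat_lit 4) (nat_lit 11) (nat_lit 12) (by decide +kernel)
theorem L105021 : W_39 (nat_lit 3) (nat_lit 0x14000a000400066000200010001c0000000000000000000000000000000) (nat_lit 0x0) (nat_lit 0x10001c0004000000000000000000000000000000000000) := T_39 (nat_lit 163) (nat_lit 180) (nat_lit 4) (nat_lit 11) (nat_lit 13) L105020 (by decide +kernel)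
theorem L105022 : W_39 (nat_lit 4) (nat_lit 0x14000a00040006600020001000180000000000000000000000000000000) (nat_lit 0x0) (nat_lit 0x10001c0004000040002000000000000000000000000000) := T_39 (nat_lit 126) (nat_lit 109) (nat_lit 4) (nat_lit 8) (nat_lit 10) L105021 (by decide +kernel)
theorem L105023 : W_39 (nat_lit 5) (nat_lit 0x14000a00040006600020001000080000000000000000000000000000000) (nat_lit 0x0) (nat_lit 0x10001c000400014000a000000000000000000000000000) := T_39 (nat_lit 128) (nat_lit 111) (nat_lit 6) (nat_lit 8) (nat_lit 10) L105022 (by decide +kernel)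
theorem L105024 : W_39 (nat_lit 6) (nat_lit 0x14000a00040002600020001000080000000000000000000000000000000) (nat_lit 0x0) (nat_lit 0x50003c000400014000a000000000000000000000000000) := T_39 (nat_lit 182) (nat_lit 165) (nat_lit 6) (nat_lit 11) (nat_lit 13) L105023 (by decide +kernel)
theorem L105025 : W_39 (nat_lit 7) (nat_lit 0x14000a00040002400020001000080000000000000000000000000000000) (nat_lit 0x0) (nat_lit 0x40052003c000400014000a000000000000000000000000000) := T_39 (nat_lit 177) (nat_lit 194) (nat_lit 5) (nat_lit 8) (nat_lit 7) L105024 (by decide +kernel)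
theorem L105026 : W_39 (nat_lit 8) (nat_lit 0x14000a00040000400020001000080000000000000000000000000000000) (nat_lit 0x0) (nat_lit 0x4000e00015000040072003c000400014000a000000000000000000000000000) := Q_39 (nat_lit 181) (C_39 L105019 (C_39 L104958 (C_39 L104942 (C_39 L105025 N_39)))) (by decide +kernel)
theorem L105027 : W_39 (nat_lit 13) (nat_lit 0x14000a00000000400020001000080000000000000000000000000000000) (nat_lit 0x0) (nat_lit 0x1c000fc007c00e30015001d40072003c001c000f4003a000000000000000000000000000) := Q_39 (nat_lit 198) (C_39 L104953 (C_39 L104966 (C_39 L104975 (C_39 L104984 (C_39 L104985 (C_39 L104995 (C_39 L105014 (C_39 L105026 N_39)))))))) (by decide +kernel)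
theorem L105028 : W_39 (nat_lit 6) (nat_lit 0x16000a00000000400020001000080000000000000000000000000000000) (nat_lit 0x0) (nat_lit 0x770009001000004000200000000000000000000000000000000000000000000) := T_39 (nat_lit 177) (nat_lit 194) (nat_lit 5) (nat_lit 8) (nat_lit 7) L104864 (by decide +kernel)
theorem L105029 : W_39 (nat_lit 7) (nat_lit 0x16000a00000000400020001000080000000000000000000000000000000) (nat_lit 0x0) (nat_lit 0x100008007e0009000500014000200000000000100008000000000000000000000000000) := Q_39 (nat_lit 231) (C_39 L104761 (C_39 L104802 N_39)) (by decide +kernel)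
theorem L105030 : W_39 (nat_lit 2) (nat_lit 0x16000a00000000400020001000080000000000000000000000000000000) (nat_lit 0x0) (nat_lit 0x8001400000000000000000000000000000000000000000000000000000) := D_39 (nat_lit 216) (nat_lit 231) (nat_lit 214) (nat_lit 2) (nat_lit 8) (nat_lit 13) (nat_lit 1) (nat_lit 12) (nat_lit 12) (by decide +kernel)
theorem L105031 : W_39 (nat_lit 2) (nat_lit 0x16000e00000000600020001000080000000000000000000000000000000) (nat_lit 0x0) (nat_lit 0x1800100000000000000000000000000000000000000000000000000000) := D_39 (nat_lit 228) (nat_lit 212) (nat_lit 227) (nat_lit 1) (nat_lit 11) (nat_lit 12) (nat_lit 2) (nat_lit 6) (nat_lit 13) (by decide +kernel)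
theorem L105032 : W_39 (nat_lit 3) (nat_lit 0x16000a00000000600020001000080000000000000000000000000000000) (nat_lit 0x0) (nat_lit 0x1801500000000000000000000000000000000000000000000000000000) := T_39 (nat_lit 214) (nat_lit 216) (nat_lit 1) (nat_lit 12) (nat_lit 12) L105031 (by decide +kernel)
theorem L105033 : W_39 (nat_lit 4) (nat_lit 0x16000a00000000400020001000080000000000000000000000000000000) (nat_lit 0x0) (nat_lit 0x1801500004000200000000000000000000000000000000000000000000) := T_39 (nat_lit 177) (nat_lit 194) (nat_lit 5) (nat_lit 8) (nat_lit 7) L105032 (by decide +kernel)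
theorem L105034 : W_39 (nat_lit 8) (nat_lit 0x14000a00000000400020001000080000000000000000000000000000000) (nat_lit 0x0) (nat_lit 0x100008007f000b801500014000200000000000100008000000000000000000000000000) := Q_39 (nat_lit 229) (C_39 L105028 (C_39 L105029 (C_39 L105030 (C_39 L105033 N_39)))) (by decide +kernel)
theorem L105035 : W_39 (nat_lit 3) (nat_lit 0x14001e000800006000200010000c0000000000000000000000000000000) (nat_lit 0x0) (nat_lit 0x4000200000000100040004000000000000000000000000000000000000000000000) := T_39 (nat_lit 198) (nat_lit 212) (nat_lit 2) (nat_lit 8) (nat_lit 12) L104967 (by decide +kernel)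
theorem L105036 : W_39 (nat_lit 4) (nat_lit 0x14001e000000006000200010000c0000000000000000000000000000000) (nat_lit 0x0) (nat_lit 0x40002000000001001c0004000000000000000000000000000000000000000000000) := T_39 (nat_lit 199) (nat_lit 200) (nat_lit 2) (nat_lit 9) (nat_lit 12) L105035 (by decide +kernel)
theorem L105037 : W_39 (nat_lit 5) (nat_lit 0x14001e000000004000200010000c0000000000000000000000000000000) (nat_lit 0x0) (nat_lit 0x40002000000001001c4004200000000000000000000000000000000000000000000) := T_39 (nat_lit 177) (nat_lit 194) (nat_lit 5) (nat_lit 8) (nat_lit 7) L105036 (by decide +kernel)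
theorem L105038 : W_39 (nat_lit 6) (nat_lit 0x14000e000000004000200010000c0000000000000000000000000000000) (nat_lit 0x0) (nat_lit 0x40002000020011001c4004200000000000000000000000000000000000000000000) := T_39 (nat_lit 216) (nat_lit 229) (nat_lit 1) (nat_lit 12) (nat_lit 12) L105037 (by decide +kernel)
theorem L105039 : W_39 (nat_lit 7) (nat_lit 0x14000e00000000400020001000080000000000000000000000000000000) (nat_lit 0x0) (nat_lit 0x40002000020011001c4004200000000000040002000000000000000000000000000) := T_39 (nat_lit 126) (nat_lit 109) (nat_lit 4) (nat_lit 8) (nat_lit 10) L105038 (by decide +kernel)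
theorem L105040 : W_39 (nat_lit 13) (nat_lit 0x14000a00000000400020001000080000000000000000000000000000000) (nat_lit 0x0) (nat_lit 0x14001f0007c00e30015001e400420020000000014000a000000000000000000000000000) := Q_39 (nat_lit 214) (C_39 L104898 (C_39 L104897 (C_39 L104682 (C_39 L105039 N_39)))) (by decide +kernel)
theorem L105041 : W_39 (nat_lit 6) (nat_lit 0x16000a00000000400020001000080000000000000000000000000000000) (nat_lit 0x0) (nat_lit 0x770009001000000000000000000000100008000000000000000000000000000) := T_39 (nat_lit 128) (nat_lit 111) (nat_lit 6) (nat_lit 8) (nat_lit 10) L104871 (by decide +kernel)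
theorem L105042 : W_39 (nat_lit 7) (nat_lit 0x16000a00000000400020001000080000000000000000000000000000000) (nat_lit 0x0) (nat_lit 0x2000700009001000044002200000000000100008000000000000000000000000000) := T_39 (nat_lit 177) (nat_lit 194) (nat_lit 5) (nat_lit 8) (nat_lit 7) L104863 (by decide +kernel)
theorem L105043 : W_39 (nat_lit 2) (nat_lit 0x1001fc00a200000007c0020001000080000000000000000000000000000000) (nat_lit 0x0) (nat_lit 0x7000000000000000000000000000000000000000) := D_39 (nat_lit 157) (nat_lit 158) (nat_lit 156) (nat_lit 0) (nat_lit 8) (nat_lit 10) (nat_lit 0) (nat_lit 7) (nat_lit 10) (by decide +kernel)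
theorem L105044 : W_39 (nat_lit 3) (nat_lit 0x1001fc00a20000000780020001000080000000000000000000000000000000) (nat_lit 0x0) (nat_lit 0x40017000000000000000000000000000000000000000) := T_39 (nat_lit 174) (nat_lit 160) (nat_lit 2) (nat_lit 4) (nat_lit 10) L105043 (by decide +kernel)
theorem L105045 : W_39 (nat_lit 4) (nat_lit 0x1001fc00a20000000680020001000080000000000000000000000000000000) (nat_lit 0x0) (nat_lit 0x140057000000000000000000000000000000000000000) := T_39 (nat_lit 176) (nat_lit 162) (nat_lit 2) (nat_lit 5) (nat_lit 10) L105044 (by decide +kernel)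
theorem L105046 : W_39 (nat_lit 5) (nat_lit 0x1001fc00a20000000600020001000080000000000000000000000000000000) (nat_lit 0x0) (nat_lit 0x10001c0057000000000000000000000000000000000000000) := T_39 (nat_lit 175) (nat_lit 192) (nat_lit 7) (nat_lit 5) (nat_lit 10) L105045 (by decide +kernel)
theorem L105047 : W_39 (nat_lit 6) (nat_lit 0x1001f800a20000000600020001000080000000000000000000000000000000) (nat_lit 0x0) (nat_lit 0x4000100010001c0057000000000000000000000000000000000000000) := T_39 (nat_lit 226) (nat_lit 208) (nat_lit 0) (nat_lit 8) (nat_lit 13) L105046 (by decide +kernel)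
theorem L105048 : W_39 (nat_lit 2) (nat_lit 0x30001e000a000000004000200010001c0000000000000000000000000000000) (nat_lit 0x0) (nat_lit 0x2000000000000000040002000000000000000000000000000000000000000000000) := D_39 (nat_lit 198) (nat_lit 265) (nat_lit 181) (nat_lit 5) (nat_lit 11) (nat_lit 11) (nat_lit 5) (nat_lit 11) (nat_lit 10) (by decide +kernel)
theorem L105049 : W_39 (nat_lit 3) (nat_lit 0x20001e000a000000004000200010001c0000000000000000000000000000000) (nat_lit 0x0) (nat_lit 0x2000100001000000040002000000000000000000000000000000000000000000000) := T_39 (nat_lit 248) (nat_lit 228) (nat_lit 3) (nat_lit 7) (nat_lit 13) L105048 (by decide +kernel)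
theorem L105050 : W_39 (nat_lit 4) (nat_lit 0x1e000a000000004000200010001c0000000000000000000000000000000) (nat_lit 0x0) (nat_lit 0x2000700001000000040002000000000000000000000000000000000000000000000) := T_39 (nat_lit 249) (nat_lit 250) (nat_lit 3) (nat_lit 8) (nat_lit 13) L105049 (by decide +kernel)
theorem L105051 : W_39 (nat_lit 5) (nat_lit 0x1c000a000000004000200010001c0000000000000000000000000000000) (nat_lit 0x0) (nat_lit 0x2000700003001000040002000000000000000000000000000000000000000000000) := T_39 (nat_lit 229) (nat_lit 216) (nat_lit 2) (nat_lit 8) (nat_lit 13) L105050 (by decide +kernel)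
theorem L105052 : W_39 (nat_lit 6) (nat_lit 0x1c000a000000004000200010000c0000000000000000000000000000000) (nat_lit 0x0) (nat_lit 0x2000700003001000040002000000000000100008000000000000000000000000000) := T_39 (nat_lit 128) (nat_lit 111) (nat_lit 6) (nat_lit 8) (nat_lit 10) L105051 (by decide +kernel)
theorem L105053 : W_39 (nat_lit 7) (nat_lit 0x1c000a00000000400020001000080000000000000000000000000000000) (nat_lit 0x0) (nat_lit 0x200070000300100004000200000000000014000a000000000000000000000000000) := T_39 (nat_lit 126) (nat_lit 109) (nat_lit 4) (nat_lit 8) (nat_lit 10) L105052 (by decide +kernel)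
theorem L105054 : W_39 (nat_lit 2) (nat_lit 0x108007c001a000000006000200010001c0000000000000000000000000000000) (nat_lit 0x0) (nat_lit 0x2000180000000000000000000000000000000000000000000000000000000000) := D_39 (nat_lit 235) (nat_lit 236) (nat_lit 253) (nat_lit 0) (nat_lit 15) (nat_lit 13) (nat_lit 3) (nat_lit 11) (nat_lit 13) (by decide +kernel)
theorem L105055 : W_39 (nat_lit 3) (nat_lit 0x8007c001a000000006000200010001c0000000000000000000000000000000) (nat_lit 0x0) (nat_lit 0x3800180000000000000000000000000000000000000000000000000000000000) := T_39 (nat_lit 252) (nat_lit 251) (nat_lit 3) (nat_lit 10) (nat_lit 13) L105054 (by decide +kernel)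
theorem L105056 : W_39 (nat_lit 4) (nat_lit 0x8007c001a00000000600020001000180000000000000000000000000000000) (nat_lit 0x0) (nat_lit 0x3800180000000000000000000000000040002000000000000000000000000000) := T_39 (nat_lit 126) (nat_lit 109) (nat_lit 4) (nat_lit 8) (nat_lit 10) L105055 (by decide +kernel)
theorem L105057 : W_39 (nat_lit 5) (nat_lit 0x8003c001a00000000600020001000180000000000000000000000000000000) (nat_lit 0x0) (nat_lit 0x39001c0000000000000000000000000040002000000000000000000000000000) := T_39 (nat_lit 234) (nat_lit 248) (nat_lit 1) (nat_lit 13) (nat_lit 13) L105056 (by decide +kernel)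
theorem L105058 : W_39 (nat_lit 6) (nat_lit 0x8003c001a00000000600020001000080000000000000000000000000000000) (nat_lit 0x0) (nat_lit 0x39001c000000000000000000000000014000a000000000000000000000000000) := T_39 (nat_lit 128) (nat_lit 111) (nat_lit 6) (nat_lit 8) (nat_lit 10) L105057 (by decide +kernel)
theorem L105059 : W_39 (nat_lit 7) (nat_lit 0x3c001a00000000600020001000080000000000000000000000000000000) (nat_lit 0x0) (nat_lit 0x39c01c000000000000000000000000014000a000000000000000000000000000) := T_39 (nat_lit 247) (nat_lit 246) (nat_lit 1) (nat_lit 12) (nat_lit 13) L105058 (by decide +kernel)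
theorem L105060 : W_39 (nat_lit 8) (nat_lit 0x3c001a00000000400020001000080000000000000000000000000000000) (nat_lit 0x0) (nat_lit 0x39c01c000000000400020000000000014000a000000000000000000000000000) := T_39 (nat_lit 177) (nat_lit 194) (nat_lit 5) (nat_lit 8) (nat_lit 7) L105059 (by decide +kernel)
theorem L105061 : W_39 (nat_lit 9) (nat_lit 0x3c000a00000000400020001000080000000000000000000000000000000) (nat_lit 0x0) (nat_lit 0x39c01c000300000400020000000000014000a000000000000000000000000000) := T_39 (nat_lit 216) (nat_lit 217) (nat_lit 2) (nat_lit 9) (nat_lit 13) L105060 (by decide +kernel)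
theorem L105062 : W_39 (nat_lit 2) (nat_lit 0x3c001e00080000400020001000080000000000000000000000000000000) (nat_lit 0x0) (nat_lit 0x200000000000000004000200000000000000000000000000000000000000000) := D_39 (nat_lit 182) (nat_lit 249) (nat_lit 165) (nat_lit 5) (nat_lit 12) (nat_lit 10) (nat_lit 5) (nat_lit 12) (nat_lit 9) (by decide +kernel)
theorem L105063 : W_39 (nat_lit 3) (nat_lit 0x3c001e00000000400020001000080000000000000000000000000000000) (nat_lit 0x0) (nat_lit 0x200000000000180004000200000000000000000000000000000000000000000) := T_39 (nat_lit 199) (nat_lit 200) (nat_lit 2) (nat_lit 9) (nat_lit 12) L105062 (by decide +kernel)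
theorem L105064 : W_39 (nat_lit 4) (nat_lit 0x3c001a00000000400020001000080000000000000000000000000000000) (nat_lit 0x0) (nat_lit 0x200040000400180004000200000000000000000000000000000000000000000) := T_39 (nat_lit 214) (nat_lit 234) (nat_lit 3) (nat_lit 9) (nat_lit 12) L105063 (by decide +kernel)
theorem L105065 : W_39 (nat_lit 5) (nat_lit 0x3c000a00000000400020001000080000000000000000000000000000000) (nat_lit 0x0) (nat_lit 0x200040003400180004000200000000000000000000000000000000000000000) := T_39 (nat_lit 216) (nat_lit 217) (nat_lit 2) (nat_lit 9) (nat_lit 13) L105064 (by decide +kernel)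
theorem L105066 : W_39 (nat_lit 2) (nat_lit 0x200014000a00040006400020001000080000000000000000000000000000000) (nat_lit 0x0) (nat_lit 0x8000400020000000000000000000000000000000000000000000000000000000000) := D_39 (nat_lit 250) (nat_lit 267) (nat_lit 233) (nat_lit 7) (nat_lit 11) (nat_lit 11) (nat_lit 7) (nat_lit 11) (nat_lit 10) (by decide +kernel)
theorem L105067 : W_39 (nat_lit 3) (nat_lit 0x14000a00040006400020001000080000000000000000000000000000000) (nat_lit 0x0) (nat_lit 0x8000600020000000080000000000000000000000000000000000000000000000000) := T_39 (nat_lit 249) (nat_lit 199) (nat_lit 6) (nat_lit 11) (nat_lit 14) L105066 (by decide +kernel)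
theorem L105068 : W_39 (nat_lit 4) (nat_lit 0x14000a00040002400020001000080000000000000000000000000000000) (nat_lit 0x0) (nat_lit 0x8000600020000000080004000200000000000000000000000000000000000000000) := T_39 (nat_lit 182) (nat_lit 165) (nat_lit 6) (nat_lit 11) (nat_lit 13) L105067 (by decide +kernel)
theorem L105069 : W_39 (nat_lit 2) (nat_lit 0x200034000a00040003400020001000180000000000000000000000000000000) (nat_lit 0x0) (nat_lit 0x2000100008000000000000000000000000000000000000000000000000000000000) := D_39 (nat_lit 248) (nat_lit 265) (nat_lit 231) (nat_lit 5) (nat_lit 11) (nat_lit 11) (nat_lit 5) (nat_lit 11) (nat_lit 10) (by decide +kernel)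
theorem L105070 : W_39 (nat_lit 3) (nat_lit 0x34000a00040003400020001000180000000000000000000000000000000) (nat_lit 0x0) (nat_lit 0x2000300008000000020000000000000000000000000000000000000000000000000) := T_39 (nat_lit 249) (nat_lit 197) (nat_lit 4) (nat_lit 11) (nat_lit 14) L105069 (by decide +kernel)
theorem L105071 : W_39 (nat_lit 4) (nat_lit 0x34000a00040002400020001000180000000000000000000000000000000) (nat_lit 0x0) (nat_lit 0x2000300008000000020001000080000000000000000000000000000000000000000) := T_39 (nat_lit 180) (nat_lit 163) (nat_lit 4) (nat_lit 11) (nat_lit 13) L105070 (by decide +kernel)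
theorem L105072 : W_39 (nat_lit 5) (nat_lit 0x34000a00040002400020001000080000000000000000000000000000000) (nat_lit 0x0) (nat_lit 0x2000300008000000020001000080000000100008000000000000000000000000000) := T_39 (nat_lit 128) (nat_lit 111) (nat_lit 6) (nat_lit 8) (nat_lit 10) L105071 (by decide +kernel)
theorem L105073 : W_39 (nat_lit 6) (nat_lit 0x14000a00040002400020001000080000000000000000000000000000000) (nat_lit 0x0) (nat_lit 0x2000700028000000020001000080000000100008000000000000000000000000000) := T_39 (nat_lit 233) (nat_lit 250) (nat_lit 7) (nat_lit 11) (nat_lit 10) L105072 (by decide +kernel)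
theorem L105074 : W_39 (nat_lit 9) (nat_lit 0x14000a00040000400020001000080000000000000000000000000000000) (nat_lit 0x0) (nat_lit 0xa0007000280000000a40072003c000400014000a000000000000000000000000000) := Q_39 (nat_lit 181) (C_39 L105025 (C_39 L104965 (C_39 L105068 (C_39 L105073 N_39)))) (by decide +kernel)
theorem L105075 : W_39 (nat_lit 2) (nat_lit 0x4000600014000a000600004000200010000c0000000000000000000000000000000) (nat_lit 0x0) (nat_lit 0x40002000100000000000000000000000000000000000000000000000000000000000000) := D_39 (nat_lit 265) (nat_lit 282) (nat_lit 248) (nat_lit 5) (nat_lit 11) (nat_lit 12) (nat_lit 5) (nat_lit 11) (nat_lit 11) (by decide +kernel)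
theorem L105076 : W_39 (nat_lit 3) (nat_lit 0x600014000a000600004000200010000c0000000000000000000000000000000) (nat_lit 0x0) (nat_lit 0x40006000100000000400000000000000000000000000000000000000000000000000000) := T_39 (nat_lit 266) (nat_lit 214) (nat_lit 4) (nat_lit 11) (nat_lit 15) L105075 (by decide +kernel)
theorem L105077 : W_39 (nat_lit 4) (nat_lit 0x600014000a000400004000200010000c0000000000000000000000000000000) (nat_lit 0x0) (nat_lit 0x40006000100000000400020001000000000000000000000000000000000000000000000) := T_39 (nat_lit 197) (nat_lit 180) (nat_lit 4) (nat_lit 11) (nat_lit 14) L105076 (by decide +kernel)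
theorem L105078 : W_39 (nat_lit 5) (nat_lit 0x200014000a000400004000200010000c0000000000000000000000000000000) (nat_lit 0x0) (nat_lit 0x4000e000500000000400020001000000000000000000000000000000000000000000000) := T_39 (nat_lit 250) (nat_lit 267) (nat_lit 7) (nat_lit 11) (nat_lit 11) L105077 (by decide +kernel)
theorem L105079 : W_39 (nat_lit 6) (nat_lit 0x200014000a00040000400020001000080000000000000000000000000000000) (nat_lit 0x0) (nat_lit 0x4000e000500000000400020001000000000000040002000000000000000000000000000) := T_39 (nat_lit 126) (nat_lit 109) (nat_lit 4) (nat_lit 8) (nat_lit 10) L105078 (by decide +kernel)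
theorem L105080 : W_39 (nat_lit 2) (nat_lit 0x4000300014000a000600004000200010000c0000000000000000000000000000000) (nat_lit 0x0) (nat_lit 0x1000080004000000000000000000000000000000000000000000000) := D_39 (nat_lit 199) (nat_lit 182) (nat_lit 216) (nat_lit 6) (nat_lit 11) (nat_lit 14) (nat_lit 6) (nat_lit 11) (nat_lit 15) (by decide +kernel)
theorem L105081 : W_39 (nat_lit 3) (nat_lit 0x300014000a000600004000200010000c0000000000000000000000000000000) (nat_lit 0x0) (nat_lit 0x4000000000001400080004000000000000000000000000000000000000000000000) := T_39 (nat_lit 266) (nat_lit 214) (nat_lit 4) (nat_lit 11) (nat_lit 15) L105080 (by decide +kernel)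
theorem L105082 : W_39 (nat_lit 4) (nat_lit 0x300014000a000400004000200010000c0000000000000000000000000000000) (nat_lit 0x0) (nat_lit 0x40000000000014000a0005000000000000000000000000000000000000000000000) := T_39 (nat_lit 197) (nat_lit 180) (nat_lit 4) (nat_lit 11) (nat_lit 14) L105081 (by decide +kernel)
theorem L105083 : W_39 (nat_lit 5) (nat_lit 0x300014000a00040000400020001000080000000000000000000000000000000) (nat_lit 0x0) (nat_lit 0x40000000000014000a0005000000000000040002000000000000000000000000000) := T_39 (nat_lit 126) (nat_lit 109) (nat_lit 4) (nat_lit 8) (nat_lit 10) L105082 (by decide +kernel)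
theorem L105084 : W_39 (nat_lit 6) (nat_lit 0x200014000a00040000400020001000080000000000000000000000000000000) (nat_lit 0x0) (nat_lit 0x60001000000014000a0005000000000000040002000000000000000000000000000) := T_39 (nat_lit 248) (nat_lit 265) (nat_lit 5) (nat_lit 11) (nat_lit 11) L105083 (by decide +kernel)
theorem L105085 : W_39 (nat_lit 2) (nat_lit 0x700014000a000c0002400020001000080000000000000000000000000000000) (nat_lit 0x0) (nat_lit 0x20001000080000000000000000000000000000000000000000) := D_39 (nat_lit 180) (nat_lit 163) (nat_lit 197) (nat_lit 4) (nat_lit 11) (nat_lit 13) (nat_lit 4) (nat_lit 11) (nat_lit 14) (by decide +kernel)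
theorem L105086 : W_39 (nat_lit 3) (nat_lit 0x700014000a000c0000400020001000080000000000000000000000000000000) (nat_lit 0x0) (nat_lit 0x20000000020003000080000000000000000000000000000000000000000) := T_39 (nat_lit 181) (nat_lit 233) (nat_lit 7) (nat_lit 11) (nat_lit 10) L105085 (by decide +kernel)
theorem L105087 : W_39 (nat_lit 4) (nat_lit 0x600014000a000c0000400020001000080000000000000000000000000000000) (nat_lit 0x0) (nat_lit 0x2000100020000000020003000080000000000000000000000000000000000000000) := T_39 (nat_lit 248) (nat_lit 265) (nat_lit 5) (nat_lit 11) (nat_lit 11) L105086 (by decide +kernel)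
theorem L105088 : W_39 (nat_lit 5) (nat_lit 0x200014000a000c0000400020001000080000000000000000000000000000000) (nat_lit 0x0) (nat_lit 0xa000500020000000020003000080000000000000000000000000000000000000000) := T_39 (nat_lit 250) (nat_lit 267) (nat_lit 7) (nat_lit 11) (nat_lit 11) L105087 (by decide +kernel)
theorem L105089 : W_39 (nat_lit 6) (nat_lit 0x200014000a00040000400020001000080000000000000000000000000000000) (nat_lit 0x0) (nat_lit 0xa0005000200000000a0007000080000000000000000000000000000000000000000) := T_39 (nat_lit 199) (nat_lit 182) (nat_lit 6) (nat_lit 11) (nat_lit 14) L105088 (by decide +kernel)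
theorem L105090 : W_39 (nat_lit 7) (nat_lit 0x14000a00040000400020001000080000000000000000000000000000000) (nat_lit 0x0) (nat_lit 0x14000e0007000200014000a000700008000000014000a000000000000000000000000000) := Q_39 (nat_lit 249) (C_39 L105003 (C_39 L105079 (C_39 L104999 (C_39 L105084 (C_39 L105089 N_39))))) (by decide +kernel)
theorem L105091 : W_39 (nat_lit 2) (nat_lit 0x34000a00040002600120001000180000000000000000000000000000000) (nat_lit 0x0) (nat_lit 0x1000080004000000000000000000000000000000000000) := D_39 (nat_lit 163) (nat_lit 146) (nat_lit 180) (nat_lit 4) (nat_lit 11) (nat_lit 12) (nat_lit 4) (nat_lit 11) (nat_lit 13) (by decide +kernel)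
theorem L105092 : W_39 (nat_lit 3) (nat_lit 0x34000a00040002600020001000180000000000000000000000000000000) (nat_lit 0x0) (nat_lit 0x1000000001000180004000000000000000000000000000000000000) := T_39 (nat_lit 164) (nat_lit 216) (nat_lit 7) (nat_lit 11) (nat_lit 9) L105091 (by decide +kernel)
theorem L105093 : W_39 (nat_lit 4) (nat_lit 0x34000a00040002600020001000080000000000000000000000000000000) (nat_lit 0x0) (nat_lit 0x1000000001000180004000100008000000000000000000000000000) := T_39 (nat_lit 128) (nat_lit 111) (nat_lit 6) (nat_lit 8) (nat_lit 10) L105092 (by decide +kernel)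
theorem L105094 : W_39 (nat_lit 5) (nat_lit 0x14000a00040002600020001000080000000000000000000000000000000) (nat_lit 0x0) (nat_lit 0x400020001000000001000180004000100008000000000000000000000000000) := T_39 (nat_lit 233) (nat_lit 250) (nat_lit 7) (nat_lit 11) (nat_lit 10) L105093 (by decide +kernel)
theorem L105095 : W_39 (nat_lit 6) (nat_lit 0x14000a00040002400020001000080000000000000000000000000000000) (nat_lit 0x0) (nat_lit 0x400020001000004001200180004000100008000000000000000000000000000) := T_39 (nat_lit 177) (nat_lit 194) (nat_lit 5) (nat_lit 8) (nat_lit 7) L105094 (by decide +kernel)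
theorem L105096 : W_39 (nat_lit 9) (nat_lit 0x14000a00040000400020001000080000000000000000000000000000000) (nat_lit 0x0) (nat_lit 0xa0007000280010000a40072003c0004000100008000000000000000000000000000) := Q_39 (nat_lit 181) (C_39 L105073 (C_39 L105068 (C_39 L104965 (C_39 L105095 N_39)))) (by decide +kernel)
theorem L105097 : W_39 (nat_lit 2) (nat_lit 0x200034000a000400034000200010000c0000000000000000000000000000000) (nat_lit 0x0) (nat_lit 0x2000100008000000000000000000000000000000000000000000000000000000000) := D_39 (nat_lit 248) (nat_lit 265) (nat_lit 231) (nat_lit 5) (nat_lit 11) (nat_lit 11) (nat_lit 5) (nat_lit 11) (nat_lit 10) (by decide +kernel)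
theorem L105098 : W_39 (nat_lit 3) (nat_lit 0x34000a000400034000200010000c0000000000000000000000000000000) (nat_lit 0x0) (nat_lit 0x2000300008000000020000000000000000000000000000000000000000000000000) := T_39 (nat_lit 249) (nat_lit 197) (nat_lit 4) (nat_lit 11) (nat_lit 14) L105097 (by decide +kernel)
theorem L105099 : W_39 (nat_lit 4) (nat_lit 0x34000a000400024000200010000c0000000000000000000000000000000) (nat_lit 0x0) (nat_lit 0x2000300008000000020001000080000000000000000000000000000000000000000) := T_39 (nat_lit 180) (nat_lit 163) (nat_lit 4) (nat_lit 11) (nat_lit 13) L105098 (by decide +kernel)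
theorem L105100 : W_39 (nat_lit 5) (nat_lit 0x14000a000400024000200010000c0000000000000000000000000000000) (nat_lit 0x0) (nat_lit 0x2000700028000000020001000080000000000000000000000000000000000000000) := T_39 (nat_lit 233) (nat_lit 250) (nat_lit 7) (nat_lit 11) (nat_lit 10) L105099 (by decide +kernel)
theorem L105101 : W_39 (nat_lit 6) (nat_lit 0x14000a00040002400020001000080000000000000000000000000000000) (nat_lit 0x0) (nat_lit 0x2000700028000000020001000080000000040002000000000000000000000000000) := T_39 (nat_lit 126) (nat_lit 109) (nat_lit 4) (nat_lit 8) (nat_lit 10) L105100 (by decide +kernel)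
theorem L105102 : W_39 (nat_lit 2) (nat_lit 0x200014000a00040006400020001000080000000000000000000000000000000) (nat_lit 0x0) (nat_lit 0x2000100008000000000000000000000000000000000000000000000000000000000) := D_39 (nat_lit 248) (nat_lit 231) (nat_lit 265) (nat_lit 5) (nat_lit 11) (nat_lit 10) (nat_lit 5) (nat_lit 11) (nat_lit 11) (by decide +kernel)
theorem L105103 : W_39 (nat_lit 3) (nat_lit 0x14000a00040006400020001000080000000000000000000000000000000) (nat_lit 0x0) (nat_lit 0x2000300008000000080000000000000000000000000000000000000000000000000) := T_39 (nat_lit 249) (nat_lit 199) (nat_lit 6) (nat_lit 11) (nat_lit 14) L105102 (by decide +kernel)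
theorem L105104 : W_39 (nat_lit 4) (nat_lit 0x14000a00040002400020001000080000000000000000000000000000000) (nat_lit 0x0) (nat_lit 0x2000300008000000080004000200000000000000000000000000000000000000000) := T_39 (nat_lit 182) (nat_lit 165) (nat_lit 6) (nat_lit 11) (nat_lit 13) L105103 (by decide +kernel)
theorem L105105 : W_39 (nat_lit 5) (nat_lit 0x14000a000400024000200010000c0000000000000000000000000000000) (nat_lit 0x0) (nat_lit 0x400020001000000005000380010000000000000000000000000000000000000) := T_39 (nat_lit 233) (nat_lit 250) (nat_lit 7) (nat_lit 11) (nat_lit 10) L104914 (by decide +kernel)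
theorem L105106 : W_39 (nat_lit 6) (nat_lit 0x14000a00040002400020001000080000000000000000000000000000000) (nat_lit 0x0) (nat_lit 0x400020001000000005000380010000040002000000000000000000000000000) := T_39 (nat_lit 126) (nat_lit 109) (nat_lit 4) (nat_lit 8) (nat_lit 10) L105105 (by decide +kernel)
theorem L105107 : W_39 (nat_lit 7) (nat_lit 0x14000a00040000400020001000080000000000000000000000000000000) (nat_lit 0x0) (nat_lit 0xa0007000280010000a0007000380010000040002000000000000000000000000000) := Q_39 (nat_lit 181) (C_39 L105068 (C_39 L105101 (C_39 L105104 (C_39 L105106 N_39)))) (by decide +kernel)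
theorem L105108 : W_39 (nat_lit 2) (nat_lit 0x3c000a00040002600020001000080000000000000000000000000000000) (nat_lit 0x0) (nat_lit 0x3000000000000100000000000000000000000000000000000000000) := D_39 (nat_lit 216) (nat_lit 217) (nat_lit 164) (nat_lit 2) (nat_lit 9) (nat_lit 13) (nat_lit 7) (nat_lit 11) (nat_lit 9) (by decide +kernel)
theorem L105109 : W_39 (nat_lit 3) (nat_lit 0x34000a00040002600020001000080000000000000000000000000000000) (nat_lit 0x0) (nat_lit 0x100008003000000000000100000000000000000000000000000000000000000) := T_39 (nat_lit 231) (nat_lit 248) (nat_lit 5) (nat_lit 11) (nat_lit 10) L105108 (by decide +kernel)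
theorem L105110 : W_39 (nat_lit 4) (nat_lit 0x14000a00040002600020001000080000000000000000000000000000000) (nat_lit 0x0) (nat_lit 0x500028003000000000000100000000000000000000000000000000000000000) := T_39 (nat_lit 233) (nat_lit 250) (nat_lit 7) (nat_lit 11) (nat_lit 10) L105109 (by decide +kernel)
theorem L105111 : W_39 (nat_lit 5) (nat_lit 0x14000a00040002400020001000080000000000000000000000000000000) (nat_lit 0x0) (nat_lit 0x500028003000004000200100000000000000000000000000000000000000000) := T_39 (nat_lit 177) (nat_lit 194) (nat_lit 5) (nat_lit 8) (nat_lit 7) L105110 (by decide +kernel)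
theorem L105112 : W_39 (nat_lit 6) (nat_lit 0x14000a00040000400020001000080000000000000000000000000000000) (nat_lit 0x0) (nat_lit 0xa000700028003000084006200300000000000000000000000000000000000000000) := Q_39 (nat_lit 181) (C_39 L105104 (C_39 L105068 (C_39 L105111 N_39))) (by decide +kernel)
theorem L105113 : W_39 (nat_lit 2) (nat_lit 0x10000f80054000a000600004000200010000c0000000000000000000000000000000) (nat_lit 0x0) (nat_lit 0x1800000000000400000000000000000000000000000000000000000000000000000) := D_39 (nat_lit 264) (nat_lit 214) (nat_lit 263) (nat_lit 6) (nat_lit 9) (nat_lit 15) (nat_lit 1) (nat_lit 12) (nat_lit 14) (by decide +kernel)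
theorem L105114 : W_39 (nat_lit 3) (nat_lit 0x10000f00054000a000600004000200010000c0000000000000000000000000000000) (nat_lit 0x0) (nat_lit 0x1800080020000400000000000000000000000000000000000000000000000000000) := T_39 (nat_lit 247) (nat_lit 233) (nat_lit 2) (nat_lit 9) (nat_lit 14) L105113 (by decide +kernel)
theorem L105115 : W_39 (nat_lit 4) (nat_lit 0x10000f00014000a000600004000200010000c0000000000000000000000000000000) (nat_lit 0x0) (nat_lit 0x18000800e0000400000000000000000000000000000000000000000000000000000) := T_39 (nat_lit 234) (nat_lit 235) (nat_lit 2) (nat_lit 10) (nat_lit 14) L105114 (by decide +kernel)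
theorem L105116 : W_39 (nat_lit 5) (nat_lit 0xf00014000a000600004000200010000c0000000000000000000000000000000) (nat_lit 0x0) (nat_lit 0x318000800e0000400000000000000000000000000000000000000000000000000000) := T_39 (nat_lit 268) (nat_lit 269) (nat_lit 3) (nat_lit 10) (nat_lit 14) L105115 (by decide +kernel)
theorem L105117 : W_39 (nat_lit 6) (nat_lit 0xf00014000a000400004000200010000c0000000000000000000000000000000) (nat_lit 0x0) (nat_lit 0x318000800e0000400020001000000000000000000000000000000000000000000000) := T_39 (nat_lit 197) (nat_lit 180) (nat_lit 4) (nat_lit 11) (nat_lit 14) L105116 (by decide +kernel)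
theorem L105118 : W_39 (nat_lit 7) (nat_lit 0x700014000a000400004000200010000c0000000000000000000000000000000) (nat_lit 0x0) (nat_lit 0x318008800e8000400020001000000000000000000000000000000000000000000000) := T_39 (nat_lit 251) (nat_lit 231) (nat_lit 0) (nat_lit 13) (nat_lit 14) L105117 (by decide +kernel)
theorem L105119 : W_39 (nat_lit 8) (nat_lit 0x300014000a000400004000200010000c0000000000000000000000000000000) (nat_lit 0x0) (nat_lit 0x39800c800e8000400020001000000000000000000000000000000000000000000000) := T_39 (nat_lit 250) (nat_lit 267) (nat_lit 7) (nat_lit 11) (nat_lit 11) L105118 (by decide +kernel)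
theorem L105120 : W_39 (nat_lit 9) (nat_lit 0x200014000a000400004000200010000c0000000000000000000000000000000) (nat_lit 0x0) (nat_lit 0x3b800d800e8000400020001000000000000000000000000000000000000000000000) := T_39 (nat_lit 248) (nat_lit 265) (nat_lit 5) (nat_lit 11) (nat_lit 11) L105119 (by decide +kernel)
theorem L105121 : W_39 (nat_lit 10) (nat_lit 0x200014000a00040000400020001000080000000000000000000000000000000) (nat_lit 0x0) (nat_lit 0x3b800d800e8000400020001000000000000040002000000000000000000000000000) := T_39 (nat_lit 126) (nat_lit 109) (nat_lit 4) (nat_lit 8) (nat_lit 10) L105120 (by decide +kernel)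
theorem L105122 : W_39 (nat_lit 11) (nat_lit 0x14000a00040000400020001000080000000000000000000000000000000) (nat_lit 0x0) (nat_lit 0x14003f800f800e80014000a000500000000000014000a000000000000000000000000000) := Q_39 (nat_lit 249) (C_39 L105003 (C_39 L105084 (C_39 L105079 (C_39 L104999 (C_39 L105121 N_39))))) (by decide +kernel)
theorem L105123 : W_39 (nat_lit 2) (nat_lit 0x600014000a00060002600020001000080000000000000000000000000000000) (nat_lit 0x0) (nat_lit 0x2000100008000000000000000000000000000000000000000000000000000000000) := D_39 (nat_lit 248) (nat_lit 231) (nat_lit 265) (nat_lit 5) (nat_lit 11) (nat_lit 10) (nat_lit 5) (nat_lit 11) (nat_lit 11) (by decide +kernel)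
theorem L105124 : W_39 (nat_lit 3) (nat_lit 0x600014000a00060000600020001000080000000000000000000000000000000) (nat_lit 0x0) (nat_lit 0x2000100028000000000002000000000000000000000000000000000000000000000) := T_39 (nat_lit 181) (nat_lit 233) (nat_lit 7) (nat_lit 11) (nat_lit 10) L105123 (by decide +kernel)
theorem L105125 : W_39 (nat_lit 4) (nat_lit 0x600014000a00040000600020001000080000000000000000000000000000000) (nat_lit 0x0) (nat_lit 0x2000100028000000020003000000000000000000000000000000000000000000000) := T_39 (nat_lit 197) (nat_lit 180) (nat_lit 4) (nat_lit 11) (nat_lit 14) L105124 (by decide +kernel)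
theorem L105126 : W_39 (nat_lit 5) (nat_lit 0x200014000a00040000600020001000080000000000000000000000000000000) (nat_lit 0x0) (nat_lit 0xa000500028000000020003000000000000000000000000000000000000000000000) := T_39 (nat_lit 250) (nat_lit 267) (nat_lit 7) (nat_lit 11) (nat_lit 11) L105125 (by decide +kernel)
theorem L105127 : W_39 (nat_lit 6) (nat_lit 0x200014000a00040000400020001000080000000000000000000000000000000) (nat_lit 0x0) (nat_lit 0xa000500028000000024003200000000000000000000000000000000000000000000) := T_39 (nat_lit 177) (nat_lit 194) (nat_lit 5) (nat_lit 8) (nat_lit 7) L105126 (by decide +kernel)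
theorem L105128 : W_39 (nat_lit 2) (nat_lit 0x300014000a00040002600020001000080000000000000000000000000000000) (nat_lit 0x0) (nat_lit 0x8000400020000000000000000000000000000000000000000000000000000000000) := D_39 (nat_lit 250) (nat_lit 267) (nat_lit 233) (nat_lit 7) (nat_lit 11) (nat_lit 11) (nat_lit 7) (nat_lit 11) (nat_lit 10) (by decide +kernel)
theorem L105129 : W_39 (nat_lit 3) (nat_lit 0x300014000a00040000600020001000080000000000000000000000000000000) (nat_lit 0x0) (nat_lit 0x8000400028000000000002000000000000000000000000000000000000000000000) := T_39 (nat_lit 181) (nat_lit 231) (nat_lit 5) (nat_lit 11) (nat_lit 10) L105128 (by decide +kernel)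
theorem L105130 : W_39 (nat_lit 4) (nat_lit 0x300014000a00040000400020001000080000000000000000000000000000000) (nat_lit 0x0) (nat_lit 0x8000400028000000004002200000000000000000000000000000000000000000000) := T_39 (nat_lit 177) (nat_lit 194) (nat_lit 5) (nat_lit 8) (nat_lit 7) L105129 (by decide +kernel)
theorem L105131 : W_39 (nat_lit 5) (nat_lit 0x200014000a00040000400020001000080000000000000000000000000000000) (nat_lit 0x0) (nat_lit 0xa000500028000000004002200000000000000000000000000000000000000000000) := T_39 (nat_lit 248) (nat_lit 265) (nat_lit 5) (nat_lit 11) (nat_lit 11) L105130 (by decide +kernel)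
theorem L105132 : W_39 (nat_lit 2) (nat_lit 0x6801600014001a00060000400020001000080000000000000000000000000000000) (nat_lit 0x0) (nat_lit 0x80000000000020000000000002000000000000000000000000000000000000000000000) := D_39 (nat_lit 233) (nat_lit 283) (nat_lit 181) (nat_lit 6) (nat_lit 11) (nat_lit 16) (nat_lit 7) (nat_lit 11) (nat_lit 10) (by decide +kernel)
theorem L105133 : W_39 (nat_lit 3) (nat_lit 0x6801600014000a00060000400020001000080000000000000000000000000000000) (nat_lit 0x0) (nat_lit 0x80000000000020001000080002000000000000000000000000000000000000000000000) := T_39 (nat_lit 216) (nat_lit 199) (nat_lit 6) (nat_lit 11) (nat_lit 15) L105132 (by decide +kernel)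
theorem L105134 : W_39 (nat_lit 4) (nat_lit 0x6800600014000a00060000400020001000080000000000000000000000000000000) (nat_lit 0x0) (nat_lit 0x80000001800020001000080002000000000000000000000000000000000000000000000) := T_39 (nat_lit 252) (nat_lit 251) (nat_lit 1) (nat_lit 14) (nat_lit 14) L105133 (by decide +kernel)
theorem L105135 : W_39 (nat_lit 5) (nat_lit 0x6000600014000a00060000400020001000080000000000000000000000000000000) (nat_lit 0x0) (nat_lit 0x80001801800020001000080002000000000000000000000000000000000000000000000) := T_39 (nat_lit 263) (nat_lit 264) (nat_lit 2) (nat_lit 8) (nat_lit 15) L105134 (by decide +kernel)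
theorem L105136 : W_39 (nat_lit 6) (nat_lit 0x4000600014000a00060000400020001000080000000000000000000000000000000) (nat_lit 0x0) (nat_lit 0xc0003801800020001000080002000000000000000000000000000000000000000000000) := T_39 (nat_lit 265) (nat_lit 282) (nat_lit 5) (nat_lit 11) (nat_lit 12) L105135 (by decide +kernel)
theorem L105137 : W_39 (nat_lit 7) (nat_lit 0x600014000a00060000400020001000080000000000000000000000000000000) (nat_lit 0x0) (nat_lit 0xc0007801800020001400080002000000000000000000000000000000000000000000000) := T_39 (nat_lit 266) (nat_lit 214) (nat_lit 4) (nat_lit 11) (nat_lit 15) L105136 (by decide +kernel)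
theorem L105138 : W_39 (nat_lit 8) (nat_lit 0x600014000a00040000400020001000080000000000000000000000000000000) (nat_lit 0x0) (nat_lit 0xc00078018000200014000a0003000000000000000000000000000000000000000000000) := T_39 (nat_lit 197) (nat_lit 180) (nat_lit 4) (nat_lit 11) (nat_lit 14) L105137 (by decide +kernel)
theorem L105139 : W_39 (nat_lit 9) (nat_lit 0x200014000a00040000400020001000080000000000000000000000000000000) (nat_lit 0x0) (nat_lit 0xc000f801c000200014000a0003000000000000000000000000000000000000000000000) := T_39 (nat_lit 250) (nat_lit 267) (nat_lit 7) (nat_lit 11) (nat_lit 11) L105138 (by decide +kernel)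
theorem L105140 : W_39 (nat_lit 2) (nat_lit 0x4000600034000a00060000400020001000080000000000000000000000000000000) (nat_lit 0x0) (nat_lit 0x80000000000000001000080000000000000000000000000000000000000000000000000) := D_39 (nat_lit 216) (nat_lit 199) (nat_lit 283) (nat_lit 6) (nat_lit 11) (nat_lit 15) (nat_lit 6) (nat_lit 11) (nat_lit 16) (by decide +kernel)
theorem L105141 : W_39 (nat_lit 3) (nat_lit 0x4000600014000a00060000400020001000080000000000000000000000000000000) (nat_lit 0x0) (nat_lit 0x80000000000020001000080002000000000000000000000000000000000000000000000) := T_39 (nat_lit 233) (nat_lit 181) (nat_lit 7) (nat_lit 11) (nat_lit 10) L105140 (by decide +kernel)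
theorem L105142 : W_39 (nat_lit 4) (nat_lit 0x600014000a00060000400020001000080000000000000000000000000000000) (nat_lit 0x0) (nat_lit 0x80004000000020001400080002000000000000000000000000000000000000000000000) := T_39 (nat_lit 266) (nat_lit 214) (nat_lit 4) (nat_lit 11) (nat_lit 15) L105141 (by decide +kernel)
theorem L105143 : W_39 (nat_lit 5) (nat_lit 0x600014000a00040000400020001000080000000000000000000000000000000) (nat_lit 0x0) (nat_lit 0x800040000000200014000a0003000000000000000000000000000000000000000000000) := T_39 (nat_lit 197) (nat_lit 180) (nat_lit 4) (nat_lit 11) (nat_lit 14) L105142 (by decide +kernel)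
theorem L105144 : W_39 (nat_lit 6) (nat_lit 0x200014000a00040000400020001000080000000000000000000000000000000) (nat_lit 0x0) (nat_lit 0x8000c0004000200014000a0003000000000000000000000000000000000000000000000) := T_39 (nat_lit 250) (nat_lit 267) (nat_lit 7) (nat_lit 11) (nat_lit 11) L105143 (by decide +kernel)
theorem L105145 : W_39 (nat_lit 2) (nat_lit 0x4000200014000a00060000400020001000180000000000000000000000000000000) (nat_lit 0x0) (nat_lit 0x40002000100000000000000000000000000000000000000000000000000000000000000) := D_39 (nat_lit 265) (nat_lit 282) (nat_lit 248) (nat_lit 5) (nat_lit 11) (nat_lit 12) (nat_lit 5) (nat_lit 11) (nat_lit 11) (by decide +kernel)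
theorem L105146 : W_39 (nat_lit 3) (nat_lit 0x200014000a00060000400020001000180000000000000000000000000000000) (nat_lit 0x0) (nat_lit 0x40006000100000000400000000000000000000000000000000000000000000000000000) := T_39 (nat_lit 266) (nat_lit 214) (nat_lit 4) (nat_lit 11) (nat_lit 15) L105145 (by decide +kernel)
theorem L105147 : W_39 (nat_lit 4) (nat_lit 0x200014000a00040000400020001000180000000000000000000000000000000) (nat_lit 0x0) (nat_lit 0x40006000100000000400020001000000000000000000000000000000000000000000000) := T_39 (nat_lit 197) (nat_lit 180) (nat_lit 4) (nat_lit 11) (nat_lit 14) L105146 (by decide +kernel)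
theorem L105148 : W_39 (nat_lit 5) (nat_lit 0x200014000a00040000400020001000080000000000000000000000000000000) (nat_lit 0x0) (nat_lit 0x40006000100000000400020001000000000000100008000000000000000000000000000) := T_39 (nat_lit 128) (nat_lit 111) (nat_lit 6) (nat_lit 8) (nat_lit 10) L105147 (by decide +kernel)
theorem L105149 : W_39 (nat_lit 11) (nat_lit 0x14000a00040000400020001000080000000000000000000000000000000) (nat_lit 0x0) (nat_lit 0xc003f801f800e80014000a400320000000000014000a000000000000000000000000000) := Q_39 (nat_lit 249) (C_39 L105127 (C_39 L105131 (C_39 L105121 (C_39 L105079 (C_39 L105139 (C_39 L105144 (C_39 L105148 N_39))))))) (by decide +kernel)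
theorem L105150 : W_39 (nat_lit 2) (nat_lit 0x700014000a000400004000200010000c0000000000000000000000000000000) (nat_lit 0x0) (nat_lit 0x800008000000000002000000000000000000000000000000000000000000000) := D_39 (nat_lit 231) (nat_lit 251) (nat_lit 181) (nat_lit 0) (nat_lit 13) (nat_lit 14) (nat_lit 5) (nat_lit 11) (nat_lit 10) (by decide +kernel)
theorem L105151 : W_39 (nat_lit 3) (nat_lit 0x300014000a000400004000200010000c0000000000000000000000000000000) (nat_lit 0x0) (nat_lit 0x8000c00008000000000002000000000000000000000000000000000000000000000) := T_39 (nat_lit 250) (nat_lit 267) (nat_lit 7) (nat_lit 11) (nat_lit 11) L105150 (by decide +kernel)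
theorem L105152 : W_39 (nat_lit 4) (nat_lit 0x200014000a000400004000200010000c0000000000000000000000000000000) (nat_lit 0x0) (nat_lit 0xa000d00008000000000002000000000000000000000000000000000000000000000) := T_39 (nat_lit 248) (nat_lit 265) (nat_lit 5) (nat_lit 11) (nat_lit 11) L105151 (by decide +kernel)
theorem L105153 : W_39 (nat_lit 5) (nat_lit 0x200014000a00040000400020001000080000000000000000000000000000000) (nat_lit 0x0) (nat_lit 0xa000d00008000000000002000000000000040002000000000000000000000000000) := T_39 (nat_lit 126) (nat_lit 109) (nat_lit 4) (nat_lit 8) (nat_lit 10) L105152 (by decide +kernel)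
theorem L105154 : W_39 (nat_lit 6) (nat_lit 0x14000a00040000400020001000080000000000000000000000000000000) (nat_lit 0x0) (nat_lit 0x14000e000f000080014000a000700000000000014000a000000000000000000000000000) := Q_39 (nat_lit 249) (C_39 L105003 (C_39 L105148 (C_39 L104999 (C_39 L105153 N_39)))) (by decide +kernel)
theorem L105155 : W_39 (nat_lit 8) (nat_lit 0x14000a00040000400020001000080000000000000000000000000000000) (nat_lit 0x0) (nat_lit 0x80006000200010000840072003c001400014000a000000000000000000000000000) := Q_39 (nat_lit 181) (C_39 L105106 (C_39 L105095 (C_39 L105068 (C_39 L105025 N_39)))) (by decide +kernel)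
theorem L105156 : W_39 (nat_lit 8) (nat_lit 0x14000a00040000400020001000080000000000000000000000000000000) (nat_lit 0x0) (nat_lit 0x20007000280030000240072003c001400014000a000000000000000000000000000) := Q_39 (nat_lit 181) (C_39 L105111 (C_39 L105106 (C_39 L105101 (C_39 L105025 N_39)))) (by decide +kernel)
theorem L105157 : W_39 (nat_lit 2) (nat_lit 0x3c001e00040003600020001000180000000000000000000000000000000) (nat_lit 0x0) (nat_lit 0xc0000000000020000000000000000000000000000000000000000000000000) := D_39 (nat_lit 247) (nat_lit 197) (nat_lit 246) (nat_lit 5) (nat_lit 10) (nat_lit 10) (nat_lit 1) (nat_lit 12) (nat_lit 13) (by decide +kernel)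
theorem L105158 : W_39 (nat_lit 3) (nat_lit 0x3c001a00040003600020001000180000000000000000000000000000000) (nat_lit 0x0) (nat_lit 0xc0040000400020000000000000000000000000000000000000000000000000) := T_39 (nat_lit 214) (nat_lit 234) (nat_lit 3) (nat_lit 9) (nat_lit 12) L105157 (by decide +kernel)
theorem L105159 : W_39 (nat_lit 4) (nat_lit 0x3c000a00040003600020001000180000000000000000000000000000000) (nat_lit 0x0) (nat_lit 0xc0040003400020000000000000000000000000000000000000000000000000) := T_39 (nat_lit 216) (nat_lit 217) (nat_lit 2) (nat_lit 9) (nat_lit 13) L105158 (by decide +kernel)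
theorem L105160 : W_39 (nat_lit 5) (nat_lit 0x34000a00040003600020001000180000000000000000000000000000000) (nat_lit 0x0) (nat_lit 0x1c0048003400020000000000000000000000000000000000000000000000000) := T_39 (nat_lit 231) (nat_lit 248) (nat_lit 5) (nat_lit 11) (nat_lit 10) L105159 (by decide +kernel)
theorem L105161 : W_39 (nat_lit 6) (nat_lit 0x34000a00040002600020001000180000000000000000000000000000000) (nat_lit 0x0) (nat_lit 0x1c0048003400020001000080000000000000000000000000000000000000000) := T_39 (nat_lit 180) (nat_lit 163) (nat_lit 4) (nat_lit 11) (nat_lit 13) L105160 (by decide +kernel)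
theorem L105162 : W_39 (nat_lit 7) (nat_lit 0x14000a00040002600020001000180000000000000000000000000000000) (nat_lit 0x0) (nat_lit 0x5c0068003400020001000080000000000000000000000000000000000000000) := T_39 (nat_lit 233) (nat_lit 250) (nat_lit 7) (nat_lit 11) (nat_lit 10) L105161 (by decide +kernel)
theorem L105163 : W_39 (nat_lit 8) (nat_lit 0x14000a00040002400020001000180000000000000000000000000000000) (nat_lit 0x0) (nat_lit 0x5c0068003400024001200080000000000000000000000000000000000000000) := T_39 (nat_lit 177) (nat_lit 194) (nat_lit 5) (nat_lit 8) (nat_lit 7) L105162 (by decide +kernel)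
theorem L105164 : W_39 (nat_lit 9) (nat_lit 0x14000a00040002400020001000080000000000000000000000000000000) (nat_lit 0x0) (nat_lit 0x5c0068003400024001200080000000100008000000000000000000000000000) := T_39 (nat_lit 128) (nat_lit 111) (nat_lit 6) (nat_lit 8) (nat_lit 10) L105163 (by decide +kernel)
theorem L105165 : W_39 (nat_lit 10) (nat_lit 0x14000a00040000400020001000080000000000000000000000000000000) (nat_lit 0x0) (nat_lit 0x5c00680034000240072003c001400014000a000000000000000000000000000) := Q_39 (nat_lit 181) (C_39 L105111 (C_39 L105106 (C_39 L105164 (C_39 L105025 N_39)))) (by decide +kernel)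
theorem L105166 : W_39 (nat_lit 2) (nat_lit 0x200014000a000400034000200010000c0000000000000000000000000000000) (nat_lit 0x0) (nat_lit 0x2000100008000000000000000000000000000000000000000000000000000000000) := D_39 (nat_lit 248) (nat_lit 265) (nat_lit 231) (nat_lit 5) (nat_lit 11) (nat_lit 11) (nat_lit 5) (nat_lit 11) (nat_lit 10) (by decide +kernel)
theorem L105167 : W_39 (nat_lit 3) (nat_lit 0x14000a000400034000200010000c0000000000000000000000000000000) (nat_lit 0x0) (nat_lit 0x2000300008000000020000000000000000000000000000000000000000000000000) := T_39 (nat_lit 249) (nat_lit 197) (nat_lit 4) (nat_lit 11) (nat_lit 14) L105166 (by decide +kernel)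
theorem L105168 : W_39 (nat_lit 4) (nat_lit 0x14000a000400024000200010000c0000000000000000000000000000000) (nat_lit 0x0) (nat_lit 0x2000300008000000020001000080000000000000000000000000000000000000000) := T_39 (nat_lit 180) (nat_lit 163) (nat_lit 4) (nat_lit 11) (nat_lit 13) L105167 (by decide +kernel)
theorem L105169 : W_39 (nat_lit 5) (nat_lit 0x14000a00040002400020001000080000000000000000000000000000000) (nat_lit 0x0) (nat_lit 0x2000300008000000020001000080000000040002000000000000000000000000000) := T_39 (nat_lit 126) (nat_lit 109) (nat_lit 4) (nat_lit 8) (nat_lit 10) L105168 (by decide +kernel)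
theorem L105170 : W_39 (nat_lit 8) (nat_lit 0x14000a00040000400020001000080000000000000000000000000000000) (nat_lit 0x0) (nat_lit 0x20003000080000000a40072003c000400014000a000000000000000000000000000) := Q_39 (nat_lit 181) (C_39 L105104 (C_39 L105025 (C_39 L105169 N_39))) (by decide +kernel)
theorem L105171 : W_39 (nat_lit 12) (nat_lit 0x14000a00000000400020001000080000000000000000000000000000000) (nat_lit 0x0) (nat_lit 0x1c003f801fc00e80034000e40072003c001400014000a000000000000000000000000000) := Q_39 (nat_lit 198) (C_39 L105074 (C_39 L105090 (C_39 L105096 (C_39 L105107 (C_39 L105112 (C_39 L105122 (C_39 L105149 (C_39 L105154 (C_39 L105155 (C_39 L105156 (C_39 L105165 (C_39 L105170 N_39)))))))))))) (by decide +kernel)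
theorem L105172 : W_39 (nat_lit 12) (nat_lit 0x1c000a00000000400020001000080000000000000000000000000000000) (nat_lit 0x0) (nat_lit 0x1f000fe00fe0063000400064001200000000000100008000000000000000000000000000) := Q_39 (nat_lit 214) (C_39 L104607 (C_39 L104207 (C_39 L104189 (C_39 L104602 (C_39 L104217 N_39))))) (by decide +kernel)
theorem L105173 : W_39 (nat_lit 12) (nat_lit 0x1c000a00000000400020001000080000000000000000000000000000000) (nat_lit 0x0) (nat_lit 0x1d000f800fe006300040002000100000000000014000a000000000000000000000000000) := Q_39 (nat_lit 214) (C_39 L104610 (C_39 L104207 (C_39 L104189 (C_39 L104569 N_39)))) (by decide +kernel)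
theorem L105174 : W_39 (nat_lit 4) (nat_lit 0x1c000a000000004000200010000c0000000000000000000000000000000) (nat_lit 0x0) (nat_lit 0x70003001400000000000000000000000000000000000000000000000000000) := T_39 (nat_lit 229) (nat_lit 216) (nat_lit 2) (nat_lit 8) (nat_lit 13) L104812 (by decide +kernel)
theorem L105175 : W_39 (nat_lit 5) (nat_lit 0x1c000a00000000400020001000080000000000000000000000000000000) (nat_lit 0x0) (nat_lit 0x70003001400000000000000000000040002000000000000000000000000000) := T_39 (nat_lit 126) (nat_lit 109) (nat_lit 4) (nat_lit 8) (nat_lit 10) L105174 (by decide +kernel)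
theorem L105176 : W_39 (nat_lit 7) (nat_lit 0x14001a00000000400020001000080000000000000000000000000000000) (nat_lit 0x0) (nat_lit 0x100008000e000680024003c0004000200000000100008000000000000000000000000000) := Q_39 (nat_lit 214) (C_39 L104709 (C_39 L104704 (C_39 L104184 N_39))) (by decide +kernel)
theorem L105177 : W_39 (nat_lit 5) (nat_lit 0x14001a00000000400020001000080000000000000000000000000000000) (nat_lit 0x0) (nat_lit 0x2a00600000000000000000000014000a000000000000000000000000000) := T_39 (nat_lit 128) (nat_lit 111) (nat_lit 6) (nat_lit 8) (nat_lit 10) L104861 (by decide +kernel)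
theorem L105178 : W_39 (nat_lit 2) (nat_lit 0x14001a00000000400020001000080000000000000000000000000000000) (nat_lit 0x0) (nat_lit 0xa000400000000000000000000000000000000000000000000000000000) := D_39 (nat_lit 229) (nat_lit 231) (nat_lit 214) (nat_lit 2) (nat_lit 8) (nat_lit 13) (nat_lit 1) (nat_lit 12) (nat_lit 12) (by decide +kernel)
theorem L105179 : W_39 (nat_lit 8) (nat_lit 0x14000a00000000400020001000080000000000000000000000000000000) (nat_lit 0x0) (nat_lit 0x100008000e0006a0074003c400420020000000014000a000000000000000000000000000) := Q_39 (nat_lit 216) (C_39 L104902 (C_39 L104900 (C_39 L105176 (C_39 L105177 (C_39 L105178 N_39))))) (by decide +kernel)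
theorem L105180 : W_39 (nat_lit 2) (nat_lit 0x300014001a000e0000600020001000080000000000000000000000000000000) (nat_lit 0x0) (nat_lit 0x6000010000000000000000000000000000000000000000000000000) := D_39 (nat_lit 217) (nat_lit 196) (nat_lit 218) (nat_lit 3) (nat_lit 9) (nat_lit 11) (nat_lit 0) (nat_lit 14) (nat_lit 12) (by decide +kernel)
theorem L105181 : W_39 (nat_lit 3) (nat_lit 0x300014000a000e0000600020001000080000000000000000000000000000000) (nat_lit 0x0) (nat_lit 0x4000000000007000010000000000000000000000000000000000000000000000000) := T_39 (nat_lit 216) (nat_lit 266) (nat_lit 6) (nat_lit 11) (nat_lit 15) L105180 (by decide +kernel)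
theorem L105182 : W_39 (nat_lit 4) (nat_lit 0x300014000a00060000600020001000080000000000000000000000000000000) (nat_lit 0x0) (nat_lit 0x4000000000007000090004000000000000000000000000000000000000000000000) := T_39 (nat_lit 199) (nat_lit 182) (nat_lit 6) (nat_lit 11) (nat_lit 14) L105181 (by decide +kernel)
theorem L105183 : W_39 (nat_lit 5) (nat_lit 0x300014000a00040000600020001000080000000000000000000000000000000) (nat_lit 0x0) (nat_lit 0x40000000000070000b0005000000000000000000000000000000000000000000000) := T_39 (nat_lit 197) (nat_lit 180) (nat_lit 4) (nat_lit 11) (nat_lit 14) L105182 (by decide +kernel)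
theorem L105184 : W_39 (nat_lit 6) (nat_lit 0x200014000a00040000600020001000080000000000000000000000000000000) (nat_lit 0x0) (nat_lit 0x60001000000070000b0005000000000000000000000000000000000000000000000) := T_39 (nat_lit 248) (nat_lit 265) (nat_lit 5) (nat_lit 11) (nat_lit 11) L105183 (by decide +kernel)
theorem L105185 : W_39 (nat_lit 7) (nat_lit 0x200014000a00040000400020001000080000000000000000000000000000000) (nat_lit 0x0) (nat_lit 0x60001000000070000b4005200000000000000000000000000000000000000000000) := T_39 (nat_lit 177) (nat_lit 194) (nat_lit 5) (nat_lit 8) (nat_lit 7) L105184 (by decide +kernel)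
theorem L105186 : W_39 (nat_lit 8) (nat_lit 0x200014000a00000000400020001000080000000000000000000000000000000) (nat_lit 0x0) (nat_lit 0x10000fc005c00220070000f4007200080000000100008000000000000000000000000000) := Q_39 (nat_lit 198) (C_39 L105008 (C_39 L105089 (C_39 L104999 (C_39 L105185 N_39)))) (by decide +kernel)
theorem L105187 : W_39 (nat_lit 2) (nat_lit 0x600014000a000400024000200010001c0000000000000000000000000000000) (nat_lit 0x0) (nat_lit 0x20001000080000000000000000000000000000000000000000) := D_39 (nat_lit 180) (nat_lit 163) (nat_lit 197) (nat_lit 4) (nat_lit 11) (nat_lit 13) (nat_lit 4) (nat_lit 11) (nat_lit 14) (by decide +kernel)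
theorem L105188 : W_39 (nat_lit 3) (nat_lit 0x600014000a000400004000200010001c0000000000000000000000000000000) (nat_lit 0x0) (nat_lit 0x20000000020003000080000000000000000000000000000000000000000) := T_39 (nat_lit 181) (nat_lit 233) (nat_lit 7) (nat_lit 11) (nat_lit 10) L105187 (by decide +kernel)
theorem L105189 : W_39 (nat_lit 4) (nat_lit 0x600014000a000400004000200010000c0000000000000000000000000000000) (nat_lit 0x0) (nat_lit 0x20000000020003000080000000100008000000000000000000000000000) := T_39 (nat_lit 128) (nat_lit 111) (nat_lit 6) (nat_lit 8) (nat_lit 10) L105188 (by decide +kernel)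
theorem L105190 : W_39 (nat_lit 5) (nat_lit 0x200014000a000400004000200010000c0000000000000000000000000000000) (nat_lit 0x0) (nat_lit 0x8000400020000000020003000080000000100008000000000000000000000000000) := T_39 (nat_lit 250) (nat_lit 267) (nat_lit 7) (nat_lit 11) (nat_lit 11) L105189 (by decide +kernel)
theorem L105191 : W_39 (nat_lit 6) (nat_lit 0x200014000a00040000400020001000080000000000000000000000000000000) (nat_lit 0x0) (nat_lit 0x800040002000000002000300008000000014000a000000000000000000000000000) := T_39 (nat_lit 126) (nat_lit 109) (nat_lit 4) (nat_lit 8) (nat_lit 10) L105190 (by decide +kernel)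
theorem L105192 : W_39 (nat_lit 7) (nat_lit 0x200014000a00000000400020001000080000000000000000000000000000000) (nat_lit 0x0) (nat_lit 0x4000fc005c00220004000f000700008000000014000a000000000000000000000000000) := Q_39 (nat_lit 198) (C_39 L105148 (C_39 L105089 (C_39 L105008 (C_39 L105191 N_39)))) (by decide +kernel)
theorem L105193 : W_39 (nat_lit 8) (nat_lit 0x200014000a00000000400020001000080000000000000000000000000000000) (nat_lit 0x0) (nat_lit 0xc000fc005c00220074000f4007200000000000040002000000000000000000000000000) := Q_39 (nat_lit 198) (C_39 L105079 (C_39 L105185 (C_39 L105008 (C_39 L105144 N_39)))) (by decide +kernel)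
theorem L105194 : W_39 (nat_lit 2) (nat_lit 0x300014001a000c00004000200010000c0000000000000000000000000000000) (nat_lit 0x0) (nat_lit 0x2000400100000000000000000000000000000000000000000000000000) := D_39 (nat_lit 214) (nat_lit 200) (nat_lit 229) (nat_lit 2) (nat_lit 9) (nat_lit 12) (nat_lit 1) (nat_lit 12) (nat_lit 12) (by decide +kernel)
theorem L105195 : W_39 (nat_lit 3) (nat_lit 0x300014000a000c00004000200010000c0000000000000000000000000000000) (nat_lit 0x0) (nat_lit 0x4000000002001400100000000000000000000000000000000000000000000000000) := T_39 (nat_lit 216) (nat_lit 266) (nat_lit 6) (nat_lit 11) (nat_lit 15) L105194 (by decide +kernel)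
theorem L105196 : W_39 (nat_lit 4) (nat_lit 0x300014000a000400004000200010000c0000000000000000000000000000000) (nat_lit 0x0) (nat_lit 0x4000000002001400180004000000000000000000000000000000000000000000000) := T_39 (nat_lit 199) (nat_lit 182) (nat_lit 6) (nat_lit 11) (nat_lit 14) L105195 (by decide +kernel)
theorem L105197 : W_39 (nat_lit 5) (nat_lit 0x200014000a000400004000200010000c0000000000000000000000000000000) (nat_lit 0x0) (nat_lit 0x6000100002001400180004000000000000000000000000000000000000000000000) := T_39 (nat_lit 248) (nat_lit 265) (nat_lit 5) (nat_lit 11) (nat_lit 11) L105196 (by decide +kernel)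
theorem L105198 : W_39 (nat_lit 6) (nat_lit 0x200014000a00040000400020001000080000000000000000000000000000000) (nat_lit 0x0) (nat_lit 0x6000100002001400180004000000000000040002000000000000000000000000000) := T_39 (nat_lit 126) (nat_lit 109) (nat_lit 4) (nat_lit 8) (nat_lit 10) L105197 (by decide +kernel)
theorem L105199 : W_39 (nat_lit 7) (nat_lit 0x200014000a00000000400020001000080000000000000000000000000000000) (nat_lit 0x0) (nat_lit 0x14000fc005c00020014001d000400000000000014000a000000000000000000000000000) := Q_39 (nat_lit 198) (C_39 L105008 (C_39 L105003 (C_39 L104999 (C_39 L105198 N_39)))) (by decide +kernel)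
theorem L105200 : W_39 (nat_lit 8) (nat_lit 0x200014000a00000000400020001000080000000000000000000000000000000) (nat_lit 0x0) (nat_lit 0x4000e0005000200070000f400720008000000014000a000000000000000000000000000) := Q_39 (nat_lit 198) (C_39 L105191 (C_39 L105185 (C_39 L105003 N_39))) (by decide +kernel)
theorem L105201 : W_39 (nat_lit 7) (nat_lit 0x200014000a00000000400020001000080000000000000000000000000000000) (nat_lit 0x0) (nat_lit 0x4000e0005000220014001e000700008000000014000a000000000000000000000000000) := Q_39 (nat_lit 198) (C_39 L105191 (C_39 L105198 (C_39 L105148 N_39))) (by decide +kernel)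
theorem L105202 : W_39 (nat_lit 2) (nat_lit 0xc000200014001e00000000400020001000180000000000000000000000000000000) (nat_lit 0x0) (nat_lit 0x80000000000060000000000000000000000000000000000000000000000000000000000) := D_39 (nat_lit 233) (nat_lit 234) (nat_lit 283) (nat_lit 3) (nat_lit 9) (nat_lit 12) (nat_lit 6) (nat_lit 11) (nat_lit 16) (by decide +kernel)
theorem L105203 : W_39 (nat_lit 3) (nat_lit 0xc000200014000e00000000400020001000180000000000000000000000000000000) (nat_lit 0x0) (nat_lit 0x80000000000062001000000000000000000000000000000000000000000000000000000) := T_39 (nat_lit 216) (nat_lit 229) (nat_lit 1) (nat_lit 12) (nat_lit 12) L105202 (by decide +kernel)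
theorem L105204 : W_39 (nat_lit 4) (nat_lit 0xc000200014000a00000000400020001000180000000000000000000000000000000) (nat_lit 0x0) (nat_lit 0x80000000000062001400020000000000000000000000000000000000000000000000000) := T_39 (nat_lit 214) (nat_lit 197) (nat_lit 4) (nat_lit 11) (nat_lit 15) L105203 (by decide +kernel)
theorem L105205 : W_39 (nat_lit 5) (nat_lit 0x4000200014000a00000000400020001000180000000000000000000000000000000) (nat_lit 0x0) (nat_lit 0x180008000000062001400020000000000000000000000000000000000000000000000000) := T_39 (nat_lit 267) (nat_lit 284) (nat_lit 7) (nat_lit 11) (nat_lit 12) L105204 (by decide +kernel)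
theorem L105206 : W_39 (nat_lit 6) (nat_lit 0x4000200014000a00000000400020001000080000000000000000000000000000000) (nat_lit 0x0) (nat_lit 0x180008000000062001400020000000000000000100008000000000000000000000000000) := T_39 (nat_lit 128) (nat_lit 111) (nat_lit 6) (nat_lit 8) (nat_lit 10) L105205 (by decide +kernel)
theorem L105207 : W_39 (nat_lit 2) (nat_lit 0x6000200034001a00000000600020001000180000000000000000000000000000000) (nat_lit 0x0) (nat_lit 0x42000400000000000000000000000000000000000000000000000000000) := D_39 (nat_lit 214) (nat_lit 229) (nat_lit 234) (nat_lit 1) (nat_lit 12) (nat_lit 12) (nat_lit 3) (nat_lit 9) (nat_lit 12) (by decide +kernel)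
theorem L105208 : W_39 (nat_lit 3) (nat_lit 0x6000200014001a00000000600020001000180000000000000000000000000000000) (nat_lit 0x0) (nat_lit 0x80000000000062000400000000000000000000000000000000000000000000000000000) := T_39 (nat_lit 233) (nat_lit 283) (nat_lit 6) (nat_lit 11) (nat_lit 16) L105207 (by decide +kernel)
theorem L105209 : W_39 (nat_lit 4) (nat_lit 0x6000200014000a00000000600020001000180000000000000000000000000000000) (nat_lit 0x0) (nat_lit 0x80000000000062001400080000000000000000000000000000000000000000000000000) := T_39 (nat_lit 216) (nat_lit 199) (nat_lit 6) (nat_lit 11) (nat_lit 15) L105208 (by decide +kernel)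
theorem L105210 : W_39 (nat_lit 5) (nat_lit 0x4000200014000a00000000600020001000180000000000000000000000000000000) (nat_lit 0x0) (nat_lit 0xc0002000000062001400080000000000000000000000000000000000000000000000000) := T_39 (nat_lit 265) (nat_lit 282) (nat_lit 5) (nat_lit 11) (nat_lit 12) L105209 (by decide +kernel)
theorem L105211 : W_39 (nat_lit 6) (nat_lit 0x4000200014000a00000000600020001000080000000000000000000000000000000) (nat_lit 0x0) (nat_lit 0xc0002000000062001400080000000000000000100008000000000000000000000000000) := T_39 (nat_lit 128) (nat_lit 111) (nat_lit 6) (nat_lit 8) (nat_lit 10) L105210 (by decide +kernel)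
theorem L105212 : W_39 (nat_lit 7) (nat_lit 0x4000200014000a00000000400020001000080000000000000000000000000000000) (nat_lit 0x0) (nat_lit 0xc0002000000062001400084000200000000000100008000000000000000000000000000) := T_39 (nat_lit 177) (nat_lit 194) (nat_lit 5) (nat_lit 8) (nat_lit 7) L105211 (by decide +kernel)
theorem L105213 : W_39 (nat_lit 2) (nat_lit 0x4000200014001e000000004000200010001c0000000000000000000000000000000) (nat_lit 0x0) (nat_lit 0x80000000000060000000000000000000000000000000000000000000000000000000000) := D_39 (nat_lit 233) (nat_lit 234) (nat_lit 283) (nat_lit 3) (nat_lit 9) (nat_lit 12) (nat_lit 6) (nat_lit 11) (nat_lit 16) (by decide +kernel)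
theorem L105214 : W_39 (nat_lit 3) (nat_lit 0x200014001e000000004000200010001c0000000000000000000000000000000) (nat_lit 0x0) (nat_lit 0x80004000000060000000020000000000000000000000000000000000000000000000000) := T_39 (nat_lit 266) (nat_lit 197) (nat_lit 4) (nat_lit 11) (nat_lit 15) L105213 (by decide +kernel)
theorem L105215 : W_39 (nat_lit 4) (nat_lit 0x200014001e00000000400020001000180000000000000000000000000000000) (nat_lit 0x0) (nat_lit 0x80004000000060000000020000000000000000040002000000000000000000000000000) := T_39 (nat_lit 126) (nat_lit 109) (nat_lit 4) (nat_lit 8) (nat_lit 10) L105214 (by decide +kernel)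
theorem L105216 : W_39 (nat_lit 5) (nat_lit 0x200014001a00000000400020001000180000000000000000000000000000000) (nat_lit 0x0) (nat_lit 0x80004000000062000400020000000000000000040002000000000000000000000000000) := T_39 (nat_lit 214) (nat_lit 229) (nat_lit 1) (nat_lit 12) (nat_lit 12) L105215 (by decide +kernel)
theorem L105217 : W_39 (nat_lit 6) (nat_lit 0x200014001a00000000400020001000080000000000000000000000000000000) (nat_lit 0x0) (nat_lit 0x8000400000006200040002000000000000000014000a000000000000000000000000000) := T_39 (nat_lit 128) (nat_lit 111) (nat_lit 6) (nat_lit 8) (nat_lit 10) L105216 (by decide +kernel)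
theorem L105218 : W_39 (nat_lit 2) (nat_lit 0x4000200014001a000000004000200010000c0000000000000000000000000000000) (nat_lit 0x0) (nat_lit 0x2000400020000000000000000000000000000000000000000000000000) := D_39 (nat_lit 214) (nat_lit 229) (nat_lit 197) (nat_lit 1) (nat_lit 12) (nat_lit 12) (nat_lit 4) (nat_lit 11) (nat_lit 15) (by decide +kernel)
theorem L105219 : W_39 (nat_lit 3) (nat_lit 0x200014001a000000004000200010000c0000000000000000000000000000000) (nat_lit 0x0) (nat_lit 0x40000000020004000a0000000000000000000000000000000000000000000000000) := T_39 (nat_lit 266) (nat_lit 199) (nat_lit 6) (nat_lit 11) (nat_lit 15) L105218 (by decide +kernel)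
theorem L105220 : W_39 (nat_lit 4) (nat_lit 0x200014001a00000000400020001000080000000000000000000000000000000) (nat_lit 0x0) (nat_lit 0x40000000020004000a0000000000000000040002000000000000000000000000000) := T_39 (nat_lit 126) (nat_lit 109) (nat_lit 4) (nat_lit 8) (nat_lit 10) L105219 (by decide +kernel)
theorem L105221 : W_39 (nat_lit 2) (nat_lit 0x200014001e000800006000200010001c0000000000000000000000000000000) (nat_lit 0x0) (nat_lit 0x60000000000004000000000000000000000000000000000000000000000) := D_39 (nat_lit 233) (nat_lit 234) (nat_lit 182) (nat_lit 3) (nat_lit 9) (nat_lit 12) (nat_lit 5) (nat_lit 12) (nat_lit 10) (by decide +kernel)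
theorem L105222 : W_39 (nat_lit 3) (nat_lit 0x200014001e000000006000200010001c0000000000000000000000000000000) (nat_lit 0x0) (nat_lit 0x60000000180004000000000000000000000000000000000000000000000) := T_39 (nat_lit 199) (nat_lit 200) (nat_lit 2) (nat_lit 9) (nat_lit 12) L105221 (by decide +kernel)
theorem L105223 : W_39 (nat_lit 4) (nat_lit 0x200014001e000000004000200010001c0000000000000000000000000000000) (nat_lit 0x0) (nat_lit 0x60000000184004200000000000000000000000000000000000000000000) := T_39 (nat_lit 177) (nat_lit 194) (nat_lit 5) (nat_lit 8) (nat_lit 7) L105222 (by decide +kernel)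
theorem L105224 : W_39 (nat_lit 5) (nat_lit 0x200014001a000000004000200010001c0000000000000000000000000000000) (nat_lit 0x0) (nat_lit 0x62000400184004200000000000000000000000000000000000000000000) := T_39 (nat_lit 214) (nat_lit 229) (nat_lit 1) (nat_lit 12) (nat_lit 12) L105223 (by decide +kernel)
theorem L105225 : W_39 (nat_lit 6) (nat_lit 0x200014001a00000000400020001000180000000000000000000000000000000) (nat_lit 0x0) (nat_lit 0x62000400184004200000000000040002000000000000000000000000000) := T_39 (nat_lit 126) (nat_lit 109) (nat_lit 4) (nat_lit 8) (nat_lit 10) L105224 (by decide +kernel)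
theorem L105226 : W_39 (nat_lit 7) (nat_lit 0x200014001a00000000400020001000080000000000000000000000000000000) (nat_lit 0x0) (nat_lit 0x6200040018400420000000000014000a000000000000000000000000000) := T_39 (nat_lit 128) (nat_lit 111) (nat_lit 6) (nat_lit 8) (nat_lit 10) L105225 (by decide +kernel)
theorem L105227 : W_39 (nat_lit 8) (nat_lit 0x200014000a00000000400020001000080000000000000000000000000000000) (nat_lit 0x0) (nat_lit 0x800040000000620014001a400420020000000014000a000000000000000000000000000) := Q_39 (nat_lit 216) (C_39 L104859 (C_39 L105217 (C_39 L105220 (C_39 L105226 N_39)))) (by decide +kernel)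
theorem L105228 : W_39 (nat_lit 4) (nat_lit 0xc000200014001a00000000600020001000080000000000000000000000000000000) (nat_lit 0x0) (nat_lit 0xc0002000500020000000040000000000000000000000000000000000000000000000000) := T_39 (nat_lit 283) (nat_lit 233) (nat_lit 6) (nat_lit 11) (nat_lit 16) L104404 (by decide +kernel)
theorem L105229 : W_39 (nat_lit 5) (nat_lit 0xc000200014000a00000000600020001000080000000000000000000000000000000) (nat_lit 0x0) (nat_lit 0xc00020005000200010000c0000000000000000000000000000000000000000000000000) := T_39 (nat_lit 216) (nat_lit 199) (nat_lit 6) (nat_lit 11) (nat_lit 15) L105228 (by decide +kernel)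
theorem L105230 : W_39 (nat_lit 6) (nat_lit 0x4000200014000a00000000600020001000080000000000000000000000000000000) (nat_lit 0x0) (nat_lit 0x1c000a0005000200010000c0000000000000000000000000000000000000000000000000) := T_39 (nat_lit 267) (nat_lit 284) (nat_lit 7) (nat_lit 11) (nat_lit 12) L105229 (by decide +kernel)
theorem L105231 : W_39 (nat_lit 7) (nat_lit 0x4000200014000a00000000400020001000080000000000000000000000000000000) (nat_lit 0x0) (nat_lit 0x1c000a0005000200010000c4000200000000000000000000000000000000000000000000) := T_39 (nat_lit 177) (nat_lit 194) (nat_lit 5) (nat_lit 8) (nat_lit 7) L105230 (by decide +kernel)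
theorem L105232 : W_39 (nat_lit 2) (nat_lit 0xc000200014000a00040000600020001000080000000000000000000000000000000) (nat_lit 0x0) (nat_lit 0x400020001000000000000000000000000000000000000000000000) := D_39 (nat_lit 197) (nat_lit 180) (nat_lit 214) (nat_lit 4) (nat_lit 11) (nat_lit 14) (nat_lit 4) (nat_lit 11) (nat_lit 15) (by decide +kernel)
theorem L105233 : W_39 (nat_lit 3) (nat_lit 0xc000200014000a00000000600020001000080000000000000000000000000000000) (nat_lit 0x0) (nat_lit 0x400000000400060001000000000000000000000000000000000000000000000) := T_39 (nat_lit 198) (nat_lit 250) (nat_lit 7) (nat_lit 11) (nat_lit 11) L105232 (by decide +kernel)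
theorem L105234 : W_39 (nat_lit 4) (nat_lit 0xc000200014000a00000000400020001000080000000000000000000000000000000) (nat_lit 0x0) (nat_lit 0x400000000400064001200000000000000000000000000000000000000000000) := T_39 (nat_lit 177) (nat_lit 194) (nat_lit 5) (nat_lit 8) (nat_lit 7) L105233 (by decide +kernel)
theorem L105235 : W_39 (nat_lit 5) (nat_lit 0x4000200014000a00000000400020001000080000000000000000000000000000000) (nat_lit 0x0) (nat_lit 0x100008000400000000400064001200000000000000000000000000000000000000000000) := T_39 (nat_lit 267) (nat_lit 284) (nat_lit 7) (nat_lit 11) (nat_lit 12) L105234 (by decide +kernel)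
theorem L105236 : W_39 (nat_lit 8) (nat_lit 0x200014000a00000000400020001000080000000000000000000000000000000) (nat_lit 0x0) (nat_lit 0x1c000e0005000620014000e4001200000000000100008000000000000000000000000000) := Q_39 (nat_lit 266) (C_39 L105231 (C_39 L105206 (C_39 L105235 (C_39 L105212 N_39)))) (by decide +kernel)
theorem L105237 : W_39 (nat_lit 7) (nat_lit 0x200014000a00000000400020001000080000000000000000000000000000000) (nat_lit 0x0) (nat_lit 0x4000fc005c002200040007000300008000000014000a000000000000000000000000000) := Q_39 (nat_lit 198) (C_39 L105191 (C_39 L105148 (C_39 L105079 (C_39 L105008 N_39)))) (by decide +kernel)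
theorem L105238 : W_39 (nat_lit 2) (nat_lit 0x300014004a001e00106000200010001c0000000000000000000000000000000) (nat_lit 0x0) (nat_lit 0x8000200020000000000000000000000000000000000000000000000) := D_39 (nat_lit 201) (nat_lit 185) (nat_lit 219) (nat_lit 2) (nat_lit 11) (nat_lit 11) (nat_lit 3) (nat_lit 11) (nat_lit 11) (by decide +kernel)
theorem L105239 : W_39 (nat_lit 3) (nat_lit 0x300014000a001e00106000200010001c0000000000000000000000000000000) (nat_lit 0x0) (nat_lit 0xe000200020000000000000000000000000000000000000000000000) := T_39 (nat_lit 218) (nat_lit 217) (nat_lit 3) (nat_lit 10) (nat_lit 11) L105238 (by decide +kernel)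
theorem L105240 : W_39 (nat_lit 4) (nat_lit 0x300014000a001e00006000200010001c0000000000000000000000000000000) (nat_lit 0x0) (nat_lit 0xe000200038000000000000000000000000000000000000000000000) := T_39 (nat_lit 184) (nat_lit 183) (nat_lit 2) (nat_lit 10) (nat_lit 11) L105239 (by decide +kernel)
theorem L105241 : W_39 (nat_lit 5) (nat_lit 0x300014000a000e00006000200010001c0000000000000000000000000000000) (nat_lit 0x0) (nat_lit 0xe400300038000000000000000000000000000000000000000000000) := T_39 (nat_lit 200) (nat_lit 214) (nat_lit 1) (nat_lit 13) (nat_lit 11) L105240 (by decide +kernel)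
theorem L105242 : W_39 (nat_lit 6) (nat_lit 0x300014000a000600006000200010001c0000000000000000000000000000000) (nat_lit 0x0) (nat_lit 0xe40038003c000000000000000000000000000000000000000000000) := T_39 (nat_lit 199) (nat_lit 182) (nat_lit 6) (nat_lit 11) (nat_lit 14) L105241 (by decide +kernel)
theorem L105243 : W_39 (nat_lit 7) (nat_lit 0x300014000a000600006000200010000c0000000000000000000000000000000) (nat_lit 0x0) (nat_lit 0xe40038003c000000000000100008000000000000000000000000000) := T_39 (nat_lit 128) (nat_lit 111) (nat_lit 6) (nat_lit 8) (nat_lit 10) L105242 (by decide +kernel)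
theorem L105244 : W_39 (nat_lit 8) (nat_lit 0x200014000a000600006000200010000c0000000000000000000000000000000) (nat_lit 0x0) (nat_lit 0x200010000000e40038003c000000000000100008000000000000000000000000000) := T_39 (nat_lit 248) (nat_lit 265) (nat_lit 5) (nat_lit 11) (nat_lit 11) L105243 (by decide +kernel)
theorem L105245 : W_39 (nat_lit 9) (nat_lit 0x200014000a00060000600020001000080000000000000000000000000000000) (nat_lit 0x0) (nat_lit 0x200010000000e40038003c00000000000014000a000000000000000000000000000) := T_39 (nat_lit 126) (nat_lit 109) (nat_lit 4) (nat_lit 8) (nat_lit 10) L105244 (by decide +kernel)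
theorem L105246 : W_39 (nat_lit 10) (nat_lit 0x200014000a00040000600020001000080000000000000000000000000000000) (nat_lit 0x0) (nat_lit 0x200010000000e4003a003d00000000000014000a000000000000000000000000000) := T_39 (nat_lit 197) (nat_lit 180) (nat_lit 4) (nat_lit 11) (nat_lit 14) L105245 (by decide +kernel)
theorem L105247 : W_39 (nat_lit 11) (nat_lit 0x200014000a00040000400020001000080000000000000000000000000000000) (nat_lit 0x0) (nat_lit 0x200010000000e4003a403d20000000000014000a000000000000000000000000000) := T_39 (nat_lit 177) (nat_lit 194) (nat_lit 5) (nat_lit 8) (nat_lit 7) L105246 (by decide +kernel)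
theorem L105248 : W_39 (nat_lit 12) (nat_lit 0x200014000a00000000400020001000080000000000000000000000000000000) (nat_lit 0x0) (nat_lit 0xbc005c002200e4003f403f20008000000014000a000000000000000000000000000) := Q_39 (nat_lit 198) (C_39 L105191 (C_39 L105089 (C_39 L105008 (C_39 L105247 N_39)))) (by decide +kernel)
theorem L105249 : W_39 (nat_lit 13) (nat_lit 0x14000a00000000400020001000080000000000000000000000000000000) (nat_lit 0x0) (nat_lit 0x1c000fc007c006200f4003f403f20028000000014000a000000000000000000000000000) := Q_39 (nat_lit 249) (C_39 L105186 (C_39 L105192 (C_39 L105193 (C_39 L105199 (C_39 L105200 (C_39 L105201 (C_39 L105227 (C_39 L105236 (C_39 L105237 (C_39 L105248 N_39)))))))))) (by decide +kernel)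
theorem L105250 : W_39 (nat_lit 2) (nat_lit 0x80003c000a00000000400020001000080000000000000000000000000000000) (nat_lit 0x0) (nat_lit 0x1000040000400000000000000000000000000000000000000000000000000000) := D_39 (nat_lit 234) (nat_lit 214) (nat_lit 252) (nat_lit 0) (nat_lit 13) (nat_lit 13) (nat_lit 3) (nat_lit 10) (nat_lit 13) (by decide +kernel)
theorem L105251 : W_39 (nat_lit 3) (nat_lit 0x3c000a00000000400020001000080000000000000000000000000000000) (nat_lit 0x0) (nat_lit 0x1c00040000400000000000000000000000000000000000000000000000000000) := T_39 (nat_lit 251) (nat_lit 250) (nat_lit 3) (nat_lit 9) (nat_lit 13) L105250 (by decide +kernel)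
theorem L105252 : W_39 (nat_lit 2) (nat_lit 0x100007c004a000000004000200010001c0000000000000000000000000000000) (nat_lit 0x0) (nat_lit 0x2000080008000000000000000000000000000000000000000000000000000000) := D_39 (nat_lit 235) (nat_lit 253) (nat_lit 219) (nat_lit 3) (nat_lit 11) (nat_lit 13) (nat_lit 2) (nat_lit 11) (nat_lit 13) (by decide +kernel)
theorem L105253 : W_39 (nat_lit 3) (nat_lit 0x100007c000a000000004000200010001c0000000000000000000000000000000) (nat_lit 0x0) (nat_lit 0x200008000e000000000000000000000000000000000000000000000000000000) := T_39 (nat_lit 218) (nat_lit 217) (nat_lit 2) (nat_lit 10) (nat_lit 13) L105252 (by decide +kernel)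
theorem L105254 : W_39 (nat_lit 4) (nat_lit 0x7c000a000000004000200010001c0000000000000000000000000000000) (nat_lit 0x0) (nat_lit 0x380008000e000000000000000000000000000000000000000000000000000000) := T_39 (nat_lit 252) (nat_lit 251) (nat_lit 3) (nat_lit 10) (nat_lit 13) L105253 (by decide +kernel)
theorem L105255 : W_39 (nat_lit 5) (nat_lit 0x7c000a00000000400020001000180000000000000000000000000000000) (nat_lit 0x0) (nat_lit 0x380008000e000000000000000000000040002000000000000000000000000000) := T_39 (nat_lit 126) (nat_lit 109) (nat_lit 4) (nat_lit 8) (nat_lit 10) L105254 (by decide +kernel)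
theorem L105256 : W_39 (nat_lit 6) (nat_lit 0x3c000a00000000400020001000180000000000000000000000000000000) (nat_lit 0x0) (nat_lit 0x38000c000e400000000000000000000040002000000000000000000000000000) := T_39 (nat_lit 234) (nat_lit 214) (nat_lit 0) (nat_lit 13) (nat_lit 13) L105255 (by decide +kernel)
theorem L105257 : W_39 (nat_lit 7) (nat_lit 0x3c000a00000000400020001000080000000000000000000000000000000) (nat_lit 0x0) (nat_lit 0x38000c000e40000000000000000000014000a000000000000000000000000000) := T_39 (nat_lit 128) (nat_lit 111) (nat_lit 6) (nat_lit 8) (nat_lit 10) L105256 (by decide +kernel)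
theorem L105258 : W_39 (nat_lit 6) (nat_lit 0x80024001e000a000000006000200010000c0000000000000000000000000000000) (nat_lit 0x0) (nat_lit 0x8000c400180000000400030000000000000000100008000000000000000000000000000) := T_39 (nat_lit 128) (nat_lit 111) (nat_lit 6) (nat_lit 8) (nat_lit 10) L104424 (by decide +kernel)
theorem L105259 : W_39 (nat_lit 7) (nat_lit 0x24001e000a000000006000200010000c0000000000000000000000000000000) (nat_lit 0x0) (nat_lit 0x9000cc00180000000400030000000000000000100008000000000000000000000000000) := T_39 (nat_lit 263) (nat_lit 280) (nat_lit 6) (nat_lit 8) (nat_lit 16) L105258 (by decide +kernel)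
theorem L105260 : W_39 (nat_lit 8) (nat_lit 0x24001e000a000000004000200010000c0000000000000000000000000000000) (nat_lit 0x0) (nat_lit 0x9000cc00180000000400034000200000000000100008000000000000000000000000000) := T_39 (nat_lit 177) (nat_lit 194) (nat_lit 5) (nat_lit 8) (nat_lit 7) L105259 (by decide +kernel)
theorem L105261 : W_39 (nat_lit 9) (nat_lit 0x20001e000a000000004000200010000c0000000000000000000000000000000) (nat_lit 0x0) (nat_lit 0x9000cc001e0000000400034000200000000000100008000000000000000000000000000) := T_39 (nat_lit 246) (nat_lit 245) (nat_lit 1) (nat_lit 11) (nat_lit 13) L105260 (by decide +kernel)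
theorem L105262 : W_39 (nat_lit 10) (nat_lit 0x1e000a000000004000200010000c0000000000000000000000000000000) (nat_lit 0x0) (nat_lit 0x9000cc007e0000000400034000200000000000100008000000000000000000000000000) := T_39 (nat_lit 249) (nat_lit 250) (nat_lit 3) (nat_lit 8) (nat_lit 13) L105261 (by decide +kernel)
theorem L105263 : W_39 (nat_lit 11) (nat_lit 0x1e000a00000000400020001000080000000000000000000000000000000) (nat_lit 0x0) (nat_lit 0x9000cc007e000000040003400020000000000014000a000000000000000000000000000) := T_39 (nat_lit 126) (nat_lit 109) (nat_lit 4) (nat_lit 8) (nat_lit 10) L105262 (by decide +kernel)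
theorem L105264 : W_39 (nat_lit 4) (nat_lit 0x1e000a00000000400020001000080000000000000000000000000000000) (nat_lit 0x0) (nat_lit 0x70001000400000000000000000000100008000000000000000000000000000) := T_39 (nat_lit 128) (nat_lit 111) (nat_lit 6) (nat_lit 8) (nat_lit 10) L104416 (by decide +kernel)
theorem L105265 : W_39 (nat_lit 2) (nat_lit 0x8007c000a000000004000200010000c0000000000000000000000000000000) (nat_lit 0x0) (nat_lit 0x1c00000000000000000000000000000000000000000000000000000000000000) := D_39 (nat_lit 251) (nat_lit 250) (nat_lit 252) (nat_lit 3) (nat_lit 9) (nat_lit 13) (nat_lit 3) (nat_lit 10) (nat_lit 13) (by decide +kernel)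
theorem L105266 : W_39 (nat_lit 3) (nat_lit 0x8003c000a000000004000200010000c0000000000000000000000000000000) (nat_lit 0x0) (nat_lit 0x1d00040000000000000000000000000000000000000000000000000000000000) := T_39 (nat_lit 234) (nat_lit 248) (nat_lit 1) (nat_lit 13) (nat_lit 13) L105265 (by decide +kernel)
theorem L105267 : W_39 (nat_lit 4) (nat_lit 0x8003c000a00000000400020001000080000000000000000000000000000000) (nat_lit 0x0) (nat_lit 0x1d00040000000000000000000000000040002000000000000000000000000000) := T_39 (nat_lit 126) (nat_lit 109) (nat_lit 4) (nat_lit 8) (nat_lit 10) L105266 (by decide +kernel)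
theorem L105268 : W_39 (nat_lit 5) (nat_lit 0x3c000a00000000400020001000080000000000000000000000000000000) (nat_lit 0x0) (nat_lit 0x1dc0040000000000000000000000000040002000000000000000000000000000) := T_39 (nat_lit 247) (nat_lit 246) (nat_lit 1) (nat_lit 12) (nat_lit 13) L105267 (by decide +kernel)
theorem L105269 : W_39 (nat_lit 4) (nat_lit 0x1e000a00000000400020001000080000000000000000000000000000000) (nat_lit 0x0) (nat_lit 0x70001000400000000000000000000040002000000000000000000000000000) := T_39 (nat_lit 126) (nat_lit 109) (nat_lit 4) (nat_lit 8) (nat_lit 10) L104812 (by decide +kernel)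
theorem L105270 : W_39 (nat_lit 7) (nat_lit 0x1001f800a00000000600020001000080000000000000000000000000000000) (nat_lit 0x0) (nat_lit 0x4000700010001c0057000000000000000000000000000000000000000) := T_39 (nat_lit 209) (nat_lit 210) (nat_lit 0) (nat_lit 9) (nat_lit 13) L105047 (by decide +kernel)
theorem L105271 : W_39 (nat_lit 8) (nat_lit 0x1001f000a00000000600020001000080000000000000000000000000000000) (nat_lit 0x0) (nat_lit 0x8000c000700010001c0057000000000000000000000000000000000000000) := T_39 (nat_lit 227) (nat_lit 243) (nat_lit 1) (nat_lit 9) (nat_lit 13) L105270 (by decide +kernel)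
theorem L105272 : W_39 (nat_lit 9) (nat_lit 0x1001f000a00000000400020001000080000000000000000000000000000000) (nat_lit 0x0) (nat_lit 0x8000c000700050003c0057000000000000000000000000000000000000000) := T_39 (nat_lit 177) (nat_lit 194) (nat_lit 5) (nat_lit 8) (nat_lit 7) L105271 (by decide +kernel)
theorem L105273 : W_39 (nat_lit 10) (nat_lit 0x1f000a00000000400020001000080000000000000000000000000000000) (nat_lit 0x0) (nat_lit 0x38000c000700050003c0057000000000000000000000000000000000000000) := T_39 (nat_lit 244) (nat_lit 245) (nat_lit 1) (nat_lit 10) (nat_lit 13) L105272 (by decide +kernel)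
theorem L105274 : W_39 (nat_lit 11) (nat_lit 0x1e000a00000000400020001000080000000000000000000000000000000) (nat_lit 0x0) (nat_lit 0x38001c004700050003c0057000000000000000000000000000000000000000) := T_39 (nat_lit 228) (nat_lit 214) (nat_lit 2) (nat_lit 7) (nat_lit 13) L105273 (by decide +kernel)
theorem L105275 : W_39 (nat_lit 2) (nat_lit 0x200014001e00080000600020001000180000000000000000000000000000000) (nat_lit 0x0) (nat_lit 0x40004000200000000000000000000000000000000000000000) := D_39 (nat_lit 182) (nat_lit 165) (nat_lit 198) (nat_lit 5) (nat_lit 12) (nat_lit 9) (nat_lit 6) (nat_lit 11) (nat_lit 14) (by decide +kernel)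
theorem L105276 : W_39 (nat_lit 3) (nat_lit 0x14001e00080000600020001000180000000000000000000000000000000) (nat_lit 0x0) (nat_lit 0x4000200000000000040004000200000000000000000000000000000000000000000) := T_39 (nat_lit 249) (nat_lit 266) (nat_lit 6) (nat_lit 11) (nat_lit 15) L105275 (by decide +kernel)
theorem L105277 : W_39 (nat_lit 4) (nat_lit 0x14001e00080000400020001000180000000000000000000000000000000) (nat_lit 0x0) (nat_lit 0x4000200000000000044004200200000000000000000000000000000000000000000) := T_39 (nat_lit 177) (nat_lit 194) (nat_lit 5) (nat_lit 8) (nat_lit 7) L105276 (by decide +kernel)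
theorem L105278 : W_39 (nat_lit 5) (nat_lit 0x14001e00000000400020001000180000000000000000000000000000000) (nat_lit 0x0) (nat_lit 0x40002000000000001c4004200200000000000000000000000000000000000000000) := T_39 (nat_lit 199) (nat_lit 200) (nat_lit 2) (nat_lit 9) (nat_lit 12) L105277 (by decide +kernel)
theorem L105279 : W_39 (nat_lit 6) (nat_lit 0x14001e00000000400020001000080000000000000000000000000000000) (nat_lit 0x0) (nat_lit 0x40002000000000001c4004200200000000100008000000000000000000000000000) := T_39 (nat_lit 128) (nat_lit 111) (nat_lit 6) (nat_lit 8) (nat_lit 10) L105278 (by decide +kernel)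
theorem L105280 : W_39 (nat_lit 2) (nat_lit 0x54007e000200006000e00010001c0000000000000000000000000000000) (nat_lit 0x0) (nat_lit 0x180010000000000000000000000000000000000000000) := D_39 (nat_lit 176) (nat_lit 160) (nat_lit 175) (nat_lit 1) (nat_lit 10) (nat_lit 9) (nat_lit 2) (nat_lit 5) (nat_lit 10) (by decide +kernel)
theorem L105281 : W_39 (nat_lit 3) (nat_lit 0x54007e000200006000a00010001c0000000000000000000000000000000) (nat_lit 0x0) (nat_lit 0x180150000000000000000000000000000000000000000) := T_39 (nat_lit 162) (nat_lit 164) (nat_lit 1) (nat_lit 11) (nat_lit 9) L105280 (by decide +kernel)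
theorem L105282 : W_39 (nat_lit 4) (nat_lit 0x54007e000200006000200010001c0000000000000000000000000000000) (nat_lit 0x0) (nat_lit 0x11801d0000000000000000000000000000000000000000) := T_39 (nat_lit 163) (nat_lit 180) (nat_lit 7) (nat_lit 10) (nat_lit 9) L105281 (by decide +kernel)
theorem L105283 : W_39 (nat_lit 5) (nat_lit 0x54003e000200006000200010001c0000000000000000000000000000000) (nat_lit 0x0) (nat_lit 0x40000400011801d0000000000000000000000000000000000000000) := T_39 (nat_lit 218) (nat_lit 198) (nat_lit 0) (nat_lit 14) (nat_lit 12) L105282 (by decide +kernel)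
theorem L105284 : W_39 (nat_lit 6) (nat_lit 0x54003e000000006000200010001c0000000000000000000000000000000) (nat_lit 0x0) (nat_lit 0x40000700011801d0000000000000000000000000000000000000000) := T_39 (nat_lit 197) (nat_lit 196) (nat_lit 0) (nat_lit 13) (nat_lit 12) L105283 (by decide +kernel)
theorem L105285 : W_39 (nat_lit 7) (nat_lit 0x14000e00000000400020001000080000000000000000000000000000000) (nat_lit 0x0) (nat_lit 0x40002000020010001c4004200200000000100008000000000000000000000000000) := T_39 (nat_lit 216) (nat_lit 229) (nat_lit 1) (nat_lit 12) (nat_lit 12) L105279 (by decide +kernel)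
theorem L105286 : W_39 (nat_lit 12) (nat_lit 0x16000a00000000400020001000080000000000000000000000000000000) (nat_lit 0x0) (nat_lit 0x9000cc007f8009c004700350003c005700000014000a000000000000000000000000000) := Q_39 (nat_lit 231) (C_39 L105274 (C_39 L105269 (C_39 L105263 (C_39 L104354 (C_39 L104802 N_39))))) (by decide +kernel)
theorem L105287 : W_39 (nat_lit 2) (nat_lit 0x1000200016800e000200006000e00010001c0000000000000000000000000000000) (nat_lit 0x0) (nat_lit 0x180010000000000000000000000000000000000000000) := D_39 (nat_lit 176) (nat_lit 160) (nat_lit 175) (nat_lit 1) (nat_lit 10) (nat_lit 9) (nat_lit 2) (nat_lit 5) (nat_lit 10) (by decide +kernel)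
theorem L105288 : W_39 (nat_lit 3) (nat_lit 0x1000200016800e000200006000a00010001c0000000000000000000000000000000) (nat_lit 0x0) (nat_lit 0x180150000000000000000000000000000000000000000) := T_39 (nat_lit 162) (nat_lit 164) (nat_lit 1) (nat_lit 11) (nat_lit 9) L105287 (by decide +kernel)
theorem L105289 : W_39 (nat_lit 4) (nat_lit 0x1000200016800e000200006000a0001000180000000000000000000000000000000) (nat_lit 0x0) (nat_lit 0x180150000000040002000000000000000000000000000) := T_39 (nat_lit 126) (nat_lit 109) (nat_lit 4) (nat_lit 8) (nat_lit 10) L105288 (by decide +kernel)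
theorem L105290 : W_39 (nat_lit 5) (nat_lit 0x1000200016800e00020000600020001000180000000000000000000000000000000) (nat_lit 0x0) (nat_lit 0x11801d0000000040002000000000000000000000000000) := T_39 (nat_lit 163) (nat_lit 180) (nat_lit 7) (nat_lit 10) (nat_lit 9) L105289 (by decide +kernel)
theorem L105291 : W_39 (nat_lit 6) (nat_lit 0x200016800e00020000600020001000180000000000000000000000000000000) (nat_lit 0x0) (nat_lit 0x10000800000000000000011801d0000000040002000000000000000000000000000) := T_39 (nat_lit 264) (nat_lit 247) (nat_lit 6) (nat_lit 9) (nat_lit 15) L105290 (by decide +kernel)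
theorem L105292 : W_39 (nat_lit 7) (nat_lit 0x200016000e00020000600020001000180000000000000000000000000000000) (nat_lit 0x0) (nat_lit 0x10000800018000000000011801d0000000040002000000000000000000000000000) := T_39 (nat_lit 227) (nat_lit 228) (nat_lit 2) (nat_lit 6) (nat_lit 13) L105291 (by decide +kernel)
theorem L105293 : W_39 (nat_lit 8) (nat_lit 0x200016000e00000000600020001000180000000000000000000000000000000) (nat_lit 0x0) (nat_lit 0x50000800018000000200011801d0000000040002000000000000000000000000000) := T_39 (nat_lit 197) (nat_lit 266) (nat_lit 4) (nat_lit 11) (nat_lit 15) L105292 (by decide +kernel)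
theorem L105294 : W_39 (nat_lit 9) (nat_lit 0x200016000e00000000400020001000180000000000000000000000000000000) (nat_lit 0x0) (nat_lit 0x50000800018000000240013801d0000000040002000000000000000000000000000) := T_39 (nat_lit 177) (nat_lit 194) (nat_lit 5) (nat_lit 8) (nat_lit 7) L105293 (by decide +kernel)
theorem L105295 : W_39 (nat_lit 10) (nat_lit 0x200016000a00000000400020001000180000000000000000000000000000000) (nat_lit 0x0) (nat_lit 0x50000800018014000240013801d0000000040002000000000000000000000000000) := T_39 (nat_lit 214) (nat_lit 216) (nat_lit 1) (nat_lit 12) (nat_lit 12) L105294 (by decide +kernel)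
theorem L105296 : W_39 (nat_lit 11) (nat_lit 0x200016000a00000000400020001000080000000000000000000000000000000) (nat_lit 0x0) (nat_lit 0x50000800018014000240013801d000000014000a000000000000000000000000000) := T_39 (nat_lit 128) (nat_lit 111) (nat_lit 6) (nat_lit 8) (nat_lit 10) L105295 (by decide +kernel)
theorem L105297 : W_39 (nat_lit 2) (nat_lit 0x16000a000000006000e0001000080000000000000000000000000000000) (nat_lit 0x0) (nat_lit 0x180010000000000000000000000000000000000000000) := D_39 (nat_lit 176) (nat_lit 160) (nat_lit 175) (nat_lit 1) (nat_lit 10) (nat_lit 9) (nat_lit 2) (nat_lit 5) (nat_lit 10) (by decide +kernel)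
theorem L105298 : W_39 (nat_lit 3) (nat_lit 0x16000a000000006000a0001000080000000000000000000000000000000) (nat_lit 0x0) (nat_lit 0x180150000000000000000000000000000000000000000) := T_39 (nat_lit 162) (nat_lit 164) (nat_lit 1) (nat_lit 11) (nat_lit 9) L105297 (by decide +kernel)
theorem L105299 : W_39 (nat_lit 4) (nat_lit 0x16000a000000004000a0001000080000000000000000000000000000000) (nat_lit 0x0) (nat_lit 0x4000380150000000000000000000000000000000000000000) := T_39 (nat_lit 177) (nat_lit 194) (nat_lit 5) (nat_lit 8) (nat_lit 7) L105298 (by decide +kernel)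
theorem L105300 : W_39 (nat_lit 2) (nat_lit 0x280017000e000200006001a00010001c0000000000000000000000000000000) (nat_lit 0x0) (nat_lit 0x540000000000000000000000000000000000000000000000000000000000000) := D_39 (nat_lit 248) (nat_lit 250) (nat_lit 246) (nat_lit 0) (nat_lit 12) (nat_lit 14) (nat_lit 0) (nat_lit 11) (nat_lit 14) (by decide +kernel)
theorem L105301 : W_39 (nat_lit 3) (nat_lit 0x80017000e000200006001a00010001c0000000000000000000000000000000) (nat_lit 0x0) (nat_lit 0x4000740000000000000000000000000000000000000000000000000000000000000) := T_39 (nat_lit 249) (nat_lit 266) (nat_lit 4) (nat_lit 11) (nat_lit 15) L105300 (by decide +kernel)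
theorem L105302 : W_39 (nat_lit 4) (nat_lit 0x80016000e000200006001a00010001c0000000000000000000000000000000) (nat_lit 0x0) (nat_lit 0x4000740001800000000000000000000000000000000000000000000000000000000) := T_39 (nat_lit 228) (nat_lit 227) (nat_lit 2) (nat_lit 6) (nat_lit 13) L105301 (by decide +kernel)
theorem L105303 : W_39 (nat_lit 5) (nat_lit 0x16000e000200006001a00010001c0000000000000000000000000000000) (nat_lit 0x0) (nat_lit 0x50007c0001800000000000000000000000000000000000000000000000000000000) := T_39 (nat_lit 247) (nat_lit 264) (nat_lit 6) (nat_lit 9) (nat_lit 15) L105302 (by decide +kernel)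
theorem L105304 : W_39 (nat_lit 6) (nat_lit 0x16000e000200006001a0001000180000000000000000000000000000000) (nat_lit 0x0) (nat_lit 0x50007c0001800000000000000000000000040002000000000000000000000000000) := T_39 (nat_lit 126) (nat_lit 109) (nat_lit 4) (nat_lit 8) (nat_lit 10) L105303 (by decide +kernel)
theorem L105305 : W_39 (nat_lit 7) (nat_lit 0x16000e000000006001a0001000180000000000000000000000000000000) (nat_lit 0x0) (nat_lit 0x50007c0001800000020001000000000000040002000000000000000000000000000) := T_39 (nat_lit 197) (nat_lit 180) (nat_lit 7) (nat_lit 10) (nat_lit 9) L105304 (by decide +kernel)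
theorem L105306 : W_39 (nat_lit 8) (nat_lit 0x16000e000000006000a0001000180000000000000000000000000000000) (nat_lit 0x0) (nat_lit 0x50007c0001800000020001000140000000040002000000000000000000000000000) := T_39 (nat_lit 164) (nat_lit 162) (nat_lit 1) (nat_lit 11) (nat_lit 9) L105305 (by decide +kernel)
theorem L105307 : W_39 (nat_lit 9) (nat_lit 0x16000e000000004000a0001000180000000000000000000000000000000) (nat_lit 0x0) (nat_lit 0x50007c0001800000024001200140000000040002000000000000000000000000000) := T_39 (nat_lit 177) (nat_lit 194) (nat_lit 5) (nat_lit 8) (nat_lit 7) L105306 (by decide +kernel)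
theorem L105308 : W_39 (nat_lit 10) (nat_lit 0x16000a000000004000a0001000180000000000000000000000000000000) (nat_lit 0x0) (nat_lit 0x50007c0001801400024001200140000000040002000000000000000000000000000) := T_39 (nat_lit 214) (nat_lit 216) (nat_lit 1) (nat_lit 12) (nat_lit 12) L105307 (by decide +kernel)
theorem L105309 : W_39 (nat_lit 11) (nat_lit 0x16000a000000004000a0001000080000000000000000000000000000000) (nat_lit 0x0) (nat_lit 0x50007c000180140002400120014000000014000a000000000000000000000000000) := T_39 (nat_lit 128) (nat_lit 111) (nat_lit 6) (nat_lit 8) (nat_lit 10) L105308 (by decide +kernel)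
theorem L105310 : W_39 (nat_lit 2) (nat_lit 0x380016800e000200006000a00010001c0000000000000000000000000000000) (nat_lit 0x0) (nat_lit 0x2000000000000000050000000000000000000000000000000000000000000000000) := D_39 (nat_lit 265) (nat_lit 198) (nat_lit 196) (nat_lit 5) (nat_lit 11) (nat_lit 11) (nat_lit 7) (nat_lit 9) (nat_lit 11) (by decide +kernel)
theorem L105311 : W_39 (nat_lit 3) (nat_lit 0x280016800e000200006000a00010001c0000000000000000000000000000000) (nat_lit 0x0) (nat_lit 0x2000500000000000050000000000000000000000000000000000000000000000000) := T_39 (nat_lit 248) (nat_lit 250) (nat_lit 0) (nat_lit 12) (nat_lit 14) L105310 (by decide +kernel)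
theorem L105312 : W_39 (nat_lit 4) (nat_lit 0x200016800e000200006000a00010001c0000000000000000000000000000000) (nat_lit 0x0) (nat_lit 0x3000580000000000050000000000000000000000000000000000000000000000000) := T_39 (nat_lit 247) (nat_lit 264) (nat_lit 6) (nat_lit 9) (nat_lit 15) L105311 (by decide +kernel)
theorem L105313 : W_39 (nat_lit 5) (nat_lit 0x16800e000200006000a00010001c0000000000000000000000000000000) (nat_lit 0x0) (nat_lit 0x7000780000000000050000000000000000000000000000000000000000000000000) := T_39 (nat_lit 249) (nat_lit 266) (nat_lit 4) (nat_lit 11) (nat_lit 15) L105312 (by decide +kernel)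
theorem L105314 : W_39 (nat_lit 6) (nat_lit 0x16800e000000006000a00010001c0000000000000000000000000000000) (nat_lit 0x0) (nat_lit 0x7000780000000000070001000000000000000000000000000000000000000000000) := T_39 (nat_lit 197) (nat_lit 180) (nat_lit 7) (nat_lit 10) (nat_lit 9) L105313 (by decide +kernel)
theorem L105315 : W_39 (nat_lit 7) (nat_lit 0x16000e000000006000a00010001c0000000000000000000000000000000) (nat_lit 0x0) (nat_lit 0x7000780001800000070001000000000000000000000000000000000000000000000) := T_39 (nat_lit 227) (nat_lit 228) (nat_lit 2) (nat_lit 6) (nat_lit 13) L105314 (by decide +kernel)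
theorem L105316 : W_39 (nat_lit 8) (nat_lit 0x16000a000000006000a00010001c0000000000000000000000000000000) (nat_lit 0x0) (nat_lit 0x7000780001801400070001000000000000000000000000000000000000000000000) := T_39 (nat_lit 214) (nat_lit 216) (nat_lit 1) (nat_lit 12) (nat_lit 12) L105315 (by decide +kernel)
theorem L105317 : W_39 (nat_lit 9) (nat_lit 0x16000a000000006000a0001000180000000000000000000000000000000) (nat_lit 0x0) (nat_lit 0x7000780001801400070001000000000000040002000000000000000000000000000) := T_39 (nat_lit 126) (nat_lit 109) (nat_lit 4) (nat_lit 8) (nat_lit 10) L105316 (by decide +kernel)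
theorem L105318 : W_39 (nat_lit 10) (nat_lit 0x16000a000000006000a0001000080000000000000000000000000000000) (nat_lit 0x0) (nat_lit 0x700078000180140007000100000000000014000a000000000000000000000000000) := T_39 (nat_lit 128) (nat_lit 111) (nat_lit 6) (nat_lit 8) (nat_lit 10) L105317 (by decide +kernel)
theorem L105319 : W_39 (nat_lit 11) (nat_lit 0x16000a000000004000a0001000080000000000000000000000000000000) (nat_lit 0x0) (nat_lit 0x700078000180140007400120000000000014000a000000000000000000000000000) := T_39 (nat_lit 177) (nat_lit 194) (nat_lit 5) (nat_lit 8) (nat_lit 7) L105318 (by decide +kernel)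
theorem L105320 : W_39 (nat_lit 2) (nat_lit 0x16800e000000034000e0001000180000000000000000000000000000000) (nat_lit 0x0) (nat_lit 0xc000100000000000000000000000000000000000000000) := D_39 (nat_lit 182) (nat_lit 183) (nat_lit 164) (nat_lit 0) (nat_lit 13) (nat_lit 10) (nat_lit 3) (nat_lit 8) (nat_lit 9) (by decide +kernel)
theorem L105321 : W_39 (nat_lit 3) (nat_lit 0x16800e000000034000a0001000180000000000000000000000000000000) (nat_lit 0x0) (nat_lit 0xc000150000000000000000000000000000000000000000) := T_39 (nat_lit 162) (nat_lit 160) (nat_lit 3) (nat_lit 7) (nat_lit 9) L105320 (by decide +kernel)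
theorem L105322 : W_39 (nat_lit 4) (nat_lit 0x16000e000000034000a0001000180000000000000000000000000000000) (nat_lit 0x0) (nat_lit 0x180000000000c000150000000000000000000000000000000000000000) := T_39 (nat_lit 227) (nat_lit 228) (nat_lit 2) (nat_lit 6) (nat_lit 13) L105321 (by decide +kernel)
theorem L105323 : W_39 (nat_lit 5) (nat_lit 0x16000e000000014000a0001000180000000000000000000000000000000) (nat_lit 0x0) (nat_lit 0x180000004000e000150000000000000000000000000000000000000000) := T_39 (nat_lit 181) (nat_lit 198) (nat_lit 4) (nat_lit 11) (nat_lit 13) L105322 (by decide +kernel)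
theorem L105324 : W_39 (nat_lit 6) (nat_lit 0x16000e000000004000a0001000180000000000000000000000000000000) (nat_lit 0x0) (nat_lit 0x180000006000f000150000000000000000000000000000000000000000) := T_39 (nat_lit 180) (nat_lit 197) (nat_lit 7) (nat_lit 10) (nat_lit 9) L105323 (by decide +kernel)
theorem L105325 : W_39 (nat_lit 7) (nat_lit 0x16000e000000004000a0001000080000000000000000000000000000000) (nat_lit 0x0) (nat_lit 0x180000006000f000150000000100008000000000000000000000000000) := T_39 (nat_lit 128) (nat_lit 111) (nat_lit 6) (nat_lit 8) (nat_lit 10) L105324 (by decide +kernel)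
theorem L105326 : W_39 (nat_lit 8) (nat_lit 0x16000a000000004000a0001000080000000000000000000000000000000) (nat_lit 0x0) (nat_lit 0x180140006000f000150000000100008000000000000000000000000000) := T_39 (nat_lit 214) (nat_lit 216) (nat_lit 1) (nat_lit 12) (nat_lit 12) L105325 (by decide +kernel)
theorem L105327 : W_39 (nat_lit 12) (nat_lit 0x16000a00000000400020001000080000000000000000000000000000000) (nat_lit 0x0) (nat_lit 0x70007c000180140007400f3801d000000014000a000000000000000000000000000) := Q_39 (nat_lit 163) (C_39 L105299 (C_39 L105309 (C_39 L105319 (C_39 L105326 N_39)))) (by decide +kernel)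
theorem L105328 : W_39 (nat_lit 13) (nat_lit 0x14000a00000000400020001000080000000000000000000000000000000) (nat_lit 0x0) (nat_lit 0x9000fc007f800bc0147007500f3c01d700000014000a000000000000000000000000000) := Q_39 (nat_lit 229) (C_39 L105042 (C_39 L105286 (C_39 L105030 (C_39 L105327 N_39)))) (by decide +kernel)
theorem L105329 : W_39 (nat_lit 2) (nat_lit 0x40007c001a000000006000200010000c0000000000000000000000000000000) (nat_lit 0x0) (nat_lit 0x1c0000000000000000000000000000000000000000000000000000000000000) := D_39 (nat_lit 247) (nat_lit 248) (nat_lit 246) (nat_lit 1) (nat_lit 13) (nat_lit 13) (nat_lit 1) (nat_lit 12) (nat_lit 13) (by decide +kernel)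
theorem L105330 : W_39 (nat_lit 3) (nat_lit 0x40003c001a000000006000200010000c0000000000000000000000000000000) (nat_lit 0x0) (nat_lit 0x1c0040000400000000000000000000000000000000000000000000000000000) := T_39 (nat_lit 234) (nat_lit 214) (nat_lit 3) (nat_lit 9) (nat_lit 12) L105329 (by decide +kernel)
theorem L105331 : W_39 (nat_lit 4) (nat_lit 0x3c001a000000006000200010000c0000000000000000000000000000000) (nat_lit 0x0) (nat_lit 0xdc0040000400000000000000000000000000000000000000000000000000000) := T_39 (nat_lit 250) (nat_lit 251) (nat_lit 3) (nat_lit 9) (nat_lit 13) L105330 (by decide +kernel)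
theorem L105332 : W_39 (nat_lit 5) (nat_lit 0x34001a000000006000200010000c0000000000000000000000000000000) (nat_lit 0x0) (nat_lit 0xdc0048002400000000000000000000000000000000000000000000000000000) := T_39 (nat_lit 231) (nat_lit 217) (nat_lit 2) (nat_lit 9) (nat_lit 13) L105331 (by decide +kernel)
theorem L105333 : W_39 (nat_lit 6) (nat_lit 0x34001a00000000600020001000080000000000000000000000000000000) (nat_lit 0x0) (nat_lit 0xdc0048002400000000000000000000040002000000000000000000000000000) := T_39 (nat_lit 126) (nat_lit 109) (nat_lit 4) (nat_lit 8) (nat_lit 10) L105332 (by decide +kernel)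
theorem L105334 : W_39 (nat_lit 7) (nat_lit 0x34001a00000000400020001000080000000000000000000000000000000) (nat_lit 0x0) (nat_lit 0xdc0048002400004000200000000000040002000000000000000000000000000) := T_39 (nat_lit 177) (nat_lit 194) (nat_lit 5) (nat_lit 8) (nat_lit 7) L105333 (by decide +kernel)
theorem L105335 : W_39 (nat_lit 2) (nat_lit 0x400034001e0008000e6000200010000c0000000000000000000000000000000) (nat_lit 0x0) (nat_lit 0x10000800008000000000000000000000000000000000000000000000000000000000) := D_39 (nat_lit 251) (nat_lit 268) (nat_lit 231) (nat_lit 7) (nat_lit 12) (nat_lit 11) (nat_lit 3) (nat_lit 9) (nat_lit 13) (by decide +kernel)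
theorem L105336 : W_39 (nat_lit 3) (nat_lit 0x34001e0008000e6000200010000c0000000000000000000000000000000) (nat_lit 0x0) (nat_lit 0x10000c00008000000040000000000000000000000000000000000000000000000000) := T_39 (nat_lit 250) (nat_lit 198) (nat_lit 7) (nat_lit 11) (nat_lit 10) L105335 (by decide +kernel)
theorem L105337 : W_39 (nat_lit 4) (nat_lit 0x34001e0008000c6000200010000c0000000000000000000000000000000) (nat_lit 0x0) (nat_lit 0x10000c00008000000040002000100000000000000000000000000000000000000000) := T_39 (nat_lit 181) (nat_lit 164) (nat_lit 4) (nat_lit 12) (nat_lit 13) L105336 (by decide +kernel)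
theorem L105338 : W_39 (nat_lit 5) (nat_lit 0x34001e000800046000200010000c0000000000000000000000000000000) (nat_lit 0x0) (nat_lit 0x10000c0000800000004000a000500000000000000000000000000000000000000000) := T_39 (nat_lit 183) (nat_lit 166) (nat_lit 6) (nat_lit 12) (nat_lit 13) L105337 (by decide +kernel)
theorem L105339 : W_39 (nat_lit 6) (nat_lit 0x34001e000800044000200010000c0000000000000000000000000000000) (nat_lit 0x0) (nat_lit 0x10000c0000800000004400a200500000000000000000000000000000000000000000) := T_39 (nat_lit 177) (nat_lit 194) (nat_lit 5) (nat_lit 8) (nat_lit 7) L105338 (by decide +kernel)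
theorem L105340 : W_39 (nat_lit 7) (nat_lit 0x34001e000800004000200010000c0000000000000000000000000000000) (nat_lit 0x0) (nat_lit 0x10000c0000800000004400e200700000000000000000000000000000000000000000) := T_39 (nat_lit 182) (nat_lit 165) (nat_lit 5) (nat_lit 12) (nat_lit 9) L105339 (by decide +kernel)
theorem L105341 : W_39 (nat_lit 8) (nat_lit 0x34001e00080000400020001000080000000000000000000000000000000) (nat_lit 0x0) (nat_lit 0x10000c0000800000004400e200700000000040002000000000000000000000000000) := T_39 (nat_lit 126) (nat_lit 109) (nat_lit 4) (nat_lit 8) (nat_lit 10) L105340 (by decide +kernel)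
theorem L105342 : W_39 (nat_lit 9) (nat_lit 0x34001e00000000400020001000080000000000000000000000000000000) (nat_lit 0x0) (nat_lit 0x10000c000080000001c400e200700000000040002000000000000000000000000000) := T_39 (nat_lit 199) (nat_lit 200) (nat_lit 2) (nat_lit 9) (nat_lit 12) L105341 (by decide +kernel)
theorem L105343 : W_39 (nat_lit 10) (nat_lit 0x34001a00000000400020001000080000000000000000000000000000000) (nat_lit 0x0) (nat_lit 0x10000c000480004001c400e200700000000040002000000000000000000000000000) := T_39 (nat_lit 214) (nat_lit 234) (nat_lit 3) (nat_lit 9) (nat_lit 12) L105342 (by decide +kernel)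
theorem L105344 : W_39 (nat_lit 3) (nat_lit 0x14001a00000000400020001000080000000000000000000000000000000) (nat_lit 0x0) (nat_lit 0x2a006000000000000000000000000000000000000000000000000000000) := T_39 (nat_lit 231) (nat_lit 229) (nat_lit 2) (nat_lit 8) (nat_lit 13) L104360 (by decide +kernel)
theorem L105345 : W_39 (nat_lit 6) (nat_lit 0x16000a00000000400020001000080000000000000000000000000000000) (nat_lit 0x0) (nat_lit 0x2000700009001000040002000000000000040002000000000000000000000000000) := T_39 (nat_lit 126) (nat_lit 109) (nat_lit 4) (nat_lit 8) (nat_lit 10) L104875 (by decide +kernel)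
theorem L105346 : W_39 (nat_lit 8) (nat_lit 0x24001e000a000000004000200010000c0000000000000000000000000000000) (nat_lit 0x0) (nat_lit 0xf8007c00100000000100010000000000000000100008000000000000000000000000000) := T_39 (nat_lit 128) (nat_lit 111) (nat_lit 6) (nat_lit 8) (nat_lit 10) L104732 (by decide +kernel)
theorem L105347 : W_39 (nat_lit 9) (nat_lit 0x20001e000a000000004000200010000c0000000000000000000000000000000) (nat_lit 0x0) (nat_lit 0xf8007c00160000000100010000000000000000100008000000000000000000000000000) := T_39 (nat_lit 246) (nat_lit 245) (nat_lit 1) (nat_lit 11) (nat_lit 13) L105346 (by decide +kernel)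
theorem L105348 : W_39 (nat_lit 10) (nat_lit 0x1e000a000000004000200010000c0000000000000000000000000000000) (nat_lit 0x0) (nat_lit 0xf8007c00760000000100010000000000000000100008000000000000000000000000000) := T_39 (nat_lit 249) (nat_lit 250) (nat_lit 3) (nat_lit 8) (nat_lit 13) L105347 (by decide +kernel)
theorem L105349 : W_39 (nat_lit 11) (nat_lit 0x1e000a00000000400020001000080000000000000000000000000000000) (nat_lit 0x0) (nat_lit 0xf8007c0076000000010001000000000000000014000a000000000000000000000000000) := T_39 (nat_lit 126) (nat_lit 109) (nat_lit 4) (nat_lit 8) (nat_lit 10) L105348 (by decide +kernel)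
theorem L105350 : W_39 (nat_lit 4) (nat_lit 0x14000e00000000400020001000080000000000000000000000000000000) (nat_lit 0x0) (nat_lit 0xa003000380000000000000000000000000000000000000000000000000) := T_39 (nat_lit 216) (nat_lit 229) (nat_lit 1) (nat_lit 12) (nat_lit 12) L104704 (by decide +kernel)
theorem L105351 : W_39 (nat_lit 2) (nat_lit 0x34001e000800004000200010001c0000000000000000000000000000000) (nat_lit 0x0) (nat_lit 0x200000000000000004000200000000000000000000000000000000000000000) := D_39 (nat_lit 182) (nat_lit 249) (nat_lit 165) (nat_lit 5) (nat_lit 12) (nat_lit 10) (nat_lit 5) (nat_lit 12) (nat_lit 9) (by decide +kernel)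
theorem L105352 : W_39 (nat_lit 3) (nat_lit 0x14001e000800004000200010001c0000000000000000000000000000000) (nat_lit 0x0) (nat_lit 0x200060000000000004000200000000000000000000000000000000000000000) := T_39 (nat_lit 233) (nat_lit 234) (nat_lit 3) (nat_lit 9) (nat_lit 12) L105351 (by decide +kernel)
theorem L105353 : W_39 (nat_lit 4) (nat_lit 0x14001e000000004000200010001c0000000000000000000000000000000) (nat_lit 0x0) (nat_lit 0x200060000000180004000200000000000000000000000000000000000000000) := T_39 (nat_lit 199) (nat_lit 200) (nat_lit 2) (nat_lit 9) (nat_lit 12) L105352 (by decide +kernel)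
theorem L105354 : W_39 (nat_lit 5) (nat_lit 0x14001e000000004000200010000c0000000000000000000000000000000) (nat_lit 0x0) (nat_lit 0x200060000000180004000200000000100008000000000000000000000000000) := T_39 (nat_lit 128) (nat_lit 111) (nat_lit 6) (nat_lit 8) (nat_lit 10) L105353 (by decide +kernel)
theorem L105355 : W_39 (nat_lit 6) (nat_lit 0x14000e000000004000200010000c0000000000000000000000000000000) (nat_lit 0x0) (nat_lit 0x200062001000180004000200000000100008000000000000000000000000000) := T_39 (nat_lit 216) (nat_lit 229) (nat_lit 1) (nat_lit 12) (nat_lit 12) L105354 (by decide +kernel)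
theorem L105356 : W_39 (nat_lit 7) (nat_lit 0x14000e00000000400020001000080000000000000000000000000000000) (nat_lit 0x0) (nat_lit 0x20006200100018000400020000000014000a000000000000000000000000000) := T_39 (nat_lit 126) (nat_lit 109) (nat_lit 4) (nat_lit 8) (nat_lit 10) L105355 (by decide +kernel)
theorem L105357 : W_39 (nat_lit 2) (nat_lit 0x14001e000c00004000200010000c0000000000000000000000000000000) (nat_lit 0x0) (nat_lit 0x4000200000000000000004000000000000000000000000000000000000000000000) := D_39 (nat_lit 249) (nat_lit 266) (nat_lit 182) (nat_lit 6) (nat_lit 11) (nat_lit 15) (nat_lit 6) (nat_lit 11) (nat_lit 14) (by decide +kernel)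
theorem L105358 : W_39 (nat_lit 3) (nat_lit 0x14001e000800004000200010000c0000000000000000000000000000000) (nat_lit 0x0) (nat_lit 0x4000200000000100040004000000000000000000000000000000000000000000000) := T_39 (nat_lit 198) (nat_lit 212) (nat_lit 2) (nat_lit 8) (nat_lit 12) L105357 (by decide +kernel)
theorem L105359 : W_39 (nat_lit 4) (nat_lit 0x14001e000000004000200010000c0000000000000000000000000000000) (nat_lit 0x0) (nat_lit 0x40002000000001001c0004000000000000000000000000000000000000000000000) := T_39 (nat_lit 199) (nat_lit 200) (nat_lit 2) (nat_lit 9) (nat_lit 12) L105358 (by decide +kernel)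
theorem L105360 : W_39 (nat_lit 5) (nat_lit 0x14001e00000000400020001000080000000000000000000000000000000) (nat_lit 0x0) (nat_lit 0x40002000000001001c0004000000000000040002000000000000000000000000000) := T_39 (nat_lit 126) (nat_lit 109) (nat_lit 4) (nat_lit 8) (nat_lit 10) L105359 (by decide +kernel)
theorem L105361 : W_39 (nat_lit 6) (nat_lit 0x14000e00000000400020001000080000000000000000000000000000000) (nat_lit 0x0) (nat_lit 0x40002000020011001c0004000000000000040002000000000000000000000000000) := T_39 (nat_lit 216) (nat_lit 229) (nat_lit 1) (nat_lit 12) (nat_lit 12) L105360 (by decide +kernel)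
theorem L105362 : W_39 (nat_lit 11) (nat_lit 0x14000a00000000400020001000080000000000000000000000000000000) (nat_lit 0x0) (nat_lit 0x70007800e30015001f000500028000000014000a000000000000000000000000000) := Q_39 (nat_lit 214) (C_39 L104898 (C_39 L105356 (C_39 L104692 (C_39 L105361 N_39)))) (by decide +kernel)
theorem L105363 : W_39 (nat_lit 12) (nat_lit 0x16000a00000000400020001000080000000000000000000000000000000) (nat_lit 0x0) (nat_lit 0xf8007c0077000900050001000000000000000014000a000000000000000000000000000) := Q_39 (nat_lit 231) (C_39 L105349 (C_39 L105269 (C_39 L105264 (C_39 L104802 N_39)))) (by decide +kernel)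
theorem L105364 : W_39 (nat_lit 2) (nat_lit 0x16000e000000004000200010001c0000000000000000000000000000000) (nat_lit 0x0) (nat_lit 0x1800100000000000000000000000000000000000000000000000000000) := D_39 (nat_lit 228) (nat_lit 212) (nat_lit 227) (nat_lit 1) (nat_lit 11) (nat_lit 12) (nat_lit 2) (nat_lit 6) (nat_lit 13) (by decide +kernel)
theorem L105365 : W_39 (nat_lit 3) (nat_lit 0x16000a000000004000200010001c0000000000000000000000000000000) (nat_lit 0x0) (nat_lit 0x1801500000000000000000000000000000000000000000000000000000) := T_39 (nat_lit 214) (nat_lit 216) (nat_lit 1) (nat_lit 12) (nat_lit 12) L105364 (by decide +kernel)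
theorem L105366 : W_39 (nat_lit 4) (nat_lit 0x16000a00000000400020001000180000000000000000000000000000000) (nat_lit 0x0) (nat_lit 0x1801500000000000000000000040002000000000000000000000000000) := T_39 (nat_lit 126) (nat_lit 109) (nat_lit 4) (nat_lit 8) (nat_lit 10) L105365 (by decide +kernel)
theorem L105367 : W_39 (nat_lit 5) (nat_lit 0x16000a00000000400020001000080000000000000000000000000000000) (nat_lit 0x0) (nat_lit 0x180150000000000000000000014000a000000000000000000000000000) := T_39 (nat_lit 128) (nat_lit 111) (nat_lit 6) (nat_lit 8) (nat_lit 10) L105366 (by decide +kernel)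
theorem L105368 : W_39 (nat_lit 13) (nat_lit 0x14000a00000000400020001000080000000000000000000000000000000) (nat_lit 0x0) (nat_lit 0xf8007c0077000b80150005000200000000000014000a000000000000000000000000000) := Q_39 (nat_lit 229) (C_39 L105363 (C_39 L105345 (C_39 L105041 (C_39 L105030 (C_39 L105367 N_39))))) (by decide +kernel)
theorem L105369 : W_39 (nat_lit 2) (nat_lit 0x20000f00074000a000600004000200010001c0000000000000000000000000000000) (nat_lit 0x0) (nat_lit 0x40003000000000000000000000000000000000000000000000000000000000000000) := D_39 (nat_lit 252) (nat_lit 270) (nat_lit 253) (nat_lit 3) (nat_lit 11) (nat_lit 14) (nat_lit 0) (nat_lit 15) (nat_lit 14) (by decide +kernel)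
theorem L105370 : W_39 (nat_lit 3) (nat_lit 0x20000f00054000a000600004000200010001c0000000000000000000000000000000) (nat_lit 0x0) (nat_lit 0x40003080020000000000000000000000000000000000000000000000000000000000) := T_39 (nat_lit 233) (nat_lit 247) (nat_lit 2) (nat_lit 9) (nat_lit 14) L105369 (by decide +kernel)
theorem L105371 : W_39 (nat_lit 4) (nat_lit 0x20000f00014000a000600004000200010001c0000000000000000000000000000000) (nat_lit 0x0) (nat_lit 0x400030800e0000000000000000000000000000000000000000000000000000000000) := T_39 (nat_lit 234) (nat_lit 235) (nat_lit 2) (nat_lit 10) (nat_lit 14) L105370 (by decide +kernel)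
theorem L105372 : W_39 (nat_lit 5) (nat_lit 0xf00014000a000600004000200010001c0000000000000000000000000000000) (nat_lit 0x0) (nat_lit 0x700030800e0000000000000000000000000000000000000000000000000000000000) := T_39 (nat_lit 269) (nat_lit 268) (nat_lit 3) (nat_lit 10) (nat_lit 14) L105371 (by decide +kernel)
theorem L105373 : W_39 (nat_lit 6) (nat_lit 0xf00014000a000400004000200010001c0000000000000000000000000000000) (nat_lit 0x0) (nat_lit 0x700030800e0000000020001000000000000000000000000000000000000000000000) := T_39 (nat_lit 197) (nat_lit 180) (nat_lit 4) (nat_lit 11) (nat_lit 14) L105372 (by decide +kernel)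
theorem L105374 : W_39 (nat_lit 7) (nat_lit 0x700014000a000400004000200010001c0000000000000000000000000000000) (nat_lit 0x0) (nat_lit 0x700038800e8000000020001000000000000000000000000000000000000000000000) := T_39 (nat_lit 251) (nat_lit 231) (nat_lit 0) (nat_lit 13) (nat_lit 14) L105373 (by decide +kernel)
theorem L105375 : W_39 (nat_lit 8) (nat_lit 0x300014000a000400004000200010001c0000000000000000000000000000000) (nat_lit 0x0) (nat_lit 0x78003c800e8000000020001000000000000000000000000000000000000000000000) := T_39 (nat_lit 250) (nat_lit 267) (nat_lit 7) (nat_lit 11) (nat_lit 11) L105374 (by decide +kernel)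
theorem L105376 : W_39 (nat_lit 9) (nat_lit 0x300014000a000400004000200010000c0000000000000000000000000000000) (nat_lit 0x0) (nat_lit 0x78003c800e8000000020001000000000000100008000000000000000000000000000) := T_39 (nat_lit 128) (nat_lit 111) (nat_lit 6) (nat_lit 8) (nat_lit 10) L105375 (by decide +kernel)
theorem L105377 : W_39 (nat_lit 10) (nat_lit 0x200014000a000400004000200010000c0000000000000000000000000000000) (nat_lit 0x0) (nat_lit 0x7a003d800e8000000020001000000000000100008000000000000000000000000000) := T_39 (nat_lit 248) (nat_lit 265) (nat_lit 5) (nat_lit 11) (nat_lit 11) L105376 (by decide +kernel)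
theorem L105378 : W_39 (nat_lit 11) (nat_lit 0x200014000a00040000400020001000080000000000000000000000000000000) (nat_lit 0x0) (nat_lit 0x7a003d800e800000002000100000000000014000a000000000000000000000000000) := T_39 (nat_lit 126) (nat_lit 109) (nat_lit 4) (nat_lit 8) (nat_lit 10) L105377 (by decide +kernel)
theorem L105379 : W_39 (nat_lit 2) (nat_lit 0x8003c001a00040000600020001000080000000000000000000000000000000) (nat_lit 0x0) (nat_lit 0x8000c00000000000000000000000000000000000000000000000000000000000000) := D_39 (nat_lit 250) (nat_lit 267) (nat_lit 251) (nat_lit 4) (nat_lit 12) (nat_lit 15) (nat_lit 3) (nat_lit 9) (nat_lit 13) (by decide +kernel)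
theorem L105380 : W_39 (nat_lit 3) (nat_lit 0x8003c000a00040000600020001000080000000000000000000000000000000) (nat_lit 0x0) (nat_lit 0x8000c00000003000000000000000000000000000000000000000000000000000000) := T_39 (nat_lit 216) (nat_lit 217) (nat_lit 2) (nat_lit 9) (nat_lit 13) L105379 (by decide +kernel)
theorem L105381 : W_39 (nat_lit 4) (nat_lit 0x3c000a00040000600020001000080000000000000000000000000000000) (nat_lit 0x0) (nat_lit 0x8000cc0000003000000000000000000000000000000000000000000000000000000) := T_39 (nat_lit 247) (nat_lit 246) (nat_lit 1) (nat_lit 12) (nat_lit 13) L105380 (by decide +kernel)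
theorem L105382 : W_39 (nat_lit 5) (nat_lit 0x34000a00040000600020001000080000000000000000000000000000000) (nat_lit 0x0) (nat_lit 0x8000cc0008003100000000000000000000000000000000000000000000000000000) := T_39 (nat_lit 231) (nat_lit 212) (nat_lit 0) (nat_lit 12) (nat_lit 13) L105381 (by decide +kernel)
theorem L105383 : W_39 (nat_lit 6) (nat_lit 0x34000a00040000400020001000080000000000000000000000000000000) (nat_lit 0x0) (nat_lit 0x8000cc0008003100004000200000000000000000000000000000000000000000000) := T_39 (nat_lit 177) (nat_lit 194) (nat_lit 5) (nat_lit 8) (nat_lit 7) L105382 (by decide +kernel)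
theorem L105384 : W_39 (nat_lit 2) (nat_lit 0x8003c000a00040000400020001000080000000000000000000000000000000) (nat_lit 0x0) (nat_lit 0x100040000000000002000000000000000000000000000000000000000000000) := D_39 (nat_lit 248) (nat_lit 181) (nat_lit 234) (nat_lit 5) (nat_lit 11) (nat_lit 10) (nat_lit 1) (nat_lit 13) (nat_lit 13) (by decide +kernel)
theorem L105385 : W_39 (nat_lit 3) (nat_lit 0x3c000a00040000400020001000080000000000000000000000000000000) (nat_lit 0x0) (nat_lit 0x1c0040000000000002000000000000000000000000000000000000000000000) := T_39 (nat_lit 247) (nat_lit 246) (nat_lit 1) (nat_lit 12) (nat_lit 13) L105384 (by decide +kernel)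
theorem L105386 : W_39 (nat_lit 4) (nat_lit 0x34000a00040000400020001000080000000000000000000000000000000) (nat_lit 0x0) (nat_lit 0x1c0048000100000002000000000000000000000000000000000000000000000) := T_39 (nat_lit 231) (nat_lit 212) (nat_lit 0) (nat_lit 12) (nat_lit 13) L105385 (by decide +kernel)
theorem L105387 : W_39 (nat_lit 7) (nat_lit 0x14000a00040000400020001000080000000000000000000000000000000) (nat_lit 0x0) (nat_lit 0x100008000fc0068003100004002200000000000000000000000000000000000000000000) := Q_39 (nat_lit 233) (C_39 L105383 (C_39 L104911 (C_39 L105386 N_39))) (by decide +kernel)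
theorem L105388 : W_39 (nat_lit 2) (nat_lit 0x14000e000c00014000a00010000c0000000000000000000000000000000) (nat_lit 0x0) (nat_lit 0x1000300000000000000000000000000000000000000000000000000) := D_39 (nat_lit 200) (nat_lit 201) (nat_lit 216) (nat_lit 1) (nat_lit 14) (nat_lit 11) (nat_lit 2) (nat_lit 9) (nat_lit 12) (by decide +kernel)
theorem L105389 : W_39 (nat_lit 3) (nat_lit 0x14000e000400014000a00010000c0000000000000000000000000000000) (nat_lit 0x0) (nat_lit 0x1100380000000000000000000000000000000000000000000000000) := T_39 (nat_lit 199) (nat_lit 212) (nat_lit 2) (nat_lit 8) (nat_lit 12) L105388 (by decide +kernel)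
theorem L105390 : W_39 (nat_lit 4) (nat_lit 0x14000e000000014000a00010000c0000000000000000000000000000000) (nat_lit 0x0) (nat_lit 0x11003c0002000000000000000000000000000000000000000000000) := T_39 (nat_lit 198) (nat_lit 181) (nat_lit 4) (nat_lit 11) (nat_lit 13) L105389 (by decide +kernel)
theorem L105391 : W_39 (nat_lit 5) (nat_lit 0x14000e000000004000a00010000c0000000000000000000000000000000) (nat_lit 0x0) (nat_lit 0x11003e0003000000000000000000000000000000000000000000000) := T_39 (nat_lit 180) (nat_lit 197) (nat_lit 7) (nat_lit 10) (nat_lit 9) L105390 (by decide +kernel)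
theorem L105392 : W_39 (nat_lit 6) (nat_lit 0x14000e000000004000a0001000080000000000000000000000000000000) (nat_lit 0x0) (nat_lit 0x11003e0003000000000000040002000000000000000000000000000) := T_39 (nat_lit 126) (nat_lit 109) (nat_lit 4) (nat_lit 8) (nat_lit 10) L105391 (by decide +kernel)
theorem L105393 : W_39 (nat_lit 8) (nat_lit 0x14000e00000000400020001000080000000000000000000000000000000) (nat_lit 0x0) (nat_lit 0x11003e400f3801d000000014000a000000000000000000000000000) := Q_39 (nat_lit 163) (C_39 L104593 (C_39 L104197 (C_39 L105392 N_39))) (by decide +kernel)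
theorem L105394 : W_39 (nat_lit 6) (nat_lit 0x34001e000000006000200010000c0000000000000000000000000000000) (nat_lit 0x0) (nat_lit 0x800040000000e0003e0002000000000000000000000000000000000000000000000) := T_39 (nat_lit 200) (nat_lit 199) (nat_lit 2) (nat_lit 9) (nat_lit 12) L104409 (by decide +kernel)
theorem L105395 : W_39 (nat_lit 7) (nat_lit 0x14001e000000006000200010000c0000000000000000000000000000000) (nat_lit 0x0) (nat_lit 0x800040006000e0003e0002000000000000000000000000000000000000000000000) := T_39 (nat_lit 233) (nat_lit 234) (nat_lit 3) (nat_lit 9) (nat_lit 12) L105394 (by decide +kernel)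
theorem L105396 : W_39 (nat_lit 8) (nat_lit 0x14001e000000004000200010000c0000000000000000000000000000000) (nat_lit 0x0) (nat_lit 0x800040006000e0003e4002200000000000000000000000000000000000000000000) := T_39 (nat_lit 177) (nat_lit 194) (nat_lit 5) (nat_lit 8) (nat_lit 7) L105395 (by decide +kernel)
theorem L105397 : W_39 (nat_lit 9) (nat_lit 0x14001e00000000400020001000080000000000000000000000000000000) (nat_lit 0x0) (nat_lit 0x800040006000e0003e4002200000000000040002000000000000000000000000000) := T_39 (nat_lit 126) (nat_lit 109) (nat_lit 4) (nat_lit 8) (nat_lit 10) L105396 (by decide +kernel)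
theorem L105398 : W_39 (nat_lit 7) (nat_lit 0x54001e000000006000200010001c0000000000000000000000000000000) (nat_lit 0x0) (nat_lit 0x800060000700011801d0000000000000000000000000000000000000000) := T_39 (nat_lit 217) (nat_lit 235) (nat_lit 3) (nat_lit 10) (nat_lit 12) L105284 (by decide +kernel)
theorem L105399 : W_39 (nat_lit 8) (nat_lit 0x54001e00000000600020001000180000000000000000000000000000000) (nat_lit 0x0) (nat_lit 0x800060000700011801d0000000040002000000000000000000000000000) := T_39 (nat_lit 126) (nat_lit 109) (nat_lit 4) (nat_lit 8) (nat_lit 10) L105398 (by decide +kernel)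
theorem L105400 : W_39 (nat_lit 9) (nat_lit 0x14001e00000000600020001000180000000000000000000000000000000) (nat_lit 0x0) (nat_lit 0xe00060000700011801d0000000040002000000000000000000000000000) := T_39 (nat_lit 234) (nat_lit 233) (nat_lit 3) (nat_lit 9) (nat_lit 12) L105399 (by decide +kernel)
theorem L105401 : W_39 (nat_lit 10) (nat_lit 0x14001e00000000400020001000180000000000000000000000000000000) (nat_lit 0x0) (nat_lit 0xe00060000740013801d0000000040002000000000000000000000000000) := T_39 (nat_lit 177) (nat_lit 194) (nat_lit 5) (nat_lit 8) (nat_lit 7) L105400 (by decide +kernel)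
theorem L105402 : W_39 (nat_lit 11) (nat_lit 0x14001e00000000400020001000080000000000000000000000000000000) (nat_lit 0x0) (nat_lit 0xe00060000740013801d000000014000a000000000000000000000000000) := T_39 (nat_lit 128) (nat_lit 111) (nat_lit 6) (nat_lit 8) (nat_lit 10) L105401 (by decide +kernel)
theorem L105403 : W_39 (nat_lit 12) (nat_lit 0x14000e00000000400020001000080000000000000000000000000000000) (nat_lit 0x0) (nat_lit 0xc0006000e000f0003f40073803d000000014000a000000000000000000000000000) := Q_39 (nat_lit 216) (C_39 L105279 (C_39 L104180 (C_39 L104184 (C_39 L105397 (C_39 L105402 N_39))))) (by decide +kernel)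
theorem L105404 : W_39 (nat_lit 2) (nat_lit 0x3800b4000e000200006000200010001c0000000000000000000000000000000) (nat_lit 0x0) (nat_lit 0x2000000000000000050000000000000000000000000000000000000000000000000) := D_39 (nat_lit 265) (nat_lit 198) (nat_lit 196) (nat_lit 5) (nat_lit 11) (nat_lit 11) (nat_lit 7) (nat_lit 9) (nat_lit 11) (by decide +kernel)
theorem L105405 : W_39 (nat_lit 3) (nat_lit 0x2800b4000e000200006000200010001c0000000000000000000000000000000) (nat_lit 0x0) (nat_lit 0x2000140000000000050000000000000000000000000000000000000000000000000) := T_39 (nat_lit 248) (nat_lit 246) (nat_lit 2) (nat_lit 8) (nat_lit 14) L105404 (by decide +kernel)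
theorem L105406 : W_39 (nat_lit 4) (nat_lit 0x280034000e000200006000200010001c0000000000000000000000000000000) (nat_lit 0x0) (nat_lit 0x20001400c0000000050000000000000000000000000000000000000000000000000) := T_39 (nat_lit 235) (nat_lit 234) (nat_lit 0) (nat_lit 14) (nat_lit 13) L105405 (by decide +kernel)
theorem L105407 : W_39 (nat_lit 5) (nat_lit 0x280014000e000200006000200010001c0000000000000000000000000000000) (nat_lit 0x0) (nat_lit 0x20001400e0000100050000000000000000000000000000000000000000000000000) := T_39 (nat_lit 233) (nat_lit 212) (nat_lit 3) (nat_lit 8) (nat_lit 12) L105406 (by decide +kernel)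
theorem L105408 : W_39 (nat_lit 6) (nat_lit 0x280014000e000200006000200010000c0000000000000000000000000000000) (nat_lit 0x0) (nat_lit 0x20001400e0000100050000000000000000100008000000000000000000000000000) := T_39 (nat_lit 128) (nat_lit 111) (nat_lit 6) (nat_lit 8) (nat_lit 10) L105407 (by decide +kernel)
theorem L105409 : W_39 (nat_lit 7) (nat_lit 0x280014000e000200004000200010000c0000000000000000000000000000000) (nat_lit 0x0) (nat_lit 0x20001400e0000100054000200000000000100008000000000000000000000000000) := T_39 (nat_lit 177) (nat_lit 194) (nat_lit 5) (nat_lit 8) (nat_lit 7) L105408 (by decide +kernel)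
theorem L105410 : W_39 (nat_lit 8) (nat_lit 0x200014000e000200004000200010000c0000000000000000000000000000000) (nat_lit 0x0) (nat_lit 0x30001c00e0000100054000200000000000100008000000000000000000000000000) := T_39 (nat_lit 247) (nat_lit 264) (nat_lit 6) (nat_lit 9) (nat_lit 15) L105409 (by decide +kernel)
theorem L105411 : W_39 (nat_lit 9) (nat_lit 0x14000e000200004000200010000c0000000000000000000000000000000) (nat_lit 0x0) (nat_lit 0x70003c00e0000100054000200000000000100008000000000000000000000000000) := T_39 (nat_lit 249) (nat_lit 266) (nat_lit 4) (nat_lit 11) (nat_lit 15) L105410 (by decide +kernel)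
theorem L105412 : W_39 (nat_lit 10) (nat_lit 0x14000e00020000400020001000080000000000000000000000000000000) (nat_lit 0x0) (nat_lit 0x70003c00e000010005400020000000000014000a000000000000000000000000000) := T_39 (nat_lit 126) (nat_lit 109) (nat_lit 4) (nat_lit 8) (nat_lit 10) L105411 (by decide +kernel)
theorem L105413 : W_39 (nat_lit 11) (nat_lit 0x14000e00000000400020001000080000000000000000000000000000000) (nat_lit 0x0) (nat_lit 0x70003c00e00001000740013801d000000014000a000000000000000000000000000) := Q_39 (nat_lit 197) (C_39 L105412 (C_39 L104687 (C_39 L104587 N_39))) (by decide +kernel)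
theorem L105414 : W_39 (nat_lit 13) (nat_lit 0x14000a00000000400020001000080000000000000000000000000000000) (nat_lit 0x0) (nat_lit 0xf0007c00e000f5003f400f3803d000000014000a000000000000000000000000000) := Q_39 (nat_lit 214) (C_39 L105393 (C_39 L104898 (C_39 L105403 (C_39 L105413 N_39)))) (by decide +kernel)
theorem L105415 : W_39 (nat_lit 2) (nat_lit 0x34000a000000006000e00010000c0000000000000000000000000000000) (nat_lit 0x0) (nat_lit 0x180010000000000000000000000000000000000000000) := D_39 (nat_lit 176) (nat_lit 160) (nat_lit 175) (nat_lit 1) (nat_lit 10) (nat_lit 9) (nat_lit 2) (nat_lit 5) (nat_lit 10) (by decide +kernel)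
theorem L105416 : W_39 (nat_lit 3) (nat_lit 0x34000a000000006000a00010000c0000000000000000000000000000000) (nat_lit 0x0) (nat_lit 0x180150000000000000000000000000000000000000000) := T_39 (nat_lit 162) (nat_lit 164) (nat_lit 1) (nat_lit 11) (nat_lit 9) L105415 (by decide +kernel)
theorem L105417 : W_39 (nat_lit 4) (nat_lit 0x34000a000000004000a00010000c0000000000000000000000000000000) (nat_lit 0x0) (nat_lit 0x4000380150000000000000000000000000000000000000000) := T_39 (nat_lit 177) (nat_lit 194) (nat_lit 5) (nat_lit 8) (nat_lit 7) L105416 (by decide +kernel)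
theorem L105418 : W_39 (nat_lit 5) (nat_lit 0x34000a000000004000a0001000080000000000000000000000000000000) (nat_lit 0x0) (nat_lit 0x4000380150000000040002000000000000000000000000000) := T_39 (nat_lit 126) (nat_lit 109) (nat_lit 4) (nat_lit 8) (nat_lit 10) L105417 (by decide +kernel)
theorem L105419 : W_39 (nat_lit 2) (nat_lit 0x34000b000000006000e0001000180000000000000000000000000000000) (nat_lit 0x0) (nat_lit 0x180010000000000000000000000000000000000000000) := D_39 (nat_lit 176) (nat_lit 160) (nat_lit 175) (nat_lit 1) (nat_lit 10) (nat_lit 9) (nat_lit 2) (nat_lit 5) (nat_lit 10) (by decide +kernel)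
theorem L105420 : W_39 (nat_lit 3) (nat_lit 0x34000b000000006000a0001000180000000000000000000000000000000) (nat_lit 0x0) (nat_lit 0x180150000000000000000000000000000000000000000) := T_39 (nat_lit 162) (nat_lit 164) (nat_lit 1) (nat_lit 11) (nat_lit 9) L105419 (by decide +kernel)
theorem L105421 : W_39 (nat_lit 4) (nat_lit 0x34000b000000004000a0001000180000000000000000000000000000000) (nat_lit 0x0) (nat_lit 0x4000380150000000000000000000000000000000000000000) := T_39 (nat_lit 177) (nat_lit 194) (nat_lit 5) (nat_lit 8) (nat_lit 7) L105420 (by decide +kernel)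
theorem L105422 : W_39 (nat_lit 5) (nat_lit 0x34000a000000004000a0001000180000000000000000000000000000000) (nat_lit 0x0) (nat_lit 0x500004000380150000000000000000000000000000000000000000) := T_39 (nat_lit 212) (nat_lit 214) (nat_lit 3) (nat_lit 8) (nat_lit 12) L105421 (by decide +kernel)
theorem L105423 : W_39 (nat_lit 6) (nat_lit 0x34000a000000004000a0001000080000000000000000000000000000000) (nat_lit 0x0) (nat_lit 0x500004000380150000000100008000000000000000000000000000) := T_39 (nat_lit 128) (nat_lit 111) (nat_lit 6) (nat_lit 8) (nat_lit 10) L105422 (by decide +kernel)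
theorem L105424 : W_39 (nat_lit 2) (nat_lit 0x280074000e000200006001a00010001c0000000000000000000000000000000) (nat_lit 0x0) (nat_lit 0x540000000000000000000000000000000000000000000000000000000000000) := D_39 (nat_lit 248) (nat_lit 250) (nat_lit 246) (nat_lit 2) (nat_lit 9) (nat_lit 14) (nat_lit 2) (nat_lit 8) (nat_lit 14) (by decide +kernel)
theorem L105425 : W_39 (nat_lit 3) (nat_lit 0x200074000e000200006001a00010001c0000000000000000000000000000000) (nat_lit 0x0) (nat_lit 0x10005c0000000000000000000000000000000000000000000000000000000000000) := T_39 (nat_lit 247) (nat_lit 264) (nat_lit 6) (nat_lit 9) (nat_lit 15) L105424 (by decide +kernel)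
theorem L105426 : W_39 (nat_lit 4) (nat_lit 0x74000e000200006001a00010001c0000000000000000000000000000000) (nat_lit 0x0) (nat_lit 0x50007c0000000000000000000000000000000000000000000000000000000000000) := T_39 (nat_lit 249) (nat_lit 266) (nat_lit 4) (nat_lit 11) (nat_lit 15) L105425 (by decide +kernel)
theorem L105427 : W_39 (nat_lit 5) (nat_lit 0x74000e000000006001a00010001c0000000000000000000000000000000) (nat_lit 0x0) (nat_lit 0x50007c0000000000020001000000000000000000000000000000000000000000000) := T_39 (nat_lit 197) (nat_lit 180) (nat_lit 7) (nat_lit 10) (nat_lit 9) L105426 (by decide +kernel)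
theorem L105428 : W_39 (nat_lit 6) (nat_lit 0x34000e000000006001a00010001c0000000000000000000000000000000) (nat_lit 0x0) (nat_lit 0x50007c00c0000000020001000000000000000000000000000000000000000000000) := T_39 (nat_lit 234) (nat_lit 235) (nat_lit 0) (nat_lit 14) (nat_lit 13) L105427 (by decide +kernel)
theorem L105429 : W_39 (nat_lit 7) (nat_lit 0x34000a000000006001a00010001c0000000000000000000000000000000) (nat_lit 0x0) (nat_lit 0x50007c00c0000500020001000000000000000000000000000000000000000000000) := T_39 (nat_lit 214) (nat_lit 212) (nat_lit 3) (nat_lit 8) (nat_lit 12) L105428 (by decide +kernel)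
theorem L105430 : W_39 (nat_lit 8) (nat_lit 0x34000a000000006001a00010000c0000000000000000000000000000000) (nat_lit 0x0) (nat_lit 0x50007c00c0000500020001000000000000100008000000000000000000000000000) := T_39 (nat_lit 128) (nat_lit 111) (nat_lit 6) (nat_lit 8) (nat_lit 10) L105429 (by decide +kernel)
theorem L105431 : W_39 (nat_lit 9) (nat_lit 0x34000a000000006001a0001000080000000000000000000000000000000) (nat_lit 0x0) (nat_lit 0x50007c00c000050002000100000000000014000a000000000000000000000000000) := T_39 (nat_lit 126) (nat_lit 109) (nat_lit 4) (nat_lit 8) (nat_lit 10) L105430 (by decide +kernel)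
theorem L105432 : W_39 (nat_lit 10) (nat_lit 0x34000a000000006000a0001000080000000000000000000000000000000) (nat_lit 0x0) (nat_lit 0x50007c00c000050002000100014000000014000a000000000000000000000000000) := T_39 (nat_lit 164) (nat_lit 162) (nat_lit 1) (nat_lit 11) (nat_lit 9) L105431 (by decide +kernel)
theorem L105433 : W_39 (nat_lit 11) (nat_lit 0x34000a000000004000a0001000080000000000000000000000000000000) (nat_lit 0x0) (nat_lit 0x50007c00c000050002400120014000000014000a000000000000000000000000000) := T_39 (nat_lit 177) (nat_lit 194) (nat_lit 5) (nat_lit 8) (nat_lit 7) L105432 (by decide +kernel)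
theorem L105434 : W_39 (nat_lit 2) (nat_lit 0x380034000e000200006000a00010001c0000000000000000000000000000000) (nat_lit 0x0) (nat_lit 0x4000c0000000000000000000000000000000000000000000000000000000000) := D_39 (nat_lit 234) (nat_lit 235) (nat_lit 250) (nat_lit 1) (nat_lit 14) (nat_lit 13) (nat_lit 2) (nat_lit 9) (nat_lit 14) (by decide +kernel)
theorem L105435 : W_39 (nat_lit 3) (nat_lit 0x280034000e000200006000a00010001c0000000000000000000000000000000) (nat_lit 0x0) (nat_lit 0x5400c0000000000000000000000000000000000000000000000000000000000) := T_39 (nat_lit 248) (nat_lit 246) (nat_lit 2) (nat_lit 8) (nat_lit 14) L105434 (by decide +kernel)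
theorem L105436 : W_39 (nat_lit 4) (nat_lit 0x280034000e000200004000a00010001c0000000000000000000000000000000) (nat_lit 0x0) (nat_lit 0x5400c0000000004000200000000000000000000000000000000000000000000) := T_39 (nat_lit 177) (nat_lit 194) (nat_lit 5) (nat_lit 8) (nat_lit 7) L105435 (by decide +kernel)
theorem L105437 : W_39 (nat_lit 5) (nat_lit 0x80034000e000200004000a00010001c0000000000000000000000000000000) (nat_lit 0x0) (nat_lit 0x40007400c0000000004000200000000000000000000000000000000000000000000) := T_39 (nat_lit 249) (nat_lit 266) (nat_lit 4) (nat_lit 11) (nat_lit 15) L105436 (by decide +kernel)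
theorem L105438 : W_39 (nat_lit 6) (nat_lit 0x34000e000200004000a00010001c0000000000000000000000000000000) (nat_lit 0x0) (nat_lit 0x50007c00c0000000004000200000000000000000000000000000000000000000000) := T_39 (nat_lit 247) (nat_lit 264) (nat_lit 6) (nat_lit 9) (nat_lit 15) L105437 (by decide +kernel)
theorem L105439 : W_39 (nat_lit 7) (nat_lit 0x34000e000200004000a0001000180000000000000000000000000000000) (nat_lit 0x0) (nat_lit 0x50007c00c0000000004000200000000000040002000000000000000000000000000) := T_39 (nat_lit 126) (nat_lit 109) (nat_lit 4) (nat_lit 8) (nat_lit 10) L105438 (by decide +kernel)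
theorem L105440 : W_39 (nat_lit 8) (nat_lit 0x34000e000000004000a0001000180000000000000000000000000000000) (nat_lit 0x0) (nat_lit 0x50007c00c0000000024001200000000000040002000000000000000000000000000) := T_39 (nat_lit 197) (nat_lit 180) (nat_lit 7) (nat_lit 10) (nat_lit 9) L105439 (by decide +kernel)
theorem L105441 : W_39 (nat_lit 9) (nat_lit 0x34000e000000004000a0001000080000000000000000000000000000000) (nat_lit 0x0) (nat_lit 0x50007c00c000000002400120000000000014000a000000000000000000000000000) := T_39 (nat_lit 128) (nat_lit 111) (nat_lit 6) (nat_lit 8) (nat_lit 10) L105440 (by decide +kernel)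
theorem L105442 : W_39 (nat_lit 10) (nat_lit 0x34000a000000004000a0001000080000000000000000000000000000000) (nat_lit 0x0) (nat_lit 0x50007c00c000050002400120000000000014000a000000000000000000000000000) := T_39 (nat_lit 214) (nat_lit 212) (nat_lit 3) (nat_lit 8) (nat_lit 12) L105441 (by decide +kernel)
theorem L105443 : W_39 (nat_lit 2) (nat_lit 0xb4000e000000034000e00010001c0000000000000000000000000000000) (nat_lit 0x0) (nat_lit 0xc000100000000000000000000000000000000000000000) := D_39 (nat_lit 182) (nat_lit 183) (nat_lit 164) (nat_lit 0) (nat_lit 13) (nat_lit 10) (nat_lit 3) (nat_lit 8) (nat_lit 9) (by decide +kernel)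
theorem L105444 : W_39 (nat_lit 3) (nat_lit 0xb4000e000000034000a00010001c0000000000000000000000000000000) (nat_lit 0x0) (nat_lit 0xc000150000000000000000000000000000000000000000) := T_39 (nat_lit 162) (nat_lit 160) (nat_lit 3) (nat_lit 7) (nat_lit 9) L105443 (by decide +kernel)
theorem L105445 : W_39 (nat_lit 4) (nat_lit 0x34000e000000034000a00010001c0000000000000000000000000000000) (nat_lit 0x0) (nat_lit 0xc000000000000c000150000000000000000000000000000000000000000) := T_39 (nat_lit 235) (nat_lit 234) (nat_lit 0) (nat_lit 14) (nat_lit 13) L105444 (by decide +kernel)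
theorem L105446 : W_39 (nat_lit 5) (nat_lit 0x34000e000000014000a00010001c0000000000000000000000000000000) (nat_lit 0x0) (nat_lit 0xc000000004000e000150000000000000000000000000000000000000000) := T_39 (nat_lit 181) (nat_lit 198) (nat_lit 4) (nat_lit 11) (nat_lit 13) L105445 (by decide +kernel)
theorem L105447 : W_39 (nat_lit 6) (nat_lit 0x34000e000000004000a00010001c0000000000000000000000000000000) (nat_lit 0x0) (nat_lit 0xc000000006000f000150000000000000000000000000000000000000000) := T_39 (nat_lit 180) (nat_lit 197) (nat_lit 7) (nat_lit 10) (nat_lit 9) L105446 (by decide +kernel)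
theorem L105448 : W_39 (nat_lit 7) (nat_lit 0x34000e000000004000a0001000180000000000000000000000000000000) (nat_lit 0x0) (nat_lit 0xc000000006000f000150000000040002000000000000000000000000000) := T_39 (nat_lit 126) (nat_lit 109) (nat_lit 4) (nat_lit 8) (nat_lit 10) L105447 (by decide +kernel)
theorem L105449 : W_39 (nat_lit 8) (nat_lit 0x34000a000000004000a0001000180000000000000000000000000000000) (nat_lit 0x0) (nat_lit 0xc000050006000f000150000000040002000000000000000000000000000) := T_39 (nat_lit 214) (nat_lit 212) (nat_lit 3) (nat_lit 8) (nat_lit 12) L105448 (by decide +kernel)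
theorem L105450 : W_39 (nat_lit 9) (nat_lit 0x34000a000000004000a0001000080000000000000000000000000000000) (nat_lit 0x0) (nat_lit 0xc000050006000f00015000000014000a000000000000000000000000000) := T_39 (nat_lit 128) (nat_lit 111) (nat_lit 6) (nat_lit 8) (nat_lit 10) L105449 (by decide +kernel)
theorem L105451 : W_39 (nat_lit 12) (nat_lit 0x34000a00000000400020001000080000000000000000000000000000000) (nat_lit 0x0) (nat_lit 0x50007c00c000050006400f3801d000000014000a000000000000000000000000000) := Q_39 (nat_lit 163) (C_39 L105418 (C_39 L105423 (C_39 L105433 (C_39 L105442 (C_39 L105450 N_39))))) (by decide +kernel)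
theorem L105452 : W_39 (nat_lit 12) (nat_lit 0x14000a00040000400020001000080000000000000000000000000000000) (nat_lit 0x0) (nat_lit 0x14000e00070000000f5003b403d20000000000014000a000000000000000000000000000) := Q_39 (nat_lit 249) (C_39 L105185 (C_39 L105247 (C_39 L105013 (C_39 L105148 (C_39 L104999 N_39))))) (by decide +kernel)
theorem L105453 : W_39 (nat_lit 2) (nat_lit 0x700014000a00040000400020001000180000000000000000000000000000000) (nat_lit 0x0) (nat_lit 0x800008000000000002000000000000000000000000000000000000000000000) := D_39 (nat_lit 231) (nat_lit 251) (nat_lit 181) (nat_lit 0) (nat_lit 13) (nat_lit 14) (nat_lit 5) (nat_lit 11) (nat_lit 10) (by decide +kernel)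
theorem L105454 : W_39 (nat_lit 3) (nat_lit 0x300014000a00040000400020001000180000000000000000000000000000000) (nat_lit 0x0) (nat_lit 0x8000c00008000000000002000000000000000000000000000000000000000000000) := T_39 (nat_lit 250) (nat_lit 267) (nat_lit 7) (nat_lit 11) (nat_lit 11) L105453 (by decide +kernel)
theorem L105455 : W_39 (nat_lit 4) (nat_lit 0x200014000a00040000400020001000180000000000000000000000000000000) (nat_lit 0x0) (nat_lit 0xa000d00008000000000002000000000000000000000000000000000000000000000) := T_39 (nat_lit 248) (nat_lit 265) (nat_lit 5) (nat_lit 11) (nat_lit 11) L105454 (by decide +kernel)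
theorem L105456 : W_39 (nat_lit 5) (nat_lit 0x200014000a00040000400020001000080000000000000000000000000000000) (nat_lit 0x0) (nat_lit 0xa000d00008000000000002000000000000100008000000000000000000000000000) := T_39 (nat_lit 128) (nat_lit 111) (nat_lit 6) (nat_lit 8) (nat_lit 10) L105455 (by decide +kernel)
theorem L105457 : W_39 (nat_lit 8) (nat_lit 0x14000a00040000400020001000080000000000000000000000000000000) (nat_lit 0x0) (nat_lit 0x14000e000f000080074000b4007200000000000100008000000000000000000000000000) := Q_39 (nat_lit 249) (C_39 L105185 (C_39 L105003 (C_39 L105148 (C_39 L104999 (C_39 L105456 N_39))))) (by decide +kernel)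
theorem L105458 : W_39 (nat_lit 2) (nat_lit 0x4000600014000a000c00004000200010000c0000000000000000000000000000000) (nat_lit 0x0) (nat_lit 0x500020000000000000000000000000000000000000000000000000) := D_39 (nat_lit 214) (nat_lit 197) (nat_lit 212) (nat_lit 4) (nat_lit 11) (nat_lit 15) (nat_lit 2) (nat_lit 8) (nat_lit 12) (by decide +kernel)
theorem L105459 : W_39 (nat_lit 3) (nat_lit 0x600014000a000c00004000200010000c0000000000000000000000000000000) (nat_lit 0x0) (nat_lit 0x4000000000001500020000000000000000000000000000000000000000000000000) := T_39 (nat_lit 266) (nat_lit 216) (nat_lit 6) (nat_lit 11) (nat_lit 15) L105458 (by decide +kernel)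
theorem L105460 : W_39 (nat_lit 4) (nat_lit 0x600014000a000400004000200010000c0000000000000000000000000000000) (nat_lit 0x0) (nat_lit 0x40000000000015000a0004000000000000000000000000000000000000000000000) := T_39 (nat_lit 199) (nat_lit 182) (nat_lit 6) (nat_lit 11) (nat_lit 14) L105459 (by decide +kernel)
theorem L105461 : W_39 (nat_lit 5) (nat_lit 0x200014000a000400004000200010000c0000000000000000000000000000000) (nat_lit 0x0) (nat_lit 0xc0004000000015000a0004000000000000000000000000000000000000000000000) := T_39 (nat_lit 250) (nat_lit 267) (nat_lit 7) (nat_lit 11) (nat_lit 11) L105460 (by decide +kernel)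
theorem L105462 : W_39 (nat_lit 6) (nat_lit 0x200014000a00040000400020001000080000000000000000000000000000000) (nat_lit 0x0) (nat_lit 0xc0004000000015000a0004000000000000040002000000000000000000000000000) := T_39 (nat_lit 126) (nat_lit 109) (nat_lit 4) (nat_lit 8) (nat_lit 10) L105461 (by decide +kernel)
theorem L105463 : W_39 (nat_lit 8) (nat_lit 0x14000a00040000400020001000080000000000000000000000000000000) (nat_lit 0x0) (nat_lit 0xe000f000080075000b4007200000000000040002000000000000000000000000000) := Q_39 (nat_lit 249) (C_39 L105185 (C_39 L105153 (C_39 L105462 N_39))) (by decide +kernel)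
theorem L105464 : W_39 (nat_lit 2) (nat_lit 0x4000200014000a000c0000600020001000080000000000000000000000000000000) (nat_lit 0x0) (nat_lit 0x100008000400000000000000000000000000000000000000000000000000000000000000) := D_39 (nat_lit 267) (nat_lit 284) (nat_lit 250) (nat_lit 7) (nat_lit 11) (nat_lit 12) (nat_lit 7) (nat_lit 11) (nat_lit 11) (by decide +kernel)
theorem L105465 : W_39 (nat_lit 3) (nat_lit 0x200014000a000c0000600020001000080000000000000000000000000000000) (nat_lit 0x0) (nat_lit 0x10000c000400000001000000000000000000000000000000000000000000000000000000) := T_39 (nat_lit 266) (nat_lit 216) (nat_lit 6) (nat_lit 11) (nat_lit 15) L105464 (by decide +kernel)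
theorem L105466 : W_39 (nat_lit 4) (nat_lit 0x14000a000c0000600020001000080000000000000000000000000000000) (nat_lit 0x0) (nat_lit 0x10000c000600000001000000004000000000000000000000000000000000000000000000) := T_39 (nat_lit 249) (nat_lit 182) (nat_lit 6) (nat_lit 11) (nat_lit 14) L105465 (by decide +kernel)
theorem L105467 : W_39 (nat_lit 5) (nat_lit 0x14000a000c0000400020001000080000000000000000000000000000000) (nat_lit 0x0) (nat_lit 0x10000c000600000001000004004200000000000000000000000000000000000000000000) := T_39 (nat_lit 177) (nat_lit 194) (nat_lit 5) (nat_lit 8) (nat_lit 7) L105466 (by decide +kernel)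
theorem L105468 : W_39 (nat_lit 2) (nat_lit 0x4000200014000b000e0000400020001000180000000000000000000000000000000) (nat_lit 0x0) (nat_lit 0x100008000400000000000000000000000000000000000000000000000000000000000000) := D_39 (nat_lit 267) (nat_lit 284) (nat_lit 250) (nat_lit 7) (nat_lit 11) (nat_lit 12) (nat_lit 7) (nat_lit 11) (nat_lit 11) (by decide +kernel)
theorem L105469 : W_39 (nat_lit 3) (nat_lit 0x200014000b000e0000400020001000180000000000000000000000000000000) (nat_lit 0x0) (nat_lit 0x10000c000400000001000000000000000000000000000000000000000000000000000000) := T_39 (nat_lit 266) (nat_lit 216) (nat_lit 6) (nat_lit 11) (nat_lit 15) L105468 (by decide +kernel)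
theorem L105470 : W_39 (nat_lit 4) (nat_lit 0x14000b000e0000400020001000180000000000000000000000000000000) (nat_lit 0x0) (nat_lit 0x10000c000600000001000000004000000000000000000000000000000000000000000000) := T_39 (nat_lit 249) (nat_lit 182) (nat_lit 6) (nat_lit 11) (nat_lit 14) L105469 (by decide +kernel)
theorem L105471 : W_39 (nat_lit 5) (nat_lit 0x14000b000c0000400020001000180000000000000000000000000000000) (nat_lit 0x0) (nat_lit 0x10000c000600000001000030004000000000000000000000000000000000000000000000) := T_39 (nat_lit 197) (nat_lit 196) (nat_lit 1) (nat_lit 12) (nat_lit 11) L105470 (by decide +kernel)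
theorem L105472 : W_39 (nat_lit 6) (nat_lit 0x14000a000c0000400020001000180000000000000000000000000000000) (nat_lit 0x0) (nat_lit 0x10000c000600000001500030004000000000000000000000000000000000000000000000) := T_39 (nat_lit 212) (nat_lit 214) (nat_lit 2) (nat_lit 8) (nat_lit 12) L105471 (by decide +kernel)
theorem L105473 : W_39 (nat_lit 7) (nat_lit 0x14000a000c0000400020001000080000000000000000000000000000000) (nat_lit 0x0) (nat_lit 0x10000c000600000001500030004000000000000100008000000000000000000000000000) := T_39 (nat_lit 128) (nat_lit 111) (nat_lit 6) (nat_lit 8) (nat_lit 10) L105472 (by decide +kernel)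
theorem L105474 : W_39 (nat_lit 2) (nat_lit 0x14000e000c00004000200010001c0000000000000000000000000000000) (nat_lit 0x0) (nat_lit 0x320000000000000000000000000000000000000000000000000) := D_39 (nat_lit 200) (nat_lit 201) (nat_lit 197) (nat_lit 1) (nat_lit 14) (nat_lit 11) (nat_lit 1) (nat_lit 13) (nat_lit 11) (by decide +kernel)
theorem L105475 : W_39 (nat_lit 3) (nat_lit 0x14000a000c00004000200010001c0000000000000000000000000000000) (nat_lit 0x0) (nat_lit 0x500320000000000000000000000000000000000000000000000000) := T_39 (nat_lit 214) (nat_lit 212) (nat_lit 2) (nat_lit 8) (nat_lit 12) L105474 (by decide +kernel)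
theorem L105476 : W_39 (nat_lit 4) (nat_lit 0x14000a000c00004000200010000c0000000000000000000000000000000) (nat_lit 0x0) (nat_lit 0x500320000000000000000100008000000000000000000000000000) := T_39 (nat_lit 128) (nat_lit 111) (nat_lit 6) (nat_lit 8) (nat_lit 10) L105475 (by decide +kernel)
theorem L105477 : W_39 (nat_lit 5) (nat_lit 0x14000a000c0000400020001000080000000000000000000000000000000) (nat_lit 0x0) (nat_lit 0x50032000000000000000014000a000000000000000000000000000) := T_39 (nat_lit 126) (nat_lit 109) (nat_lit 4) (nat_lit 8) (nat_lit 10) L105476 (by decide +kernel)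
theorem L105478 : W_39 (nat_lit 8) (nat_lit 0x14000a00040000400020001000080000000000000000000000000000000) (nat_lit 0x0) (nat_lit 0x10000c0006000000015003b400420000000000014000a000000000000000000000000000) := Q_39 (nat_lit 199) (C_39 L105467 (C_39 L105473 (C_39 L105477 N_39))) (by decide +kernel)
theorem L105479 : W_39 (nat_lit 2) (nat_lit 0x1c000a000400036001200190001c0000000000000000000000000000000) (nat_lit 0x0) (nat_lit 0x4000600000000000000000000000000000000) := D_39 (nat_lit 129) (nat_lit 146) (nat_lit 130) (nat_lit 3) (nat_lit 7) (nat_lit 7) (nat_lit 3) (nat_lit 8) (nat_lit 7) (by decide +kernel)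
theorem L105480 : W_39 (nat_lit 3) (nat_lit 0x1c000a000400036001200110001c0000000000000000000000000000000) (nat_lit 0x0) (nat_lit 0xc000e00000000000000000000000000000000) := T_39 (nat_lit 147) (nat_lit 131) (nat_lit 6) (nat_lit 11) (nat_lit 11) L105479 (by decide +kernel)
theorem L105481 : W_39 (nat_lit 4) (nat_lit 0x1c000a000400036001200010001c0000000000000000000000000000000) (nat_lit 0x0) (nat_lit 0x20001c000e00000000000000000000000000000000) := T_39 (nat_lit 148) (nat_lit 165) (nat_lit 6) (nat_lit 11) (nat_lit 12) L105480 (by decide +kernel)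
theorem L105482 : W_39 (nat_lit 5) (nat_lit 0x1c000a000400036001200010000c0000000000000000000000000000000) (nat_lit 0x0) (nat_lit 0x20001c000f00008000000000000000000000000000) := T_39 (nat_lit 128) (nat_lit 111) (nat_lit 6) (nat_lit 8) (nat_lit 10) L105481 (by decide +kernel)
theorem L105483 : W_39 (nat_lit 6) (nat_lit 0x1c000a000400036000200010000c0000000000000000000000000000000) (nat_lit 0x0) (nat_lit 0x40000000000030001c000f00008000000000000000000000000000) := T_39 (nat_lit 164) (nat_lit 214) (nat_lit 5) (nat_lit 11) (nat_lit 9) L105482 (by decide +kernel)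
theorem L105484 : W_39 (nat_lit 7) (nat_lit 0x1c000a000400034000200010000c0000000000000000000000000000000) (nat_lit 0x0) (nat_lit 0x40000400020030001c000f00008000000000000000000000000000) := T_39 (nat_lit 177) (nat_lit 194) (nat_lit 5) (nat_lit 8) (nat_lit 7) L105483 (by decide +kernel)
theorem L105485 : W_39 (nat_lit 8) (nat_lit 0x14000a000400034000200010000c0000000000000000000000000000000) (nat_lit 0x0) (nat_lit 0x10000800040000400020030001c000f00008000000000000000000000000000) := T_39 (nat_lit 231) (nat_lit 248) (nat_lit 5) (nat_lit 11) (nat_lit 10) L105484 (by decide +kernel)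
theorem L105486 : W_39 (nat_lit 9) (nat_lit 0x14000a000400024000200010000c0000000000000000000000000000000) (nat_lit 0x0) (nat_lit 0x10000800040000400120038001c000f00008000000000000000000000000000) := T_39 (nat_lit 180) (nat_lit 163) (nat_lit 4) (nat_lit 11) (nat_lit 13) L105485 (by decide +kernel)
theorem L105487 : W_39 (nat_lit 10) (nat_lit 0x14000a00040002400020001000080000000000000000000000000000000) (nat_lit 0x0) (nat_lit 0x10000800040000400120038001c000f4000a000000000000000000000000000) := T_39 (nat_lit 126) (nat_lit 109) (nat_lit 4) (nat_lit 8) (nat_lit 10) L105486 (by decide +kernel)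
theorem L105488 : W_39 (nat_lit 2) (nat_lit 0x1c000a000400024001200010000c0000000000000000000000000000000) (nat_lit 0x0) (nat_lit 0x1000080004000000000000000000000000000000000000) := D_39 (nat_lit 163) (nat_lit 180) (nat_lit 146) (nat_lit 4) (nat_lit 11) (nat_lit 13) (nat_lit 4) (nat_lit 11) (nat_lit 12) (by decide +kernel)
theorem L105489 : W_39 (nat_lit 3) (nat_lit 0x1c000a000400024000200010000c0000000000000000000000000000000) (nat_lit 0x0) (nat_lit 0x400000001000180004000000000000000000000000000000000000) := T_39 (nat_lit 164) (nat_lit 214) (nat_lit 5) (nat_lit 11) (nat_lit 9) L105488 (by decide +kernel)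
theorem L105490 : W_39 (nat_lit 4) (nat_lit 0x1c000a00040002400020001000080000000000000000000000000000000) (nat_lit 0x0) (nat_lit 0x400000001000180004000040002000000000000000000000000000) := T_39 (nat_lit 126) (nat_lit 109) (nat_lit 4) (nat_lit 8) (nat_lit 10) L105489 (by decide +kernel)
theorem L105491 : W_39 (nat_lit 5) (nat_lit 0x14000a00040002400020001000080000000000000000000000000000000) (nat_lit 0x0) (nat_lit 0x100008000400000001000180004000040002000000000000000000000000000) := T_39 (nat_lit 231) (nat_lit 248) (nat_lit 5) (nat_lit 11) (nat_lit 10) L105490 (by decide +kernel)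
theorem L105492 : W_39 (nat_lit 11) (nat_lit 0x14000a00040000400020001000080000000000000000000000000000000) (nat_lit 0x0) (nat_lit 0x20003000080004000840072003c001c000f4000a000000000000000000000000000) := Q_39 (nat_lit 181) (C_39 L105104 (C_39 L105025 (C_39 L105487 (C_39 L105491 N_39)))) (by decide +kernel)
theorem L105493 : W_39 (nat_lit 2) (nat_lit 0x600014000e00060000400020001000080000000000000000000000000000000) (nat_lit 0x0) (nat_lit 0x100180000000000000000000000000000000000000000000000000) := D_39 (nat_lit 199) (nat_lit 212) (nat_lit 200) (nat_lit 2) (nat_lit 8) (nat_lit 12) (nat_lit 1) (nat_lit 13) (nat_lit 11) (by decide +kernel)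
theorem L105494 : W_39 (nat_lit 3) (nat_lit 0x600014000a00060000400020001000080000000000000000000000000000000) (nat_lit 0x0) (nat_lit 0x4000000000000500180000000000000000000000000000000000000000000000000) := T_39 (nat_lit 214) (nat_lit 266) (nat_lit 4) (nat_lit 11) (nat_lit 15) L105493 (by decide +kernel)
theorem L105495 : W_39 (nat_lit 4) (nat_lit 0x600014000a00040000400020001000080000000000000000000000000000000) (nat_lit 0x0) (nat_lit 0x40000000000005001a0001000000000000000000000000000000000000000000000) := T_39 (nat_lit 197) (nat_lit 180) (nat_lit 4) (nat_lit 11) (nat_lit 14) L105494 (by decide +kernel)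
theorem L105496 : W_39 (nat_lit 5) (nat_lit 0x200014000a00040000400020001000080000000000000000000000000000000) (nat_lit 0x0) (nat_lit 0xc0004000000005001a0001000000000000000000000000000000000000000000000) := T_39 (nat_lit 250) (nat_lit 267) (nat_lit 7) (nat_lit 11) (nat_lit 11) L105495 (by decide +kernel)
theorem L105497 : W_39 (nat_lit 6) (nat_lit 0x14000a00040000400020001000080000000000000000000000000000000) (nat_lit 0x0) (nat_lit 0x4000e000f000080005001a000300000000000014000a000000000000000000000000000) := Q_39 (nat_lit 249) (C_39 L105456 (C_39 L105153 (C_39 L105148 (C_39 L105496 N_39)))) (by decide +kernel)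
theorem L105498 : W_39 (nat_lit 2) (nat_lit 0x200014000a00040007400020001000080000000000000000000000000000000) (nat_lit 0x0) (nat_lit 0x2000100008000000000000000000000000000000000000000000000000000000000) := D_39 (nat_lit 248) (nat_lit 265) (nat_lit 231) (nat_lit 5) (nat_lit 11) (nat_lit 11) (nat_lit 5) (nat_lit 11) (nat_lit 10) (by decide +kernel)
theorem L105499 : W_39 (nat_lit 3) (nat_lit 0x14000a00040007400020001000080000000000000000000000000000000) (nat_lit 0x0) (nat_lit 0x2000300008000000020000000000000000000000000000000000000000000000000) := T_39 (nat_lit 249) (nat_lit 197) (nat_lit 4) (nat_lit 11) (nat_lit 14) L105498 (by decide +kernel)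
theorem L105500 : W_39 (nat_lit 4) (nat_lit 0x14000a00040006400020001000080000000000000000000000000000000) (nat_lit 0x0) (nat_lit 0x2000300008000000020001000080000000000000000000000000000000000000000) := T_39 (nat_lit 180) (nat_lit 163) (nat_lit 4) (nat_lit 11) (nat_lit 13) L105499 (by decide +kernel)
theorem L105501 : W_39 (nat_lit 5) (nat_lit 0x14000a00040002400020001000080000000000000000000000000000000) (nat_lit 0x0) (nat_lit 0x2000300008000000020005000280000000000000000000000000000000000000000) := T_39 (nat_lit 182) (nat_lit 165) (nat_lit 6) (nat_lit 11) (nat_lit 13) L105500 (by decide +kernel)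
theorem L105502 : W_39 (nat_lit 2) (nat_lit 0x1c000a00040006400120001000080000000000000000000000000000000) (nat_lit 0x0) (nat_lit 0xc0004000000000000000000000000000000000000) := D_39 (nat_lit 163) (nat_lit 162) (nat_lit 146) (nat_lit 3) (nat_lit 8) (nat_lit 9) (nat_lit 4) (nat_lit 11) (nat_lit 12) (by decide +kernel)
theorem L105503 : W_39 (nat_lit 3) (nat_lit 0x1c000a00040006400020001000080000000000000000000000000000000) (nat_lit 0x0) (nat_lit 0x4000000000001c0004000000000000000000000000000000000000) := T_39 (nat_lit 164) (nat_lit 214) (nat_lit 5) (nat_lit 11) (nat_lit 9) L105502 (by decide +kernel)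
theorem L105504 : W_39 (nat_lit 4) (nat_lit 0x1c000a00040002400020001000080000000000000000000000000000000) (nat_lit 0x0) (nat_lit 0x4000000040003c0004000000000000000000000000000000000000) := T_39 (nat_lit 182) (nat_lit 165) (nat_lit 6) (nat_lit 11) (nat_lit 13) L105503 (by decide +kernel)
theorem L105505 : W_39 (nat_lit 5) (nat_lit 0x14000a00040002400020001000080000000000000000000000000000000) (nat_lit 0x0) (nat_lit 0x1000080004000000040003c0004000000000000000000000000000000000000) := T_39 (nat_lit 231) (nat_lit 248) (nat_lit 5) (nat_lit 11) (nat_lit 10) L105504 (by decide +kernel)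
theorem L105506 : W_39 (nat_lit 2) (nat_lit 0x1c000a00040002400220001000080000000000000000000000000000000) (nat_lit 0x0) (nat_lit 0x400000000000100010000000000000000000000000000000000000) := D_39 (nat_lit 164) (nat_lit 214) (nat_lit 148) (nat_lit 5) (nat_lit 11) (nat_lit 9) (nat_lit 6) (nat_lit 11) (nat_lit 12) (by decide +kernel)
theorem L105507 : W_39 (nat_lit 3) (nat_lit 0x1c000a00040002400020001000080000000000000000000000000000000) (nat_lit 0x0) (nat_lit 0x400000004000300010000000000000000000000000000000000000) := T_39 (nat_lit 165) (nat_lit 182) (nat_lit 6) (nat_lit 11) (nat_lit 13) L105506 (by decide +kernel)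
theorem L105508 : W_39 (nat_lit 4) (nat_lit 0x14000a00040002400020001000080000000000000000000000000000000) (nat_lit 0x0) (nat_lit 0x100008000400000004000300010000000000000000000000000000000000000) := T_39 (nat_lit 231) (nat_lit 248) (nat_lit 5) (nat_lit 11) (nat_lit 10) L105507 (by decide +kernel)
theorem L105509 : W_39 (nat_lit 8) (nat_lit 0x14000a00040000400020001000080000000000000000000000000000000) (nat_lit 0x0) (nat_lit 0x20003000080004000240072003c001400014000a000000000000000000000000000) := Q_39 (nat_lit 181) (C_39 L105169 (C_39 L105491 (C_39 L105501 (C_39 L105505 (C_39 L105508 (C_39 L105025 N_39)))))) (by decide +kernel)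
theorem L105510 : W_39 (nat_lit 2) (nat_lit 0x1c000a000400024000a0001000180000000000000000000000000000000) (nat_lit 0x0) (nat_lit 0x400000000000100004000000000000000000000000000000000000) := D_39 (nat_lit 164) (nat_lit 146) (nat_lit 214) (nat_lit 4) (nat_lit 11) (nat_lit 12) (nat_lit 5) (nat_lit 11) (nat_lit 9) (by decide +kernel)
theorem L105511 : W_39 (nat_lit 3) (nat_lit 0x14000a000400024000a0001000180000000000000000000000000000000) (nat_lit 0x0) (nat_lit 0x100008000400000000000100004000000000000000000000000000000000000) := T_39 (nat_lit 231) (nat_lit 248) (nat_lit 5) (nat_lit 11) (nat_lit 10) L105510 (by decide +kernel)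
theorem L105512 : W_39 (nat_lit 4) (nat_lit 0x14000a000400004000a0001000180000000000000000000000000000000) (nat_lit 0x0) (nat_lit 0x100008000400000003000100004000000000000000000000000000000000000) := T_39 (nat_lit 181) (nat_lit 180) (nat_lit 4) (nat_lit 11) (nat_lit 13) L105511 (by decide +kernel)
theorem L105513 : W_39 (nat_lit 5) (nat_lit 0x14000a000400004000a0001000080000000000000000000000000000000) (nat_lit 0x0) (nat_lit 0x100008000400000003000100004000100008000000000000000000000000000) := T_39 (nat_lit 128) (nat_lit 111) (nat_lit 6) (nat_lit 8) (nat_lit 10) L105512 (by decide +kernel)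
theorem L105514 : W_39 (nat_lit 2) (nat_lit 0x14000a000400014000a0001000080000000000000000000000000000000) (nat_lit 0x0) (nat_lit 0x400020000000000004000000000000000000000000000000000000) := D_39 (nat_lit 197) (nat_lit 214) (nat_lit 146) (nat_lit 7) (nat_lit 10) (nat_lit 9) (nat_lit 7) (nat_lit 10) (nat_lit 8) (by decide +kernel)
theorem L105515 : W_39 (nat_lit 3) (nat_lit 0x14000a000400004000a0001000080000000000000000000000000000000) (nat_lit 0x0) (nat_lit 0x400020003000000004000000000000000000000000000000000000) := T_39 (nat_lit 180) (nat_lit 181) (nat_lit 4) (nat_lit 11) (nat_lit 13) L105514 (by decide +kernel)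
theorem L105516 : W_39 (nat_lit 2) (nat_lit 0x14000a000400026001a00010001c0000000000000000000000000000000) (nat_lit 0x0) (nat_lit 0x100008000400000000000000000000000000000000000000000000000000000) := D_39 (nat_lit 231) (nat_lit 214) (nat_lit 248) (nat_lit 5) (nat_lit 11) (nat_lit 9) (nat_lit 5) (nat_lit 11) (nat_lit 10) (by decide +kernel)
theorem L105517 : W_39 (nat_lit 3) (nat_lit 0x14000a000400006001a00010001c0000000000000000000000000000000) (nat_lit 0x0) (nat_lit 0x100008000400000002000000004000000000000000000000000000000000000) := T_39 (nat_lit 181) (nat_lit 146) (nat_lit 4) (nat_lit 11) (nat_lit 12) L105516 (by decide +kernel)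
theorem L105518 : W_39 (nat_lit 4) (nat_lit 0x14000a000400006001a0001000180000000000000000000000000000000) (nat_lit 0x0) (nat_lit 0x100008000400000002000000004000040002000000000000000000000000000) := T_39 (nat_lit 126) (nat_lit 109) (nat_lit 4) (nat_lit 8) (nat_lit 10) L105517 (by decide +kernel)
theorem L105519 : W_39 (nat_lit 5) (nat_lit 0x14000a000400006000a0001000180000000000000000000000000000000) (nat_lit 0x0) (nat_lit 0x100008000400000002000140004000040002000000000000000000000000000) := T_39 (nat_lit 164) (nat_lit 162) (nat_lit 1) (nat_lit 11) (nat_lit 9) L105518 (by decide +kernel)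
theorem L105520 : W_39 (nat_lit 6) (nat_lit 0x14000a000400004000a0001000180000000000000000000000000000000) (nat_lit 0x0) (nat_lit 0x100008000400004002200140004000040002000000000000000000000000000) := T_39 (nat_lit 177) (nat_lit 194) (nat_lit 5) (nat_lit 8) (nat_lit 7) L105519 (by decide +kernel)
theorem L105521 : W_39 (nat_lit 7) (nat_lit 0x14000a000400004000a0001000080000000000000000000000000000000) (nat_lit 0x0) (nat_lit 0x10000800040000400220014000400014000a000000000000000000000000000) := T_39 (nat_lit 128) (nat_lit 111) (nat_lit 6) (nat_lit 8) (nat_lit 10) L105520 (by decide +kernel)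
theorem L105522 : W_39 (nat_lit 2) (nat_lit 0x1c000a000400064000a00010000c0000000000000000000000000000000) (nat_lit 0x0) (nat_lit 0x140004000000000000000000000000000000000000) := D_39 (nat_lit 164) (nat_lit 162) (nat_lit 146) (nat_lit 3) (nat_lit 8) (nat_lit 9) (nat_lit 4) (nat_lit 11) (nat_lit 12) (by decide +kernel)
theorem L105523 : W_39 (nat_lit 3) (nat_lit 0x1c000a000400024000a00010000c0000000000000000000000000000000) (nat_lit 0x0) (nat_lit 0x4000340004000000000000000000000000000000000000) := T_39 (nat_lit 182) (nat_lit 165) (nat_lit 6) (nat_lit 11) (nat_lit 13) L105522 (by decide +kernel)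
theorem L105524 : W_39 (nat_lit 4) (nat_lit 0x14000a000400024000a00010000c0000000000000000000000000000000) (nat_lit 0x0) (nat_lit 0x100008000000000004000340004000000000000000000000000000000000000) := T_39 (nat_lit 231) (nat_lit 248) (nat_lit 5) (nat_lit 11) (nat_lit 10) L105523 (by decide +kernel)
theorem L105525 : W_39 (nat_lit 5) (nat_lit 0x14000a000400004000a00010000c0000000000000000000000000000000) (nat_lit 0x0) (nat_lit 0x100008000000000007000340004000000000000000000000000000000000000) := T_39 (nat_lit 181) (nat_lit 180) (nat_lit 4) (nat_lit 11) (nat_lit 13) L105524 (by decide +kernel)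
theorem L105526 : W_39 (nat_lit 6) (nat_lit 0x14000a000400004000a0001000080000000000000000000000000000000) (nat_lit 0x0) (nat_lit 0x100008000000000007000340004000040002000000000000000000000000000) := T_39 (nat_lit 126) (nat_lit 109) (nat_lit 4) (nat_lit 8) (nat_lit 10) L105525 (by decide +kernel)
theorem L105527 : W_39 (nat_lit 2) (nat_lit 0x1c000a000400064000a0001000080000000000000000000000000000000) (nat_lit 0x0) (nat_lit 0x400000000000140000000000000000000000000000000000000000) := D_39 (nat_lit 164) (nat_lit 162) (nat_lit 214) (nat_lit 3) (nat_lit 8) (nat_lit 9) (nat_lit 5) (nat_lit 11) (nat_lit 9) (by decide +kernel)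
theorem L105528 : W_39 (nat_lit 3) (nat_lit 0x1c000a000400024000a0001000080000000000000000000000000000000) (nat_lit 0x0) (nat_lit 0x400000004000340000000000000000000000000000000000000000) := T_39 (nat_lit 182) (nat_lit 165) (nat_lit 6) (nat_lit 11) (nat_lit 13) L105527 (by decide +kernel)
end Crest.Agent.Helper32.Snaky.R1_0
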