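import Crest.Agent.Helper32.Snaky.Gen.R1_0_p3
set_option autoImplicit false
set_option maxRecDepth 100000
set_option linter.all false
set_option Elab.async false
namespace Crest.Agent.Helper32.Snaky.R1_0
@[reducible] def W_4 (d M Bz Z : Nat) : Prop := Crest.Agent.Helper32.Snaky.Wins (nat_lit 17) d M Bz Z
theorem D_4 {d M Bz Z : Nat} (m t1 t2 o1 x1 y1 o2 x2 y2 : Nat) (h : Crest.Agent.Helper32.Snaky.chkDoubleC (nat_lit 17) d M Bz Z m t1 t2 o1 x1 y1 o2 x2 y2 = true) : W_4 d M Bz Z := Crest.Agent.Helper32.Snaky.doubleC m t1 t2 o1 x1 y1 o2 x2 y2 h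
theorem T_4 {d M Bz Z cd cM cBz cZ : Nat} (m t o x y : Nat) (child : W_4 cd cM cBz cZ) (h : Crest.Agent.Helper32.Snaky.chkThreatC (nat_lit 17) d M Bz Z cd cM cBz cZ m t o x y = true) : W_4 d M Bz Z := Crest.Agent.Helper32.Snaky.threatC m t o x y child h
theorem Q_4 {d M Bz Z : Nat} (m : Nat) {l : List Crest.Agent.Helper32.Snaky.Spec} (kids : Crest.Agent.Helper32.Snaky.AllWins (nat_lit 17) l) (h : Crest.Agent.Helper32.Snaky.chkQuiet d M Bz Z m l = true) : W_4 d M Bz Z := Crest.Agent.Helper32.Snaky.quiet m kids h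
theorem C_4 {cd cM cBz cZ : Nat} {l : List Crest.Agent.Helper32.Snaky.Spec} (h : W_4 cd cM cBz cZ) (hl : Crest.Agent.Helper32.Snaky.AllWins (nat_lit 17) l) : Crest.Agent.Helper32.Snaky.AllWins (nat_lit 17) ((cd, cM, cBz, cZ) :: l) := Crest.Agent.Helper32.Snaky.AllWins.cons h hl
theorem N_4 : Crest.Agent.Helper32.Snaky.AllWins (nat_lit 17) [] := Crest.Agent.Helper32.Snaky.AllWins.nil
theorem L40631 : W_4 (nat_lit 2) (nat_lit 0x200010003800140013400b0000000000000000000000000000000) (nat_lit 0x0) (nat_lit 0x200010000800000000000000000000000000000000000000000000000) := D_4 (nat_lit 208) (nat_lit 225) (nat_lit 191) (nat_lit 5) (nat_lit 5) (nat_lit 9) (nat_lit 5) (nat_lit 5) (nat_lit 8) (by decide +kernel)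
theorem L40632 : W_4 (nat_lit 3) (nat_lit 0x10003800140013400b0000000000000000000000000000000) (nat_lit 0x0) (nat_lit 0x200030000800000002000000000000000000000000000000000000000) := T_4 (nat_lit 209) (nat_lit 157) (nat_lit 4) (nat_lit 5) (nat_lit 12) L40631 (by decide +kernel)
theorem L40633 : W_4 (nat_lit 4) (nat_lit 0x3800140013400b0000000000000000000000000000000) (nat_lit 0x0) (nat_lit 0x200030001800000002000000008000000000000000000000000000000) := T_4 (nat_lit 192) (nat_lit 123) (nat_lit 4) (nat_lit 5) (nat_lit 11) L40632 (by decide +kernel)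
theorem L50070 : W_4 (nat_lit 2) (nat_lit 0x20001000280014001300080000000000000000000000000000000) (nat_lit 0x0) (nat_lit 0x200010000800000000000000000000000000000000000000000000000) := D_4 (nat_lit 208) (nat_lit 225) (nat_lit 191) (nat_lit 5) (nat_lit 5) (nat_lit 9) (nat_lit 5) (nat_lit 5) (nat_lit 8) (by decide +kernel)
theorem L50071 : W_4 (nat_lit 3) (nat_lit 0x1000280014001300080000000000000000000000000000000) (nat_lit 0x0) (nat_lit 0x200030000800000002000000000000000000000000000000000000000) := T_4 (nat_lit 209) (nat_lit 157) (nat_lit 4) (nat_lit 5) (nat_lit 12) L50070 (by decide +kernel)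
theorem L50072 : W_4 (nat_lit 4) (nat_lit 0x280014001300080000000000000000000000000000000) (nat_lit 0x0) (nat_lit 0x200030001800000002000000008000000000000000000000000000000) := T_4 (nat_lit 192) (nat_lit 123) (nat_lit 4) (nat_lit 5) (nat_lit 11) L50071 (by decide +kernel)
theorem L51202 : W_4 (nat_lit 2) (nat_lit 0x4003e002a001c001300080000000000000000000000000000000) (nat_lit 0x0) (nat_lit 0x10000c0000000000000000000000000000000000) := D_4 (nat_lit 139) (nat_lit 138) (nat_lit 156) (nat_lit 3) (nat_lit 2) (nat_lit 8) (nat_lit 5) (nat_lit 3) (nat_lit 8) (by decide +kernel)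
theorem L51203 : W_4 (nat_lit 3) (nat_lit 0x4003c002a001c001300080000000000000000000000000000000) (nat_lit 0x0) (nat_lit 0x20002000000010000c0000000000000000000000000000000000) := T_4 (nat_lit 189) (nat_lit 205) (nat_lit 1) (nat_lit 5) (nat_lit 11) L51202 (by decide +kernel)
theorem L51204 : W_4 (nat_lit 4) (nat_lit 0x4003c002a0014001300080000000000000000000000000000000) (nat_lit 0x0) (nat_lit 0x20002000000290000c0000000000000000000000000000000000) := T_4 (nat_lit 159) (nat_lit 161) (nat_lit 0) (nat_lit 8) (nat_lit 9) L51203 (by decide +kernel)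
theorem L51205 : W_4 (nat_lit 5) (nat_lit 0x3c002a0014001300080000000000000000000000000000000) (nat_lit 0x0) (nat_lit 0xe0002000000290000c0000000000000000000000000000000000) := T_4 (nat_lit 206) (nat_lit 207) (nat_lit 1) (nat_lit 6) (nat_lit 11) L51204 (by decide +kernel)
theorem L51206 : W_4 (nat_lit 6) (nat_lit 0x3c00280014001300080000000000000000000000000000000) (nat_lit 0x0) (nat_lit 0xe0002000300290000c0000000000000000000000000000000000) := T_4 (nat_lit 173) (nat_lit 172) (nat_lit 0) (nat_lit 6) (nat_lit 11) L51205 (by decide +kernel)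
theorem L51207 : W_4 (nat_lit 7) (nat_lit 0x3800280014001300080000000000000000000000000000000) (nat_lit 0x0) (nat_lit 0xe0006001300290000c0000000000000000000000000000000000) := T_4 (nat_lit 190) (nat_lit 176) (nat_lit 2) (nat_lit 3) (nat_lit 11) L51206 (by decide +kernel)
theorem L51208 : W_4 (nat_lit 8) (nat_lit 0x1800280014001300080000000000000000000000000000000) (nat_lit 0x0) (nat_lit 0x4e0026001300290000c0000000000000000000000000000000000) := T_4 (nat_lit 193) (nat_lit 210) (nat_lit 7) (nat_lit 5) (nat_lit 8) L51207 (by decide +kernel)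
theorem L51209 : W_4 (nat_lit 9) (nat_lit 0x1000280014001300080000000000000000000000000000000) (nat_lit 0x0) (nat_lit 0x5e002e001300290000c0000000000000000000000000000000000) := T_4 (nat_lit 191) (nat_lit 208) (nat_lit 5) (nat_lit 5) (nat_lit 8) L51208 (by decide +kernel)
theorem L51210 : W_4 (nat_lit 10) (nat_lit 0x280014001300080000000000000000000000000000000) (nat_lit 0x0) (nat_lit 0x5e003e001300290000c0008000000000000000000000000000000) := T_4 (nat_lit 192) (nat_lit 123) (nat_lit 4) (nat_lit 5) (nat_lit 11) L51209 (by decide +kernel)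
end Crest.Agent.Helper32.Snaky.R1_0
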