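import Crest.Agent.Helper32.Snaky.Gen.R1_0_p39
set_option autoImplicit false
set_option maxRecDepth 100000
set_option linter.all false
set_option Elab.async false
namespace Crest.Agent.Helper32.Snaky.R1_0
@[reducible] def W_40 (d M Bz Z : Nat) : Prop := Crest.Agent.Helper32.Snaky.Wins (nat_lit 17) d M Bz Z
theorem D_40 {d M Bz Z : Nat} (m t1 t2 o1 x1 y1 o2 x2 y2 : Nat) (h : Crest.Agent.Helper32.Snaky.chkDoubleC (nat_lit 17) d M Bz Z m t1 t2 o1 x1 y1 o2 x2 y2 = true) : W_40 d M Bz Z := Crest.Agent.Helper32.Snaky.doubleC m t1 t2 o1 x1 y1 o2 x2 y2 h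
theorem T_40 {d M Bz Z cd cM cBz cZ : Nat} (m t o x y : Nat) (child : W_40 cd cM cBz cZ) (h : Crest.Agent.Helper32.Snaky.chkThreatC (nat_lit 17) d M Bz Z cd cM cBz cZ m t o x y = true) : W_40 d M Bz Z := Crest.Agent.Helper32.Snaky.threatC m t o x y child h
theorem Q_40 {d M Bz Z : Nat} (m : Nat) {l : List Crest.Agent.Helper32.Snaky.Spec} (kids : Crest.Agent.Helper32.Snaky.AllWins (nat_lit 17) l) (h : Crest.Agent.Helper32.Snaky.chkQuiet d M Bz Z m l = true) : W_40 d M Bz Z := Crest.Agent.Helper32.Snaky.quiet m kids h
theorem C_40 {cd cM cBz cZ : Nat} {l : List Crest.Agent.Helper32.Snaky.Spec} (h : W_40 cd cM cBz cZ) (hl : Crest.Agent.Helper32.Snaky.AllWins (nat_lit 17) l) : Crest.Agent.Helper32.Snaky.AllWins (nat_lit 17) ((cd, cM, cBz, cZ) :: l) := Crest.Agent.Helper32.Snaky.AllWins.cons h hl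
theorem N_40 : Crest.Agent.Helper32.Snaky.AllWins (nat_lit 17) [] := Crest.Agent.Helper32.Snaky.AllWins.nil
theorem L105529 : W_40 (nat_lit 4) (nat_lit 0x14000a000400024000a0001000080000000000000000000000000000000) (nat_lit 0x0) (nat_lit 0x100008000400000004000340000000000000000000000000000000000000000) := T_40 (nat_lit 231) (nat_lit 248) (nat_lit 5) (nat_lit 11) (nat_lit 10) L105528 (by decide +kernel)
theorem L105530 : W_40 (nat_lit 5) (nat_lit 0x14000a000400004000a0001000080000000000000000000000000000000) (nat_lit 0x0) (nat_lit 0x100008000400000007000340000000000000000000000000000000000000000) := T_40 (nat_lit 181) (nat_lit 180) (nat_lit 4) (nat_lit 11) (nat_lit 13) L105529 (by decide +kernel)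
theorem L105531 : W_40 (nat_lit 2) (nat_lit 0x14000a000400006000e00010001c0000000000000000000000000000000) (nat_lit 0x0) (nat_lit 0x180010000000000000000000000000000000000000000) := D_40 (nat_lit 176) (nat_lit 160) (nat_lit 175) (nat_lit 1) (nat_lit 10) (nat_lit 9) (nat_lit 2) (nat_lit 5) (nat_lit 10) (by decide +kernel)
theorem L105532 : W_40 (nat_lit 3) (nat_lit 0x14000a000400006000a00010001c0000000000000000000000000000000) (nat_lit 0x0) (nat_lit 0x180150000000000000000000000000000000000000000) := T_40 (nat_lit 162) (nat_lit 164) (nat_lit 1) (nat_lit 11) (nat_lit 9) L105531 (by decide +kernel)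
theorem L105533 : W_40 (nat_lit 4) (nat_lit 0x14000a000400004000a00010001c0000000000000000000000000000000) (nat_lit 0x0) (nat_lit 0x4000380150000000000000000000000000000000000000000) := T_40 (nat_lit 177) (nat_lit 194) (nat_lit 5) (nat_lit 8) (nat_lit 7) L105532 (by decide +kernel)
theorem L105534 : W_40 (nat_lit 5) (nat_lit 0x14000a000400004000a00010000c0000000000000000000000000000000) (nat_lit 0x0) (nat_lit 0x4000380150000000100008000000000000000000000000000) := T_40 (nat_lit 128) (nat_lit 111) (nat_lit 6) (nat_lit 8) (nat_lit 10) L105533 (by decide +kernel)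
theorem L105535 : W_40 (nat_lit 6) (nat_lit 0x14000a000400004000a0001000080000000000000000000000000000000) (nat_lit 0x0) (nat_lit 0x400038015000000014000a000000000000000000000000000) := T_40 (nat_lit 126) (nat_lit 109) (nat_lit 4) (nat_lit 8) (nat_lit 10) L105534 (by decide +kernel)
theorem L105536 : W_40 (nat_lit 8) (nat_lit 0x14000a00040000400020001000080000000000000000000000000000000) (nat_lit 0x0) (nat_lit 0x1000080004000240073803d000400014000a000000000000000000000000000) := Q_40 (nat_lit 163) (C_40 L105513 (C_40 L105515 (C_40 L105521 (C_40 L105526 (C_40 L105530 (C_40 L105535 N_40)))))) (by decide +kernel)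
theorem L105537 : W_40 (nat_lit 13) (nat_lit 0x14000a00000000400020001000080000000000000000000000000000000) (nat_lit 0x0) (nat_lit 0x14000e000f0000800f5003f403f3803d001c000f4000a000000000000000000000000000) := Q_40 (nat_lit 198) (C_40 L105452 (C_40 L105457 (C_40 L105463 (C_40 L105478 (C_40 L105154 (C_40 L105492 (C_40 L105170 (C_40 L105497 (C_40 L105509 (C_40 L105536 N_40)))))))))) (by decide +kernel)
theorem L105538 : W_40 (nat_lit 6) (nat_lit 0x34000a00000000400020001000080000000000000000000000000000000) (nat_lit 0x0) (nat_lit 0x100008001fc0048000400044002200000000000040002000000000000000000000000000) := Q_40 (nat_lit 231) (C_40 L105268 (C_40 L105251 (C_40 L104264 (C_40 L104880 N_40)))) (by decide +kernel)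
theorem L105539 : W_40 (nat_lit 2) (nat_lit 0x48007c000a00040000600020001000080000000000000000000000000000000) (nat_lit 0x0) (nat_lit 0x100008000200000000000000000000000000000000000000000000000000000000000000) := D_40 (nat_lit 267) (nat_lit 284) (nat_lit 249) (nat_lit 4) (nat_lit 12) (nat_lit 16) (nat_lit 7) (nat_lit 11) (nat_lit 11) (by decide +kernel)
theorem L105540 : W_40 (nat_lit 3) (nat_lit 0x48007c000a00000000600020001000080000000000000000000000000000000) (nat_lit 0x0) (nat_lit 0x100008000200000000000040002000000000000000000000000000000000000000000000) := T_40 (nat_lit 198) (nat_lit 181) (nat_lit 7) (nat_lit 11) (nat_lit 10) L105539 (by decide +kernel)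
theorem L105541 : W_40 (nat_lit 4) (nat_lit 0x48003c000a00000000600020001000080000000000000000000000000000000) (nat_lit 0x0) (nat_lit 0x100008000300040000000040002000000000000000000000000000000000000000000000) := T_40 (nat_lit 234) (nat_lit 248) (nat_lit 1) (nat_lit 13) (nat_lit 13) L105540 (by decide +kernel)
theorem L105542 : W_40 (nat_lit 5) (nat_lit 0x8003c000a00000000600020001000080000000000000000000000000000000) (nat_lit 0x0) (nat_lit 0x100008000f00040000000040002000000000000000000000000000000000000000000000) := T_40 (nat_lit 250) (nat_lit 251) (nat_lit 3) (nat_lit 9) (nat_lit 13) L105541 (by decide +kernel)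
theorem L105543 : W_40 (nat_lit 6) (nat_lit 0x3c000a00000000600020001000080000000000000000000000000000000) (nat_lit 0x0) (nat_lit 0x100008000fc0040000000040002000000000000000000000000000000000000000000000) := T_40 (nat_lit 247) (nat_lit 246) (nat_lit 1) (nat_lit 12) (nat_lit 13) L105542 (by decide +kernel)
theorem L105544 : W_40 (nat_lit 7) (nat_lit 0x34000a00000000600020001000080000000000000000000000000000000) (nat_lit 0x0) (nat_lit 0x100008000fc0048000100040002000000000000000000000000000000000000000000000) := T_40 (nat_lit 231) (nat_lit 212) (nat_lit 0) (nat_lit 12) (nat_lit 13) L105543 (by decide +kernel)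
theorem L105545 : W_40 (nat_lit 8) (nat_lit 0x34000a00000000400020001000080000000000000000000000000000000) (nat_lit 0x0) (nat_lit 0x100008000fc0048000100044002200000000000000000000000000000000000000000000) := T_40 (nat_lit 177) (nat_lit 194) (nat_lit 5) (nat_lit 8) (nat_lit 7) L105544 (by decide +kernel)
theorem L105546 : W_40 (nat_lit 13) (nat_lit 0x14000a00000000400020001000080000000000000000000000000000000) (nat_lit 0x0) (nat_lit 0x10000d001fc00e800150006400f3801d000000014000a000000000000000000000000000) := Q_40 (nat_lit 233) (C_40 L105451 (C_40 L104883 (C_40 L105538 (C_40 L105545 (C_40 L104882 N_40))))) (by decide +kernel)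
theorem L105547 : W_40 (nat_lit 8) (nat_lit 0x14000a00040000400020001000080000000000000000000000000000000) (nat_lit 0x0) (nat_lit 0x14000fc007c00020070000b4005200000000000100008000000000000000000000000000) := Q_40 (nat_lit 249) (C_40 L105185 (C_40 L105008 (C_40 L105003 (C_40 L104999 N_40)))) (by decide +kernel)
theorem L105548 : W_40 (nat_lit 2) (nat_lit 0x6801600014000a000c00024000200010000c0000000000000000000000000000000) (nat_lit 0x0) (nat_lit 0x20001000080000000000000000000000000000000000000000) := D_40 (nat_lit 180) (nat_lit 163) (nat_lit 197) (nat_lit 4) (nat_lit 11) (nat_lit 13) (nat_lit 4) (nat_lit 11) (nat_lit 14) (by decide +kernel)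
theorem L105549 : W_40 (nat_lit 3) (nat_lit 0x6801600014000a000c00004000200010000c0000000000000000000000000000000) (nat_lit 0x0) (nat_lit 0x20000000020003000080000000000000000000000000000000000000000) := T_40 (nat_lit 181) (nat_lit 233) (nat_lit 7) (nat_lit 11) (nat_lit 10) L105548 (by decide +kernel)
theorem L105550 : W_40 (nat_lit 4) (nat_lit 0x6800600014000a000c00004000200010000c0000000000000000000000000000000) (nat_lit 0x0) (nat_lit 0x1800020000000020003000080000000000000000000000000000000000000000) := T_40 (nat_lit 252) (nat_lit 251) (nat_lit 1) (nat_lit 14) (nat_lit 14) L105549 (by decide +kernel)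
theorem L105551 : W_40 (nat_lit 5) (nat_lit 0x6000600014000a000c00004000200010000c0000000000000000000000000000000) (nat_lit 0x0) (nat_lit 0x1801800020000000020003000080000000000000000000000000000000000000000) := T_40 (nat_lit 263) (nat_lit 264) (nat_lit 2) (nat_lit 8) (nat_lit 15) L105550 (by decide +kernel)
theorem L105552 : W_40 (nat_lit 6) (nat_lit 0x4000600014000a000c00004000200010000c0000000000000000000000000000000) (nat_lit 0x0) (nat_lit 0x40003801800020000000020003000080000000000000000000000000000000000000000) := T_40 (nat_lit 265) (nat_lit 282) (nat_lit 5) (nat_lit 11) (nat_lit 12) L105551 (by decide +kernel)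
theorem L105553 : W_40 (nat_lit 7) (nat_lit 0x600014000a000c00004000200010000c0000000000000000000000000000000) (nat_lit 0x0) (nat_lit 0x40007801800020001000020003000080000000000000000000000000000000000000000) := T_40 (nat_lit 266) (nat_lit 216) (nat_lit 6) (nat_lit 11) (nat_lit 15) L105552 (by decide +kernel)
theorem L105554 : W_40 (nat_lit 8) (nat_lit 0x600014000a000400004000200010000c0000000000000000000000000000000) (nat_lit 0x0) (nat_lit 0x400078018000200010000a0007000080000000000000000000000000000000000000000) := T_40 (nat_lit 199) (nat_lit 182) (nat_lit 6) (nat_lit 11) (nat_lit 14) L105553 (by decide +kernel)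
theorem L105555 : W_40 (nat_lit 9) (nat_lit 0x200014000a000400004000200010000c0000000000000000000000000000000) (nat_lit 0x0) (nat_lit 0x4000f801c000200010000a0007000080000000000000000000000000000000000000000) := T_40 (nat_lit 250) (nat_lit 267) (nat_lit 7) (nat_lit 11) (nat_lit 11) L105554 (by decide +kernel)
theorem L105556 : W_40 (nat_lit 10) (nat_lit 0x200014000a00040000400020001000080000000000000000000000000000000) (nat_lit 0x0) (nat_lit 0x4000f801c000200010000a0007000080000000040002000000000000000000000000000) := T_40 (nat_lit 126) (nat_lit 109) (nat_lit 4) (nat_lit 8) (nat_lit 10) L105555 (by decide +kernel)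
theorem L105557 : W_40 (nat_lit 2) (nat_lit 0x4000200014000a000e00004000200010000c0000000000000000000000000000000) (nat_lit 0x0) (nat_lit 0x100008000400000000000000000000000000000000000000000000000000000000000000) := D_40 (nat_lit 267) (nat_lit 284) (nat_lit 250) (nat_lit 7) (nat_lit 11) (nat_lit 12) (nat_lit 7) (nat_lit 11) (nat_lit 11) (by decide +kernel)
theorem L105558 : W_40 (nat_lit 3) (nat_lit 0x200014000a000e00004000200010000c0000000000000000000000000000000) (nat_lit 0x0) (nat_lit 0x10000c000400000001000000000000000000000000000000000000000000000000000000) := T_40 (nat_lit 266) (nat_lit 216) (nat_lit 6) (nat_lit 11) (nat_lit 15) L105557 (by decide +kernel)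
theorem L105559 : W_40 (nat_lit 4) (nat_lit 0x200014000a000600004000200010000c0000000000000000000000000000000) (nat_lit 0x0) (nat_lit 0x10000c000400000001000080004000000000000000000000000000000000000000000000) := T_40 (nat_lit 199) (nat_lit 182) (nat_lit 6) (nat_lit 11) (nat_lit 14) L105558 (by decide +kernel)
theorem L105560 : W_40 (nat_lit 5) (nat_lit 0x200014000a00060000400020001000080000000000000000000000000000000) (nat_lit 0x0) (nat_lit 0x10000c000400000001000080004000000000000040002000000000000000000000000000) := T_40 (nat_lit 126) (nat_lit 109) (nat_lit 4) (nat_lit 8) (nat_lit 10) L105559 (by decide +kernel)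
theorem L105561 : W_40 (nat_lit 6) (nat_lit 0x200014000a00040000400020001000080000000000000000000000000000000) (nat_lit 0x0) (nat_lit 0x10000c0004000000010000a0005000000000000040002000000000000000000000000000) := T_40 (nat_lit 197) (nat_lit 180) (nat_lit 4) (nat_lit 11) (nat_lit 14) L105560 (by decide +kernel)
theorem L105562 : W_40 (nat_lit 11) (nat_lit 0x14000a00040000400020001000080000000000000000000000000000000) (nat_lit 0x0) (nat_lit 0x14000fc01fc00220070000b4007200080000000040002000000000000000000000000000) := Q_40 (nat_lit 249) (C_40 L105185 (C_40 L105008 (C_40 L105089 (C_40 L105556 (C_40 L105561 N_40))))) (by decide +kernel)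
theorem L105563 : W_40 (nat_lit 2) (nat_lit 0x2000200014000a000c0000600020001000080000000000000000000000000000000) (nat_lit 0x0) (nat_lit 0x40004000000000001000000000000000000000000000000000000000000000000000000) := D_40 (nat_lit 266) (nat_lit 216) (nat_lit 282) (nat_lit 6) (nat_lit 11) (nat_lit 15) (nat_lit 5) (nat_lit 11) (nat_lit 12) (by decide +kernel)
theorem L105564 : W_40 (nat_lit 3) (nat_lit 0x2000200014000a00040000600020001000080000000000000000000000000000000) (nat_lit 0x0) (nat_lit 0x40004000000000001000080004000000000000000000000000000000000000000000000) := T_40 (nat_lit 199) (nat_lit 182) (nat_lit 6) (nat_lit 11) (nat_lit 14) L105563 (by decide +kernel)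
theorem L105565 : W_40 (nat_lit 4) (nat_lit 0x200014000a00040000600020001000080000000000000000000000000000000) (nat_lit 0x0) (nat_lit 0x40006000100000001000080004000000000000000000000000000000000000000000000) := T_40 (nat_lit 265) (nat_lit 248) (nat_lit 5) (nat_lit 11) (nat_lit 11) L105564 (by decide +kernel)
theorem L105566 : W_40 (nat_lit 5) (nat_lit 0x200014000a00040000400020001000080000000000000000000000000000000) (nat_lit 0x0) (nat_lit 0x40006000100000001000084004200000000000000000000000000000000000000000000) := T_40 (nat_lit 177) (nat_lit 194) (nat_lit 5) (nat_lit 8) (nat_lit 7) L105565 (by decide +kernel)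
theorem L105567 : W_40 (nat_lit 7) (nat_lit 0x14000a00040000400020001000080000000000000000000000000000000) (nat_lit 0x0) (nat_lit 0x14000fc007c0002001000094004200000000000100008000000000000000000000000000) := Q_40 (nat_lit 249) (C_40 L105008 (C_40 L105003 (C_40 L104999 (C_40 L105566 N_40)))) (by decide +kernel)
theorem L105568 : W_40 (nat_lit 2) (nat_lit 0x300014001a000e00004000200010001c0000000000000000000000000000000) (nat_lit 0x0) (nat_lit 0x2100010000000000000000000000000000000000000000000000000) := D_40 (nat_lit 196) (nat_lit 212) (nat_lit 217) (nat_lit 1) (nat_lit 12) (nat_lit 11) (nat_lit 3) (nat_lit 9) (nat_lit 11) (by decide +kernel)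
theorem L105569 : W_40 (nat_lit 3) (nat_lit 0x300014000a000e00004000200010001c0000000000000000000000000000000) (nat_lit 0x0) (nat_lit 0x4000000000003100010000000000000000000000000000000000000000000000000) := T_40 (nat_lit 216) (nat_lit 266) (nat_lit 6) (nat_lit 11) (nat_lit 15) L105568 (by decide +kernel)
theorem L105570 : W_40 (nat_lit 4) (nat_lit 0x300014000a000600004000200010001c0000000000000000000000000000000) (nat_lit 0x0) (nat_lit 0x4000000000003100090004000000000000000000000000000000000000000000000) := T_40 (nat_lit 199) (nat_lit 182) (nat_lit 6) (nat_lit 11) (nat_lit 14) L105569 (by decide +kernel)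
theorem L105571 : W_40 (nat_lit 5) (nat_lit 0x200014000a000600004000200010001c0000000000000000000000000000000) (nat_lit 0x0) (nat_lit 0x6000100000003100090004000000000000000000000000000000000000000000000) := T_40 (nat_lit 248) (nat_lit 265) (nat_lit 5) (nat_lit 11) (nat_lit 11) L105570 (by decide +kernel)
theorem L105572 : W_40 (nat_lit 6) (nat_lit 0x200014000a00060000400020001000180000000000000000000000000000000) (nat_lit 0x0) (nat_lit 0x6000100000003100090004000000000000040002000000000000000000000000000) := T_40 (nat_lit 126) (nat_lit 109) (nat_lit 4) (nat_lit 8) (nat_lit 10) L105571 (by decide +kernel)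
theorem L105573 : W_40 (nat_lit 7) (nat_lit 0x200014000a00040000400020001000180000000000000000000000000000000) (nat_lit 0x0) (nat_lit 0x60001000000031000b0005000000000000040002000000000000000000000000000) := T_40 (nat_lit 197) (nat_lit 180) (nat_lit 4) (nat_lit 11) (nat_lit 14) L105572 (by decide +kernel)
theorem L105574 : W_40 (nat_lit 8) (nat_lit 0x200014000a00040000400020001000080000000000000000000000000000000) (nat_lit 0x0) (nat_lit 0x60001000000031000b000500000000000014000a000000000000000000000000000) := T_40 (nat_lit 128) (nat_lit 111) (nat_lit 6) (nat_lit 8) (nat_lit 10) L105573 (by decide +kernel)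
theorem L105575 : W_40 (nat_lit 9) (nat_lit 0x14000a00040000400020001000080000000000000000000000000000000) (nat_lit 0x0) (nat_lit 0x10000fc007c00220031000b000700008000000014000a000000000000000000000000000) := Q_40 (nat_lit 249) (C_40 L105561 (C_40 L105089 (C_40 L105008 (C_40 L105574 N_40)))) (by decide +kernel)
theorem L105576 : W_40 (nat_lit 2) (nat_lit 0xe000200014001a000400036000200010001c0000000000000000000000000000000) (nat_lit 0x0) (nat_lit 0x80000000000020000000000000000100000000000000000000000000000000000000000) := D_40 (nat_lit 233) (nat_lit 283) (nat_lit 164) (nat_lit 6) (nat_lit 11) (nat_lit 16) (nat_lit 7) (nat_lit 11) (nat_lit 9) (by decide +kernel)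
theorem L105577 : W_40 (nat_lit 3) (nat_lit 0xe000200014000a000400036000200010001c0000000000000000000000000000000) (nat_lit 0x0) (nat_lit 0x80000000000020001000080000000100000000000000000000000000000000000000000) := T_40 (nat_lit 216) (nat_lit 199) (nat_lit 6) (nat_lit 11) (nat_lit 15) L105576 (by decide +kernel)
theorem L105578 : W_40 (nat_lit 4) (nat_lit 0x6000200014000a000400036000200010001c0000000000000000000000000000000) (nat_lit 0x0) (nat_lit 0x180008000000020001000080000000100000000000000000000000000000000000000000) := T_40 (nat_lit 267) (nat_lit 284) (nat_lit 7) (nat_lit 11) (nat_lit 12) L105577 (by decide +kernel)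
theorem L105579 : W_40 (nat_lit 5) (nat_lit 0x2000200014000a000400036000200010001c0000000000000000000000000000000) (nat_lit 0x0) (nat_lit 0x1c000c000000020001000080000000100000000000000000000000000000000000000000) := T_40 (nat_lit 266) (nat_lit 282) (nat_lit 5) (nat_lit 11) (nat_lit 12) L105578 (by decide +kernel)
theorem L105580 : W_40 (nat_lit 6) (nat_lit 0x200014000a000400036000200010001c0000000000000000000000000000000) (nat_lit 0x0) (nat_lit 0x1c000e000100020001000080000000100000000000000000000000000000000000000000) := T_40 (nat_lit 265) (nat_lit 248) (nat_lit 5) (nat_lit 11) (nat_lit 11) L105579 (by decide +kernel)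
theorem L105581 : W_40 (nat_lit 7) (nat_lit 0x200014000a000400034000200010001c0000000000000000000000000000000) (nat_lit 0x0) (nat_lit 0x1c000e000100020001000084000200100000000000000000000000000000000000000000) := T_40 (nat_lit 177) (nat_lit 194) (nat_lit 5) (nat_lit 8) (nat_lit 7) L105580 (by decide +kernel)
theorem L105582 : W_40 (nat_lit 8) (nat_lit 0x200014000a000400014000200010001c0000000000000000000000000000000) (nat_lit 0x0) (nat_lit 0x1c000e000100020001000084002200180000000000000000000000000000000000000000) := T_40 (nat_lit 181) (nat_lit 163) (nat_lit 4) (nat_lit 11) (nat_lit 13) L105581 (by decide +kernel)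
theorem L105583 : W_40 (nat_lit 9) (nat_lit 0x200014000a00040001400020001000180000000000000000000000000000000) (nat_lit 0x0) (nat_lit 0x1c000e000100020001000084002200180000000040002000000000000000000000000000) := T_40 (nat_lit 126) (nat_lit 109) (nat_lit 4) (nat_lit 8) (nat_lit 10) L105582 (by decide +kernel)
theorem L105584 : W_40 (nat_lit 10) (nat_lit 0x200014000a00040000400020001000180000000000000000000000000000000) (nat_lit 0x0) (nat_lit 0x1c000e0001000200010000a4003200180000000040002000000000000000000000000000) := T_40 (nat_lit 180) (nat_lit 197) (nat_lit 4) (nat_lit 11) (nat_lit 14) L105583 (by decide +kernel)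
theorem L105585 : W_40 (nat_lit 11) (nat_lit 0x200014000a00040000400020001000080000000000000000000000000000000) (nat_lit 0x0) (nat_lit 0x1c000e0001000200010000a400320018000000014000a000000000000000000000000000) := T_40 (nat_lit 128) (nat_lit 111) (nat_lit 6) (nat_lit 8) (nat_lit 10) L105584 (by decide +kernel)
theorem L105586 : W_40 (nat_lit 2) (nat_lit 0x340034001a000400036000200010001c0000000000000000000000000000000) (nat_lit 0x0) (nat_lit 0x80004000000000000000080000000000000000000000000000000000000000000000000) := D_40 (nat_lit 266) (nat_lit 283) (nat_lit 199) (nat_lit 6) (nat_lit 11) (nat_lit 16) (nat_lit 6) (nat_lit 11) (nat_lit 15) (by decide +kernel)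
theorem L105587 : W_40 (nat_lit 3) (nat_lit 0x340034000a000400036000200010001c0000000000000000000000000000000) (nat_lit 0x0) (nat_lit 0x80004000000000001000080000000100000000000000000000000000000000000000000) := T_40 (nat_lit 216) (nat_lit 164) (nat_lit 7) (nat_lit 11) (nat_lit 9) L105586 (by decide +kernel)
theorem L105588 : W_40 (nat_lit 4) (nat_lit 0x300034000a000400036000200010001c0000000000000000000000000000000) (nat_lit 0x0) (nat_lit 0x800040000c0000001000080000000100000000000000000000000000000000000000000) := T_40 (nat_lit 246) (nat_lit 247) (nat_lit 2) (nat_lit 8) (nat_lit 14) L105587 (by decide +kernel)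
theorem L105589 : W_40 (nat_lit 5) (nat_lit 0x300014000a000400036000200010001c0000000000000000000000000000000) (nat_lit 0x0) (nat_lit 0x800040004c0020001000080000000100000000000000000000000000000000000000000) := T_40 (nat_lit 233) (nat_lit 250) (nat_lit 7) (nat_lit 11) (nat_lit 10) L105588 (by decide +kernel)
theorem L105590 : W_40 (nat_lit 6) (nat_lit 0x300014000a000400016000200010001c0000000000000000000000000000000) (nat_lit 0x0) (nat_lit 0x800040004c0020001000080002000180000000000000000000000000000000000000000) := T_40 (nat_lit 181) (nat_lit 163) (nat_lit 4) (nat_lit 11) (nat_lit 13) L105589 (by decide +kernel)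
theorem L105591 : W_40 (nat_lit 7) (nat_lit 0x300014000a000400014000200010001c0000000000000000000000000000000) (nat_lit 0x0) (nat_lit 0x800040004c0020001000084002200180000000000000000000000000000000000000000) := T_40 (nat_lit 177) (nat_lit 194) (nat_lit 5) (nat_lit 8) (nat_lit 7) L105590 (by decide +kernel)
theorem L105592 : W_40 (nat_lit 8) (nat_lit 0x300014000a000400004000200010001c0000000000000000000000000000000) (nat_lit 0x0) (nat_lit 0x800040004c00200010000a4003200180000000000000000000000000000000000000000) := T_40 (nat_lit 180) (nat_lit 197) (nat_lit 4) (nat_lit 11) (nat_lit 14) L105591 (by decide +kernel)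
theorem L105593 : W_40 (nat_lit 9) (nat_lit 0x300014000a00040000400020001000180000000000000000000000000000000) (nat_lit 0x0) (nat_lit 0x800040004c00200010000a4003200180000000040002000000000000000000000000000) := T_40 (nat_lit 126) (nat_lit 109) (nat_lit 4) (nat_lit 8) (nat_lit 10) L105592 (by decide +kernel)
theorem L105594 : W_40 (nat_lit 10) (nat_lit 0x300014000a00040000400020001000080000000000000000000000000000000) (nat_lit 0x0) (nat_lit 0x800040004c00200010000a400320018000000014000a000000000000000000000000000) := T_40 (nat_lit 128) (nat_lit 111) (nat_lit 6) (nat_lit 8) (nat_lit 10) L105593 (by decide +kernel)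
theorem L105595 : W_40 (nat_lit 11) (nat_lit 0x200014000a00040000400020001000080000000000000000000000000000000) (nat_lit 0x0) (nat_lit 0x800060005c00200010000a400320018000000014000a000000000000000000000000000) := T_40 (nat_lit 248) (nat_lit 265) (nat_lit 5) (nat_lit 11) (nat_lit 11) L105594 (by decide +kernel)
theorem L105596 : W_40 (nat_lit 12) (nat_lit 0x14000a00040000400020001000080000000000000000000000000000000) (nat_lit 0x0) (nat_lit 0x1c000fc007c00220010000b400320018000000014000a000000000000000000000000000) := Q_40 (nat_lit 249) (C_40 L105191 (C_40 L105008 (C_40 L105585 (C_40 L105595 N_40)))) (by decide +kernel)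
theorem L105597 : W_40 (nat_lit 2) (nat_lit 0x200014000a000400036000200010000c0000000000000000000000000000000) (nat_lit 0x0) (nat_lit 0x80004000200000000000000000000000000000000000000000) := D_40 (nat_lit 182) (nat_lit 199) (nat_lit 165) (nat_lit 6) (nat_lit 11) (nat_lit 14) (nat_lit 6) (nat_lit 11) (nat_lit 13) (by decide +kernel)
theorem L105598 : W_40 (nat_lit 3) (nat_lit 0x200014000a000400016000200010000c0000000000000000000000000000000) (nat_lit 0x0) (nat_lit 0x80006000280000000000000000000000000000000000000000) := T_40 (nat_lit 181) (nat_lit 163) (nat_lit 4) (nat_lit 11) (nat_lit 13) L105597 (by decide +kernel)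
theorem L105599 : W_40 (nat_lit 4) (nat_lit 0x200014000a00040001600020001000080000000000000000000000000000000) (nat_lit 0x0) (nat_lit 0x80006000280000000040002000000000000000000000000000) := T_40 (nat_lit 126) (nat_lit 109) (nat_lit 4) (nat_lit 8) (nat_lit 10) L105598 (by decide +kernel)
theorem L105600 : W_40 (nat_lit 5) (nat_lit 0x200014000a00040000600020001000080000000000000000000000000000000) (nat_lit 0x0) (nat_lit 0xa0007000280000000040002000000000000000000000000000) := T_40 (nat_lit 180) (nat_lit 197) (nat_lit 4) (nat_lit 11) (nat_lit 14) L105599 (by decide +kernel)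
theorem L105601 : W_40 (nat_lit 6) (nat_lit 0x200014000a00040000400020001000080000000000000000000000000000000) (nat_lit 0x0) (nat_lit 0xa4007200280000000040002000000000000000000000000000) := T_40 (nat_lit 177) (nat_lit 194) (nat_lit 5) (nat_lit 8) (nat_lit 7) L105600 (by decide +kernel)
theorem L105602 : W_40 (nat_lit 7) (nat_lit 0x14000a00040000400020001000080000000000000000000000000000000) (nat_lit 0x0) (nat_lit 0xbc007c00220000000b400720028000000014000a000000000000000000000000000) := Q_40 (nat_lit 249) (C_40 L105191 (C_40 L105089 (C_40 L105008 (C_40 L105601 N_40)))) (by decide +kernel)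
theorem L105603 : W_40 (nat_lit 2) (nat_lit 0x34000a00060007400020001000180000000000000000000000000000000) (nat_lit 0x0) (nat_lit 0x10018000000000000000000000000000000000000000000000) := D_40 (nat_lit 183) (nat_lit 184) (nat_lit 196) (nat_lit 1) (nat_lit 14) (nat_lit 10) (nat_lit 1) (nat_lit 13) (nat_lit 10) (by decide +kernel)
theorem L105604 : W_40 (nat_lit 3) (nat_lit 0x34000a00040007400020001000180000000000000000000000000000000) (nat_lit 0x0) (nat_lit 0x200000000000030018000000000000000000000000000000000000000000000) := T_40 (nat_lit 197) (nat_lit 249) (nat_lit 4) (nat_lit 11) (nat_lit 14) L105603 (by decide +kernel)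
theorem L105605 : W_40 (nat_lit 4) (nat_lit 0x34000a00040006400020001000180000000000000000000000000000000) (nat_lit 0x0) (nat_lit 0x200000000000030019000080000000000000000000000000000000000000000) := T_40 (nat_lit 180) (nat_lit 163) (nat_lit 4) (nat_lit 11) (nat_lit 13) L105604 (by decide +kernel)
theorem L105606 : W_40 (nat_lit 5) (nat_lit 0x14000a00040006400020001000180000000000000000000000000000000) (nat_lit 0x0) (nat_lit 0x600020000000030019000080000000000000000000000000000000000000000) := T_40 (nat_lit 233) (nat_lit 250) (nat_lit 7) (nat_lit 11) (nat_lit 10) L105605 (by decide +kernel)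
theorem L105607 : W_40 (nat_lit 6) (nat_lit 0x14000a00040002400020001000180000000000000000000000000000000) (nat_lit 0x0) (nat_lit 0x60002000000003001d000280000000000000000000000000000000000000000) := T_40 (nat_lit 182) (nat_lit 165) (nat_lit 6) (nat_lit 11) (nat_lit 13) L105606 (by decide +kernel)
theorem L105608 : W_40 (nat_lit 7) (nat_lit 0x14000a00040002400020001000080000000000000000000000000000000) (nat_lit 0x0) (nat_lit 0x60002000000003001d000280000000100008000000000000000000000000000) := T_40 (nat_lit 128) (nat_lit 111) (nat_lit 6) (nat_lit 8) (nat_lit 10) L105607 (by decide +kernel)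
theorem L105609 : W_40 (nat_lit 2) (nat_lit 0x34000a00040006600120001000180000000000000000000000000000000) (nat_lit 0x0) (nat_lit 0xc0004000000000000000000000000000000000000) := D_40 (nat_lit 163) (nat_lit 146) (nat_lit 162) (nat_lit 4) (nat_lit 11) (nat_lit 12) (nat_lit 3) (nat_lit 8) (nat_lit 9) (by decide +kernel)
theorem L105610 : W_40 (nat_lit 3) (nat_lit 0x34000a00040006600020001000180000000000000000000000000000000) (nat_lit 0x0) (nat_lit 0x10000000000001c0004000000000000000000000000000000000000) := T_40 (nat_lit 164) (nat_lit 216) (nat_lit 7) (nat_lit 11) (nat_lit 9) L105609 (by decide +kernel)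
theorem L105611 : W_40 (nat_lit 4) (nat_lit 0x34000a00040006600020001000080000000000000000000000000000000) (nat_lit 0x0) (nat_lit 0x10000000000001c0004000100008000000000000000000000000000) := T_40 (nat_lit 128) (nat_lit 111) (nat_lit 6) (nat_lit 8) (nat_lit 10) L105610 (by decide +kernel)
theorem L105612 : W_40 (nat_lit 5) (nat_lit 0x14000a00040006600020001000080000000000000000000000000000000) (nat_lit 0x0) (nat_lit 0x4000200010000000000001c0004000100008000000000000000000000000000) := T_40 (nat_lit 233) (nat_lit 250) (nat_lit 7) (nat_lit 11) (nat_lit 10) L105611 (by decide +kernel)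
theorem L105613 : W_40 (nat_lit 6) (nat_lit 0x14000a00040002600020001000080000000000000000000000000000000) (nat_lit 0x0) (nat_lit 0x4000200010000000040003c0004000100008000000000000000000000000000) := T_40 (nat_lit 182) (nat_lit 165) (nat_lit 6) (nat_lit 11) (nat_lit 13) L105612 (by decide +kernel)
theorem L105614 : W_40 (nat_lit 7) (nat_lit 0x14000a00040002400020001000080000000000000000000000000000000) (nat_lit 0x0) (nat_lit 0x4000200010000040042003c0004000100008000000000000000000000000000) := T_40 (nat_lit 177) (nat_lit 194) (nat_lit 5) (nat_lit 8) (nat_lit 7) L105613 (by decide +kernel)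
theorem L105615 : W_40 (nat_lit 2) (nat_lit 0x800780014000a000400066000200010001c0000000000000000000000000000000) (nat_lit 0x0) (nat_lit 0x400040000000000010000000000000000000000000000000000000000000000000) := D_40 (nat_lit 246) (nat_lit 262) (nat_lit 196) (nat_lit 1) (nat_lit 11) (nat_lit 14) (nat_lit 5) (nat_lit 9) (nat_lit 11) (by decide +kernel)
theorem L105616 : W_40 (nat_lit 3) (nat_lit 0x780014000a000400066000200010001c0000000000000000000000000000000) (nat_lit 0x0) (nat_lit 0x1c00040000000000010000000000000000000000000000000000000000000000000) := T_40 (nat_lit 263) (nat_lit 264) (nat_lit 1) (nat_lit 12) (nat_lit 14) L105615 (by decide +kernel)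
theorem L105617 : W_40 (nat_lit 4) (nat_lit 0x700014000a000400066000200010001c0000000000000000000000000000000) (nat_lit 0x0) (nat_lit 0x1c000c0002000000010000000000000000000000000000000000000000000000000) := T_40 (nat_lit 247) (nat_lit 229) (nat_lit 0) (nat_lit 12) (nat_lit 14) L105616 (by decide +kernel)
theorem L105618 : W_40 (nat_lit 5) (nat_lit 0x600014000a000400066000200010001c0000000000000000000000000000000) (nat_lit 0x0) (nat_lit 0x3c001c0002000000010000000000000000000000000000000000000000000000000) := T_40 (nat_lit 248) (nat_lit 265) (nat_lit 5) (nat_lit 11) (nat_lit 11) L105617 (by decide +kernel)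
theorem L105619 : W_40 (nat_lit 6) (nat_lit 0x400014000a000400066000200010001c0000000000000000000000000000000) (nat_lit 0x0) (nat_lit 0xbc003c0002000000010000000000000000000000000000000000000000000000000) := T_40 (nat_lit 249) (nat_lit 267) (nat_lit 7) (nat_lit 11) (nat_lit 11) L105618 (by decide +kernel)
theorem L105620 : W_40 (nat_lit 7) (nat_lit 0x14000a000400066000200010001c0000000000000000000000000000000) (nat_lit 0x0) (nat_lit 0xbc007c0022000000010000000000000000000000000000000000000000000000000) := T_40 (nat_lit 250) (nat_lit 233) (nat_lit 7) (nat_lit 11) (nat_lit 10) L105619 (by decide +kernel)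
theorem L105621 : W_40 (nat_lit 8) (nat_lit 0x14000a000400066000200010000c0000000000000000000000000000000) (nat_lit 0x0) (nat_lit 0xbc007c0022000000010000000000000000100008000000000000000000000000000) := T_40 (nat_lit 128) (nat_lit 111) (nat_lit 6) (nat_lit 8) (nat_lit 10) L105620 (by decide +kernel)
theorem L105622 : W_40 (nat_lit 9) (nat_lit 0x14000a000400026000200010000c0000000000000000000000000000000) (nat_lit 0x0) (nat_lit 0xbc007c0022000000010004000200000000100008000000000000000000000000000) := T_40 (nat_lit 182) (nat_lit 165) (nat_lit 6) (nat_lit 11) (nat_lit 13) L105621 (by decide +kernel)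
theorem L105623 : W_40 (nat_lit 10) (nat_lit 0x14000a000400024000200010000c0000000000000000000000000000000) (nat_lit 0x0) (nat_lit 0xbc007c0022000000014004200200000000100008000000000000000000000000000) := T_40 (nat_lit 177) (nat_lit 194) (nat_lit 5) (nat_lit 8) (nat_lit 7) L105622 (by decide +kernel)
theorem L105624 : W_40 (nat_lit 11) (nat_lit 0x14000a00040002400020001000080000000000000000000000000000000) (nat_lit 0x0) (nat_lit 0xbc007c002200000001400420020000000014000a000000000000000000000000000) := T_40 (nat_lit 126) (nat_lit 109) (nat_lit 4) (nat_lit 8) (nat_lit 10) L105623 (by decide +kernel)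
theorem L105625 : W_40 (nat_lit 12) (nat_lit 0x14000a00040000400020001000080000000000000000000000000000000) (nat_lit 0x0) (nat_lit 0xbc007c002200100003401f2003c001400014000a000000000000000000000000000) := Q_40 (nat_lit 181) (C_40 L105106 (C_40 L105608 (C_40 L105614 (C_40 L105624 (C_40 L105095 (C_40 L105025 N_40)))))) (by decide +kernel)
theorem L105626 : W_40 (nat_lit 2) (nat_lit 0x14000a000400016000a00050003c0000000000000000000000000000000) (nat_lit 0x0) (nat_lit 0x400030000000000000000000000000000) := D_40 (nat_lit 113) (nat_lit 112) (nat_lit 130) (nat_lit 2) (nat_lit 7) (nat_lit 7) (nat_lit 6) (nat_lit 10) (nat_lit 10) (by decide +kernel)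
theorem L105627 : W_40 (nat_lit 3) (nat_lit 0x14000a000400016000a00050001c0000000000000000000000000000000) (nat_lit 0x0) (nat_lit 0x8000600030000000000000000000000000000) := T_40 (nat_lit 129) (nat_lit 147) (nat_lit 3) (nat_lit 7) (nat_lit 7) L105626 (by decide +kernel)
theorem L105628 : W_40 (nat_lit 4) (nat_lit 0x14000a000400016000a00050000c0000000000000000000000000000000) (nat_lit 0x0) (nat_lit 0x8000700038000000000000000000000000000) := T_40 (nat_lit 128) (nat_lit 111) (nat_lit 6) (nat_lit 8) (nat_lit 10) L105627 (by decide +kernel)
theorem L105629 : W_40 (nat_lit 5) (nat_lit 0x14000a000400016000a00010000c0000000000000000000000000000000) (nat_lit 0x0) (nat_lit 0x2000000000000c000700038000000000000000000000000000) := T_40 (nat_lit 146) (nat_lit 197) (nat_lit 7) (nat_lit 10) (nat_lit 8) L105628 (by decide +kernel)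
theorem L105630 : W_40 (nat_lit 6) (nat_lit 0x14000a000400014000a00010000c0000000000000000000000000000000) (nat_lit 0x0) (nat_lit 0x2400020000000c000700038000000000000000000000000000) := T_40 (nat_lit 177) (nat_lit 194) (nat_lit 5) (nat_lit 8) (nat_lit 7) L105629 (by decide +kernel)
theorem L105631 : W_40 (nat_lit 7) (nat_lit 0x14000a000400004000a00010000c0000000000000000000000000000000) (nat_lit 0x0) (nat_lit 0x2400320000000c000700038000000000000000000000000000) := T_40 (nat_lit 180) (nat_lit 181) (nat_lit 4) (nat_lit 11) (nat_lit 13) L105630 (by decide +kernel)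
theorem L105632 : W_40 (nat_lit 8) (nat_lit 0x14000a000400004000a0001000080000000000000000000000000000000) (nat_lit 0x0) (nat_lit 0x2400320000000c00074003a000000000000000000000000000) := T_40 (nat_lit 126) (nat_lit 109) (nat_lit 4) (nat_lit 8) (nat_lit 10) L105631 (by decide +kernel)
theorem L105633 : W_40 (nat_lit 2) (nat_lit 0x14000a000400006001a0001000180000000000000000000000000000000) (nat_lit 0x0) (nat_lit 0x3000000004000000000000000000000000000000000000) := D_40 (nat_lit 181) (nat_lit 180) (nat_lit 146) (nat_lit 4) (nat_lit 11) (nat_lit 13) (nat_lit 4) (nat_lit 11) (nat_lit 12) (by decide +kernel)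
theorem L105634 : W_40 (nat_lit 3) (nat_lit 0x14000a000400006000a0001000180000000000000000000000000000000) (nat_lit 0x0) (nat_lit 0x3000140004000000000000000000000000000000000000) := T_40 (nat_lit 164) (nat_lit 162) (nat_lit 1) (nat_lit 11) (nat_lit 9) L105633 (by decide +kernel)
theorem L105635 : W_40 (nat_lit 4) (nat_lit 0x14000a000400004000a0001000180000000000000000000000000000000) (nat_lit 0x0) (nat_lit 0x4003200140004000000000000000000000000000000000000) := T_40 (nat_lit 177) (nat_lit 194) (nat_lit 5) (nat_lit 8) (nat_lit 7) L105634 (by decide +kernel)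
theorem L105636 : W_40 (nat_lit 5) (nat_lit 0x14000a000400004000a0001000080000000000000000000000000000000) (nat_lit 0x0) (nat_lit 0x4003200140004000100008000000000000000000000000000) := T_40 (nat_lit 128) (nat_lit 111) (nat_lit 6) (nat_lit 8) (nat_lit 10) L105635 (by decide +kernel)
theorem L105637 : W_40 (nat_lit 2) (nat_lit 0x14000a000400064000a00010000c0000000000000000000000000000000) (nat_lit 0x0) (nat_lit 0x140004000000000000000000000000000000000000) := D_40 (nat_lit 164) (nat_lit 162) (nat_lit 146) (nat_lit 3) (nat_lit 8) (nat_lit 9) (nat_lit 4) (nat_lit 11) (nat_lit 12) (by decide +kernel)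
theorem L105638 : W_40 (nat_lit 3) (nat_lit 0x14000a000400024000a00010000c0000000000000000000000000000000) (nat_lit 0x0) (nat_lit 0x4000340004000000000000000000000000000000000000) := T_40 (nat_lit 182) (nat_lit 165) (nat_lit 6) (nat_lit 11) (nat_lit 13) L105637 (by decide +kernel)
theorem L105639 : W_40 (nat_lit 4) (nat_lit 0x14000a000400024000a0001000080000000000000000000000000000000) (nat_lit 0x0) (nat_lit 0x4000340004000040002000000000000000000000000000) := T_40 (nat_lit 126) (nat_lit 109) (nat_lit 4) (nat_lit 8) (nat_lit 10) L105638 (by decide +kernel)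
theorem L105640 : W_40 (nat_lit 5) (nat_lit 0x14000a000400004000a0001000080000000000000000000000000000000) (nat_lit 0x0) (nat_lit 0x7000340004000040002000000000000000000000000000) := T_40 (nat_lit 181) (nat_lit 180) (nat_lit 4) (nat_lit 11) (nat_lit 13) L105639 (by decide +kernel)
theorem L105641 : W_40 (nat_lit 9) (nat_lit 0x14000a00040000400020001000080000000000000000000000000000000) (nat_lit 0x0) (nat_lit 0x240073803d000c00074003a000000000000000000000000000) := Q_40 (nat_lit 163) (C_40 L105632 (C_40 L105636 (C_40 L105640 (C_40 L105535 N_40)))) (by decide +kernel)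
theorem L105642 : W_40 (nat_lit 13) (nat_lit 0x14000a00000000400020001000080000000000000000000000000000000) (nat_lit 0x0) (nat_lit 0x1c000fc01fc00220071000f401f3803d001c00074003a000000000000000000000000000) := Q_40 (nat_lit 198) (C_40 L105547 (C_40 L105562 (C_40 L105567 (C_40 L105575 (C_40 L105155 (C_40 L105596 (C_40 L105602 (C_40 L105625 (C_40 L105641 N_40))))))))) (by decide +kernel)
theorem L105643 : W_40 (nat_lit 2) (nat_lit 0x108007c004a000000006000200010001c0000000000000000000000000000000) (nat_lit 0x0) (nat_lit 0x2000080008000000000000000000000000000000000000000000000000000000) := D_40 (nat_lit 235) (nat_lit 253) (nat_lit 219) (nat_lit 3) (nat_lit 11) (nat_lit 13) (nat_lit 2) (nat_lit 11) (nat_lit 13) (by decide +kernel)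
theorem L105644 : W_40 (nat_lit 3) (nat_lit 0x108007c000a000000006000200010001c0000000000000000000000000000000) (nat_lit 0x0) (nat_lit 0x200008000e000000000000000000000000000000000000000000000000000000) := T_40 (nat_lit 218) (nat_lit 217) (nat_lit 2) (nat_lit 10) (nat_lit 13) L105643 (by decide +kernel)
theorem L105645 : W_40 (nat_lit 4) (nat_lit 0x8007c000a000000006000200010001c0000000000000000000000000000000) (nat_lit 0x0) (nat_lit 0x380008000e000000000000000000000000000000000000000000000000000000) := T_40 (nat_lit 252) (nat_lit 251) (nat_lit 3) (nat_lit 10) (nat_lit 13) L105644 (by decide +kernel)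
theorem L105646 : W_40 (nat_lit 6) (nat_lit 0x200014000a00000000400020001000080000000000000000000000000000000) (nat_lit 0x0) (nat_lit 0x14000e000d000080010000c4006200000000000100008000000000000000000000000000) := Q_40 (nat_lit 198) (C_40 L105566 (C_40 L104999 (C_40 L105456 N_40))) (by decide +kernel)
theorem L105647 : W_40 (nat_lit 7) (nat_lit 0x200014000a00000000400020001000080000000000000000000000000000000) (nat_lit 0x0) (nat_lit 0x14000e000d000080010000e4007200280000000040002000000000000000000000000000) := Q_40 (nat_lit 198) (C_40 L105601 (C_40 L105566 (C_40 L105561 (C_40 L105153 N_40)))) (by decide +kernel)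
theorem L105648 : W_40 (nat_lit 7) (nat_lit 0x14000a00040000400020001000080000000000000000000000000000000) (nat_lit 0x0) (nat_lit 0x14000e000f000080010000a4007200280000000040002000000000000000000000000000) := Q_40 (nat_lit 249) (C_40 L105601 (C_40 L105566 (C_40 L105561 (C_40 L105153 N_40)))) (by decide +kernel)
theorem L105649 : W_40 (nat_lit 9) (nat_lit 0x14000a00040000400020001000080000000000000000000000000000000) (nat_lit 0x0) (nat_lit 0x10000e000f000080031000b000700000000000014000a000000000000000000000000000) := Q_40 (nat_lit 249) (C_40 L105561 (C_40 L105574 (C_40 L105456 N_40))) (by decide +kernel)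
theorem L105650 : W_40 (nat_lit 2) (nat_lit 0x200014000a000400016000e00010001c0000000000000000000000000000000) (nat_lit 0x0) (nat_lit 0x180010000000000000000000000000000000000000000) := D_40 (nat_lit 176) (nat_lit 160) (nat_lit 175) (nat_lit 1) (nat_lit 10) (nat_lit 9) (nat_lit 2) (nat_lit 5) (nat_lit 10) (by decide +kernel)
theorem L105651 : W_40 (nat_lit 3) (nat_lit 0x200014000a000400016000a00010001c0000000000000000000000000000000) (nat_lit 0x0) (nat_lit 0x180150000000000000000000000000000000000000000) := T_40 (nat_lit 162) (nat_lit 164) (nat_lit 1) (nat_lit 11) (nat_lit 9) L105650 (by decide +kernel)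
theorem L105652 : W_40 (nat_lit 4) (nat_lit 0x200014000a000400014000a00010001c0000000000000000000000000000000) (nat_lit 0x0) (nat_lit 0x4000380150000000000000000000000000000000000000000) := T_40 (nat_lit 177) (nat_lit 194) (nat_lit 5) (nat_lit 8) (nat_lit 7) L105651 (by decide +kernel)
theorem L105653 : W_40 (nat_lit 5) (nat_lit 0x200014000a000400014000200010001c0000000000000000000000000000000) (nat_lit 0x0) (nat_lit 0x40023801d0000000000000000000000000000000000000000) := T_40 (nat_lit 163) (nat_lit 181) (nat_lit 4) (nat_lit 11) (nat_lit 13) L105652 (by decide +kernel)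
theorem L105654 : W_40 (nat_lit 6) (nat_lit 0x200014000a00040001400020001000180000000000000000000000000000000) (nat_lit 0x0) (nat_lit 0x40023801d0000000040002000000000000000000000000000) := T_40 (nat_lit 126) (nat_lit 109) (nat_lit 4) (nat_lit 8) (nat_lit 10) L105653 (by decide +kernel)
theorem L105655 : W_40 (nat_lit 7) (nat_lit 0x200014000a00040000400020001000180000000000000000000000000000000) (nat_lit 0x0) (nat_lit 0x240033801d0000000040002000000000000000000000000000) := T_40 (nat_lit 180) (nat_lit 197) (nat_lit 4) (nat_lit 11) (nat_lit 14) L105654 (by decide +kernel)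
theorem L105656 : W_40 (nat_lit 8) (nat_lit 0x200014000a00040000400020001000080000000000000000000000000000000) (nat_lit 0x0) (nat_lit 0x240033801d000000014000a000000000000000000000000000) := T_40 (nat_lit 128) (nat_lit 111) (nat_lit 6) (nat_lit 8) (nat_lit 10) L105655 (by decide +kernel)
theorem L105657 : W_40 (nat_lit 9) (nat_lit 0x14000a00040000400020001000080000000000000000000000000000000) (nat_lit 0x0) (nat_lit 0xbc00fc000a0000000340033801d000000014000a000000000000000000000000000) := Q_40 (nat_lit 249) (C_40 L105656 (C_40 L105456 (C_40 L105153 (C_40 L105008 N_40)))) (by decide +kernel)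
theorem L105658 : W_40 (nat_lit 10) (nat_lit 0x14000a00000000400020001000080000000000000000000000000000000) (nat_lit 0x0) (nat_lit 0x14000fc00fc000a0031000f40073803d000c00074003a000000000000000000000000000) := Q_40 (nat_lit 198) (C_40 L105641 (C_40 L105567 (C_40 L105648 (C_40 L105649 (C_40 L105657 N_40))))) (by decide +kernel)
theorem L105659 : W_40 (nat_lit 2) (nat_lit 0x80024001e000a000000006000200010001c0000000000000000000000000000000) (nat_lit 0x0) (nat_lit 0x80000000100010000000000000000000000000000000000000000000000000) := D_40 (nat_lit 196) (nat_lit 247) (nat_lit 212) (nat_lit 5) (nat_lit 9) (nat_lit 11) (nat_lit 6) (nat_lit 8) (nat_lit 15) (by decide +kernel)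
theorem L105660 : W_40 (nat_lit 3) (nat_lit 0x24001e000a000000006000200010001c0000000000000000000000000000000) (nat_lit 0x0) (nat_lit 0x10000800080000000100010000000000000000000000000000000000000000000000000) := T_40 (nat_lit 263) (nat_lit 280) (nat_lit 6) (nat_lit 8) (nat_lit 16) L105659 (by decide +kernel)
theorem L105661 : W_40 (nat_lit 4) (nat_lit 0x20001e000a000000006000200010001c0000000000000000000000000000000) (nat_lit 0x0) (nat_lit 0x100008000e0000000100010000000000000000000000000000000000000000000000000) := T_40 (nat_lit 246) (nat_lit 245) (nat_lit 1) (nat_lit 11) (nat_lit 13) L105660 (by decide +kernel)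
theorem L105662 : W_40 (nat_lit 5) (nat_lit 0x1e000a000000006000200010001c0000000000000000000000000000000) (nat_lit 0x0) (nat_lit 0x100008006e0000000100010000000000000000000000000000000000000000000000000) := T_40 (nat_lit 249) (nat_lit 250) (nat_lit 3) (nat_lit 8) (nat_lit 13) L105661 (by decide +kernel)
theorem L105663 : W_40 (nat_lit 2) (nat_lit 0x30001e000a000000006000200010001c0000000000000000000000000000000) (nat_lit 0x0) (nat_lit 0x40002000000000000000040000000000000000000000000000000000000000000000000) := D_40 (nat_lit 265) (nat_lit 198) (nat_lit 282) (nat_lit 5) (nat_lit 11) (nat_lit 11) (nat_lit 6) (nat_lit 10) (nat_lit 16) (by decide +kernel)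
theorem L105664 : W_40 (nat_lit 3) (nat_lit 0x20001e000a000000006000200010001c0000000000000000000000000000000) (nat_lit 0x0) (nat_lit 0x40002000100001000000040000000000000000000000000000000000000000000000000) := T_40 (nat_lit 248) (nat_lit 228) (nat_lit 3) (nat_lit 7) (nat_lit 13) L105663 (by decide +kernel)
theorem L105665 : W_40 (nat_lit 4) (nat_lit 0x1e000a000000006000200010001c0000000000000000000000000000000) (nat_lit 0x0) (nat_lit 0x40002000700001000000040000000000000000000000000000000000000000000000000) := T_40 (nat_lit 249) (nat_lit 250) (nat_lit 3) (nat_lit 8) (nat_lit 13) L105664 (by decide +kernel)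
theorem L105666 : W_40 (nat_lit 5) (nat_lit 0x16000a000000006000200010001c0000000000000000000000000000000) (nat_lit 0x0) (nat_lit 0x40002000700009001000040000000000000000000000000000000000000000000000000) := T_40 (nat_lit 231) (nat_lit 216) (nat_lit 2) (nat_lit 8) (nat_lit 13) L105665 (by decide +kernel)
theorem L105667 : W_40 (nat_lit 6) (nat_lit 0x16000a00000000600020001000180000000000000000000000000000000) (nat_lit 0x0) (nat_lit 0x40002000700009001000040000000000000000040002000000000000000000000000000) := T_40 (nat_lit 126) (nat_lit 109) (nat_lit 4) (nat_lit 8) (nat_lit 10) L105666 (by decide +kernel)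
theorem L105668 : W_40 (nat_lit 7) (nat_lit 0x16000a00000000600020001000080000000000000000000000000000000) (nat_lit 0x0) (nat_lit 0x4000200070000900100004000000000000000014000a000000000000000000000000000) := T_40 (nat_lit 128) (nat_lit 111) (nat_lit 6) (nat_lit 8) (nat_lit 10) L105667 (by decide +kernel)
theorem L105669 : W_40 (nat_lit 8) (nat_lit 0x16000a00000000400020001000080000000000000000000000000000000) (nat_lit 0x0) (nat_lit 0x4000200070000900100004400020000000000014000a000000000000000000000000000) := T_40 (nat_lit 177) (nat_lit 194) (nat_lit 5) (nat_lit 8) (nat_lit 7) L105668 (by decide +kernel)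
theorem L105670 : W_40 (nat_lit 2) (nat_lit 0x380034000e000200006000200010001c0000000000000000000000000000000) (nat_lit 0x0) (nat_lit 0x4000c0000000000000000000000000000000000000000000000000000000000) := D_40 (nat_lit 234) (nat_lit 235) (nat_lit 250) (nat_lit 1) (nat_lit 14) (nat_lit 13) (nat_lit 2) (nat_lit 9) (nat_lit 14) (by decide +kernel)
theorem L105671 : W_40 (nat_lit 3) (nat_lit 0x280034000e000200006000200010001c0000000000000000000000000000000) (nat_lit 0x0) (nat_lit 0x5400c0000000000000000000000000000000000000000000000000000000000) := T_40 (nat_lit 248) (nat_lit 246) (nat_lit 2) (nat_lit 8) (nat_lit 14) L105670 (by decide +kernel)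
theorem L105672 : W_40 (nat_lit 4) (nat_lit 0x280034000e000200006000200010000c0000000000000000000000000000000) (nat_lit 0x0) (nat_lit 0x5400c0000000000000000000000000100008000000000000000000000000000) := T_40 (nat_lit 128) (nat_lit 111) (nat_lit 6) (nat_lit 8) (nat_lit 10) L105671 (by decide +kernel)
theorem L105673 : W_40 (nat_lit 5) (nat_lit 0x280014000e000200006000200010000c0000000000000000000000000000000) (nat_lit 0x0) (nat_lit 0x5400e0000100000000000000000000100008000000000000000000000000000) := T_40 (nat_lit 233) (nat_lit 212) (nat_lit 3) (nat_lit 8) (nat_lit 12) L105672 (by decide +kernel)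
theorem L105674 : W_40 (nat_lit 6) (nat_lit 0x280014000e00020000600020001000080000000000000000000000000000000) (nat_lit 0x0) (nat_lit 0x5400e000010000000000000000000014000a000000000000000000000000000) := T_40 (nat_lit 126) (nat_lit 109) (nat_lit 4) (nat_lit 8) (nat_lit 10) L105673 (by decide +kernel)
theorem L105675 : W_40 (nat_lit 7) (nat_lit 0x200014000e00020000600020001000080000000000000000000000000000000) (nat_lit 0x0) (nat_lit 0x10005c00e000010000000000000000000014000a000000000000000000000000000) := T_40 (nat_lit 247) (nat_lit 264) (nat_lit 6) (nat_lit 9) (nat_lit 15) L105674 (by decide +kernel)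
theorem L105676 : W_40 (nat_lit 8) (nat_lit 0x14000e00020000600020001000080000000000000000000000000000000) (nat_lit 0x0) (nat_lit 0x50007c00e000010000000000000000000014000a000000000000000000000000000) := T_40 (nat_lit 249) (nat_lit 266) (nat_lit 4) (nat_lit 11) (nat_lit 15) L105675 (by decide +kernel)
theorem L105677 : W_40 (nat_lit 9) (nat_lit 0x14000e00020000400020001000080000000000000000000000000000000) (nat_lit 0x0) (nat_lit 0x50007c00e000010000400020000000000014000a000000000000000000000000000) := T_40 (nat_lit 177) (nat_lit 194) (nat_lit 5) (nat_lit 8) (nat_lit 7) L105676 (by decide +kernel)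
theorem L105678 : W_40 (nat_lit 10) (nat_lit 0x14000e00000000400020001000080000000000000000000000000000000) (nat_lit 0x0) (nat_lit 0x50007c00e00001000340013801d000000014000a000000000000000000000000000) := Q_40 (nat_lit 197) (C_40 L104587 (C_40 L104687 (C_40 L105677 N_40))) (by decide +kernel)
theorem L105679 : W_40 (nat_lit 2) (nat_lit 0x400020001c000e00000000600020001000080000000000000000000000000000000) (nat_lit 0x0) (nat_lit 0x400003000000000000000000000000000000000000000000000000000000000) := D_40 (nat_lit 229) (nat_lit 228) (nat_lit 250) (nat_lit 2) (nat_lit 7) (nat_lit 13) (nat_lit 3) (nat_lit 8) (nat_lit 13) (by decide +kernel)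
theorem L105680 : W_40 (nat_lit 3) (nat_lit 0x4000200014000e00000000600020001000080000000000000000000000000000000) (nat_lit 0x0) (nat_lit 0x8000000040000b000000000000000000000000000000000000000000000000000000000) := T_40 (nat_lit 231) (nat_lit 283) (nat_lit 4) (nat_lit 11) (nat_lit 16) L105679 (by decide +kernel)
theorem L105681 : W_40 (nat_lit 4) (nat_lit 0x200014000e00000000600020001000080000000000000000000000000000000) (nat_lit 0x0) (nat_lit 0x8000400040000b000000020000000000000000000000000000000000000000000000000) := T_40 (nat_lit 266) (nat_lit 197) (nat_lit 4) (nat_lit 11) (nat_lit 15) L105680 (by decide +kernel)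
theorem L105682 : W_40 (nat_lit 5) (nat_lit 0x200014000e00000000400020001000080000000000000000000000000000000) (nat_lit 0x0) (nat_lit 0x8000400040000b000000024000200000000000000000000000000000000000000000000) := T_40 (nat_lit 177) (nat_lit 194) (nat_lit 5) (nat_lit 8) (nat_lit 7) L105681 (by decide +kernel)
theorem L105683 : W_40 (nat_lit 2) (nat_lit 0x54003e001200006000e00010001c0000000000000000000000000000000) (nat_lit 0x0) (nat_lit 0x180010000000000000000000000000000000000000000) := D_40 (nat_lit 176) (nat_lit 160) (nat_lit 175) (nat_lit 1) (nat_lit 10) (nat_lit 9) (nat_lit 2) (nat_lit 5) (nat_lit 10) (by decide +kernel)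
theorem L105684 : W_40 (nat_lit 3) (nat_lit 0x54003e001200006000a00010001c0000000000000000000000000000000) (nat_lit 0x0) (nat_lit 0x180150000000000000000000000000000000000000000) := T_40 (nat_lit 162) (nat_lit 164) (nat_lit 1) (nat_lit 11) (nat_lit 9) L105683 (by decide +kernel)
theorem L105685 : W_40 (nat_lit 4) (nat_lit 0x54003e001200006000200010001c0000000000000000000000000000000) (nat_lit 0x0) (nat_lit 0x11801d0000000000000000000000000000000000000000) := T_40 (nat_lit 163) (nat_lit 180) (nat_lit 7) (nat_lit 10) (nat_lit 9) L105684 (by decide +kernel)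
theorem L105686 : W_40 (nat_lit 5) (nat_lit 0x54003e001000006000200010001c0000000000000000000000000000000) (nat_lit 0x0) (nat_lit 0x300011801d0000000000000000000000000000000000000000) := T_40 (nat_lit 197) (nat_lit 196) (nat_lit 0) (nat_lit 13) (nat_lit 12) L105685 (by decide +kernel)
theorem L105687 : W_40 (nat_lit 6) (nat_lit 0x14003e001000006000200010001c0000000000000000000000000000000) (nat_lit 0x0) (nat_lit 0xc00000000300011801d0000000000000000000000000000000000000000) := T_40 (nat_lit 234) (nat_lit 235) (nat_lit 3) (nat_lit 10) (nat_lit 12) L105686 (by decide +kernel)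
theorem L105688 : W_40 (nat_lit 7) (nat_lit 0x14001e001000006000200010001c0000000000000000000000000000000) (nat_lit 0x0) (nat_lit 0xc00020002300011801d0000000000000000000000000000000000000000) := T_40 (nat_lit 217) (nat_lit 201) (nat_lit 2) (nat_lit 10) (nat_lit 12) L105687 (by decide +kernel)
theorem L105689 : W_40 (nat_lit 8) (nat_lit 0x14001e00100000600020001000180000000000000000000000000000000) (nat_lit 0x0) (nat_lit 0xc00020002300011801d0000000040002000000000000000000000000000) := T_40 (nat_lit 126) (nat_lit 109) (nat_lit 4) (nat_lit 8) (nat_lit 10) L105688 (by decide +kernel)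
theorem L105690 : W_40 (nat_lit 9) (nat_lit 0x14001e00000000600020001000180000000000000000000000000000000) (nat_lit 0x0) (nat_lit 0xc00020003b00011801d0000000040002000000000000000000000000000) := T_40 (nat_lit 200) (nat_lit 199) (nat_lit 2) (nat_lit 9) (nat_lit 12) L105689 (by decide +kernel)
theorem L105691 : W_40 (nat_lit 10) (nat_lit 0x14001e00000000600020001000080000000000000000000000000000000) (nat_lit 0x0) (nat_lit 0xc00020003b00011801d000000014000a000000000000000000000000000) := T_40 (nat_lit 128) (nat_lit 111) (nat_lit 6) (nat_lit 8) (nat_lit 10) L105690 (by decide +kernel)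
theorem L105692 : W_40 (nat_lit 11) (nat_lit 0x14000e00000000600020001000080000000000000000000000000000000) (nat_lit 0x0) (nat_lit 0xc20030003b00011801d000000014000a000000000000000000000000000) := T_40 (nat_lit 216) (nat_lit 229) (nat_lit 1) (nat_lit 12) (nat_lit 12) L105691 (by decide +kernel)
theorem L105693 : W_40 (nat_lit 12) (nat_lit 0x14000e00000000400020001000080000000000000000000000000000000) (nat_lit 0x0) (nat_lit 0xc20030003b40013801d000000014000a000000000000000000000000000) := T_40 (nat_lit 177) (nat_lit 194) (nat_lit 5) (nat_lit 8) (nat_lit 7) L105692 (by decide +kernel)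
theorem L105694 : W_40 (nat_lit 13) (nat_lit 0x14000a00000000400020001000080000000000000000000000000000000) (nat_lit 0x0) (nat_lit 0x50007c00e30035003b40053803d000000014000a000000000000000000000000000) := Q_40 (nat_lit 214) (C_40 L105678 (C_40 L104898 (C_40 L105356 (C_40 L105693 (C_40 L104892 N_40))))) (by decide +kernel)
theorem L105695 : W_40 (nat_lit 8) (nat_lit 0x14000e00000000400020001000080000000000000000000000000000000) (nat_lit 0x0) (nat_lit 0x200001000e400f3801d000000014000a000000000000000000000000000) := Q_40 (nat_lit 163) (C_40 L104593 (C_40 L104197 (C_40 L104597 N_40))) (by decide +kernel)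
theorem L105696 : W_40 (nat_lit 13) (nat_lit 0x14000a00000000400020001000080000000000000000000000000000000) (nat_lit 0x0) (nat_lit 0xc0006000e200f5003f400f3803d000000014000a000000000000000000000000000) := Q_40 (nat_lit 214) (C_40 L105693 (C_40 L105285 (C_40 L105361 (C_40 L105403 (C_40 L105695 (C_40 L104898 N_40)))))) (by decide +kernel)
theorem L105697 : W_40 (nat_lit 7) (nat_lit 0x14000a00040000400020001000080000000000000000000000000000000) (nat_lit 0x0) (nat_lit 0xfc007c00020005001b4007200280000000040002000000000000000000000000000) := Q_40 (nat_lit 249) (C_40 L105496 (C_40 L105601 (C_40 L105008 N_40))) (by decide +kernel)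
theorem L105698 : W_40 (nat_lit 2) (nat_lit 0x700034000b000e00004000200010000c0000000000000000000000000000000) (nat_lit 0x0) (nat_lit 0xc0040000000000000000000000000000000000000000000000000000000000) := D_40 (nat_lit 247) (nat_lit 234) (nat_lit 246) (nat_lit 2) (nat_lit 9) (nat_lit 14) (nat_lit 2) (nat_lit 8) (nat_lit 14) (by decide +kernel)
theorem L105699 : W_40 (nat_lit 3) (nat_lit 0x700014000b000e00004000200010000c0000000000000000000000000000000) (nat_lit 0x0) (nat_lit 0xc0060000000000002000000000000000000000000000000000000000000000) := T_40 (nat_lit 233) (nat_lit 181) (nat_lit 7) (nat_lit 11) (nat_lit 10) L105698 (by decide +kernel)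
theorem L105700 : W_40 (nat_lit 4) (nat_lit 0x600014000b000e00004000200010000c0000000000000000000000000000000) (nat_lit 0x0) (nat_lit 0x20001c0060000000000002000000000000000000000000000000000000000000000) := T_40 (nat_lit 248) (nat_lit 265) (nat_lit 5) (nat_lit 11) (nat_lit 11) L105699 (by decide +kernel)
theorem L105701 : W_40 (nat_lit 5) (nat_lit 0x200014000b000e00004000200010000c0000000000000000000000000000000) (nat_lit 0x0) (nat_lit 0xa0005c0060000000000002000000000000000000000000000000000000000000000) := T_40 (nat_lit 250) (nat_lit 267) (nat_lit 7) (nat_lit 11) (nat_lit 11) L105700 (by decide +kernel)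
theorem L105702 : W_40 (nat_lit 6) (nat_lit 0x200014000b000c00004000200010000c0000000000000000000000000000000) (nat_lit 0x0) (nat_lit 0xa0005c0060000000030002000000000000000000000000000000000000000000000) := T_40 (nat_lit 197) (nat_lit 196) (nat_lit 1) (nat_lit 12) (nat_lit 11) L105701 (by decide +kernel)
theorem L105703 : W_40 (nat_lit 7) (nat_lit 0x200014000a000c00004000200010000c0000000000000000000000000000000) (nat_lit 0x0) (nat_lit 0xa0005c0060000500030002000000000000000000000000000000000000000000000) := T_40 (nat_lit 212) (nat_lit 214) (nat_lit 2) (nat_lit 8) (nat_lit 12) L105702 (by decide +kernel)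
theorem L105704 : W_40 (nat_lit 8) (nat_lit 0x200014000a000400004000200010000c0000000000000000000000000000000) (nat_lit 0x0) (nat_lit 0xa0005c00600005000b0006000000000000000000000000000000000000000000000) := T_40 (nat_lit 199) (nat_lit 182) (nat_lit 6) (nat_lit 11) (nat_lit 14) L105703 (by decide +kernel)
theorem L105705 : W_40 (nat_lit 9) (nat_lit 0x200014000a00040000400020001000080000000000000000000000000000000) (nat_lit 0x0) (nat_lit 0xa0005c00600005000b0006000000000000040002000000000000000000000000000) := T_40 (nat_lit 126) (nat_lit 109) (nat_lit 4) (nat_lit 8) (nat_lit 10) L105704 (by decide +kernel)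
theorem L105706 : W_40 (nat_lit 2) (nat_lit 0x780014000b000c00004000200010001c0000000000000000000000000000000) (nat_lit 0x0) (nat_lit 0x40020000000000002000000000000000000000000000000000000000000000) := D_40 (nat_lit 233) (nat_lit 181) (nat_lit 246) (nat_lit 7) (nat_lit 11) (nat_lit 10) (nat_lit 2) (nat_lit 8) (nat_lit 14) (by decide +kernel)
theorem L105707 : W_40 (nat_lit 3) (nat_lit 0x700014000b000c00004000200010001c0000000000000000000000000000000) (nat_lit 0x0) (nat_lit 0xc0022000000000002000000000000000000000000000000000000000000000) := T_40 (nat_lit 247) (nat_lit 229) (nat_lit 0) (nat_lit 12) (nat_lit 14) L105706 (by decide +kernel)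
theorem L105708 : W_40 (nat_lit 4) (nat_lit 0x300014000b000c00004000200010001c0000000000000000000000000000000) (nat_lit 0x0) (nat_lit 0x80004c0022000000000002000000000000000000000000000000000000000000000) := T_40 (nat_lit 250) (nat_lit 267) (nat_lit 7) (nat_lit 11) (nat_lit 11) L105707 (by decide +kernel)
theorem L105709 : W_40 (nat_lit 5) (nat_lit 0x200014000b000c00004000200010001c0000000000000000000000000000000) (nat_lit 0x0) (nat_lit 0xa0005c0022000000000002000000000000000000000000000000000000000000000) := T_40 (nat_lit 248) (nat_lit 265) (nat_lit 5) (nat_lit 11) (nat_lit 11) L105708 (by decide +kernel)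
theorem L105710 : W_40 (nat_lit 6) (nat_lit 0x200014000a000c00004000200010001c0000000000000000000000000000000) (nat_lit 0x0) (nat_lit 0xa0005c0022000500000002000000000000000000000000000000000000000000000) := T_40 (nat_lit 212) (nat_lit 214) (nat_lit 2) (nat_lit 8) (nat_lit 12) L105709 (by decide +kernel)
theorem L105711 : W_40 (nat_lit 7) (nat_lit 0x200014000a000400004000200010001c0000000000000000000000000000000) (nat_lit 0x0) (nat_lit 0xa0005c0022000500080006000000000000000000000000000000000000000000000) := T_40 (nat_lit 199) (nat_lit 182) (nat_lit 6) (nat_lit 11) (nat_lit 14) L105710 (by decide +kernel)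
theorem L105712 : W_40 (nat_lit 8) (nat_lit 0x200014000a00040000400020001000180000000000000000000000000000000) (nat_lit 0x0) (nat_lit 0xa0005c0022000500080006000000000000040002000000000000000000000000000) := T_40 (nat_lit 126) (nat_lit 109) (nat_lit 4) (nat_lit 8) (nat_lit 10) L105711 (by decide +kernel)
theorem L105713 : W_40 (nat_lit 9) (nat_lit 0x200014000a00040000400020001000080000000000000000000000000000000) (nat_lit 0x0) (nat_lit 0xa0005c002200050008000600000000000014000a000000000000000000000000000) := T_40 (nat_lit 128) (nat_lit 111) (nat_lit 6) (nat_lit 8) (nat_lit 10) L105712 (by decide +kernel)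
theorem L105714 : W_40 (nat_lit 2) (nat_lit 0x600014000a00040002400020001000180000000000000000000000000000000) (nat_lit 0x0) (nat_lit 0x80004000200000000000000000000000000000000000000000) := D_40 (nat_lit 182) (nat_lit 199) (nat_lit 165) (nat_lit 6) (nat_lit 11) (nat_lit 14) (nat_lit 6) (nat_lit 11) (nat_lit 13) (by decide +kernel)
theorem L105715 : W_40 (nat_lit 3) (nat_lit 0x600014000a00040000400020001000180000000000000000000000000000000) (nat_lit 0x0) (nat_lit 0x20000000080006000200000000000000000000000000000000000000000) := T_40 (nat_lit 181) (nat_lit 233) (nat_lit 7) (nat_lit 11) (nat_lit 10) L105714 (by decide +kernel)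
theorem L105716 : W_40 (nat_lit 4) (nat_lit 0x600014000a00040000400020001000080000000000000000000000000000000) (nat_lit 0x0) (nat_lit 0x20000000080006000200000000100008000000000000000000000000000) := T_40 (nat_lit 128) (nat_lit 111) (nat_lit 6) (nat_lit 8) (nat_lit 10) L105715 (by decide +kernel)
theorem L105717 : W_40 (nat_lit 5) (nat_lit 0x200014000a00040000400020001000080000000000000000000000000000000) (nat_lit 0x0) (nat_lit 0x8000400020000000080006000200000000100008000000000000000000000000000) := T_40 (nat_lit 250) (nat_lit 267) (nat_lit 7) (nat_lit 11) (nat_lit 11) L105716 (by decide +kernel)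
theorem L105718 : W_40 (nat_lit 2) (nat_lit 0x200014000e000c00004000200010001c0000000000000000000000000000000) (nat_lit 0x0) (nat_lit 0x4000000000000000120000000000000000000000000000000000000000000000000) := D_40 (nat_lit 197) (nat_lit 266) (nat_lit 200) (nat_lit 4) (nat_lit 11) (nat_lit 15) (nat_lit 1) (nat_lit 13) (nat_lit 11) (by decide +kernel)
theorem L105719 : W_40 (nat_lit 3) (nat_lit 0x200014000a000c00004000200010001c0000000000000000000000000000000) (nat_lit 0x0) (nat_lit 0x4000000000000500120000000000000000000000000000000000000000000000000) := T_40 (nat_lit 214) (nat_lit 212) (nat_lit 2) (nat_lit 8) (nat_lit 12) L105718 (by decide +kernel)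
theorem L105720 : W_40 (nat_lit 4) (nat_lit 0x200014000a000400004000200010001c0000000000000000000000000000000) (nat_lit 0x0) (nat_lit 0x40000000000005001a0004000000000000000000000000000000000000000000000) := T_40 (nat_lit 199) (nat_lit 182) (nat_lit 6) (nat_lit 11) (nat_lit 14) L105719 (by decide +kernel)
theorem L105721 : W_40 (nat_lit 5) (nat_lit 0x200014000a000400004000200010000c0000000000000000000000000000000) (nat_lit 0x0) (nat_lit 0x40000000000005001a0004000000000000100008000000000000000000000000000) := T_40 (nat_lit 128) (nat_lit 111) (nat_lit 6) (nat_lit 8) (nat_lit 10) L105720 (by decide +kernel)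
theorem L105722 : W_40 (nat_lit 6) (nat_lit 0x200014000a00040000400020001000080000000000000000000000000000000) (nat_lit 0x0) (nat_lit 0x40000000000005001a000400000000000014000a000000000000000000000000000) := T_40 (nat_lit 126) (nat_lit 109) (nat_lit 4) (nat_lit 8) (nat_lit 10) L105721 (by decide +kernel)
theorem L105723 : W_40 (nat_lit 10) (nat_lit 0x14000a00040000400020001000080000000000000000000000000000000) (nat_lit 0x0) (nat_lit 0xfc007c00620005001b000600020000000014000a000000000000000000000000000) := Q_40 (nat_lit 249) (C_40 L105008 (C_40 L105705 (C_40 L105713 (C_40 L105717 (C_40 L105722 N_40))))) (by decide +kernel)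
theorem L105724 : W_40 (nat_lit 2) (nat_lit 0x34000e00040000600020001000080000000000000000000000000000000) (nat_lit 0x0) (nat_lit 0xc0001000000000000000000000000000000000000000000000000000000) := D_40 (nat_lit 234) (nat_lit 235) (nat_lit 216) (nat_lit 0) (nat_lit 14) (nat_lit 13) (nat_lit 3) (nat_lit 9) (nat_lit 12) (by decide +kernel)
theorem L105725 : W_40 (nat_lit 3) (nat_lit 0x34000a00040000600020001000080000000000000000000000000000000) (nat_lit 0x0) (nat_lit 0xc0001500000000000000000000000000000000000000000000000000000) := T_40 (nat_lit 214) (nat_lit 212) (nat_lit 3) (nat_lit 8) (nat_lit 12) L105724 (by decide +kernel)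
theorem L105726 : W_40 (nat_lit 4) (nat_lit 0x34000a00040000400020001000080000000000000000000000000000000) (nat_lit 0x0) (nat_lit 0xc0001500004000200000000000000000000000000000000000000000000) := T_40 (nat_lit 177) (nat_lit 194) (nat_lit 5) (nat_lit 8) (nat_lit 7) L105725 (by decide +kernel)
theorem L105727 : W_40 (nat_lit 5) (nat_lit 0x14000a00040000400020001000080000000000000000000000000000000) (nat_lit 0x0) (nat_lit 0x1000080006000e0001500004002200000000000000000000000000000000000000000000) := Q_40 (nat_lit 233) (C_40 L104911 (C_40 L105726 N_40)) (by decide +kernel)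
theorem L105728 : W_40 (nat_lit 2) (nat_lit 0x4000200014000a000600004000200010001c0000000000000000000000000000000) (nat_lit 0x0) (nat_lit 0x100008000400000000000000000000000000000000000000000000000000000000000000) := D_40 (nat_lit 267) (nat_lit 250) (nat_lit 284) (nat_lit 7) (nat_lit 11) (nat_lit 11) (nat_lit 7) (nat_lit 11) (nat_lit 12) (by decide +kernel)
theorem L105729 : W_40 (nat_lit 3) (nat_lit 0x200014000a000600004000200010001c0000000000000000000000000000000) (nat_lit 0x0) (nat_lit 0x10000c000400000000400000000000000000000000000000000000000000000000000000) := T_40 (nat_lit 266) (nat_lit 214) (nat_lit 4) (nat_lit 11) (nat_lit 15) L105728 (by decide +kernel)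
theorem L105730 : W_40 (nat_lit 4) (nat_lit 0x200014000a000400004000200010001c0000000000000000000000000000000) (nat_lit 0x0) (nat_lit 0x10000c000400000000400020001000000000000000000000000000000000000000000000) := T_40 (nat_lit 197) (nat_lit 180) (nat_lit 4) (nat_lit 11) (nat_lit 14) L105729 (by decide +kernel)
theorem L105731 : W_40 (nat_lit 5) (nat_lit 0x200014000a000400004000200010000c0000000000000000000000000000000) (nat_lit 0x0) (nat_lit 0x10000c000400000000400020001000000000000100008000000000000000000000000000) := T_40 (nat_lit 128) (nat_lit 111) (nat_lit 6) (nat_lit 8) (nat_lit 10) L105730 (by decide +kernel)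
theorem L105732 : W_40 (nat_lit 6) (nat_lit 0x200014000a00040000400020001000080000000000000000000000000000000) (nat_lit 0x0) (nat_lit 0x10000c00040000000040002000100000000000014000a000000000000000000000000000) := T_40 (nat_lit 126) (nat_lit 109) (nat_lit 4) (nat_lit 8) (nat_lit 10) L105731 (by decide +kernel)
theorem L105733 : W_40 (nat_lit 7) (nat_lit 0x14000a00040000400020001000080000000000000000000000000000000) (nat_lit 0x0) (nat_lit 0x14000fc007c000200040003000100000000000014000a000000000000000000000000000) := Q_40 (nat_lit 249) (C_40 L105148 (C_40 L105079 (C_40 L105008 (C_40 L105732 N_40)))) (by decide +kernel)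
theorem L105734 : W_40 (nat_lit 2) (nat_lit 0x3800180014000200000000400020001000080000000000000000000000000000000) (nat_lit 0x0) (nat_lit 0x600200000000000000000000000000000000000000000000000000000000000000) := D_40 (nat_lit 262) (nat_lit 249) (nat_lit 261) (nat_lit 2) (nat_lit 7) (nat_lit 15) (nat_lit 2) (nat_lit 6) (nat_lit 15) (by decide +kernel)
theorem L105735 : W_40 (nat_lit 3) (nat_lit 0x3800080014000200000000400020001000080000000000000000000000000000000) (nat_lit 0x0) (nat_lit 0x600300000000000010000000000000000000000000000000000000000000000000) := T_40 (nat_lit 248) (nat_lit 196) (nat_lit 7) (nat_lit 9) (nat_lit 11) L105734 (by decide +kernel)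
theorem L105736 : W_40 (nat_lit 4) (nat_lit 0x3000080014000200000000400020001000080000000000000000000000000000000) (nat_lit 0x0) (nat_lit 0x10000e00300000000000010000000000000000000000000000000000000000000000000) := T_40 (nat_lit 263) (nat_lit 280) (nat_lit 5) (nat_lit 9) (nat_lit 12) L105735 (by decide +kernel)
theorem L105737 : W_40 (nat_lit 2) (nat_lit 0x10001e000200000000400020001000080000000000000000000000000000000) (nat_lit 0x0) (nat_lit 0x600001000000000000000000000000000000000000000000000000000000000) := D_40 (nat_lit 249) (nat_lit 228) (nat_lit 250) (nat_lit 3) (nat_lit 7) (nat_lit 13) (nat_lit 3) (nat_lit 8) (nat_lit 13) (by decide +kernel)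
theorem L105738 : W_40 (nat_lit 5) (nat_lit 0x10001c000200000000400020001000080000000000000000000000000000000) (nat_lit 0x0) (nat_lit 0x40002000600003001c00040002000000000000000000000000000000000000000000000) := Q_40 (nat_lit 229) (C_40 L105737 (C_40 L104351 (C_40 L104312 N_40))) (by decide +kernel)
theorem L105739 : W_40 (nat_lit 14) (nat_lit 0x14000200000000400020001000080000000000000000000000000000000) (nat_lit 0x0) (nat_lit 0xf800fc01f701eb807d000d400620000000000014000a000000000000000000000000000) := Q_40 (nat_lit 231) (C_40 L104842 (C_40 L104822 (C_40 L104810 (C_40 L104831 (C_40 L104825 N_40))))) (by decide +kernel)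
theorem L105740 : W_40 (nat_lit 9) (nat_lit 0x14000200000000400020001000080000000000000000000000000000000) (nat_lit 0x0) (nat_lit 0x5000a801ff006b00790005400220000000000014000a000000000000000000000000000) := Q_40 (nat_lit 231) (C_40 L104824 (C_40 L104753 (C_40 L104765 (C_40 L104822 (C_40 L104821 N_40))))) (by decide +kernel)
theorem L105741 : W_40 (nat_lit 9) (nat_lit 0x14000200000000400020001000080000000000000000000000000000000) (nat_lit 0x0) (nat_lit 0x10008801ff006b003d00054002200000000000100008000000000000000000000000000) := Q_40 (nat_lit 231) (C_40 L104824 (C_40 L104816 (C_40 L104822 (C_40 L104804 (C_40 L104756 N_40))))) (by decide +kernel)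
theorem L105742 : W_40 (nat_lit 9) (nat_lit 0x14000200000000400020001000080000000000000000000000000000000) (nat_lit 0x0) (nat_lit 0x10004801ff01eb007d00094004200000000000040002000000000000000000000000000) := Q_40 (nat_lit 231) (C_40 L104824 (C_40 L104810 (C_40 L104756 (C_40 L104809 (C_40 L104755 N_40))))) (by decide +kernel)
theorem L105743 : W_40 (nat_lit 6) (nat_lit 0x3c000200000000400020001000080000000000000000000000000000000) (nat_lit 0x0) (nat_lit 0xee0002000000004000200000000000040002000000000000000000000000000) := T_40 (nat_lit 126) (nat_lit 109) (nat_lit 4) (nat_lit 8) (nat_lit 10) L104384 (by decide +kernel)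
theorem L105744 : W_40 (nat_lit 2) (nat_lit 0x1000000044003e0006000000004000200010000c0000000000000000000000000000000) (nat_lit 0x0) (nat_lit 0x1800800000000000000000000000000000000000000000000000000000) := D_40 (nat_lit 228) (nat_lit 227) (nat_lit 215) (nat_lit 2) (nat_lit 6) (nat_lit 13) (nat_lit 2) (nat_lit 7) (nat_lit 13) (by decide +kernel)
theorem L105745 : W_40 (nat_lit 3) (nat_lit 0x1000000044003e0002000000004000200010000c0000000000000000000000000000000) (nat_lit 0x0) (nat_lit 0x41800c00000000000000000000000000000000000000000000000000000) := T_40 (nat_lit 214) (nat_lit 234) (nat_lit 0) (nat_lit 13) (nat_lit 13) L105744 (by decide +kernel)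
theorem L105746 : W_40 (nat_lit 4) (nat_lit 0x44003e0002000000004000200010000c0000000000000000000000000000000) (nat_lit 0x0) (nat_lit 0x10000800000041800c00000000000000000000000000000000000000000000000000000) := T_40 (nat_lit 280) (nat_lit 263) (nat_lit 6) (nat_lit 8) (nat_lit 16) L105745 (by decide +kernel)
theorem L105747 : W_40 (nat_lit 5) (nat_lit 0x44003e000200000000400020001000080000000000000000000000000000000) (nat_lit 0x0) (nat_lit 0x10000800000041800c00000000000000000000040002000000000000000000000000000) := T_40 (nat_lit 126) (nat_lit 109) (nat_lit 4) (nat_lit 8) (nat_lit 10) L105746 (by decide +kernel)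
theorem L105748 : W_40 (nat_lit 6) (nat_lit 0x40003e000200000000400020001000080000000000000000000000000000000) (nat_lit 0x0) (nat_lit 0x10000800060041800c00000000000000000000040002000000000000000000000000000) := T_40 (nat_lit 246) (nat_lit 245) (nat_lit 1) (nat_lit 11) (nat_lit 13) L105747 (by decide +kernel)
theorem L105749 : W_40 (nat_lit 7) (nat_lit 0x40003c000200000000400020001000080000000000000000000000000000000) (nat_lit 0x0) (nat_lit 0x10000800260043800c00000000000000000000040002000000000000000000000000000) := T_40 (nat_lit 229) (nat_lit 249) (nat_lit 3) (nat_lit 8) (nat_lit 13) L105748 (by decide +kernel)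
theorem L105750 : W_40 (nat_lit 8) (nat_lit 0x3c000200000000400020001000080000000000000000000000000000000) (nat_lit 0x0) (nat_lit 0x10000800e60043800c00000000000000000000040002000000000000000000000000000) := T_40 (nat_lit 250) (nat_lit 251) (nat_lit 3) (nat_lit 9) (nat_lit 13) L105749 (by decide +kernel)
theorem L105751 : W_40 (nat_lit 7) (nat_lit 0x3c000200000000400020001000080000000000000000000000000000000) (nat_lit 0x0) (nat_lit 0xf001c2000400004000200000000000040002000000000000000000000000000) := T_40 (nat_lit 177) (nat_lit 194) (nat_lit 5) (nat_lit 8) (nat_lit 7) L104438 (by decide +kernel)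
theorem L105752 : W_40 (nat_lit 9) (nat_lit 0x1c000200000000400020001000080000000000000000000000000000000) (nat_lit 0x0) (nat_lit 0x10000800fe01e3800c00004000200000000000040002000000000000000000000000000) := Q_40 (nat_lit 233) (C_40 L104232 (C_40 L105743 (C_40 L105750 (C_40 L105751 N_40)))) (by decide +kernel)
theorem L105753 : W_40 (nat_lit 12) (nat_lit 0x1c000200000000400020001000080000000000000000000000000000000) (nat_lit 0x0) (nat_lit 0x400060007f0003001c001f400720000000000014000a000000000000000000000000000) := Q_40 (nat_lit 229) (C_40 L104820 (C_40 L104808 (C_40 L104814 (C_40 L104752 (C_40 L104359 N_40))))) (by decide +kernel)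
theorem L105754 : W_40 (nat_lit 8) (nat_lit 0x1c000200000000400020001000080000000000000000000000000000000) (nat_lit 0x0) (nat_lit 0x100008001e00063807c00044000200000000000040002000000000000000000000000000) := T_40 (nat_lit 177) (nat_lit 194) (nat_lit 5) (nat_lit 8) (nat_lit 7) L104428 (by decide +kernel)
theorem L105755 : W_40 (nat_lit 5) (nat_lit 0x1c000600000000400020001000080000000000000000000000000000000) (nat_lit 0x0) (nat_lit 0x10000c0060000000020001000000000000040002000000000000000000000000000) := T_40 (nat_lit 233) (nat_lit 234) (nat_lit 0) (nat_lit 13) (nat_lit 13) L104283 (by decide +kernel)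
theorem L105756 : W_40 (nat_lit 2) (nat_lit 0x12003f0016000000006000200010001c0000000000000000000000000000000) (nat_lit 0x0) (nat_lit 0x40002000000000000000010000000000000000000000000000000000000000000000000) := D_40 (nat_lit 265) (nat_lit 282) (nat_lit 196) (nat_lit 4) (nat_lit 10) (nat_lit 16) (nat_lit 4) (nat_lit 10) (nat_lit 15) (by decide +kernel)
theorem L105757 : W_40 (nat_lit 3) (nat_lit 0x2003f0016000000006000200010001c0000000000000000000000000000000) (nat_lit 0x0) (nat_lit 0x40002000300000000000010000000000000000000000000000000000000000000000000) := T_40 (nat_lit 248) (nat_lit 249) (nat_lit 3) (nat_lit 7) (nat_lit 13) L105756 (by decide +kernel)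
theorem L105758 : W_40 (nat_lit 4) (nat_lit 0x3f0016000000006000200010001c0000000000000000000000000000000) (nat_lit 0x0) (nat_lit 0x40002000330000000000010000000000000000000000000000000000000000000000000) := T_40 (nat_lit 245) (nat_lit 244) (nat_lit 1) (nat_lit 10) (nat_lit 13) L105757 (by decide +kernel)
theorem L105759 : W_40 (nat_lit 5) (nat_lit 0x3f0016000000006000200010000c0000000000000000000000000000000) (nat_lit 0x0) (nat_lit 0x40002000330000000000010000000000000000100008000000000000000000000000000) := T_40 (nat_lit 128) (nat_lit 111) (nat_lit 6) (nat_lit 8) (nat_lit 10) L105758 (by decide +kernel)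
theorem L105760 : W_40 (nat_lit 6) (nat_lit 0x3e0016000000006000200010000c0000000000000000000000000000000) (nat_lit 0x0) (nat_lit 0x40002000330001800000010000000000000000100008000000000000000000000000000) := T_40 (nat_lit 228) (nat_lit 227) (nat_lit 2) (nat_lit 6) (nat_lit 13) L105759 (by decide +kernel)
theorem L105761 : W_40 (nat_lit 7) (nat_lit 0x3c0016000000006000200010000c0000000000000000000000000000000) (nat_lit 0x0) (nat_lit 0x40002000330003800800010000000000000000100008000000000000000000000000000) := T_40 (nat_lit 229) (nat_lit 215) (nat_lit 2) (nat_lit 8) (nat_lit 13) L105760 (by decide +kernel)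
theorem L105762 : W_40 (nat_lit 8) (nat_lit 0x3c0006000000006000200010000c0000000000000000000000000000000) (nat_lit 0x0) (nat_lit 0x40002000330003803800010000000000000000100008000000000000000000000000000) := T_40 (nat_lit 216) (nat_lit 217) (nat_lit 2) (nat_lit 9) (nat_lit 13) L105761 (by decide +kernel)
theorem L105763 : W_40 (nat_lit 9) (nat_lit 0x3c0006000000004000200010000c0000000000000000000000000000000) (nat_lit 0x0) (nat_lit 0x40002000330003803800014000200000000000100008000000000000000000000000000) := T_40 (nat_lit 177) (nat_lit 194) (nat_lit 5) (nat_lit 8) (nat_lit 7) L105762 (by decide +kernel)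
theorem L105764 : W_40 (nat_lit 10) (nat_lit 0x1c0006000000004000200010000c0000000000000000000000000000000) (nat_lit 0x0) (nat_lit 0x40002000330063803800014000200000000000100008000000000000000000000000000) := T_40 (nat_lit 233) (nat_lit 234) (nat_lit 0) (nat_lit 13) (nat_lit 13) L105763 (by decide +kernel)
theorem L105765 : W_40 (nat_lit 11) (nat_lit 0x1c000600000000400020001000080000000000000000000000000000000) (nat_lit 0x0) (nat_lit 0x4000200033006380380001400020000000000014000a000000000000000000000000000) := T_40 (nat_lit 126) (nat_lit 109) (nat_lit 4) (nat_lit 8) (nat_lit 10) L105764 (by decide +kernel)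
theorem L105766 : W_40 (nat_lit 2) (nat_lit 0x8000c001e000e000000006000200010001c0000000000000000000000000000000) (nat_lit 0x0) (nat_lit 0x1000000000000000020001000000000000000000000000000000000000000000000) := D_40 (nat_lit 197) (nat_lit 180) (nat_lit 264) (nat_lit 5) (nat_lit 10) (nat_lit 10) (nat_lit 6) (nat_lit 9) (nat_lit 15) (by decide +kernel)
theorem L105767 : W_40 (nat_lit 3) (nat_lit 0x80004001e000e000000006000200010001c0000000000000000000000000000000) (nat_lit 0x0) (nat_lit 0x1000080000000000030001000000000000000000000000000000000000000000000) := T_40 (nat_lit 247) (nat_lit 196) (nat_lit 5) (nat_lit 9) (nat_lit 11) L105766 (by decide +kernel)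
theorem L105768 : W_40 (nat_lit 4) (nat_lit 0x4001e000e000000006000200010001c0000000000000000000000000000000) (nat_lit 0x0) (nat_lit 0x10001800080000000000030001000000000000000000000000000000000000000000000) := T_40 (nat_lit 263) (nat_lit 280) (nat_lit 6) (nat_lit 8) (nat_lit 16) L105767 (by decide +kernel)
theorem L105769 : W_40 (nat_lit 5) (nat_lit 0x4001e000e000000006000200010000c0000000000000000000000000000000) (nat_lit 0x0) (nat_lit 0x10001800080000000000030001000000000000100008000000000000000000000000000) := T_40 (nat_lit 128) (nat_lit 111) (nat_lit 6) (nat_lit 8) (nat_lit 10) L105768 (by decide +kernel)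
theorem L105770 : W_40 (nat_lit 6) (nat_lit 0x1e000e000000006000200010000c0000000000000000000000000000000) (nat_lit 0x0) (nat_lit 0x100018000e0000000000030001000000000000100008000000000000000000000000000) := T_40 (nat_lit 246) (nat_lit 245) (nat_lit 1) (nat_lit 11) (nat_lit 13) L105769 (by decide +kernel)
theorem L105771 : W_40 (nat_lit 7) (nat_lit 0x1e000e000000004000200010000c0000000000000000000000000000000) (nat_lit 0x0) (nat_lit 0x100018000e0000000000034001200000000000100008000000000000000000000000000) := T_40 (nat_lit 177) (nat_lit 194) (nat_lit 5) (nat_lit 8) (nat_lit 7) L105770 (by decide +kernel)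
theorem L105772 : W_40 (nat_lit 8) (nat_lit 0x1c000e000000004000200010000c0000000000000000000000000000000) (nat_lit 0x0) (nat_lit 0x100018000e0003000000034001200000000000100008000000000000000000000000000) := T_40 (nat_lit 229) (nat_lit 228) (nat_lit 2) (nat_lit 7) (nat_lit 13) L105771 (by decide +kernel)
theorem L105773 : W_40 (nat_lit 9) (nat_lit 0x1c000e00000000400020001000080000000000000000000000000000000) (nat_lit 0x0) (nat_lit 0x100018000e000300000003400120000000000014000a000000000000000000000000000) := T_40 (nat_lit 126) (nat_lit 109) (nat_lit 4) (nat_lit 8) (nat_lit 10) L105772 (by decide +kernel)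
theorem L105774 : W_40 (nat_lit 10) (nat_lit 0x1c000600000000400020001000080000000000000000000000000000000) (nat_lit 0x0) (nat_lit 0x100058002e00030038001f400520020000000014000a000000000000000000000000000) := Q_40 (nat_lit 215) (C_40 L104296 (C_40 L104683 (C_40 L105773 N_40))) (by decide +kernel)
theorem L105775 : W_40 (nat_lit 12) (nat_lit 0x1c000200000000400020001000080000000000000000000000000000000) (nat_lit 0x0) (nat_lit 0x500078003f0063803c001f400520028000000014000a000000000000000000000000000) := Q_40 (nat_lit 214) (C_40 L104290 (C_40 L104223 (C_40 L105755 (C_40 L105765 (C_40 L105774 N_40))))) (by decide +kernel)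
theorem L105776 : W_40 (nat_lit 14) (nat_lit 0x14000200000000400020001000080000000000000000000000000000000) (nat_lit 0x0) (nat_lit 0x1f000f801ff01eb807c001f400720028000000014000a000000000000000000000000000) := Q_40 (nat_lit 231) (C_40 L104816 (C_40 L104810 (C_40 L104800 (C_40 L104753 (C_40 L105752 (C_40 L105753 (C_40 L105754 (C_40 L104250 (C_40 L105775 N_40))))))))) (by decide +kernel)
theorem L105777 : W_40 (nat_lit 14) (nat_lit 0x14000200000000400020001000080000000000000000000000000000000) (nat_lit 0x0) (nat_lit 0xf8007c01ff006b807d0001000000000000000014000a000000000000000000000000000) := Q_40 (nat_lit 231) (C_40 L104842 (C_40 L104816 (C_40 L104756 (C_40 L104765 (C_40 L104754 (C_40 L104815 N_40)))))) (by decide +kernel)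
theorem L105778 : W_40 (nat_lit 2) (nat_lit 0x38001800340002000000006000200010000c0000000000000000000000000000000) (nat_lit 0x0) (nat_lit 0x600200000000000000000000000000000000000000000000000000000000000000) := D_40 (nat_lit 262) (nat_lit 249) (nat_lit 261) (nat_lit 2) (nat_lit 7) (nat_lit 15) (nat_lit 2) (nat_lit 6) (nat_lit 15) (by decide +kernel)
theorem L105779 : W_40 (nat_lit 3) (nat_lit 0x30001800340002000000006000200010000c0000000000000000000000000000000) (nat_lit 0x0) (nat_lit 0x10000e00200000000000000000000000000000000000000000000000000000000000000) := T_40 (nat_lit 263) (nat_lit 280) (nat_lit 5) (nat_lit 9) (nat_lit 12) L105778 (by decide +kernel)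
theorem L105780 : W_40 (nat_lit 4) (nat_lit 0x20001800340002000000006000200010000c0000000000000000000000000000000) (nat_lit 0x0) (nat_lit 0x50001e00200000000000000000000000000000000000000000000000000000000000000) := T_40 (nat_lit 264) (nat_lit 282) (nat_lit 7) (nat_lit 9) (nat_lit 12) L105779 (by decide +kernel)
theorem L105781 : W_40 (nat_lit 5) (nat_lit 0x20001800340002000000004000200010000c0000000000000000000000000000000) (nat_lit 0x0) (nat_lit 0x50001e00200000000000004000200000000000000000000000000000000000000000000) := T_40 (nat_lit 177) (nat_lit 194) (nat_lit 5) (nat_lit 8) (nat_lit 7) L105780 (by decide +kernel)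
theorem L105782 : W_40 (nat_lit 6) (nat_lit 0x1800340002000000004000200010000c0000000000000000000000000000000) (nat_lit 0x0) (nat_lit 0x50003e00200000000000014000200000000000000000000000000000000000000000000) := T_40 (nat_lit 265) (nat_lit 196) (nat_lit 7) (nat_lit 9) (nat_lit 11) L105781 (by decide +kernel)
theorem L105783 : W_40 (nat_lit 7) (nat_lit 0x180034000200000000400020001000080000000000000000000000000000000) (nat_lit 0x0) (nat_lit 0x50003e00200000000000014000200000000000040002000000000000000000000000000) := T_40 (nat_lit 126) (nat_lit 109) (nat_lit 4) (nat_lit 8) (nat_lit 10) L105782 (by decide +kernel)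
theorem L105784 : W_40 (nat_lit 2) (nat_lit 0x100007c001a0034000200000000600020001000180000000000000000000000000000000) (nat_lit 0x0) (nat_lit 0x200018000000000000000000000000000000000000000000000000000000000000000000) := D_40 (nat_lit 267) (nat_lit 268) (nat_lit 285) (nat_lit 0) (nat_lit 13) (nat_lit 15) (nat_lit 3) (nat_lit 9) (nat_lit 15) (by decide +kernel)
theorem L105785 : W_40 (nat_lit 3) (nat_lit 0x7c001a0034000200000000600020001000180000000000000000000000000000000) (nat_lit 0x0) (nat_lit 0x380018000000000000000000000000000000000000000000000000000000000000000000) := T_40 (nat_lit 284) (nat_lit 283) (nat_lit 3) (nat_lit 8) (nat_lit 15) L105784 (by decide +kernel)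
theorem L105786 : W_40 (nat_lit 4) (nat_lit 0x3c001a0034000200000000600020001000180000000000000000000000000000000) (nat_lit 0x0) (nat_lit 0x38001c000040000000000000000000000000000000000000000000000000000000000000) := T_40 (nat_lit 266) (nat_lit 246) (nat_lit 3) (nat_lit 7) (nat_lit 14) L105785 (by decide +kernel)
theorem L105787 : W_40 (nat_lit 5) (nat_lit 0x3c00180034000200000000600020001000180000000000000000000000000000000) (nat_lit 0x0) (nat_lit 0x38001c000070000000000000000000000000000000000000000000000000000000000000) := T_40 (nat_lit 245) (nat_lit 244) (nat_lit 0) (nat_lit 10) (nat_lit 15) L105786 (by decide +kernel)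
theorem L105788 : W_40 (nat_lit 6) (nat_lit 0x3800180034000200000000600020001000180000000000000000000000000000000) (nat_lit 0x0) (nat_lit 0x38001c600070000000000000000000000000000000000000000000000000000000000000) := T_40 (nat_lit 262) (nat_lit 261) (nat_lit 2) (nat_lit 6) (nat_lit 15) L105787 (by decide +kernel)
theorem L105789 : W_40 (nat_lit 7) (nat_lit 0x3000180034000200000000600020001000180000000000000000000000000000000) (nat_lit 0x0) (nat_lit 0x39001ce00070000000000000000000000000000000000000000000000000000000000000) := T_40 (nat_lit 263) (nat_lit 280) (nat_lit 5) (nat_lit 9) (nat_lit 12) L105788 (by decide +kernel)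
theorem L105790 : W_40 (nat_lit 8) (nat_lit 0x2000180034000200000000600020001000180000000000000000000000000000000) (nat_lit 0x0) (nat_lit 0x3d001de00070000000000000000000000000000000000000000000000000000000000000) := T_40 (nat_lit 264) (nat_lit 282) (nat_lit 7) (nat_lit 9) (nat_lit 12) L105789 (by decide +kernel)
theorem L105791 : W_40 (nat_lit 9) (nat_lit 0x2000180034000200000000400020001000180000000000000000000000000000000) (nat_lit 0x0) (nat_lit 0x3d001de00070000000000004000200000000000000000000000000000000000000000000) := T_40 (nat_lit 177) (nat_lit 194) (nat_lit 5) (nat_lit 8) (nat_lit 7) L105790 (by decide +kernel)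
theorem L105792 : W_40 (nat_lit 10) (nat_lit 0x180034000200000000400020001000180000000000000000000000000000000) (nat_lit 0x0) (nat_lit 0x3d001fe00070000000000014000200000000000000000000000000000000000000000000) := T_40 (nat_lit 265) (nat_lit 196) (nat_lit 7) (nat_lit 9) (nat_lit 11) L105791 (by decide +kernel)
theorem L105793 : W_40 (nat_lit 11) (nat_lit 0x180034000200000000400020001000080000000000000000000000000000000) (nat_lit 0x0) (nat_lit 0x3d001fe00070000000000014000200000000000100008000000000000000000000000000) := T_40 (nat_lit 128) (nat_lit 111) (nat_lit 6) (nat_lit 8) (nat_lit 10) L105792 (by decide +kernel)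
theorem L105794 : W_40 (nat_lit 12) (nat_lit 0x80034000200000000400020001000080000000000000000000000000000000) (nat_lit 0x0) (nat_lit 0x3d001fe007700c000000001400020000000000014000a000000000000000000000000000) := Q_40 (nat_lit 248) (C_40 L105783 (C_40 L104551 (C_40 L104533 (C_40 L105793 N_40)))) (by decide +kernel)
theorem L105795 : W_40 (nat_lit 2) (nat_lit 0x800340006000200006000e00010000c0000000000000000000000000000000) (nat_lit 0x0) (nat_lit 0x180010000000000000000000000000000000000000000) := D_40 (nat_lit 176) (nat_lit 160) (nat_lit 175) (nat_lit 1) (nat_lit 10) (nat_lit 9) (nat_lit 2) (nat_lit 5) (nat_lit 10) (by decide +kernel)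
theorem L105796 : W_40 (nat_lit 3) (nat_lit 0x800340006000200006000a00010000c0000000000000000000000000000000) (nat_lit 0x0) (nat_lit 0x180150000000000000000000000000000000000000000) := T_40 (nat_lit 162) (nat_lit 164) (nat_lit 1) (nat_lit 11) (nat_lit 9) L105795 (by decide +kernel)
theorem L105797 : W_40 (nat_lit 4) (nat_lit 0x800340006000200006000200010000c0000000000000000000000000000000) (nat_lit 0x0) (nat_lit 0x11801d0000000000000000000000000000000000000000) := T_40 (nat_lit 163) (nat_lit 180) (nat_lit 5) (nat_lit 10) (nat_lit 9) L105796 (by decide +kernel)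
theorem L105798 : W_40 (nat_lit 5) (nat_lit 0x80034000600020000600020001000080000000000000000000000000000000) (nat_lit 0x0) (nat_lit 0x11801d0000000040002000000000000000000000000000) := T_40 (nat_lit 126) (nat_lit 109) (nat_lit 4) (nat_lit 8) (nat_lit 10) L105797 (by decide +kernel)
theorem L105799 : W_40 (nat_lit 6) (nat_lit 0x80034000600000000600020001000080000000000000000000000000000000) (nat_lit 0x0) (nat_lit 0x10000000000000000200011801d0000000040002000000000000000000000000000) := T_40 (nat_lit 197) (nat_lit 264) (nat_lit 6) (nat_lit 9) (nat_lit 15) L105798 (by decide +kernel)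
theorem L105800 : W_40 (nat_lit 7) (nat_lit 0x80034000600000000400020001000080000000000000000000000000000000) (nat_lit 0x0) (nat_lit 0x10000000000000000240013801d0000000040002000000000000000000000000000) := T_40 (nat_lit 177) (nat_lit 194) (nat_lit 5) (nat_lit 8) (nat_lit 7) L105799 (by decide +kernel)
theorem L105801 : W_40 (nat_lit 8) (nat_lit 0x80034000200000000400020001000080000000000000000000000000000000) (nat_lit 0x0) (nat_lit 0x10000000c0001d000240013801d000000014000a000000000000000000000000000) := Q_40 (nat_lit 214) (C_40 L105800 (C_40 L104509 (C_40 L104506 N_40))) (by decide +kernel)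
theorem L105802 : W_40 (nat_lit 3) (nat_lit 0x200030001800140006000000004000200010001c0000000000000000000000000000000) (nat_lit 0x0) (nat_lit 0x10000e00200000000000000000000000000000000000000000000000000000000000000) := T_40 (nat_lit 263) (nat_lit 280) (nat_lit 5) (nat_lit 9) (nat_lit 12) L104702 (by decide +kernel)
theorem L105803 : W_40 (nat_lit 4) (nat_lit 0x200010001800140006000000004000200010001c0000000000000000000000000000000) (nat_lit 0x0) (nat_lit 0x50002e00200000000000000000000000000000000000000000000000000000000000000) := T_40 (nat_lit 265) (nat_lit 282) (nat_lit 7) (nat_lit 9) (nat_lit 12) L105802 (by decide +kernel)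
theorem L105804 : W_40 (nat_lit 5) (nat_lit 0x20001000180014000600000000400020001000180000000000000000000000000000000) (nat_lit 0x0) (nat_lit 0x50002e00200000000000000000000000000000040002000000000000000000000000000) := T_40 (nat_lit 126) (nat_lit 109) (nat_lit 4) (nat_lit 8) (nat_lit 10) L105803 (by decide +kernel)
theorem L105805 : W_40 (nat_lit 6) (nat_lit 0x1000180014000600000000400020001000180000000000000000000000000000000) (nat_lit 0x0) (nat_lit 0x70002e00200008000000000000000000000000040002000000000000000000000000000) := T_40 (nat_lit 281) (nat_lit 231) (nat_lit 6) (nat_lit 9) (nat_lit 16) L105804 (by decide +kernel)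
theorem L105806 : W_40 (nat_lit 7) (nat_lit 0x1000180014000200000000400020001000180000000000000000000000000000000) (nat_lit 0x0) (nat_lit 0x70002e00200008000400020000000000000000040002000000000000000000000000000) := T_40 (nat_lit 214) (nat_lit 197) (nat_lit 6) (nat_lit 9) (nat_lit 15) L105805 (by decide +kernel)
theorem L105807 : W_40 (nat_lit 8) (nat_lit 0x1000180014000200000000400020001000080000000000000000000000000000000) (nat_lit 0x0) (nat_lit 0x70002e0020000800040002000000000000000014000a000000000000000000000000000) := T_40 (nat_lit 128) (nat_lit 111) (nat_lit 6) (nat_lit 8) (nat_lit 10) L105806 (by decide +kernel)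
theorem L105808 : W_40 (nat_lit 3) (nat_lit 0x20003000180014000600000000600020001000180000000000000000000000000000000) (nat_lit 0x0) (nat_lit 0x10000e00200000000000000000000000000000000000000000000000000000000000000) := T_40 (nat_lit 263) (nat_lit 280) (nat_lit 5) (nat_lit 9) (nat_lit 12) L104710 (by decide +kernel)
theorem L105809 : W_40 (nat_lit 4) (nat_lit 0x20001000180014000600000000600020001000180000000000000000000000000000000) (nat_lit 0x0) (nat_lit 0x50002e00200000000000000000000000000000000000000000000000000000000000000) := T_40 (nat_lit 265) (nat_lit 282) (nat_lit 7) (nat_lit 9) (nat_lit 12) L105808 (by decide +kernel)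
theorem L105810 : W_40 (nat_lit 5) (nat_lit 0x20001000180014000600000000600020001000080000000000000000000000000000000) (nat_lit 0x0) (nat_lit 0x50002e00200000000000000000000000000000100008000000000000000000000000000) := T_40 (nat_lit 128) (nat_lit 111) (nat_lit 6) (nat_lit 8) (nat_lit 10) L105809 (by decide +kernel)
theorem L105811 : W_40 (nat_lit 6) (nat_lit 0x1000180014000600000000600020001000080000000000000000000000000000000) (nat_lit 0x0) (nat_lit 0x70002e00200008000000000000000000000000100008000000000000000000000000000) := T_40 (nat_lit 281) (nat_lit 231) (nat_lit 6) (nat_lit 9) (nat_lit 16) L105810 (by decide +kernel)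
theorem L105812 : W_40 (nat_lit 7) (nat_lit 0x1000180014000200000000600020001000080000000000000000000000000000000) (nat_lit 0x0) (nat_lit 0x70002e00200008000400020000000000000000100008000000000000000000000000000) := T_40 (nat_lit 214) (nat_lit 197) (nat_lit 6) (nat_lit 9) (nat_lit 15) L105811 (by decide +kernel)
theorem L105813 : W_40 (nat_lit 8) (nat_lit 0x1000180014000200000000400020001000080000000000000000000000000000000) (nat_lit 0x0) (nat_lit 0x70002e00200008000400024000200000000000100008000000000000000000000000000) := T_40 (nat_lit 177) (nat_lit 194) (nat_lit 5) (nat_lit 8) (nat_lit 7) L105812 (by decide +kernel)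
theorem L105814 : W_40 (nat_lit 2) (nat_lit 0x3a005c001c0006000000006000200010000c0000000000000000000000000000000) (nat_lit 0x0) (nat_lit 0x8000c000000000000000000000000000000000000000000000000000000000000000000) := D_40 (nat_lit 266) (nat_lit 267) (nat_lit 283) (nat_lit 0) (nat_lit 12) (nat_lit 15) (nat_lit 7) (nat_lit 10) (nat_lit 12) (by decide +kernel)
theorem L105815 : W_40 (nat_lit 3) (nat_lit 0x1a005c001c0006000000006000200010000c0000000000000000000000000000000) (nat_lit 0x0) (nat_lit 0xc000e000000000000000000000000000000000000000000000000000000000000000000) := T_40 (nat_lit 265) (nat_lit 282) (nat_lit 7) (nat_lit 9) (nat_lit 12) L105814 (by decide +kernel)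
theorem L105816 : W_40 (nat_lit 4) (nat_lit 0x1a0058001c0006000000006000200010000c0000000000000000000000000000000) (nat_lit 0x0) (nat_lit 0xc000e000060000000000000000000000000000000000000000000000000000000000000) := T_40 (nat_lit 246) (nat_lit 245) (nat_lit 2) (nat_lit 7) (nat_lit 14) L105815 (by decide +kernel)
theorem L105817 : W_40 (nat_lit 5) (nat_lit 0x1a0058001c000600000000600020001000080000000000000000000000000000000) (nat_lit 0x0) (nat_lit 0xc000e000060000000000000000000000000000040002000000000000000000000000000) := T_40 (nat_lit 126) (nat_lit 109) (nat_lit 4) (nat_lit 8) (nat_lit 10) L105816 (by decide +kernel)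
theorem L105818 : W_40 (nat_lit 6) (nat_lit 0x1a00580014000600000000600020001000080000000000000000000000000000000) (nat_lit 0x0) (nat_lit 0xe000e000060008000000000000000000000000040002000000000000000000000000000) := T_40 (nat_lit 231) (nat_lit 281) (nat_lit 6) (nat_lit 9) (nat_lit 16) L105817 (by decide +kernel)
theorem L105819 : W_40 (nat_lit 7) (nat_lit 0x1a00580014000200000000600020001000080000000000000000000000000000000) (nat_lit 0x0) (nat_lit 0xe000e000060008000400020000000000000000040002000000000000000000000000000) := T_40 (nat_lit 214) (nat_lit 197) (nat_lit 6) (nat_lit 9) (nat_lit 15) L105818 (by decide +kernel)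
theorem L105820 : W_40 (nat_lit 8) (nat_lit 0x1a00580014000200000000400020001000080000000000000000000000000000000) (nat_lit 0x0) (nat_lit 0xe000e000060008000400024000200000000000040002000000000000000000000000000) := T_40 (nat_lit 177) (nat_lit 194) (nat_lit 5) (nat_lit 8) (nat_lit 7) L105819 (by decide +kernel)
theorem L105821 : W_40 (nat_lit 9) (nat_lit 0x1a00180014000200000000400020001000080000000000000000000000000000000) (nat_lit 0x0) (nat_lit 0xe000e000660008000400024000200000000000040002000000000000000000000000000) := T_40 (nat_lit 250) (nat_lit 249) (nat_lit 1) (nat_lit 12) (nat_lit 14) L105820 (by decide +kernel)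
theorem L105822 : W_40 (nat_lit 10) (nat_lit 0x1800180014000200000000400020001000080000000000000000000000000000000) (nat_lit 0x0) (nat_lit 0xe000e600660008000400024000200000000000040002000000000000000000000000000) := T_40 (nat_lit 261) (nat_lit 262) (nat_lit 2) (nat_lit 6) (nat_lit 15) L105821 (by decide +kernel)
theorem L105823 : W_40 (nat_lit 11) (nat_lit 0x1000180014000200000000400020001000080000000000000000000000000000000) (nat_lit 0x0) (nat_lit 0xf000ee00660008000400024000200000000000040002000000000000000000000000000) := T_40 (nat_lit 263) (nat_lit 280) (nat_lit 5) (nat_lit 9) (nat_lit 12) L105822 (by decide +kernel)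
theorem L105824 : W_40 (nat_lit 2) (nat_lit 0x1c001800140002000000004000200010000c0000000000000000000000000000000) (nat_lit 0x0) (nat_lit 0x640000000000000000000000000000000000000000000000000000000000000) := D_40 (nat_lit 249) (nat_lit 250) (nat_lit 246) (nat_lit 1) (nat_lit 12) (nat_lit 14) (nat_lit 1) (nat_lit 11) (nat_lit 14) (by decide +kernel)
theorem L105825 : W_40 (nat_lit 3) (nat_lit 0x18001800140002000000004000200010000c0000000000000000000000000000000) (nat_lit 0x0) (nat_lit 0x600640000000000000000000000000000000000000000000000000000000000000) := T_40 (nat_lit 262) (nat_lit 261) (nat_lit 2) (nat_lit 6) (nat_lit 15) L105824 (by decide +kernel)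
theorem L105826 : W_40 (nat_lit 4) (nat_lit 0x10001800140002000000004000200010000c0000000000000000000000000000000) (nat_lit 0x0) (nat_lit 0x10000e00640000000000000000000000000000000000000000000000000000000000000) := T_40 (nat_lit 263) (nat_lit 280) (nat_lit 5) (nat_lit 9) (nat_lit 12) L105825 (by decide +kernel)
theorem L105827 : W_40 (nat_lit 5) (nat_lit 0x1000180014000200000000400020001000080000000000000000000000000000000) (nat_lit 0x0) (nat_lit 0x10000e00640000000000000000000000000000040002000000000000000000000000000) := T_40 (nat_lit 126) (nat_lit 109) (nat_lit 4) (nat_lit 8) (nat_lit 10) L105826 (by decide +kernel)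
theorem L105828 : W_40 (nat_lit 6) (nat_lit 0x10001a001c0006000000006000200010000c0000000000000000000000000000000) (nat_lit 0x0) (nat_lit 0xc00060002000000038001c0000000000000000000000000000000000000000000000000) := T_40 (nat_lit 265) (nat_lit 282) (nat_lit 7) (nat_lit 9) (nat_lit 12) L104856 (by decide +kernel)
theorem L105829 : W_40 (nat_lit 7) (nat_lit 0x100018001c0006000000006000200010000c0000000000000000000000000000000) (nat_lit 0x0) (nat_lit 0xc00060002600000038001c0000000000000000000000000000000000000000000000000) := T_40 (nat_lit 245) (nat_lit 246) (nat_lit 2) (nat_lit 7) (nat_lit 14) L105828 (by decide +kernel)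
theorem L105830 : W_40 (nat_lit 8) (nat_lit 0x100018001c000600000000600020001000080000000000000000000000000000000) (nat_lit 0x0) (nat_lit 0xc00060002600000038001c0000000000000000040002000000000000000000000000000) := T_40 (nat_lit 126) (nat_lit 109) (nat_lit 4) (nat_lit 8) (nat_lit 10) L105829 (by decide +kernel)
theorem L105831 : W_40 (nat_lit 9) (nat_lit 0x1000180014000600000000600020001000080000000000000000000000000000000) (nat_lit 0x0) (nat_lit 0xe00060002600080038001c0000000000000000040002000000000000000000000000000) := T_40 (nat_lit 231) (nat_lit 281) (nat_lit 6) (nat_lit 9) (nat_lit 16) L105830 (by decide +kernel)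
theorem L105832 : W_40 (nat_lit 10) (nat_lit 0x1000180014000200000000600020001000080000000000000000000000000000000) (nat_lit 0x0) (nat_lit 0xe0006000260008003c001e0000000000000000040002000000000000000000000000000) := T_40 (nat_lit 214) (nat_lit 197) (nat_lit 6) (nat_lit 9) (nat_lit 15) L105831 (by decide +kernel)
theorem L105833 : W_40 (nat_lit 11) (nat_lit 0x1000180014000200000000400020001000080000000000000000000000000000000) (nat_lit 0x0) (nat_lit 0xe0006000260008003c001e4000200000000000040002000000000000000000000000000) := T_40 (nat_lit 177) (nat_lit 194) (nat_lit 5) (nat_lit 8) (nat_lit 7) L105832 (by decide +kernel)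
theorem L105834 : W_40 (nat_lit 2) (nat_lit 0x3a001c001c0006000000006000200010000c0000000000000000000000000000000) (nat_lit 0x0) (nat_lit 0x8000c000000000000000000000000000000000000000000000000000000000000000000) := D_40 (nat_lit 266) (nat_lit 267) (nat_lit 283) (nat_lit 0) (nat_lit 12) (nat_lit 15) (nat_lit 7) (nat_lit 10) (nat_lit 12) (by decide +kernel)
theorem L105835 : W_40 (nat_lit 3) (nat_lit 0x1a001c001c0006000000006000200010000c0000000000000000000000000000000) (nat_lit 0x0) (nat_lit 0xc000e000000000000000000000000000000000000000000000000000000000000000000) := T_40 (nat_lit 265) (nat_lit 282) (nat_lit 7) (nat_lit 9) (nat_lit 12) L105834 (by decide +kernel)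
theorem L105836 : W_40 (nat_lit 4) (nat_lit 0x1a0018001c0006000000006000200010000c0000000000000000000000000000000) (nat_lit 0x0) (nat_lit 0xc000e000060000000000000000000000000000000000000000000000000000000000000) := T_40 (nat_lit 246) (nat_lit 245) (nat_lit 2) (nat_lit 7) (nat_lit 14) L105835 (by decide +kernel)
theorem L105837 : W_40 (nat_lit 5) (nat_lit 0x1a0018001c000600000000600020001000080000000000000000000000000000000) (nat_lit 0x0) (nat_lit 0xc000e000060000000000000000000000000000040002000000000000000000000000000) := T_40 (nat_lit 126) (nat_lit 109) (nat_lit 4) (nat_lit 8) (nat_lit 10) L105836 (by decide +kernel)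
theorem L105838 : W_40 (nat_lit 6) (nat_lit 0x1a00180014000600000000600020001000080000000000000000000000000000000) (nat_lit 0x0) (nat_lit 0xe000e000060008000000000000000000000000040002000000000000000000000000000) := T_40 (nat_lit 231) (nat_lit 281) (nat_lit 6) (nat_lit 9) (nat_lit 16) L105837 (by decide +kernel)
theorem L105839 : W_40 (nat_lit 7) (nat_lit 0x1a00180014000200000000600020001000080000000000000000000000000000000) (nat_lit 0x0) (nat_lit 0xe000e000060008000400020000000000000000040002000000000000000000000000000) := T_40 (nat_lit 214) (nat_lit 197) (nat_lit 6) (nat_lit 9) (nat_lit 15) L105838 (by decide +kernel)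
theorem L105840 : W_40 (nat_lit 8) (nat_lit 0x1a00180014000200000000400020001000080000000000000000000000000000000) (nat_lit 0x0) (nat_lit 0xe000e000060008000400024000200000000000040002000000000000000000000000000) := T_40 (nat_lit 177) (nat_lit 194) (nat_lit 5) (nat_lit 8) (nat_lit 7) L105839 (by decide +kernel)
theorem L105841 : W_40 (nat_lit 9) (nat_lit 0x1800180014000200000000400020001000080000000000000000000000000000000) (nat_lit 0x0) (nat_lit 0xe000e600060008000400024000200000000000040002000000000000000000000000000) := T_40 (nat_lit 261) (nat_lit 262) (nat_lit 2) (nat_lit 6) (nat_lit 15) L105840 (by decide +kernel)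
theorem L105842 : W_40 (nat_lit 10) (nat_lit 0x1000180014000200000000400020001000080000000000000000000000000000000) (nat_lit 0x0) (nat_lit 0xf000ee00060008000400024000200000000000040002000000000000000000000000000) := T_40 (nat_lit 263) (nat_lit 280) (nat_lit 5) (nat_lit 9) (nat_lit 12) L105841 (by decide +kernel)
theorem L105843 : W_40 (nat_lit 12) (nat_lit 0x1000080014000200000000400020001000080000000000000000000000000000000) (nat_lit 0x0) (nat_lit 0xf000ee00760008003c001e400020000000000014000a000000000000000000000000000) := Q_40 (nat_lit 248) (C_40 L105807 (C_40 L105813 (C_40 L105823 (C_40 L105827 (C_40 L105833 (C_40 L105842 N_40)))))) (by decide +kernel)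
theorem L105844 : W_40 (nat_lit 7) (nat_lit 0x1000080014000200000000600020001000180000000000000000000000000000000) (nat_lit 0x0) (nat_lit 0x70002e00300008000400030000000000000000000000000000000000000000000000000) := T_40 (nat_lit 214) (nat_lit 197) (nat_lit 6) (nat_lit 9) (nat_lit 15) L104714 (by decide +kernel)
theorem L105845 : W_40 (nat_lit 8) (nat_lit 0x1000080014000200000000400020001000180000000000000000000000000000000) (nat_lit 0x0) (nat_lit 0x70002e00300008000400034000200000000000000000000000000000000000000000000) := T_40 (nat_lit 177) (nat_lit 194) (nat_lit 5) (nat_lit 8) (nat_lit 7) L105844 (by decide +kernel)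
theorem L105846 : W_40 (nat_lit 9) (nat_lit 0x1000080014000200000000400020001000080000000000000000000000000000000) (nat_lit 0x0) (nat_lit 0x70002e00300008000400034000200000000000100008000000000000000000000000000) := T_40 (nat_lit 128) (nat_lit 111) (nat_lit 6) (nat_lit 8) (nat_lit 10) L105845 (by decide +kernel)
theorem L105847 : W_40 (nat_lit 5) (nat_lit 0x1000080014000200000000400020001000080000000000000000000000000000000) (nat_lit 0x0) (nat_lit 0x50002e00300000000000010000000000000000000000000000000000000000000000000) := T_40 (nat_lit 265) (nat_lit 282) (nat_lit 7) (nat_lit 9) (nat_lit 12) L105736 (by decide +kernel)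
theorem L105848 : W_40 (nat_lit 2) (nat_lit 0x30000800140002000100006000200010001c0000000000000000000000000000000) (nat_lit 0x0) (nat_lit 0x10000800040000000000000000000000000000000000000000000000000000000000000) := D_40 (nat_lit 263) (nat_lit 246) (nat_lit 280) (nat_lit 5) (nat_lit 9) (nat_lit 11) (nat_lit 5) (nat_lit 9) (nat_lit 12) (by decide +kernel)
theorem L105849 : W_40 (nat_lit 3) (nat_lit 0x30000800140002000000006000200010001c0000000000000000000000000000000) (nat_lit 0x0) (nat_lit 0x10000800140000000000010000000000000000000000000000000000000000000000000) := T_40 (nat_lit 196) (nat_lit 248) (nat_lit 7) (nat_lit 9) (nat_lit 11) L105848 (by decide +kernel)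
theorem L105850 : W_40 (nat_lit 4) (nat_lit 0x30000800140002000000004000200010001c0000000000000000000000000000000) (nat_lit 0x0) (nat_lit 0x10000800140000000000014000200000000000000000000000000000000000000000000) := T_40 (nat_lit 177) (nat_lit 194) (nat_lit 5) (nat_lit 8) (nat_lit 7) L105849 (by decide +kernel)
theorem L105851 : W_40 (nat_lit 5) (nat_lit 0x10000800140002000000004000200010001c0000000000000000000000000000000) (nat_lit 0x0) (nat_lit 0x50002800140000000000014000200000000000000000000000000000000000000000000) := T_40 (nat_lit 265) (nat_lit 282) (nat_lit 7) (nat_lit 9) (nat_lit 12) L105850 (by decide +kernel)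
theorem L105852 : W_40 (nat_lit 6) (nat_lit 0x10000800140002000000004000200010000c0000000000000000000000000000000) (nat_lit 0x0) (nat_lit 0x50002800140000000000014000200000000000100008000000000000000000000000000) := T_40 (nat_lit 128) (nat_lit 111) (nat_lit 6) (nat_lit 8) (nat_lit 10) L105851 (by decide +kernel)
theorem L105853 : W_40 (nat_lit 7) (nat_lit 0x1000080014000200000000400020001000080000000000000000000000000000000) (nat_lit 0x0) (nat_lit 0x5000280014000000000001400020000000000014000a000000000000000000000000000) := T_40 (nat_lit 126) (nat_lit 109) (nat_lit 4) (nat_lit 8) (nat_lit 10) L105852 (by decide +kernel)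
theorem L105854 : W_40 (nat_lit 2) (nat_lit 0x200038000c00140006000000006000200010001c0000000000000000000000000000000) (nat_lit 0x0) (nat_lit 0x4000030000000000000000000000000000000000000000000000000000000000000) := D_40 (nat_lit 245) (nat_lit 244) (nat_lit 266) (nat_lit 3) (nat_lit 6) (nat_lit 14) (nat_lit 0) (nat_lit 11) (nat_lit 15) (by decide +kernel)
theorem L105855 : W_40 (nat_lit 3) (nat_lit 0x200038000800140006000000006000200010001c0000000000000000000000000000000) (nat_lit 0x0) (nat_lit 0x4000070000000000010000000000000000000000000000000000000000000000000) := T_40 (nat_lit 246) (nat_lit 196) (nat_lit 5) (nat_lit 9) (nat_lit 11) L105854 (by decide +kernel)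
theorem L105856 : W_40 (nat_lit 4) (nat_lit 0x200030000800140006000000006000200010001c0000000000000000000000000000000) (nat_lit 0x0) (nat_lit 0x10004800070000000000010000000000000000000000000000000000000000000000000) := T_40 (nat_lit 263) (nat_lit 280) (nat_lit 5) (nat_lit 9) (nat_lit 12) L105855 (by decide +kernel)
theorem L105857 : W_40 (nat_lit 5) (nat_lit 0x30000800140006000000006000200010001c0000000000000000000000000000000) (nat_lit 0x0) (nat_lit 0x30004800070008000000010000000000000000000000000000000000000000000000000) := T_40 (nat_lit 281) (nat_lit 231) (nat_lit 6) (nat_lit 9) (nat_lit 16) L105856 (by decide +kernel)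
theorem L105858 : W_40 (nat_lit 6) (nat_lit 0x30000800140002000000006000200010001c0000000000000000000000000000000) (nat_lit 0x0) (nat_lit 0x30004800070008000400030000000000000000000000000000000000000000000000000) := T_40 (nat_lit 214) (nat_lit 197) (nat_lit 6) (nat_lit 9) (nat_lit 15) L105857 (by decide +kernel)
theorem L105859 : W_40 (nat_lit 7) (nat_lit 0x30000800140002000000004000200010001c0000000000000000000000000000000) (nat_lit 0x0) (nat_lit 0x30004800070008000400034000200000000000000000000000000000000000000000000) := T_40 (nat_lit 177) (nat_lit 194) (nat_lit 5) (nat_lit 8) (nat_lit 7) L105858 (by decide +kernel)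
theorem L105860 : W_40 (nat_lit 8) (nat_lit 0x30000800140002000000004000200010000c0000000000000000000000000000000) (nat_lit 0x0) (nat_lit 0x30004800070008000400034000200000000000100008000000000000000000000000000) := T_40 (nat_lit 128) (nat_lit 111) (nat_lit 6) (nat_lit 8) (nat_lit 10) L105859 (by decide +kernel)
theorem L105861 : W_40 (nat_lit 9) (nat_lit 0x3000080014000200000000400020001000080000000000000000000000000000000) (nat_lit 0x0) (nat_lit 0x3000480007000800040003400020000000000014000a000000000000000000000000000) := T_40 (nat_lit 126) (nat_lit 109) (nat_lit 4) (nat_lit 8) (nat_lit 10) L105860 (by decide +kernel)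
theorem L105862 : W_40 (nat_lit 10) (nat_lit 0x1000080014000200000000400020001000080000000000000000000000000000000) (nat_lit 0x0) (nat_lit 0x7000680007000800040003400020000000000014000a000000000000000000000000000) := T_40 (nat_lit 265) (nat_lit 282) (nat_lit 7) (nat_lit 9) (nat_lit 12) L105861 (by decide +kernel)
theorem L105863 : W_40 (nat_lit 2) (nat_lit 0x30000800140002000100004000200010000c0000000000000000000000000000000) (nat_lit 0x0) (nat_lit 0x400020001000000000000000000000000000000000000000000000) := D_40 (nat_lit 197) (nat_lit 214) (nat_lit 180) (nat_lit 6) (nat_lit 9) (nat_lit 15) (nat_lit 6) (nat_lit 9) (nat_lit 14) (by decide +kernel)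
theorem L105864 : W_40 (nat_lit 3) (nat_lit 0x30000800140002000000004000200010000c0000000000000000000000000000000) (nat_lit 0x0) (nat_lit 0x100000000400030001000000000000000000000000000000000000000000000) := T_40 (nat_lit 196) (nat_lit 248) (nat_lit 7) (nat_lit 9) (nat_lit 11) L105863 (by decide +kernel)
theorem L105865 : W_40 (nat_lit 4) (nat_lit 0x3000080014000200000000400020001000080000000000000000000000000000000) (nat_lit 0x0) (nat_lit 0x100000000400030001000000000000040002000000000000000000000000000) := T_40 (nat_lit 126) (nat_lit 109) (nat_lit 4) (nat_lit 8) (nat_lit 10) L105864 (by decide +kernel)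
theorem L105866 : W_40 (nat_lit 5) (nat_lit 0x1000080014000200000000400020001000080000000000000000000000000000000) (nat_lit 0x0) (nat_lit 0x40002000100000000400030001000000000000040002000000000000000000000000000) := T_40 (nat_lit 265) (nat_lit 282) (nat_lit 7) (nat_lit 9) (nat_lit 12) L105865 (by decide +kernel)
theorem L105867 : W_40 (nat_lit 2) (nat_lit 0x18000800140002000100006000200010001c0000000000000000000000000000000) (nat_lit 0x0) (nat_lit 0x400020001000000000000000000000000000000000000000000000) := D_40 (nat_lit 197) (nat_lit 214) (nat_lit 180) (nat_lit 6) (nat_lit 9) (nat_lit 15) (nat_lit 6) (nat_lit 9) (nat_lit 14) (by decide +kernel)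
theorem L105868 : W_40 (nat_lit 3) (nat_lit 0x18000800140002000000006000200010001c0000000000000000000000000000000) (nat_lit 0x0) (nat_lit 0x40000000400030001000000000000000000000000000000000000000000000) := T_40 (nat_lit 196) (nat_lit 246) (nat_lit 5) (nat_lit 9) (nat_lit 11) L105867 (by decide +kernel)
theorem L105869 : W_40 (nat_lit 4) (nat_lit 0x18000800140002000000004000200010001c0000000000000000000000000000000) (nat_lit 0x0) (nat_lit 0x40000000400034001200000000000000000000000000000000000000000000) := T_40 (nat_lit 177) (nat_lit 194) (nat_lit 5) (nat_lit 8) (nat_lit 7) L105868 (by decide +kernel)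
theorem L105870 : W_40 (nat_lit 5) (nat_lit 0x10000800140002000000004000200010001c0000000000000000000000000000000) (nat_lit 0x0) (nat_lit 0x10000800040000000400034001200000000000000000000000000000000000000000000) := T_40 (nat_lit 263) (nat_lit 280) (nat_lit 5) (nat_lit 9) (nat_lit 12) L105869 (by decide +kernel)
theorem L105871 : W_40 (nat_lit 6) (nat_lit 0x1000080014000200000000400020001000180000000000000000000000000000000) (nat_lit 0x0) (nat_lit 0x10000800040000000400034001200000000000040002000000000000000000000000000) := T_40 (nat_lit 126) (nat_lit 109) (nat_lit 4) (nat_lit 8) (nat_lit 10) L105870 (by decide +kernel)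
theorem L105872 : W_40 (nat_lit 7) (nat_lit 0x1000080014000200000000400020001000080000000000000000000000000000000) (nat_lit 0x0) (nat_lit 0x1000080004000000040003400120000000000014000a000000000000000000000000000) := T_40 (nat_lit 128) (nat_lit 111) (nat_lit 6) (nat_lit 8) (nat_lit 10) L105871 (by decide +kernel)
theorem L105873 : W_40 (nat_lit 13) (nat_lit 0x80014000200000000400020001000080000000000000000000000000000000) (nat_lit 0x0) (nat_lit 0xf000fe00770008003c001f400120000000000014000a000000000000000000000000000) := Q_40 (nat_lit 264) (C_40 L105843 (C_40 L105846 (C_40 L105847 (C_40 L105853 (C_40 L105862 (C_40 L105866 (C_40 L105872 N_40))))))) (by decide +kernel)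
theorem L105874 : W_40 (nat_lit 2) (nat_lit 0x10000800140002000300004000200010000c0000000000000000000000000000000) (nat_lit 0x0) (nat_lit 0x40002000100000000000000000000000000000000000000000000000000000000000000) := D_40 (nat_lit 265) (nat_lit 282) (nat_lit 248) (nat_lit 7) (nat_lit 9) (nat_lit 12) (nat_lit 7) (nat_lit 9) (nat_lit 11) (by decide +kernel)
theorem L105875 : W_40 (nat_lit 3) (nat_lit 0x800140002000300004000200010000c0000000000000000000000000000000) (nat_lit 0x0) (nat_lit 0x40003000100000000400000000000000000000000000000000000000000000000000000) := T_40 (nat_lit 264) (nat_lit 214) (nat_lit 6) (nat_lit 9) (nat_lit 15) L105874 (by decide +kernel)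
theorem L105876 : W_40 (nat_lit 4) (nat_lit 0x800140002000100004000200010000c0000000000000000000000000000000) (nat_lit 0x0) (nat_lit 0x40003000100000000400020001000000000000000000000000000000000000000000000) := T_40 (nat_lit 197) (nat_lit 180) (nat_lit 6) (nat_lit 9) (nat_lit 14) L105875 (by decide +kernel)
theorem L105877 : W_40 (nat_lit 5) (nat_lit 0x80014000200010000400020001000080000000000000000000000000000000) (nat_lit 0x0) (nat_lit 0x40003000100000000400020001000000000000040002000000000000000000000000000) := T_40 (nat_lit 126) (nat_lit 109) (nat_lit 4) (nat_lit 8) (nat_lit 10) L105876 (by decide +kernel)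
theorem L105878 : W_40 (nat_lit 2) (nat_lit 0x1000180014000200030000400020001000080000000000000000000000000000000) (nat_lit 0x0) (nat_lit 0x10000800040000000000000000000000000000000000000000000000000000000000000) := D_40 (nat_lit 263) (nat_lit 280) (nat_lit 246) (nat_lit 5) (nat_lit 9) (nat_lit 12) (nat_lit 5) (nat_lit 9) (nat_lit 11) (by decide +kernel)
theorem L105879 : W_40 (nat_lit 3) (nat_lit 0x180014000200030000400020001000080000000000000000000000000000000) (nat_lit 0x0) (nat_lit 0x10001800040000000400000000000000000000000000000000000000000000000000000) := T_40 (nat_lit 264) (nat_lit 214) (nat_lit 6) (nat_lit 9) (nat_lit 15) L105878 (by decide +kernel)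
theorem L105880 : W_40 (nat_lit 4) (nat_lit 0x180014000200010000400020001000080000000000000000000000000000000) (nat_lit 0x0) (nat_lit 0x10001800040000000400020001000000000000000000000000000000000000000000000) := T_40 (nat_lit 197) (nat_lit 180) (nat_lit 6) (nat_lit 9) (nat_lit 14) L105879 (by decide +kernel)
theorem L105881 : W_40 (nat_lit 5) (nat_lit 0x80014000200010000400020001000080000000000000000000000000000000) (nat_lit 0x0) (nat_lit 0x10003800140000000400020001000000000000000000000000000000000000000000000) := T_40 (nat_lit 248) (nat_lit 265) (nat_lit 7) (nat_lit 9) (nat_lit 11) L105880 (by decide +kernel)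
theorem L105882 : W_40 (nat_lit 2) (nat_lit 0x2800080014000200010000400020001000080000000000000000000000000000000) (nat_lit 0x0) (nat_lit 0x50001000000000000000000000000000000000000000000000000000000000000000000) := D_40 (nat_lit 264) (nat_lit 280) (nat_lit 282) (nat_lit 5) (nat_lit 9) (nat_lit 12) (nat_lit 7) (nat_lit 9) (nat_lit 12) (by decide +kernel)
theorem L105883 : W_40 (nat_lit 3) (nat_lit 0x800080014000200010000400020001000080000000000000000000000000000000) (nat_lit 0x0) (nat_lit 0x50003000100000000000000000000000000000000000000000000000000000000000000) := T_40 (nat_lit 265) (nat_lit 248) (nat_lit 7) (nat_lit 9) (nat_lit 11) L105882 (by decide +kernel)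
theorem L105884 : W_40 (nat_lit 4) (nat_lit 0x80014000200010000400020001000080000000000000000000000000000000) (nat_lit 0x0) (nat_lit 0x50003800140000000000000000000000000000000000000000000000000000000000000) := T_40 (nat_lit 263) (nat_lit 246) (nat_lit 5) (nat_lit 9) (nat_lit 11) L105883 (by decide +kernel)
theorem L105885 : W_40 (nat_lit 9) (nat_lit 0xc0014000200030000400020001000180000000000000000000000000000000) (nat_lit 0x0) (nat_lit 0xe000300020001d000c4004200000000000040002000000000000000000000000000) := T_40 (nat_lit 126) (nat_lit 109) (nat_lit 4) (nat_lit 8) (nat_lit 10) L104516 (by decide +kernel)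
theorem L105886 : W_40 (nat_lit 10) (nat_lit 0x80014000200030000400020001000180000000000000000000000000000000) (nat_lit 0x0) (nat_lit 0xe800340020001d000c4004200000000000040002000000000000000000000000000) := T_40 (nat_lit 246) (nat_lit 263) (nat_lit 5) (nat_lit 9) (nat_lit 11) L105885 (by decide +kernel)
theorem L105887 : W_40 (nat_lit 11) (nat_lit 0x80014000200010000400020001000180000000000000000000000000000000) (nat_lit 0x0) (nat_lit 0xe800340020001d000e4005200000000000040002000000000000000000000000000) := T_40 (nat_lit 197) (nat_lit 180) (nat_lit 6) (nat_lit 9) (nat_lit 14) L105886 (by decide +kernel)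
theorem L105888 : W_40 (nat_lit 12) (nat_lit 0x80014000200010000400020001000080000000000000000000000000000000) (nat_lit 0x0) (nat_lit 0xe800340020001d000e400520000000000014000a000000000000000000000000000) := T_40 (nat_lit 128) (nat_lit 111) (nat_lit 6) (nat_lit 8) (nat_lit 10) L105887 (by decide +kernel)
theorem L105889 : W_40 (nat_lit 2) (nat_lit 0x1000080014000200030000400020001000180000000000000000000000000000000) (nat_lit 0x0) (nat_lit 0x10000800040000000000000000000000000000000000000000000000000000000000000) := D_40 (nat_lit 263) (nat_lit 246) (nat_lit 280) (nat_lit 5) (nat_lit 9) (nat_lit 11) (nat_lit 5) (nat_lit 9) (nat_lit 12) (by decide +kernel)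
theorem L105890 : W_40 (nat_lit 3) (nat_lit 0x80014000200030000400020001000180000000000000000000000000000000) (nat_lit 0x0) (nat_lit 0x10001800040000000400000000000000000000000000000000000000000000000000000) := T_40 (nat_lit 264) (nat_lit 214) (nat_lit 6) (nat_lit 9) (nat_lit 15) L105889 (by decide +kernel)
theorem L105891 : W_40 (nat_lit 4) (nat_lit 0x80014000200010000400020001000180000000000000000000000000000000) (nat_lit 0x0) (nat_lit 0x10001800040000000400020001000000000000000000000000000000000000000000000) := T_40 (nat_lit 197) (nat_lit 180) (nat_lit 6) (nat_lit 9) (nat_lit 14) L105890 (by decide +kernel)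
theorem L105892 : W_40 (nat_lit 5) (nat_lit 0x80014000200010000400020001000080000000000000000000000000000000) (nat_lit 0x0) (nat_lit 0x10001800040000000400020001000000000000100008000000000000000000000000000) := T_40 (nat_lit 128) (nat_lit 111) (nat_lit 6) (nat_lit 8) (nat_lit 10) L105891 (by decide +kernel)
theorem L105893 : W_40 (nat_lit 13) (nat_lit 0x80014000200000000400020001000080000000000000000000000000000000) (nat_lit 0x0) (nat_lit 0x5000f800340020001d000f400520000000000014000a000000000000000000000000000) := Q_40 (nat_lit 196) (C_40 L105877 (C_40 L105881 (C_40 L105884 (C_40 L105888 (C_40 L105892 N_40))))) (by decide +kernel)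
theorem L105894 : W_40 (nat_lit 4) (nat_lit 0x8001c000200000000400020001000080000000000000000000000000000000) (nat_lit 0x0) (nat_lit 0x100060000500000000000000000000100008000000000000000000000000000) := T_40 (nat_lit 128) (nat_lit 111) (nat_lit 6) (nat_lit 8) (nat_lit 10) L104499 (by decide +kernel)
theorem L105895 : W_40 (nat_lit 2) (nat_lit 0x100008001c000200000000400020001000080000000000000000000000000000000) (nat_lit 0x0) (nat_lit 0x20000000000000000400020000000000000000000000000000000000000000000000000) := D_40 (nat_lit 214) (nat_lit 281) (nat_lit 197) (nat_lit 6) (nat_lit 9) (nat_lit 16) (nat_lit 6) (nat_lit 9) (nat_lit 15) (by decide +kernel)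
theorem L105896 : W_40 (nat_lit 2) (nat_lit 0x300008001c000200010000400020001000180000000000000000000000000000000) (nat_lit 0x0) (nat_lit 0x10000800040000000000000000000000000000000000000000000000000000000000000) := D_40 (nat_lit 263) (nat_lit 246) (nat_lit 280) (nat_lit 5) (nat_lit 9) (nat_lit 11) (nat_lit 5) (nat_lit 9) (nat_lit 12) (by decide +kernel)
theorem L105897 : W_40 (nat_lit 3) (nat_lit 0x300008001c000200000000400020001000180000000000000000000000000000000) (nat_lit 0x0) (nat_lit 0x10000800140000000000010000000000000000000000000000000000000000000000000) := T_40 (nat_lit 196) (nat_lit 248) (nat_lit 7) (nat_lit 9) (nat_lit 11) L105896 (by decide +kernel)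
theorem L105898 : W_40 (nat_lit 4) (nat_lit 0x100008001c000200000000400020001000180000000000000000000000000000000) (nat_lit 0x0) (nat_lit 0x50002800140000000000010000000000000000000000000000000000000000000000000) := T_40 (nat_lit 265) (nat_lit 282) (nat_lit 7) (nat_lit 9) (nat_lit 12) L105897 (by decide +kernel)
theorem L105899 : W_40 (nat_lit 5) (nat_lit 0x100008001c000200000000400020001000080000000000000000000000000000000) (nat_lit 0x0) (nat_lit 0x50002800140000000000010000000000000000100008000000000000000000000000000) := T_40 (nat_lit 128) (nat_lit 111) (nat_lit 6) (nat_lit 8) (nat_lit 10) L105898 (by decide +kernel)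
theorem L105900 : W_40 (nat_lit 12) (nat_lit 0x8001c000200000000400020001000080000000000000000000000000000000) (nat_lit 0x0) (nat_lit 0x3f001f800360000003c00070000000000000000100008000000000000000000000000000) := Q_40 (nat_lit 264) (C_40 L105895 (C_40 L104852 (C_40 L105899 N_40))) (by decide +kernel)
theorem L105901 : W_40 (nat_lit 13) (nat_lit 0x80014000200000000400020001000080000000000000000000000000000000) (nat_lit 0x0) (nat_lit 0x3f001f801f60068003d00074000200000000000100008000000000000000000000000000) := Q_40 (nat_lit 231) (C_40 L104500 (C_40 L104171 (C_40 L105894 (C_40 L105900 N_40)))) (by decide +kernel)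
theorem L105902 : W_40 (nat_lit 4) (nat_lit 0x8001c000200000000400020001000080000000000000000000000000000000) (nat_lit 0x0) (nat_lit 0x100060000500000000000000000000040002000000000000000000000000000) := T_40 (nat_lit 126) (nat_lit 109) (nat_lit 4) (nat_lit 8) (nat_lit 10) L104498 (by decide +kernel)
theorem L105903 : W_40 (nat_lit 2) (nat_lit 0x2000300008001c0002000100004000200010000c0000000000000000000000000000000) (nat_lit 0x0) (nat_lit 0x10000800040000000000000000000000000000000000000000000000000000000000000) := D_40 (nat_lit 263) (nat_lit 246) (nat_lit 280) (nat_lit 5) (nat_lit 9) (nat_lit 11) (nat_lit 5) (nat_lit 9) (nat_lit 12) (by decide +kernel)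
theorem L105904 : W_40 (nat_lit 3) (nat_lit 0x2000300008001c0002000000004000200010000c0000000000000000000000000000000) (nat_lit 0x0) (nat_lit 0x10000800140000000000010000000000000000000000000000000000000000000000000) := T_40 (nat_lit 196) (nat_lit 248) (nat_lit 7) (nat_lit 9) (nat_lit 11) L105903 (by decide +kernel)
theorem L105905 : W_40 (nat_lit 4) (nat_lit 0x2000100008001c0002000000004000200010000c0000000000000000000000000000000) (nat_lit 0x0) (nat_lit 0x50002800140000000000010000000000000000000000000000000000000000000000000) := T_40 (nat_lit 265) (nat_lit 282) (nat_lit 7) (nat_lit 9) (nat_lit 12) L105904 (by decide +kernel)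
theorem L105906 : W_40 (nat_lit 5) (nat_lit 0x100008001c0002000000004000200010000c0000000000000000000000000000000) (nat_lit 0x0) (nat_lit 0x70002800140000000400010000000000000000000000000000000000000000000000000) := T_40 (nat_lit 281) (nat_lit 214) (nat_lit 6) (nat_lit 9) (nat_lit 16) L105905 (by decide +kernel)
theorem L105907 : W_40 (nat_lit 6) (nat_lit 0x100008001c000200000000400020001000080000000000000000000000000000000) (nat_lit 0x0) (nat_lit 0x70002800140000000400010000000000000000040002000000000000000000000000000) := T_40 (nat_lit 126) (nat_lit 109) (nat_lit 4) (nat_lit 8) (nat_lit 10) L105906 (by decide +kernel)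
theorem L105908 : W_40 (nat_lit 2) (nat_lit 0x180008001c0002000100004000200010000c0000000000000000000000000000000) (nat_lit 0x0) (nat_lit 0x40002000100000000000000000000000000000000000000000000000000000000000000) := D_40 (nat_lit 265) (nat_lit 282) (nat_lit 248) (nat_lit 7) (nat_lit 9) (nat_lit 12) (nat_lit 7) (nat_lit 9) (nat_lit 11) (by decide +kernel)
theorem L105909 : W_40 (nat_lit 3) (nat_lit 0x180008001c0002000000004000200010000c0000000000000000000000000000000) (nat_lit 0x0) (nat_lit 0x40002000140000000000010000000000000000000000000000000000000000000000000) := T_40 (nat_lit 196) (nat_lit 246) (nat_lit 5) (nat_lit 9) (nat_lit 11) L105908 (by decide +kernel)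
theorem L105910 : W_40 (nat_lit 4) (nat_lit 0x180008001c000200000000400020001000080000000000000000000000000000000) (nat_lit 0x0) (nat_lit 0x40002000140000000000010000000000000000040002000000000000000000000000000) := T_40 (nat_lit 126) (nat_lit 109) (nat_lit 4) (nat_lit 8) (nat_lit 10) L105909 (by decide +kernel)
theorem L105911 : W_40 (nat_lit 5) (nat_lit 0x100008001c000200000000400020001000080000000000000000000000000000000) (nat_lit 0x0) (nat_lit 0x50002800140000000000010000000000000000040002000000000000000000000000000) := T_40 (nat_lit 263) (nat_lit 280) (nat_lit 5) (nat_lit 9) (nat_lit 12) L105910 (by decide +kernel)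
theorem L105912 : W_40 (nat_lit 7) (nat_lit 0x8001c000200000000400020001000080000000000000000000000000000000) (nat_lit 0x0) (nat_lit 0x70003800140000000400030000000000000000040002000000000000000000000000000) := Q_40 (nat_lit 264) (C_40 L105895 (C_40 L105907 (C_40 L105911 N_40))) (by decide +kernel)
theorem L105913 : W_40 (nat_lit 8) (nat_lit 0x80014000200000000400020001000080000000000000000000000000000000) (nat_lit 0x0) (nat_lit 0x70003801d40068000500034000200000000000040002000000000000000000000000000) := Q_40 (nat_lit 231) (C_40 L104500 (C_40 L104171 (C_40 L105902 (C_40 L105912 N_40)))) (by decide +kernel)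
theorem L105914 : W_40 (nat_lit 13) (nat_lit 0x80014000200000000400020001000080000000000000000000000000000000) (nat_lit 0x0) (nat_lit 0x3f001f800360068003d0007000000000000000014000a000000000000000000000000000) := Q_40 (nat_lit 231) (C_40 L105902 (C_40 L105912 (C_40 L105900 (C_40 L104500 N_40)))) (by decide +kernel)
theorem L105915 : W_40 (nat_lit 13) (nat_lit 0x80014000200000000400020001000080000000000000000000000000000000) (nat_lit 0x0) (nat_lit 0x3d001fe00f700e800750001400020000000000014000a000000000000000000000000000) := Q_40 (nat_lit 233) (C_40 L104557 (C_40 L105794 (C_40 L104554 (C_40 L104555 (C_40 L104501 N_40))))) (by decide +kernel)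
theorem L105916 : W_40 (nat_lit 13) (nat_lit 0x80014000200000000400020001000080000000000000000000000000000000) (nat_lit 0x0) (nat_lit 0x3d001fe007700e800710001400020000000000014000a000000000000000000000000000) := Q_40 (nat_lit 233) (C_40 L104554 (C_40 L105794 (C_40 L104501 N_40))) (by decide +kernel)
theorem L105917 : W_40 (nat_lit 9) (nat_lit 0x80014000200000000400020001000080000000000000000000000000000000) (nat_lit 0x0) (nat_lit 0x10001400e8007d000240013801d000000014000a000000000000000000000000000) := Q_40 (nat_lit 233) (C_40 L105801 (C_40 L104554 (C_40 L104557 (C_40 L104503 (C_40 L104501 N_40))))) (by decide +kernel)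
theorem L105918 : W_40 (nat_lit 2) (nat_lit 0x2000380018001c000200000000600020001000080000000000000000000000000000000) (nat_lit 0x0) (nat_lit 0x600200000000000000000000000000000000000000000000000000000000000000) := D_40 (nat_lit 262) (nat_lit 249) (nat_lit 261) (nat_lit 2) (nat_lit 7) (nat_lit 15) (nat_lit 2) (nat_lit 6) (nat_lit 15) (by decide +kernel)
theorem L105919 : W_40 (nat_lit 3) (nat_lit 0x2000300018001c000200000000600020001000080000000000000000000000000000000) (nat_lit 0x0) (nat_lit 0x10000e00200000000000000000000000000000000000000000000000000000000000000) := T_40 (nat_lit 263) (nat_lit 280) (nat_lit 5) (nat_lit 9) (nat_lit 12) L105918 (by decide +kernel)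
theorem L105920 : W_40 (nat_lit 4) (nat_lit 0x2000300008001c000200000000600020001000080000000000000000000000000000000) (nat_lit 0x0) (nat_lit 0x10000e00300000000000010000000000000000000000000000000000000000000000000) := T_40 (nat_lit 248) (nat_lit 196) (nat_lit 7) (nat_lit 9) (nat_lit 11) L105919 (by decide +kernel)
theorem L105921 : W_40 (nat_lit 5) (nat_lit 0x2000100008001c000200000000600020001000080000000000000000000000000000000) (nat_lit 0x0) (nat_lit 0x50002e00300000000000010000000000000000000000000000000000000000000000000) := T_40 (nat_lit 265) (nat_lit 282) (nat_lit 7) (nat_lit 9) (nat_lit 12) L105920 (by decide +kernel)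
theorem L105922 : W_40 (nat_lit 6) (nat_lit 0x100008001c000200000000600020001000080000000000000000000000000000000) (nat_lit 0x0) (nat_lit 0x70002e00300000000400010000000000000000000000000000000000000000000000000) := T_40 (nat_lit 281) (nat_lit 214) (nat_lit 6) (nat_lit 9) (nat_lit 16) L105921 (by decide +kernel)
theorem L105923 : W_40 (nat_lit 7) (nat_lit 0x100008001c000200000000400020001000080000000000000000000000000000000) (nat_lit 0x0) (nat_lit 0x70002e00300000000400014000200000000000000000000000000000000000000000000) := T_40 (nat_lit 177) (nat_lit 194) (nat_lit 5) (nat_lit 8) (nat_lit 7) L105922 (by decide +kernel)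
theorem L105924 : W_40 (nat_lit 2) (nat_lit 0x380018001c0002000000006000200010001c0000000000000000000000000000000) (nat_lit 0x0) (nat_lit 0x600200000000000000000000000000000000000000000000000000000000000000) := D_40 (nat_lit 262) (nat_lit 249) (nat_lit 261) (nat_lit 2) (nat_lit 7) (nat_lit 15) (nat_lit 2) (nat_lit 6) (nat_lit 15) (by decide +kernel)
theorem L105925 : W_40 (nat_lit 3) (nat_lit 0x300018001c0002000000006000200010001c0000000000000000000000000000000) (nat_lit 0x0) (nat_lit 0x10000e00200000000000000000000000000000000000000000000000000000000000000) := T_40 (nat_lit 263) (nat_lit 280) (nat_lit 5) (nat_lit 9) (nat_lit 12) L105924 (by decide +kernel)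
theorem L105926 : W_40 (nat_lit 4) (nat_lit 0x300018001c000200000000600020001000180000000000000000000000000000000) (nat_lit 0x0) (nat_lit 0x10000e00200000000000000000000000000000040002000000000000000000000000000) := T_40 (nat_lit 126) (nat_lit 109) (nat_lit 4) (nat_lit 8) (nat_lit 10) L105925 (by decide +kernel)
theorem L105927 : W_40 (nat_lit 5) (nat_lit 0x300008001c000200000000600020001000180000000000000000000000000000000) (nat_lit 0x0) (nat_lit 0x10000e00300000000000010000000000000000040002000000000000000000000000000) := T_40 (nat_lit 248) (nat_lit 196) (nat_lit 7) (nat_lit 9) (nat_lit 11) L105926 (by decide +kernel)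
theorem L105928 : W_40 (nat_lit 6) (nat_lit 0x100008001c000200000000600020001000180000000000000000000000000000000) (nat_lit 0x0) (nat_lit 0x50002e00300000000000010000000000000000040002000000000000000000000000000) := T_40 (nat_lit 265) (nat_lit 282) (nat_lit 7) (nat_lit 9) (nat_lit 12) L105927 (by decide +kernel)
theorem L105929 : W_40 (nat_lit 7) (nat_lit 0x100008001c000200000000400020001000180000000000000000000000000000000) (nat_lit 0x0) (nat_lit 0x50002e00300000000000014000200000000000040002000000000000000000000000000) := T_40 (nat_lit 177) (nat_lit 194) (nat_lit 5) (nat_lit 8) (nat_lit 7) L105928 (by decide +kernel)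
theorem L105930 : W_40 (nat_lit 8) (nat_lit 0x100008001c000200000000400020001000080000000000000000000000000000000) (nat_lit 0x0) (nat_lit 0x50002e0030000000000001400020000000000014000a000000000000000000000000000) := T_40 (nat_lit 128) (nat_lit 111) (nat_lit 6) (nat_lit 8) (nat_lit 10) L105929 (by decide +kernel)
theorem L105931 : W_40 (nat_lit 9) (nat_lit 0x8001c000200000000400020001000080000000000000000000000000000000) (nat_lit 0x0) (nat_lit 0x70003e0030000000040003400020000000000014000a000000000000000000000000000) := Q_40 (nat_lit 264) (C_40 L105895 (C_40 L105923 (C_40 L105930 N_40))) (by decide +kernel)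
theorem L105932 : W_40 (nat_lit 10) (nat_lit 0x80014000200000000400020001000080000000000000000000000000000000) (nat_lit 0x0) (nat_lit 0x70003e01f0006800750003400020000000000014000a000000000000000000000000000) := Q_40 (nat_lit 231) (C_40 L105931 (C_40 L105902 (C_40 L105894 (C_40 L104497 (C_40 L104490 N_40))))) (by decide +kernel)
theorem L105933 : W_40 (nat_lit 3) (nat_lit 0x48003c0012000000004000200010001c0000000000000000000000000000000) (nat_lit 0x0) (nat_lit 0x1000000040000400020001000000000000000000000000000000000000000000000) := T_40 (nat_lit 214) (nat_lit 234) (nat_lit 0) (nat_lit 13) (nat_lit 13) L104225 (by decide +kernel)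
theorem L105934 : W_40 (nat_lit 4) (nat_lit 0x8003c0012000000004000200010001c0000000000000000000000000000000) (nat_lit 0x0) (nat_lit 0x1000c00040000400020001000000000000000000000000000000000000000000000) := T_40 (nat_lit 250) (nat_lit 251) (nat_lit 3) (nat_lit 9) (nat_lit 13) L105933 (by decide +kernel)
theorem L105935 : W_40 (nat_lit 5) (nat_lit 0x8003c0002000000004000200010001c0000000000000000000000000000000) (nat_lit 0x0) (nat_lit 0x1000c00040003400020001000000000000000000000000000000000000000000000) := T_40 (nat_lit 216) (nat_lit 217) (nat_lit 2) (nat_lit 9) (nat_lit 13) L105934 (by decide +kernel)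
theorem L105936 : W_40 (nat_lit 6) (nat_lit 0x8003c0002000000004000200010000c0000000000000000000000000000000) (nat_lit 0x0) (nat_lit 0x1000c00040003400020001000000000000100008000000000000000000000000000) := T_40 (nat_lit 128) (nat_lit 111) (nat_lit 6) (nat_lit 8) (nat_lit 10) L105935 (by decide +kernel)
theorem L105937 : W_40 (nat_lit 7) (nat_lit 0x800340002000000004000200010000c0000000000000000000000000000000) (nat_lit 0x0) (nat_lit 0x1000c40048003400020001000000000000100008000000000000000000000000000) := T_40 (nat_lit 231) (nat_lit 246) (nat_lit 1) (nat_lit 12) (nat_lit 13) L105936 (by decide +kernel)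
theorem L105938 : W_40 (nat_lit 8) (nat_lit 0x80034000200000000400020001000080000000000000000000000000000000) (nat_lit 0x0) (nat_lit 0x1000c4004800340002000100000000000014000a000000000000000000000000000) := T_40 (nat_lit 126) (nat_lit 109) (nat_lit 4) (nat_lit 8) (nat_lit 10) L105937 (by decide +kernel)
theorem L105939 : W_40 (nat_lit 9) (nat_lit 0x80014000200000000400020001000080000000000000000000000000000000) (nat_lit 0x0) (nat_lit 0x1000c400e8003d000240013801d000000014000a000000000000000000000000000) := Q_40 (nat_lit 233) (C_40 L105801 (C_40 L104501 (C_40 L105938 N_40))) (by decide +kernel)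
theorem L105940 : W_40 (nat_lit 14) (nat_lit 0x14000200000000400020001000080000000000000000000000000000000) (nat_lit 0x0) (nat_lit 0x3f001ff01ff00e9c07d001f40053801d000000014000a000000000000000000000000000) := Q_40 (nat_lit 247) (C_40 L105873 (C_40 L105893 (C_40 L105901 (C_40 L105913 (C_40 L105914 (C_40 L105915 (C_40 L105916 (C_40 L105917 (C_40 L105932 (C_40 L104549 (C_40 L105939 N_40))))))))))) (by decide +kernel)
theorem L105941 : W_40 (nat_lit 14) (nat_lit 0x14000200000000400020001000080000000000000000000000000000000) (nat_lit 0x0) (nat_lit 0xf800fc01fe006a007d001f400720000000000014000a000000000000000000000000000) := Q_40 (nat_lit 231) (C_40 L104763 (C_40 L104831 (C_40 L104824 (C_40 L104816 (C_40 L104765 N_40))))) (by decide +kernel)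
theorem L105942 : W_40 (nat_lit 2) (nat_lit 0x20001fc002000000004000200010001c0000000000000000000000000000000) (nat_lit 0x0) (nat_lit 0x1c000000000000000000000000000000000000000000000000000000000000) := D_40 (nat_lit 243) (nat_lit 244) (nat_lit 242) (nat_lit 1) (nat_lit 9) (nat_lit 13) (nat_lit 1) (nat_lit 8) (nat_lit 13) (by decide +kernel)
theorem L105943 : W_40 (nat_lit 3) (nat_lit 0x20001f8002000000004000200010001c0000000000000000000000000000000) (nat_lit 0x0) (nat_lit 0x1c000400100000000000000000000000000000000000000000000000000000) := T_40 (nat_lit 226) (nat_lit 212) (nat_lit 2) (nat_lit 5) (nat_lit 13) L105942 (by decide +kernel)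
theorem L105944 : W_40 (nat_lit 4) (nat_lit 0x20001f0002000000004000200010001c0000000000000000000000000000000) (nat_lit 0x0) (nat_lit 0x1c000c00500000000000000000000000000000000000000000000000000000) := T_40 (nat_lit 227) (nat_lit 214) (nat_lit 2) (nat_lit 6) (nat_lit 13) L105943 (by decide +kernel)
theorem L105945 : W_40 (nat_lit 5) (nat_lit 0x20001f0002000000004000200010000c0000000000000000000000000000000) (nat_lit 0x0) (nat_lit 0x1c000c00500000000000000000000100008000000000000000000000000000) := T_40 (nat_lit 128) (nat_lit 111) (nat_lit 6) (nat_lit 8) (nat_lit 10) L105944 (by decide +kernel)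
theorem L105946 : W_40 (nat_lit 6) (nat_lit 0x20001e0002000000004000200010000c0000000000000000000000000000000) (nat_lit 0x0) (nat_lit 0x11c001c00500000000000000000000100008000000000000000000000000000) := T_40 (nat_lit 228) (nat_lit 248) (nat_lit 3) (nat_lit 7) (nat_lit 13) L105945 (by decide +kernel)
theorem L105947 : W_40 (nat_lit 7) (nat_lit 0x1e0002000000004000200010000c0000000000000000000000000000000) (nat_lit 0x0) (nat_lit 0x71c001c00500000000000000000000100008000000000000000000000000000) := T_40 (nat_lit 249) (nat_lit 250) (nat_lit 3) (nat_lit 8) (nat_lit 13) L105946 (by decide +kernel)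
theorem L105948 : W_40 (nat_lit 8) (nat_lit 0x1e000200000000400020001000080000000000000000000000000000000) (nat_lit 0x0) (nat_lit 0x71c001c0050000000000000000000014000a000000000000000000000000000) := T_40 (nat_lit 126) (nat_lit 109) (nat_lit 4) (nat_lit 8) (nat_lit 10) L105947 (by decide +kernel)
theorem L105949 : W_40 (nat_lit 2) (nat_lit 0x80004001e0002000000006000200010001c0000000000000000000000000000000) (nat_lit 0x0) (nat_lit 0x80000000100010000000000000000000000000000000000000000000000000) := D_40 (nat_lit 196) (nat_lit 247) (nat_lit 212) (nat_lit 5) (nat_lit 9) (nat_lit 11) (nat_lit 6) (nat_lit 8) (nat_lit 15) (by decide +kernel)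
theorem L105950 : W_40 (nat_lit 3) (nat_lit 0x4001e0002000000006000200010001c0000000000000000000000000000000) (nat_lit 0x0) (nat_lit 0x10000800080000000100010000000000000000000000000000000000000000000000000) := T_40 (nat_lit 263) (nat_lit 280) (nat_lit 6) (nat_lit 8) (nat_lit 16) L105949 (by decide +kernel)
theorem L105951 : W_40 (nat_lit 4) (nat_lit 0x4001e0002000000006000200010000c0000000000000000000000000000000) (nat_lit 0x0) (nat_lit 0x10000800080000000100010000000000000000100008000000000000000000000000000) := T_40 (nat_lit 128) (nat_lit 111) (nat_lit 6) (nat_lit 8) (nat_lit 10) L105950 (by decide +kernel)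
theorem L105952 : W_40 (nat_lit 5) (nat_lit 0x1e0002000000006000200010000c0000000000000000000000000000000) (nat_lit 0x0) (nat_lit 0x100008000e0000000100010000000000000000100008000000000000000000000000000) := T_40 (nat_lit 246) (nat_lit 245) (nat_lit 1) (nat_lit 11) (nat_lit 13) L105951 (by decide +kernel)
theorem L105953 : W_40 (nat_lit 6) (nat_lit 0x1e000200000000600020001000080000000000000000000000000000000) (nat_lit 0x0) (nat_lit 0x100008000e000000010001000000000000000014000a000000000000000000000000000) := T_40 (nat_lit 126) (nat_lit 109) (nat_lit 4) (nat_lit 8) (nat_lit 10) L105952 (by decide +kernel)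
theorem L105954 : W_40 (nat_lit 7) (nat_lit 0x1e000200000000400020001000080000000000000000000000000000000) (nat_lit 0x0) (nat_lit 0x100008000e000000010001400020000000000014000a000000000000000000000000000) := T_40 (nat_lit 177) (nat_lit 194) (nat_lit 5) (nat_lit 8) (nat_lit 7) L105953 (by decide +kernel)
theorem L105955 : W_40 (nat_lit 9) (nat_lit 0x1c000200000000400020001000080000000000000000000000000000000) (nat_lit 0x0) (nat_lit 0x100008007fc003c0050001400020000000000014000a000000000000000000000000000) := Q_40 (nat_lit 229) (C_40 L104359 (C_40 L104728 (C_40 L105948 (C_40 L105954 N_40)))) (by decide +kernel)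
theorem L105956 : W_40 (nat_lit 10) (nat_lit 0x14000200000000400020001000080000000000000000000000000000000) (nat_lit 0x0) (nat_lit 0x10004801ffc1ebc0750009400420000000000014000a000000000000000000000000000) := Q_40 (nat_lit 231) (C_40 L105955 (C_40 L104824 (C_40 L104810 (C_40 L104765 (C_40 L104831 N_40))))) (by decide +kernel)
theorem L105957 : W_40 (nat_lit 13) (nat_lit 0x1c000200000000400020001000080000000000000000000000000000000) (nat_lit 0x0) (nat_lit 0xd000ec007fc003c01d0006400220000000000014000a000000000000000000000000000) := Q_40 (nat_lit 229) (C_40 L105948 (C_40 L104808 (C_40 L104338 (C_40 L104820 N_40)))) (by decide +kernel)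
theorem L105958 : W_40 (nat_lit 14) (nat_lit 0x14000200000000400020001000080000000000000000000000000000000) (nat_lit 0x0) (nat_lit 0x1d000ec01ffc06bc07d0006400220000000000014000a000000000000000000000000000) := Q_40 (nat_lit 231) (C_40 L105957 (C_40 L104824 (C_40 L105754 (C_40 L104816 (C_40 L104765 N_40))))) (by decide +kernel)
theorem L105959 : W_40 (nat_lit 2) (nat_lit 0x20001e000e000000006000200010000c0000000000000000000000000000000) (nat_lit 0x0) (nat_lit 0x80004000000000000000020000000000000000000000000000000000000000000000000) := D_40 (nat_lit 266) (nat_lit 197) (nat_lit 283) (nat_lit 4) (nat_lit 11) (nat_lit 15) (nat_lit 4) (nat_lit 11) (nat_lit 16) (by decide +kernel)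
theorem L105960 : W_40 (nat_lit 3) (nat_lit 0x20001e000a000000006000200010000c0000000000000000000000000000000) (nat_lit 0x0) (nat_lit 0x80004000000001000400020000000000000000000000000000000000000000000000000) := T_40 (nat_lit 214) (nat_lit 228) (nat_lit 2) (nat_lit 7) (nat_lit 13) L105959 (by decide +kernel)
theorem L105961 : W_40 (nat_lit 4) (nat_lit 0x20001e0002000000006000200010000c0000000000000000000000000000000) (nat_lit 0x0) (nat_lit 0x80004000000001001c00020000000000000000000000000000000000000000000000000) := T_40 (nat_lit 215) (nat_lit 216) (nat_lit 2) (nat_lit 8) (nat_lit 13) L105960 (by decide +kernel)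
theorem L105962 : W_40 (nat_lit 5) (nat_lit 0x1e0002000000006000200010000c0000000000000000000000000000000) (nat_lit 0x0) (nat_lit 0x80004000600001001c00020000000000000000000000000000000000000000000000000) := T_40 (nat_lit 249) (nat_lit 250) (nat_lit 3) (nat_lit 8) (nat_lit 13) L105961 (by decide +kernel)
theorem L105963 : W_40 (nat_lit 6) (nat_lit 0x1e000200000000600020001000080000000000000000000000000000000) (nat_lit 0x0) (nat_lit 0x80004000600001001c00020000000000000000040002000000000000000000000000000) := T_40 (nat_lit 126) (nat_lit 109) (nat_lit 4) (nat_lit 8) (nat_lit 10) L105962 (by decide +kernel)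
theorem L105964 : W_40 (nat_lit 7) (nat_lit 0x1e000200000000400020001000080000000000000000000000000000000) (nat_lit 0x0) (nat_lit 0x80004000600001001c00024000200000000000040002000000000000000000000000000) := T_40 (nat_lit 177) (nat_lit 194) (nat_lit 5) (nat_lit 8) (nat_lit 7) L105963 (by decide +kernel)
theorem L105965 : W_40 (nat_lit 2) (nat_lit 0x1c001a00000000600020001000080000000000000000000000000000000) (nat_lit 0x0) (nat_lit 0x6400000000000000000000000000000000000000000000000000000) := D_40 (nat_lit 217) (nat_lit 218) (nat_lit 214) (nat_lit 1) (nat_lit 14) (nat_lit 12) (nat_lit 1) (nat_lit 13) (nat_lit 12) (by decide +kernel)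
theorem L105966 : W_40 (nat_lit 3) (nat_lit 0x1c000a00000000600020001000080000000000000000000000000000000) (nat_lit 0x0) (nat_lit 0x2007400000000000000000000000000000000000000000000000000000) := T_40 (nat_lit 216) (nat_lit 229) (nat_lit 2) (nat_lit 8) (nat_lit 13) L105965 (by decide +kernel)
theorem L105967 : W_40 (nat_lit 4) (nat_lit 0x1c000a00000000400020001000080000000000000000000000000000000) (nat_lit 0x0) (nat_lit 0x2007400004000200000000000000000000000000000000000000000000) := T_40 (nat_lit 177) (nat_lit 194) (nat_lit 5) (nat_lit 8) (nat_lit 7) L105966 (by decide +kernel)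
theorem L105968 : W_40 (nat_lit 2) (nat_lit 0x200010001c000200000000400020001000180000000000000000000000000000000) (nat_lit 0x0) (nat_lit 0x80000000400010000000000000000000000000000000000000000000000000) := D_40 (nat_lit 196) (nat_lit 214) (nat_lit 247) (nat_lit 4) (nat_lit 10) (nat_lit 15) (nat_lit 7) (nat_lit 9) (nat_lit 11) (by decide +kernel)
theorem L105969 : W_40 (nat_lit 3) (nat_lit 0x10001c000200000000400020001000180000000000000000000000000000000) (nat_lit 0x0) (nat_lit 0x40002000080000000400010000000000000000000000000000000000000000000000000) := T_40 (nat_lit 265) (nat_lit 282) (nat_lit 4) (nat_lit 10) (nat_lit 16) L105968 (by decide +kernel)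
theorem L105970 : W_40 (nat_lit 4) (nat_lit 0x10001c000200000000400020001000080000000000000000000000000000000) (nat_lit 0x0) (nat_lit 0x40002000080000000400010000000000000000100008000000000000000000000000000) := T_40 (nat_lit 128) (nat_lit 111) (nat_lit 6) (nat_lit 8) (nat_lit 10) L105969 (by decide +kernel)
theorem L105971 : W_40 (nat_lit 2) (nat_lit 0xa80078001c0002000400006000200010000c0000000000000000000000000000000) (nat_lit 0x0) (nat_lit 0x4400040000000000000000000000000000000000000000000000000000000000000) := D_40 (nat_lit 246) (nat_lit 266) (nat_lit 262) (nat_lit 3) (nat_lit 8) (nat_lit 14) (nat_lit 1) (nat_lit 11) (nat_lit 14) (by decide +kernel)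
theorem L105972 : W_40 (nat_lit 3) (nat_lit 0x280078001c0002000400006000200010000c0000000000000000000000000000000) (nat_lit 0x0) (nat_lit 0x1c400040000000000000000000000000000000000000000000000000000000000000) := T_40 (nat_lit 267) (nat_lit 268) (nat_lit 3) (nat_lit 9) (nat_lit 14) L105971 (by decide +kernel)
theorem L105973 : W_40 (nat_lit 4) (nat_lit 0x200078001c0002000400006000200010000c0000000000000000000000000000000) (nat_lit 0x0) (nat_lit 0x1dc00040000000000000000000000000000000000000000000000000000000000000) := T_40 (nat_lit 263) (nat_lit 264) (nat_lit 1) (nat_lit 12) (nat_lit 14) L105972 (by decide +kernel)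
theorem L105974 : W_40 (nat_lit 5) (nat_lit 0x200078001c0002000000006000200010000c0000000000000000000000000000000) (nat_lit 0x0) (nat_lit 0x1dc00040000000800040000000000000000000000000000000000000000000000000) := T_40 (nat_lit 198) (nat_lit 215) (nat_lit 5) (nat_lit 11) (nat_lit 11) L105973 (by decide +kernel)
theorem L105975 : W_40 (nat_lit 6) (nat_lit 0x200070001c0002000000006000200010000c0000000000000000000000000000000) (nat_lit 0x0) (nat_lit 0x1dc000c0000000800050000000000000000000000000000000000000000000000000) := T_40 (nat_lit 247) (nat_lit 196) (nat_lit 7) (nat_lit 9) (nat_lit 11) L105974 (by decide +kernel)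
theorem L105976 : W_40 (nat_lit 7) (nat_lit 0x200070001c000200000000600020001000080000000000000000000000000000000) (nat_lit 0x0) (nat_lit 0x1dc000c0000000800050000000000000000040002000000000000000000000000000) := T_40 (nat_lit 126) (nat_lit 109) (nat_lit 4) (nat_lit 8) (nat_lit 10) L105975 (by decide +kernel)
theorem L105977 : W_40 (nat_lit 8) (nat_lit 0x70001c000200000000600020001000080000000000000000000000000000000) (nat_lit 0x0) (nat_lit 0x4001fc000c0000000800050000000000000000040002000000000000000000000000000) := T_40 (nat_lit 265) (nat_lit 282) (nat_lit 4) (nat_lit 10) (nat_lit 16) L105976 (by decide +kernel)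
theorem L105978 : W_40 (nat_lit 9) (nat_lit 0x30001c000200000000600020001000080000000000000000000000000000000) (nat_lit 0x0) (nat_lit 0x4001fc00cc0000000800050000000000000000040002000000000000000000000000000) := T_40 (nat_lit 250) (nat_lit 251) (nat_lit 0) (nat_lit 13) (nat_lit 14) L105977 (by decide +kernel)
theorem L105979 : W_40 (nat_lit 10) (nat_lit 0x30001c000200000000400020001000080000000000000000000000000000000) (nat_lit 0x0) (nat_lit 0x4001fc00cc0000000800054000200000000000040002000000000000000000000000000) := T_40 (nat_lit 177) (nat_lit 194) (nat_lit 5) (nat_lit 8) (nat_lit 7) L105978 (by decide +kernel)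
theorem L105980 : W_40 (nat_lit 4) (nat_lit 0x30001c0002000000006000200010000c0000000000000000000000000000000) (nat_lit 0x0) (nat_lit 0x40002000000003001800040000000000000000000000000000000000000000000000000) := T_40 (nat_lit 229) (nat_lit 228) (nat_lit 3) (nat_lit 7) (nat_lit 13) L104389 (by decide +kernel)
theorem L105981 : W_40 (nat_lit 5) (nat_lit 0x30001c0002000000004000200010000c0000000000000000000000000000000) (nat_lit 0x0) (nat_lit 0x40002000000003001800044000200000000000000000000000000000000000000000000) := T_40 (nat_lit 177) (nat_lit 194) (nat_lit 5) (nat_lit 8) (nat_lit 7) L105980 (by decide +kernel)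
theorem L105982 : W_40 (nat_lit 6) (nat_lit 0x30001c000200000000400020001000080000000000000000000000000000000) (nat_lit 0x0) (nat_lit 0x40002000000003001800044000200000000000040002000000000000000000000000000) := T_40 (nat_lit 126) (nat_lit 109) (nat_lit 4) (nat_lit 8) (nat_lit 10) L105981 (by decide +kernel)
theorem L105983 : W_40 (nat_lit 11) (nat_lit 0x10001c000200000000400020001000080000000000000000000000000000000) (nat_lit 0x0) (nat_lit 0x4001fc00ec0003001800054000200000000000040002000000000000000000000000000) := Q_40 (nat_lit 249) (C_40 L104393 (C_40 L105979 (C_40 L105982 N_40))) (by decide +kernel)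
theorem L105984 : W_40 (nat_lit 2) (nat_lit 0x10001fc00a400000004000200010000c0000000000000000000000000000000) (nat_lit 0x0) (nat_lit 0x1c000000000000000000000000000000000000000000000000000000000000) := D_40 (nat_lit 243) (nat_lit 242) (nat_lit 244) (nat_lit 1) (nat_lit 8) (nat_lit 13) (nat_lit 1) (nat_lit 9) (nat_lit 13) (by decide +kernel)
theorem L105985 : W_40 (nat_lit 3) (nat_lit 0x10001f800a400000004000200010000c0000000000000000000000000000000) (nat_lit 0x0) (nat_lit 0x1c000400100000000000000000000000000000000000000000000000000000) := T_40 (nat_lit 226) (nat_lit 212) (nat_lit 2) (nat_lit 5) (nat_lit 13) L105984 (by decide +kernel)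
theorem L105986 : W_40 (nat_lit 4) (nat_lit 0x10001f800a000000004000200010000c0000000000000000000000000000000) (nat_lit 0x0) (nat_lit 0x1c000400160000000000000000000000000000000000000000000000000000) := T_40 (nat_lit 210) (nat_lit 209) (nat_lit 0) (nat_lit 9) (nat_lit 13) L105985 (by decide +kernel)
theorem L105987 : W_40 (nat_lit 5) (nat_lit 0x10001f000a000000004000200010000c0000000000000000000000000000000) (nat_lit 0x0) (nat_lit 0x9c000c00160000000000000000000000000000000000000000000000000000) := T_40 (nat_lit 227) (nat_lit 247) (nat_lit 3) (nat_lit 6) (nat_lit 13) L105986 (by decide +kernel)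
theorem L105988 : W_40 (nat_lit 6) (nat_lit 0x10001e000a000000004000200010000c0000000000000000000000000000000) (nat_lit 0x0) (nat_lit 0x9c001c00560000000000000000000000000000000000000000000000000000) := T_40 (nat_lit 228) (nat_lit 214) (nat_lit 2) (nat_lit 7) (nat_lit 13) L105987 (by decide +kernel)
theorem L105989 : W_40 (nat_lit 7) (nat_lit 0x10001e0002000000004000200010000c0000000000000000000000000000000) (nat_lit 0x0) (nat_lit 0x9c001c01d60000000000000000000000000000000000000000000000000000) := T_40 (nat_lit 215) (nat_lit 216) (nat_lit 2) (nat_lit 8) (nat_lit 13) L105988 (by decide +kernel)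
theorem L105990 : W_40 (nat_lit 8) (nat_lit 0x10001e000200000000400020001000080000000000000000000000000000000) (nat_lit 0x0) (nat_lit 0x9c001c01d60000000000000000000040002000000000000000000000000000) := T_40 (nat_lit 126) (nat_lit 109) (nat_lit 4) (nat_lit 8) (nat_lit 10) L105989 (by decide +kernel)
theorem L105991 : W_40 (nat_lit 11) (nat_lit 0x10001c000200000000400020001000080000000000000000000000000000000) (nat_lit 0x0) (nat_lit 0x400069c003c01d601e400720000000000014000a000000000000000000000000000) := Q_40 (nat_lit 229) (C_40 L105737 (C_40 L104751 (C_40 L105990 N_40))) (by decide +kernel)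
theorem L105992 : W_40 (nat_lit 12) (nat_lit 0x1c000200000000400020001000080000000000000000000000000000000) (nat_lit 0x0) (nat_lit 0x4001fc00fdc003c01d601f400720000000000014000a000000000000000000000000000) := Q_40 (nat_lit 248) (C_40 L105970 (C_40 L105738 (C_40 L105983 (C_40 L105991 N_40)))) (by decide +kernel)
theorem L105993 : W_40 (nat_lit 13) (nat_lit 0x14000200000000400020001000080000000000000000000000000000000) (nat_lit 0x0) (nat_lit 0x14001fc01fdc06bc07d601f400720000000000014000a000000000000000000000000000) := Q_40 (nat_lit 231) (C_40 L105992 (C_40 L104824 (C_40 L105754 (C_40 L104816 (C_40 L104765 N_40))))) (by decide +kernel)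
theorem L105994 : W_40 (nat_lit 2) (nat_lit 0x1001fc00a000000006000200010001c0000000000000000000000000000000) (nat_lit 0x0) (nat_lit 0x70000000000000000000000000000000000000000000000000000) := D_40 (nat_lit 209) (nat_lit 208) (nat_lit 210) (nat_lit 0) (nat_lit 8) (nat_lit 13) (nat_lit 0) (nat_lit 9) (nat_lit 13) (by decide +kernel)
theorem L105995 : W_40 (nat_lit 3) (nat_lit 0x1001f800a000000006000200010001c0000000000000000000000000000000) (nat_lit 0x0) (nat_lit 0x400170000000000000000000000000000000000000000000000000000) := T_40 (nat_lit 226) (nat_lit 212) (nat_lit 2) (nat_lit 5) (nat_lit 13) L105994 (by decide +kernel)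
theorem L105996 : W_40 (nat_lit 4) (nat_lit 0x1001f800a000000006000200010000c0000000000000000000000000000000) (nat_lit 0x0) (nat_lit 0x400170000000000000000000100008000000000000000000000000000) := T_40 (nat_lit 128) (nat_lit 111) (nat_lit 6) (nat_lit 8) (nat_lit 10) L105995 (by decide +kernel)
theorem L105997 : W_40 (nat_lit 5) (nat_lit 0x1001f000a000000006000200010000c0000000000000000000000000000000) (nat_lit 0x0) (nat_lit 0x8000c00170000000000000000000100008000000000000000000000000000) := T_40 (nat_lit 227) (nat_lit 243) (nat_lit 1) (nat_lit 9) (nat_lit 13) L105996 (by decide +kernel)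
theorem L105998 : W_40 (nat_lit 6) (nat_lit 0x1001f000a000000004000200010000c0000000000000000000000000000000) (nat_lit 0x0) (nat_lit 0x8000c00170004000200000000000100008000000000000000000000000000) := T_40 (nat_lit 177) (nat_lit 194) (nat_lit 5) (nat_lit 8) (nat_lit 7) L105997 (by decide +kernel)
theorem L105999 : W_40 (nat_lit 7) (nat_lit 0x1f000a000000004000200010000c0000000000000000000000000000000) (nat_lit 0x0) (nat_lit 0x38000c00170004000200000000000100008000000000000000000000000000) := T_40 (nat_lit 244) (nat_lit 245) (nat_lit 1) (nat_lit 10) (nat_lit 13) L105998 (by decide +kernel)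
theorem L106000 : W_40 (nat_lit 8) (nat_lit 0x1e000a000000004000200010000c0000000000000000000000000000000) (nat_lit 0x0) (nat_lit 0x38001c00570004000200000000000100008000000000000000000000000000) := T_40 (nat_lit 228) (nat_lit 214) (nat_lit 2) (nat_lit 7) (nat_lit 13) L105999 (by decide +kernel)
theorem L106001 : W_40 (nat_lit 9) (nat_lit 0x1e0002000000004000200010000c0000000000000000000000000000000) (nat_lit 0x0) (nat_lit 0x38001c01d70004000200000000000100008000000000000000000000000000) := T_40 (nat_lit 215) (nat_lit 216) (nat_lit 2) (nat_lit 8) (nat_lit 13) L106000 (by decide +kernel)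
theorem L106002 : W_40 (nat_lit 10) (nat_lit 0x1e000200000000400020001000080000000000000000000000000000000) (nat_lit 0x0) (nat_lit 0x38001c01d7000400020000000000014000a000000000000000000000000000) := T_40 (nat_lit 126) (nat_lit 109) (nat_lit 4) (nat_lit 8) (nat_lit 10) L106001 (by decide +kernel)
theorem L106003 : W_40 (nat_lit 12) (nat_lit 0x1c000200000000400020001000080000000000000000000000000000000) (nat_lit 0x0) (nat_lit 0x400060007bc003c01d701f400720000000000014000a000000000000000000000000000) := Q_40 (nat_lit 229) (C_40 L106002 (C_40 L104803 (C_40 L104752 (C_40 L104820 (C_40 L105948 N_40))))) (by decide +kernel)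
theorem L106004 : W_40 (nat_lit 2) (nat_lit 0x10007e0012000000006000200010001c0000000000000000000000000000000) (nat_lit 0x0) (nat_lit 0x200081000000000000000000000000000000000000000000000000000000000) := D_40 (nat_lit 249) (nat_lit 235) (nat_lit 228) (nat_lit 1) (nat_lit 14) (nat_lit 13) (nat_lit 3) (nat_lit 7) (nat_lit 13) (by decide +kernel)
theorem L106005 : W_40 (nat_lit 3) (nat_lit 0x7e0012000000006000200010001c0000000000000000000000000000000) (nat_lit 0x0) (nat_lit 0x380081000000000000000000000000000000000000000000000000000000000) := T_40 (nat_lit 248) (nat_lit 247) (nat_lit 1) (nat_lit 13) (nat_lit 13) L106004 (by decide +kernel)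
theorem L106006 : W_40 (nat_lit 4) (nat_lit 0x3e0012000000006000200010001c0000000000000000000000000000000) (nat_lit 0x0) (nat_lit 0x3800c1000400000000000000000000000000000000000000000000000000000) := T_40 (nat_lit 234) (nat_lit 214) (nat_lit 0) (nat_lit 13) (nat_lit 13) L106005 (by decide +kernel)
theorem L106007 : W_40 (nat_lit 5) (nat_lit 0x3c0012000000006000200010001c0000000000000000000000000000000) (nat_lit 0x0) (nat_lit 0x3800c3000c00000000000000000000000000000000000000000000000000000) := T_40 (nat_lit 229) (nat_lit 215) (nat_lit 2) (nat_lit 8) (nat_lit 13) L106006 (by decide +kernel)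
theorem L106008 : W_40 (nat_lit 6) (nat_lit 0x3c0002000000006000200010001c0000000000000000000000000000000) (nat_lit 0x0) (nat_lit 0x3800c3003c00000000000000000000000000000000000000000000000000000) := T_40 (nat_lit 216) (nat_lit 217) (nat_lit 2) (nat_lit 9) (nat_lit 13) L106007 (by decide +kernel)
theorem L106009 : W_40 (nat_lit 7) (nat_lit 0x3c0002000000006000200010000c0000000000000000000000000000000) (nat_lit 0x0) (nat_lit 0x3800c3003c00000000000000000000100008000000000000000000000000000) := T_40 (nat_lit 128) (nat_lit 111) (nat_lit 6) (nat_lit 8) (nat_lit 10) L106008 (by decide +kernel)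
theorem L106010 : W_40 (nat_lit 8) (nat_lit 0x1c0002000000006000200010000c0000000000000000000000000000000) (nat_lit 0x0) (nat_lit 0x3800e3003d00000000000000000000100008000000000000000000000000000) := T_40 (nat_lit 233) (nat_lit 212) (nat_lit 0) (nat_lit 12) (nat_lit 13) L106009 (by decide +kernel)
theorem L106011 : W_40 (nat_lit 9) (nat_lit 0x1c0002000000004000200010000c0000000000000000000000000000000) (nat_lit 0x0) (nat_lit 0x3800e3003d00004000200000000000100008000000000000000000000000000) := T_40 (nat_lit 177) (nat_lit 194) (nat_lit 5) (nat_lit 8) (nat_lit 7) L106010 (by decide +kernel)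
theorem L106012 : W_40 (nat_lit 10) (nat_lit 0x1c000200000000400020001000080000000000000000000000000000000) (nat_lit 0x0) (nat_lit 0x3800e3003d0000400020000000000014000a000000000000000000000000000) := T_40 (nat_lit 126) (nat_lit 109) (nat_lit 4) (nat_lit 8) (nat_lit 10) L106011 (by decide +kernel)
theorem L106013 : W_40 (nat_lit 13) (nat_lit 0x14000200000000400020001000080000000000000000000000000000000) (nat_lit 0x0) (nat_lit 0x14000e001fbc0ebc07d701f400720000000000014000a000000000000000000000000000) := Q_40 (nat_lit 231) (C_40 L106003 (C_40 L104822 (C_40 L105754 (C_40 L104754 (C_40 L104831 (C_40 L106012 N_40)))))) (by decide +kernel)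
theorem L106014 : W_40 (nat_lit 2) (nat_lit 0x800140006000200006000e00010001c0000000000000000000000000000000) (nat_lit 0x0) (nat_lit 0x180010000000000000000000000000000000000000000) := D_40 (nat_lit 176) (nat_lit 160) (nat_lit 175) (nat_lit 1) (nat_lit 10) (nat_lit 9) (nat_lit 2) (nat_lit 5) (nat_lit 10) (by decide +kernel)
theorem L106015 : W_40 (nat_lit 3) (nat_lit 0x800140006000200006000a00010001c0000000000000000000000000000000) (nat_lit 0x0) (nat_lit 0x180150000000000000000000000000000000000000000) := T_40 (nat_lit 162) (nat_lit 164) (nat_lit 1) (nat_lit 11) (nat_lit 9) L106014 (by decide +kernel)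
theorem L106016 : W_40 (nat_lit 4) (nat_lit 0x800140006000200004000a00010001c0000000000000000000000000000000) (nat_lit 0x0) (nat_lit 0x4000380150000000000000000000000000000000000000000) := T_40 (nat_lit 177) (nat_lit 194) (nat_lit 5) (nat_lit 8) (nat_lit 7) L106015 (by decide +kernel)
theorem L106017 : W_40 (nat_lit 5) (nat_lit 0x800140006000200004000200010001c0000000000000000000000000000000) (nat_lit 0x0) (nat_lit 0x40013801d0000000000000000000000000000000000000000) := T_40 (nat_lit 163) (nat_lit 180) (nat_lit 5) (nat_lit 10) (nat_lit 9) L106016 (by decide +kernel)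
theorem L106018 : W_40 (nat_lit 6) (nat_lit 0x80014000600020000400020001000180000000000000000000000000000000) (nat_lit 0x0) (nat_lit 0x40013801d0000000040002000000000000000000000000000) := T_40 (nat_lit 126) (nat_lit 109) (nat_lit 4) (nat_lit 8) (nat_lit 10) L106017 (by decide +kernel)
theorem L106019 : W_40 (nat_lit 7) (nat_lit 0x80014000200020000400020001000180000000000000000000000000000000) (nat_lit 0x0) (nat_lit 0x10000000000004000040013801d0000000040002000000000000000000000000000) := T_40 (nat_lit 214) (nat_lit 264) (nat_lit 6) (nat_lit 9) (nat_lit 15) L106018 (by decide +kernel)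
theorem L106020 : W_40 (nat_lit 8) (nat_lit 0x80014000200020000400020001000080000000000000000000000000000000) (nat_lit 0x0) (nat_lit 0x10000000000004000040013801d000000014000a000000000000000000000000000) := T_40 (nat_lit 128) (nat_lit 111) (nat_lit 6) (nat_lit 8) (nat_lit 10) L106019 (by decide +kernel)
theorem L106021 : W_40 (nat_lit 2) (nat_lit 0x3000080014000200020000600020001000180000000000000000000000000000000) (nat_lit 0x0) (nat_lit 0x100000000000010001000000000000000000000000000000000000000000000) := D_40 (nat_lit 196) (nat_lit 180) (nat_lit 248) (nat_lit 6) (nat_lit 9) (nat_lit 14) (nat_lit 7) (nat_lit 9) (nat_lit 11) (by decide +kernel)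
theorem L106022 : W_40 (nat_lit 3) (nat_lit 0x1000080014000200020000600020001000180000000000000000000000000000000) (nat_lit 0x0) (nat_lit 0x40002000100000000000010001000000000000000000000000000000000000000000000) := T_40 (nat_lit 265) (nat_lit 282) (nat_lit 7) (nat_lit 9) (nat_lit 12) L106021 (by decide +kernel)
theorem L106023 : W_40 (nat_lit 4) (nat_lit 0x80014000200020000600020001000180000000000000000000000000000000) (nat_lit 0x0) (nat_lit 0x40003000100000000400010001000000000000000000000000000000000000000000000) := T_40 (nat_lit 264) (nat_lit 214) (nat_lit 6) (nat_lit 9) (nat_lit 15) L106022 (by decide +kernel)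
theorem L106024 : W_40 (nat_lit 5) (nat_lit 0x80014000200020000600020001000080000000000000000000000000000000) (nat_lit 0x0) (nat_lit 0x40003000100000000400010001000000000000100008000000000000000000000000000) := T_40 (nat_lit 128) (nat_lit 111) (nat_lit 6) (nat_lit 8) (nat_lit 10) L106023 (by decide +kernel)
theorem L106025 : W_40 (nat_lit 6) (nat_lit 0x80014000200020000400020001000080000000000000000000000000000000) (nat_lit 0x0) (nat_lit 0x40003000100000000400014001200000000000100008000000000000000000000000000) := T_40 (nat_lit 177) (nat_lit 194) (nat_lit 5) (nat_lit 8) (nat_lit 7) L106024 (by decide +kernel)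
theorem L106026 : W_40 (nat_lit 4) (nat_lit 0x80014000200030000400020001000080000000000000000000000000000000) (nat_lit 0x0) (nat_lit 0x10003800140000000400000000000000000000000000000000000000000000000000000) := T_40 (nat_lit 248) (nat_lit 265) (nat_lit 7) (nat_lit 9) (nat_lit 11) L105879 (by decide +kernel)
theorem L106027 : W_40 (nat_lit 5) (nat_lit 0x80014000200020000400020001000080000000000000000000000000000000) (nat_lit 0x0) (nat_lit 0x10003800140000000400010001000000000000000000000000000000000000000000000) := T_40 (nat_lit 196) (nat_lit 180) (nat_lit 6) (nat_lit 9) (nat_lit 14) L106026 (by decide +kernel)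
theorem L106028 : W_40 (nat_lit 2) (nat_lit 0x38000800140002000200006000200010001c0000000000000000000000000000000) (nat_lit 0x0) (nat_lit 0x140000000000010000000000000000000000000000000000000000000000000) := D_40 (nat_lit 196) (nat_lit 248) (nat_lit 246) (nat_lit 7) (nat_lit 9) (nat_lit 11) (nat_lit 5) (nat_lit 9) (nat_lit 11) (by decide +kernel)
theorem L106029 : W_40 (nat_lit 3) (nat_lit 0x30000800140002000200006000200010001c0000000000000000000000000000000) (nat_lit 0x0) (nat_lit 0x10000800140000000000010000000000000000000000000000000000000000000000000) := T_40 (nat_lit 263) (nat_lit 280) (nat_lit 5) (nat_lit 9) (nat_lit 12) L106028 (by decide +kernel)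
theorem L106030 : W_40 (nat_lit 4) (nat_lit 0x10000800140002000200006000200010001c0000000000000000000000000000000) (nat_lit 0x0) (nat_lit 0x50002800140000000000010000000000000000000000000000000000000000000000000) := T_40 (nat_lit 265) (nat_lit 282) (nat_lit 7) (nat_lit 9) (nat_lit 12) L106029 (by decide +kernel)
theorem L106031 : W_40 (nat_lit 5) (nat_lit 0x800140002000200006000200010001c0000000000000000000000000000000) (nat_lit 0x0) (nat_lit 0x50003800140000000400010000000000000000000000000000000000000000000000000) := T_40 (nat_lit 264) (nat_lit 214) (nat_lit 6) (nat_lit 9) (nat_lit 15) L106030 (by decide +kernel)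
theorem L106032 : W_40 (nat_lit 6) (nat_lit 0x80014000200020000600020001000180000000000000000000000000000000) (nat_lit 0x0) (nat_lit 0x50003800140000000400010000000000000000040002000000000000000000000000000) := T_40 (nat_lit 126) (nat_lit 109) (nat_lit 4) (nat_lit 8) (nat_lit 10) L106031 (by decide +kernel)
theorem L106033 : W_40 (nat_lit 7) (nat_lit 0x80014000200020000600020001000080000000000000000000000000000000) (nat_lit 0x0) (nat_lit 0x5000380014000000040001000000000000000014000a000000000000000000000000000) := T_40 (nat_lit 128) (nat_lit 111) (nat_lit 6) (nat_lit 8) (nat_lit 10) L106032 (by decide +kernel)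
theorem L106034 : W_40 (nat_lit 8) (nat_lit 0x80014000200020000400020001000080000000000000000000000000000000) (nat_lit 0x0) (nat_lit 0x5000380014000000040001400020000000000014000a000000000000000000000000000) := T_40 (nat_lit 177) (nat_lit 194) (nat_lit 5) (nat_lit 8) (nat_lit 7) L106033 (by decide +kernel)
theorem L106035 : W_40 (nat_lit 2) (nat_lit 0x30000800140002000300004000200010000c0000000000000000000000000000000) (nat_lit 0x0) (nat_lit 0x10000800040000000000000000000000000000000000000000000000000000000000000) := D_40 (nat_lit 263) (nat_lit 280) (nat_lit 246) (nat_lit 5) (nat_lit 9) (nat_lit 12) (nat_lit 5) (nat_lit 9) (nat_lit 11) (by decide +kernel)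
theorem L106036 : W_40 (nat_lit 3) (nat_lit 0x20000800140002000300004000200010000c0000000000000000000000000000000) (nat_lit 0x0) (nat_lit 0x50001800040000000000000000000000000000000000000000000000000000000000000) := T_40 (nat_lit 264) (nat_lit 282) (nat_lit 7) (nat_lit 9) (nat_lit 12) L106035 (by decide +kernel)
theorem L106037 : W_40 (nat_lit 4) (nat_lit 0x2000080014000200030000400020001000080000000000000000000000000000000) (nat_lit 0x0) (nat_lit 0x50001800040000000000000000000000000000040002000000000000000000000000000) := T_40 (nat_lit 126) (nat_lit 109) (nat_lit 4) (nat_lit 8) (nat_lit 10) L106036 (by decide +kernel)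
theorem L106038 : W_40 (nat_lit 5) (nat_lit 0x80014000200030000400020001000080000000000000000000000000000000) (nat_lit 0x0) (nat_lit 0x50003800140000000000000000000000000000040002000000000000000000000000000) := T_40 (nat_lit 265) (nat_lit 248) (nat_lit 7) (nat_lit 9) (nat_lit 11) L106037 (by decide +kernel)
theorem L106039 : W_40 (nat_lit 6) (nat_lit 0x80014000200020000400020001000080000000000000000000000000000000) (nat_lit 0x0) (nat_lit 0x50003800140000000000010001000000000000040002000000000000000000000000000) := T_40 (nat_lit 196) (nat_lit 180) (nat_lit 6) (nat_lit 9) (nat_lit 14) L106038 (by decide +kernel)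
theorem L106040 : W_40 (nat_lit 9) (nat_lit 0x80014000200000000400020001000080000000000000000000000000000000) (nat_lit 0x0) (nat_lit 0x500038001400000004000340033801d000000014000a000000000000000000000000000) := Q_40 (nat_lit 197) (C_40 L104564 (C_40 L106020 (C_40 L106025 (C_40 L106027 (C_40 L106034 (C_40 L106039 N_40)))))) (by decide +kernel)
theorem L106041 : W_40 (nat_lit 2) (nat_lit 0xa000200014000e000c00014000a00010001c0000000000000000000000000000000) (nat_lit 0x0) (nat_lit 0x140004000000000000000000000000000000000000000000000000000000000000000000) := D_40 (nat_lit 266) (nat_lit 284) (nat_lit 282) (nat_lit 7) (nat_lit 11) (nat_lit 12) (nat_lit 5) (nat_lit 11) (nat_lit 12) (by decide +kernel)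
theorem L106042 : W_40 (nat_lit 3) (nat_lit 0x8000200014000e000c00014000a00010001c0000000000000000000000000000000) (nat_lit 0x0) (nat_lit 0x140006000100000000000000000000000000000000000000000000000000000000000000) := T_40 (nat_lit 265) (nat_lit 248) (nat_lit 5) (nat_lit 11) (nat_lit 11) L106041 (by decide +kernel)
theorem L106043 : W_40 (nat_lit 4) (nat_lit 0x200014000e000c00014000a00010001c0000000000000000000000000000000) (nat_lit 0x0) (nat_lit 0x14000e000500000000000000000000000000000000000000000000000000000000000000) := T_40 (nat_lit 267) (nat_lit 250) (nat_lit 7) (nat_lit 11) (nat_lit 11) L106042 (by decide +kernel)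
theorem L106044 : W_40 (nat_lit 5) (nat_lit 0x14000e000c00014000a00010001c0000000000000000000000000000000) (nat_lit 0x0) (nat_lit 0x14000e000700000000000000004000000000000000000000000000000000000000000000) := T_40 (nat_lit 249) (nat_lit 182) (nat_lit 6) (nat_lit 11) (nat_lit 14) L106043 (by decide +kernel)
theorem L106045 : W_40 (nat_lit 6) (nat_lit 0x14000e000c00014000a0001000180000000000000000000000000000000) (nat_lit 0x0) (nat_lit 0x14000e000700000000000000004000000000000040002000000000000000000000000000) := T_40 (nat_lit 126) (nat_lit 109) (nat_lit 4) (nat_lit 8) (nat_lit 10) L106044 (by decide +kernel)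
theorem L106046 : W_40 (nat_lit 7) (nat_lit 0x14000e000400014000a0001000180000000000000000000000000000000) (nat_lit 0x0) (nat_lit 0x14000e000700000000100080004000000000000040002000000000000000000000000000) := T_40 (nat_lit 199) (nat_lit 212) (nat_lit 2) (nat_lit 8) (nat_lit 12) L106045 (by decide +kernel)
theorem L106047 : W_40 (nat_lit 8) (nat_lit 0x14000e000000014000a0001000180000000000000000000000000000000) (nat_lit 0x0) (nat_lit 0x14000e0007000000001000c0006000000000000040002000000000000000000000000000) := T_40 (nat_lit 198) (nat_lit 181) (nat_lit 4) (nat_lit 11) (nat_lit 13) L106046 (by decide +kernel)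
theorem L106048 : W_40 (nat_lit 9) (nat_lit 0x14000e000000004000a0001000180000000000000000000000000000000) (nat_lit 0x0) (nat_lit 0x14000e0007000000001000e0007000000000000040002000000000000000000000000000) := T_40 (nat_lit 180) (nat_lit 197) (nat_lit 7) (nat_lit 10) (nat_lit 9) L106047 (by decide +kernel)
theorem L106049 : W_40 (nat_lit 10) (nat_lit 0x14000e000000004000a0001000080000000000000000000000000000000) (nat_lit 0x0) (nat_lit 0x14000e0007000000001000e000700000000000014000a000000000000000000000000000) := T_40 (nat_lit 128) (nat_lit 111) (nat_lit 6) (nat_lit 8) (nat_lit 10) L106048 (by decide +kernel)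
theorem L106050 : W_40 (nat_lit 11) (nat_lit 0x14000e00000000400020001000080000000000000000000000000000000) (nat_lit 0x0) (nat_lit 0x14000e0007000000001000e400f3801d000000014000a000000000000000000000000000) := Q_40 (nat_lit 163) (C_40 L104593 (C_40 L104197 (C_40 L106049 N_40))) (by decide +kernel)
theorem L106051 : W_40 (nat_lit 3) (nat_lit 0x14000e00000000600020001000080000000000000000000000000000000) (nat_lit 0x0) (nat_lit 0x3801100000000000000000000000000000000000000000000000000000) := T_40 (nat_lit 229) (nat_lit 216) (nat_lit 1) (nat_lit 12) (nat_lit 12) L105031 (by decide +kernel)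
theorem L106052 : W_40 (nat_lit 4) (nat_lit 0x14000e00000000400020001000080000000000000000000000000000000) (nat_lit 0x0) (nat_lit 0x3801100004000200000000000000000000000000000000000000000000) := T_40 (nat_lit 177) (nat_lit 194) (nat_lit 5) (nat_lit 8) (nat_lit 7) L106051 (by decide +kernel)
theorem L106053 : W_40 (nat_lit 13) (nat_lit 0x14000a00000000400020001000080000000000000000000000000000000) (nat_lit 0x0) (nat_lit 0x14000e0007000c38035003f400f3803d000000014000a000000000000000000000000000) := Q_40 (nat_lit 214) (C_40 L105693 (C_40 L105393 (C_40 L105285 (C_40 L105361 (C_40 L106050 (C_40 L106052 N_40)))))) (by decide +kernel)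
theorem L106054 : W_40 (nat_lit 10) (nat_lit 0x14000a00000000400020001000080000000000000000000000000000000) (nat_lit 0x0) (nat_lit 0xe0007800e38015001e40073803d000c000100008000000000000000000000000000) := Q_40 (nat_lit 214) (C_40 L106052 (C_40 L104898 (C_40 L105285 (C_40 L104615 N_40)))) (by decide +kernel)
theorem L106055 : W_40 (nat_lit 10) (nat_lit 0x14000a00000000400020001000080000000000000000000000000000000) (nat_lit 0x0) (nat_lit 0xe0007800e38015001e40073803d000c000040002000000000000000000000000000) := Q_40 (nat_lit 214) (C_40 L106052 (C_40 L104898 (C_40 L104897 (C_40 L104615 N_40)))) (by decide +kernel)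
theorem L106056 : W_40 (nat_lit 13) (nat_lit 0x14000a00000000400020001000080000000000000000000000000000000) (nat_lit 0x0) (nat_lit 0x50007c00e38035003b40013801d000000014000a000000000000000000000000000) := Q_40 (nat_lit 214) (C_40 L106052 (C_40 L105678 (C_40 L105693 (C_40 L104898 N_40)))) (by decide +kernel)
theorem L106057 : W_40 (nat_lit 11) (nat_lit 0x14000a00000000400020001000080000000000000000000000000000000) (nat_lit 0x0) (nat_lit 0x14000fc007c00620005001f40073803d000c00074003a000000000000000000000000000) := Q_40 (nat_lit 198) (C_40 L105733 (C_40 L105641 (C_40 L104985 (C_40 L105697 (C_40 L105723 N_40))))) (by decide +kernel)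
theorem L106058 : W_40 (nat_lit 8) (nat_lit 0x54001e000000004000200010001c0000000000000000000000000000000) (nat_lit 0x0) (nat_lit 0x800060000740013801d0000000000000000000000000000000000000000) := T_40 (nat_lit 177) (nat_lit 194) (nat_lit 5) (nat_lit 8) (nat_lit 7) L105398 (by decide +kernel)
theorem L106059 : W_40 (nat_lit 9) (nat_lit 0x14001e000000004000200010001c0000000000000000000000000000000) (nat_lit 0x0) (nat_lit 0xe00060000740013801d0000000000000000000000000000000000000000) := T_40 (nat_lit 234) (nat_lit 233) (nat_lit 3) (nat_lit 9) (nat_lit 12) L106058 (by decide +kernel)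
theorem L106060 : W_40 (nat_lit 10) (nat_lit 0x14001e000000004000200010000c0000000000000000000000000000000) (nat_lit 0x0) (nat_lit 0xe00060000740013801d0000000100008000000000000000000000000000) := T_40 (nat_lit 128) (nat_lit 111) (nat_lit 6) (nat_lit 8) (nat_lit 10) L106059 (by decide +kernel)
theorem L106061 : W_40 (nat_lit 11) (nat_lit 0x14000e000000004000200010000c0000000000000000000000000000000) (nat_lit 0x0) (nat_lit 0xe20070000740013801d0000000100008000000000000000000000000000) := T_40 (nat_lit 216) (nat_lit 229) (nat_lit 1) (nat_lit 12) (nat_lit 12) L106060 (by decide +kernel)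
theorem L106062 : W_40 (nat_lit 12) (nat_lit 0x14000e00000000400020001000080000000000000000000000000000000) (nat_lit 0x0) (nat_lit 0xe20070000740013801d000000014000a000000000000000000000000000) := T_40 (nat_lit 126) (nat_lit 109) (nat_lit 4) (nat_lit 8) (nat_lit 10) L106061 (by decide +kernel)
theorem L106063 : W_40 (nat_lit 13) (nat_lit 0x14000a00000000400020001000080000000000000000000000000000000) (nat_lit 0x0) (nat_lit 0x50007c00e38075000740013801d000000014000a000000000000000000000000000) := Q_40 (nat_lit 214) (C_40 L106062 (C_40 L106052 (C_40 L104898 (C_40 L105678 N_40)))) (by decide +kernel)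
theorem L106064 : W_40 (nat_lit 13) (nat_lit 0x14000a00000000400020001000080000000000000000000000000000000) (nat_lit 0x0) (nat_lit 0xe38075000f400f3801d000000014000a000000000000000000000000000) := Q_40 (nat_lit 214) (C_40 L106062 (C_40 L106052 (C_40 L104898 (C_40 L105695 N_40)))) (by decide +kernel)
theorem L106065 : W_40 (nat_lit 14) (nat_lit 0x14000200000000400020001000080000000000000000000000000000000) (nat_lit 0x0) (nat_lit 0x1c001fc01fc00e380fd003f403f3803d001c000f4003a000000000000000000000000000) := Q_40 (nat_lit 215) (C_40 L105040 (C_40 L106053 (C_40 L106054 (C_40 L106055 (C_40 L105249 (C_40 L105362 (C_40 L105414 (C_40 L105027 (C_40 L105642 (C_40 L105694 (C_40 L106056 (C_40 L106057 (C_40 L105696 (C_40 L106063 (C_40 L106064 N_40))))))))))))))) (by decide +kernel)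
theorem L106066 : W_40 (nat_lit 10) (nat_lit 0x14000200000000400020001000080000000000000000000000000000000) (nat_lit 0x0) (nat_lit 0x10000801ffc1ebc00d0001400020000000000014000a000000000000000000000000000) := Q_40 (nat_lit 231) (C_40 L105752 (C_40 L105955 (C_40 L104824 (C_40 L104756 (C_40 L104831 N_40))))) (by decide +kernel)
theorem L106067 : W_40 (nat_lit 2) (nat_lit 0x400020001e0006000000006000200010001c0000000000000000000000000000000) (nat_lit 0x0) (nat_lit 0x100000000000020001000000000000000000000000000000000000000000000) := D_40 (nat_lit 197) (nat_lit 180) (nat_lit 248) (nat_lit 7) (nat_lit 10) (nat_lit 10) (nat_lit 7) (nat_lit 10) (nat_lit 11) (by decide +kernel)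
theorem L106068 : W_40 (nat_lit 3) (nat_lit 0x20001e0006000000006000200010001c0000000000000000000000000000000) (nat_lit 0x0) (nat_lit 0x80004000100000000000020001000000000000000000000000000000000000000000000) := T_40 (nat_lit 266) (nat_lit 283) (nat_lit 4) (nat_lit 11) (nat_lit 16) L106067 (by decide +kernel)
theorem L106069 : W_40 (nat_lit 4) (nat_lit 0x1e0006000000006000200010001c0000000000000000000000000000000) (nat_lit 0x0) (nat_lit 0x80004000700000000000020001000000000000000000000000000000000000000000000) := T_40 (nat_lit 249) (nat_lit 250) (nat_lit 3) (nat_lit 8) (nat_lit 13) L106068 (by decide +kernel)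
theorem L106070 : W_40 (nat_lit 5) (nat_lit 0x1e0006000000004000200010001c0000000000000000000000000000000) (nat_lit 0x0) (nat_lit 0x80004000700000000000024001200000000000000000000000000000000000000000000) := T_40 (nat_lit 177) (nat_lit 194) (nat_lit 5) (nat_lit 8) (nat_lit 7) L106069 (by decide +kernel)
theorem L106071 : W_40 (nat_lit 6) (nat_lit 0x1e0006000000004000200010000c0000000000000000000000000000000) (nat_lit 0x0) (nat_lit 0x80004000700000000000024001200000000000100008000000000000000000000000000) := T_40 (nat_lit 128) (nat_lit 111) (nat_lit 6) (nat_lit 8) (nat_lit 10) L106070 (by decide +kernel)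
theorem L106072 : W_40 (nat_lit 7) (nat_lit 0x1e000600000000400020001000080000000000000000000000000000000) (nat_lit 0x0) (nat_lit 0x8000400070000000000002400120000000000014000a000000000000000000000000000) := T_40 (nat_lit 126) (nat_lit 109) (nat_lit 4) (nat_lit 8) (nat_lit 10) L106071 (by decide +kernel)
theorem L106073 : W_40 (nat_lit 2) (nat_lit 0x20001e000a00000000400020001000080000000000000000000000000000000) (nat_lit 0x0) (nat_lit 0x100001000400000000000000000000000000000000000000000000000000000) := D_40 (nat_lit 228) (nat_lit 248) (nat_lit 214) (nat_lit 3) (nat_lit 7) (nat_lit 13) (nat_lit 2) (nat_lit 7) (nat_lit 13) (by decide +kernel)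
theorem L106074 : W_40 (nat_lit 3) (nat_lit 0x200016000a00000000400020001000080000000000000000000000000000000) (nat_lit 0x0) (nat_lit 0x500009000400000000000000000000000000000000000000000000000000000) := T_40 (nat_lit 231) (nat_lit 250) (nat_lit 3) (nat_lit 8) (nat_lit 13) L106073 (by decide +kernel)
theorem L106075 : W_40 (nat_lit 2) (nat_lit 0x800140006000200004000200010000c0000000000000000000000000000000) (nat_lit 0x0) (nat_lit 0x8000000000001000080000000000000000000000000000000000000000) := D_40 (nat_lit 180) (nat_lit 163) (nat_lit 231) (nat_lit 5) (nat_lit 10) (nat_lit 9) (nat_lit 5) (nat_lit 10) (nat_lit 10) (by decide +kernel)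
theorem L106076 : W_40 (nat_lit 3) (nat_lit 0x800140006000000004000200010000c0000000000000000000000000000000) (nat_lit 0x0) (nat_lit 0x1000000008000000020001000080000000000000000000000000000000000000000) := T_40 (nat_lit 197) (nat_lit 264) (nat_lit 6) (nat_lit 9) (nat_lit 15) L106075 (by decide +kernel)
theorem L106077 : W_40 (nat_lit 4) (nat_lit 0x80014000600000000400020001000080000000000000000000000000000000) (nat_lit 0x0) (nat_lit 0x1000000008000000020001000080000000040002000000000000000000000000000) := T_40 (nat_lit 126) (nat_lit 109) (nat_lit 4) (nat_lit 8) (nat_lit 10) L106076 (by decide +kernel)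
theorem L106078 : W_40 (nat_lit 5) (nat_lit 0x80014000600000000600020001000080000000000000000000000000000000) (nat_lit 0x0) (nat_lit 0x10000000000000000200011801d0000000000000000000000000000000000000000) := T_40 (nat_lit 197) (nat_lit 264) (nat_lit 6) (nat_lit 9) (nat_lit 15) L104697 (by decide +kernel)
theorem L106079 : W_40 (nat_lit 6) (nat_lit 0x80014000600000000400020001000080000000000000000000000000000000) (nat_lit 0x0) (nat_lit 0x10000000000000000240013801d0000000000000000000000000000000000000000) := T_40 (nat_lit 177) (nat_lit 194) (nat_lit 5) (nat_lit 8) (nat_lit 7) L106078 (by decide +kernel)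
theorem L106080 : W_40 (nat_lit 2) (nat_lit 0x94003e002000004000200010001c0000000000000000000000000000000) (nat_lit 0x0) (nat_lit 0x100004000400000000000000000000000000000000000000000000000000) := D_40 (nat_lit 218) (nat_lit 236) (nat_lit 202) (nat_lit 3) (nat_lit 11) (nat_lit 12) (nat_lit 2) (nat_lit 11) (nat_lit 12) (by decide +kernel)
theorem L106081 : W_40 (nat_lit 3) (nat_lit 0x94003e000000004000200010001c0000000000000000000000000000000) (nat_lit 0x0) (nat_lit 0x100004000700000000000000000000000000000000000000000000000000) := T_40 (nat_lit 201) (nat_lit 200) (nat_lit 2) (nat_lit 10) (nat_lit 12) L106080 (by decide +kernel)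
theorem L106082 : W_40 (nat_lit 4) (nat_lit 0x14003e000000004000200010001c0000000000000000000000000000000) (nat_lit 0x0) (nat_lit 0x1c0004000700000000000000000000000000000000000000000000000000) := T_40 (nat_lit 235) (nat_lit 234) (nat_lit 3) (nat_lit 10) (nat_lit 12) L106081 (by decide +kernel)
theorem L106083 : W_40 (nat_lit 5) (nat_lit 0x14003e000000004000200010000c0000000000000000000000000000000) (nat_lit 0x0) (nat_lit 0x1c0004000700000000000000000100008000000000000000000000000000) := T_40 (nat_lit 128) (nat_lit 111) (nat_lit 6) (nat_lit 8) (nat_lit 10) L106082 (by decide +kernel)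
theorem L106084 : W_40 (nat_lit 6) (nat_lit 0x14001e000000004000200010000c0000000000000000000000000000000) (nat_lit 0x0) (nat_lit 0x1c8006000700000000000000000100008000000000000000000000000000) := T_40 (nat_lit 217) (nat_lit 231) (nat_lit 1) (nat_lit 13) (nat_lit 12) L106083 (by decide +kernel)
theorem L106085 : W_40 (nat_lit 7) (nat_lit 0x14001e00000000400020001000080000000000000000000000000000000) (nat_lit 0x0) (nat_lit 0x1c800600070000000000000000014000a000000000000000000000000000) := T_40 (nat_lit 126) (nat_lit 109) (nat_lit 4) (nat_lit 8) (nat_lit 10) L106084 (by decide +kernel)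
theorem L106086 : W_40 (nat_lit 2) (nat_lit 0x14000e000c0000600020001000180000000000000000000000000000000) (nat_lit 0x0) (nat_lit 0x1000300000000000000000000000000000000000000000000000000) := D_40 (nat_lit 200) (nat_lit 201) (nat_lit 216) (nat_lit 1) (nat_lit 14) (nat_lit 11) (nat_lit 2) (nat_lit 9) (nat_lit 12) (by decide +kernel)
theorem L106087 : W_40 (nat_lit 3) (nat_lit 0x14000e00040000600020001000180000000000000000000000000000000) (nat_lit 0x0) (nat_lit 0x1100380000000000000000000000000000000000000000000000000) := T_40 (nat_lit 199) (nat_lit 212) (nat_lit 2) (nat_lit 8) (nat_lit 12) L106086 (by decide +kernel)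
theorem L106088 : W_40 (nat_lit 4) (nat_lit 0x14000e00040000400020001000180000000000000000000000000000000) (nat_lit 0x0) (nat_lit 0x1100384000200000000000000000000000000000000000000000000) := T_40 (nat_lit 177) (nat_lit 194) (nat_lit 5) (nat_lit 8) (nat_lit 7) L106087 (by decide +kernel)
theorem L106089 : W_40 (nat_lit 5) (nat_lit 0x14000e00040000400020001000080000000000000000000000000000000) (nat_lit 0x0) (nat_lit 0x1100384000200000000000100008000000000000000000000000000) := T_40 (nat_lit 128) (nat_lit 111) (nat_lit 6) (nat_lit 8) (nat_lit 10) L106088 (by decide +kernel)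
theorem L106090 : W_40 (nat_lit 12) (nat_lit 0x14000a00000000400020001000080000000000000000000000000000000) (nat_lit 0x0) (nat_lit 0x14000e00070000b8035003e400f3801d000000014000a000000000000000000000000000) := Q_40 (nat_lit 214) (C_40 L106052 (C_40 L105350 (C_40 L106050 N_40))) (by decide +kernel)
theorem L106091 : W_40 (nat_lit 2) (nat_lit 0x1000000054003e001200006000e00010000c0000000000000000000000000000000) (nat_lit 0x0) (nat_lit 0x180010000000000000000000000000000000000000000) := D_40 (nat_lit 176) (nat_lit 160) (nat_lit 175) (nat_lit 1) (nat_lit 10) (nat_lit 9) (nat_lit 2) (nat_lit 5) (nat_lit 10) (by decide +kernel)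
theorem L106092 : W_40 (nat_lit 3) (nat_lit 0x1000000054003e001200006000a00010000c0000000000000000000000000000000) (nat_lit 0x0) (nat_lit 0x180150000000000000000000000000000000000000000) := T_40 (nat_lit 162) (nat_lit 164) (nat_lit 1) (nat_lit 11) (nat_lit 9) L106091 (by decide +kernel)
theorem L106093 : W_40 (nat_lit 4) (nat_lit 0x1000000054003e001200006000200010000c0000000000000000000000000000000) (nat_lit 0x0) (nat_lit 0x11801d0000000000000000000000000000000000000000) := T_40 (nat_lit 163) (nat_lit 180) (nat_lit 7) (nat_lit 10) (nat_lit 9) L106092 (by decide +kernel)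
theorem L106094 : W_40 (nat_lit 5) (nat_lit 0x54003e001200006000200010000c0000000000000000000000000000000) (nat_lit 0x0) (nat_lit 0x10000800000000000000011801d0000000000000000000000000000000000000000) := T_40 (nat_lit 264) (nat_lit 247) (nat_lit 6) (nat_lit 9) (nat_lit 15) L106093 (by decide +kernel)
theorem L106095 : W_40 (nat_lit 6) (nat_lit 0x54003e000200006000200010000c0000000000000000000000000000000) (nat_lit 0x0) (nat_lit 0x10000800000000003000011801d0000000000000000000000000000000000000000) := T_40 (nat_lit 200) (nat_lit 201) (nat_lit 2) (nat_lit 10) (nat_lit 12) L106094 (by decide +kernel)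
theorem L106096 : W_40 (nat_lit 7) (nat_lit 0x54003e000000006000200010000c0000000000000000000000000000000) (nat_lit 0x0) (nat_lit 0x10000800000000003300011801d0000000000000000000000000000000000000000) := T_40 (nat_lit 197) (nat_lit 196) (nat_lit 0) (nat_lit 13) (nat_lit 12) L106095 (by decide +kernel)
theorem L106097 : W_40 (nat_lit 8) (nat_lit 0x14003e000000006000200010000c0000000000000000000000000000000) (nat_lit 0x0) (nat_lit 0x10000800c00000003300011801d0000000000000000000000000000000000000000) := T_40 (nat_lit 234) (nat_lit 235) (nat_lit 3) (nat_lit 10) (nat_lit 12) L106096 (by decide +kernel)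
theorem L106098 : W_40 (nat_lit 9) (nat_lit 0x14003e00000000600020001000080000000000000000000000000000000) (nat_lit 0x0) (nat_lit 0x10000800c00000003300011801d0000000040002000000000000000000000000000) := T_40 (nat_lit 126) (nat_lit 109) (nat_lit 4) (nat_lit 8) (nat_lit 10) L106097 (by decide +kernel)
theorem L106099 : W_40 (nat_lit 10) (nat_lit 0x14001e00000000600020001000080000000000000000000000000000000) (nat_lit 0x0) (nat_lit 0x10000800c80020003300011801d0000000040002000000000000000000000000000) := T_40 (nat_lit 217) (nat_lit 231) (nat_lit 1) (nat_lit 13) (nat_lit 12) L106098 (by decide +kernel)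
theorem L106100 : W_40 (nat_lit 11) (nat_lit 0x14001e00000000400020001000080000000000000000000000000000000) (nat_lit 0x0) (nat_lit 0x10000800c80020003340013801d0000000040002000000000000000000000000000) := T_40 (nat_lit 177) (nat_lit 194) (nat_lit 5) (nat_lit 8) (nat_lit 7) L106099 (by decide +kernel)
theorem L106101 : W_40 (nat_lit 2) (nat_lit 0x5000000054003e000600006001a0001000080000000000000000000000000000000) (nat_lit 0x0) (nat_lit 0x200000000c000000000000000000000000000000000000) := D_40 (nat_lit 181) (nat_lit 147) (nat_lit 146) (nat_lit 5) (nat_lit 11) (nat_lit 8) (nat_lit 4) (nat_lit 11) (nat_lit 12) (by decide +kernel)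
theorem L106102 : W_40 (nat_lit 3) (nat_lit 0x5000000054003e000200006001a0001000080000000000000000000000000000000) (nat_lit 0x0) (nat_lit 0x400004000200000000c000000000000000000000000000000000000) := T_40 (nat_lit 198) (nat_lit 218) (nat_lit 0) (nat_lit 14) (nat_lit 12) L106101 (by decide +kernel)
theorem L106103 : W_40 (nat_lit 4) (nat_lit 0x5000000054003e000200006000a0001000080000000000000000000000000000000) (nat_lit 0x0) (nat_lit 0x400004000200014000c000000000000000000000000000000000000) := T_40 (nat_lit 164) (nat_lit 162) (nat_lit 1) (nat_lit 11) (nat_lit 9) L106102 (by decide +kernel)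
theorem L106104 : W_40 (nat_lit 5) (nat_lit 0x1000000054003e000200006000a0001000080000000000000000000000000000000) (nat_lit 0x0) (nat_lit 0x400020000000400004000200014000c000000000000000000000000000000000000) := T_40 (nat_lit 266) (nat_lit 249) (nat_lit 4) (nat_lit 11) (nat_lit 15) L106103 (by decide +kernel)
theorem L106105 : W_40 (nat_lit 6) (nat_lit 0x1000000054003e00020000600020001000080000000000000000000000000000000) (nat_lit 0x0) (nat_lit 0x40002000000040000400030001c000c000000000000000000000000000000000000) := T_40 (nat_lit 163) (nat_lit 180) (nat_lit 7) (nat_lit 10) (nat_lit 9) L106104 (by decide +kernel)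
theorem L106106 : W_40 (nat_lit 7) (nat_lit 0x54003e00020000600020001000080000000000000000000000000000000) (nat_lit 0x0) (nat_lit 0x50002800000040000400030001c000c000000000000000000000000000000000000) := T_40 (nat_lit 264) (nat_lit 247) (nat_lit 6) (nat_lit 9) (nat_lit 15) L106105 (by decide +kernel)
theorem L106107 : W_40 (nat_lit 8) (nat_lit 0x14003e00020000600020001000080000000000000000000000000000000) (nat_lit 0x0) (nat_lit 0x50002800c00040000400030001c000c000000000000000000000000000000000000) := T_40 (nat_lit 234) (nat_lit 235) (nat_lit 3) (nat_lit 10) (nat_lit 12) L106106 (by decide +kernel)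
theorem L106108 : W_40 (nat_lit 9) (nat_lit 0x14003e00000000600020001000080000000000000000000000000000000) (nat_lit 0x0) (nat_lit 0x50002800c00040000700030001c000c000000000000000000000000000000000000) := T_40 (nat_lit 197) (nat_lit 196) (nat_lit 0) (nat_lit 13) (nat_lit 12) L106107 (by decide +kernel)
theorem L106109 : W_40 (nat_lit 10) (nat_lit 0x14003e00000000400020001000080000000000000000000000000000000) (nat_lit 0x0) (nat_lit 0x50002800c00040000740032001c000c000000000000000000000000000000000000) := T_40 (nat_lit 177) (nat_lit 194) (nat_lit 5) (nat_lit 8) (nat_lit 7) L106108 (by decide +kernel)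
theorem L106110 : W_40 (nat_lit 11) (nat_lit 0x14001e00000000400020001000080000000000000000000000000000000) (nat_lit 0x0) (nat_lit 0x50002800c80060000740032001c000c000000000000000000000000000000000000) := T_40 (nat_lit 217) (nat_lit 231) (nat_lit 1) (nat_lit 13) (nat_lit 12) L106109 (by decide +kernel)
theorem L106111 : W_40 (nat_lit 12) (nat_lit 0x14000e00000000400020001000080000000000000000000000000000000) (nat_lit 0x0) (nat_lit 0x50002800c80071003f40073801d000c000040002000000000000000000000000000) := Q_40 (nat_lit 216) (C_40 L104704 (C_40 L105360 (C_40 L106100 (C_40 L106110 N_40)))) (by decide +kernel)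
theorem L106112 : W_40 (nat_lit 13) (nat_lit 0x14000a00000000400020001000080000000000000000000000000000000) (nat_lit 0x0) (nat_lit 0xf0007800cb8075003f40073801d000c000040002000000000000000000000000000) := Q_40 (nat_lit 214) (C_40 L106052 (C_40 L105350 (C_40 L106111 (C_40 L104645 N_40)))) (by decide +kernel)
theorem L106113 : W_40 (nat_lit 6) (nat_lit 0x14000a00040000400020001000080000000000000000000000000000000) (nat_lit 0x0) (nat_lit 0x4000e000f000080005001a0003000000000000100008000000000000000000000000000) := Q_40 (nat_lit 249) (C_40 L105456 (C_40 L105496 (C_40 L105148 N_40))) (by decide +kernel)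
theorem L106114 : W_40 (nat_lit 7) (nat_lit 0x14000a00040000400020001000080000000000000000000000000000000) (nat_lit 0x0) (nat_lit 0xe000f000080005001a000600000000000014000a000000000000000000000000000) := Q_40 (nat_lit 249) (C_40 L105456 (C_40 L105722 (C_40 L105153 N_40))) (by decide +kernel)
theorem L106115 : W_40 (nat_lit 12) (nat_lit 0x14000a00000000400020001000080000000000000000000000000000000) (nat_lit 0x0) (nat_lit 0x14000fc00fc000a0005001f40073803d001c000f4003a000000000000000000000000000) := Q_40 (nat_lit 198) (C_40 L105492 (C_40 L105733 (C_40 L106113 (C_40 L105697 (C_40 L106114 (C_40 L105657 (C_40 L105641 N_40))))))) (by decide +kernel)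
theorem L106116 : W_40 (nat_lit 2) (nat_lit 0x1000e00024001e000e000000004000200010001c0000000000000000000000000000000) (nat_lit 0x0) (nat_lit 0x20001000080000000000000000000000000000000000000000000000000000000000000) := D_40 (nat_lit 264) (nat_lit 247) (nat_lit 281) (nat_lit 0) (nat_lit 12) (nat_lit 15) (nat_lit 1) (nat_lit 12) (nat_lit 15) (by decide +kernel)
theorem L106117 : W_40 (nat_lit 3) (nat_lit 0x1000600024001e000e000000004000200010001c0000000000000000000000000000000) (nat_lit 0x0) (nat_lit 0x120009000080000000000000000000000000000000000000000000000000000000000000) := T_40 (nat_lit 267) (nat_lit 284) (nat_lit 7) (nat_lit 11) (nat_lit 12) L106116 (by decide +kernel)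
theorem L106118 : W_40 (nat_lit 4) (nat_lit 0x1000400024001e000e000000004000200010001c0000000000000000000000000000000) (nat_lit 0x0) (nat_lit 0x16000b000080000000000000000000000000000000000000000000000000000000000000) := T_40 (nat_lit 265) (nat_lit 282) (nat_lit 5) (nat_lit 11) (nat_lit 12) L106117 (by decide +kernel)
theorem L106119 : W_40 (nat_lit 5) (nat_lit 0x1000000024001e000e000000004000200010001c0000000000000000000000000000000) (nat_lit 0x0) (nat_lit 0x1e000f000080000000000000000000000000000000000000000000000000000000000000) := T_40 (nat_lit 266) (nat_lit 283) (nat_lit 4) (nat_lit 11) (nat_lit 16) L106118 (by decide +kernel)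
theorem L106120 : W_40 (nat_lit 4) (nat_lit 0x20001e000a000000004000200010000c0000000000000000000000000000000) (nat_lit 0x0) (nat_lit 0x80004000000001000400024000200000000000000000000000000000000000000000000) := T_40 (nat_lit 177) (nat_lit 194) (nat_lit 5) (nat_lit 8) (nat_lit 7) L105960 (by decide +kernel)
theorem L106121 : W_40 (nat_lit 5) (nat_lit 0x1e000a000000004000200010000c0000000000000000000000000000000) (nat_lit 0x0) (nat_lit 0x80004000600001000400024000200000000000000000000000000000000000000000000) := T_40 (nat_lit 249) (nat_lit 250) (nat_lit 3) (nat_lit 8) (nat_lit 13) L106120 (by decide +kernel)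
theorem L106122 : W_40 (nat_lit 6) (nat_lit 0x1e000a00000000400020001000080000000000000000000000000000000) (nat_lit 0x0) (nat_lit 0x80004000600001000400024000200000000000040002000000000000000000000000000) := T_40 (nat_lit 126) (nat_lit 109) (nat_lit 4) (nat_lit 8) (nat_lit 10) L106121 (by decide +kernel)
theorem L106123 : W_40 (nat_lit 12) (nat_lit 0x16000a00000000400020001000080000000000000000000000000000000) (nat_lit 0x0) (nat_lit 0x900048006f8009c005700350003c005700000014000a000000000000000000000000000) := Q_40 (nat_lit 231) (C_40 L104761 (C_40 L105274 (C_40 L105269 (C_40 L106122 N_40)))) (by decide +kernel)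
theorem L106124 : W_40 (nat_lit 6) (nat_lit 0x16000a000000006000200010001c0000000000000000000000000000000) (nat_lit 0x0) (nat_lit 0x100008006e0008001100010000000000000000000000000000000000000000000000000) := T_40 (nat_lit 231) (nat_lit 216) (nat_lit 2) (nat_lit 8) (nat_lit 13) L105662 (by decide +kernel)
theorem L106125 : W_40 (nat_lit 7) (nat_lit 0x16000a000000004000200010001c0000000000000000000000000000000) (nat_lit 0x0) (nat_lit 0x100008006e0008001100014000200000000000000000000000000000000000000000000) := T_40 (nat_lit 177) (nat_lit 194) (nat_lit 5) (nat_lit 8) (nat_lit 7) L106124 (by decide +kernel)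
theorem L106126 : W_40 (nat_lit 8) (nat_lit 0x16000a00000000400020001000180000000000000000000000000000000) (nat_lit 0x0) (nat_lit 0x100008006e0008001100014000200000000000040002000000000000000000000000000) := T_40 (nat_lit 126) (nat_lit 109) (nat_lit 4) (nat_lit 8) (nat_lit 10) L106125 (by decide +kernel)
theorem L106127 : W_40 (nat_lit 9) (nat_lit 0x16000a00000000400020001000080000000000000000000000000000000) (nat_lit 0x0) (nat_lit 0x100008006e000800110001400020000000000014000a000000000000000000000000000) := T_40 (nat_lit 128) (nat_lit 111) (nat_lit 6) (nat_lit 8) (nat_lit 10) L106126 (by decide +kernel)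
theorem L106128 : W_40 (nat_lit 13) (nat_lit 0x14000a00000000400020001000080000000000000000000000000000000) (nat_lit 0x0) (nat_lit 0x900048006f800bc015700350003c005700000014000a000000000000000000000000000) := Q_40 (nat_lit 229) (C_40 L106123 (C_40 L105367 (C_40 L105033 (C_40 L105030 (C_40 L106127 N_40))))) (by decide +kernel)
theorem L106129 : W_40 (nat_lit 2) (nat_lit 0x1f000a00040007400020001000180000000000000000000000000000000) (nat_lit 0x0) (nat_lit 0x70000000000000000000000000000000000000000000000000000000000000) := D_40 (nat_lit 245) (nat_lit 244) (nat_lit 246) (nat_lit 1) (nat_lit 10) (nat_lit 13) (nat_lit 1) (nat_lit 11) (nat_lit 13) (by decide +kernel)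
theorem L106130 : W_40 (nat_lit 3) (nat_lit 0x1e000a00040007400020001000180000000000000000000000000000000) (nat_lit 0x0) (nat_lit 0x70001000400000000000000000000000000000000000000000000000000000) := T_40 (nat_lit 228) (nat_lit 214) (nat_lit 2) (nat_lit 7) (nat_lit 13) L106129 (by decide +kernel)
theorem L106131 : W_40 (nat_lit 4) (nat_lit 0x1c000a00040007400020001000180000000000000000000000000000000) (nat_lit 0x0) (nat_lit 0x70003001400000000000000000000000000000000000000000000000000000) := T_40 (nat_lit 229) (nat_lit 216) (nat_lit 2) (nat_lit 8) (nat_lit 13) L106130 (by decide +kernel)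
theorem L106132 : W_40 (nat_lit 5) (nat_lit 0x14000a00040007400020001000180000000000000000000000000000000) (nat_lit 0x0) (nat_lit 0x17000b001400000000000000000000000000000000000000000000000000000) := T_40 (nat_lit 231) (nat_lit 248) (nat_lit 5) (nat_lit 11) (nat_lit 10) L106131 (by decide +kernel)
theorem L106133 : W_40 (nat_lit 6) (nat_lit 0x14000a00040006400020001000180000000000000000000000000000000) (nat_lit 0x0) (nat_lit 0x17000b001400000001000080000000000000000000000000000000000000000) := T_40 (nat_lit 180) (nat_lit 163) (nat_lit 4) (nat_lit 11) (nat_lit 13) L106132 (by decide +kernel)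
theorem L106134 : W_40 (nat_lit 7) (nat_lit 0x14000a00040002400020001000180000000000000000000000000000000) (nat_lit 0x0) (nat_lit 0x17000b001400000005000280000000000000000000000000000000000000000) := T_40 (nat_lit 182) (nat_lit 165) (nat_lit 6) (nat_lit 11) (nat_lit 13) L106133 (by decide +kernel)
theorem L106135 : W_40 (nat_lit 8) (nat_lit 0x14000a00040002400020001000080000000000000000000000000000000) (nat_lit 0x0) (nat_lit 0x17000b001400000005000280000000100008000000000000000000000000000) := T_40 (nat_lit 128) (nat_lit 111) (nat_lit 6) (nat_lit 8) (nat_lit 10) L106134 (by decide +kernel)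
theorem L106136 : W_40 (nat_lit 9) (nat_lit 0x14000a00040000400020001000080000000000000000000000000000000) (nat_lit 0x0) (nat_lit 0x17000b0014000040072003c001400014000a000000000000000000000000000) := Q_40 (nat_lit 181) (C_40 L105508 (C_40 L106135 (C_40 L105025 (C_40 L105491 N_40)))) (by decide +kernel)
theorem L106137 : W_40 (nat_lit 2) (nat_lit 0x14003e000c0000600220001000180000000000000000000000000000000) (nat_lit 0x0) (nat_lit 0x4000030000000000000000000000000000000000000000000000000) := D_40 (nat_lit 197) (nat_lit 196) (nat_lit 218) (nat_lit 3) (nat_lit 9) (nat_lit 11) (nat_lit 0) (nat_lit 14) (nat_lit 12) (by decide +kernel)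
theorem L106138 : W_40 (nat_lit 3) (nat_lit 0x14001e000c0000600220001000180000000000000000000000000000000) (nat_lit 0x0) (nat_lit 0x8006000030000000000000000000000000000000000000000000000000) := T_40 (nat_lit 217) (nat_lit 231) (nat_lit 1) (nat_lit 13) (nat_lit 12) L106137 (by decide +kernel)
theorem L106139 : W_40 (nat_lit 4) (nat_lit 0x14001e000c0000600020001000180000000000000000000000000000000) (nat_lit 0x0) (nat_lit 0x8006000030004000200000000000000000000000000000000000000000) := T_40 (nat_lit 165) (nat_lit 182) (nat_lit 5) (nat_lit 12) (nat_lit 9) L106138 (by decide +kernel)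
theorem L106140 : W_40 (nat_lit 5) (nat_lit 0x14001e00040000600020001000180000000000000000000000000000000) (nat_lit 0x0) (nat_lit 0x80060001b0004000200000000000000000000000000000000000000000) := T_40 (nat_lit 199) (nat_lit 200) (nat_lit 2) (nat_lit 9) (nat_lit 12) L106139 (by decide +kernel)
theorem L106141 : W_40 (nat_lit 6) (nat_lit 0x14001e00040000600020001000080000000000000000000000000000000) (nat_lit 0x0) (nat_lit 0x80060001b0004000200000000100008000000000000000000000000000) := T_40 (nat_lit 128) (nat_lit 111) (nat_lit 6) (nat_lit 8) (nat_lit 10) L106140 (by decide +kernel)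
theorem L106142 : W_40 (nat_lit 7) (nat_lit 0x14000e00040000600020001000080000000000000000000000000000000) (nat_lit 0x0) (nat_lit 0xa0070001b0004000200000000100008000000000000000000000000000) := T_40 (nat_lit 216) (nat_lit 229) (nat_lit 1) (nat_lit 12) (nat_lit 12) L106141 (by decide +kernel)
theorem L106143 : W_40 (nat_lit 8) (nat_lit 0x14000e00040000400020001000080000000000000000000000000000000) (nat_lit 0x0) (nat_lit 0xa0070001b4004200200000000100008000000000000000000000000000) := T_40 (nat_lit 177) (nat_lit 194) (nat_lit 5) (nat_lit 8) (nat_lit 7) L106142 (by decide +kernel)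
theorem L106144 : W_40 (nat_lit 2) (nat_lit 0x14003e00040000600020001000080000000000000000000000000000000) (nat_lit 0x0) (nat_lit 0x4000030000000000000000000000000000000000000000000000000) := D_40 (nat_lit 197) (nat_lit 196) (nat_lit 218) (nat_lit 0) (nat_lit 13) (nat_lit 12) (nat_lit 0) (nat_lit 14) (nat_lit 12) (by decide +kernel)
theorem L106145 : W_40 (nat_lit 3) (nat_lit 0x14001e00040000600020001000080000000000000000000000000000000) (nat_lit 0x0) (nat_lit 0x8006000030000000000000000000000000000000000000000000000000) := T_40 (nat_lit 217) (nat_lit 231) (nat_lit 1) (nat_lit 13) (nat_lit 12) L106144 (by decide +kernel)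
theorem L106146 : W_40 (nat_lit 4) (nat_lit 0x14001e00040000400020001000080000000000000000000000000000000) (nat_lit 0x0) (nat_lit 0x8006000034000200000000000000000000000000000000000000000000) := T_40 (nat_lit 177) (nat_lit 194) (nat_lit 5) (nat_lit 8) (nat_lit 7) L106145 (by decide +kernel)
theorem L106147 : W_40 (nat_lit 5) (nat_lit 0x14000e00040000400020001000080000000000000000000000000000000) (nat_lit 0x0) (nat_lit 0xa007000034000200000000000000000000000000000000000000000000) := T_40 (nat_lit 216) (nat_lit 229) (nat_lit 1) (nat_lit 12) (nat_lit 12) L106146 (by decide +kernel)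
theorem L106148 : W_40 (nat_lit 9) (nat_lit 0x14000a00040000400020001000080000000000000000000000000000000) (nat_lit 0x0) (nat_lit 0xb0075003b4004200200000000100008000000000000000000000000000) := Q_40 (nat_lit 214) (C_40 L106089 (C_40 L104994 (C_40 L106143 (C_40 L104694 (C_40 L106147 N_40))))) (by decide +kernel)
theorem L106149 : W_40 (nat_lit 6) (nat_lit 0x14000a00040000400020001000080000000000000000000000000000000) (nat_lit 0x0) (nat_lit 0xb0075003b4000200000000000000000000000000000000000000000000) := Q_40 (nat_lit 214) (C_40 L106147 (C_40 L104994 (C_40 L104694 N_40))) (by decide +kernel)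
theorem L106150 : W_40 (nat_lit 2) (nat_lit 0x14003e000c00004002200010001c0000000000000000000000000000000) (nat_lit 0x0) (nat_lit 0x4000030000000000000000000000000000000000000000000000000) := D_40 (nat_lit 197) (nat_lit 196) (nat_lit 218) (nat_lit 3) (nat_lit 9) (nat_lit 11) (nat_lit 0) (nat_lit 14) (nat_lit 12) (by decide +kernel)
theorem L106151 : W_40 (nat_lit 3) (nat_lit 0x14001e000c00004002200010001c0000000000000000000000000000000) (nat_lit 0x0) (nat_lit 0x8006000030000000000000000000000000000000000000000000000000) := T_40 (nat_lit 217) (nat_lit 231) (nat_lit 1) (nat_lit 13) (nat_lit 12) L106150 (by decide +kernel)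
theorem L106152 : W_40 (nat_lit 4) (nat_lit 0x14001e000c00004000200010001c0000000000000000000000000000000) (nat_lit 0x0) (nat_lit 0x8006000030004000200000000000000000000000000000000000000000) := T_40 (nat_lit 165) (nat_lit 182) (nat_lit 5) (nat_lit 12) (nat_lit 9) L106151 (by decide +kernel)
theorem L106153 : W_40 (nat_lit 5) (nat_lit 0x14001e000400004000200010001c0000000000000000000000000000000) (nat_lit 0x0) (nat_lit 0x80060001b0004000200000000000000000000000000000000000000000) := T_40 (nat_lit 199) (nat_lit 200) (nat_lit 2) (nat_lit 9) (nat_lit 12) L106152 (by decide +kernel)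
theorem L106154 : W_40 (nat_lit 6) (nat_lit 0x14001e000400004000200010000c0000000000000000000000000000000) (nat_lit 0x0) (nat_lit 0x80060001b0004000200000000100008000000000000000000000000000) := T_40 (nat_lit 128) (nat_lit 111) (nat_lit 6) (nat_lit 8) (nat_lit 10) L106153 (by decide +kernel)
theorem L106155 : W_40 (nat_lit 7) (nat_lit 0x14000e000400004000200010000c0000000000000000000000000000000) (nat_lit 0x0) (nat_lit 0xa0070001b0004000200000000100008000000000000000000000000000) := T_40 (nat_lit 216) (nat_lit 229) (nat_lit 1) (nat_lit 12) (nat_lit 12) L106154 (by decide +kernel)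
theorem L106156 : W_40 (nat_lit 8) (nat_lit 0x14000e00040000400020001000080000000000000000000000000000000) (nat_lit 0x0) (nat_lit 0xa0070001b000400020000000014000a000000000000000000000000000) := T_40 (nat_lit 126) (nat_lit 109) (nat_lit 4) (nat_lit 8) (nat_lit 10) L106155 (by decide +kernel)
theorem L106157 : W_40 (nat_lit 2) (nat_lit 0x14003e000400004000200010000c0000000000000000000000000000000) (nat_lit 0x0) (nat_lit 0x4000030000000000000000000000000000000000000000000000000) := D_40 (nat_lit 197) (nat_lit 196) (nat_lit 218) (nat_lit 0) (nat_lit 13) (nat_lit 12) (nat_lit 0) (nat_lit 14) (nat_lit 12) (by decide +kernel)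
theorem L106158 : W_40 (nat_lit 3) (nat_lit 0x14001e000400004000200010000c0000000000000000000000000000000) (nat_lit 0x0) (nat_lit 0x8006000030000000000000000000000000000000000000000000000000) := T_40 (nat_lit 217) (nat_lit 231) (nat_lit 1) (nat_lit 13) (nat_lit 12) L106157 (by decide +kernel)
theorem L106159 : W_40 (nat_lit 4) (nat_lit 0x14001e00040000400020001000080000000000000000000000000000000) (nat_lit 0x0) (nat_lit 0x8006000030000000000000000040002000000000000000000000000000) := T_40 (nat_lit 126) (nat_lit 109) (nat_lit 4) (nat_lit 8) (nat_lit 10) L106158 (by decide +kernel)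
theorem L106160 : W_40 (nat_lit 5) (nat_lit 0x14000e00040000400020001000080000000000000000000000000000000) (nat_lit 0x0) (nat_lit 0xa007000030000000000000000040002000000000000000000000000000) := T_40 (nat_lit 216) (nat_lit 229) (nat_lit 1) (nat_lit 12) (nat_lit 12) L106159 (by decide +kernel)
theorem L106161 : W_40 (nat_lit 9) (nat_lit 0x14000a00040000400020001000080000000000000000000000000000000) (nat_lit 0x0) (nat_lit 0xb0075003b000400020000000014000a000000000000000000000000000) := Q_40 (nat_lit 214) (C_40 L104994 (C_40 L106156 (C_40 L104694 (C_40 L106160 N_40)))) (by decide +kernel)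
theorem L106162 : W_40 (nat_lit 10) (nat_lit 0x14000a00000000400020001000080000000000000000000000000000000) (nat_lit 0x0) (nat_lit 0x17000b0075003f40073803d001c00074003a000000000000000000000000000) := Q_40 (nat_lit 198) (C_40 L106136 (C_40 L105641 (C_40 L106148 (C_40 L106149 (C_40 L106161 N_40))))) (by decide +kernel)
theorem L106163 : W_40 (nat_lit 14) (nat_lit 0x14000200000000400020001000080000000000000000000000000000000) (nat_lit 0x0) (nat_lit 0x1f800fc00ff80cbc0fd703f503f3c03d701c000f4003a000000000000000000000000000) := Q_40 (nat_lit 215) (C_40 L105537 (C_40 L106090 (C_40 L105034 (C_40 L106112 (C_40 L105328 (C_40 L105368 (C_40 L105658 (C_40 L106053 (C_40 L106115 (C_40 L106128 (C_40 L106162 N_40))))))))))) (by decide +kernel)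
theorem L106164 : W_40 (nat_lit 11) (nat_lit 0x1c000200000000400020001000080000000000000000000000000000000) (nat_lit 0x0) (nat_lit 0x900048006f8003c01d7003400020000000000014000a000000000000000000000000000) := Q_40 (nat_lit 229) (C_40 L106002 (C_40 L104808 (C_40 L104814 (C_40 L105954 (C_40 L105964 N_40))))) (by decide +kernel)
theorem L106165 : W_40 (nat_lit 12) (nat_lit 0x14000200000000400020001000080000000000000000000000000000000) (nat_lit 0x0) (nat_lit 0x19000c801ef806bc07d7007400220000000000014000a000000000000000000000000000) := Q_40 (nat_lit 231) (C_40 L104831 (C_40 L105754 (C_40 L104822 (C_40 L104754 (C_40 L106164 (C_40 L104755 N_40)))))) (by decide +kernel)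
theorem L106166 : W_40 (nat_lit 2) (nat_lit 0x8000c001c000200000000600020001000080000000000000000000000000000000) (nat_lit 0x0) (nat_lit 0x10001000000002000000000000000000000000000000000000000000000000000000000) := D_40 (nat_lit 280) (nat_lit 264) (nat_lit 229) (nat_lit 5) (nat_lit 9) (nat_lit 12) (nat_lit 6) (nat_lit 8) (nat_lit 16) (by decide +kernel)
theorem L106167 : W_40 (nat_lit 3) (nat_lit 0xc001c000200000000600020001000080000000000000000000000000000000) (nat_lit 0x0) (nat_lit 0x10001800000002000000010000000000000000000000000000000000000000000000000) := T_40 (nat_lit 263) (nat_lit 196) (nat_lit 5) (nat_lit 9) (nat_lit 11) L106166 (by decide +kernel)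
theorem L106168 : W_40 (nat_lit 4) (nat_lit 0xc001c000200000000400020001000080000000000000000000000000000000) (nat_lit 0x0) (nat_lit 0x10001800000002000000014000200000000000000000000000000000000000000000000) := T_40 (nat_lit 177) (nat_lit 194) (nat_lit 5) (nat_lit 8) (nat_lit 7) L106167 (by decide +kernel)
theorem L106169 : W_40 (nat_lit 5) (nat_lit 0x8001c000200000000400020001000080000000000000000000000000000000) (nat_lit 0x0) (nat_lit 0x10001800170002000000014000200000000000000000000000000000000000000000000) := Q_40 (nat_lit 246) (C_40 L104173 (C_40 L106168 N_40)) (by decide +kernel)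
theorem L106170 : W_40 (nat_lit 6) (nat_lit 0x80014000200000000400020001000080000000000000000000000000000000) (nat_lit 0x0) (nat_lit 0x1000180017006a000500014000200000000000100008000000000000000000000000000) := Q_40 (nat_lit 231) (C_40 L105894 (C_40 L106169 (C_40 L104500 N_40))) (by decide +kernel)
theorem L106171 : W_40 (nat_lit 8) (nat_lit 0x80014000200000000400020001000080000000000000000000000000000000) (nat_lit 0x0) (nat_lit 0x7000380014006800050003000000000000000014000a000000000000000000000000000) := Q_40 (nat_lit 231) (C_40 L105912 (C_40 L105902 (C_40 L105894 (C_40 L104500 N_40)))) (by decide +kernel)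
theorem L106172 : W_40 (nat_lit 7) (nat_lit 0x80014000200000000400020001000080000000000000000000000000000000) (nat_lit 0x0) (nat_lit 0x1000180017006a00710001400020000000000014000a000000000000000000000000000) := Q_40 (nat_lit 231) (C_40 L104500 (C_40 L106169 (C_40 L104497 N_40))) (by decide +kernel)
theorem L106173 : W_40 (nat_lit 2) (nat_lit 0x3a0018001c000e00000000600020001000180000000000000000000000000000000) (nat_lit 0x0) (nat_lit 0x3001000000000000000000000000000000000000000000000000000000) := D_40 (nat_lit 229) (nat_lit 216) (nat_lit 228) (nat_lit 2) (nat_lit 8) (nat_lit 13) (nat_lit 2) (nat_lit 7) (nat_lit 13) (by decide +kernel)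
theorem L106174 : W_40 (nat_lit 3) (nat_lit 0x3a0018001c000600000000600020001000180000000000000000000000000000000) (nat_lit 0x0) (nat_lit 0x3001800040000000000000000000000000000000000000000000000000) := T_40 (nat_lit 215) (nat_lit 198) (nat_lit 6) (nat_lit 10) (nat_lit 15) L106173 (by decide +kernel)
theorem L106175 : W_40 (nat_lit 4) (nat_lit 0x380018001c000600000000600020001000180000000000000000000000000000000) (nat_lit 0x0) (nat_lit 0x600000003001800040000000000000000000000000000000000000000000000000) := T_40 (nat_lit 261) (nat_lit 262) (nat_lit 2) (nat_lit 6) (nat_lit 15) L106174 (by decide +kernel)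
theorem L106176 : W_40 (nat_lit 5) (nat_lit 0x380008001c000600000000600020001000180000000000000000000000000000000) (nat_lit 0x0) (nat_lit 0x600100003001800050000000000000000000000000000000000000000000000000) := T_40 (nat_lit 248) (nat_lit 196) (nat_lit 7) (nat_lit 9) (nat_lit 11) L106175 (by decide +kernel)
theorem L106177 : W_40 (nat_lit 6) (nat_lit 0x180008001c000600000000600020001000180000000000000000000000000000000) (nat_lit 0x0) (nat_lit 0x40002600100003001800050000000000000000000000000000000000000000000000000) := T_40 (nat_lit 265) (nat_lit 282) (nat_lit 7) (nat_lit 9) (nat_lit 12) L106176 (by decide +kernel)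
theorem L106178 : W_40 (nat_lit 7) (nat_lit 0x100008001c000600000000600020001000180000000000000000000000000000000) (nat_lit 0x0) (nat_lit 0x50002e00100003001800050000000000000000000000000000000000000000000000000) := T_40 (nat_lit 263) (nat_lit 280) (nat_lit 5) (nat_lit 9) (nat_lit 12) L106177 (by decide +kernel)
theorem L106179 : W_40 (nat_lit 8) (nat_lit 0x100008001c000600000000400020001000180000000000000000000000000000000) (nat_lit 0x0) (nat_lit 0x50002e00100003001800054000200000000000000000000000000000000000000000000) := T_40 (nat_lit 177) (nat_lit 194) (nat_lit 5) (nat_lit 8) (nat_lit 7) L106178 (by decide +kernel)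
theorem L106180 : W_40 (nat_lit 9) (nat_lit 0x1000080014000600000000400020001000180000000000000000000000000000000) (nat_lit 0x0) (nat_lit 0x70002e0010000b001800054000200000000000000000000000000000000000000000000) := T_40 (nat_lit 231) (nat_lit 281) (nat_lit 6) (nat_lit 9) (nat_lit 16) L106179 (by decide +kernel)
theorem L106181 : W_40 (nat_lit 10) (nat_lit 0x80014000600000000400020001000180000000000000000000000000000000) (nat_lit 0x0) (nat_lit 0x70003e0010000b001800074000200000000000000000000000000000000000000000000) := T_40 (nat_lit 264) (nat_lit 197) (nat_lit 6) (nat_lit 9) (nat_lit 15) L106180 (by decide +kernel)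
theorem L106182 : W_40 (nat_lit 11) (nat_lit 0x80014000600000000400020001000080000000000000000000000000000000) (nat_lit 0x0) (nat_lit 0x70003e0010000b001800074000200000000000100008000000000000000000000000000) := T_40 (nat_lit 128) (nat_lit 111) (nat_lit 6) (nat_lit 8) (nat_lit 10) L106181 (by decide +kernel)
theorem L106183 : W_40 (nat_lit 2) (nat_lit 0x80034000600000000400020001000080000000000000000000000000000000) (nat_lit 0x0) (nat_lit 0x48000100000000000000000000000000000000000000000000000000000) := D_40 (nat_lit 231) (nat_lit 212) (nat_lit 234) (nat_lit 0) (nat_lit 12) (nat_lit 13) (nat_lit 0) (nat_lit 13) (nat_lit 13) (by decide +kernel)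
theorem L106184 : W_40 (nat_lit 2) (nat_lit 0x80034000600000000400020001000080000000000000000000000000000000) (nat_lit 0x0) (nat_lit 0x8000900000000000000000000000000000000000000000000000000000) := D_40 (nat_lit 212) (nat_lit 231) (nat_lit 215) (nat_lit 0) (nat_lit 12) (nat_lit 13) (nat_lit 3) (nat_lit 8) (nat_lit 12) (by decide +kernel)
theorem L106185 : W_40 (nat_lit 5) (nat_lit 0x80014000600000000400020001000080000000000000000000000000000000) (nat_lit 0x0) (nat_lit 0xe8001900004000200000000000100008000000000000000000000000000) := Q_40 (nat_lit 233) (C_40 L104700 (C_40 L104509 (C_40 L106183 (C_40 L106184 N_40)))) (by decide +kernel)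
theorem L106186 : W_40 (nat_lit 12) (nat_lit 0x80014000200000000400020001000080000000000000000000000000000000) (nat_lit 0x0) (nat_lit 0x70003e001000eb001d000740013801d000000014000a000000000000000000000000000) := Q_40 (nat_lit 214) (C_40 L106079 (C_40 L106182 (C_40 L106077 (C_40 L106185 N_40)))) (by decide +kernel)
theorem L106187 : W_40 (nat_lit 11) (nat_lit 0x80014000200000000400020001000080000000000000000000000000000000) (nat_lit 0x0) (nat_lit 0x1000080017006bc01d0001400020000000000014000a000000000000000000000000000) := Q_40 (nat_lit 231) (C_40 L104494 (C_40 L104500 (C_40 L105902 N_40))) (by decide +kernel)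
theorem L106188 : W_40 (nat_lit 13) (nat_lit 0x14000200000000400020001000080000000000000000000000000000000) (nat_lit 0x0) (nat_lit 0x70003e01df00ebc07d000740033801d000000014000a000000000000000000000000000) := Q_40 (nat_lit 247) (C_40 L106040 (C_40 L106170 (C_40 L105913 (C_40 L106171 (C_40 L106172 (C_40 L105939 (C_40 L106186 (C_40 L106187 N_40)))))))) (by decide +kernel)
theorem L106189 : W_40 (nat_lit 13) (nat_lit 0x1c000200000000400020001000080000000000000000000000000000000) (nat_lit 0x0) (nat_lit 0x1f000f800fc0020003d001f400120000000000014000a000000000000000000000000000) := T_40 (nat_lit 233) (nat_lit 212) (nat_lit 0) (nat_lit 12) (nat_lit 13) L104799 (by decide +kernel)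
theorem L106190 : W_40 (nat_lit 14) (nat_lit 0x14000200000000400020001000080000000000000000000000000000000) (nat_lit 0x0) (nat_lit 0x1f800fc00ffc02bc03d701f400720000000000014000a000000000000000000000000000) := Q_40 (nat_lit 231) (C_40 L106164 (C_40 L104822 (C_40 L104809 (C_40 L105753 (C_40 L106189 (C_40 L104815 (C_40 L105955 (C_40 L104755 N_40)))))))) (by decide +kernel)
theorem L106191 : W_40 (nat_lit 2) (nat_lit 0x10001fc00a400000006000200010000c0000000000000000000000000000000) (nat_lit 0x0) (nat_lit 0x1c000000000000000000000000000000000000000000000000000000000000) := D_40 (nat_lit 243) (nat_lit 242) (nat_lit 244) (nat_lit 1) (nat_lit 8) (nat_lit 13) (nat_lit 1) (nat_lit 9) (nat_lit 13) (by decide +kernel)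
theorem L106192 : W_40 (nat_lit 3) (nat_lit 0x10001f800a400000006000200010000c0000000000000000000000000000000) (nat_lit 0x0) (nat_lit 0x1c000400100000000000000000000000000000000000000000000000000000) := T_40 (nat_lit 226) (nat_lit 212) (nat_lit 2) (nat_lit 5) (nat_lit 13) L106191 (by decide +kernel)
theorem L106193 : W_40 (nat_lit 4) (nat_lit 0x10001f800a000000006000200010000c0000000000000000000000000000000) (nat_lit 0x0) (nat_lit 0x1c000400160000000000000000000000000000000000000000000000000000) := T_40 (nat_lit 210) (nat_lit 209) (nat_lit 0) (nat_lit 9) (nat_lit 13) L106192 (by decide +kernel)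
theorem L106194 : W_40 (nat_lit 5) (nat_lit 0x10001f000a000000006000200010000c0000000000000000000000000000000) (nat_lit 0x0) (nat_lit 0x9c000c00160000000000000000000000000000000000000000000000000000) := T_40 (nat_lit 227) (nat_lit 247) (nat_lit 3) (nat_lit 6) (nat_lit 13) L106193 (by decide +kernel)
theorem L106195 : W_40 (nat_lit 6) (nat_lit 0x1f000a000000006000200010000c0000000000000000000000000000000) (nat_lit 0x0) (nat_lit 0x39c000c00160000000000000000000000000000000000000000000000000000) := T_40 (nat_lit 248) (nat_lit 249) (nat_lit 3) (nat_lit 7) (nat_lit 13) L106194 (by decide +kernel)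
theorem L106196 : W_40 (nat_lit 7) (nat_lit 0x1e000a000000006000200010000c0000000000000000000000000000000) (nat_lit 0x0) (nat_lit 0x39c001c00560000000000000000000000000000000000000000000000000000) := T_40 (nat_lit 228) (nat_lit 214) (nat_lit 2) (nat_lit 7) (nat_lit 13) L106195 (by decide +kernel)
theorem L106197 : W_40 (nat_lit 8) (nat_lit 0x1e0002000000006000200010000c0000000000000000000000000000000) (nat_lit 0x0) (nat_lit 0x39c001c01d60000000000000000000000000000000000000000000000000000) := T_40 (nat_lit 215) (nat_lit 216) (nat_lit 2) (nat_lit 8) (nat_lit 13) L106196 (by decide +kernel)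
theorem L106198 : W_40 (nat_lit 9) (nat_lit 0x1e0002000000004000200010000c0000000000000000000000000000000) (nat_lit 0x0) (nat_lit 0x39c001c01d60004000200000000000000000000000000000000000000000000) := T_40 (nat_lit 177) (nat_lit 194) (nat_lit 5) (nat_lit 8) (nat_lit 7) L106197 (by decide +kernel)
theorem L106199 : W_40 (nat_lit 10) (nat_lit 0x1e000200000000400020001000080000000000000000000000000000000) (nat_lit 0x0) (nat_lit 0x39c001c01d60004000200000000000040002000000000000000000000000000) := T_40 (nat_lit 126) (nat_lit 109) (nat_lit 4) (nat_lit 8) (nat_lit 10) L106198 (by decide +kernel)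
theorem L106200 : W_40 (nat_lit 11) (nat_lit 0x1c000200000000400020001000080000000000000000000000000000000) (nat_lit 0x0) (nat_lit 0x100008003fc003c01d7001400020000000000014000a000000000000000000000000000) := Q_40 (nat_lit 229) (C_40 L105954 (C_40 L106002 (C_40 L104808 (C_40 L104814 (C_40 L106199 N_40))))) (by decide +kernel)
theorem L106201 : W_40 (nat_lit 13) (nat_lit 0x14000200000000400020001000080000000000000000000000000000000) (nat_lit 0x0) (nat_lit 0x500078003fc0ebc07d701f400520028000000014000a000000000000000000000000000) := Q_40 (nat_lit 231) (C_40 L106200 (C_40 L104756 (C_40 L105775 (C_40 L104765 (C_40 L104842 (C_40 L106012 (C_40 L104755 N_40))))))) (by decide +kernel)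
theorem L106202 : W_40 (nat_lit 15) (nat_lit 0x4000200000000400020001000080000000000000000000000000000000) (nat_lit 0x0) (nat_lit 0x3f801ff01ffc1fbc0fd703f503f3c03d701c000f4003a000000000000000000000000000) := Q_40 (nat_lit 232) (C_40 L105739 (C_40 L105740 (C_40 L105741 (C_40 L105742 (C_40 L105776 (C_40 L105777 (C_40 L105940 (C_40 L105941 (C_40 L105956 (C_40 L105958 (C_40 L105993 (C_40 L106013 (C_40 L106065 (C_40 L106066 (C_40 L106163 (C_40 L106165 (C_40 L106188 (C_40 L106190 (C_40 L106201 N_40))))))))))))))))))) (by decide +kernel)
theorem L106203 : W_40 (nat_lit 6) (nat_lit 0x1000000024001e0006000000004000200010001c0000000000000000000000000000000) (nat_lit 0x0) (nat_lit 0x1e000f000080000001800000000000000000000000000000000000000000000000000000) := T_40 (nat_lit 215) (nat_lit 216) (nat_lit 2) (nat_lit 8) (nat_lit 13) L106119 (by decide +kernel)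
theorem L106204 : W_40 (nat_lit 7) (nat_lit 0x1000000004001e0006000000004000200010001c0000000000000000000000000000000) (nat_lit 0x0) (nat_lit 0x1e000f000680000001800000000000000000000000000000000000000000000000000000) := T_40 (nat_lit 249) (nat_lit 250) (nat_lit 3) (nat_lit 8) (nat_lit 13) L106203 (by decide +kernel)
theorem L106205 : W_40 (nat_lit 8) (nat_lit 0x4001e0006000000004000200010001c0000000000000000000000000000000) (nat_lit 0x0) (nat_lit 0x1f000f800680000001800000000000000000000000000000000000000000000000000000) := T_40 (nat_lit 280) (nat_lit 263) (nat_lit 6) (nat_lit 8) (nat_lit 16) L106204 (by decide +kernel)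
theorem L106206 : W_40 (nat_lit 9) (nat_lit 0x4001e0006000000004000200010000c0000000000000000000000000000000) (nat_lit 0x0) (nat_lit 0x1f000f800680000001800000000000000000000100008000000000000000000000000000) := T_40 (nat_lit 128) (nat_lit 111) (nat_lit 6) (nat_lit 8) (nat_lit 10) L106205 (by decide +kernel)
theorem L106207 : W_40 (nat_lit 10) (nat_lit 0x1e0006000000004000200010000c0000000000000000000000000000000) (nat_lit 0x0) (nat_lit 0x1f000f8006e0000001800000000000000000000100008000000000000000000000000000) := T_40 (nat_lit 246) (nat_lit 245) (nat_lit 1) (nat_lit 11) (nat_lit 13) L106206 (by decide +kernel)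
theorem L106208 : W_40 (nat_lit 11) (nat_lit 0x1e000600000000400020001000080000000000000000000000000000000) (nat_lit 0x0) (nat_lit 0x1f000f8006e000000180000000000000000000014000a000000000000000000000000000) := T_40 (nat_lit 126) (nat_lit 109) (nat_lit 4) (nat_lit 8) (nat_lit 10) L106207 (by decide +kernel)
theorem L106209 : W_40 (nat_lit 2) (nat_lit 0x44001e000a00000000400020001000180000000000000000000000000000000) (nat_lit 0x0) (nat_lit 0x880020000000000000000000000000000000000000000000000000000000000) := D_40 (nat_lit 233) (nat_lit 251) (nat_lit 247) (nat_lit 3) (nat_lit 9) (nat_lit 13) (nat_lit 1) (nat_lit 12) (nat_lit 13) (by decide +kernel)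
theorem L106210 : W_40 (nat_lit 3) (nat_lit 0x40001e000a00000000400020001000180000000000000000000000000000000) (nat_lit 0x0) (nat_lit 0x8e0020000000000000000000000000000000000000000000000000000000000) := T_40 (nat_lit 246) (nat_lit 245) (nat_lit 1) (nat_lit 11) (nat_lit 13) L106209 (by decide +kernel)
theorem L106211 : W_40 (nat_lit 2) (nat_lit 0x1c0024001e0003000000006000200010001c0000000000000000000000000000000) (nat_lit 0x0) (nat_lit 0x2000180000000000000000000000000000000000000000000000000000000000000) := D_40 (nat_lit 248) (nat_lit 265) (nat_lit 247) (nat_lit 2) (nat_lit 7) (nat_lit 15) (nat_lit 1) (nat_lit 11) (nat_lit 14) (by decide +kernel)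
theorem L106212 : W_40 (nat_lit 3) (nat_lit 0x180024001e0003000000006000200010001c0000000000000000000000000000000) (nat_lit 0x0) (nat_lit 0x8002400180000000000000000000000000000000000000000000000000000000000000) := T_40 (nat_lit 262) (nat_lit 279) (nat_lit 5) (nat_lit 8) (nat_lit 12) L106211 (by decide +kernel)
theorem L106213 : W_40 (nat_lit 4) (nat_lit 0x80024001e0003000000006000200010001c0000000000000000000000000000000) (nat_lit 0x0) (nat_lit 0x28003400180000000000000000000000000000000000000000000000000000000000000) := T_40 (nat_lit 264) (nat_lit 281) (nat_lit 7) (nat_lit 8) (nat_lit 12) L106212 (by decide +kernel)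
theorem L106214 : W_40 (nat_lit 2) (nat_lit 0xc0034001e000b00000000600020001000180000000000000000000000000000000) (nat_lit 0x0) (nat_lit 0x20003000000000000000000000000000000000000000000000000000000000000000000) := D_40 (nat_lit 264) (nat_lit 281) (nat_lit 265) (nat_lit 7) (nat_lit 8) (nat_lit 12) (nat_lit 2) (nat_lit 7) (nat_lit 15) (by decide +kernel)
theorem L106215 : W_40 (nat_lit 3) (nat_lit 0xc0024001e000b00000000600020001000180000000000000000000000000000000) (nat_lit 0x0) (nat_lit 0x20003000180000000000000000000000000000000000000000000000000000000000000) := T_40 (nat_lit 248) (nat_lit 247) (nat_lit 1) (nat_lit 11) (nat_lit 14) L106214 (by decide +kernel)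
theorem L106216 : W_40 (nat_lit 4) (nat_lit 0x80024001e000b00000000600020001000180000000000000000000000000000000) (nat_lit 0x0) (nat_lit 0x28003400180000000000000000000000000000000000000000000000000000000000000) := T_40 (nat_lit 262) (nat_lit 279) (nat_lit 5) (nat_lit 8) (nat_lit 12) L106215 (by decide +kernel)
theorem L106217 : W_40 (nat_lit 2) (nat_lit 0xc0034001e000b000000006000200010000c0000000000000000000000000000000) (nat_lit 0x0) (nat_lit 0x20003000000000000000000000000000000000000000000000000000000000000000000) := D_40 (nat_lit 264) (nat_lit 281) (nat_lit 265) (nat_lit 7) (nat_lit 8) (nat_lit 12) (nat_lit 2) (nat_lit 7) (nat_lit 15) (by decide +kernel)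
theorem L106218 : W_40 (nat_lit 3) (nat_lit 0xc0024001e000b000000006000200010000c0000000000000000000000000000000) (nat_lit 0x0) (nat_lit 0x20003000180000000000000000000000000000000000000000000000000000000000000) := T_40 (nat_lit 248) (nat_lit 247) (nat_lit 1) (nat_lit 11) (nat_lit 14) L106217 (by decide +kernel)
theorem L106219 : W_40 (nat_lit 4) (nat_lit 0x80024001e000b000000006000200010000c0000000000000000000000000000000) (nat_lit 0x0) (nat_lit 0x28003400180000000000000000000000000000000000000000000000000000000000000) := T_40 (nat_lit 262) (nat_lit 279) (nat_lit 5) (nat_lit 8) (nat_lit 12) L106218 (by decide +kernel)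
theorem L106220 : W_40 (nat_lit 2) (nat_lit 0x1e000f000400006000200010001c0000000000000000000000000000000) (nat_lit 0x0) (nat_lit 0x100000000000000002000100000000000000000000000000000000000000000) := D_40 (nat_lit 181) (nat_lit 248) (nat_lit 164) (nat_lit 5) (nat_lit 11) (nat_lit 10) (nat_lit 5) (nat_lit 11) (nat_lit 9) (by decide +kernel)
theorem L106221 : W_40 (nat_lit 3) (nat_lit 0x1e000f000000006000200010001c0000000000000000000000000000000) (nat_lit 0x0) (nat_lit 0x1000000000000c0002000100000000000000000000000000000000000000000) := T_40 (nat_lit 198) (nat_lit 199) (nat_lit 2) (nat_lit 8) (nat_lit 12) L106220 (by decide +kernel)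
theorem L106222 : W_40 (nat_lit 4) (nat_lit 0x1e000f000000004000200010001c0000000000000000000000000000000) (nat_lit 0x0) (nat_lit 0x1000000000000c4002200100000000000000000000000000000000000000000) := T_40 (nat_lit 177) (nat_lit 194) (nat_lit 5) (nat_lit 8) (nat_lit 7) L106221 (by decide +kernel)
theorem L106223 : W_40 (nat_lit 5) (nat_lit 0x1e000e000000004000200010001c0000000000000000000000000000000) (nat_lit 0x0) (nat_lit 0x1000000001000cc002200100000000000000000000000000000000000000000) := T_40 (nat_lit 212) (nat_lit 195) (nat_lit 7) (nat_lit 8) (nat_lit 9) L106222 (by decide +kernel)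
theorem L106224 : W_40 (nat_lit 6) (nat_lit 0x1e000e000000004000200010000c0000000000000000000000000000000) (nat_lit 0x0) (nat_lit 0x1000000001000cc002200100000000100008000000000000000000000000000) := T_40 (nat_lit 128) (nat_lit 111) (nat_lit 6) (nat_lit 8) (nat_lit 10) L106223 (by decide +kernel)
theorem L106225 : W_40 (nat_lit 7) (nat_lit 0x1e0006000000004000200010000c0000000000000000000000000000000) (nat_lit 0x0) (nat_lit 0x1000000019000cc002200100000000100008000000000000000000000000000) := T_40 (nat_lit 215) (nat_lit 216) (nat_lit 2) (nat_lit 8) (nat_lit 13) L106224 (by decide +kernel)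
theorem L106226 : W_40 (nat_lit 8) (nat_lit 0x1e000600000000400020001000080000000000000000000000000000000) (nat_lit 0x0) (nat_lit 0x1000000019000cc00220010000000014000a000000000000000000000000000) := T_40 (nat_lit 126) (nat_lit 109) (nat_lit 4) (nat_lit 8) (nat_lit 10) L106225 (by decide +kernel)
theorem L106227 : W_40 (nat_lit 9) (nat_lit 0x1e000200000000400020001000080000000000000000000000000000000) (nat_lit 0x0) (nat_lit 0x80004000700000001d000ec00320010000000014000a000000000000000000000000000) := Q_40 (nat_lit 214) (C_40 L106226 (C_40 L104305 (C_40 L104309 (C_40 L106072 N_40)))) (by decide +kernel)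
theorem L106228 : W_40 (nat_lit 5) (nat_lit 0x24001e000b000000006000200010000c0000000000000000000000000000000) (nat_lit 0x0) (nat_lit 0x38003c00180000000000000000000000000000000000000000000000000000000000000) := T_40 (nat_lit 263) (nat_lit 280) (nat_lit 6) (nat_lit 8) (nat_lit 16) L106219 (by decide +kernel)
theorem L106229 : W_40 (nat_lit 5) (nat_lit 0x80024001e000b00000000400020001000180000000000000000000000000000000) (nat_lit 0x0) (nat_lit 0x28003400180000000000004000200000000000000000000000000000000000000000000) := T_40 (nat_lit 177) (nat_lit 194) (nat_lit 5) (nat_lit 8) (nat_lit 7) L106216 (by decide +kernel)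
theorem L106230 : W_40 (nat_lit 6) (nat_lit 0x80024001e000a00000000400020001000180000000000000000000000000000000) (nat_lit 0x0) (nat_lit 0x2800340018000000010000c000200000000000000000000000000000000000000000000) := T_40 (nat_lit 212) (nat_lit 195) (nat_lit 7) (nat_lit 8) (nat_lit 9) L106229 (by decide +kernel)
theorem L106231 : W_40 (nat_lit 7) (nat_lit 0x24001e000a00000000400020001000180000000000000000000000000000000) (nat_lit 0x0) (nat_lit 0x38003c0018000000010000c000200000000000000000000000000000000000000000000) := T_40 (nat_lit 263) (nat_lit 280) (nat_lit 6) (nat_lit 8) (nat_lit 16) L106230 (by decide +kernel)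
theorem L106232 : W_40 (nat_lit 8) (nat_lit 0x24001e000a00000000400020001000080000000000000000000000000000000) (nat_lit 0x0) (nat_lit 0x38003c0018000000010000c000200000000000100008000000000000000000000000000) := T_40 (nat_lit 128) (nat_lit 111) (nat_lit 6) (nat_lit 8) (nat_lit 10) L106231 (by decide +kernel)
theorem L106233 : W_40 (nat_lit 9) (nat_lit 0x20001e000a00000000400020001000080000000000000000000000000000000) (nat_lit 0x0) (nat_lit 0x38003c001e000000010000c000200000000000100008000000000000000000000000000) := T_40 (nat_lit 246) (nat_lit 245) (nat_lit 1) (nat_lit 11) (nat_lit 13) L106232 (by decide +kernel)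
theorem L106234 : W_40 (nat_lit 10) (nat_lit 0x1e000a00000000400020001000080000000000000000000000000000000) (nat_lit 0x0) (nat_lit 0x38003c007e000000010000c000200000000000100008000000000000000000000000000) := T_40 (nat_lit 249) (nat_lit 250) (nat_lit 3) (nat_lit 8) (nat_lit 13) L106233 (by decide +kernel)
theorem L106235 : W_40 (nat_lit 11) (nat_lit 0x1e000200000000400020001000080000000000000000000000000000000) (nat_lit 0x0) (nat_lit 0x38003c007e000000190000c000200000000000100008000000000000000000000000000) := T_40 (nat_lit 215) (nat_lit 216) (nat_lit 2) (nat_lit 8) (nat_lit 13) L106234 (by decide +kernel)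
theorem L106236 : W_40 (nat_lit 6) (nat_lit 0x24001e000a000000006000200010000c0000000000000000000000000000000) (nat_lit 0x0) (nat_lit 0x38003c00180000000100008000000000000000000000000000000000000000000000000) := T_40 (nat_lit 212) (nat_lit 195) (nat_lit 7) (nat_lit 8) (nat_lit 9) L106228 (by decide +kernel)
theorem L106237 : W_40 (nat_lit 7) (nat_lit 0x20001e000a000000006000200010000c0000000000000000000000000000000) (nat_lit 0x0) (nat_lit 0x38003c001e0000000100008000000000000000000000000000000000000000000000000) := T_40 (nat_lit 246) (nat_lit 245) (nat_lit 1) (nat_lit 11) (nat_lit 13) L106236 (by decide +kernel)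
theorem L106238 : W_40 (nat_lit 8) (nat_lit 0x20001e000a00000000600020001000080000000000000000000000000000000) (nat_lit 0x0) (nat_lit 0x38003c001e0000000100008000000000000000040002000000000000000000000000000) := T_40 (nat_lit 126) (nat_lit 109) (nat_lit 4) (nat_lit 8) (nat_lit 10) L106237 (by decide +kernel)
theorem L106239 : W_40 (nat_lit 9) (nat_lit 0x1e000a00000000600020001000080000000000000000000000000000000) (nat_lit 0x0) (nat_lit 0x38003c007e0000000100008000000000000000040002000000000000000000000000000) := T_40 (nat_lit 249) (nat_lit 250) (nat_lit 3) (nat_lit 8) (nat_lit 13) L106238 (by decide +kernel)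
theorem L106240 : W_40 (nat_lit 10) (nat_lit 0x1e000200000000600020001000080000000000000000000000000000000) (nat_lit 0x0) (nat_lit 0x38003c007e0000001900008000000000000000040002000000000000000000000000000) := T_40 (nat_lit 215) (nat_lit 216) (nat_lit 2) (nat_lit 8) (nat_lit 13) L106239 (by decide +kernel)
theorem L106241 : W_40 (nat_lit 11) (nat_lit 0x1e000200000000400020001000080000000000000000000000000000000) (nat_lit 0x0) (nat_lit 0x38003c007e000000190000c000200000000000040002000000000000000000000000000) := T_40 (nat_lit 177) (nat_lit 194) (nat_lit 5) (nat_lit 8) (nat_lit 7) L106240 (by decide +kernel)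
theorem L106242 : W_40 (nat_lit 6) (nat_lit 0x80024001e0003000000004000200010001c0000000000000000000000000000000) (nat_lit 0x0) (nat_lit 0xe8007400100000001800000000000000000000000000000000000000000000000000000) := T_40 (nat_lit 215) (nat_lit 216) (nat_lit 2) (nat_lit 8) (nat_lit 13) L104730 (by decide +kernel)
theorem L106243 : W_40 (nat_lit 7) (nat_lit 0x80024001e0002000000004000200010001c0000000000000000000000000000000) (nat_lit 0x0) (nat_lit 0xe8007400100000001900008000000000000000000000000000000000000000000000000) := T_40 (nat_lit 212) (nat_lit 195) (nat_lit 7) (nat_lit 8) (nat_lit 9) L106242 (by decide +kernel)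
theorem L106244 : W_40 (nat_lit 8) (nat_lit 0x80004001e0002000000004000200010001c0000000000000000000000000000000) (nat_lit 0x0) (nat_lit 0xe8007400700000001900008000000000000000000000000000000000000000000000000) := T_40 (nat_lit 249) (nat_lit 250) (nat_lit 3) (nat_lit 8) (nat_lit 13) L106243 (by decide +kernel)
theorem L106245 : W_40 (nat_lit 9) (nat_lit 0x80004001e000200000000400020001000180000000000000000000000000000000) (nat_lit 0x0) (nat_lit 0xe8007400700000001900008000000000000000040002000000000000000000000000000) := T_40 (nat_lit 126) (nat_lit 109) (nat_lit 4) (nat_lit 8) (nat_lit 10) L106244 (by decide +kernel)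
theorem L106246 : W_40 (nat_lit 10) (nat_lit 0x4001e000200000000400020001000180000000000000000000000000000000) (nat_lit 0x0) (nat_lit 0xf8007c00700000001900008000000000000000040002000000000000000000000000000) := T_40 (nat_lit 263) (nat_lit 280) (nat_lit 6) (nat_lit 8) (nat_lit 16) L106245 (by decide +kernel)
theorem L106247 : W_40 (nat_lit 11) (nat_lit 0x4001e000200000000400020001000080000000000000000000000000000000) (nat_lit 0x0) (nat_lit 0xf8007c0070000000190000800000000000000014000a000000000000000000000000000) := T_40 (nat_lit 128) (nat_lit 111) (nat_lit 6) (nat_lit 8) (nat_lit 10) L106246 (by decide +kernel)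
theorem L106248 : W_40 (nat_lit 12) (nat_lit 0x1e000200000000400020001000080000000000000000000000000000000) (nat_lit 0x0) (nat_lit 0xf8007c0076000000190000800000000000000014000a000000000000000000000000000) := T_40 (nat_lit 246) (nat_lit 245) (nat_lit 1) (nat_lit 11) (nat_lit 13) L106247 (by decide +kernel)
theorem L106249 : W_40 (nat_lit 5) (nat_lit 0x80024001e0002000000006000200010001c0000000000000000000000000000000) (nat_lit 0x0) (nat_lit 0x28003400180000000100008000000000000000000000000000000000000000000000000) := T_40 (nat_lit 212) (nat_lit 195) (nat_lit 7) (nat_lit 8) (nat_lit 9) L106213 (by decide +kernel)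
theorem L106250 : W_40 (nat_lit 6) (nat_lit 0x80004001e0002000000006000200010001c0000000000000000000000000000000) (nat_lit 0x0) (nat_lit 0x28003400780000000100008000000000000000000000000000000000000000000000000) := T_40 (nat_lit 249) (nat_lit 250) (nat_lit 3) (nat_lit 8) (nat_lit 13) L106249 (by decide +kernel)
theorem L106251 : W_40 (nat_lit 7) (nat_lit 0x4001e0002000000006000200010001c0000000000000000000000000000000) (nat_lit 0x0) (nat_lit 0x38003c00780000000100008000000000000000000000000000000000000000000000000) := T_40 (nat_lit 263) (nat_lit 280) (nat_lit 6) (nat_lit 8) (nat_lit 16) L106250 (by decide +kernel)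
theorem L106252 : W_40 (nat_lit 8) (nat_lit 0x4001e000200000000600020001000180000000000000000000000000000000) (nat_lit 0x0) (nat_lit 0x38003c00780000000100008000000000000000040002000000000000000000000000000) := T_40 (nat_lit 126) (nat_lit 109) (nat_lit 4) (nat_lit 8) (nat_lit 10) L106251 (by decide +kernel)
theorem L106253 : W_40 (nat_lit 9) (nat_lit 0x1e000200000000600020001000180000000000000000000000000000000) (nat_lit 0x0) (nat_lit 0x38003c007e0000000100008000000000000000040002000000000000000000000000000) := T_40 (nat_lit 246) (nat_lit 245) (nat_lit 1) (nat_lit 11) (nat_lit 13) L106252 (by decide +kernel)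
theorem L106254 : W_40 (nat_lit 10) (nat_lit 0x1e000200000000600020001000080000000000000000000000000000000) (nat_lit 0x0) (nat_lit 0x38003c007e000000010000800000000000000014000a000000000000000000000000000) := T_40 (nat_lit 128) (nat_lit 111) (nat_lit 6) (nat_lit 8) (nat_lit 10) L106253 (by decide +kernel)
theorem L106255 : W_40 (nat_lit 11) (nat_lit 0x1e000200000000400020001000080000000000000000000000000000000) (nat_lit 0x0) (nat_lit 0x38003c007e000000010000c00020000000000014000a000000000000000000000000000) := T_40 (nat_lit 177) (nat_lit 194) (nat_lit 5) (nat_lit 8) (nat_lit 7) L106254 (by decide +kernel)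
theorem L106256 : W_40 (nat_lit 2) (nat_lit 0x1c0004001e000700020000600020001000180000000000000000000000000000000) (nat_lit 0x0) (nat_lit 0x600000000000000001000000000000000000000000000000000000000000000) := D_40 (nat_lit 249) (nat_lit 250) (nat_lit 180) (nat_lit 3) (nat_lit 8) (nat_lit 13) (nat_lit 7) (nat_lit 10) (nat_lit 10) (by decide +kernel)
theorem L106257 : W_40 (nat_lit 3) (nat_lit 0x1c0004001e000700000000600020001000180000000000000000000000000000000) (nat_lit 0x0) (nat_lit 0x680000000000020001000000000000000000000000000000000000000000000) := T_40 (nat_lit 197) (nat_lit 247) (nat_lit 6) (nat_lit 9) (nat_lit 15) L106256 (by decide +kernel)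
theorem L106258 : W_40 (nat_lit 4) (nat_lit 0xc0004001e000700000000600020001000180000000000000000000000000000000) (nat_lit 0x0) (nat_lit 0x20001000680000000000020001000000000000000000000000000000000000000000000) := T_40 (nat_lit 264) (nat_lit 281) (nat_lit 7) (nat_lit 8) (nat_lit 12) L106257 (by decide +kernel)
theorem L106259 : W_40 (nat_lit 5) (nat_lit 0x80004001e000700000000600020001000180000000000000000000000000000000) (nat_lit 0x0) (nat_lit 0x28001400680000000000020001000000000000000000000000000000000000000000000) := T_40 (nat_lit 262) (nat_lit 279) (nat_lit 5) (nat_lit 8) (nat_lit 12) L106258 (by decide +kernel)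
theorem L106260 : W_40 (nat_lit 6) (nat_lit 0x80004001e000700000000600020001000080000000000000000000000000000000) (nat_lit 0x0) (nat_lit 0x28001400680000000000020001000000000000100008000000000000000000000000000) := T_40 (nat_lit 128) (nat_lit 111) (nat_lit 6) (nat_lit 8) (nat_lit 10) L106259 (by decide +kernel)
theorem L106261 : W_40 (nat_lit 7) (nat_lit 0x4001e000700000000600020001000080000000000000000000000000000000) (nat_lit 0x0) (nat_lit 0x38001c00680000000000020001000000000000100008000000000000000000000000000) := T_40 (nat_lit 263) (nat_lit 280) (nat_lit 6) (nat_lit 8) (nat_lit 16) L106260 (by decide +kernel)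
theorem L106262 : W_40 (nat_lit 8) (nat_lit 0x4001e000700000000400020001000080000000000000000000000000000000) (nat_lit 0x0) (nat_lit 0x38001c00680000000000024001200000000000100008000000000000000000000000000) := T_40 (nat_lit 177) (nat_lit 194) (nat_lit 5) (nat_lit 8) (nat_lit 7) L106261 (by decide +kernel)
theorem L106263 : W_40 (nat_lit 9) (nat_lit 0x1e000700000000400020001000080000000000000000000000000000000) (nat_lit 0x0) (nat_lit 0x38001c006e0000000000024001200000000000100008000000000000000000000000000) := T_40 (nat_lit 246) (nat_lit 245) (nat_lit 1) (nat_lit 11) (nat_lit 13) L106262 (by decide +kernel)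
theorem L106264 : W_40 (nat_lit 10) (nat_lit 0x1e000600000000400020001000080000000000000000000000000000000) (nat_lit 0x0) (nat_lit 0x38001c006e000000010002c001200000000000100008000000000000000000000000000) := T_40 (nat_lit 212) (nat_lit 195) (nat_lit 7) (nat_lit 8) (nat_lit 9) L106263 (by decide +kernel)
theorem L106265 : W_40 (nat_lit 2) (nat_lit 0x80004001e000f000600006001a0001000080000000000000000000000000000000) (nat_lit 0x0) (nat_lit 0x20001000080000000000000000000000000000000000000000000000000000000000000) := D_40 (nat_lit 264) (nat_lit 281) (nat_lit 247) (nat_lit 7) (nat_lit 8) (nat_lit 12) (nat_lit 6) (nat_lit 9) (nat_lit 15) (by decide +kernel)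
theorem L106266 : W_40 (nat_lit 3) (nat_lit 0x80004001e000f000400006001a0001000080000000000000000000000000000000) (nat_lit 0x0) (nat_lit 0x20001000080000000000020001000000000000000000000000000000000000000000000) := T_40 (nat_lit 197) (nat_lit 180) (nat_lit 7) (nat_lit 10) (nat_lit 9) L106265 (by decide +kernel)
theorem L106267 : W_40 (nat_lit 4) (nat_lit 0x4001e000f000400006001a0001000080000000000000000000000000000000) (nat_lit 0x0) (nat_lit 0x30001800080000000000020001000000000000000000000000000000000000000000000) := T_40 (nat_lit 263) (nat_lit 280) (nat_lit 6) (nat_lit 8) (nat_lit 16) L106266 (by decide +kernel)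
theorem L106268 : W_40 (nat_lit 5) (nat_lit 0x4001e000f00040000600120001000080000000000000000000000000000000) (nat_lit 0x0) (nat_lit 0x300018000800000000000200010000c0000000000000000000000000000000000000000) := T_40 (nat_lit 163) (nat_lit 162) (nat_lit 1) (nat_lit 11) (nat_lit 9) L106267 (by decide +kernel)
theorem L106269 : W_40 (nat_lit 6) (nat_lit 0x4001e000f00040000600020001000080000000000000000000000000000000) (nat_lit 0x0) (nat_lit 0x300018000800000000000200030001c0000000000000000000000000000000000000000) := T_40 (nat_lit 164) (nat_lit 181) (nat_lit 5) (nat_lit 11) (nat_lit 9) L106268 (by decide +kernel)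
theorem L106270 : W_40 (nat_lit 7) (nat_lit 0x1e000f00040000600020001000080000000000000000000000000000000) (nat_lit 0x0) (nat_lit 0x300018000e00000000000200030001c0000000000000000000000000000000000000000) := T_40 (nat_lit 246) (nat_lit 245) (nat_lit 1) (nat_lit 11) (nat_lit 13) L106269 (by decide +kernel)
theorem L106271 : W_40 (nat_lit 8) (nat_lit 0x1e000f00000000600020001000080000000000000000000000000000000) (nat_lit 0x0) (nat_lit 0x300018000e00000000000e00030001c0000000000000000000000000000000000000000) := T_40 (nat_lit 198) (nat_lit 199) (nat_lit 2) (nat_lit 8) (nat_lit 12) L106270 (by decide +kernel)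
theorem L106272 : W_40 (nat_lit 9) (nat_lit 0x1e000f00000000400020001000080000000000000000000000000000000) (nat_lit 0x0) (nat_lit 0x300018000e00000000000e40032001c0000000000000000000000000000000000000000) := T_40 (nat_lit 177) (nat_lit 194) (nat_lit 5) (nat_lit 8) (nat_lit 7) L106271 (by decide +kernel)
theorem L106273 : W_40 (nat_lit 10) (nat_lit 0x1e000e00000000400020001000080000000000000000000000000000000) (nat_lit 0x0) (nat_lit 0x300018000e00000001000ec0032001c0000000000000000000000000000000000000000) := T_40 (nat_lit 212) (nat_lit 195) (nat_lit 7) (nat_lit 8) (nat_lit 9) L106272 (by decide +kernel)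
theorem L106274 : W_40 (nat_lit 11) (nat_lit 0x1e000600000000400020001000080000000000000000000000000000000) (nat_lit 0x0) (nat_lit 0x300018000e00000019000ec0032001c0000000000000000000000000000000000000000) := T_40 (nat_lit 215) (nat_lit 216) (nat_lit 2) (nat_lit 8) (nat_lit 13) L106273 (by decide +kernel)
theorem L106275 : W_40 (nat_lit 12) (nat_lit 0x1e000200000000400020001000080000000000000000000000000000000) (nat_lit 0x0) (nat_lit 0x1f800fc006e0000001d000ec0032001c000000014000a000000000000000000000000000) := Q_40 (nat_lit 214) (C_40 L106208 (C_40 L104305 (C_40 L106264 (C_40 L106274 N_40)))) (by decide +kernel)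
theorem L106276 : W_40 (nat_lit 2) (nat_lit 0x2001e0014801e000300000000600020001000080000000000000000000000000000000) (nat_lit 0x0) (nat_lit 0x1000100004000000000000000000000000000000000000000000000000000000000000) := D_40 (nat_lit 260) (nat_lit 242) (nat_lit 276) (nat_lit 0) (nat_lit 8) (nat_lit 15) (nat_lit 1) (nat_lit 8) (nat_lit 15) (by decide +kernel)
theorem L106277 : W_40 (nat_lit 3) (nat_lit 0x1e0014801e000300000000600020001000080000000000000000000000000000000) (nat_lit 0x0) (nat_lit 0x7000100004000000000000000000000000000000000000000000000000000000000000) := T_40 (nat_lit 277) (nat_lit 278) (nat_lit 1) (nat_lit 9) (nat_lit 15) L106276 (by decide +kernel)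
theorem L106278 : W_40 (nat_lit 4) (nat_lit 0x1e0014001e000300000000600020001000080000000000000000000000000000000) (nat_lit 0x0) (nat_lit 0x700010001c000000000000000000000000000000000000000000000000000000000000) := T_40 (nat_lit 243) (nat_lit 244) (nat_lit 0) (nat_lit 9) (nat_lit 15) L106277 (by decide +kernel)
theorem L106279 : W_40 (nat_lit 5) (nat_lit 0x1c0014001e000300000000600020001000080000000000000000000000000000000) (nat_lit 0x0) (nat_lit 0x700030009c000000000000000000000000000000000000000000000000000000000000) := T_40 (nat_lit 261) (nat_lit 247) (nat_lit 2) (nat_lit 6) (nat_lit 15) L106278 (by decide +kernel)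
theorem L106280 : W_40 (nat_lit 6) (nat_lit 0x180014001e000300000000600020001000080000000000000000000000000000000) (nat_lit 0x0) (nat_lit 0xf00070009c000000000000000000000000000000000000000000000000000000000000) := T_40 (nat_lit 262) (nat_lit 279) (nat_lit 5) (nat_lit 8) (nat_lit 12) L106279 (by decide +kernel)
theorem L106281 : W_40 (nat_lit 7) (nat_lit 0x80014001e000300000000600020001000080000000000000000000000000000000) (nat_lit 0x0) (nat_lit 0x2f00170009c000000000000000000000000000000000000000000000000000000000000) := T_40 (nat_lit 264) (nat_lit 281) (nat_lit 7) (nat_lit 8) (nat_lit 12) L106280 (by decide +kernel)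
theorem L106282 : W_40 (nat_lit 8) (nat_lit 0x14001e000300000000600020001000080000000000000000000000000000000) (nat_lit 0x0) (nat_lit 0x3f001f0009c000000000000000000000000000000000000000000000000000000000000) := T_40 (nat_lit 263) (nat_lit 280) (nat_lit 6) (nat_lit 8) (nat_lit 16) L106281 (by decide +kernel)
theorem L106283 : W_40 (nat_lit 9) (nat_lit 0x14001e000300000000400020001000080000000000000000000000000000000) (nat_lit 0x0) (nat_lit 0x3f001f0009c000000000004000200000000000000000000000000000000000000000000) := T_40 (nat_lit 177) (nat_lit 194) (nat_lit 5) (nat_lit 8) (nat_lit 7) L106282 (by decide +kernel)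
theorem L106284 : W_40 (nat_lit 10) (nat_lit 0x14001e000200000000400020001000080000000000000000000000000000000) (nat_lit 0x0) (nat_lit 0x3f001f0009c00000010000c000200000000000000000000000000000000000000000000) := T_40 (nat_lit 212) (nat_lit 195) (nat_lit 7) (nat_lit 8) (nat_lit 9) L106283 (by decide +kernel)
theorem L106285 : W_40 (nat_lit 11) (nat_lit 0x10001e000200000000400020001000080000000000000000000000000000000) (nat_lit 0x0) (nat_lit 0x3f001f000fc00000010000c000200000000000000000000000000000000000000000000) := T_40 (nat_lit 246) (nat_lit 245) (nat_lit 1) (nat_lit 11) (nat_lit 13) L106284 (by decide +kernel)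
theorem L106286 : W_40 (nat_lit 12) (nat_lit 0x1e000200000000400020001000080000000000000000000000000000000) (nat_lit 0x0) (nat_lit 0x7f003f001fc000001d0004c002200000000000000000000000000000000000000000000) := Q_40 (nat_lit 248) (C_40 L104312 (C_40 L106285 N_40)) (by decide +kernel)
theorem L106287 : W_40 (nat_lit 13) (nat_lit 0x1c000200000000400020001000080000000000000000000000000000000) (nat_lit 0x0) (nat_lit 0x7f003f007fc003001d0004c002200000000000100008000000000000000000000000000) := Q_40 (nat_lit 229) (C_40 L104808 (C_40 L106286 (C_40 L104803 (C_40 L106235 (C_40 L104359 N_40))))) (by decide +kernel)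
theorem L106288 : W_40 (nat_lit 13) (nat_lit 0x1c000200000000400020001000080000000000000000000000000000000) (nat_lit 0x0) (nat_lit 0xff007f007fc003001d0006c002200000000000040002000000000000000000000000000) := Q_40 (nat_lit 229) (C_40 L105964 (C_40 L106286 (C_40 L104814 (C_40 L106241 (C_40 L104359 N_40))))) (by decide +kernel)
theorem L106289 : W_40 (nat_lit 13) (nat_lit 0x1c000200000000400020001000080000000000000000000000000000000) (nat_lit 0x0) (nat_lit 0xf8007c0077c003c01d0000800000000000000014000a000000000000000000000000000) := Q_40 (nat_lit 229) (C_40 L106248 (C_40 L104803 (C_40 L105948 (C_40 L104814 N_40)))) (by decide +kernel)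
theorem L106290 : W_40 (nat_lit 2) (nat_lit 0x22001f800340000000700060001000180000000000000000000000000000000) (nat_lit 0x0) (nat_lit 0x190000000000000000000000000000000000000000) := D_40 (nat_lit 163) (nat_lit 164) (nat_lit 160) (nat_lit 1) (nat_lit 11) (nat_lit 9) (nat_lit 1) (nat_lit 10) (nat_lit 9) (by decide +kernel)
theorem L106291 : W_40 (nat_lit 3) (nat_lit 0x22001f800340000000700020001000180000000000000000000000000000000) (nat_lit 0x0) (nat_lit 0x801d0000000000000000000000000000000000000000) := T_40 (nat_lit 162) (nat_lit 175) (nat_lit 2) (nat_lit 5) (nat_lit 10) L106290 (by decide +kernel)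
theorem L106292 : W_40 (nat_lit 4) (nat_lit 0x22001f800340000000600020001000180000000000000000000000000000000) (nat_lit 0x0) (nat_lit 0x20001801d0000000000000000000000000000000000000000) := T_40 (nat_lit 176) (nat_lit 193) (nat_lit 7) (nat_lit 6) (nat_lit 10) L106291 (by decide +kernel)
theorem L106293 : W_40 (nat_lit 5) (nat_lit 0x22001f800300000000600020001000180000000000000000000000000000000) (nat_lit 0x0) (nat_lit 0x600020001801d0000000000000000000000000000000000000000) := T_40 (nat_lit 210) (nat_lit 209) (nat_lit 0) (nat_lit 9) (nat_lit 13) L106292 (by decide +kernel)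
theorem L106294 : W_40 (nat_lit 6) (nat_lit 0x22001f000300000000600020001000180000000000000000000000000000000) (nat_lit 0x0) (nat_lit 0xc000600020001801d0000000000000000000000000000000000000000) := T_40 (nat_lit 227) (nat_lit 226) (nat_lit 2) (nat_lit 5) (nat_lit 13) L106293 (by decide +kernel)
theorem L106295 : W_40 (nat_lit 7) (nat_lit 0x22001e000300000000600020001000180000000000000000000000000000000) (nat_lit 0x0) (nat_lit 0x10001c000600020001801d0000000000000000000000000000000000000000) := T_40 (nat_lit 228) (nat_lit 244) (nat_lit 1) (nat_lit 10) (nat_lit 13) L106294 (by decide +kernel)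
theorem L106296 : W_40 (nat_lit 8) (nat_lit 0x22001e000200000000600020001000180000000000000000000000000000000) (nat_lit 0x0) (nat_lit 0x10001c0016000a0001801d0000000000000000000000000000000000000000) := T_40 (nat_lit 212) (nat_lit 195) (nat_lit 7) (nat_lit 8) (nat_lit 9) L106295 (by decide +kernel)
theorem L106297 : W_40 (nat_lit 9) (nat_lit 0x20001e000200000000600020001000180000000000000000000000000000000) (nat_lit 0x0) (nat_lit 0x70001c0016000a0001801d0000000000000000000000000000000000000000) := T_40 (nat_lit 245) (nat_lit 246) (nat_lit 1) (nat_lit 11) (nat_lit 13) L106296 (by decide +kernel)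
theorem L106298 : W_40 (nat_lit 10) (nat_lit 0x1e000200000000600020001000180000000000000000000000000000000) (nat_lit 0x0) (nat_lit 0x670001c0016000a0001801d0000000000000000000000000000000000000000) := T_40 (nat_lit 249) (nat_lit 250) (nat_lit 3) (nat_lit 8) (nat_lit 13) L106297 (by decide +kernel)
theorem L106299 : W_40 (nat_lit 11) (nat_lit 0x1e000200000000400020001000180000000000000000000000000000000) (nat_lit 0x0) (nat_lit 0x670001c0016000e0003801d0000000000000000000000000000000000000000) := T_40 (nat_lit 177) (nat_lit 194) (nat_lit 5) (nat_lit 8) (nat_lit 7) L106298 (by decide +kernel)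
theorem L106300 : W_40 (nat_lit 12) (nat_lit 0x1e000200000000400020001000080000000000000000000000000000000) (nat_lit 0x0) (nat_lit 0x670001c0016000e0003801d0000000100008000000000000000000000000000) := T_40 (nat_lit 128) (nat_lit 111) (nat_lit 6) (nat_lit 8) (nat_lit 10) L106299 (by decide +kernel)
theorem L106301 : W_40 (nat_lit 2) (nat_lit 0x2001f800b40000000700060001000180000000000000000000000000000000) (nat_lit 0x0) (nat_lit 0x190000000000000000000000000000000000000000) := D_40 (nat_lit 163) (nat_lit 164) (nat_lit 160) (nat_lit 1) (nat_lit 11) (nat_lit 9) (nat_lit 1) (nat_lit 10) (nat_lit 9) (by decide +kernel)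
theorem L106302 : W_40 (nat_lit 3) (nat_lit 0x2001f800b40000000700020001000180000000000000000000000000000000) (nat_lit 0x0) (nat_lit 0x801d0000000000000000000000000000000000000000) := T_40 (nat_lit 162) (nat_lit 175) (nat_lit 2) (nat_lit 5) (nat_lit 10) L106301 (by decide +kernel)
theorem L106303 : W_40 (nat_lit 4) (nat_lit 0x2001f800b40000000600020001000180000000000000000000000000000000) (nat_lit 0x0) (nat_lit 0x20001801d0000000000000000000000000000000000000000) := T_40 (nat_lit 176) (nat_lit 193) (nat_lit 7) (nat_lit 6) (nat_lit 10) L106302 (by decide +kernel)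
theorem L106304 : W_40 (nat_lit 5) (nat_lit 0x2001f800b00000000600020001000180000000000000000000000000000000) (nat_lit 0x0) (nat_lit 0x600020001801d0000000000000000000000000000000000000000) := T_40 (nat_lit 210) (nat_lit 209) (nat_lit 0) (nat_lit 9) (nat_lit 13) L106303 (by decide +kernel)
theorem L106305 : W_40 (nat_lit 6) (nat_lit 0x2001f000b00000000600020001000180000000000000000000000000000000) (nat_lit 0x0) (nat_lit 0xc000600020001801d0000000000000000000000000000000000000000) := T_40 (nat_lit 227) (nat_lit 226) (nat_lit 2) (nat_lit 5) (nat_lit 13) L106304 (by decide +kernel)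
theorem L106306 : W_40 (nat_lit 7) (nat_lit 0x2001e000b00000000600020001000180000000000000000000000000000000) (nat_lit 0x0) (nat_lit 0x10001c000600020001801d0000000000000000000000000000000000000000) := T_40 (nat_lit 228) (nat_lit 244) (nat_lit 1) (nat_lit 10) (nat_lit 13) L106305 (by decide +kernel)
theorem L106307 : W_40 (nat_lit 8) (nat_lit 0x2001e000b00000000400020001000180000000000000000000000000000000) (nat_lit 0x0) (nat_lit 0x10001c000600060003801d0000000000000000000000000000000000000000) := T_40 (nat_lit 177) (nat_lit 194) (nat_lit 5) (nat_lit 8) (nat_lit 7) L106306 (by decide +kernel)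
theorem L106308 : W_40 (nat_lit 9) (nat_lit 0x1e000b00000000400020001000180000000000000000000000000000000) (nat_lit 0x0) (nat_lit 0x70001c000600060003801d0000000000000000000000000000000000000000) := T_40 (nat_lit 245) (nat_lit 246) (nat_lit 1) (nat_lit 11) (nat_lit 13) L106307 (by decide +kernel)
theorem L106309 : W_40 (nat_lit 10) (nat_lit 0x1e000b00000000400020001000080000000000000000000000000000000) (nat_lit 0x0) (nat_lit 0x70001c000600060003801d0000000100008000000000000000000000000000) := T_40 (nat_lit 128) (nat_lit 111) (nat_lit 6) (nat_lit 8) (nat_lit 10) L106308 (by decide +kernel)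
theorem L106310 : W_40 (nat_lit 11) (nat_lit 0x1e000300000000400020001000080000000000000000000000000000000) (nat_lit 0x0) (nat_lit 0x70001c018600060003801d0000000100008000000000000000000000000000) := T_40 (nat_lit 215) (nat_lit 216) (nat_lit 2) (nat_lit 8) (nat_lit 13) L106309 (by decide +kernel)
theorem L106311 : W_40 (nat_lit 12) (nat_lit 0x1e000200000000400020001000080000000000000000000000000000000) (nat_lit 0x0) (nat_lit 0x70001c0196000e0003801d0000000100008000000000000000000000000000) := T_40 (nat_lit 212) (nat_lit 195) (nat_lit 7) (nat_lit 8) (nat_lit 9) L106310 (by decide +kernel)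
theorem L106312 : W_40 (nat_lit 13) (nat_lit 0x1c000200000000400020001000080000000000000000000000000000000) (nat_lit 0x0) (nat_lit 0xf8007c007f0003c0196004e0003801d000000014000a000000000000000000000000000) := Q_40 (nat_lit 229) (C_40 L106255 (C_40 L106235 (C_40 L106241 (C_40 L104820 (C_40 L106248 (C_40 L106300 (C_40 L106311 N_40))))))) (by decide +kernel)
theorem L106313 : W_40 (nat_lit 2) (nat_lit 0x2001f8002400080007000600010001c0000000000000000000000000000000) (nat_lit 0x0) (nat_lit 0x190000000000000000000000000000000000000000) := D_40 (nat_lit 163) (nat_lit 164) (nat_lit 160) (nat_lit 1) (nat_lit 11) (nat_lit 9) (nat_lit 1) (nat_lit 10) (nat_lit 9) (by decide +kernel)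
theorem L106314 : W_40 (nat_lit 3) (nat_lit 0x2001f8002400080007000200010001c0000000000000000000000000000000) (nat_lit 0x0) (nat_lit 0x801d0000000000000000000000000000000000000000) := T_40 (nat_lit 162) (nat_lit 175) (nat_lit 2) (nat_lit 5) (nat_lit 10) L106313 (by decide +kernel)
theorem L106315 : W_40 (nat_lit 4) (nat_lit 0x2001f8002400080006000200010001c0000000000000000000000000000000) (nat_lit 0x0) (nat_lit 0x20001801d0000000000000000000000000000000000000000) := T_40 (nat_lit 176) (nat_lit 193) (nat_lit 7) (nat_lit 6) (nat_lit 10) L106314 (by decide +kernel)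
theorem L106316 : W_40 (nat_lit 5) (nat_lit 0x2001f8002000080006000200010001c0000000000000000000000000000000) (nat_lit 0x0) (nat_lit 0x600020001801d0000000000000000000000000000000000000000) := T_40 (nat_lit 210) (nat_lit 209) (nat_lit 0) (nat_lit 9) (nat_lit 13) L106315 (by decide +kernel)
theorem L106317 : W_40 (nat_lit 6) (nat_lit 0x2001f0002000080006000200010001c0000000000000000000000000000000) (nat_lit 0x0) (nat_lit 0x8004600020001801d0000000000000000000000000000000000000000) := T_40 (nat_lit 227) (nat_lit 214) (nat_lit 2) (nat_lit 6) (nat_lit 13) L106316 (by decide +kernel)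
theorem L106318 : W_40 (nat_lit 7) (nat_lit 0x2001f0002000000006000200010001c0000000000000000000000000000000) (nat_lit 0x0) (nat_lit 0x80056000a0001801d0000000000000000000000000000000000000000) := T_40 (nat_lit 195) (nat_lit 212) (nat_lit 7) (nat_lit 8) (nat_lit 9) L106317 (by decide +kernel)
theorem L106319 : W_40 (nat_lit 8) (nat_lit 0x2001f0002000000004000200010001c0000000000000000000000000000000) (nat_lit 0x0) (nat_lit 0x80056000e0003801d0000000000000000000000000000000000000000) := T_40 (nat_lit 177) (nat_lit 194) (nat_lit 5) (nat_lit 8) (nat_lit 7) L106318 (by decide +kernel)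
theorem L106320 : W_40 (nat_lit 9) (nat_lit 0x2001e0002000000004000200010001c0000000000000000000000000000000) (nat_lit 0x0) (nat_lit 0x1000180056000e0003801d0000000000000000000000000000000000000000) := T_40 (nat_lit 228) (nat_lit 244) (nat_lit 1) (nat_lit 10) (nat_lit 13) L106319 (by decide +kernel)
theorem L106321 : W_40 (nat_lit 10) (nat_lit 0x2001e0002000000004000200010000c0000000000000000000000000000000) (nat_lit 0x0) (nat_lit 0x1000180056000e0003801d0000000100008000000000000000000000000000) := T_40 (nat_lit 128) (nat_lit 111) (nat_lit 6) (nat_lit 8) (nat_lit 10) L106320 (by decide +kernel)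
theorem L106322 : W_40 (nat_lit 11) (nat_lit 0x1e0002000000004000200010000c0000000000000000000000000000000) (nat_lit 0x0) (nat_lit 0x7000180056000e0003801d0000000100008000000000000000000000000000) := T_40 (nat_lit 245) (nat_lit 246) (nat_lit 1) (nat_lit 11) (nat_lit 13) L106321 (by decide +kernel)
theorem L106323 : W_40 (nat_lit 12) (nat_lit 0x1e000200000000400020001000080000000000000000000000000000000) (nat_lit 0x0) (nat_lit 0x7000180056000e0003801d000000014000a000000000000000000000000000) := T_40 (nat_lit 126) (nat_lit 109) (nat_lit 4) (nat_lit 8) (nat_lit 10) L106322 (by decide +kernel)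
theorem L106324 : W_40 (nat_lit 13) (nat_lit 0x1c000200000000400020001000080000000000000000000000000000000) (nat_lit 0x0) (nat_lit 0x38003c007fc003c0056000e0003801d000000014000a000000000000000000000000000) := Q_40 (nat_lit 229) (C_40 L106300 (C_40 L104359 (C_40 L105948 (C_40 L106255 (C_40 L106323 N_40))))) (by decide +kernel)
theorem L106325 : W_40 (nat_lit 2) (nat_lit 0x1c000200000000400020001000080000000000000000000000000000000) (nat_lit 0x0) (nat_lit 0x20000100008000000000000000000000000000000000000000000000000) := D_40 (nat_lit 212) (nat_lit 195) (nat_lit 233) (nat_lit 7) (nat_lit 8) (nat_lit 9) (nat_lit 0) (nat_lit 12) (nat_lit 13) (by decide +kernel)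
theorem L106326 : W_40 (nat_lit 2) (nat_lit 0x1e000f00040000600020001000180000000000000000000000000000000) (nat_lit 0x0) (nat_lit 0x100000000000000002000100000000000000000000000000000000000000000) := D_40 (nat_lit 181) (nat_lit 248) (nat_lit 164) (nat_lit 5) (nat_lit 11) (nat_lit 10) (nat_lit 5) (nat_lit 11) (nat_lit 9) (by decide +kernel)
theorem L106327 : W_40 (nat_lit 3) (nat_lit 0x1e000f00000000600020001000180000000000000000000000000000000) (nat_lit 0x0) (nat_lit 0x1000000000000c0002000100000000000000000000000000000000000000000) := T_40 (nat_lit 198) (nat_lit 199) (nat_lit 2) (nat_lit 8) (nat_lit 12) L106326 (by decide +kernel)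
theorem L106328 : W_40 (nat_lit 4) (nat_lit 0x1e000f00000000400020001000180000000000000000000000000000000) (nat_lit 0x0) (nat_lit 0x1000000000000c4002200100000000000000000000000000000000000000000) := T_40 (nat_lit 177) (nat_lit 194) (nat_lit 5) (nat_lit 8) (nat_lit 7) L106327 (by decide +kernel)
theorem L106329 : W_40 (nat_lit 5) (nat_lit 0x1e000e00000000400020001000180000000000000000000000000000000) (nat_lit 0x0) (nat_lit 0x1000000001000cc002200100000000000000000000000000000000000000000) := T_40 (nat_lit 212) (nat_lit 195) (nat_lit 7) (nat_lit 8) (nat_lit 9) L106328 (by decide +kernel)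
theorem L106330 : W_40 (nat_lit 6) (nat_lit 0x1e000a00000000400020001000180000000000000000000000000000000) (nat_lit 0x0) (nat_lit 0x1000010005000cc002200100000000000000000000000000000000000000000) := T_40 (nat_lit 214) (nat_lit 228) (nat_lit 2) (nat_lit 7) (nat_lit 13) L106329 (by decide +kernel)
theorem L106331 : W_40 (nat_lit 7) (nat_lit 0x1e000200000000400020001000180000000000000000000000000000000) (nat_lit 0x0) (nat_lit 0x100001001d000cc002200100000000000000000000000000000000000000000) := T_40 (nat_lit 215) (nat_lit 216) (nat_lit 2) (nat_lit 8) (nat_lit 13) L106330 (by decide +kernel)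
theorem L106332 : W_40 (nat_lit 8) (nat_lit 0x1e000200000000400020001000080000000000000000000000000000000) (nat_lit 0x0) (nat_lit 0x100001001d000cc002200100000000100008000000000000000000000000000) := T_40 (nat_lit 128) (nat_lit 111) (nat_lit 6) (nat_lit 8) (nat_lit 10) L106331 (by decide +kernel)
theorem L106333 : W_40 (nat_lit 11) (nat_lit 0x1c000200000000400020001000080000000000000000000000000000000) (nat_lit 0x0) (nat_lit 0xc000600079c003c01d600ec00320010000000014000a000000000000000000000000000) := Q_40 (nat_lit 229) (C_40 L106199 (C_40 L106227 (C_40 L104803 (C_40 L104820 (C_40 L105948 (C_40 L105964 (C_40 L106332 N_40))))))) (by decide +kernel)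
theorem L106334 : W_40 (nat_lit 14) (nat_lit 0x14000200000000400020001000080000000000000000000000000000000) (nat_lit 0x0) (nat_lit 0x1f800fc01f7c06bc07d0004c00020000000000014000a000000000000000000000000000) := Q_40 (nat_lit 231) (C_40 L106325 (C_40 L105754 (C_40 L106289 N_40))) (by decide +kernel)
theorem L106335 : W_40 (nat_lit 14) (nat_lit 0x14000200000000400020001000080000000000000000000000000000000) (nat_lit 0x0) (nat_lit 0x7f003f01ffc06b003d0004c002200000000000100008000000000000000000000000000) := Q_40 (nat_lit 231) (C_40 L106325 (C_40 L104816 (C_40 L106287 N_40))) (by decide +kernel)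
theorem L106336 : W_40 (nat_lit 14) (nat_lit 0x14000200000000400020001000080000000000000000000000000000000) (nat_lit 0x0) (nat_lit 0x1ff00ff01ffc06b807d0006c002200000000000040002000000000000000000000000000) := Q_40 (nat_lit 231) (C_40 L106325 (C_40 L105754 (C_40 L106288 N_40))) (by decide +kernel)
theorem L106337 : W_40 (nat_lit 2) (nat_lit 0x200018003c001a000000006000200010001c0000000000000000000000000000000) (nat_lit 0x0) (nat_lit 0x200000000000040002000000000000000000000000000000000000000000000) := D_40 (nat_lit 198) (nat_lit 181) (nat_lit 249) (nat_lit 5) (nat_lit 11) (nat_lit 10) (nat_lit 5) (nat_lit 11) (nat_lit 11) (by decide +kernel)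
theorem L106338 : W_40 (nat_lit 3) (nat_lit 0x18003c001a000000006000200010001c0000000000000000000000000000000) (nat_lit 0x0) (nat_lit 0x40002000200000000000040002000000000000000000000000000000000000000000000) := T_40 (nat_lit 265) (nat_lit 282) (nat_lit 6) (nat_lit 10) (nat_lit 16) L106337 (by decide +kernel)
theorem L106339 : W_40 (nat_lit 4) (nat_lit 0x18003c001a000000004000200010001c0000000000000000000000000000000) (nat_lit 0x0) (nat_lit 0x40002000200000000000044002200000000000000000000000000000000000000000000) := T_40 (nat_lit 177) (nat_lit 194) (nat_lit 5) (nat_lit 8) (nat_lit 7) L106338 (by decide +kernel)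
theorem L106340 : W_40 (nat_lit 5) (nat_lit 0x8003c001a000000004000200010001c0000000000000000000000000000000) (nat_lit 0x0) (nat_lit 0x40002000300040000000044002200000000000000000000000000000000000000000000) := T_40 (nat_lit 248) (nat_lit 234) (nat_lit 1) (nat_lit 13) (nat_lit 13) L106339 (by decide +kernel)
theorem L106341 : W_40 (nat_lit 6) (nat_lit 0x8003c001a000000004000200010000c0000000000000000000000000000000) (nat_lit 0x0) (nat_lit 0x40002000300040000000044002200000000000100008000000000000000000000000000) := T_40 (nat_lit 128) (nat_lit 111) (nat_lit 6) (nat_lit 8) (nat_lit 10) L106340 (by decide +kernel)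
theorem L106342 : W_40 (nat_lit 7) (nat_lit 0x3c001a000000004000200010000c0000000000000000000000000000000) (nat_lit 0x0) (nat_lit 0x400020003c0040000000044002200000000000100008000000000000000000000000000) := T_40 (nat_lit 247) (nat_lit 246) (nat_lit 1) (nat_lit 12) (nat_lit 13) L106341 (by decide +kernel)
theorem L106343 : W_40 (nat_lit 8) (nat_lit 0x3c001a00000000400020001000080000000000000000000000000000000) (nat_lit 0x0) (nat_lit 0x400020003c004000000004400220000000000014000a000000000000000000000000000) := T_40 (nat_lit 126) (nat_lit 109) (nat_lit 4) (nat_lit 8) (nat_lit 10) L106342 (by decide +kernel)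
theorem L106344 : W_40 (nat_lit 9) (nat_lit 0x3c000a00000000400020001000080000000000000000000000000000000) (nat_lit 0x0) (nat_lit 0x400020003c004000300004400220000000000014000a000000000000000000000000000) := T_40 (nat_lit 216) (nat_lit 217) (nat_lit 2) (nat_lit 9) (nat_lit 13) L106343 (by decide +kernel)
theorem L106345 : W_40 (nat_lit 10) (nat_lit 0x1c000a00000000400020001000080000000000000000000000000000000) (nat_lit 0x0) (nat_lit 0x14000a003fc01e000300004400220000000000014000a000000000000000000000000000) := Q_40 (nat_lit 233) (C_40 L105268 (C_40 L104264 (C_40 L105061 (C_40 L106344 N_40)))) (by decide +kernel)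
theorem L106346 : W_40 (nat_lit 5) (nat_lit 0x8007c000a000000006000200010000c0000000000000000000000000000000) (nat_lit 0x0) (nat_lit 0x380008000e000000000000000000000100008000000000000000000000000000) := T_40 (nat_lit 128) (nat_lit 111) (nat_lit 6) (nat_lit 8) (nat_lit 10) L105645 (by decide +kernel)
theorem L106347 : W_40 (nat_lit 6) (nat_lit 0x8003c000a000000006000200010000c0000000000000000000000000000000) (nat_lit 0x0) (nat_lit 0x39000c000e000000000000000000000100008000000000000000000000000000) := T_40 (nat_lit 234) (nat_lit 248) (nat_lit 1) (nat_lit 13) (nat_lit 13) L106346 (by decide +kernel)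
theorem L106348 : W_40 (nat_lit 7) (nat_lit 0x8003c000a00000000600020001000080000000000000000000000000000000) (nat_lit 0x0) (nat_lit 0x39000c000e00000000000000000000014000a000000000000000000000000000) := T_40 (nat_lit 126) (nat_lit 109) (nat_lit 4) (nat_lit 8) (nat_lit 10) L106347 (by decide +kernel)
theorem L106349 : W_40 (nat_lit 8) (nat_lit 0x3c000a00000000600020001000080000000000000000000000000000000) (nat_lit 0x0) (nat_lit 0x39c00c000e00000000000000000000014000a000000000000000000000000000) := T_40 (nat_lit 247) (nat_lit 246) (nat_lit 1) (nat_lit 12) (nat_lit 13) L106348 (by decide +kernel)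
theorem L106350 : W_40 (nat_lit 9) (nat_lit 0x3c000a00000000400020001000080000000000000000000000000000000) (nat_lit 0x0) (nat_lit 0x39c00c000e00000400020000000000014000a000000000000000000000000000) := T_40 (nat_lit 177) (nat_lit 194) (nat_lit 5) (nat_lit 8) (nat_lit 7) L106349 (by decide +kernel)
theorem L106351 : W_40 (nat_lit 2) (nat_lit 0x18003c000a000400006000200010001c0000000000000000000000000000000) (nat_lit 0x0) (nat_lit 0x40002000200000000000000000000000000000000000000000000000000000000000000) := D_40 (nat_lit 265) (nat_lit 282) (nat_lit 249) (nat_lit 6) (nat_lit 10) (nat_lit 16) (nat_lit 5) (nat_lit 11) (nat_lit 11) (by decide +kernel)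
theorem L106352 : W_40 (nat_lit 3) (nat_lit 0x18003c000a000000006000200010001c0000000000000000000000000000000) (nat_lit 0x0) (nat_lit 0x40002000200000000000040002000000000000000000000000000000000000000000000) := T_40 (nat_lit 198) (nat_lit 181) (nat_lit 5) (nat_lit 11) (nat_lit 10) L106351 (by decide +kernel)
theorem L106353 : W_40 (nat_lit 4) (nat_lit 0x8003c000a000000006000200010001c0000000000000000000000000000000) (nat_lit 0x0) (nat_lit 0x40002000300040000000040002000000000000000000000000000000000000000000000) := T_40 (nat_lit 248) (nat_lit 234) (nat_lit 1) (nat_lit 13) (nat_lit 13) L106352 (by decide +kernel)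
theorem L106354 : W_40 (nat_lit 5) (nat_lit 0x3c000a000000006000200010001c0000000000000000000000000000000) (nat_lit 0x0) (nat_lit 0x400020003c0040000000040002000000000000000000000000000000000000000000000) := T_40 (nat_lit 247) (nat_lit 246) (nat_lit 1) (nat_lit 12) (nat_lit 13) L106353 (by decide +kernel)
theorem L106355 : W_40 (nat_lit 6) (nat_lit 0x3c000a00000000600020001000180000000000000000000000000000000) (nat_lit 0x0) (nat_lit 0x400020003c0040000000040002000000000000040002000000000000000000000000000) := T_40 (nat_lit 126) (nat_lit 109) (nat_lit 4) (nat_lit 8) (nat_lit 10) L106354 (by decide +kernel)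
theorem L106356 : W_40 (nat_lit 7) (nat_lit 0x3c000a00000000400020001000180000000000000000000000000000000) (nat_lit 0x0) (nat_lit 0x400020003c0040000000044002200000000000040002000000000000000000000000000) := T_40 (nat_lit 177) (nat_lit 194) (nat_lit 5) (nat_lit 8) (nat_lit 7) L106355 (by decide +kernel)
theorem L106357 : W_40 (nat_lit 8) (nat_lit 0x3c000a00000000400020001000080000000000000000000000000000000) (nat_lit 0x0) (nat_lit 0x400020003c004000000004400220000000000014000a000000000000000000000000000) := T_40 (nat_lit 128) (nat_lit 111) (nat_lit 6) (nat_lit 8) (nat_lit 10) L106356 (by decide +kernel)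
theorem L106358 : W_40 (nat_lit 10) (nat_lit 0x1c000a00000000400020001000080000000000000000000000000000000) (nat_lit 0x0) (nat_lit 0x14000a003fc00e000e00004400220000000000014000a000000000000000000000000000) := Q_40 (nat_lit 233) (C_40 L105268 (C_40 L104264 (C_40 L106350 (C_40 L106357 N_40)))) (by decide +kernel)
theorem L106359 : W_40 (nat_lit 4) (nat_lit 0x1e000a00000000400020001000180000000000000000000000000000000) (nat_lit 0x0) (nat_lit 0xee0020000000000000000000000000000000000000000000000000000000000) := T_40 (nat_lit 250) (nat_lit 249) (nat_lit 3) (nat_lit 8) (nat_lit 13) L106210 (by decide +kernel)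
theorem L106360 : W_40 (nat_lit 5) (nat_lit 0x1c000a00000000400020001000180000000000000000000000000000000) (nat_lit 0x0) (nat_lit 0xee0022001000000000000000000000000000000000000000000000000000000) := T_40 (nat_lit 229) (nat_lit 216) (nat_lit 2) (nat_lit 8) (nat_lit 13) L106359 (by decide +kernel)
theorem L106361 : W_40 (nat_lit 6) (nat_lit 0x1c000a00000000400020001000080000000000000000000000000000000) (nat_lit 0x0) (nat_lit 0xee0022001000000000000000000000100008000000000000000000000000000) := T_40 (nat_lit 128) (nat_lit 111) (nat_lit 6) (nat_lit 8) (nat_lit 10) L106360 (by decide +kernel)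
theorem L106362 : W_40 (nat_lit 3) (nat_lit 0x1c000a00000000600020001000180000000000000000000000000000000) (nat_lit 0x0) (nat_lit 0x22007000000000000000000000000000000000000000000000000000000) := T_40 (nat_lit 216) (nat_lit 229) (nat_lit 2) (nat_lit 8) (nat_lit 13) L104405 (by decide +kernel)
theorem L106363 : W_40 (nat_lit 4) (nat_lit 0x1c000a00000000600020001000080000000000000000000000000000000) (nat_lit 0x0) (nat_lit 0x22007000000000000000000000100008000000000000000000000000000) := T_40 (nat_lit 128) (nat_lit 111) (nat_lit 6) (nat_lit 8) (nat_lit 10) L106362 (by decide +kernel)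
theorem L106364 : W_40 (nat_lit 5) (nat_lit 0x1c000a00000000400020001000080000000000000000000000000000000) (nat_lit 0x0) (nat_lit 0x22007000004000200000000000100008000000000000000000000000000) := T_40 (nat_lit 177) (nat_lit 194) (nat_lit 5) (nat_lit 8) (nat_lit 7) L106363 (by decide +kernel)
theorem L106365 : W_40 (nat_lit 11) (nat_lit 0x14000a00000000400020001000080000000000000000000000000000000) (nat_lit 0x0) (nat_lit 0x14000a003ff01eb00f00004400220000000000014000a000000000000000000000000000) := Q_40 (nat_lit 231) (C_40 L105053 (C_40 L104877 (C_40 L106345 (C_40 L106358 (C_40 L106361 (C_40 L106364 N_40)))))) (by decide +kernel)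
theorem L106366 : W_40 (nat_lit 6) (nat_lit 0x1c000a00000000400020001000080000000000000000000000000000000) (nat_lit 0x0) (nat_lit 0x100008001e000600034001c4006200200000000000000000000000000000000000000000) := Q_40 (nat_lit 233) (C_40 L105251 (C_40 L104264 (C_40 L105065 N_40))) (by decide +kernel)
theorem L106367 : W_40 (nat_lit 13) (nat_lit 0x14000a00000000400020001000080000000000000000000000000000000) (nat_lit 0x0) (nat_lit 0x1f000fe01fe006b0074001e4007200200000000100008000000000000000000000000000) := Q_40 (nat_lit 231) (C_40 L106364 (C_40 L105967 (C_40 L106366 (C_40 L106361 (C_40 L105172 N_40))))) (by decide +kernel)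
theorem L106368 : W_40 (nat_lit 7) (nat_lit 0x14000a00000000400020001000080000000000000000000000000000000) (nat_lit 0x0) (nat_lit 0x100008001ff006b0034001c4006200200000000040002000000000000000000000000000) := Q_40 (nat_lit 231) (C_40 L106366 (C_40 L105175 (C_40 L104877 (C_40 L104881 N_40)))) (by decide +kernel)
theorem L106369 : W_40 (nat_lit 8) (nat_lit 0x1c000a00000000400020001000080000000000000000000000000000000) (nat_lit 0x0) (nat_lit 0x100008003fc00e000f4001c000400020000000014000a000000000000000000000000000) := Q_40 (nat_lit 233) (C_40 L105268 (C_40 L105251 (C_40 L104270 (C_40 L105257 (C_40 L105065 N_40))))) (by decide +kernel)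
theorem L106370 : W_40 (nat_lit 13) (nat_lit 0x14000a00000000400020001000080000000000000000000000000000000) (nat_lit 0x0) (nat_lit 0x1d000f803ff00eb00f4001e000700020000000014000a000000000000000000000000000) := Q_40 (nat_lit 231) (C_40 L106361 (C_40 L105175 (C_40 L106369 (C_40 L105053 (C_40 L105173 N_40))))) (by decide +kernel)
theorem L106371 : W_40 (nat_lit 12) (nat_lit 0x1c000a00000000400020001000080000000000000000000000000000000) (nat_lit 0x0) (nat_lit 0x38001c003fc00e000f40018400420020000000014000a000000000000000000000000000) := Q_40 (nat_lit 233) (C_40 L106350 (C_40 L105251 (C_40 L104280 (C_40 L105065 N_40)))) (by decide +kernel)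
theorem L106372 : W_40 (nat_lit 13) (nat_lit 0x14000a00000000400020001000080000000000000000000000000000000) (nat_lit 0x0) (nat_lit 0x3d001f803fe00eb00f4001a400520020000000014000a000000000000000000000000000) := Q_40 (nat_lit 231) (C_40 L106364 (C_40 L105967 (C_40 L106371 (C_40 L106361 (C_40 L105173 N_40))))) (by decide +kernel)
theorem L106373 : W_40 (nat_lit 2) (nat_lit 0x54007e002200006000e0001000180000000000000000000000000000000) (nat_lit 0x0) (nat_lit 0x180010000000000000000000000000000000000000000) := D_40 (nat_lit 176) (nat_lit 160) (nat_lit 175) (nat_lit 1) (nat_lit 10) (nat_lit 9) (nat_lit 2) (nat_lit 5) (nat_lit 10) (by decide +kernel)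
theorem L106374 : W_40 (nat_lit 3) (nat_lit 0x54007e002200006000a0001000180000000000000000000000000000000) (nat_lit 0x0) (nat_lit 0x180150000000000000000000000000000000000000000) := T_40 (nat_lit 162) (nat_lit 164) (nat_lit 1) (nat_lit 11) (nat_lit 9) L106373 (by decide +kernel)
theorem L106375 : W_40 (nat_lit 4) (nat_lit 0x54007e00220000600020001000180000000000000000000000000000000) (nat_lit 0x0) (nat_lit 0x11801d0000000000000000000000000000000000000000) := T_40 (nat_lit 163) (nat_lit 180) (nat_lit 7) (nat_lit 10) (nat_lit 9) L106374 (by decide +kernel)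
theorem L106376 : W_40 (nat_lit 5) (nat_lit 0x54007e00200000600020001000180000000000000000000000000000000) (nat_lit 0x0) (nat_lit 0x600011801d0000000000000000000000000000000000000000) := T_40 (nat_lit 197) (nat_lit 198) (nat_lit 0) (nat_lit 14) (nat_lit 12) L106375 (by decide +kernel)
theorem L106377 : W_40 (nat_lit 6) (nat_lit 0x54003e00200000600020001000180000000000000000000000000000000) (nat_lit 0x0) (nat_lit 0x40004600011801d0000000000000000000000000000000000000000) := T_40 (nat_lit 218) (nat_lit 202) (nat_lit 2) (nat_lit 11) (nat_lit 12) L106376 (by decide +kernel)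
theorem L106378 : W_40 (nat_lit 7) (nat_lit 0x54003e00000000600020001000180000000000000000000000000000000) (nat_lit 0x0) (nat_lit 0x40007600011801d0000000000000000000000000000000000000000) := T_40 (nat_lit 201) (nat_lit 200) (nat_lit 2) (nat_lit 10) (nat_lit 12) L106377 (by decide +kernel)
theorem L106379 : W_40 (nat_lit 8) (nat_lit 0x54001e00000000600020001000180000000000000000000000000000000) (nat_lit 0x0) (nat_lit 0x800060007600011801d0000000000000000000000000000000000000000) := T_40 (nat_lit 217) (nat_lit 235) (nat_lit 3) (nat_lit 10) (nat_lit 12) L106378 (by decide +kernel)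
theorem L106380 : W_40 (nat_lit 9) (nat_lit 0x54001e00000000400020001000180000000000000000000000000000000) (nat_lit 0x0) (nat_lit 0x800060007640013801d0000000000000000000000000000000000000000) := T_40 (nat_lit 177) (nat_lit 194) (nat_lit 5) (nat_lit 8) (nat_lit 7) L106379 (by decide +kernel)
theorem L106381 : W_40 (nat_lit 10) (nat_lit 0x14001e00000000400020001000180000000000000000000000000000000) (nat_lit 0x0) (nat_lit 0xe00060007640013801d0000000000000000000000000000000000000000) := T_40 (nat_lit 234) (nat_lit 233) (nat_lit 3) (nat_lit 9) (nat_lit 12) L106380 (by decide +kernel)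
theorem L106382 : W_40 (nat_lit 7) (nat_lit 0x200014000a00000000400020001000080000000000000000000000000000000) (nat_lit 0x0) (nat_lit 0x10000c0004000200004000e400720028000000014000a000000000000000000000000000) := Q_40 (nat_lit 198) (C_40 L105732 (C_40 L105717 (C_40 L105601 N_40))) (by decide +kernel)
theorem L106383 : W_40 (nat_lit 7) (nat_lit 0x200014000a00000000400020001000080000000000000000000000000000000) (nat_lit 0x0) (nat_lit 0x4000e0005000000014000e4007200280000000040002000000000000000000000000000) := Q_40 (nat_lit 198) (C_40 L105079 (C_40 L105601 (C_40 L105566 N_40))) (by decide +kernel)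
theorem L106384 : W_40 (nat_lit 2) (nat_lit 0x780014000a00040000400020001000180000000000000000000000000000000) (nat_lit 0x0) (nat_lit 0x40020000000000002000000000000000000000000000000000000000000000) := D_40 (nat_lit 233) (nat_lit 181) (nat_lit 246) (nat_lit 7) (nat_lit 11) (nat_lit 10) (nat_lit 2) (nat_lit 8) (nat_lit 14) (by decide +kernel)
theorem L106385 : W_40 (nat_lit 3) (nat_lit 0x700014000a00040000400020001000180000000000000000000000000000000) (nat_lit 0x0) (nat_lit 0xc0022000000000002000000000000000000000000000000000000000000000) := T_40 (nat_lit 247) (nat_lit 229) (nat_lit 0) (nat_lit 12) (nat_lit 14) L106384 (by decide +kernel)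
theorem L106386 : W_40 (nat_lit 4) (nat_lit 0x600014000a00040000400020001000180000000000000000000000000000000) (nat_lit 0x0) (nat_lit 0x20001c0022000000000002000000000000000000000000000000000000000000000) := T_40 (nat_lit 248) (nat_lit 265) (nat_lit 5) (nat_lit 11) (nat_lit 11) L106385 (by decide +kernel)
theorem L106387 : W_40 (nat_lit 5) (nat_lit 0x200014000a00040000400020001000180000000000000000000000000000000) (nat_lit 0x0) (nat_lit 0xa0005c0022000000000002000000000000000000000000000000000000000000000) := T_40 (nat_lit 250) (nat_lit 267) (nat_lit 7) (nat_lit 11) (nat_lit 11) L106386 (by decide +kernel)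
theorem L106388 : W_40 (nat_lit 6) (nat_lit 0x200014000a00040000400020001000080000000000000000000000000000000) (nat_lit 0x0) (nat_lit 0xa0005c0022000000000002000000000000100008000000000000000000000000000) := T_40 (nat_lit 128) (nat_lit 111) (nat_lit 6) (nat_lit 8) (nat_lit 10) L106387 (by decide +kernel)
theorem L106389 : W_40 (nat_lit 7) (nat_lit 0x200014000a00000000400020001000080000000000000000000000000000000) (nat_lit 0x0) (nat_lit 0x4000e0005c00220010000c4006200200000000100008000000000000000000000000000) := Q_40 (nat_lit 198) (C_40 L106388 (C_40 L105566 (C_40 L105717 N_40))) (by decide +kernel)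
theorem L106390 : W_40 (nat_lit 9) (nat_lit 0x200014000a00000000400020001000080000000000000000000000000000000) (nat_lit 0x0) (nat_lit 0x14000e0005c00220004000640033801d000000014000a000000000000000000000000000) := Q_40 (nat_lit 198) (C_40 L106388 (C_40 L105079 (C_40 L105732 (C_40 L105656 N_40)))) (by decide +kernel)
theorem L106391 : W_40 (nat_lit 12) (nat_lit 0x200014000a00000000400020001000080000000000000000000000000000000) (nat_lit 0x0) (nat_lit 0xa0005c002200e4003e403f20028000000014000a000000000000000000000000000) := Q_40 (nat_lit 198) (C_40 L106388 (C_40 L105601 (C_40 L105247 N_40))) (by decide +kernel)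
theorem L106392 : W_40 (nat_lit 13) (nat_lit 0x14000a00000000400020001000080000000000000000000000000000000) (nat_lit 0x0) (nat_lit 0x1c000e0007c006200f4003e403f3803d000000014000a000000000000000000000000000) := Q_40 (nat_lit 249) (C_40 L106382 (C_40 L105236 (C_40 L106383 (C_40 L105227 (C_40 L105201 (C_40 L106389 (C_40 L106390 (C_40 L106391 N_40)))))))) (by decide +kernel)
theorem L106393 : W_40 (nat_lit 7) (nat_lit 0x200014000a00000000400020001000080000000000000000000000000000000) (nat_lit 0x0) (nat_lit 0x10000e000d000080004000e400720028000000014000a000000000000000000000000000) := Q_40 (nat_lit 198) (C_40 L105732 (C_40 L105456 (C_40 L105601 N_40))) (by decide +kernel)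
theorem L106394 : W_40 (nat_lit 2) (nat_lit 0x600016000a000c0000400020001000080000000000000000000000000000000) (nat_lit 0x0) (nat_lit 0x2000180000000000000000000000000000000000000000000000000000000000000) := D_40 (nat_lit 248) (nat_lit 247) (nat_lit 265) (nat_lit 0) (nat_lit 12) (nat_lit 14) (nat_lit 5) (nat_lit 11) (nat_lit 11) (by decide +kernel)
theorem L106395 : W_40 (nat_lit 3) (nat_lit 0x600014000a000c0000400020001000080000000000000000000000000000000) (nat_lit 0x0) (nat_lit 0x200018000a000000000000000000000000000000000000000000000000000000000) := T_40 (nat_lit 229) (nat_lit 231) (nat_lit 3) (nat_lit 8) (nat_lit 13) L106394 (by decide +kernel)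
theorem L106396 : W_40 (nat_lit 4) (nat_lit 0x200014000a000c0000400020001000080000000000000000000000000000000) (nat_lit 0x0) (nat_lit 0xa00058000a000000000000000000000000000000000000000000000000000000000) := T_40 (nat_lit 250) (nat_lit 267) (nat_lit 7) (nat_lit 11) (nat_lit 11) L106395 (by decide +kernel)
theorem L106397 : W_40 (nat_lit 5) (nat_lit 0x200014000a00040000400020001000080000000000000000000000000000000) (nat_lit 0x0) (nat_lit 0xa00058000a000000080004000000000000000000000000000000000000000000000) := T_40 (nat_lit 199) (nat_lit 182) (nat_lit 6) (nat_lit 11) (nat_lit 14) L106396 (by decide +kernel)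
theorem L106398 : W_40 (nat_lit 2) (nat_lit 0x20001f000a000000006000200010001c0000000000000000000000000000000) (nat_lit 0x0) (nat_lit 0x70000000000000000000000000000000000000000000000000000000000000) := D_40 (nat_lit 245) (nat_lit 244) (nat_lit 246) (nat_lit 1) (nat_lit 10) (nat_lit 13) (nat_lit 1) (nat_lit 11) (nat_lit 13) (by decide +kernel)
theorem L106399 : W_40 (nat_lit 3) (nat_lit 0x20001e000a000000006000200010001c0000000000000000000000000000000) (nat_lit 0x0) (nat_lit 0x170001000000000000000000000000000000000000000000000000000000000) := T_40 (nat_lit 228) (nat_lit 248) (nat_lit 3) (nat_lit 7) (nat_lit 13) L106398 (by decide +kernel)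
theorem L106400 : W_40 (nat_lit 4) (nat_lit 0x200016000a000000006000200010001c0000000000000000000000000000000) (nat_lit 0x0) (nat_lit 0x570009000000000000000000000000000000000000000000000000000000000) := T_40 (nat_lit 231) (nat_lit 250) (nat_lit 3) (nat_lit 8) (nat_lit 13) L106399 (by decide +kernel)
theorem L106401 : W_40 (nat_lit 5) (nat_lit 0x200016000a000000006000200010000c0000000000000000000000000000000) (nat_lit 0x0) (nat_lit 0x570009000000000000000000000000100008000000000000000000000000000) := T_40 (nat_lit 128) (nat_lit 111) (nat_lit 6) (nat_lit 8) (nat_lit 10) L106400 (by decide +kernel)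
theorem L106402 : W_40 (nat_lit 6) (nat_lit 0x200016000a00000000600020001000080000000000000000000000000000000) (nat_lit 0x0) (nat_lit 0x57000900000000000000000000000014000a000000000000000000000000000) := T_40 (nat_lit 126) (nat_lit 109) (nat_lit 4) (nat_lit 8) (nat_lit 10) L106401 (by decide +kernel)
theorem L106403 : W_40 (nat_lit 7) (nat_lit 0x200016000a00000000400020001000080000000000000000000000000000000) (nat_lit 0x0) (nat_lit 0x57000900000000400020000000000014000a000000000000000000000000000) := T_40 (nat_lit 177) (nat_lit 194) (nat_lit 5) (nat_lit 8) (nat_lit 7) L106402 (by decide +kernel)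
theorem L106404 : W_40 (nat_lit 7) (nat_lit 0x14000a00040000400020001000080000000000000000000000000000000) (nat_lit 0x0) (nat_lit 0x4000e0007c002a0004000a0007000200000000100008000000000000000000000000000) := Q_40 (nat_lit 249) (C_40 L106397 (C_40 L106388 (C_40 L105717 (C_40 L105148 N_40)))) (by decide +kernel)
theorem L106405 : W_40 (nat_lit 7) (nat_lit 0x14000a00040000400020001000080000000000000000000000000000000) (nat_lit 0x0) (nat_lit 0xa000f8000a0000000a4007200280000000040002000000000000000000000000000) := Q_40 (nat_lit 249) (C_40 L106397 (C_40 L105601 (C_40 L105153 N_40))) (by decide +kernel)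
theorem L106406 : W_40 (nat_lit 2) (nat_lit 0x34003e000a000c00006000200010001c0000000000000000000000000000000) (nat_lit 0x0) (nat_lit 0xc0000400000000000000000000000000000000000000000000000000000) := D_40 (nat_lit 234) (nat_lit 214) (nat_lit 235) (nat_lit 0) (nat_lit 13) (nat_lit 13) (nat_lit 1) (nat_lit 14) (nat_lit 13) (by decide +kernel)
theorem L106407 : W_40 (nat_lit 3) (nat_lit 0x34001e000a000c00006000200010001c0000000000000000000000000000000) (nat_lit 0x0) (nat_lit 0x800e0000400000000000000000000000000000000000000000000000000000) := T_40 (nat_lit 233) (nat_lit 247) (nat_lit 2) (nat_lit 8) (nat_lit 14) L106406 (by decide +kernel)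
theorem L106408 : W_40 (nat_lit 4) (nat_lit 0x30001e000a000c00006000200010001c0000000000000000000000000000000) (nat_lit 0x0) (nat_lit 0xe00e0000400000000000000000000000000000000000000000000000000000) := T_40 (nat_lit 246) (nat_lit 245) (nat_lit 1) (nat_lit 11) (nat_lit 13) L106407 (by decide +kernel)
theorem L106409 : W_40 (nat_lit 5) (nat_lit 0x30001c000a000c00006000200010001c0000000000000000000000000000000) (nat_lit 0x0) (nat_lit 0xe00e3000400000000000000000000000000000000000000000000000000000) := T_40 (nat_lit 229) (nat_lit 228) (nat_lit 3) (nat_lit 7) (nat_lit 13) L106408 (by decide +kernel)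
theorem L106410 : W_40 (nat_lit 6) (nat_lit 0x30001c000a000c0000600020001000180000000000000000000000000000000) (nat_lit 0x0) (nat_lit 0xe00e3000400000000000000000000040002000000000000000000000000000) := T_40 (nat_lit 126) (nat_lit 109) (nat_lit 4) (nat_lit 8) (nat_lit 10) L106409 (by decide +kernel)
theorem L106411 : W_40 (nat_lit 7) (nat_lit 0x300014000a000c0000600020001000180000000000000000000000000000000) (nat_lit 0x0) (nat_lit 0xe00eb000400000002000000000000040002000000000000000000000000000) := T_40 (nat_lit 231) (nat_lit 181) (nat_lit 5) (nat_lit 11) (nat_lit 10) L106410 (by decide +kernel)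
theorem L106412 : W_40 (nat_lit 8) (nat_lit 0x300014000a000c0000600020001000080000000000000000000000000000000) (nat_lit 0x0) (nat_lit 0xe00eb00040000000200000000000014000a000000000000000000000000000) := T_40 (nat_lit 128) (nat_lit 111) (nat_lit 6) (nat_lit 8) (nat_lit 10) L106411 (by decide +kernel)
theorem L106413 : W_40 (nat_lit 9) (nat_lit 0x200014000a000c0000600020001000080000000000000000000000000000000) (nat_lit 0x0) (nat_lit 0x20001e00eb00040000000200000000000014000a000000000000000000000000000) := T_40 (nat_lit 248) (nat_lit 265) (nat_lit 5) (nat_lit 11) (nat_lit 11) L106412 (by decide +kernel)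
theorem L106414 : W_40 (nat_lit 10) (nat_lit 0x200014000a00040000600020001000080000000000000000000000000000000) (nat_lit 0x0) (nat_lit 0x20001e00eb00040008000600000000000014000a000000000000000000000000000) := T_40 (nat_lit 199) (nat_lit 182) (nat_lit 6) (nat_lit 11) (nat_lit 14) L106413 (by decide +kernel)
theorem L106415 : W_40 (nat_lit 11) (nat_lit 0x200014000a00040000400020001000080000000000000000000000000000000) (nat_lit 0x0) (nat_lit 0x20001e00eb00040008400620000000000014000a000000000000000000000000000) := T_40 (nat_lit 177) (nat_lit 194) (nat_lit 5) (nat_lit 8) (nat_lit 7) L106414 (by decide +kernel)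
theorem L106416 : W_40 (nat_lit 12) (nat_lit 0x14000a00040000400020001000080000000000000000000000000000000) (nat_lit 0x0) (nat_lit 0xa0007e00eb00040008400620020000000014000a000000000000000000000000000) := Q_40 (nat_lit 249) (C_40 L106388 (C_40 L106397 (C_40 L105717 (C_40 L106415 N_40)))) (by decide +kernel)
theorem L106417 : W_40 (nat_lit 12) (nat_lit 0x14000a00040000400020001000080000000000000000000000000000000) (nat_lit 0x0) (nat_lit 0x10000e00078000a00e4003a403d20000000000014000a000000000000000000000000000) := Q_40 (nat_lit 249) (C_40 L106397 (C_40 L105732 (C_40 L105247 N_40))) (by decide +kernel)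
theorem L106418 : W_40 (nat_lit 9) (nat_lit 0x14000a00040000400020001000080000000000000000000000000000000) (nat_lit 0x0) (nat_lit 0x10000e000fc002a0004000240033801d000000014000a000000000000000000000000000) := Q_40 (nat_lit 249) (C_40 L106388 (C_40 L105153 (C_40 L105732 (C_40 L105656 N_40)))) (by decide +kernel)
theorem L106419 : W_40 (nat_lit 13) (nat_lit 0x14000a00000000400020001000080000000000000000000000000000000) (nat_lit 0x0) (nat_lit 0x14000e000fe00eb00e4003e403f3803d000c00074003a000000000000000000000000000) := Q_40 (nat_lit 198) (C_40 L105641 (C_40 L106404 (C_40 L106405 (C_40 L106416 (C_40 L106417 (C_40 L106418 N_40)))))) (by decide +kernel)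
theorem L106420 : W_40 (nat_lit 2) (nat_lit 0x94007e002c00006000200010001c0000000000000000000000000000000) (nat_lit 0x0) (nat_lit 0x200000000000000004000200000000000000000000000000000000000000000) := D_40 (nat_lit 182) (nat_lit 165) (nat_lit 249) (nat_lit 5) (nat_lit 12) (nat_lit 9) (nat_lit 6) (nat_lit 11) (nat_lit 14) (by decide +kernel)
theorem L106421 : W_40 (nat_lit 3) (nat_lit 0x94007e002400006000200010001c0000000000000000000000000000000) (nat_lit 0x0) (nat_lit 0x200000008000080004000200000000000000000000000000000000000000000) := T_40 (nat_lit 199) (nat_lit 219) (nat_lit 0) (nat_lit 15) (nat_lit 12) L106420 (by decide +kernel)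
theorem L106422 : W_40 (nat_lit 4) (nat_lit 0x94007e000400006000200010001c0000000000000000000000000000000) (nat_lit 0x0) (nat_lit 0x200000008000680004000200000000000000000000000000000000000000000) := T_40 (nat_lit 201) (nat_lit 202) (nat_lit 2) (nat_lit 11) (nat_lit 12) L106421 (by decide +kernel)
theorem L106423 : W_40 (nat_lit 5) (nat_lit 0x94007e000000006000200010001c0000000000000000000000000000000) (nat_lit 0x0) (nat_lit 0x2000000080006e0004000200000000000000000000000000000000000000000) := T_40 (nat_lit 198) (nat_lit 197) (nat_lit 0) (nat_lit 14) (nat_lit 12) L106422 (by decide +kernel)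
theorem L106424 : W_40 (nat_lit 6) (nat_lit 0x94003e000000006000200010001c0000000000000000000000000000000) (nat_lit 0x0) (nat_lit 0x20010000c0006e0004000200000000000000000000000000000000000000000) := T_40 (nat_lit 218) (nat_lit 236) (nat_lit 3) (nat_lit 11) (nat_lit 12) L106423 (by decide +kernel)
theorem L106425 : W_40 (nat_lit 7) (nat_lit 0x94003e000000004000200010001c0000000000000000000000000000000) (nat_lit 0x0) (nat_lit 0x20010000c0006e4004200200000000000000000000000000000000000000000) := T_40 (nat_lit 177) (nat_lit 194) (nat_lit 5) (nat_lit 8) (nat_lit 7) L106424 (by decide +kernel)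
theorem L106426 : W_40 (nat_lit 8) (nat_lit 0x14003e000000004000200010001c0000000000000000000000000000000) (nat_lit 0x0) (nat_lit 0x2001c000c0006e4004200200000000000000000000000000000000000000000) := T_40 (nat_lit 235) (nat_lit 234) (nat_lit 3) (nat_lit 10) (nat_lit 12) L106425 (by decide +kernel)
theorem L106427 : W_40 (nat_lit 9) (nat_lit 0x14003e00000000400020001000180000000000000000000000000000000) (nat_lit 0x0) (nat_lit 0x2001c000c0006e4004200200000000040002000000000000000000000000000) := T_40 (nat_lit 126) (nat_lit 109) (nat_lit 4) (nat_lit 8) (nat_lit 10) L106426 (by decide +kernel)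
theorem L106428 : W_40 (nat_lit 10) (nat_lit 0x14001e00000000400020001000180000000000000000000000000000000) (nat_lit 0x0) (nat_lit 0x2001c800e0006e4004200200000000040002000000000000000000000000000) := T_40 (nat_lit 217) (nat_lit 231) (nat_lit 1) (nat_lit 13) (nat_lit 12) L106427 (by decide +kernel)
theorem L106429 : W_40 (nat_lit 11) (nat_lit 0x14001e00000000400020001000080000000000000000000000000000000) (nat_lit 0x0) (nat_lit 0x2001c800e0006e400420020000000014000a000000000000000000000000000) := T_40 (nat_lit 128) (nat_lit 111) (nat_lit 6) (nat_lit 8) (nat_lit 10) L106428 (by decide +kernel)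
theorem L106430 : W_40 (nat_lit 12) (nat_lit 0x14001a00000000400020001000080000000000000000000000000000000) (nat_lit 0x0) (nat_lit 0x40002001c800e4007e400420020000000014000a000000000000000000000000000) := Q_40 (nat_lit 214) (C_40 L106085 (C_40 L105279 (C_40 L104704 (C_40 L106429 N_40)))) (by decide +kernel)
theorem L106431 : W_40 (nat_lit 7) (nat_lit 0x200014000a00000000400020001000080000000000000000000000000000000) (nat_lit 0x0) (nat_lit 0x10000e00058000a0014001e000500000000000014000a000000000000000000000000000) := Q_40 (nat_lit 198) (C_40 L105732 (C_40 L106397 (C_40 L105198 N_40))) (by decide +kernel)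
theorem L106432 : W_40 (nat_lit 12) (nat_lit 0x200014000a00000000400020001000080000000000000000000000000000000) (nat_lit 0x0) (nat_lit 0x50005f000b8014000240013801d000000014000a000000000000000000000000000) := Q_40 (nat_lit 229) (C_40 L106403 (C_40 L106074 (C_40 L104387 (C_40 L105296 N_40)))) (by decide +kernel)
theorem L106433 : W_40 (nat_lit 2) (nat_lit 0x8000e000600014001e00000000400020001000180000000000000000000000000000000) (nat_lit 0x0) (nat_lit 0x1800800000000000000000000000000000000000000000000000000000000000000) := D_40 (nat_lit 264) (nat_lit 251) (nat_lit 263) (nat_lit 2) (nat_lit 9) (nat_lit 15) (nat_lit 2) (nat_lit 8) (nat_lit 15) (by decide +kernel)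
theorem L106434 : W_40 (nat_lit 3) (nat_lit 0x8000e000200014001e00000000400020001000180000000000000000000000000000000) (nat_lit 0x0) (nat_lit 0x1800c00000000000040000000000000000000000000000000000000000000000000) := T_40 (nat_lit 250) (nat_lit 198) (nat_lit 7) (nat_lit 11) (nat_lit 11) L106433 (by decide +kernel)
theorem L106435 : W_40 (nat_lit 4) (nat_lit 0x8000c000200014001e00000000400020001000180000000000000000000000000000000) (nat_lit 0x0) (nat_lit 0x40003800c00000000000040000000000000000000000000000000000000000000000000) := T_40 (nat_lit 265) (nat_lit 282) (nat_lit 5) (nat_lit 11) (nat_lit 12) L106434 (by decide +kernel)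
theorem L106436 : W_40 (nat_lit 5) (nat_lit 0x80004000200014001e00000000400020001000180000000000000000000000000000000) (nat_lit 0x0) (nat_lit 0x14000b800c00000000000040000000000000000000000000000000000000000000000000) := T_40 (nat_lit 267) (nat_lit 284) (nat_lit 7) (nat_lit 11) (nat_lit 12) L106435 (by decide +kernel)
theorem L106437 : W_40 (nat_lit 6) (nat_lit 0x80004000200014000e00000000400020001000180000000000000000000000000000000) (nat_lit 0x0) (nat_lit 0x14000b800c000000010000c0000000000000000000000000000000000000000000000000) := T_40 (nat_lit 216) (nat_lit 199) (nat_lit 6) (nat_lit 11) (nat_lit 15) L106436 (by decide +kernel)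
theorem L106438 : W_40 (nat_lit 7) (nat_lit 0x4000200014000e00000000400020001000180000000000000000000000000000000) (nat_lit 0x0) (nat_lit 0x1c000b800c000080010000c0000000000000000000000000000000000000000000000000) := T_40 (nat_lit 283) (nat_lit 231) (nat_lit 4) (nat_lit 11) (nat_lit 16) L106437 (by decide +kernel)
theorem L106439 : W_40 (nat_lit 8) (nat_lit 0x200014000e00000000400020001000180000000000000000000000000000000) (nat_lit 0x0) (nat_lit 0x1c000f800c000080010000e0000000000000000000000000000000000000000000000000) := T_40 (nat_lit 266) (nat_lit 197) (nat_lit 4) (nat_lit 11) (nat_lit 15) L106438 (by decide +kernel)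
theorem L106440 : W_40 (nat_lit 9) (nat_lit 0x200014000e00000000400020001000080000000000000000000000000000000) (nat_lit 0x0) (nat_lit 0x1c000f800c000080010000e0000000000000000100008000000000000000000000000000) := T_40 (nat_lit 128) (nat_lit 111) (nat_lit 6) (nat_lit 8) (nat_lit 10) L106439 (by decide +kernel)
theorem L106441 : W_40 (nat_lit 2) (nat_lit 0x200014001e00000000600020001000180000000000000000000000000000000) (nat_lit 0x0) (nat_lit 0x4000000000000000180000000000000000000000000000000000000000000000000) := D_40 (nat_lit 199) (nat_lit 266) (nat_lit 200) (nat_lit 6) (nat_lit 11) (nat_lit 15) (nat_lit 2) (nat_lit 9) (nat_lit 12) (by decide +kernel)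
theorem L106442 : W_40 (nat_lit 3) (nat_lit 0x200014000e00000000600020001000180000000000000000000000000000000) (nat_lit 0x0) (nat_lit 0x4000000002001000180000000000000000000000000000000000000000000000000) := T_40 (nat_lit 216) (nat_lit 229) (nat_lit 1) (nat_lit 12) (nat_lit 12) L106441 (by decide +kernel)
theorem L106443 : W_40 (nat_lit 4) (nat_lit 0x200014000e00000000600020001000080000000000000000000000000000000) (nat_lit 0x0) (nat_lit 0x4000000002001000180000000000000000100008000000000000000000000000000) := T_40 (nat_lit 128) (nat_lit 111) (nat_lit 6) (nat_lit 8) (nat_lit 10) L106442 (by decide +kernel)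
theorem L106444 : W_40 (nat_lit 5) (nat_lit 0x200014000e00000000400020001000080000000000000000000000000000000) (nat_lit 0x0) (nat_lit 0x4000000002001000184000200000000000100008000000000000000000000000000) := T_40 (nat_lit 177) (nat_lit 194) (nat_lit 5) (nat_lit 8) (nat_lit 7) L106443 (by decide +kernel)
theorem L106445 : W_40 (nat_lit 2) (nat_lit 0x200014003e000000006000200010001c0000000000000000000000000000000) (nat_lit 0x0) (nat_lit 0x380000000000000000000000000000000000000000000000000) := D_40 (nat_lit 200) (nat_lit 199) (nat_lit 201) (nat_lit 2) (nat_lit 9) (nat_lit 12) (nat_lit 2) (nat_lit 10) (nat_lit 12) (by decide +kernel)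
theorem L106446 : W_40 (nat_lit 3) (nat_lit 0x200014001e000000006000200010001c0000000000000000000000000000000) (nat_lit 0x0) (nat_lit 0x8002000380000000000000000000000000000000000000000000000000) := T_40 (nat_lit 217) (nat_lit 231) (nat_lit 1) (nat_lit 13) (nat_lit 12) L106445 (by decide +kernel)
theorem L106447 : W_40 (nat_lit 4) (nat_lit 0x200014000e000000006000200010001c0000000000000000000000000000000) (nat_lit 0x0) (nat_lit 0xa003000380000000000000000000000000000000000000000000000000) := T_40 (nat_lit 216) (nat_lit 229) (nat_lit 1) (nat_lit 12) (nat_lit 12) L106446 (by decide +kernel)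
theorem L106448 : W_40 (nat_lit 5) (nat_lit 0x200014000e000000006000200010000c0000000000000000000000000000000) (nat_lit 0x0) (nat_lit 0xa003000380000000000000000100008000000000000000000000000000) := T_40 (nat_lit 128) (nat_lit 111) (nat_lit 6) (nat_lit 8) (nat_lit 10) L106447 (by decide +kernel)
theorem L106449 : W_40 (nat_lit 6) (nat_lit 0x200014000e000000004000200010000c0000000000000000000000000000000) (nat_lit 0x0) (nat_lit 0xa003000384000200000000000100008000000000000000000000000000) := T_40 (nat_lit 177) (nat_lit 194) (nat_lit 5) (nat_lit 8) (nat_lit 7) L106448 (by decide +kernel)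
theorem L106450 : W_40 (nat_lit 7) (nat_lit 0x200014000e00000000400020001000080000000000000000000000000000000) (nat_lit 0x0) (nat_lit 0xa00300038400020000000000014000a000000000000000000000000000) := T_40 (nat_lit 126) (nat_lit 109) (nat_lit 4) (nat_lit 8) (nat_lit 10) L106449 (by decide +kernel)
theorem L106451 : W_40 (nat_lit 10) (nat_lit 0x200014000a00000000400020001000080000000000000000000000000000000) (nat_lit 0x0) (nat_lit 0x1c000f800c0000b0034003e400020000000000014000a000000000000000000000000000) := Q_40 (nat_lit 214) (C_40 L106440 (C_40 L106444 (C_40 L105682 (C_40 L106450 N_40)))) (by decide +kernel)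
theorem L106452 : W_40 (nat_lit 2) (nat_lit 0x8000e000300014001e00000000600020001000180000000000000000000000000000000) (nat_lit 0x0) (nat_lit 0x100000c0000000000000000000000000000000000000000000000000000000000000) := D_40 (nat_lit 247) (nat_lit 246) (nat_lit 268) (nat_lit 3) (nat_lit 8) (nat_lit 14) (nat_lit 0) (nat_lit 13) (nat_lit 15) (by decide +kernel)
theorem L106453 : W_40 (nat_lit 3) (nat_lit 0x8000e000200014001e00000000600020001000180000000000000000000000000000000) (nat_lit 0x0) (nat_lit 0x100001c0000000000040000000000000000000000000000000000000000000000000) := T_40 (nat_lit 248) (nat_lit 198) (nat_lit 5) (nat_lit 11) (nat_lit 11) L106452 (by decide +kernel)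
theorem L106454 : W_40 (nat_lit 4) (nat_lit 0x8000e000200014001e00000000400020001000180000000000000000000000000000000) (nat_lit 0x0) (nat_lit 0x100001c0000000000044000200000000000000000000000000000000000000000000) := T_40 (nat_lit 177) (nat_lit 194) (nat_lit 5) (nat_lit 8) (nat_lit 7) L106453 (by decide +kernel)
theorem L106455 : W_40 (nat_lit 5) (nat_lit 0x8000c000200014001e00000000400020001000180000000000000000000000000000000) (nat_lit 0x0) (nat_lit 0x400120001c0000000000044000200000000000000000000000000000000000000000000) := T_40 (nat_lit 265) (nat_lit 282) (nat_lit 5) (nat_lit 11) (nat_lit 12) L106454 (by decide +kernel)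
theorem L106456 : W_40 (nat_lit 6) (nat_lit 0x80004000200014001e00000000400020001000180000000000000000000000000000000) (nat_lit 0x0) (nat_lit 0x14001a0001c0000000000044000200000000000000000000000000000000000000000000) := T_40 (nat_lit 267) (nat_lit 284) (nat_lit 7) (nat_lit 11) (nat_lit 12) L106455 (by decide +kernel)
theorem L106457 : W_40 (nat_lit 7) (nat_lit 0x80004000200014000e00000000400020001000180000000000000000000000000000000) (nat_lit 0x0) (nat_lit 0x14001a0001c00000010000c4000200000000000000000000000000000000000000000000) := T_40 (nat_lit 216) (nat_lit 199) (nat_lit 6) (nat_lit 11) (nat_lit 15) L106456 (by decide +kernel)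
theorem L106458 : W_40 (nat_lit 8) (nat_lit 0x4000200014000e00000000400020001000180000000000000000000000000000000) (nat_lit 0x0) (nat_lit 0x1c001a0001c00080010000c4000200000000000000000000000000000000000000000000) := T_40 (nat_lit 283) (nat_lit 231) (nat_lit 4) (nat_lit 11) (nat_lit 16) L106457 (by decide +kernel)
theorem L106459 : W_40 (nat_lit 9) (nat_lit 0x200014000e00000000400020001000180000000000000000000000000000000) (nat_lit 0x0) (nat_lit 0x1c001e0001c00080010000e4000200000000000000000000000000000000000000000000) := T_40 (nat_lit 266) (nat_lit 197) (nat_lit 4) (nat_lit 11) (nat_lit 15) L106458 (by decide +kernel)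
theorem L106460 : W_40 (nat_lit 10) (nat_lit 0x200014000e00000000400020001000080000000000000000000000000000000) (nat_lit 0x0) (nat_lit 0x1c001e0001c00080010000e4000200000000000100008000000000000000000000000000) := T_40 (nat_lit 128) (nat_lit 111) (nat_lit 6) (nat_lit 8) (nat_lit 10) L106459 (by decide +kernel)
theorem L106461 : W_40 (nat_lit 2) (nat_lit 0x4000200014000e000000004000200010000c0000000000000000000000000000000) (nat_lit 0x0) (nat_lit 0x2001000080000000000000000000000000000000000000000000000000) := D_40 (nat_lit 216) (nat_lit 229) (nat_lit 199) (nat_lit 1) (nat_lit 12) (nat_lit 12) (nat_lit 6) (nat_lit 11) (nat_lit 15) (by decide +kernel)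
theorem L106462 : W_40 (nat_lit 3) (nat_lit 0x200014000e000000004000200010000c0000000000000000000000000000000) (nat_lit 0x0) (nat_lit 0x40000000020010000a0000000000000000000000000000000000000000000000000) := T_40 (nat_lit 266) (nat_lit 197) (nat_lit 4) (nat_lit 11) (nat_lit 15) L106461 (by decide +kernel)
theorem L106463 : W_40 (nat_lit 4) (nat_lit 0x200014000e00000000400020001000080000000000000000000000000000000) (nat_lit 0x0) (nat_lit 0x40000000020010000a0000000000000000040002000000000000000000000000000) := T_40 (nat_lit 126) (nat_lit 109) (nat_lit 4) (nat_lit 8) (nat_lit 10) L106462 (by decide +kernel)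
theorem L106464 : W_40 (nat_lit 2) (nat_lit 0x8000e000200014000e000400064000a00010000c0000000000000000000000000000000) (nat_lit 0x0) (nat_lit 0x140004000000000000000000000000000000000000) := D_40 (nat_lit 164) (nat_lit 162) (nat_lit 146) (nat_lit 3) (nat_lit 8) (nat_lit 9) (nat_lit 4) (nat_lit 11) (nat_lit 12) (by decide +kernel)
theorem L106465 : W_40 (nat_lit 3) (nat_lit 0x8000e000200014000e000400064000200010000c0000000000000000000000000000000) (nat_lit 0x0) (nat_lit 0x10001c0004000000000000000000000000000000000000) := T_40 (nat_lit 163) (nat_lit 180) (nat_lit 4) (nat_lit 11) (nat_lit 13) L106464 (by decide +kernel)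
theorem L106466 : W_40 (nat_lit 4) (nat_lit 0x8000e000200014000e000400044000200010000c0000000000000000000000000000000) (nat_lit 0x0) (nat_lit 0x30003c0004000000000000000000000000000000000000) := T_40 (nat_lit 181) (nat_lit 165) (nat_lit 6) (nat_lit 11) (nat_lit 13) L106465 (by decide +kernel)
theorem L106467 : W_40 (nat_lit 5) (nat_lit 0x8000e000200014000e000400004000200010000c0000000000000000000000000000000) (nat_lit 0x0) (nat_lit 0x800070003c0004000000000000000000000000000000000000) := T_40 (nat_lit 182) (nat_lit 199) (nat_lit 6) (nat_lit 11) (nat_lit 14) L106466 (by decide +kernel)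
theorem L106468 : W_40 (nat_lit 6) (nat_lit 0x8000e000200014000e000000004000200010000c0000000000000000000000000000000) (nat_lit 0x0) (nat_lit 0x1000000000000c00070003c0004000000000000000000000000000000000000) := T_40 (nat_lit 198) (nat_lit 248) (nat_lit 5) (nat_lit 11) (nat_lit 11) L106467 (by decide +kernel)
theorem L106469 : W_40 (nat_lit 7) (nat_lit 0x8000e000200014000e00000000400020001000080000000000000000000000000000000) (nat_lit 0x0) (nat_lit 0x1000000000000c00070003c0004000040002000000000000000000000000000) := T_40 (nat_lit 126) (nat_lit 109) (nat_lit 4) (nat_lit 8) (nat_lit 10) L106468 (by decide +kernel)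
theorem L106470 : W_40 (nat_lit 8) (nat_lit 0x8000c000200014000e00000000400020001000080000000000000000000000000000000) (nat_lit 0x0) (nat_lit 0x400020001000000000000c00070003c0004000040002000000000000000000000000000) := T_40 (nat_lit 265) (nat_lit 282) (nat_lit 5) (nat_lit 11) (nat_lit 12) L106469 (by decide +kernel)
theorem L106471 : W_40 (nat_lit 9) (nat_lit 0x80004000200014000e00000000400020001000080000000000000000000000000000000) (nat_lit 0x0) (nat_lit 0x14000a0001000000000000c00070003c0004000040002000000000000000000000000000) := T_40 (nat_lit 267) (nat_lit 284) (nat_lit 7) (nat_lit 11) (nat_lit 12) L106470 (by decide +kernel)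
theorem L106472 : W_40 (nat_lit 10) (nat_lit 0x4000200014000e00000000400020001000080000000000000000000000000000000) (nat_lit 0x0) (nat_lit 0x1c000a0001000080000000c00070003c0004000040002000000000000000000000000000) := T_40 (nat_lit 283) (nat_lit 231) (nat_lit 4) (nat_lit 11) (nat_lit 16) L106471 (by decide +kernel)
theorem L106473 : W_40 (nat_lit 11) (nat_lit 0x200014000e00000000400020001000080000000000000000000000000000000) (nat_lit 0x0) (nat_lit 0x1c000e0001000080000000e00070003c0004000040002000000000000000000000000000) := T_40 (nat_lit 266) (nat_lit 197) (nat_lit 4) (nat_lit 11) (nat_lit 15) L106472 (by decide +kernel)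
theorem L106474 : W_40 (nat_lit 2) (nat_lit 0xe000300014003e000000004000200010001c0000000000000000000000000000000) (nat_lit 0x0) (nat_lit 0x100000c0000000000000000000000000000000000000000000000000000000000000) := D_40 (nat_lit 247) (nat_lit 246) (nat_lit 268) (nat_lit 3) (nat_lit 8) (nat_lit 14) (nat_lit 0) (nat_lit 13) (nat_lit 15) (by decide +kernel)
theorem L106475 : W_40 (nat_lit 3) (nat_lit 0xe000200014003e000000004000200010001c0000000000000000000000000000000) (nat_lit 0x0) (nat_lit 0x100001c0000000000040000000000000000000000000000000000000000000000000) := T_40 (nat_lit 248) (nat_lit 198) (nat_lit 5) (nat_lit 11) (nat_lit 11) L106474 (by decide +kernel)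
theorem L106476 : W_40 (nat_lit 4) (nat_lit 0x6000200014003e000000004000200010001c0000000000000000000000000000000) (nat_lit 0x0) (nat_lit 0x1000180001c0000000000040000000000000000000000000000000000000000000000000) := T_40 (nat_lit 267) (nat_lit 284) (nat_lit 7) (nat_lit 11) (nat_lit 12) L106475 (by decide +kernel)
theorem L106477 : W_40 (nat_lit 5) (nat_lit 0x4000200014003e000000004000200010001c0000000000000000000000000000000) (nat_lit 0x0) (nat_lit 0x14001a0001c0000000000040000000000000000000000000000000000000000000000000) := T_40 (nat_lit 265) (nat_lit 282) (nat_lit 5) (nat_lit 11) (nat_lit 12) L106476 (by decide +kernel)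
theorem L106478 : W_40 (nat_lit 6) (nat_lit 0x200014003e000000004000200010001c0000000000000000000000000000000) (nat_lit 0x0) (nat_lit 0x14001e0001c0000000000060000000000000000000000000000000000000000000000000) := T_40 (nat_lit 266) (nat_lit 197) (nat_lit 4) (nat_lit 11) (nat_lit 15) L106477 (by decide +kernel)
theorem L106479 : W_40 (nat_lit 7) (nat_lit 0x200014001e000000004000200010001c0000000000000000000000000000000) (nat_lit 0x0) (nat_lit 0x14001e0001c0008002000060000000000000000000000000000000000000000000000000) := T_40 (nat_lit 217) (nat_lit 231) (nat_lit 1) (nat_lit 13) (nat_lit 12) L106478 (by decide +kernel)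
theorem L106480 : W_40 (nat_lit 8) (nat_lit 0x200014001e00000000400020001000180000000000000000000000000000000) (nat_lit 0x0) (nat_lit 0x14001e0001c0008002000060000000000000000040002000000000000000000000000000) := T_40 (nat_lit 126) (nat_lit 109) (nat_lit 4) (nat_lit 8) (nat_lit 10) L106479 (by decide +kernel)
theorem L106481 : W_40 (nat_lit 9) (nat_lit 0x200014000e00000000400020001000180000000000000000000000000000000) (nat_lit 0x0) (nat_lit 0x14001e0001c000a003000060000000000000000040002000000000000000000000000000) := T_40 (nat_lit 216) (nat_lit 229) (nat_lit 1) (nat_lit 12) (nat_lit 12) L106480 (by decide +kernel)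
theorem L106482 : W_40 (nat_lit 10) (nat_lit 0x200014000e00000000400020001000080000000000000000000000000000000) (nat_lit 0x0) (nat_lit 0x14001e0001c000a00300006000000000000000014000a000000000000000000000000000) := T_40 (nat_lit 128) (nat_lit 111) (nat_lit 6) (nat_lit 8) (nat_lit 10) L106481 (by decide +kernel)
theorem L106483 : W_40 (nat_lit 12) (nat_lit 0x200014000a00000000400020001000080000000000000000000000000000000) (nat_lit 0x0) (nat_lit 0x1c001e0001c000a0034003e40072003c000400014000a000000000000000000000000000) := Q_40 (nat_lit 214) (C_40 L106460 (C_40 L106450 (C_40 L106463 (C_40 L106473 (C_40 L106482 N_40))))) (by decide +kernel)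
theorem L106484 : W_40 (nat_lit 9) (nat_lit 0x200014000a00000000400020001000080000000000000000000000000000000) (nat_lit 0x0) (nat_lit 0xa00058000a0000000e40073801d000000014000a000000000000000000000000000) := Q_40 (nat_lit 198) (C_40 L105656 (C_40 L106397 N_40)) (by decide +kernel)
theorem L106485 : W_40 (nat_lit 13) (nat_lit 0x14000a00000000400020001000080000000000000000000000000000000) (nat_lit 0x0) (nat_lit 0x1c001f800ff000b8034003e40073803d000400014000a000000000000000000000000000) := Q_40 (nat_lit 249) (C_40 L106393 (C_40 L105647 (C_40 L105646 (C_40 L106431 (C_40 L106432 (C_40 L106383 (C_40 L106451 (C_40 L106483 (C_40 L106484 N_40))))))))) (by decide +kernel)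
theorem L106486 : W_40 (nat_lit 2) (nat_lit 0x7c001a00000000400020001000180000000000000000000000000000000) (nat_lit 0x0) (nat_lit 0x1c0000000000000000000000000000000000000000000000000000000000000) := D_40 (nat_lit 247) (nat_lit 248) (nat_lit 246) (nat_lit 1) (nat_lit 13) (nat_lit 13) (nat_lit 1) (nat_lit 12) (nat_lit 13) (by decide +kernel)
theorem L106487 : W_40 (nat_lit 3) (nat_lit 0x3c001a00000000400020001000180000000000000000000000000000000) (nat_lit 0x0) (nat_lit 0x1c0040000400000000000000000000000000000000000000000000000000000) := T_40 (nat_lit 234) (nat_lit 214) (nat_lit 3) (nat_lit 9) (nat_lit 12) L106486 (by decide +kernel)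
theorem L106488 : W_40 (nat_lit 4) (nat_lit 0x34001a00000000400020001000180000000000000000000000000000000) (nat_lit 0x0) (nat_lit 0x1c0048002400000000000000000000000000000000000000000000000000000) := T_40 (nat_lit 231) (nat_lit 217) (nat_lit 2) (nat_lit 9) (nat_lit 13) L106487 (by decide +kernel)
theorem L106489 : W_40 (nat_lit 5) (nat_lit 0x34001a00000000400020001000080000000000000000000000000000000) (nat_lit 0x0) (nat_lit 0x1c0048002400000000000000000000100008000000000000000000000000000) := T_40 (nat_lit 128) (nat_lit 111) (nat_lit 6) (nat_lit 8) (nat_lit 10) L106488 (by decide +kernel)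
theorem L106490 : W_40 (nat_lit 11) (nat_lit 0x14001a00000000400020001000080000000000000000000000000000000) (nat_lit 0x0) (nat_lit 0x100018000dc006800e4003e400e20070000000014000a000000000000000000000000000) := Q_40 (nat_lit 233) (C_40 L105343 (C_40 L104397 (C_40 L104402 (C_40 L105334 (C_40 L104413 (C_40 L106489 N_40)))))) (by decide +kernel)
theorem L106491 : W_40 (nat_lit 11) (nat_lit 0x14001a00000000400020001000180000000000000000000000000000000) (nat_lit 0x0) (nat_lit 0xe20064007640013801d0000000000000000000000000000000000000000) := T_40 (nat_lit 214) (nat_lit 229) (nat_lit 1) (nat_lit 12) (nat_lit 12) L106381 (by decide +kernel)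
theorem L106492 : W_40 (nat_lit 12) (nat_lit 0x14001a00000000400020001000080000000000000000000000000000000) (nat_lit 0x0) (nat_lit 0xe20064007640013801d0000000100008000000000000000000000000000) := T_40 (nat_lit 128) (nat_lit 111) (nat_lit 6) (nat_lit 8) (nat_lit 10) L106491 (by decide +kernel)
theorem L106493 : W_40 (nat_lit 13) (nat_lit 0x14000a00000000400020001000080000000000000000000000000000000) (nat_lit 0x0) (nat_lit 0x100018000dc00ea00f4007e400f3807d000000014000a000000000000000000000000000) := Q_40 (nat_lit 216) (C_40 L105344 (C_40 L106490 (C_40 L106492 (C_40 L105178 N_40)))) (by decide +kernel)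
theorem L106494 : W_40 (nat_lit 13) (nat_lit 0x14000a00000000400020001000080000000000000000000000000000000) (nat_lit 0x0) (nat_lit 0x40002001ea00f4007e40053803d000000014000a000000000000000000000000000) := Q_40 (nat_lit 216) (C_40 L105344 (C_40 L106492 (C_40 L106430 (C_40 L105178 N_40)))) (by decide +kernel)
theorem L106495 : W_40 (nat_lit 14) (nat_lit 0x14000200000000400020001000080000000000000000000000000000000) (nat_lit 0x0) (nat_lit 0x3f003fe03ff01eb80fc007e403f3807d001c00074003a000000000000000000000000000) := Q_40 (nat_lit 215) (C_40 L105171 (C_40 L106365 (C_40 L106367 (C_40 L106368 (C_40 L106370 (C_40 L105179 (C_40 L106372 (C_40 L106392 (C_40 L106419 (C_40 L106485 (C_40 L104890 (C_40 L106493 (C_40 L106494 N_40))))))))))))) (by decide +kernel)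
theorem L106496 : W_40 (nat_lit 2) (nat_lit 0x14000b00000000600020001000080000000000000000000000000000000) (nat_lit 0x0) (nat_lit 0x28000400000000000000000000000000000000000000000000000000000) := D_40 (nat_lit 233) (nat_lit 214) (nat_lit 231) (nat_lit 3) (nat_lit 8) (nat_lit 12) (nat_lit 0) (nat_lit 12) (nat_lit 13) (by decide +kernel)
theorem L106497 : W_40 (nat_lit 3) (nat_lit 0x14000a00000000600020001000080000000000000000000000000000000) (nat_lit 0x0) (nat_lit 0x28000500008000000000000000000000000000000000000000000000000) := T_40 (nat_lit 212) (nat_lit 195) (nat_lit 7) (nat_lit 8) (nat_lit 9) L106496 (by decide +kernel)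
theorem L106498 : W_40 (nat_lit 4) (nat_lit 0x14000a00000000400020001000080000000000000000000000000000000) (nat_lit 0x0) (nat_lit 0x2800050000c000200000000000000000000000000000000000000000000) := T_40 (nat_lit 177) (nat_lit 194) (nat_lit 5) (nat_lit 8) (nat_lit 7) L106497 (by decide +kernel)
theorem L106499 : W_40 (nat_lit 2) (nat_lit 0x14000b000000004000200010001c0000000000000000000000000000000) (nat_lit 0x0) (nat_lit 0x28000400000000000000000000000000000000000000000000000000000) := D_40 (nat_lit 233) (nat_lit 214) (nat_lit 231) (nat_lit 3) (nat_lit 8) (nat_lit 12) (nat_lit 0) (nat_lit 12) (nat_lit 13) (by decide +kernel)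
theorem L106500 : W_40 (nat_lit 3) (nat_lit 0x14000a000000004000200010001c0000000000000000000000000000000) (nat_lit 0x0) (nat_lit 0x28000500008000000000000000000000000000000000000000000000000) := T_40 (nat_lit 212) (nat_lit 195) (nat_lit 7) (nat_lit 8) (nat_lit 9) L106499 (by decide +kernel)
theorem L106501 : W_40 (nat_lit 4) (nat_lit 0x14000a00000000400020001000180000000000000000000000000000000) (nat_lit 0x0) (nat_lit 0x28000500008000000000000000040002000000000000000000000000000) := T_40 (nat_lit 126) (nat_lit 109) (nat_lit 4) (nat_lit 8) (nat_lit 10) L106500 (by decide +kernel)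
theorem L106502 : W_40 (nat_lit 5) (nat_lit 0x14000a00000000400020001000080000000000000000000000000000000) (nat_lit 0x0) (nat_lit 0x2800050000800000000000000014000a000000000000000000000000000) := T_40 (nat_lit 128) (nat_lit 111) (nat_lit 6) (nat_lit 8) (nat_lit 10) L106501 (by decide +kernel)
theorem L106503 : W_40 (nat_lit 12) (nat_lit 0x14000a00040000400020001000080000000000000000000000000000000) (nat_lit 0x0) (nat_lit 0x14007e003f800e80010000a400520000000000014000a000000000000000000000000000) := Q_40 (nat_lit 249) (C_40 L105566 (C_40 L105561 (C_40 L105378 N_40))) (by decide +kernel)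
theorem L106504 : W_40 (nat_lit 13) (nat_lit 0x14000a00000000400020001000080000000000000000000000000000000) (nat_lit 0x0) (nat_lit 0x14007e003fc00e80031000e40073803d001c00074003a000000000000000000000000000) := Q_40 (nat_lit 198) (C_40 L105648 (C_40 L105641 (C_40 L105387 (C_40 L105107 (C_40 L106503 N_40))))) (by decide +kernel)
theorem L106505 : W_40 (nat_lit 2) (nat_lit 0x14000b00040000400020001000080000000000000000000000000000000) (nat_lit 0x0) (nat_lit 0x20000400080000000000000000000000000000000000000000000000000) := D_40 (nat_lit 214) (nat_lit 199) (nat_lit 233) (nat_lit 2) (nat_lit 8) (nat_lit 12) (nat_lit 3) (nat_lit 8) (nat_lit 12) (by decide +kernel)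
theorem L106506 : W_40 (nat_lit 3) (nat_lit 0x14000a00040000400020001000080000000000000000000000000000000) (nat_lit 0x0) (nat_lit 0x20000500088000000000000000000000000000000000000000000000000) := T_40 (nat_lit 212) (nat_lit 195) (nat_lit 7) (nat_lit 8) (nat_lit 9) L106505 (by decide +kernel)
theorem L106507 : W_40 (nat_lit 10) (nat_lit 0x14000a00000000400020001000080000000000000000000000000000000) (nat_lit 0x0) (nat_lit 0x14000e0007000e00015000ec0073803d000c00074003a000000000000000000000000000) := Q_40 (nat_lit 198) (C_40 L105641 (C_40 L105727 (C_40 L105090 (C_40 L106506 N_40)))) (by decide +kernel)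
theorem L106508 : W_40 (nat_lit 2) (nat_lit 0x4000200014000b000c0000600020001000180000000000000000000000000000000) (nat_lit 0x0) (nat_lit 0x100008000400000000000000000000000000000000000000000000000000000000000000) := D_40 (nat_lit 267) (nat_lit 284) (nat_lit 250) (nat_lit 7) (nat_lit 11) (nat_lit 12) (nat_lit 7) (nat_lit 11) (nat_lit 11) (by decide +kernel)
theorem L106509 : W_40 (nat_lit 3) (nat_lit 0x200014000b000c0000600020001000180000000000000000000000000000000) (nat_lit 0x0) (nat_lit 0x10000c000400000001000000000000000000000000000000000000000000000000000000) := T_40 (nat_lit 266) (nat_lit 216) (nat_lit 6) (nat_lit 11) (nat_lit 15) L106508 (by decide +kernel)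
theorem L106510 : W_40 (nat_lit 4) (nat_lit 0x14000b000c0000600020001000180000000000000000000000000000000) (nat_lit 0x0) (nat_lit 0x10000c000600000001000000004000000000000000000000000000000000000000000000) := T_40 (nat_lit 249) (nat_lit 182) (nat_lit 6) (nat_lit 11) (nat_lit 14) L106509 (by decide +kernel)
theorem L106511 : W_40 (nat_lit 5) (nat_lit 0x14000b000c0000400020001000180000000000000000000000000000000) (nat_lit 0x0) (nat_lit 0x10000c000600000001000004004200000000000000000000000000000000000000000000) := T_40 (nat_lit 177) (nat_lit 194) (nat_lit 5) (nat_lit 8) (nat_lit 7) L106510 (by decide +kernel)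
theorem L106512 : W_40 (nat_lit 6) (nat_lit 0x14000b00040000400020001000180000000000000000000000000000000) (nat_lit 0x0) (nat_lit 0x10000c000600000001400084004200000000000000000000000000000000000000000000) := T_40 (nat_lit 199) (nat_lit 214) (nat_lit 2) (nat_lit 8) (nat_lit 12) L106511 (by decide +kernel)
theorem L106513 : W_40 (nat_lit 7) (nat_lit 0x14000b00040000400020001000080000000000000000000000000000000) (nat_lit 0x0) (nat_lit 0x10000c000600000001400084004200000000000100008000000000000000000000000000) := T_40 (nat_lit 128) (nat_lit 111) (nat_lit 6) (nat_lit 8) (nat_lit 10) L106512 (by decide +kernel)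
theorem L106514 : W_40 (nat_lit 8) (nat_lit 0x14000a00040000400020001000080000000000000000000000000000000) (nat_lit 0x0) (nat_lit 0x10000c00060000000150008c004200000000000100008000000000000000000000000000) := T_40 (nat_lit 212) (nat_lit 195) (nat_lit 7) (nat_lit 8) (nat_lit 9) L106513 (by decide +kernel)
theorem L106515 : W_40 (nat_lit 12) (nat_lit 0x14000a00000000400020001000080000000000000000000000000000000) (nat_lit 0x0) (nat_lit 0x14000e000f000080015001ec0073803d001c000f4003a000000000000000000000000000) := Q_40 (nat_lit 198) (C_40 L105648 (C_40 L106114 (C_40 L106113 (C_40 L105492 (C_40 L106514 (C_40 L105641 N_40)))))) (by decide +kernel)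
theorem L106516 : W_40 (nat_lit 14) (nat_lit 0x14000200000000400020001000080000000000000000000000000000000) (nat_lit 0x0) (nat_lit 0x1c007f803fc00e8003d001ec00f3803d001c000f4003a000000000000000000000000000) := Q_40 (nat_lit 215) (C_40 L105171 (C_40 L105546 (C_40 L106498 (C_40 L106502 (C_40 L106504 (C_40 L106507 (C_40 L106515 N_40))))))) (by decide +kernel)
theorem L106517 : W_40 (nat_lit 14) (nat_lit 0x14000200000000400020001000080000000000000000000000000000000) (nat_lit 0x0) (nat_lit 0xf8007c01ffc06bc03d0000800000000000000014000a000000000000000000000000000) := Q_40 (nat_lit 231) (C_40 L104816 (C_40 L106325 (C_40 L106289 N_40))) (by decide +kernel)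
theorem L106518 : W_40 (nat_lit 14) (nat_lit 0x14000200000000400020001000080000000000000000000000000000000) (nat_lit 0x0) (nat_lit 0xf8007c00ff006bc0796004e0003801d000000014000a000000000000000000000000000) := Q_40 (nat_lit 231) (C_40 L104753 (C_40 L106325 (C_40 L106312 N_40))) (by decide +kernel)
theorem L106519 : W_40 (nat_lit 14) (nat_lit 0x14000200000000400020001000080000000000000000000000000000000) (nat_lit 0x0) (nat_lit 0x38007c00ffc1ebc0756008e0043801d000000014000a000000000000000000000000000) := Q_40 (nat_lit 231) (C_40 L104810 (C_40 L106325 (C_40 L106324 N_40))) (by decide +kernel)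
theorem L106520 : W_40 (nat_lit 12) (nat_lit 0x14000200000000400020001000080000000000000000000000000000000) (nat_lit 0x0) (nat_lit 0x1c000e001f9c06bc07d600ec00320010000000014000a000000000000000000000000000) := Q_40 (nat_lit 231) (C_40 L105754 (C_40 L106325 (C_40 L106333 N_40))) (by decide +kernel)
theorem L106521 : W_40 (nat_lit 2) (nat_lit 0x14000f000000004000200010001c0000000000000000000000000000000) (nat_lit 0x0) (nat_lit 0x3001000000000000000000000000000000000000000000000000000000) := D_40 (nat_lit 229) (nat_lit 216) (nat_lit 228) (nat_lit 1) (nat_lit 12) (nat_lit 12) (nat_lit 1) (nat_lit 11) (nat_lit 12) (by decide +kernel)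
theorem L106522 : W_40 (nat_lit 3) (nat_lit 0x14000b000000004000200010001c0000000000000000000000000000000) (nat_lit 0x0) (nat_lit 0x23001400000000000000000000000000000000000000000000000000000) := T_40 (nat_lit 214) (nat_lit 233) (nat_lit 3) (nat_lit 8) (nat_lit 12) L106521 (by decide +kernel)
theorem L106523 : W_40 (nat_lit 4) (nat_lit 0x14000a000000004000200010001c0000000000000000000000000000000) (nat_lit 0x0) (nat_lit 0x23001500008000000000000000000000000000000000000000000000000) := T_40 (nat_lit 212) (nat_lit 195) (nat_lit 7) (nat_lit 8) (nat_lit 9) L106522 (by decide +kernel)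
theorem L106524 : W_40 (nat_lit 5) (nat_lit 0x14000a000000004000200010000c0000000000000000000000000000000) (nat_lit 0x0) (nat_lit 0x23001500008000000000000000100008000000000000000000000000000) := T_40 (nat_lit 128) (nat_lit 111) (nat_lit 6) (nat_lit 8) (nat_lit 10) L106523 (by decide +kernel)
theorem L106525 : W_40 (nat_lit 6) (nat_lit 0x14000a00000000400020001000080000000000000000000000000000000) (nat_lit 0x0) (nat_lit 0x2300150000800000000000000014000a000000000000000000000000000) := T_40 (nat_lit 126) (nat_lit 109) (nat_lit 4) (nat_lit 8) (nat_lit 10) L106524 (by decide +kernel)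
theorem L106526 : W_40 (nat_lit 7) (nat_lit 0x14000a00040000400020001000080000000000000000000000000000000) (nat_lit 0x0) (nat_lit 0x4000e0007c0022001000084006200200000000100008000000000000000000000000000) := Q_40 (nat_lit 249) (C_40 L105566 (C_40 L106388 (C_40 L105717 N_40))) (by decide +kernel)
theorem L106527 : W_40 (nat_lit 2) (nat_lit 0x700034000a00068000400020001000080000000000000000000000000000000) (nat_lit 0x0) (nat_lit 0x80042000000000000000000000000000000000000000000000000000000000) := D_40 (nat_lit 247) (nat_lit 234) (nat_lit 229) (nat_lit 2) (nat_lit 9) (nat_lit 14) (nat_lit 0) (nat_lit 12) (nat_lit 14) (by decide +kernel)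
theorem L106528 : W_40 (nat_lit 3) (nat_lit 0x600034000a00068000400020001000080000000000000000000000000000000) (nat_lit 0x0) (nat_lit 0x2000180042000000000000000000000000000000000000000000000000000000000) := T_40 (nat_lit 248) (nat_lit 265) (nat_lit 5) (nat_lit 11) (nat_lit 11) L106527 (by decide +kernel)
theorem L106529 : W_40 (nat_lit 4) (nat_lit 0x600014000a00068000400020001000080000000000000000000000000000000) (nat_lit 0x0) (nat_lit 0x2000180062000000000002000000000000000000000000000000000000000000000) := T_40 (nat_lit 233) (nat_lit 181) (nat_lit 7) (nat_lit 11) (nat_lit 10) L106528 (by decide +kernel)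
theorem L106530 : W_40 (nat_lit 5) (nat_lit 0x600014000a00048000400020001000080000000000000000000000000000000) (nat_lit 0x0) (nat_lit 0x2000180062000000020003000000000000000000000000000000000000000000000) := T_40 (nat_lit 197) (nat_lit 180) (nat_lit 4) (nat_lit 11) (nat_lit 14) L106529 (by decide +kernel)
theorem L106531 : W_40 (nat_lit 6) (nat_lit 0x200014000a00048000400020001000080000000000000000000000000000000) (nat_lit 0x0) (nat_lit 0xa000580062000000020003000000000000000000000000000000000000000000000) := T_40 (nat_lit 250) (nat_lit 267) (nat_lit 7) (nat_lit 11) (nat_lit 11) L106530 (by decide +kernel)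
theorem L106532 : W_40 (nat_lit 7) (nat_lit 0x200014000a00040000400020001000080000000000000000000000000000000) (nat_lit 0x0) (nat_lit 0xa000580062000100028003000000000000000000000000000000000000000000000) := T_40 (nat_lit 195) (nat_lit 212) (nat_lit 7) (nat_lit 8) (nat_lit 9) L106531 (by decide +kernel)
theorem L106533 : W_40 (nat_lit 8) (nat_lit 0x14000a00040000400020001000080000000000000000000000000000000) (nat_lit 0x0) (nat_lit 0x14000e0007800620011000ac007200280000000040002000000000000000000000000000) := Q_40 (nat_lit 249) (C_40 L105566 (C_40 L105601 (C_40 L105561 (C_40 L106532 N_40)))) (by decide +kernel)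
theorem L106534 : W_40 (nat_lit 2) (nat_lit 0x4000200014000a000e0000400020001000180000000000000000000000000000000) (nat_lit 0x0) (nat_lit 0x40002000100000000000000000000000000000000000000000000000000000000000000) := D_40 (nat_lit 265) (nat_lit 248) (nat_lit 282) (nat_lit 5) (nat_lit 11) (nat_lit 11) (nat_lit 5) (nat_lit 11) (nat_lit 12) (by decide +kernel)
theorem L106535 : W_40 (nat_lit 3) (nat_lit 0x200014000a000e0000400020001000180000000000000000000000000000000) (nat_lit 0x0) (nat_lit 0x40006000100000001000000000000000000000000000000000000000000000000000000) := T_40 (nat_lit 266) (nat_lit 216) (nat_lit 6) (nat_lit 11) (nat_lit 15) L106534 (by decide +kernel)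
theorem L106536 : W_40 (nat_lit 4) (nat_lit 0x200014000a00060000400020001000180000000000000000000000000000000) (nat_lit 0x0) (nat_lit 0x40006000100000001000080004000000000000000000000000000000000000000000000) := T_40 (nat_lit 199) (nat_lit 182) (nat_lit 6) (nat_lit 11) (nat_lit 14) L106535 (by decide +kernel)
theorem L106537 : W_40 (nat_lit 5) (nat_lit 0x200014000a00040000400020001000180000000000000000000000000000000) (nat_lit 0x0) (nat_lit 0x400060001000000010000a0005000000000000000000000000000000000000000000000) := T_40 (nat_lit 197) (nat_lit 180) (nat_lit 4) (nat_lit 11) (nat_lit 14) L106536 (by decide +kernel)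
theorem L106538 : W_40 (nat_lit 6) (nat_lit 0x200014000a00040000400020001000080000000000000000000000000000000) (nat_lit 0x0) (nat_lit 0x400060001000000010000a0005000000000000100008000000000000000000000000000) := T_40 (nat_lit 128) (nat_lit 111) (nat_lit 6) (nat_lit 8) (nat_lit 10) L106537 (by decide +kernel)
theorem L106539 : W_40 (nat_lit 8) (nat_lit 0x14000a00040000400020001000080000000000000000000000000000000) (nat_lit 0x0) (nat_lit 0x14000e0007c00620011000a800700000000000014000a000000000000000000000000000) := Q_40 (nat_lit 249) (C_40 L105561 (C_40 L106532 (C_40 L106388 (C_40 L106538 N_40)))) (by decide +kernel)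
theorem L106540 : W_40 (nat_lit 2) (nat_lit 0x780014000a00068000400020001000080000000000000000000000000000000) (nat_lit 0x0) (nat_lit 0x40060000000000000000000000000000000000000000000000000000000000) := D_40 (nat_lit 233) (nat_lit 246) (nat_lit 234) (nat_lit 2) (nat_lit 8) (nat_lit 14) (nat_lit 2) (nat_lit 9) (nat_lit 14) (by decide +kernel)
theorem L106541 : W_40 (nat_lit 3) (nat_lit 0x700014000a00068000400020001000080000000000000000000000000000000) (nat_lit 0x0) (nat_lit 0xc0062000000000000000000000000000000000000000000000000000000000) := T_40 (nat_lit 247) (nat_lit 229) (nat_lit 0) (nat_lit 12) (nat_lit 14) L106540 (by decide +kernel)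
theorem L106542 : W_40 (nat_lit 4) (nat_lit 0x600014000a00068000400020001000080000000000000000000000000000000) (nat_lit 0x0) (nat_lit 0x20001c0062000000000000000000000000000000000000000000000000000000000) := T_40 (nat_lit 248) (nat_lit 265) (nat_lit 5) (nat_lit 11) (nat_lit 11) L106541 (by decide +kernel)
theorem L106543 : W_40 (nat_lit 5) (nat_lit 0x600014000a00048000400020001000080000000000000000000000000000000) (nat_lit 0x0) (nat_lit 0x20001c0062000000020001000000000000000000000000000000000000000000000) := T_40 (nat_lit 197) (nat_lit 180) (nat_lit 4) (nat_lit 11) (nat_lit 14) L106542 (by decide +kernel)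
theorem L106544 : W_40 (nat_lit 6) (nat_lit 0x200014000a00048000400020001000080000000000000000000000000000000) (nat_lit 0x0) (nat_lit 0xa0005c0062000000020001000000000000000000000000000000000000000000000) := T_40 (nat_lit 250) (nat_lit 267) (nat_lit 7) (nat_lit 11) (nat_lit 11) L106543 (by decide +kernel)
theorem L106545 : W_40 (nat_lit 7) (nat_lit 0x200014000a00040000400020001000080000000000000000000000000000000) (nat_lit 0x0) (nat_lit 0xa0005c0062000100028001000000000000000000000000000000000000000000000) := T_40 (nat_lit 195) (nat_lit 212) (nat_lit 7) (nat_lit 8) (nat_lit 9) L106544 (by decide +kernel)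
theorem L106546 : W_40 (nat_lit 8) (nat_lit 0x14000a00040000400020001000080000000000000000000000000000000) (nat_lit 0x0) (nat_lit 0x14000e0007c00620011000ac00520000000000014000a000000000000000000000000000) := Q_40 (nat_lit 249) (C_40 L106538 (C_40 L105566 (C_40 L106545 (C_40 L105561 N_40)))) (by decide +kernel)
theorem L106547 : W_40 (nat_lit 9) (nat_lit 0x14000a00040000400020001000080000000000000000000000000000000) (nat_lit 0x0) (nat_lit 0xa0007c006200010002c0033801d000000014000a000000000000000000000000000) := Q_40 (nat_lit 249) (C_40 L106545 (C_40 L106388 (C_40 L105656 N_40))) (by decide +kernel)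
theorem L106548 : W_40 (nat_lit 10) (nat_lit 0x14000a00000000400020001000080000000000000000000000000000000) (nat_lit 0x0) (nat_lit 0x14000e0007c00620011000ec0073803d000c00074003a000000000000000000000000000) := Q_40 (nat_lit 198) (C_40 L105641 (C_40 L106526 (C_40 L106533 (C_40 L106539 (C_40 L106546 (C_40 L106547 N_40)))))) (by decide +kernel)
theorem L106549 : W_40 (nat_lit 10) (nat_lit 0x14000a00000000400020001000080000000000000000000000000000000) (nat_lit 0x0) (nat_lit 0xa0007c00620005000ec0073803d000c00074003a000000000000000000000000000) := Q_40 (nat_lit 198) (C_40 L105641 (C_40 L106547 (C_40 L106506 N_40))) (by decide +kernel)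
theorem L106550 : W_40 (nat_lit 12) (nat_lit 0x14000a00000000400020001000080000000000000000000000000000000) (nat_lit 0x0) (nat_lit 0x14000e0007000038015001e400f3803d000000014000a000000000000000000000000000) := Q_40 (nat_lit 214) (C_40 L105285 (C_40 L106052 (C_40 L106050 (C_40 L105361 N_40)))) (by decide +kernel)
theorem L106551 : W_40 (nat_lit 14) (nat_lit 0x14000200000000400020001000080000000000000000000000000000000) (nat_lit 0x0) (nat_lit 0x1c001f0007c00e380fd003ec03f3803d000c00074003a000000000000000000000000000) := Q_40 (nat_lit 215) (C_40 L106392 (C_40 L106507 (C_40 L106054 (C_40 L106055 (C_40 L105040 (C_40 L106525 (C_40 L106548 (C_40 L106549 (C_40 L106550 N_40))))))))) (by decide +kernel)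
theorem L106552 : W_40 (nat_lit 14) (nat_lit 0x14000200000000400020001000080000000000000000000000000000000) (nat_lit 0x0) (nat_lit 0x38003c00ffc1ebc00d6000e0003801d000000014000a000000000000000000000000000) := Q_40 (nat_lit 231) (C_40 L105752 (C_40 L106325 (C_40 L106324 N_40))) (by decide +kernel)
theorem L106553 : W_40 (nat_lit 2) (nat_lit 0x300017800b00040005600020001000180000000000000000000000000000000) (nat_lit 0x0) (nat_lit 0x2000280000000000000000000000000000000000000000) := D_40 (nat_lit 181) (nat_lit 163) (nat_lit 165) (nat_lit 4) (nat_lit 11) (nat_lit 13) (nat_lit 6) (nat_lit 11) (nat_lit 13) (by decide +kernel)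
theorem L106554 : W_40 (nat_lit 3) (nat_lit 0x300017800b00040001600020001000180000000000000000000000000000000) (nat_lit 0x0) (nat_lit 0x80006000280000000000000000000000000000000000000000) := T_40 (nat_lit 182) (nat_lit 199) (nat_lit 6) (nat_lit 11) (nat_lit 14) L106553 (by decide +kernel)
theorem L106555 : W_40 (nat_lit 4) (nat_lit 0x300017800b00040000600020001000180000000000000000000000000000000) (nat_lit 0x0) (nat_lit 0xa0007000280000000000000000000000000000000000000000) := T_40 (nat_lit 180) (nat_lit 197) (nat_lit 4) (nat_lit 11) (nat_lit 14) L106554 (by decide +kernel)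
theorem L106556 : W_40 (nat_lit 5) (nat_lit 0x300017800b00000000600020001000180000000000000000000000000000000) (nat_lit 0x0) (nat_lit 0x20000000000000000e0007000280000000000000000000000000000000000000000) := T_40 (nat_lit 198) (nat_lit 265) (nat_lit 5) (nat_lit 11) (nat_lit 11) L106555 (by decide +kernel)
theorem L106557 : W_40 (nat_lit 6) (nat_lit 0x100017800b00000000600020001000180000000000000000000000000000000) (nat_lit 0x0) (nat_lit 0x20002000080000000e0007000280000000000000000000000000000000000000000) := T_40 (nat_lit 249) (nat_lit 231) (nat_lit 3) (nat_lit 7) (nat_lit 13) L106556 (by decide +kernel)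
theorem L106558 : W_40 (nat_lit 7) (nat_lit 0x17800b00000000600020001000180000000000000000000000000000000) (nat_lit 0x0) (nat_lit 0x20003800080000000e0007000280000000000000000000000000000000000000000) := T_40 (nat_lit 248) (nat_lit 247) (nat_lit 3) (nat_lit 6) (nat_lit 13) L106557 (by decide +kernel)
theorem L106559 : W_40 (nat_lit 8) (nat_lit 0x17000b00000000600020001000180000000000000000000000000000000) (nat_lit 0x0) (nat_lit 0x2000380008c000000e0007000280000000000000000000000000000000000000000) := T_40 (nat_lit 227) (nat_lit 226) (nat_lit 2) (nat_lit 5) (nat_lit 13) L106558 (by decide +kernel)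
theorem L106560 : W_40 (nat_lit 9) (nat_lit 0x16000b00000000600020001000180000000000000000000000000000000) (nat_lit 0x0) (nat_lit 0x2000380009c004000e0007000280000000000000000000000000000000000000000) := T_40 (nat_lit 228) (nat_lit 214) (nat_lit 1) (nat_lit 11) (nat_lit 12) L106559 (by decide +kernel)
theorem L106561 : W_40 (nat_lit 10) (nat_lit 0x16000b00000000600020001000080000000000000000000000000000000) (nat_lit 0x0) (nat_lit 0x2000380009c004000e0007000280000000100008000000000000000000000000000) := T_40 (nat_lit 128) (nat_lit 111) (nat_lit 6) (nat_lit 8) (nat_lit 10) L106560 (by decide +kernel)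
theorem L106562 : W_40 (nat_lit 11) (nat_lit 0x16000a00000000600020001000080000000000000000000000000000000) (nat_lit 0x0) (nat_lit 0x2000380009c005000e8007000280000000100008000000000000000000000000000) := T_40 (nat_lit 212) (nat_lit 195) (nat_lit 7) (nat_lit 8) (nat_lit 9) L106561 (by decide +kernel)
theorem L106563 : W_40 (nat_lit 12) (nat_lit 0x16000a00000000400020001000080000000000000000000000000000000) (nat_lit 0x0) (nat_lit 0x2000380009c005000ec007200280000000100008000000000000000000000000000) := T_40 (nat_lit 177) (nat_lit 194) (nat_lit 5) (nat_lit 8) (nat_lit 7) L106562 (by decide +kernel)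
theorem L106564 : W_40 (nat_lit 2) (nat_lit 0x3800090017800b000000006000200010000c0000000000000000000000000000000) (nat_lit 0x0) (nat_lit 0x400060000000000000000000000000000000000000000000000000000000000000) := D_40 (nat_lit 245) (nat_lit 246) (nat_lit 262) (nat_lit 3) (nat_lit 6) (nat_lit 14) (nat_lit 0) (nat_lit 10) (nat_lit 15) (by decide +kernel)
theorem L106565 : W_40 (nat_lit 3) (nat_lit 0x1800090017800b000000006000200010000c0000000000000000000000000000000) (nat_lit 0x0) (nat_lit 0x40002400060000000000000000000000000000000000000000000000000000000000000) := T_40 (nat_lit 265) (nat_lit 282) (nat_lit 7) (nat_lit 9) (nat_lit 12) L106564 (by decide +kernel)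
theorem L106566 : W_40 (nat_lit 4) (nat_lit 0x1000090017800b000000006000200010000c0000000000000000000000000000000) (nat_lit 0x0) (nat_lit 0x50002c00060000000000000000000000000000000000000000000000000000000000000) := T_40 (nat_lit 263) (nat_lit 280) (nat_lit 5) (nat_lit 9) (nat_lit 12) L106565 (by decide +kernel)
theorem L106567 : W_40 (nat_lit 5) (nat_lit 0x90017800b000000006000200010000c0000000000000000000000000000000) (nat_lit 0x0) (nat_lit 0x70003c00060000000000000000000000000000000000000000000000000000000000000) := T_40 (nat_lit 264) (nat_lit 281) (nat_lit 4) (nat_lit 9) (nat_lit 16) L106566 (by decide +kernel)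
theorem L106568 : W_40 (nat_lit 6) (nat_lit 0x80017800b000000006000200010000c0000000000000000000000000000000) (nat_lit 0x0) (nat_lit 0x70003c00078000000000000000000000000000000000000000000000000000000000000) := T_40 (nat_lit 244) (nat_lit 243) (nat_lit 1) (nat_lit 9) (nat_lit 13) L106567 (by decide +kernel)
theorem L106569 : W_40 (nat_lit 7) (nat_lit 0x17800b000000006000200010000c0000000000000000000000000000000) (nat_lit 0x0) (nat_lit 0x70003c001f8000000000000000000000000000000000000000000000000000000000000) := T_40 (nat_lit 247) (nat_lit 248) (nat_lit 3) (nat_lit 6) (nat_lit 13) L106568 (by decide +kernel)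
theorem L106570 : W_40 (nat_lit 13) (nat_lit 0x14000a00000000400020001000080000000000000000000000000000000) (nat_lit 0x0) (nat_lit 0x20007f000bc015000ec007200280000000100008000000000000000000000000000) := Q_40 (nat_lit 229) (C_40 L105042 (C_40 L106563 (C_40 L105033 (C_40 L105041 (C_40 L105030 N_40))))) (by decide +kernel)
theorem L106571 : W_40 (nat_lit 8) (nat_lit 0x17000b000000006000200010000c0000000000000000000000000000000) (nat_lit 0x0) (nat_lit 0x70003c001f8000c00000000000000000000000000000000000000000000000000000000) := T_40 (nat_lit 227) (nat_lit 226) (nat_lit 2) (nat_lit 5) (nat_lit 13) L106569 (by decide +kernel)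
theorem L106572 : W_40 (nat_lit 9) (nat_lit 0x16000b000000006000200010000c0000000000000000000000000000000) (nat_lit 0x0) (nat_lit 0x70003c001f8001c00400000000000000000000000000000000000000000000000000000) := T_40 (nat_lit 228) (nat_lit 214) (nat_lit 1) (nat_lit 11) (nat_lit 12) L106571 (by decide +kernel)
theorem L106573 : W_40 (nat_lit 10) (nat_lit 0x16000b000000004000200010000c0000000000000000000000000000000) (nat_lit 0x0) (nat_lit 0x70003c001f8001c00400004000200000000000000000000000000000000000000000000) := T_40 (nat_lit 177) (nat_lit 194) (nat_lit 5) (nat_lit 8) (nat_lit 7) L106572 (by decide +kernel)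
theorem L106574 : W_40 (nat_lit 11) (nat_lit 0x16000a000000004000200010000c0000000000000000000000000000000) (nat_lit 0x0) (nat_lit 0x70003c001f8001c0050000c000200000000000000000000000000000000000000000000) := T_40 (nat_lit 212) (nat_lit 195) (nat_lit 7) (nat_lit 8) (nat_lit 9) L106573 (by decide +kernel)
theorem L106575 : W_40 (nat_lit 12) (nat_lit 0x16000a00000000400020001000080000000000000000000000000000000) (nat_lit 0x0) (nat_lit 0x70003c001f8001c0050000c000200000000000040002000000000000000000000000000) := T_40 (nat_lit 126) (nat_lit 109) (nat_lit 4) (nat_lit 8) (nat_lit 10) L106574 (by decide +kernel)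
theorem L106576 : W_40 (nat_lit 13) (nat_lit 0x14000a00000000400020001000080000000000000000000000000000000) (nat_lit 0x0) (nat_lit 0x70003c007f800bc0150004c002200000000000040002000000000000000000000000000) := Q_40 (nat_lit 229) (C_40 L105345 (C_40 L105033 (C_40 L105030 (C_40 L106575 N_40)))) (by decide +kernel)
theorem L106577 : W_40 (nat_lit 2) (nat_lit 0x200000000b0017800b400000004000200010001c0000000000000000000000000000000) (nat_lit 0x0) (nat_lit 0x8000400000000000000002000000000000000000000000000000000000000000000000) := D_40 (nat_lit 262) (nat_lit 279) (nat_lit 193) (nat_lit 6) (nat_lit 7) (nat_lit 16) (nat_lit 7) (nat_lit 6) (nat_lit 11) (by decide +kernel)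
theorem L106578 : W_40 (nat_lit 3) (nat_lit 0x20000000090017800b400000004000200010001c0000000000000000000000000000000) (nat_lit 0x0) (nat_lit 0x8000400020008000000002000000000000000000000000000000000000000000000000) := T_40 (nat_lit 245) (nat_lit 231) (nat_lit 1) (nat_lit 10) (nat_lit 13) L106577 (by decide +kernel)
theorem L106579 : W_40 (nat_lit 4) (nat_lit 0x20000000080017800b400000004000200010001c0000000000000000000000000000000) (nat_lit 0x0) (nat_lit 0x8000400038008000000002000000000000000000000000000000000000000000000000) := T_40 (nat_lit 244) (nat_lit 243) (nat_lit 1) (nat_lit 9) (nat_lit 13) L106578 (by decide +kernel)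
theorem L106580 : W_40 (nat_lit 5) (nat_lit 0x80017800b400000004000200010001c0000000000000000000000000000000) (nat_lit 0x0) (nat_lit 0x28001400038008000000002000000000000000000000000000000000000000000000000) := T_40 (nat_lit 281) (nat_lit 264) (nat_lit 4) (nat_lit 9) (nat_lit 16) L106579 (by decide +kernel)
theorem L106581 : W_40 (nat_lit 6) (nat_lit 0x80017800b000000004000200010001c0000000000000000000000000000000) (nat_lit 0x0) (nat_lit 0x28001400038008000060002000000000000000000000000000000000000000000000000) := T_40 (nat_lit 210) (nat_lit 209) (nat_lit 0) (nat_lit 9) (nat_lit 13) L106580 (by decide +kernel)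
theorem L106582 : W_40 (nat_lit 7) (nat_lit 0x17800b000000004000200010001c0000000000000000000000000000000) (nat_lit 0x0) (nat_lit 0x280014001b8008000060002000000000000000000000000000000000000000000000000) := T_40 (nat_lit 247) (nat_lit 248) (nat_lit 3) (nat_lit 6) (nat_lit 13) L106581 (by decide +kernel)
theorem L106583 : W_40 (nat_lit 8) (nat_lit 0x17000b000000004000200010001c0000000000000000000000000000000) (nat_lit 0x0) (nat_lit 0x280014001b8008c00060002000000000000000000000000000000000000000000000000) := T_40 (nat_lit 227) (nat_lit 226) (nat_lit 2) (nat_lit 5) (nat_lit 13) L106582 (by decide +kernel)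
theorem L106584 : W_40 (nat_lit 9) (nat_lit 0x16000b000000004000200010001c0000000000000000000000000000000) (nat_lit 0x0) (nat_lit 0x280014001b8009c00460002000000000000000000000000000000000000000000000000) := T_40 (nat_lit 228) (nat_lit 214) (nat_lit 1) (nat_lit 11) (nat_lit 12) L106583 (by decide +kernel)
theorem L106585 : W_40 (nat_lit 10) (nat_lit 0x16000a000000004000200010001c0000000000000000000000000000000) (nat_lit 0x0) (nat_lit 0x280014001b8009c0056000a000000000000000000000000000000000000000000000000) := T_40 (nat_lit 212) (nat_lit 195) (nat_lit 7) (nat_lit 8) (nat_lit 9) L106584 (by decide +kernel)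
theorem L106586 : W_40 (nat_lit 11) (nat_lit 0x16000a000000004000200010000c0000000000000000000000000000000) (nat_lit 0x0) (nat_lit 0x280014001b8009c0056000a000000000000000100008000000000000000000000000000) := T_40 (nat_lit 128) (nat_lit 111) (nat_lit 6) (nat_lit 8) (nat_lit 10) L106585 (by decide +kernel)
theorem L106587 : W_40 (nat_lit 12) (nat_lit 0x16000a00000000400020001000080000000000000000000000000000000) (nat_lit 0x0) (nat_lit 0x280014001b8009c0056000a00000000000000014000a000000000000000000000000000) := T_40 (nat_lit 126) (nat_lit 109) (nat_lit 4) (nat_lit 8) (nat_lit 10) L106586 (by decide +kernel)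
theorem L106588 : W_40 (nat_lit 13) (nat_lit 0x14000a00000000400020001000080000000000000000000000000000000) (nat_lit 0x0) (nat_lit 0x280034007f800bc0156004a00200000000000014000a000000000000000000000000000) := Q_40 (nat_lit 229) (C_40 L105367 (C_40 L105041 (C_40 L105345 (C_40 L105030 (C_40 L106587 N_40))))) (by decide +kernel)
theorem L106589 : W_40 (nat_lit 11) (nat_lit 0x16000a00000000400020001000080000000000000000000000000000000) (nat_lit 0x0) (nat_lit 0x38003c007e000800110000c000200000000000100008000000000000000000000000000) := T_40 (nat_lit 231) (nat_lit 216) (nat_lit 2) (nat_lit 8) (nat_lit 13) L106234 (by decide +kernel)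
theorem L106590 : W_40 (nat_lit 2) (nat_lit 0x600016000a000400004000200010000c0000000000000000000000000000000) (nat_lit 0x0) (nat_lit 0x2000180000000000000000000000000000000000000000000000000000000000000) := D_40 (nat_lit 248) (nat_lit 247) (nat_lit 265) (nat_lit 0) (nat_lit 12) (nat_lit 14) (nat_lit 5) (nat_lit 11) (nat_lit 11) (by decide +kernel)
theorem L106591 : W_40 (nat_lit 3) (nat_lit 0x600014000a000400004000200010000c0000000000000000000000000000000) (nat_lit 0x0) (nat_lit 0x200018000a000000000000000000000000000000000000000000000000000000000) := T_40 (nat_lit 229) (nat_lit 231) (nat_lit 3) (nat_lit 8) (nat_lit 13) L106590 (by decide +kernel)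
theorem L106592 : W_40 (nat_lit 4) (nat_lit 0x200014000a000400004000200010000c0000000000000000000000000000000) (nat_lit 0x0) (nat_lit 0xa00058000a000000000000000000000000000000000000000000000000000000000) := T_40 (nat_lit 250) (nat_lit 267) (nat_lit 7) (nat_lit 11) (nat_lit 11) L106591 (by decide +kernel)
theorem L106593 : W_40 (nat_lit 5) (nat_lit 0x200014000a00040000400020001000080000000000000000000000000000000) (nat_lit 0x0) (nat_lit 0xa00058000a000000000000000000000000040002000000000000000000000000000) := T_40 (nat_lit 126) (nat_lit 109) (nat_lit 4) (nat_lit 8) (nat_lit 10) L106592 (by decide +kernel)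
theorem L106594 : W_40 (nat_lit 7) (nat_lit 0x14000a00040000400020001000080000000000000000000000000000000) (nat_lit 0x0) (nat_lit 0x14000e000f8000a0010000a0007000000000000100008000000000000000000000000000) := Q_40 (nat_lit 249) (C_40 L106538 (C_40 L106397 (C_40 L105456 (C_40 L104999 N_40)))) (by decide +kernel)
theorem L106595 : W_40 (nat_lit 6) (nat_lit 0x14000a00040000400020001000080000000000000000000000000000000) (nat_lit 0x0) (nat_lit 0x14000e00078000a00100008400420000000000014000a000000000000000000000000000) := Q_40 (nat_lit 249) (C_40 L105566 (C_40 L106593 (C_40 L104999 N_40))) (by decide +kernel)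
theorem L106596 : W_40 (nat_lit 9) (nat_lit 0x14000a00040000400020001000080000000000000000000000000000000) (nat_lit 0x0) (nat_lit 0xa000f8000a0000000240033801d000000014000a000000000000000000000000000) := Q_40 (nat_lit 249) (C_40 L105656 (C_40 L106593 (C_40 L105456 N_40))) (by decide +kernel)
theorem L106597 : W_40 (nat_lit 10) (nat_lit 0x14000a00000000400020001000080000000000000000000000000000000) (nat_lit 0x0) (nat_lit 0x14000e000f8000a0010000e40073803d000c00074003a000000000000000000000000000) := Q_40 (nat_lit 198) (C_40 L105641 (C_40 L106405 (C_40 L106594 (C_40 L106595 (C_40 L106596 N_40))))) (by decide +kernel)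
theorem L106598 : W_40 (nat_lit 13) (nat_lit 0x14000a00000000400020001000080000000000000000000000000000000) (nat_lit 0x0) (nat_lit 0x78003c007f800bc0156004e00020000000000014000a000000000000000000000000000) := Q_40 (nat_lit 229) (C_40 L106589 (C_40 L106575 (C_40 L105669 (C_40 L106587 (C_40 L105367 N_40))))) (by decide +kernel)
theorem L106599 : W_40 (nat_lit 13) (nat_lit 0x14000a00000000400020001000080000000000000000000000000000000) (nat_lit 0x0) (nat_lit 0x78003c007f800bc0150000c00020000000000014000a000000000000000000000000000) := Q_40 (nat_lit 229) (C_40 L106575 (C_40 L106589 (C_40 L105041 (C_40 L105367 N_40)))) (by decide +kernel)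
theorem L106600 : W_40 (nat_lit 13) (nat_lit 0x14000a00000000400020001000080000000000000000000000000000000) (nat_lit 0x0) (nat_lit 0x14000e000f8000a00e5003e403f3803d001c000f4003a000000000000000000000000000) := Q_40 (nat_lit 198) (C_40 L106596 (C_40 L106113 (C_40 L106405 (C_40 L106114 (C_40 L105492 (C_40 L106417 (C_40 L105641 N_40))))))) (by decide +kernel)
theorem L106601 : W_40 (nat_lit 8) (nat_lit 0x1e000b00000000600020001000180000000000000000000000000000000) (nat_lit 0x0) (nat_lit 0x70001c000600020001801d0000000000000000000000000000000000000000) := T_40 (nat_lit 245) (nat_lit 246) (nat_lit 1) (nat_lit 11) (nat_lit 13) L106306 (by decide +kernel)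
theorem L106602 : W_40 (nat_lit 9) (nat_lit 0x16000b00000000600020001000180000000000000000000000000000000) (nat_lit 0x0) (nat_lit 0x70009c010600020001801d0000000000000000000000000000000000000000) := T_40 (nat_lit 231) (nat_lit 216) (nat_lit 2) (nat_lit 8) (nat_lit 13) L106601 (by decide +kernel)
theorem L106603 : W_40 (nat_lit 10) (nat_lit 0x16000b00000000600020001000080000000000000000000000000000000) (nat_lit 0x0) (nat_lit 0x70009c010600020001801d0000000100008000000000000000000000000000) := T_40 (nat_lit 128) (nat_lit 111) (nat_lit 6) (nat_lit 8) (nat_lit 10) L106602 (by decide +kernel)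
theorem L106604 : W_40 (nat_lit 11) (nat_lit 0x16000a00000000600020001000080000000000000000000000000000000) (nat_lit 0x0) (nat_lit 0x70009c0116000a0001801d0000000100008000000000000000000000000000) := T_40 (nat_lit 212) (nat_lit 195) (nat_lit 7) (nat_lit 8) (nat_lit 9) L106603 (by decide +kernel)
theorem L106605 : W_40 (nat_lit 12) (nat_lit 0x16000a00000000400020001000080000000000000000000000000000000) (nat_lit 0x0) (nat_lit 0x70009c0116000e0003801d0000000100008000000000000000000000000000) := T_40 (nat_lit 177) (nat_lit 194) (nat_lit 5) (nat_lit 8) (nat_lit 7) L106604 (by decide +kernel)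
theorem L106606 : W_40 (nat_lit 2) (nat_lit 0x30017800b400000006000200010001c0000000000000000000000000000000) (nat_lit 0x0) (nat_lit 0x8000400000000000000002000000000000000000000000000000000000000000000000) := D_40 (nat_lit 262) (nat_lit 279) (nat_lit 193) (nat_lit 6) (nat_lit 7) (nat_lit 16) (nat_lit 7) (nat_lit 6) (nat_lit 11) (by decide +kernel)
theorem L106607 : W_40 (nat_lit 3) (nat_lit 0x10017800b400000006000200010001c0000000000000000000000000000000) (nat_lit 0x0) (nat_lit 0x8000400020008000000002000000000000000000000000000000000000000000000000) := T_40 (nat_lit 245) (nat_lit 231) (nat_lit 1) (nat_lit 10) (nat_lit 13) L106606 (by decide +kernel)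
theorem L106608 : W_40 (nat_lit 4) (nat_lit 0x17800b400000006000200010001c0000000000000000000000000000000) (nat_lit 0x0) (nat_lit 0x8000400038008000000002000000000000000000000000000000000000000000000000) := T_40 (nat_lit 244) (nat_lit 243) (nat_lit 1) (nat_lit 9) (nat_lit 13) L106607 (by decide +kernel)
theorem L106609 : W_40 (nat_lit 5) (nat_lit 0x17800b000000006000200010001c0000000000000000000000000000000) (nat_lit 0x0) (nat_lit 0x8000400038008000060002000000000000000000000000000000000000000000000000) := T_40 (nat_lit 210) (nat_lit 209) (nat_lit 0) (nat_lit 9) (nat_lit 13) L106608 (by decide +kernel)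
theorem L106610 : W_40 (nat_lit 6) (nat_lit 0x17000b000000006000200010001c0000000000000000000000000000000) (nat_lit 0x0) (nat_lit 0x8000400038008c00060002000000000000000000000000000000000000000000000000) := T_40 (nat_lit 227) (nat_lit 226) (nat_lit 2) (nat_lit 5) (nat_lit 13) L106609 (by decide +kernel)
theorem L106611 : W_40 (nat_lit 7) (nat_lit 0x17000b000000004000200010001c0000000000000000000000000000000) (nat_lit 0x0) (nat_lit 0x8000400038008c00060006000200000000000000000000000000000000000000000000) := T_40 (nat_lit 177) (nat_lit 194) (nat_lit 5) (nat_lit 8) (nat_lit 7) L106610 (by decide +kernel)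
theorem L106612 : W_40 (nat_lit 8) (nat_lit 0x16000b000000004000200010001c0000000000000000000000000000000) (nat_lit 0x0) (nat_lit 0x8000400038009c00460006000200000000000000000000000000000000000000000000) := T_40 (nat_lit 228) (nat_lit 214) (nat_lit 1) (nat_lit 11) (nat_lit 12) L106611 (by decide +kernel)
theorem L106613 : W_40 (nat_lit 9) (nat_lit 0x16000b000000004000200010000c0000000000000000000000000000000) (nat_lit 0x0) (nat_lit 0x8000400038009c00460006000200000000000100008000000000000000000000000000) := T_40 (nat_lit 128) (nat_lit 111) (nat_lit 6) (nat_lit 8) (nat_lit 10) L106612 (by decide +kernel)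
theorem L106614 : W_40 (nat_lit 10) (nat_lit 0x16000a000000004000200010000c0000000000000000000000000000000) (nat_lit 0x0) (nat_lit 0x8000400038009c0056000e000200000000000100008000000000000000000000000000) := T_40 (nat_lit 212) (nat_lit 195) (nat_lit 7) (nat_lit 8) (nat_lit 9) L106613 (by decide +kernel)
theorem L106615 : W_40 (nat_lit 11) (nat_lit 0x16000a00000000400020001000080000000000000000000000000000000) (nat_lit 0x0) (nat_lit 0x8000400038009c0056000e00020000000000014000a000000000000000000000000000) := T_40 (nat_lit 126) (nat_lit 109) (nat_lit 4) (nat_lit 8) (nat_lit 10) L106614 (by decide +kernel)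
theorem L106616 : W_40 (nat_lit 13) (nat_lit 0x14000a00000000400020001000080000000000000000000000000000000) (nat_lit 0x0) (nat_lit 0x800040007800bc0156000e0003801d000000014000a000000000000000000000000000) := Q_40 (nat_lit 229) (C_40 L105030 (C_40 L105367 (C_40 L106605 (C_40 L106615 N_40)))) (by decide +kernel)
theorem L106617 : W_40 (nat_lit 14) (nat_lit 0x14000200000000400020001000080000000000000000000000000000000) (nat_lit 0x0) (nat_lit 0x1f801fc00ff800bc0fd603ee03f3803d001c000f4003a000000000000000000000000000) := Q_40 (nat_lit 215) (C_40 L106515 (C_40 L106550 (C_40 L106570 (C_40 L106576 (C_40 L106485 (C_40 L106588 (C_40 L106597 (C_40 L106598 (C_40 L106599 (C_40 L106600 (C_40 L106616 N_40))))))))))) (by decide +kernel)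
theorem L106618 : W_40 (nat_lit 13) (nat_lit 0x1c000200000000400020001000080000000000000000000000000000000) (nat_lit 0x0) (nat_lit 0x1f800fc006f0003c01d600ee0033801d000000014000a000000000000000000000000000) := Q_40 (nat_lit 229) (C_40 L105964 (C_40 L106323 (C_40 L106311 (C_40 L104814 (C_40 L106275 N_40))))) (by decide +kernel)
theorem L106619 : W_40 (nat_lit 14) (nat_lit 0x14000200000000400020001000080000000000000000000000000000000) (nat_lit 0x0) (nat_lit 0x1f800fc01ef006bc07d600ee0033801d000000014000a000000000000000000000000000) := Q_40 (nat_lit 231) (C_40 L106325 (C_40 L105754 (C_40 L106618 N_40))) (by decide +kernel)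
theorem L106620 : W_40 (nat_lit 13) (nat_lit 0x1c000200000000400020001000080000000000000000000000000000000) (nat_lit 0x0) (nat_lit 0x7f003f001fc003c01d600ce0023801d000000014000a000000000000000000000000000) := Q_40 (nat_lit 229) (C_40 L104814 (C_40 L106332 (C_40 L106286 (C_40 L106311 (C_40 L106323 N_40))))) (by decide +kernel)
theorem L106621 : W_40 (nat_lit 14) (nat_lit 0x14000200000000400020001000080000000000000000000000000000000) (nat_lit 0x0) (nat_lit 0x7f00bf00dfc06bc03d600ce0023801d000000014000a000000000000000000000000000) := Q_40 (nat_lit 231) (C_40 L106325 (C_40 L104250 (C_40 L106620 N_40))) (by decide +kernel)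
theorem L106622 : W_40 (nat_lit 13) (nat_lit 0x1c000200000000400020001000080000000000000000000000000000000) (nat_lit 0x0) (nat_lit 0x8000400077c003c01d600ee0033801d000000014000a000000000000000000000000000) := Q_40 (nat_lit 229) (C_40 L105964 (C_40 L106332 (C_40 L105948 (C_40 L106227 (C_40 L106311 N_40))))) (by decide +kernel)
theorem L106623 : W_40 (nat_lit 14) (nat_lit 0x14000200000000400020001000080000000000000000000000000000000) (nat_lit 0x0) (nat_lit 0x18000c001f7c06bc07d600ee0033801d000000014000a000000000000000000000000000) := Q_40 (nat_lit 231) (C_40 L106325 (C_40 L105754 (C_40 L106622 N_40))) (by decide +kernel)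
theorem L106624 : W_40 (nat_lit 4) (nat_lit 0x3c000200000000400020001000080000000000000000000000000000000) (nat_lit 0x0) (nat_lit 0x40007400004000200000000000000000000000000000000000000000000) := T_40 (nat_lit 177) (nat_lit 194) (nat_lit 5) (nat_lit 8) (nat_lit 7) L104426 (by decide +kernel)
theorem L106625 : W_40 (nat_lit 6) (nat_lit 0x1c000200000000400020001000080000000000000000000000000000000) (nat_lit 0x0) (nat_lit 0x1e0062007c00004000200000000000000000000000000000000000000000000) := Q_40 (nat_lit 233) (C_40 L104236 (C_40 L104232 (C_40 L106624 N_40))) (by decide +kernel)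
theorem L106626 : W_40 (nat_lit 14) (nat_lit 0x14000200000000400020001000080000000000000000000000000000000) (nat_lit 0x0) (nat_lit 0x7f003f001fc06bc07d600ce0023801d000000014000a000000000000000000000000000) := Q_40 (nat_lit 231) (C_40 L106325 (C_40 L106620 (C_40 L106625 N_40))) (by decide +kernel)
theorem L106627 : W_40 (nat_lit 15) (nat_lit 0x4000200000000400020001000080000000000000000000000000000000) (nat_lit 0x0) (nat_lit 0x3ff07ff03ffc1fbc0fd607ee03f3807d001c000f4003a000000000000000000000000000) := Q_40 (nat_lit 232) (C_40 L106334 (C_40 L106335 (C_40 L106336 (C_40 L106495 (C_40 L106516 (C_40 L106517 (C_40 L106518 (C_40 L106519 (C_40 L106520 (C_40 L106551 (C_40 L106552 (C_40 L106617 (C_40 L106619 (C_40 L106621 (C_40 L106623 (C_40 L106626 N_40)))))))))))))))) (by decide +kernel)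
theorem L106628 : W_40 (nat_lit 16) (nat_lit 0x200000000400020001000080000000000000000000000000000000) (nat_lit 0x0) (nat_lit 0x3ff07ff03ffc1ffc0fd707ff03f3c07d701c000f4003a000000000000000000000000000) := Q_40 (nat_lit 230) (C_40 L104143 (C_40 L104479 (C_40 L106202 (C_40 L106627 N_40)))) (by decide +kernel)
theorem L106629 : W_40 (nat_lit 2) (nat_lit 0xf000400014000a00010000c0000000000000000000000000000000) (nat_lit 0x0) (nat_lit 0x30000000000002000000000000000000000000000000000000000000000) := D_40 (nat_lit 232) (nat_lit 233) (nat_lit 181) (nat_lit 3) (nat_lit 8) (nat_lit 12) (nat_lit 4) (nat_lit 11) (nat_lit 13) (by decide +kernel)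
theorem L106630 : W_40 (nat_lit 3) (nat_lit 0xf000000014000a00010000c0000000000000000000000000000000) (nat_lit 0x0) (nat_lit 0x300000000c0002000000000000000000000000000000000000000000000) := T_40 (nat_lit 198) (nat_lit 199) (nat_lit 2) (nat_lit 8) (nat_lit 12) L106629 (by decide +kernel)
theorem L106631 : W_40 (nat_lit 4) (nat_lit 0xf000000014000a0001000080000000000000000000000000000000) (nat_lit 0x0) (nat_lit 0x300000000c0002000000000000040002000000000000000000000000000) := T_40 (nat_lit 126) (nat_lit 109) (nat_lit 4) (nat_lit 8) (nat_lit 10) L106630 (by decide +kernel)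
theorem L106632 : W_40 (nat_lit 2) (nat_lit 0xf000000014000a0001000080000000000000000000000000000000) (nat_lit 0x0) (nat_lit 0x30000000020000000000000000000000000000000000000000000000000) := D_40 (nat_lit 232) (nat_lit 197) (nat_lit 233) (nat_lit 7) (nat_lit 10) (nat_lit 9) (nat_lit 3) (nat_lit 8) (nat_lit 12) (by decide +kernel)
theorem L106633 : W_40 (nat_lit 2) (nat_lit 0xf000400014000a0001000080000000000000000000000000000000) (nat_lit 0x0) (nat_lit 0x10000000020000000000004000000000000000000000000000000000000) := D_40 (nat_lit 197) (nat_lit 232) (nat_lit 146) (nat_lit 7) (nat_lit 10) (nat_lit 9) (nat_lit 7) (nat_lit 10) (nat_lit 8) (by decide +kernel)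
theorem L106634 : W_40 (nat_lit 3) (nat_lit 0xf000000014000a0001000080000000000000000000000000000000) (nat_lit 0x0) (nat_lit 0x100000000e0000000000004000000000000000000000000000000000000) := T_40 (nat_lit 198) (nat_lit 199) (nat_lit 2) (nat_lit 8) (nat_lit 12) L106633 (by decide +kernel)
theorem L106635 : W_40 (nat_lit 2) (nat_lit 0x92003f001000014000a0001000180000000000000000000000000000000) (nat_lit 0x0) (nat_lit 0x108004000000000000000000000000000000000000000000000000000000) := D_40 (nat_lit 218) (nat_lit 231) (nat_lit 236) (nat_lit 1) (nat_lit 14) (nat_lit 12) (nat_lit 3) (nat_lit 11) (nat_lit 12) (by decide +kernel)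
theorem L106636 : W_40 (nat_lit 3) (nat_lit 0x12003f001000014000a0001000180000000000000000000000000000000) (nat_lit 0x0) (nat_lit 0x1c8004000000000000000000000000000000000000000000000000000000) := T_40 (nat_lit 235) (nat_lit 234) (nat_lit 3) (nat_lit 10) (nat_lit 12) L106635 (by decide +kernel)
theorem L106637 : W_40 (nat_lit 4) (nat_lit 0x12001f001000014000a0001000180000000000000000000000000000000) (nat_lit 0x0) (nat_lit 0x1c8006000200000000000000000000000000000000000000000000000000) := T_40 (nat_lit 217) (nat_lit 201) (nat_lit 2) (nat_lit 10) (nat_lit 12) L106636 (by decide +kernel)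
theorem L106638 : W_40 (nat_lit 5) (nat_lit 0x12001f000000014000a0001000180000000000000000000000000000000) (nat_lit 0x0) (nat_lit 0x1c8006000380000000000000000000000000000000000000000000000000) := T_40 (nat_lit 200) (nat_lit 199) (nat_lit 2) (nat_lit 9) (nat_lit 12) L106637 (by decide +kernel)
theorem L106639 : W_40 (nat_lit 6) (nat_lit 0x12000f000000014000a0001000180000000000000000000000000000000) (nat_lit 0x0) (nat_lit 0x1cc007000380000000000000000000000000000000000000000000000000) := T_40 (nat_lit 216) (nat_lit 230) (nat_lit 1) (nat_lit 12) (nat_lit 12) L106638 (by decide +kernel)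
theorem L106640 : W_40 (nat_lit 7) (nat_lit 0x10000f000000014000a0001000180000000000000000000000000000000) (nat_lit 0x0) (nat_lit 0x1cf007000380000000000000000000000000000000000000000000000000) := T_40 (nat_lit 229) (nat_lit 228) (nat_lit 1) (nat_lit 11) (nat_lit 12) L106639 (by decide +kernel)
theorem L106641 : W_40 (nat_lit 8) (nat_lit 0xf000000014000a0001000180000000000000000000000000000000) (nat_lit 0x0) (nat_lit 0x1ff007000380000000000000000000000000000000000000000000000000) := T_40 (nat_lit 232) (nat_lit 233) (nat_lit 3) (nat_lit 8) (nat_lit 12) L106640 (by decide +kernel)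
theorem L106642 : W_40 (nat_lit 9) (nat_lit 0xf000000014000a0001000080000000000000000000000000000000) (nat_lit 0x0) (nat_lit 0x1ff007000380000000000000000100008000000000000000000000000000) := T_40 (nat_lit 128) (nat_lit 111) (nat_lit 6) (nat_lit 8) (nat_lit 10) L106641 (by decide +kernel)
theorem L106643 : W_40 (nat_lit 2) (nat_lit 0x2001f000000014000a00010000c0000000000000000000000000000000) (nat_lit 0x0) (nat_lit 0x70000000000000000000000000000000000000000000000000000000000) := D_40 (nat_lit 233) (nat_lit 232) (nat_lit 234) (nat_lit 3) (nat_lit 8) (nat_lit 12) (nat_lit 3) (nat_lit 9) (nat_lit 12) (by decide +kernel)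
theorem L106644 : W_40 (nat_lit 3) (nat_lit 0x2000f000000014000a00010000c0000000000000000000000000000000) (nat_lit 0x0) (nat_lit 0x74001000000000000000000000000000000000000000000000000000000) := T_40 (nat_lit 216) (nat_lit 230) (nat_lit 1) (nat_lit 12) (nat_lit 12) L106643 (by decide +kernel)
theorem L106645 : W_40 (nat_lit 4) (nat_lit 0x2000f000000014000a0001000080000000000000000000000000000000) (nat_lit 0x0) (nat_lit 0x74001000000000000000000000040002000000000000000000000000000) := T_40 (nat_lit 126) (nat_lit 109) (nat_lit 4) (nat_lit 8) (nat_lit 10) L106644 (by decide +kernel)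
theorem L106646 : W_40 (nat_lit 5) (nat_lit 0xf000000014000a0001000080000000000000000000000000000000) (nat_lit 0x0) (nat_lit 0x77001000000000000000000000040002000000000000000000000000000) := T_40 (nat_lit 229) (nat_lit 228) (nat_lit 1) (nat_lit 11) (nat_lit 12) L106645 (by decide +kernel)
theorem L106647 : W_40 (nat_lit 2) (nat_lit 0x20001f000000014000280010000c0000000000000000000000000000000) (nat_lit 0x0) (nat_lit 0x1c0000000000000000000000000000000000000000000000000) := D_40 (nat_lit 199) (nat_lit 198) (nat_lit 200) (nat_lit 2) (nat_lit 8) (nat_lit 12) (nat_lit 2) (nat_lit 9) (nat_lit 12) (by decide +kernel)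
theorem L106648 : W_40 (nat_lit 3) (nat_lit 0x20000f000000014000280010000c0000000000000000000000000000000) (nat_lit 0x0) (nat_lit 0x400010001c0000000000000000000000000000000000000000000000000) := T_40 (nat_lit 216) (nat_lit 234) (nat_lit 3) (nat_lit 9) (nat_lit 12) L106647 (by decide +kernel)
theorem L106649 : W_40 (nat_lit 4) (nat_lit 0x20000f00000001400028001000080000000000000000000000000000000) (nat_lit 0x0) (nat_lit 0x400010001c0000000000000000040002000000000000000000000000000) := T_40 (nat_lit 126) (nat_lit 109) (nat_lit 4) (nat_lit 8) (nat_lit 10) L106648 (by decide +kernel)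
theorem L106650 : W_40 (nat_lit 5) (nat_lit 0xf00000001400028001000080000000000000000000000000000000) (nat_lit 0x0) (nat_lit 0x700010001c0000000000000000040002000000000000000000000000000) := T_40 (nat_lit 233) (nat_lit 232) (nat_lit 3) (nat_lit 8) (nat_lit 12) L106649 (by decide +kernel)
theorem L106651 : W_40 (nat_lit 2) (nat_lit 0x1f000800014000a0001000180000000000000000000000000000000) (nat_lit 0x0) (nat_lit 0x70000000000000000000000000000000000000000000000000000000000) := D_40 (nat_lit 233) (nat_lit 234) (nat_lit 232) (nat_lit 3) (nat_lit 9) (nat_lit 12) (nat_lit 3) (nat_lit 8) (nat_lit 12) (by decide +kernel)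
theorem L106652 : W_40 (nat_lit 3) (nat_lit 0xf000800014000a0001000180000000000000000000000000000000) (nat_lit 0x0) (nat_lit 0x70001000100000000000000000000000000000000000000000000000000) := T_40 (nat_lit 216) (nat_lit 200) (nat_lit 2) (nat_lit 9) (nat_lit 12) L106651 (by decide +kernel)
theorem L106653 : W_40 (nat_lit 4) (nat_lit 0xf000800014000a0001000080000000000000000000000000000000) (nat_lit 0x0) (nat_lit 0x70001000100000000000000000100008000000000000000000000000000) := T_40 (nat_lit 128) (nat_lit 111) (nat_lit 6) (nat_lit 8) (nat_lit 10) L106652 (by decide +kernel)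
theorem L106654 : W_40 (nat_lit 5) (nat_lit 0xf000000014000a0001000080000000000000000000000000000000) (nat_lit 0x0) (nat_lit 0x700010001c0000000000000000100008000000000000000000000000000) := T_40 (nat_lit 199) (nat_lit 198) (nat_lit 2) (nat_lit 8) (nat_lit 12) L106653 (by decide +kernel)
theorem L106655 : W_40 (nat_lit 2) (nat_lit 0x2000f000800014000a00010001c0000000000000000000000000000000) (nat_lit 0x0) (nat_lit 0x4001000100000000000000000000000000000000000000000000000000) := D_40 (nat_lit 216) (nat_lit 200) (nat_lit 230) (nat_lit 2) (nat_lit 9) (nat_lit 12) (nat_lit 1) (nat_lit 12) (nat_lit 12) (by decide +kernel)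
theorem L106656 : W_40 (nat_lit 3) (nat_lit 0xf000800014000a00010001c0000000000000000000000000000000) (nat_lit 0x0) (nat_lit 0x7001000100000000000000000000000000000000000000000000000000) := T_40 (nat_lit 229) (nat_lit 228) (nat_lit 1) (nat_lit 11) (nat_lit 12) L106655 (by decide +kernel)
theorem L106657 : W_40 (nat_lit 4) (nat_lit 0xf000000014000a00010001c0000000000000000000000000000000) (nat_lit 0x0) (nat_lit 0x70010001c0000000000000000000000000000000000000000000000000) := T_40 (nat_lit 199) (nat_lit 198) (nat_lit 2) (nat_lit 8) (nat_lit 12) L106656 (by decide +kernel)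
theorem L106658 : W_40 (nat_lit 5) (nat_lit 0xf000000014000a00010000c0000000000000000000000000000000) (nat_lit 0x0) (nat_lit 0x70010001c0000000000000000100008000000000000000000000000000) := T_40 (nat_lit 128) (nat_lit 111) (nat_lit 6) (nat_lit 8) (nat_lit 10) L106657 (by decide +kernel)
theorem L106659 : W_40 (nat_lit 6) (nat_lit 0xf000000014000a0001000080000000000000000000000000000000) (nat_lit 0x0) (nat_lit 0x70010001c000000000000000014000a000000000000000000000000000) := T_40 (nat_lit 126) (nat_lit 109) (nat_lit 4) (nat_lit 8) (nat_lit 10) L106658 (by decide +kernel)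
theorem L106660 : W_40 (nat_lit 2) (nat_lit 0x2001f00000001400028001000180000000000000000000000000000000) (nat_lit 0x0) (nat_lit 0x70000000000000000000000000000000000000000000000000000000000) := D_40 (nat_lit 233) (nat_lit 232) (nat_lit 234) (nat_lit 3) (nat_lit 8) (nat_lit 12) (nat_lit 3) (nat_lit 9) (nat_lit 12) (by decide +kernel)
theorem L106661 : W_40 (nat_lit 3) (nat_lit 0x2000f00000001400028001000180000000000000000000000000000000) (nat_lit 0x0) (nat_lit 0x74001000000000000000000000000000000000000000000000000000000) := T_40 (nat_lit 216) (nat_lit 230) (nat_lit 1) (nat_lit 12) (nat_lit 12) L106660 (by decide +kernel)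
theorem L106662 : W_40 (nat_lit 4) (nat_lit 0x2000f00000001400028001000080000000000000000000000000000000) (nat_lit 0x0) (nat_lit 0x74001000000000000000000000100008000000000000000000000000000) := T_40 (nat_lit 128) (nat_lit 111) (nat_lit 6) (nat_lit 8) (nat_lit 10) L106661 (by decide +kernel)
theorem L106663 : W_40 (nat_lit 5) (nat_lit 0xf00000001400028001000080000000000000000000000000000000) (nat_lit 0x0) (nat_lit 0x77001000000000000000000000100008000000000000000000000000000) := T_40 (nat_lit 229) (nat_lit 228) (nat_lit 1) (nat_lit 11) (nat_lit 12) L106662 (by decide +kernel)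
theorem L106664 : W_40 (nat_lit 2) (nat_lit 0x2001f000000014000280010000c0000000000000000000000000000000) (nat_lit 0x0) (nat_lit 0x1c0000000000000000000000000000000000000000000000000) := D_40 (nat_lit 199) (nat_lit 198) (nat_lit 200) (nat_lit 2) (nat_lit 8) (nat_lit 12) (nat_lit 2) (nat_lit 9) (nat_lit 12) (by decide +kernel)
theorem L106665 : W_40 (nat_lit 3) (nat_lit 0x2000f000000014000280010000c0000000000000000000000000000000) (nat_lit 0x0) (nat_lit 0x40010001c0000000000000000000000000000000000000000000000000) := T_40 (nat_lit 216) (nat_lit 230) (nat_lit 1) (nat_lit 12) (nat_lit 12) L106664 (by decide +kernel)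
theorem L106666 : W_40 (nat_lit 4) (nat_lit 0x2000f00000001400028001000080000000000000000000000000000000) (nat_lit 0x0) (nat_lit 0x40010001c0000000000000000040002000000000000000000000000000) := T_40 (nat_lit 126) (nat_lit 109) (nat_lit 4) (nat_lit 8) (nat_lit 10) L106665 (by decide +kernel)
theorem L106667 : W_40 (nat_lit 5) (nat_lit 0xf00000001400028001000080000000000000000000000000000000) (nat_lit 0x0) (nat_lit 0x70010001c0000000000000000040002000000000000000000000000000) := T_40 (nat_lit 229) (nat_lit 228) (nat_lit 1) (nat_lit 11) (nat_lit 12) L106666 (by decide +kernel)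
theorem L106668 : W_40 (nat_lit 2) (nat_lit 0x600016000f000400014000280010000c0000000000000000000000000000000) (nat_lit 0x0) (nat_lit 0x2000180000000000000000000000000000000000000000000000000000000000000) := D_40 (nat_lit 248) (nat_lit 247) (nat_lit 265) (nat_lit 0) (nat_lit 12) (nat_lit 14) (nat_lit 5) (nat_lit 11) (nat_lit 11) (by decide +kernel)
theorem L106669 : W_40 (nat_lit 3) (nat_lit 0x600012000f000400014000280010000c0000000000000000000000000000000) (nat_lit 0x0) (nat_lit 0x200018000c000000000000000000000000000000000000000000000000000000000) := T_40 (nat_lit 230) (nat_lit 231) (nat_lit 3) (nat_lit 8) (nat_lit 13) L106668 (by decide +kernel)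
theorem L106670 : W_40 (nat_lit 4) (nat_lit 0x200012000f000400014000280010000c0000000000000000000000000000000) (nat_lit 0x0) (nat_lit 0xa00058000c000000000000000000000000000000000000000000000000000000000) := T_40 (nat_lit 250) (nat_lit 267) (nat_lit 7) (nat_lit 11) (nat_lit 11) L106669 (by decide +kernel)
theorem L106671 : W_40 (nat_lit 5) (nat_lit 0x12000f000400014000280010000c0000000000000000000000000000000) (nat_lit 0x0) (nat_lit 0xa00078000c000000020000000000000000000000000000000000000000000000000) := T_40 (nat_lit 249) (nat_lit 197) (nat_lit 4) (nat_lit 11) (nat_lit 14) L106670 (by decide +kernel)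
theorem L106672 : W_40 (nat_lit 6) (nat_lit 0x12000f00040001400028001000080000000000000000000000000000000) (nat_lit 0x0) (nat_lit 0xa00078000c000000020000000000000000040002000000000000000000000000000) := T_40 (nat_lit 126) (nat_lit 109) (nat_lit 4) (nat_lit 8) (nat_lit 10) L106671 (by decide +kernel)
theorem L106673 : W_40 (nat_lit 7) (nat_lit 0x2000f00040001400028001000080000000000000000000000000000000) (nat_lit 0x0) (nat_lit 0xa00078003c000000020000000000000000040002000000000000000000000000000) := T_40 (nat_lit 232) (nat_lit 233) (nat_lit 3) (nat_lit 8) (nat_lit 12) L106672 (by decide +kernel)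
theorem L106674 : W_40 (nat_lit 8) (nat_lit 0xf00040001400028001000080000000000000000000000000000000) (nat_lit 0x0) (nat_lit 0xa00078003f000000020000000000000000040002000000000000000000000000000) := T_40 (nat_lit 229) (nat_lit 228) (nat_lit 1) (nat_lit 11) (nat_lit 12) L106673 (by decide +kernel)
theorem L106675 : W_40 (nat_lit 9) (nat_lit 0xf00000001400028001000080000000000000000000000000000000) (nat_lit 0x0) (nat_lit 0xa00078003f0000000e0000000000000000040002000000000000000000000000000) := T_40 (nat_lit 198) (nat_lit 199) (nat_lit 2) (nat_lit 8) (nat_lit 12) L106674 (by decide +kernel)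
theorem L106676 : W_40 (nat_lit 10) (nat_lit 0x700000001400028001000080000000000000000000000000000000) (nat_lit 0x0) (nat_lit 0xa00078007f0018001e000000000000000014000a000000000000000000000000000) := Q_40 (nat_lit 215) (C_40 L106663 (C_40 L106667 (C_40 L106650 (C_40 L106675 N_40)))) (by decide +kernel)
theorem L106677 : W_40 (nat_lit 2) (nat_lit 0x10000f000200014000280010001c0000000000000000000000000000000) (nat_lit 0x0) (nat_lit 0x4000200008000000000000000000000000000000000000000000000000000000000) := D_40 (nat_lit 249) (nat_lit 231) (nat_lit 266) (nat_lit 7) (nat_lit 10) (nat_lit 10) (nat_lit 4) (nat_lit 11) (nat_lit 15) (by decide +kernel)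
theorem L106678 : W_40 (nat_lit 3) (nat_lit 0x10000f000000014000280010001c0000000000000000000000000000000) (nat_lit 0x0) (nat_lit 0x4000200008000000020000000080000000000000000000000000000000000000000) := T_40 (nat_lit 197) (nat_lit 163) (nat_lit 7) (nat_lit 10) (nat_lit 9) L106677 (by decide +kernel)
theorem L106679 : W_40 (nat_lit 4) (nat_lit 0x10000f000000014000280010000c0000000000000000000000000000000) (nat_lit 0x0) (nat_lit 0x4000200008000000020000000080000000100008000000000000000000000000000) := T_40 (nat_lit 128) (nat_lit 111) (nat_lit 6) (nat_lit 8) (nat_lit 10) L106678 (by decide +kernel)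
theorem L106680 : W_40 (nat_lit 5) (nat_lit 0xf000000014000280010000c0000000000000000000000000000000) (nat_lit 0x0) (nat_lit 0x4000200038000000020000000080000000100008000000000000000000000000000) := T_40 (nat_lit 232) (nat_lit 233) (nat_lit 3) (nat_lit 8) (nat_lit 12) L106679 (by decide +kernel)
theorem L106681 : W_40 (nat_lit 6) (nat_lit 0xf00000001400028001000080000000000000000000000000000000) (nat_lit 0x0) (nat_lit 0x400020003800000002000000008000000014000a000000000000000000000000000) := T_40 (nat_lit 126) (nat_lit 109) (nat_lit 4) (nat_lit 8) (nat_lit 10) L106680 (by decide +kernel)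
theorem L106682 : W_40 (nat_lit 2) (nat_lit 0x10000f00020001400028001000180000000000000000000000000000000) (nat_lit 0x0) (nat_lit 0x2000000000000c0000000000000000000000000000000000000000000000000) := D_40 (nat_lit 198) (nat_lit 199) (nat_lit 249) (nat_lit 2) (nat_lit 8) (nat_lit 12) (nat_lit 4) (nat_lit 11) (nat_lit 14) (by decide +kernel)
theorem L106683 : W_40 (nat_lit 3) (nat_lit 0x10000f00000001400028001000180000000000000000000000000000000) (nat_lit 0x0) (nat_lit 0x2000000000000e0000000080000000000000000000000000000000000000000) := T_40 (nat_lit 197) (nat_lit 163) (nat_lit 7) (nat_lit 10) (nat_lit 9) L106682 (by decide +kernel)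
theorem L106684 : W_40 (nat_lit 2) (nat_lit 0x40007000200014000280010000c0000000000000000000000000000000) (nat_lit 0x0) (nat_lit 0x1000080008000000000000000000000000000000000000000000000000000000000) := D_40 (nat_lit 247) (nat_lit 231) (nat_lit 264) (nat_lit 5) (nat_lit 10) (nat_lit 10) (nat_lit 6) (nat_lit 9) (nat_lit 15) (by decide +kernel)
theorem L106685 : W_40 (nat_lit 2) (nat_lit 0xf000200014000a0001000080000000000000000000000000000000) (nat_lit 0x0) (nat_lit 0xc0000000000004000000000000000000000000000000000000) := D_40 (nat_lit 198) (nat_lit 199) (nat_lit 146) (nat_lit 2) (nat_lit 8) (nat_lit 12) (nat_lit 7) (nat_lit 10) (nat_lit 8) (by decide +kernel)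
theorem L106686 : W_40 (nat_lit 3) (nat_lit 0x7000200014000a0001000080000000000000000000000000000000) (nat_lit 0x0) (nat_lit 0x100008000c0000000000004000000000000000000000000000000000000) := T_40 (nat_lit 215) (nat_lit 232) (nat_lit 7) (nat_lit 10) (nat_lit 9) L106685 (by decide +kernel)
theorem L106687 : W_40 (nat_lit 2) (nat_lit 0x700020001f000280010000c0000000000000000000000000000000) (nat_lit 0x0) (nat_lit 0x8000000000000080040000000000000000000000000000000000000000) := D_40 (nat_lit 162) (nat_lit 231) (nat_lit 175) (nat_lit 4) (nat_lit 10) (nat_lit 13) (nat_lit 2) (nat_lit 5) (nat_lit 10) (by decide +kernel)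
theorem L106688 : W_40 (nat_lit 3) (nat_lit 0x700020001e000280010000c0000000000000000000000000000000) (nat_lit 0x0) (nat_lit 0x8000000000000180044000000000000000000000000000000000000000) := T_40 (nat_lit 176) (nat_lit 158) (nat_lit 0) (nat_lit 9) (nat_lit 10) L106687 (by decide +kernel)
theorem L106689 : W_40 (nat_lit 4) (nat_lit 0x700020001e00028001000080000000000000000000000000000000) (nat_lit 0x0) (nat_lit 0x8000000000000180044000000040002000000000000000000000000000) := T_40 (nat_lit 126) (nat_lit 109) (nat_lit 4) (nat_lit 8) (nat_lit 10) L106688 (by decide +kernel)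
theorem L106690 : W_40 (nat_lit 2) (nat_lit 0x700020001e00068001000180000000000000000000000000000000) (nat_lit 0x0) (nat_lit 0x180004000000000000000000000000000000000000000) := D_40 (nat_lit 176) (nat_lit 158) (nat_lit 175) (nat_lit 0) (nat_lit 9) (nat_lit 10) (nat_lit 2) (nat_lit 5) (nat_lit 10) (by decide +kernel)
theorem L106691 : W_40 (nat_lit 3) (nat_lit 0x700020001e00028001000180000000000000000000000000000000) (nat_lit 0x0) (nat_lit 0x8000000000000180044000000000000000000000000000000000000000) := T_40 (nat_lit 162) (nat_lit 231) (nat_lit 4) (nat_lit 10) (nat_lit 13) L106690 (by decide +kernel)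
theorem L106692 : W_40 (nat_lit 2) (nat_lit 0x3400700048003c001200010001c0000000000000000000000000000000) (nat_lit 0x0) (nat_lit 0x8000000020000000000008000000000000000000000000000000000000) := D_40 (nat_lit 197) (nat_lit 231) (nat_lit 147) (nat_lit 6) (nat_lit 10) (nat_lit 13) (nat_lit 5) (nat_lit 11) (nat_lit 8) (by decide +kernel)
theorem L106693 : W_40 (nat_lit 3) (nat_lit 0x3400300048003c001200010001c0000000000000000000000000000000) (nat_lit 0x0) (nat_lit 0x8000c00020000000000008000000000000000000000000000000000000) := T_40 (nat_lit 214) (nat_lit 215) (nat_lit 1) (nat_lit 11) (nat_lit 12) L106692 (by decide +kernel)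
theorem L106694 : W_40 (nat_lit 4) (nat_lit 0x3000300048003c001200010001c0000000000000000000000000000000) (nat_lit 0x0) (nat_lit 0x8c00c00020000000000008000000000000000000000000000000000000) := T_40 (nat_lit 226) (nat_lit 227) (nat_lit 2) (nat_lit 5) (nat_lit 13) L106693 (by decide +kernel)
theorem L106695 : W_40 (nat_lit 5) (nat_lit 0x2000300048003c001200010001c0000000000000000000000000000000) (nat_lit 0x0) (nat_lit 0x20009c00c00020000000000008000000000000000000000000000000000000) := T_40 (nat_lit 228) (nat_lit 245) (nat_lit 5) (nat_lit 8) (nat_lit 10) L106694 (by decide +kernel)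
theorem L106696 : W_40 (nat_lit 2) (nat_lit 0x7000000014000a0001000080000000000000000000000000000000) (nat_lit 0x0) (nat_lit 0x4000000028000000000000000000000000000000000000000000000000) := D_40 (nat_lit 230) (nat_lit 195) (nat_lit 197) (nat_lit 7) (nat_lit 8) (nat_lit 9) (nat_lit 5) (nat_lit 10) (nat_lit 9) (by decide +kernel)
theorem L106697 : W_40 (nat_lit 2) (nat_lit 0xb000400074000e00110007c0020000000000000000000000000000) (nat_lit 0x0) (nat_lit 0x200020000800000000000000000000000000000000) := D_40 (nat_lit 131) (nat_lit 149) (nat_lit 165) (nat_lit 3) (nat_lit 9) (nat_lit 7) (nat_lit 5) (nat_lit 12) (nat_lit 7) (by decide +kernel)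
theorem L106698 : W_40 (nat_lit 3) (nat_lit 0xb000400074000e00010007c0020000000000000000000000000000) (nat_lit 0x0) (nat_lit 0x200038000800000000000000000000000000000000) := T_40 (nat_lit 148) (nat_lit 147) (nat_lit 3) (nat_lit 8) (nat_lit 7) L106697 (by decide +kernel)
theorem L106699 : W_40 (nat_lit 4) (nat_lit 0xb000400074000e00010003c0020000000000000000000000000000) (nat_lit 0x0) (nat_lit 0x200038000c00040000000000000000000000000000) := T_40 (nat_lit 130) (nat_lit 114) (nat_lit 2) (nat_lit 8) (nat_lit 7) L106698 (by decide +kernel)
theorem L106700 : W_40 (nat_lit 5) (nat_lit 0xb000400034000e00010003c0020000000000000000000000000000) (nat_lit 0x0) (nat_lit 0xc000200038000c00040000000000000000000000000000) := T_40 (nat_lit 182) (nat_lit 183) (nat_lit 0) (nat_lit 13) (nat_lit 10) L106699 (by decide +kernel)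
theorem L106701 : W_40 (nat_lit 6) (nat_lit 0xb000400034000e00010003c0000000000000000000000000000000) (nat_lit 0x0) (nat_lit 0xc000200038000c00070000000000000000000000000000) := T_40 (nat_lit 113) (nat_lit 112) (nat_lit 2) (nat_lit 7) (nat_lit 7) L106700 (by decide +kernel)
theorem L106702 : W_40 (nat_lit 7) (nat_lit 0xb000400034000e0001000380000000000000000000000000000000) (nat_lit 0x0) (nat_lit 0xc000200038000c40072000000000000000000000000000) := T_40 (nat_lit 126) (nat_lit 109) (nat_lit 4) (nat_lit 8) (nat_lit 10) L106701 (by decide +kernel)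
theorem L106703 : W_40 (nat_lit 8) (nat_lit 0xb000400034000a0001000380000000000000000000000000000000) (nat_lit 0x0) (nat_lit 0xc000250038000c40072000000000000000000000000000) := T_40 (nat_lit 162) (nat_lit 160) (nat_lit 3) (nat_lit 7) (nat_lit 9) L106702 (by decide +kernel)
theorem L106704 : W_40 (nat_lit 9) (nat_lit 0xb000400034000a0001000180000000000000000000000000000000) (nat_lit 0x0) (nat_lit 0xc00025003c000e40072000000000000000000000000000) := T_40 (nat_lit 129) (nat_lit 146) (nat_lit 7) (nat_lit 10) (nat_lit 7) L106703 (by decide +kernel)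
theorem L106705 : W_40 (nat_lit 10) (nat_lit 0xb000400034000a0001000080000000000000000000000000000000) (nat_lit 0x0) (nat_lit 0xc00025003c000f4007a000000000000000000000000000) := T_40 (nat_lit 128) (nat_lit 111) (nat_lit 6) (nat_lit 8) (nat_lit 10) L106704 (by decide +kernel)
theorem L106706 : W_40 (nat_lit 11) (nat_lit 0xb000400014000a0001000080000000000000000000000000000000) (nat_lit 0x0) (nat_lit 0x1000000000000e00025003c000f4007a000000000000000000000000000) := T_40 (nat_lit 181) (nat_lit 232) (nat_lit 4) (nat_lit 11) (nat_lit 13) L106705 (by decide +kernel)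
theorem L106707 : W_40 (nat_lit 2) (nat_lit 0x4000300010000b000c00016000a0001000080000000000000000000000000000000) (nat_lit 0x0) (nat_lit 0x100008000400000000000000000000000000000000000000000000000000000000000000) := D_40 (nat_lit 267) (nat_lit 284) (nat_lit 250) (nat_lit 7) (nat_lit 11) (nat_lit 12) (nat_lit 7) (nat_lit 11) (nat_lit 11) (by decide +kernel)
theorem L106708 : W_40 (nat_lit 3) (nat_lit 0x300010000b000c00016000a0001000080000000000000000000000000000000) (nat_lit 0x0) (nat_lit 0x10000c000400000001000000000000000000000000000000000000000000000000000000) := T_40 (nat_lit 266) (nat_lit 216) (nat_lit 6) (nat_lit 11) (nat_lit 15) L106707 (by decide +kernel)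
theorem L106709 : W_40 (nat_lit 4) (nat_lit 0x300010000b000400016000a0001000080000000000000000000000000000000) (nat_lit 0x0) (nat_lit 0x10000c000400000001000080004000000000000000000000000000000000000000000000) := T_40 (nat_lit 199) (nat_lit 182) (nat_lit 6) (nat_lit 11) (nat_lit 14) L106708 (by decide +kernel)
theorem L106710 : W_40 (nat_lit 5) (nat_lit 0x200010000b000400016000a0001000080000000000000000000000000000000) (nat_lit 0x0) (nat_lit 0x10000e000500000001000080004000000000000000000000000000000000000000000000) := T_40 (nat_lit 248) (nat_lit 265) (nat_lit 5) (nat_lit 11) (nat_lit 11) L106709 (by decide +kernel)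
theorem L106711 : W_40 (nat_lit 6) (nat_lit 0x10000b000400016000a0001000080000000000000000000000000000000) (nat_lit 0x0) (nat_lit 0x10000e0007000000010000a0004000000000000000000000000000000000000000000000) := T_40 (nat_lit 249) (nat_lit 197) (nat_lit 4) (nat_lit 11) (nat_lit 14) L106710 (by decide +kernel)
theorem L106712 : W_40 (nat_lit 7) (nat_lit 0xb000400016000a0001000080000000000000000000000000000000) (nat_lit 0x0) (nat_lit 0x10000e0007000100010000a0006000000000000000000000000000000000000000000000) := T_40 (nat_lit 232) (nat_lit 181) (nat_lit 4) (nat_lit 11) (nat_lit 13) L106711 (by decide +kernel)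
theorem L106713 : W_40 (nat_lit 8) (nat_lit 0xb000400014000a0001000080000000000000000000000000000000) (nat_lit 0x0) (nat_lit 0x10000e0007000100010000a4006200000000000000000000000000000000000000000000) := T_40 (nat_lit 177) (nat_lit 194) (nat_lit 5) (nat_lit 8) (nat_lit 7) L106712 (by decide +kernel)
theorem L106714 : W_40 (nat_lit 2) (nat_lit 0xb000400014000a00050003c0000000000000000000000000000000) (nat_lit 0x0) (nat_lit 0x400030000000000000000000000000000) := D_40 (nat_lit 113) (nat_lit 112) (nat_lit 130) (nat_lit 2) (nat_lit 7) (nat_lit 7) (nat_lit 6) (nat_lit 10) (nat_lit 10) (by decide +kernel)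
theorem L106715 : W_40 (nat_lit 3) (nat_lit 0xb000400014000a00050001c0000000000000000000000000000000) (nat_lit 0x0) (nat_lit 0x8000600030000000000000000000000000000) := T_40 (nat_lit 129) (nat_lit 147) (nat_lit 3) (nat_lit 7) (nat_lit 7) L106714 (by decide +kernel)
theorem L106716 : W_40 (nat_lit 4) (nat_lit 0xb000400014000a00010001c0000000000000000000000000000000) (nat_lit 0x0) (nat_lit 0x2000000000000c000600030000000000000000000000000000) := T_40 (nat_lit 146) (nat_lit 197) (nat_lit 7) (nat_lit 10) (nat_lit 8) L106715 (by decide +kernel)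
theorem L106717 : W_40 (nat_lit 5) (nat_lit 0xb000400014000a0001000180000000000000000000000000000000) (nat_lit 0x0) (nat_lit 0x2000000000000c000640032000000000000000000000000000) := T_40 (nat_lit 126) (nat_lit 109) (nat_lit 4) (nat_lit 8) (nat_lit 10) L106716 (by decide +kernel)
theorem L106718 : W_40 (nat_lit 6) (nat_lit 0xb000400014000a0001000080000000000000000000000000000000) (nat_lit 0x0) (nat_lit 0x2000000000000c00074003a000000000000000000000000000) := T_40 (nat_lit 128) (nat_lit 111) (nat_lit 6) (nat_lit 8) (nat_lit 10) L106717 (by decide +kernel)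
theorem L106719 : W_40 (nat_lit 2) (nat_lit 0x2000f000480014000a00010000c0000000000000000000000000000000) (nat_lit 0x0) (nat_lit 0x30000000000002000000000000000000000000000000000000000000000) := D_40 (nat_lit 232) (nat_lit 233) (nat_lit 181) (nat_lit 3) (nat_lit 8) (nat_lit 12) (nat_lit 4) (nat_lit 11) (nat_lit 13) (by decide +kernel)
theorem L106720 : W_40 (nat_lit 3) (nat_lit 0x2000f000080014000a00010000c0000000000000000000000000000000) (nat_lit 0x0) (nat_lit 0x300000000c0002000000000000000000000000000000000000000000000) := T_40 (nat_lit 198) (nat_lit 199) (nat_lit 2) (nat_lit 8) (nat_lit 12) L106719 (by decide +kernel)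
theorem L106721 : W_40 (nat_lit 4) (nat_lit 0xf000080014000a00010000c0000000000000000000000000000000) (nat_lit 0x0) (nat_lit 0x330000000c0002000000000000000000000000000000000000000000000) := T_40 (nat_lit 229) (nat_lit 228) (nat_lit 1) (nat_lit 11) (nat_lit 12) L106720 (by decide +kernel)
theorem L106722 : W_40 (nat_lit 5) (nat_lit 0x7000080014000a00010000c0000000000000000000000000000000) (nat_lit 0x0) (nat_lit 0x330008000c4002000000000000000000000000000000000000000000000) := T_40 (nat_lit 215) (nat_lit 194) (nat_lit 0) (nat_lit 11) (nat_lit 12) L106721 (by decide +kernel)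
theorem L106723 : W_40 (nat_lit 2) (nat_lit 0x200000003c00020001000080000000000000000000000000000000) (nat_lit 0x0) (nat_lit 0xc000200000000000000000000000000000000000000000000) := D_40 (nat_lit 194) (nat_lit 195) (nat_lit 177) (nat_lit 1) (nat_lit 11) (nat_lit 10) (nat_lit 5) (nat_lit 8) (nat_lit 7) (by decide +kernel)
theorem L106724 : W_40 (nat_lit 3) (nat_lit 0x200000001c00020001000080000000000000000000000000000000) (nat_lit 0x0) (nat_lit 0xc002200010000000000000000000000000000000000000000) := T_40 (nat_lit 181) (nat_lit 160) (nat_lit 0) (nat_lit 11) (nat_lit 10) L106723 (by decide +kernel)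
theorem L106725 : W_40 (nat_lit 2) (nat_lit 0x200000003e001200010001c0000000000000000000000000000000) (nat_lit 0x0) (nat_lit 0xe0000000000000000000000000000000000000000000000000) := D_40 (nat_lit 198) (nat_lit 197) (nat_lit 199) (nat_lit 3) (nat_lit 7) (nat_lit 10) (nat_lit 3) (nat_lit 8) (nat_lit 10) (by decide +kernel)
theorem L106726 : W_40 (nat_lit 3) (nat_lit 0x200000003c001200010001c0000000000000000000000000000000) (nat_lit 0x0) (nat_lit 0xe0000200080000000000000000000000000000000000000000) := T_40 (nat_lit 177) (nat_lit 163) (nat_lit 2) (nat_lit 7) (nat_lit 10) L106725 (by decide +kernel)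
theorem L106727 : W_40 (nat_lit 4) (nat_lit 0x200000003c000200010001c0000000000000000000000000000000) (nat_lit 0x0) (nat_lit 0xe0000200380000000000000000000000000000000000000000) := T_40 (nat_lit 164) (nat_lit 165) (nat_lit 2) (nat_lit 8) (nat_lit 10) L106726 (by decide +kernel)
theorem L106728 : W_40 (nat_lit 5) (nat_lit 0x200000003c000200010000c0000000000000000000000000000000) (nat_lit 0x0) (nat_lit 0xe0000200380000000100008000000000000000000000000000) := T_40 (nat_lit 128) (nat_lit 111) (nat_lit 6) (nat_lit 8) (nat_lit 10) L106727 (by decide +kernel)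
theorem L106729 : W_40 (nat_lit 6) (nat_lit 0x200000001c000200010000c0000000000000000000000000000000) (nat_lit 0x0) (nat_lit 0xe0002200390000000100008000000000000000000000000000) := T_40 (nat_lit 181) (nat_lit 160) (nat_lit 0) (nat_lit 11) (nat_lit 10) L106728 (by decide +kernel)
theorem L106730 : W_40 (nat_lit 7) (nat_lit 0x200000001c00020001000080000000000000000000000000000000) (nat_lit 0x0) (nat_lit 0xe000220039000000014000a000000000000000000000000000) := T_40 (nat_lit 126) (nat_lit 109) (nat_lit 4) (nat_lit 8) (nat_lit 10) L106729 (by decide +kernel)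
theorem L106731 : W_40 (nat_lit 2) (nat_lit 0x200000001f800a4001000180000000000000000000000000000000) (nat_lit 0x0) (nat_lit 0x3800000000000000000000000000000000000000000000000) := D_40 (nat_lit 192) (nat_lit 191) (nat_lit 193) (nat_lit 1) (nat_lit 8) (nat_lit 10) (nat_lit 1) (nat_lit 9) (nat_lit 10) (by decide +kernel)
theorem L106732 : W_40 (nat_lit 3) (nat_lit 0x200000001f000a4001000180000000000000000000000000000000) (nat_lit 0x0) (nat_lit 0x3800080002000000000000000000000000000000000000000) := T_40 (nat_lit 175) (nat_lit 157) (nat_lit 0) (nat_lit 8) (nat_lit 10) L106731 (by decide +kernel)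
theorem L106733 : W_40 (nat_lit 4) (nat_lit 0x200000001f000a4001000080000000000000000000000000000000) (nat_lit 0x0) (nat_lit 0x3800080002000000100008000000000000000000000000000) := T_40 (nat_lit 128) (nat_lit 111) (nat_lit 6) (nat_lit 8) (nat_lit 10) L106732 (by decide +kernel)
theorem L106734 : W_40 (nat_lit 5) (nat_lit 0x200000001f000a0001000080000000000000000000000000000000) (nat_lit 0x0) (nat_lit 0x380008000e000000100008000000000000000000000000000) := T_40 (nat_lit 158) (nat_lit 159) (nat_lit 0) (nat_lit 9) (nat_lit 10) L106733 (by decide +kernel)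
theorem L106735 : W_40 (nat_lit 6) (nat_lit 0x200000001e000a0001000080000000000000000000000000000000) (nat_lit 0x0) (nat_lit 0x380018004e000000100008000000000000000000000000000) := T_40 (nat_lit 176) (nat_lit 162) (nat_lit 2) (nat_lit 6) (nat_lit 10) L106734 (by decide +kernel)
theorem L106736 : W_40 (nat_lit 7) (nat_lit 0x200000001e00020001000080000000000000000000000000000000) (nat_lit 0x0) (nat_lit 0x38001801ce000000100008000000000000000000000000000) := T_40 (nat_lit 163) (nat_lit 164) (nat_lit 2) (nat_lit 7) (nat_lit 10) L106735 (by decide +kernel)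
theorem L106737 : W_40 (nat_lit 8) (nat_lit 0x200000001c00020001000080000000000000000000000000000000) (nat_lit 0x0) (nat_lit 0x78003801ce000000100008000000000000000000000000000) := T_40 (nat_lit 177) (nat_lit 194) (nat_lit 5) (nat_lit 8) (nat_lit 7) L106736 (by decide +kernel)
theorem L106738 : W_40 (nat_lit 2) (nat_lit 0x200000007c00020001000180000000000000000000000000000000) (nat_lit 0x0) (nat_lit 0x700000000000000000000000000000000000000000) := D_40 (nat_lit 165) (nat_lit 164) (nat_lit 166) (nat_lit 2) (nat_lit 8) (nat_lit 10) (nat_lit 2) (nat_lit 9) (nat_lit 10) (by decide +kernel)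
theorem L106739 : W_40 (nat_lit 3) (nat_lit 0x200000003c00020001000180000000000000000000000000000000) (nat_lit 0x0) (nat_lit 0x4000740000000000000000000000000000000000000000) := T_40 (nat_lit 182) (nat_lit 162) (nat_lit 0) (nat_lit 12) (nat_lit 10) L106738 (by decide +kernel)
theorem L106740 : W_40 (nat_lit 4) (nat_lit 0x200000001c00020001000180000000000000000000000000000000) (nat_lit 0x0) (nat_lit 0x6000750000000000000000000000000000000000000000) := T_40 (nat_lit 181) (nat_lit 160) (nat_lit 0) (nat_lit 11) (nat_lit 10) L106739 (by decide +kernel)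
theorem L106741 : W_40 (nat_lit 5) (nat_lit 0x200000001c00020001000080000000000000000000000000000000) (nat_lit 0x0) (nat_lit 0x6000750000000100008000000000000000000000000000) := T_40 (nat_lit 128) (nat_lit 111) (nat_lit 6) (nat_lit 8) (nat_lit 10) L106740 (by decide +kernel)
theorem L106742 : W_40 (nat_lit 2) (nat_lit 0x200000001f800a40010000c0000000000000000000000000000000) (nat_lit 0x0) (nat_lit 0x3800000000000000000000000000000000000000000000000) := D_40 (nat_lit 192) (nat_lit 191) (nat_lit 193) (nat_lit 1) (nat_lit 8) (nat_lit 10) (nat_lit 1) (nat_lit 9) (nat_lit 10) (by decide +kernel)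
theorem L106743 : W_40 (nat_lit 3) (nat_lit 0x200000001f000a40010000c0000000000000000000000000000000) (nat_lit 0x0) (nat_lit 0x3800080002000000000000000000000000000000000000000) := T_40 (nat_lit 175) (nat_lit 157) (nat_lit 0) (nat_lit 8) (nat_lit 10) L106742 (by decide +kernel)
theorem L106744 : W_40 (nat_lit 4) (nat_lit 0x200000001f000a4001000080000000000000000000000000000000) (nat_lit 0x0) (nat_lit 0x3800080002000000040002000000000000000000000000000) := T_40 (nat_lit 126) (nat_lit 109) (nat_lit 4) (nat_lit 8) (nat_lit 10) L106743 (by decide +kernel)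
theorem L106745 : W_40 (nat_lit 5) (nat_lit 0x200000001f000a0001000080000000000000000000000000000000) (nat_lit 0x0) (nat_lit 0x380008000e000000040002000000000000000000000000000) := T_40 (nat_lit 158) (nat_lit 159) (nat_lit 0) (nat_lit 9) (nat_lit 10) L106744 (by decide +kernel)
theorem L106746 : W_40 (nat_lit 6) (nat_lit 0x200000001e000a0001000080000000000000000000000000000000) (nat_lit 0x0) (nat_lit 0x380018004e000000040002000000000000000000000000000) := T_40 (nat_lit 176) (nat_lit 162) (nat_lit 2) (nat_lit 6) (nat_lit 10) L106745 (by decide +kernel)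
theorem L106747 : W_40 (nat_lit 7) (nat_lit 0x200000001e00020001000080000000000000000000000000000000) (nat_lit 0x0) (nat_lit 0x38001801ce000000040002000000000000000000000000000) := T_40 (nat_lit 163) (nat_lit 164) (nat_lit 2) (nat_lit 7) (nat_lit 10) L106746 (by decide +kernel)
theorem L106748 : W_40 (nat_lit 8) (nat_lit 0x200000001c00020001000080000000000000000000000000000000) (nat_lit 0x0) (nat_lit 0x78003801ce000000040002000000000000000000000000000) := T_40 (nat_lit 177) (nat_lit 194) (nat_lit 5) (nat_lit 8) (nat_lit 7) L106747 (by decide +kernel)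
theorem L106749 : W_40 (nat_lit 2) (nat_lit 0x200000007c000200010000c0000000000000000000000000000000) (nat_lit 0x0) (nat_lit 0x700000000000000000000000000000000000000000) := D_40 (nat_lit 165) (nat_lit 164) (nat_lit 166) (nat_lit 2) (nat_lit 8) (nat_lit 10) (nat_lit 2) (nat_lit 9) (nat_lit 10) (by decide +kernel)
theorem L106750 : W_40 (nat_lit 3) (nat_lit 0x200000003c000200010000c0000000000000000000000000000000) (nat_lit 0x0) (nat_lit 0x4000740000000000000000000000000000000000000000) := T_40 (nat_lit 182) (nat_lit 162) (nat_lit 0) (nat_lit 12) (nat_lit 10) L106749 (by decide +kernel)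
theorem L106751 : W_40 (nat_lit 4) (nat_lit 0x200000001c000200010000c0000000000000000000000000000000) (nat_lit 0x0) (nat_lit 0x6000750000000000000000000000000000000000000000) := T_40 (nat_lit 181) (nat_lit 160) (nat_lit 0) (nat_lit 11) (nat_lit 10) L106750 (by decide +kernel)
theorem L106752 : W_40 (nat_lit 5) (nat_lit 0x200000001c00020001000080000000000000000000000000000000) (nat_lit 0x0) (nat_lit 0x6000750000000040002000000000000000000000000000) := T_40 (nat_lit 126) (nat_lit 109) (nat_lit 4) (nat_lit 8) (nat_lit 10) L106751 (by decide +kernel)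
theorem L106753 : W_40 (nat_lit 2) (nat_lit 0x2000000034000b0005000780000000000000000000000000000000) (nat_lit 0x0) (nat_lit 0x20000000000018000000000000000000000000000000000000) := D_40 (nat_lit 147) (nat_lit 197) (nat_lit 148) (nat_lit 6) (nat_lit 10) (nat_lit 11) (nat_lit 3) (nat_lit 8) (nat_lit 7) (by decide +kernel)
theorem L106754 : W_40 (nat_lit 3) (nat_lit 0x2000000034000b0005000380000000000000000000000000000000) (nat_lit 0x0) (nat_lit 0x20000000000018000400020000000000000000000000000000) := T_40 (nat_lit 130) (nat_lit 113) (nat_lit 6) (nat_lit 10) (nat_lit 10) L106753 (by decide +kernel)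
theorem L106755 : W_40 (nat_lit 2) (nat_lit 0x20000000148007c001000180000000000000000000000000000000) (nat_lit 0x0) (nat_lit 0x700000000000000000000000000000000000) := D_40 (nat_lit 141) (nat_lit 140) (nat_lit 142) (nat_lit 0) (nat_lit 8) (nat_lit 9) (nat_lit 0) (nat_lit 9) (nat_lit 9) (by decide +kernel)
theorem L106756 : W_40 (nat_lit 3) (nat_lit 0x20000000148003c001000180000000000000000000000000000000) (nat_lit 0x0) (nat_lit 0x100040000700000000000000000000000000000000000) := T_40 (nat_lit 162) (nat_lit 176) (nat_lit 1) (nat_lit 9) (nat_lit 9) L106755 (by decide +kernel)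
theorem L106757 : W_40 (nat_lit 4) (nat_lit 0x20000000148003c001000080000000000000000000000000000000) (nat_lit 0x0) (nat_lit 0x100040000700100008000000000000000000000000000) := T_40 (nat_lit 128) (nat_lit 111) (nat_lit 6) (nat_lit 8) (nat_lit 10) L106756 (by decide +kernel)
theorem L106758 : W_40 (nat_lit 2) (nat_lit 0x2000000014000e00050003c0000000000000000000000000000000) (nat_lit 0x0) (nat_lit 0x400030000000000000000000000000000) := D_40 (nat_lit 113) (nat_lit 112) (nat_lit 130) (nat_lit 2) (nat_lit 7) (nat_lit 7) (nat_lit 6) (nat_lit 10) (nat_lit 10) (by decide +kernel)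
theorem L106759 : W_40 (nat_lit 3) (nat_lit 0x2000000014000e00050001c0000000000000000000000000000000) (nat_lit 0x0) (nat_lit 0x8000600030000000000000000000000000000) := T_40 (nat_lit 129) (nat_lit 147) (nat_lit 3) (nat_lit 7) (nat_lit 7) L106758 (by decide +kernel)
theorem L106760 : W_40 (nat_lit 4) (nat_lit 0x2000000014000e00050000c0000000000000000000000000000000) (nat_lit 0x0) (nat_lit 0x8000700038000000000000000000000000000) := T_40 (nat_lit 128) (nat_lit 111) (nat_lit 6) (nat_lit 8) (nat_lit 10) L106759 (by decide +kernel)
theorem L106761 : W_40 (nat_lit 5) (nat_lit 0x2000000014000e0005000080000000000000000000000000000000) (nat_lit 0x0) (nat_lit 0x800074003a000000000000000000000000000) := T_40 (nat_lit 126) (nat_lit 109) (nat_lit 4) (nat_lit 8) (nat_lit 10) L106760 (by decide +kernel)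
theorem L106762 : W_40 (nat_lit 2) (nat_lit 0x2000000014000e0005000080000000000000000000000000000000) (nat_lit 0x0) (nat_lit 0x2000010008000000000000000000000000000000000000) := D_40 (nat_lit 160) (nat_lit 147) (nat_lit 181) (nat_lit 2) (nat_lit 7) (nat_lit 9) (nat_lit 3) (nat_lit 7) (nat_lit 9) (by decide +kernel)
theorem L106763 : W_40 (nat_lit 2) (nat_lit 0x2000000034000e0001000080000000000000000000000000000000) (nat_lit 0x0) (nat_lit 0xc000100000000000000000000000000000000000000000) := D_40 (nat_lit 182) (nat_lit 164) (nat_lit 183) (nat_lit 3) (nat_lit 8) (nat_lit 9) (nat_lit 0) (nat_lit 13) (nat_lit 10) (by decide +kernel)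
theorem L106764 : W_40 (nat_lit 2) (nat_lit 0x2000000034000e0001000180000000000000000000000000000000) (nat_lit 0x0) (nat_lit 0xc000100000000000000000000000000000000000000000) := D_40 (nat_lit 182) (nat_lit 183) (nat_lit 164) (nat_lit 0) (nat_lit 13) (nat_lit 10) (nat_lit 3) (nat_lit 8) (nat_lit 9) (by decide +kernel)
theorem L106765 : W_40 (nat_lit 3) (nat_lit 0x2000000014000e0001000180000000000000000000000000000000) (nat_lit 0x0) (nat_lit 0xe000110000000000000000000000000000000000000000) := T_40 (nat_lit 181) (nat_lit 160) (nat_lit 3) (nat_lit 7) (nat_lit 9) L106764 (by decide +kernel)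
theorem L106766 : W_40 (nat_lit 4) (nat_lit 0x2000000014000e0001000080000000000000000000000000000000) (nat_lit 0x0) (nat_lit 0xe000110000000100008000000000000000000000000000) := T_40 (nat_lit 128) (nat_lit 111) (nat_lit 6) (nat_lit 8) (nat_lit 10) L106765 (by decide +kernel)
theorem L106767 : W_40 (nat_lit 2) (nat_lit 0x2000000014001e00090003c0000000000000000000000000000000) (nat_lit 0x0) (nat_lit 0x400030000000000000000000000000000) := D_40 (nat_lit 113) (nat_lit 130) (nat_lit 112) (nat_lit 5) (nat_lit 11) (nat_lit 6) (nat_lit 2) (nat_lit 7) (nat_lit 7) (by decide +kernel)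
theorem L106768 : W_40 (nat_lit 3) (nat_lit 0x2000000014001e00090001c0000000000000000000000000000000) (nat_lit 0x0) (nat_lit 0x4000600030000000000000000000000000000) := T_40 (nat_lit 129) (nat_lit 146) (nat_lit 3) (nat_lit 7) (nat_lit 7) L106767 (by decide +kernel)
theorem L106769 : W_40 (nat_lit 4) (nat_lit 0x2000000014001e0009000180000000000000000000000000000000) (nat_lit 0x0) (nat_lit 0x4000640032000000000000000000000000000) := T_40 (nat_lit 126) (nat_lit 109) (nat_lit 4) (nat_lit 8) (nat_lit 10) L106768 (by decide +kernel)
theorem L106770 : W_40 (nat_lit 5) (nat_lit 0x2000000014001e0001000180000000000000000000000000000000) (nat_lit 0x0) (nat_lit 0x1c000640032000000000000000000000000000) := T_40 (nat_lit 147) (nat_lit 148) (nat_lit 2) (nat_lit 8) (nat_lit 9) L106769 (by decide +kernel)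
theorem L106771 : W_40 (nat_lit 4) (nat_lit 0x200000003c00020001000080000000000000000000000000000000) (nat_lit 0x0) (nat_lit 0x4000740000000100008000000000000000000000000000) := T_40 (nat_lit 128) (nat_lit 111) (nat_lit 6) (nat_lit 8) (nat_lit 10) L106739 (by decide +kernel)
theorem L106772 : W_40 (nat_lit 2) (nat_lit 0x200048003c00160001000080000000000000000000000000000000) (nat_lit 0x0) (nat_lit 0x6000100000000000000000000000000000000000000000000000000000) := D_40 (nat_lit 212) (nat_lit 230) (nat_lit 229) (nat_lit 7) (nat_lit 8) (nat_lit 9) (nat_lit 6) (nat_lit 8) (nat_lit 13) (by decide +kernel)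
theorem L106773 : W_40 (nat_lit 3) (nat_lit 0x200040003c00160001000080000000000000000000000000000000) (nat_lit 0x0) (nat_lit 0x600010000c000000000000000000000000000000000000000000000000) := T_40 (nat_lit 195) (nat_lit 194) (nat_lit 1) (nat_lit 11) (nat_lit 10) L106772 (by decide +kernel)
theorem L106774 : W_40 (nat_lit 4) (nat_lit 0x200040003c00120001000080000000000000000000000000000000) (nat_lit 0x0) (nat_lit 0x600010000c004000040000000000000000000000000000000000000000) := T_40 (nat_lit 162) (nat_lit 182) (nat_lit 0) (nat_lit 12) (nat_lit 10) L106773 (by decide +kernel)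
theorem L106775 : W_40 (nat_lit 5) (nat_lit 0x200000003c00120001000080000000000000000000000000000000) (nat_lit 0x0) (nat_lit 0x60001000cc004000040000000000000000000000000000000000000000) := T_40 (nat_lit 198) (nat_lit 199) (nat_lit 3) (nat_lit 8) (nat_lit 10) L106774 (by decide +kernel)
theorem L106776 : W_40 (nat_lit 6) (nat_lit 0x200000003c00020001000080000000000000000000000000000000) (nat_lit 0x0) (nat_lit 0x60001000cc004000340000000000000000000000000000000000000000) := T_40 (nat_lit 164) (nat_lit 165) (nat_lit 2) (nat_lit 8) (nat_lit 10) L106775 (by decide +kernel)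
theorem L106777 : W_40 (nat_lit 2) (nat_lit 0x200080003c002200010000c0000000000000000000000000000000) (nat_lit 0x0) (nat_lit 0x100004000400000000000000000000000000000000000000000) := D_40 (nat_lit 182) (nat_lit 166) (nat_lit 200) (nat_lit 2) (nat_lit 9) (nat_lit 10) (nat_lit 3) (nat_lit 9) (nat_lit 10) (by decide +kernel)
theorem L106778 : W_40 (nat_lit 3) (nat_lit 0x200000003c002200010000c0000000000000000000000000000000) (nat_lit 0x0) (nat_lit 0x1c0004000400000000000000000000000000000000000000000) := T_40 (nat_lit 199) (nat_lit 198) (nat_lit 3) (nat_lit 8) (nat_lit 10) L106777 (by decide +kernel)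
theorem L106779 : W_40 (nat_lit 4) (nat_lit 0x200000003c000200010000c0000000000000000000000000000000) (nat_lit 0x0) (nat_lit 0x1c0004000700000000000000000000000000000000000000000) := T_40 (nat_lit 165) (nat_lit 164) (nat_lit 2) (nat_lit 8) (nat_lit 10) L106778 (by decide +kernel)
theorem L106780 : W_40 (nat_lit 5) (nat_lit 0x200000003c00020001000080000000000000000000000000000000) (nat_lit 0x0) (nat_lit 0x1c0004000700000000040002000000000000000000000000000) := T_40 (nat_lit 126) (nat_lit 109) (nat_lit 4) (nat_lit 8) (nat_lit 10) L106779 (by decide +kernel)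
theorem L106781 : W_40 (nat_lit 2) (nat_lit 0x200000007c00020001000080000000000000000000000000000000) (nat_lit 0x0) (nat_lit 0x1c0000000000000000000000000000000000000000000000000) := D_40 (nat_lit 199) (nat_lit 198) (nat_lit 200) (nat_lit 3) (nat_lit 8) (nat_lit 10) (nat_lit 3) (nat_lit 9) (nat_lit 10) (by decide +kernel)
theorem L106782 : W_40 (nat_lit 3) (nat_lit 0x200000003c00020001000080000000000000000000000000000000) (nat_lit 0x0) (nat_lit 0x1c0004000040000000000000000000000000000000000000000) := T_40 (nat_lit 182) (nat_lit 162) (nat_lit 0) (nat_lit 12) (nat_lit 10) L106781 (by decide +kernel)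
theorem L106783 : W_40 (nat_lit 6) (nat_lit 0x300048003c001200010001c0000000000000000000000000000000) (nat_lit 0x0) (nat_lit 0x2000bc00c00020000000040008000000000000000000000000000000000000) := T_40 (nat_lit 229) (nat_lit 162) (nat_lit 6) (nat_lit 8) (nat_lit 13) L106695 (by decide +kernel)
theorem L106784 : W_40 (nat_lit 7) (nat_lit 0x200048003c001200010001c0000000000000000000000000000000) (nat_lit 0x0) (nat_lit 0x2000fc00d00020000000040008000000000000000000000000000000000000) := T_40 (nat_lit 212) (nat_lit 230) (nat_lit 7) (nat_lit 8) (nat_lit 9) L106783 (by decide +kernel)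
theorem L106785 : W_40 (nat_lit 8) (nat_lit 0x200040003c001200010001c0000000000000000000000000000000) (nat_lit 0x0) (nat_lit 0x2000fc00d0002c000000040008000000000000000000000000000000000000) := T_40 (nat_lit 195) (nat_lit 194) (nat_lit 1) (nat_lit 11) (nat_lit 10) L106784 (by decide +kernel)
theorem L106786 : W_40 (nat_lit 9) (nat_lit 0x200040003c001200010000c0000000000000000000000000000000) (nat_lit 0x0) (nat_lit 0x2000fc00d0002c000000040008000100008000000000000000000000000000) := T_40 (nat_lit 128) (nat_lit 111) (nat_lit 6) (nat_lit 8) (nat_lit 10) L106785 (by decide +kernel)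
theorem L106787 : W_40 (nat_lit 10) (nat_lit 0x200000003c001200010000c0000000000000000000000000000000) (nat_lit 0x0) (nat_lit 0x2000fc00d000ec000000040008000100008000000000000000000000000000) := T_40 (nat_lit 198) (nat_lit 199) (nat_lit 3) (nat_lit 8) (nat_lit 10) L106786 (by decide +kernel)
theorem L106788 : W_40 (nat_lit 11) (nat_lit 0x200000003c000200010000c0000000000000000000000000000000) (nat_lit 0x0) (nat_lit 0x2000fc00d000ec000000340008000100008000000000000000000000000000) := T_40 (nat_lit 164) (nat_lit 165) (nat_lit 2) (nat_lit 8) (nat_lit 10) L106787 (by decide +kernel)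
theorem L106789 : W_40 (nat_lit 12) (nat_lit 0x200000003c00020001000080000000000000000000000000000000) (nat_lit 0x0) (nat_lit 0x2000fc00d000ec00000034000800014000a000000000000000000000000000) := T_40 (nat_lit 126) (nat_lit 109) (nat_lit 4) (nat_lit 8) (nat_lit 10) L106788 (by decide +kernel)
theorem L106790 : W_40 (nat_lit 13) (nat_lit 0x200000003400020001000080000000000000000000000000000000) (nat_lit 0x0) (nat_lit 0x2000fc00d001ec00480074000800014000a000000000000000000000000000) := Q_40 (nat_lit 179) (C_40 L106771 (C_40 L106776 (C_40 L106780 (C_40 L106782 (C_40 L106789 N_40))))) (by decide +kernel)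
theorem L106791 : W_40 (nat_lit 4) (nat_lit 0x200000003400020001000080000000000000000000000000000000) (nat_lit 0x0) (nat_lit 0x1c0004800050000000000000000000000000000000000000000) := T_40 (nat_lit 179) (nat_lit 160) (nat_lit 0) (nat_lit 11) (nat_lit 10) L106782 (by decide +kernel)
theorem L106792 : W_40 (nat_lit 6) (nat_lit 0x200000003400020001000080000000000000000000000000000000) (nat_lit 0x0) (nat_lit 0x1c0004800710000000040002000000000000000000000000000) := T_40 (nat_lit 179) (nat_lit 160) (nat_lit 0) (nat_lit 11) (nat_lit 10) L106780 (by decide +kernel)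
theorem L106793 : W_40 (nat_lit 2) (nat_lit 0x2000400034000a0005000180000000000000000000000000000000) (nat_lit 0x0) (nat_lit 0x10000800020000000000000000000000000000000000000000000000000) := D_40 (nat_lit 215) (nat_lit 232) (nat_lit 197) (nat_lit 4) (nat_lit 11) (nat_lit 13) (nat_lit 7) (nat_lit 10) (nat_lit 8) (by decide +kernel)
theorem L106794 : W_40 (nat_lit 3) (nat_lit 0x2000400034000a0001000180000000000000000000000000000000) (nat_lit 0x0) (nat_lit 0x10000800020000000000004000200000000000000000000000000000000) := T_40 (nat_lit 146) (nat_lit 129) (nat_lit 7) (nat_lit 10) (nat_lit 7) L106793 (by decide +kernel)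
theorem L106795 : W_40 (nat_lit 4) (nat_lit 0x2000400034000a0001000080000000000000000000000000000000) (nat_lit 0x0) (nat_lit 0x10000800020000000000004000300008000000000000000000000000000) := T_40 (nat_lit 128) (nat_lit 111) (nat_lit 6) (nat_lit 8) (nat_lit 10) L106794 (by decide +kernel)
theorem L106796 : W_40 (nat_lit 2) (nat_lit 0xa000400034000a0001000080000000000000000000000000000000) (nat_lit 0x0) (nat_lit 0x100004000200000000000000000000000000000000) := D_40 (nat_lit 146) (nat_lit 129) (nat_lit 164) (nat_lit 7) (nat_lit 10) (nat_lit 7) (nat_lit 4) (nat_lit 11) (nat_lit 12) (by decide +kernel)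
theorem L106797 : W_40 (nat_lit 3) (nat_lit 0x2000400034000a0001000080000000000000000000000000000000) (nat_lit 0x0) (nat_lit 0x10000800000000000100004000200000000000000000000000000000000) := T_40 (nat_lit 215) (nat_lit 232) (nat_lit 4) (nat_lit 11) (nat_lit 13) L106796 (by decide +kernel)
theorem L106798 : W_40 (nat_lit 2) (nat_lit 0x2000400034000a00010007c0020000000000000000000000000000) (nat_lit 0x0) (nat_lit 0x100018000000000000000000000000000000000000) := D_40 (nat_lit 147) (nat_lit 148) (nat_lit 164) (nat_lit 3) (nat_lit 8) (nat_lit 7) (nat_lit 5) (nat_lit 11) (nat_lit 6) (by decide +kernel)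
theorem L106799 : W_40 (nat_lit 3) (nat_lit 0x2000400034000a00010003c0020000000000000000000000000000) (nat_lit 0x0) (nat_lit 0x100018000400040000000000000000000000000000) := T_40 (nat_lit 130) (nat_lit 114) (nat_lit 2) (nat_lit 8) (nat_lit 7) L106798 (by decide +kernel)
theorem L106800 : W_40 (nat_lit 4) (nat_lit 0x2000400034000a00010003c0000000000000000000000000000000) (nat_lit 0x0) (nat_lit 0x100018000400070000000000000000000000000000) := T_40 (nat_lit 113) (nat_lit 112) (nat_lit 2) (nat_lit 7) (nat_lit 7) L106799 (by decide +kernel)
theorem L106801 : W_40 (nat_lit 5) (nat_lit 0x2000400034000a0001000380000000000000000000000000000000) (nat_lit 0x0) (nat_lit 0x100018000440072000000000000000000000000000) := T_40 (nat_lit 126) (nat_lit 109) (nat_lit 4) (nat_lit 8) (nat_lit 10) L106800 (by decide +kernel)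
theorem L106802 : W_40 (nat_lit 6) (nat_lit 0x2000400034000a0001000280000000000000000000000000000000) (nat_lit 0x0) (nat_lit 0x10001800054007a000000000000000000000000000) := T_40 (nat_lit 128) (nat_lit 111) (nat_lit 6) (nat_lit 8) (nat_lit 10) L106801 (by decide +kernel)
theorem L106803 : W_40 (nat_lit 7) (nat_lit 0x2000400034000a0001000080000000000000000000000000000000) (nat_lit 0x0) (nat_lit 0x10001c00074007a000000000000000000000000000) := T_40 (nat_lit 129) (nat_lit 146) (nat_lit 7) (nat_lit 10) (nat_lit 7) L106802 (by decide +kernel)
theorem L106804 : W_40 (nat_lit 2) (nat_lit 0x1e00040003400ba00010001c0000000000000000000000000000000) (nat_lit 0x0) (nat_lit 0x4000000020000000000008000000000000000000000000000000000000) := D_40 (nat_lit 197) (nat_lit 230) (nat_lit 147) (nat_lit 5) (nat_lit 10) (nat_lit 9) (nat_lit 6) (nat_lit 10) (nat_lit 12) (by decide +kernel)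
theorem L106805 : W_40 (nat_lit 3) (nat_lit 0x1a00040003400ba00010001c0000000000000000000000000000000) (nat_lit 0x0) (nat_lit 0xc000400020000000000008000000000000000000000000000000000000) := T_40 (nat_lit 214) (nat_lit 231) (nat_lit 5) (nat_lit 11) (nat_lit 9) L106804 (by decide +kernel)
theorem L106806 : W_40 (nat_lit 4) (nat_lit 0xa00040003400ba00010001c0000000000000000000000000000000) (nat_lit 0x0) (nat_lit 0x2c001400020000000000008000000000000000000000000000000000000) := T_40 (nat_lit 216) (nat_lit 233) (nat_lit 7) (nat_lit 11) (nat_lit 9) L106805 (by decide +kernel)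
theorem L106807 : W_40 (nat_lit 5) (nat_lit 0xa000400034003a00010001c0000000000000000000000000000000) (nat_lit 0x0) (nat_lit 0x2c001400020000000c00008000000000000000000000000000000000000) := T_40 (nat_lit 167) (nat_lit 166) (nat_lit 1) (nat_lit 14) (nat_lit 9) L106806 (by decide +kernel)
theorem L106808 : W_40 (nat_lit 6) (nat_lit 0xa000400034001a00010001c0000000000000000000000000000000) (nat_lit 0x0) (nat_lit 0x2c001400020000000e00018000000000000000000000000000000000000) := T_40 (nat_lit 165) (nat_lit 148) (nat_lit 6) (nat_lit 11) (nat_lit 12) L106807 (by decide +kernel)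
theorem L106809 : W_40 (nat_lit 7) (nat_lit 0xa000400034001a0001000180000000000000000000000000000000) (nat_lit 0x0) (nat_lit 0x2c001400020000000e00018000040002000000000000000000000000000) := T_40 (nat_lit 126) (nat_lit 109) (nat_lit 4) (nat_lit 8) (nat_lit 10) L106808 (by decide +kernel)
theorem L106810 : W_40 (nat_lit 8) (nat_lit 0x2000400034001a0001000180000000000000000000000000000000) (nat_lit 0x0) (nat_lit 0x3c001c00020000000e00018000040002000000000000000000000000000) := T_40 (nat_lit 215) (nat_lit 232) (nat_lit 4) (nat_lit 11) (nat_lit 13) L106809 (by decide +kernel)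
theorem L106811 : W_40 (nat_lit 9) (nat_lit 0x2000400034001a0001000080000000000000000000000000000000) (nat_lit 0x0) (nat_lit 0x3c001c00020000000e0001800014000a000000000000000000000000000) := T_40 (nat_lit 128) (nat_lit 111) (nat_lit 6) (nat_lit 8) (nat_lit 10) L106810 (by decide +kernel)
theorem L106812 : W_40 (nat_lit 2) (nat_lit 0x2000400034001e00090000c0000000000000000000000000000000) (nat_lit 0x0) (nat_lit 0x20000000000000000400020000000000000000000000000000) := D_40 (nat_lit 130) (nat_lit 197) (nat_lit 113) (nat_lit 5) (nat_lit 11) (nat_lit 7) (nat_lit 5) (nat_lit 11) (nat_lit 6) (by decide +kernel)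
theorem L106813 : W_40 (nat_lit 3) (nat_lit 0x2000400034001e00010000c0000000000000000000000000000000) (nat_lit 0x0) (nat_lit 0x20000000000018000400020000000000000000000000000000) := T_40 (nat_lit 147) (nat_lit 148) (nat_lit 2) (nat_lit 8) (nat_lit 9) L106812 (by decide +kernel)
theorem L106814 : W_40 (nat_lit 4) (nat_lit 0x2000400034001a00010000c0000000000000000000000000000000) (nat_lit 0x0) (nat_lit 0x20004000040018000400020000000000000000000000000000) := T_40 (nat_lit 162) (nat_lit 182) (nat_lit 3) (nat_lit 8) (nat_lit 9) L106813 (by decide +kernel)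
theorem L106815 : W_40 (nat_lit 5) (nat_lit 0x2000400034001a0001000080000000000000000000000000000000) (nat_lit 0x0) (nat_lit 0x20004000040018000440022000000000000000000000000000) := T_40 (nat_lit 126) (nat_lit 109) (nat_lit 4) (nat_lit 8) (nat_lit 10) L106814 (by decide +kernel)
theorem L106816 : W_40 (nat_lit 2) (nat_lit 0x2000400034001e0009000180000000000000000000000000000000) (nat_lit 0x0) (nat_lit 0x400020000000000000000400000000000000000000000000000000) := D_40 (nat_lit 197) (nat_lit 214) (nat_lit 130) (nat_lit 6) (nat_lit 10) (nat_lit 12) (nat_lit 5) (nat_lit 11) (nat_lit 7) (by decide +kernel)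
theorem L106817 : W_40 (nat_lit 3) (nat_lit 0x2000400034001e0001000180000000000000000000000000000000) (nat_lit 0x0) (nat_lit 0x400020000000000018000400000000000000000000000000000000) := T_40 (nat_lit 147) (nat_lit 148) (nat_lit 2) (nat_lit 8) (nat_lit 9) L106816 (by decide +kernel)
theorem L106818 : W_40 (nat_lit 4) (nat_lit 0x2000400034001a0001000180000000000000000000000000000000) (nat_lit 0x0) (nat_lit 0x400020004000040018000400000000000000000000000000000000) := T_40 (nat_lit 162) (nat_lit 182) (nat_lit 3) (nat_lit 8) (nat_lit 9) L106817 (by decide +kernel)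
theorem L106819 : W_40 (nat_lit 5) (nat_lit 0x2000400034001a0001000080000000000000000000000000000000) (nat_lit 0x0) (nat_lit 0x400020004000040018000500008000000000000000000000000000) := T_40 (nat_lit 128) (nat_lit 111) (nat_lit 6) (nat_lit 8) (nat_lit 10) L106818 (by decide +kernel)
theorem L106820 : W_40 (nat_lit 2) (nat_lit 0x1e00040003400ba00010000c0000000000000000000000000000000) (nat_lit 0x0) (nat_lit 0x180000000000008000000000000000000000000000000000000) := D_40 (nat_lit 199) (nat_lit 200) (nat_lit 147) (nat_lit 2) (nat_lit 9) (nat_lit 12) (nat_lit 7) (nat_lit 11) (nat_lit 8) (by decide +kernel)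
theorem L106821 : W_40 (nat_lit 3) (nat_lit 0x1a00040003400ba00010000c0000000000000000000000000000000) (nat_lit 0x0) (nat_lit 0x8000400180000000000008000000000000000000000000000000000000) := T_40 (nat_lit 214) (nat_lit 231) (nat_lit 5) (nat_lit 11) (nat_lit 9) L106820 (by decide +kernel)
theorem L106822 : W_40 (nat_lit 4) (nat_lit 0xa00040003400ba00010000c0000000000000000000000000000000) (nat_lit 0x0) (nat_lit 0x28001400180000000000008000000000000000000000000000000000000) := T_40 (nat_lit 216) (nat_lit 233) (nat_lit 7) (nat_lit 11) (nat_lit 9) L106821 (by decide +kernel)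
theorem L106823 : W_40 (nat_lit 5) (nat_lit 0xa000400034003a00010000c0000000000000000000000000000000) (nat_lit 0x0) (nat_lit 0x28001400180000000c00008000000000000000000000000000000000000) := T_40 (nat_lit 167) (nat_lit 166) (nat_lit 1) (nat_lit 14) (nat_lit 9) L106822 (by decide +kernel)
theorem L106824 : W_40 (nat_lit 6) (nat_lit 0xa000400034001a00010000c0000000000000000000000000000000) (nat_lit 0x0) (nat_lit 0x28001400180000000e00018000000000000000000000000000000000000) := T_40 (nat_lit 165) (nat_lit 148) (nat_lit 6) (nat_lit 11) (nat_lit 12) L106823 (by decide +kernel)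
theorem L106825 : W_40 (nat_lit 7) (nat_lit 0xa000400034001a0001000080000000000000000000000000000000) (nat_lit 0x0) (nat_lit 0x28001400180000000e00018000040002000000000000000000000000000) := T_40 (nat_lit 126) (nat_lit 109) (nat_lit 4) (nat_lit 8) (nat_lit 10) L106824 (by decide +kernel)
theorem L106826 : W_40 (nat_lit 8) (nat_lit 0x2000400034001a0001000080000000000000000000000000000000) (nat_lit 0x0) (nat_lit 0x38001c00180000000e00018000040002000000000000000000000000000) := T_40 (nat_lit 215) (nat_lit 232) (nat_lit 4) (nat_lit 11) (nat_lit 13) L106825 (by decide +kernel)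
theorem L106827 : W_40 (nat_lit 2) (nat_lit 0x1e00040003400be0001000080000000000000000000000000000000) (nat_lit 0x0) (nat_lit 0x6000000020000000000000000000000000000000000000000000000000) := D_40 (nat_lit 230) (nat_lit 197) (nat_lit 229) (nat_lit 5) (nat_lit 10) (nat_lit 9) (nat_lit 1) (nat_lit 12) (nat_lit 12) (by decide +kernel)
theorem L106828 : W_40 (nat_lit 3) (nat_lit 0x1a00040003400be0001000080000000000000000000000000000000) (nat_lit 0x0) (nat_lit 0xe000400020000000000000000000000000000000000000000000000000) := T_40 (nat_lit 214) (nat_lit 231) (nat_lit 5) (nat_lit 11) (nat_lit 9) L106827 (by decide +kernel)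
theorem L106829 : W_40 (nat_lit 4) (nat_lit 0xa00040003400be0001000080000000000000000000000000000000) (nat_lit 0x0) (nat_lit 0x2e001400020000000000000000000000000000000000000000000000000) := T_40 (nat_lit 216) (nat_lit 233) (nat_lit 7) (nat_lit 11) (nat_lit 9) L106828 (by decide +kernel)
theorem L106830 : W_40 (nat_lit 5) (nat_lit 0xa000400034003e0001000080000000000000000000000000000000) (nat_lit 0x0) (nat_lit 0x2e001400020000000c00000000000000000000000000000000000000000) := T_40 (nat_lit 167) (nat_lit 166) (nat_lit 1) (nat_lit 14) (nat_lit 9) L106829 (by decide +kernel)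
theorem L106831 : W_40 (nat_lit 6) (nat_lit 0xa000400034001e0001000080000000000000000000000000000000) (nat_lit 0x0) (nat_lit 0x2e001400020000000e00010000000000000000000000000000000000000) := T_40 (nat_lit 165) (nat_lit 148) (nat_lit 6) (nat_lit 11) (nat_lit 12) L106830 (by decide +kernel)
theorem L106832 : W_40 (nat_lit 7) (nat_lit 0xa000400034001a0001000080000000000000000000000000000000) (nat_lit 0x0) (nat_lit 0x2e001400020004000e40010000000000000000000000000000000000000) := T_40 (nat_lit 162) (nat_lit 182) (nat_lit 3) (nat_lit 8) (nat_lit 9) L106831 (by decide +kernel)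
theorem L106833 : W_40 (nat_lit 8) (nat_lit 0x2000400034001a0001000080000000000000000000000000000000) (nat_lit 0x0) (nat_lit 0x3e001c00020004000e40010000000000000000000000000000000000000) := T_40 (nat_lit 215) (nat_lit 232) (nat_lit 4) (nat_lit 11) (nat_lit 13) L106832 (by decide +kernel)
theorem L106834 : W_40 (nat_lit 2) (nat_lit 0x1e000400034001e0001000180000000000000000000000000000000) (nat_lit 0x0) (nat_lit 0x4000000020000000000008000000000000000000000000000000000000) := D_40 (nat_lit 197) (nat_lit 230) (nat_lit 147) (nat_lit 5) (nat_lit 10) (nat_lit 9) (nat_lit 6) (nat_lit 10) (nat_lit 12) (by decide +kernel)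
theorem L106835 : W_40 (nat_lit 3) (nat_lit 0x1a000400034001e0001000180000000000000000000000000000000) (nat_lit 0x0) (nat_lit 0xc000400020000000000008000000000000000000000000000000000000) := T_40 (nat_lit 214) (nat_lit 231) (nat_lit 5) (nat_lit 11) (nat_lit 9) L106834 (by decide +kernel)
theorem L106836 : W_40 (nat_lit 4) (nat_lit 0xa000400034001e0001000180000000000000000000000000000000) (nat_lit 0x0) (nat_lit 0x2c001400020000000000008000000000000000000000000000000000000) := T_40 (nat_lit 216) (nat_lit 233) (nat_lit 7) (nat_lit 11) (nat_lit 9) L106835 (by decide +kernel)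
theorem L106837 : W_40 (nat_lit 5) (nat_lit 0xa000400034001e0001000080000000000000000000000000000000) (nat_lit 0x0) (nat_lit 0x2c001400020000000000008000100008000000000000000000000000000) := T_40 (nat_lit 128) (nat_lit 111) (nat_lit 6) (nat_lit 8) (nat_lit 10) L106836 (by decide +kernel)
theorem L106838 : W_40 (nat_lit 6) (nat_lit 0x2000400034001e0001000080000000000000000000000000000000) (nat_lit 0x0) (nat_lit 0x3c001c00020000000000008000100008000000000000000000000000000) := T_40 (nat_lit 215) (nat_lit 232) (nat_lit 4) (nat_lit 11) (nat_lit 13) L106837 (by decide +kernel)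
theorem L106839 : W_40 (nat_lit 7) (nat_lit 0x2000400034001a0001000080000000000000000000000000000000) (nat_lit 0x0) (nat_lit 0x3c001c00020004000040008000100008000000000000000000000000000) := T_40 (nat_lit 162) (nat_lit 182) (nat_lit 3) (nat_lit 8) (nat_lit 9) L106838 (by decide +kernel)
theorem L106840 : W_40 (nat_lit 10) (nat_lit 0x2000400034000a0001000080000000000000000000000000000000) (nat_lit 0x0) (nat_lit 0x3e001c001a0004000f4001800054002a000000000000000000000000000) := Q_40 (nat_lit 164) (C_40 L106811 (C_40 L106815 (C_40 L106819 (C_40 L106826 (C_40 L106833 (C_40 L106839 N_40)))))) (by decide +kernel)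
theorem L106841 : W_40 (nat_lit 11) (nat_lit 0x2000000034000a0001000080000000000000000000000000000000) (nat_lit 0x0) (nat_lit 0x3e001c001e0004000f4001c00074007a000000000000000000000000000) := Q_40 (nat_lit 198) (C_40 L106795 (C_40 L106797 (C_40 L106803 (C_40 L106840 N_40)))) (by decide +kernel)
theorem L106842 : W_40 (nat_lit 3) (nat_lit 0x2000000034000a0001000180000000000000000000000000000000) (nat_lit 0x0) (nat_lit 0xc000150000000000000000000000000000000000000000) := T_40 (nat_lit 162) (nat_lit 160) (nat_lit 3) (nat_lit 7) (nat_lit 9) L106764 (by decide +kernel)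
theorem L106843 : W_40 (nat_lit 4) (nat_lit 0x2000000034000a0001000080000000000000000000000000000000) (nat_lit 0x0) (nat_lit 0xc000150000000100008000000000000000000000000000) := T_40 (nat_lit 128) (nat_lit 111) (nat_lit 6) (nat_lit 8) (nat_lit 10) L106842 (by decide +kernel)
theorem L106844 : W_40 (nat_lit 3) (nat_lit 0x2000000034000a0001000080000000000000000000000000000000) (nat_lit 0x0) (nat_lit 0xc000150000000000000000000000000000000000000000) := T_40 (nat_lit 162) (nat_lit 160) (nat_lit 3) (nat_lit 7) (nat_lit 9) L106763 (by decide +kernel)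
theorem L106845 : W_40 (nat_lit 2) (nat_lit 0x6000600034000a0001000180000000000000000000000000000000) (nat_lit 0x0) (nat_lit 0x8000000000000000100008000000000000000000000000000000000000) := D_40 (nat_lit 164) (nat_lit 147) (nat_lit 231) (nat_lit 6) (nat_lit 10) (nat_lit 12) (nat_lit 6) (nat_lit 10) (nat_lit 13) (by decide +kernel)
theorem L106846 : W_40 (nat_lit 3) (nat_lit 0x6000400034000a0001000180000000000000000000000000000000) (nat_lit 0x0) (nat_lit 0xc000000020000000100008000000000000000000000000000000000000) := T_40 (nat_lit 197) (nat_lit 230) (nat_lit 5) (nat_lit 10) (nat_lit 9) L106845 (by decide +kernel)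
theorem L106847 : W_40 (nat_lit 4) (nat_lit 0x6000400034000a0001000080000000000000000000000000000000) (nat_lit 0x0) (nat_lit 0xc000000020000000100008000100008000000000000000000000000000) := T_40 (nat_lit 128) (nat_lit 111) (nat_lit 6) (nat_lit 8) (nat_lit 10) L106846 (by decide +kernel)
theorem L106848 : W_40 (nat_lit 2) (nat_lit 0x6000600034000a0001000080000000000000000000000000000000) (nat_lit 0x0) (nat_lit 0x8000000000000000100008000000000000000000000000000000000000) := D_40 (nat_lit 164) (nat_lit 147) (nat_lit 231) (nat_lit 6) (nat_lit 10) (nat_lit 12) (nat_lit 6) (nat_lit 10) (nat_lit 13) (by decide +kernel)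
theorem L106849 : W_40 (nat_lit 3) (nat_lit 0x6000400034000a0001000080000000000000000000000000000000) (nat_lit 0x0) (nat_lit 0xc000000020000000100008000000000000000000000000000000000000) := T_40 (nat_lit 197) (nat_lit 230) (nat_lit 5) (nat_lit 10) (nat_lit 9) L106848 (by decide +kernel)
theorem L106850 : W_40 (nat_lit 2) (nat_lit 0xf000400034000a00010001c0000000000000000000000000000000) (nat_lit 0x0) (nat_lit 0x400000000c000000000000000000000000000000000000000000000000) := D_40 (nat_lit 195) (nat_lit 194) (nat_lit 230) (nat_lit 0) (nat_lit 11) (nat_lit 12) (nat_lit 7) (nat_lit 8) (nat_lit 9) (by decide +kernel)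
theorem L106851 : W_40 (nat_lit 3) (nat_lit 0xe000400034000a00010001c0000000000000000000000000000000) (nat_lit 0x0) (nat_lit 0x400010008c000000000000000000000000000000000000000000000000) := T_40 (nat_lit 212) (nat_lit 199) (nat_lit 2) (nat_lit 8) (nat_lit 12) L106850 (by decide +kernel)
theorem L106852 : W_40 (nat_lit 4) (nat_lit 0xe000400034000a0001000180000000000000000000000000000000) (nat_lit 0x0) (nat_lit 0x400010008c000000000000000040002000000000000000000000000000) := T_40 (nat_lit 126) (nat_lit 109) (nat_lit 4) (nat_lit 8) (nat_lit 10) L106851 (by decide +kernel)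
theorem L106853 : W_40 (nat_lit 5) (nat_lit 0x6000400034000a0001000180000000000000000000000000000000) (nat_lit 0x0) (nat_lit 0x1400090008c000000000000000040002000000000000000000000000000) := T_40 (nat_lit 215) (nat_lit 232) (nat_lit 4) (nat_lit 11) (nat_lit 13) L106852 (by decide +kernel)
theorem L106854 : W_40 (nat_lit 6) (nat_lit 0x6000400034000a0001000080000000000000000000000000000000) (nat_lit 0x0) (nat_lit 0x1400090008c00000000000000014000a000000000000000000000000000) := T_40 (nat_lit 128) (nat_lit 111) (nat_lit 6) (nat_lit 8) (nat_lit 10) L106853 (by decide +kernel)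
theorem L106855 : W_40 (nat_lit 2) (nat_lit 0x2000f000480034001a00090001c0000000000000000000000000000000) (nat_lit 0x0) (nat_lit 0x200010000800000000000000000000000000000000) := D_40 (nat_lit 148) (nat_lit 165) (nat_lit 131) (nat_lit 6) (nat_lit 11) (nat_lit 12) (nat_lit 6) (nat_lit 11) (nat_lit 11) (by decide +kernel)
theorem L106856 : W_40 (nat_lit 3) (nat_lit 0x2000f000480034001a00010001c0000000000000000000000000000000) (nat_lit 0x0) (nat_lit 0x20000000200018000800000000000000000000000000000000) := T_40 (nat_lit 147) (nat_lit 197) (nat_lit 6) (nat_lit 10) (nat_lit 12) L106855 (by decide +kernel)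
theorem L106857 : W_40 (nat_lit 4) (nat_lit 0xf000480034001a00010001c0000000000000000000000000000000) (nat_lit 0x0) (nat_lit 0x3000000020000000200018000800000000000000000000000000000000) := T_40 (nat_lit 229) (nat_lit 228) (nat_lit 1) (nat_lit 11) (nat_lit 12) L106856 (by decide +kernel)
theorem L106858 : W_40 (nat_lit 5) (nat_lit 0xf000400034001a00010001c0000000000000000000000000000000) (nat_lit 0x0) (nat_lit 0x300000002c000000200018000800000000000000000000000000000000) := T_40 (nat_lit 195) (nat_lit 194) (nat_lit 0) (nat_lit 11) (nat_lit 12) L106857 (by decide +kernel)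
theorem L106859 : W_40 (nat_lit 6) (nat_lit 0xe000400034001a00010001c0000000000000000000000000000000) (nat_lit 0x0) (nat_lit 0x30001000ac000000200018000800000000000000000000000000000000) := T_40 (nat_lit 212) (nat_lit 199) (nat_lit 2) (nat_lit 8) (nat_lit 12) L106858 (by decide +kernel)
theorem L106860 : W_40 (nat_lit 7) (nat_lit 0xe000400034000a00010001c0000000000000000000000000000000) (nat_lit 0x0) (nat_lit 0xb0001000ac000000300018000800000000000000000000000000000000) := T_40 (nat_lit 164) (nat_lit 231) (nat_lit 5) (nat_lit 11) (nat_lit 9) L106859 (by decide +kernel)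
theorem L106861 : W_40 (nat_lit 8) (nat_lit 0x6000400034000a00010001c0000000000000000000000000000000) (nat_lit 0x0) (nat_lit 0x1b0009000ac000000300018000800000000000000000000000000000000) := T_40 (nat_lit 215) (nat_lit 232) (nat_lit 4) (nat_lit 11) (nat_lit 13) L106860 (by decide +kernel)
theorem L106862 : W_40 (nat_lit 9) (nat_lit 0x6000400034000a00010000c0000000000000000000000000000000) (nat_lit 0x0) (nat_lit 0x1b0009000ac000000300018000900008000000000000000000000000000) := T_40 (nat_lit 128) (nat_lit 111) (nat_lit 6) (nat_lit 8) (nat_lit 10) L106861 (by decide +kernel)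
theorem L106863 : W_40 (nat_lit 10) (nat_lit 0x6000400034000a0001000080000000000000000000000000000000) (nat_lit 0x0) (nat_lit 0x1b0009000ac00000030001800094000a000000000000000000000000000) := T_40 (nat_lit 126) (nat_lit 109) (nat_lit 4) (nat_lit 8) (nat_lit 10) L106862 (by decide +kernel)
theorem L106864 : W_40 (nat_lit 11) (nat_lit 0x2000400034000a0001000080000000000000000000000000000000) (nat_lit 0x0) (nat_lit 0x1f000d000ac00000030001800094000a000000000000000000000000000) := Q_40 (nat_lit 214) (C_40 L106847 (C_40 L106849 (C_40 L106854 (C_40 L106863 N_40)))) (by decide +kernel)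
theorem L106865 : W_40 (nat_lit 12) (nat_lit 0x2000000034000a0001000080000000000000000000000000000000) (nat_lit 0x0) (nat_lit 0x1f000d000ec00000030001c000f4007a000000000000000000000000000) := Q_40 (nat_lit 198) (C_40 L106797 (C_40 L106803 (C_40 L106795 (C_40 L106864 N_40)))) (by decide +kernel)
theorem L106866 : W_40 (nat_lit 2) (nat_lit 0x2000000034000a00010003c0000000000000000000000000000000) (nat_lit 0x0) (nat_lit 0x4000000000000c000000000000000000000000000000000000) := D_40 (nat_lit 146) (nat_lit 198) (nat_lit 147) (nat_lit 7) (nat_lit 10) (nat_lit 7) (nat_lit 3) (nat_lit 7) (nat_lit 7) (by decide +kernel)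
theorem L106867 : W_40 (nat_lit 3) (nat_lit 0x2000000034000a0001000380000000000000000000000000000000) (nat_lit 0x0) (nat_lit 0x4000000000000c000040002000000000000000000000000000) := T_40 (nat_lit 126) (nat_lit 109) (nat_lit 4) (nat_lit 8) (nat_lit 10) L106866 (by decide +kernel)
theorem L106868 : W_40 (nat_lit 4) (nat_lit 0x2000000034000a0005000380000000000000000000000000000000) (nat_lit 0x0) (nat_lit 0x20000000050018000400020000000000000000000000000000) := T_40 (nat_lit 160) (nat_lit 162) (nat_lit 3) (nat_lit 7) (nat_lit 9) L106754 (by decide +kernel)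
theorem L106869 : W_40 (nat_lit 5) (nat_lit 0x2000000034000a0001000380000000000000000000000000000000) (nat_lit 0x0) (nat_lit 0x6000000005001c000400020000000000000000000000000000) := T_40 (nat_lit 146) (nat_lit 198) (nat_lit 7) (nat_lit 10) (nat_lit 7) L106868 (by decide +kernel)
theorem L106870 : W_40 (nat_lit 2) (nat_lit 0x2000000034000a00050003c0000000000000000000000000000000) (nat_lit 0x0) (nat_lit 0x400030000000000000000000000000000) := D_40 (nat_lit 113) (nat_lit 112) (nat_lit 130) (nat_lit 2) (nat_lit 7) (nat_lit 7) (nat_lit 6) (nat_lit 10) (nat_lit 10) (by decide +kernel)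
theorem L106871 : W_40 (nat_lit 3) (nat_lit 0x2000000034000a0005000380000000000000000000000000000000) (nat_lit 0x0) (nat_lit 0x440032000000000000000000000000000) := T_40 (nat_lit 126) (nat_lit 109) (nat_lit 4) (nat_lit 8) (nat_lit 10) L106870 (by decide +kernel)
theorem L106872 : W_40 (nat_lit 4) (nat_lit 0x2000000034000a0001000380000000000000000000000000000000) (nat_lit 0x0) (nat_lit 0x40000000000004000440032000000000000000000000000000) := T_40 (nat_lit 146) (nat_lit 198) (nat_lit 7) (nat_lit 10) (nat_lit 7) L106871 (by decide +kernel)
theorem L106873 : W_40 (nat_lit 2) (nat_lit 0x2000000074000e00110007c0020000000000000000000000000000) (nat_lit 0x0) (nat_lit 0x200020000800000000000000000000000000000000) := D_40 (nat_lit 131) (nat_lit 149) (nat_lit 165) (nat_lit 3) (nat_lit 9) (nat_lit 7) (nat_lit 4) (nat_lit 12) (nat_lit 10) (by decide +kernel)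
theorem L106874 : W_40 (nat_lit 3) (nat_lit 0x2000000034000e00110007c0020000000000000000000000000000) (nat_lit 0x0) (nat_lit 0xc000200020000800000000000000000000000000000000) := T_40 (nat_lit 182) (nat_lit 183) (nat_lit 0) (nat_lit 13) (nat_lit 10) L106873 (by decide +kernel)
theorem L106875 : W_40 (nat_lit 4) (nat_lit 0x2000000034000e00010007c0020000000000000000000000000000) (nat_lit 0x0) (nat_lit 0xc000200038000800000000000000000000000000000000) := T_40 (nat_lit 148) (nat_lit 147) (nat_lit 3) (nat_lit 8) (nat_lit 7) L106874 (by decide +kernel)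
theorem L106876 : W_40 (nat_lit 5) (nat_lit 0x2000000034000e00010003c0020000000000000000000000000000) (nat_lit 0x0) (nat_lit 0xc000200038000c00040000000000000000000000000000) := T_40 (nat_lit 130) (nat_lit 114) (nat_lit 2) (nat_lit 8) (nat_lit 7) L106875 (by decide +kernel)
theorem L106877 : W_40 (nat_lit 6) (nat_lit 0x2000000034000a00010003c0020000000000000000000000000000) (nat_lit 0x0) (nat_lit 0xc000250038000c00040000000000000000000000000000) := T_40 (nat_lit 162) (nat_lit 160) (nat_lit 3) (nat_lit 7) (nat_lit 9) L106876 (by decide +kernel)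
theorem L106878 : W_40 (nat_lit 7) (nat_lit 0x2000000034000a00010003c0000000000000000000000000000000) (nat_lit 0x0) (nat_lit 0xc000250038000c00070000000000000000000000000000) := T_40 (nat_lit 113) (nat_lit 112) (nat_lit 2) (nat_lit 7) (nat_lit 7) L106877 (by decide +kernel)
theorem L106879 : W_40 (nat_lit 8) (nat_lit 0x2000000034000a0001000380000000000000000000000000000000) (nat_lit 0x0) (nat_lit 0xc000250038000c40072000000000000000000000000000) := T_40 (nat_lit 126) (nat_lit 109) (nat_lit 4) (nat_lit 8) (nat_lit 10) L106878 (by decide +kernel)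
theorem L106880 : W_40 (nat_lit 9) (nat_lit 0x2000000034000a0001000180000000000000000000000000000000) (nat_lit 0x0) (nat_lit 0x6000c00025003c000e40072000000000000000000000000000) := Q_40 (nat_lit 129) (C_40 L106867 (C_40 L106869 (C_40 L106872 (C_40 L106879 N_40)))) (by decide +kernel)
theorem L106881 : W_40 (nat_lit 10) (nat_lit 0x2000000034000a0001000080000000000000000000000000000000) (nat_lit 0x0) (nat_lit 0x6000c00025003c000f4007a000000000000000000000000000) := T_40 (nat_lit 128) (nat_lit 111) (nat_lit 6) (nat_lit 8) (nat_lit 10) L106880 (by decide +kernel)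
theorem L106882 : W_40 (nat_lit 13) (nat_lit 0x200000003400020001000080000000000000000000000000000000) (nat_lit 0x0) (nat_lit 0x3f001d001ec00c000fd003c000f4007a000000000000000000000000000) := Q_40 (nat_lit 163) (C_40 L106841 (C_40 L106843 (C_40 L106844 (C_40 L106865 (C_40 L106881 N_40))))) (by decide +kernel)
theorem L106883 : W_40 (nat_lit 4) (nat_lit 0x200000003400020001000180000000000000000000000000000000) (nat_lit 0x0) (nat_lit 0x4800750000000000000000000000000000000000000000) := T_40 (nat_lit 179) (nat_lit 160) (nat_lit 0) (nat_lit 11) (nat_lit 10) L106739 (by decide +kernel)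
theorem L106884 : W_40 (nat_lit 5) (nat_lit 0x200000003400020001000080000000000000000000000000000000) (nat_lit 0x0) (nat_lit 0x4800750000000100008000000000000000000000000000) := T_40 (nat_lit 128) (nat_lit 111) (nat_lit 6) (nat_lit 8) (nat_lit 10) L106883 (by decide +kernel)
theorem L106885 : W_40 (nat_lit 13) (nat_lit 0x200000003400020001000080000000000000000000000000000000) (nat_lit 0x0) (nat_lit 0x2000fc00d000ec00080035000800014000a000000000000000000000000000) := T_40 (nat_lit 179) (nat_lit 160) (nat_lit 0) (nat_lit 11) (nat_lit 10) L106789 (by decide +kernel)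
theorem L106886 : W_40 (nat_lit 14) (nat_lit 0x200000001400020001000080000000000000000000000000000000) (nat_lit 0x0) (nat_lit 0x2003fc01d001ec00e800fd003c000f4007a000000000000000000000000000) := Q_40 (nat_lit 181) (C_40 L106790 (C_40 L106791 (C_40 L106792 (C_40 L106882 (C_40 L106884 (C_40 L106885 N_40)))))) (by decide +kernel)
theorem L106887 : W_40 (nat_lit 9) (nat_lit 0x200000001400020001000080000000000000000000000000000000) (nat_lit 0x0) (nat_lit 0xf806b807de000000100008000000000000000000000000000) := Q_40 (nat_lit 179) (C_40 L106737 (C_40 L106741 (C_40 L106724 N_40))) (by decide +kernel)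
theorem L106888 : W_40 (nat_lit 9) (nat_lit 0x200000001400020001000080000000000000000000000000000000) (nat_lit 0x0) (nat_lit 0xf806b807de000000040002000000000000000000000000000) := Q_40 (nat_lit 179) (C_40 L106748 (C_40 L106752 (C_40 L106724 N_40))) (by decide +kernel)
theorem L106889 : W_40 (nat_lit 2) (nat_lit 0x200040007e00020001000180000000000000000000000000000000) (nat_lit 0x0) (nat_lit 0x700000000000000000000000000000000000000000) := D_40 (nat_lit 165) (nat_lit 164) (nat_lit 166) (nat_lit 2) (nat_lit 8) (nat_lit 10) (nat_lit 2) (nat_lit 9) (nat_lit 10) (by decide +kernel)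
theorem L106890 : W_40 (nat_lit 3) (nat_lit 0x200040003e00020001000180000000000000000000000000000000) (nat_lit 0x0) (nat_lit 0x4000740000000000000000000000000000000000000000) := T_40 (nat_lit 182) (nat_lit 162) (nat_lit 0) (nat_lit 12) (nat_lit 10) L106889 (by decide +kernel)
theorem L106891 : W_40 (nat_lit 4) (nat_lit 0x200040001e00020001000180000000000000000000000000000000) (nat_lit 0x0) (nat_lit 0x80006000740000000000000000000000000000000000000000) := T_40 (nat_lit 181) (nat_lit 199) (nat_lit 3) (nat_lit 8) (nat_lit 10) L106890 (by decide +kernel)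
theorem L106892 : W_40 (nat_lit 5) (nat_lit 0x200040001e00020001000080000000000000000000000000000000) (nat_lit 0x0) (nat_lit 0x80006000740000000100008000000000000000000000000000) := T_40 (nat_lit 128) (nat_lit 111) (nat_lit 6) (nat_lit 8) (nat_lit 10) L106891 (by decide +kernel)
theorem L106893 : W_40 (nat_lit 6) (nat_lit 0x200000001e00020001000080000000000000000000000000000000) (nat_lit 0x0) (nat_lit 0xe0006000740000000100008000000000000000000000000000) := T_40 (nat_lit 198) (nat_lit 197) (nat_lit 3) (nat_lit 7) (nat_lit 10) L106892 (by decide +kernel)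
theorem L106894 : W_40 (nat_lit 7) (nat_lit 0x200000001c00020001000080000000000000000000000000000000) (nat_lit 0x0) (nat_lit 0xe4006200740000000100008000000000000000000000000000) := T_40 (nat_lit 177) (nat_lit 194) (nat_lit 5) (nat_lit 8) (nat_lit 7) L106893 (by decide +kernel)
theorem L106895 : W_40 (nat_lit 2) (nat_lit 0x200040001e00120001000080000000000000000000000000000000) (nat_lit 0x0) (nat_lit 0x80002000200000000000000000000000000000000000000000) := D_40 (nat_lit 181) (nat_lit 165) (nat_lit 199) (nat_lit 2) (nat_lit 8) (nat_lit 10) (nat_lit 3) (nat_lit 8) (nat_lit 10) (by decide +kernel)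
theorem L106896 : W_40 (nat_lit 3) (nat_lit 0x200000001e00120001000080000000000000000000000000000000) (nat_lit 0x0) (nat_lit 0xe0002000200000000000000000000000000000000000000000) := T_40 (nat_lit 198) (nat_lit 197) (nat_lit 3) (nat_lit 7) (nat_lit 10) L106895 (by decide +kernel)
theorem L106897 : W_40 (nat_lit 4) (nat_lit 0x200000001e00020001000080000000000000000000000000000000) (nat_lit 0x0) (nat_lit 0xe0002000380000000000000000000000000000000000000000) := T_40 (nat_lit 164) (nat_lit 163) (nat_lit 2) (nat_lit 7) (nat_lit 10) L106896 (by decide +kernel)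
theorem L106898 : W_40 (nat_lit 5) (nat_lit 0x200000001c00020001000080000000000000000000000000000000) (nat_lit 0x0) (nat_lit 0xe4002200380000000000000000000000000000000000000000) := T_40 (nat_lit 177) (nat_lit 194) (nat_lit 5) (nat_lit 8) (nat_lit 7) L106897 (by decide +kernel)
theorem L106899 : W_40 (nat_lit 2) (nat_lit 0x200040003e00020001000180000000000000000000000000000000) (nat_lit 0x0) (nat_lit 0x380000000000000000000000000000000000000000) := D_40 (nat_lit 164) (nat_lit 165) (nat_lit 163) (nat_lit 2) (nat_lit 8) (nat_lit 10) (nat_lit 2) (nat_lit 7) (nat_lit 10) (by decide +kernel)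
theorem L106900 : W_40 (nat_lit 3) (nat_lit 0x200040003c00020001000180000000000000000000000000000000) (nat_lit 0x0) (nat_lit 0x20000200380000000000000000000000000000000000000000) := T_40 (nat_lit 177) (nat_lit 197) (nat_lit 3) (nat_lit 7) (nat_lit 10) L106899 (by decide +kernel)
theorem L106901 : W_40 (nat_lit 4) (nat_lit 0x200000003c00020001000180000000000000000000000000000000) (nat_lit 0x0) (nat_lit 0xe0000200380000000000000000000000000000000000000000) := T_40 (nat_lit 198) (nat_lit 199) (nat_lit 3) (nat_lit 8) (nat_lit 10) L106900 (by decide +kernel)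
theorem L106902 : W_40 (nat_lit 5) (nat_lit 0x200000003c00020001000080000000000000000000000000000000) (nat_lit 0x0) (nat_lit 0xe0000200380000000100008000000000000000000000000000) := T_40 (nat_lit 128) (nat_lit 111) (nat_lit 6) (nat_lit 8) (nat_lit 10) L106901 (by decide +kernel)
theorem L106903 : W_40 (nat_lit 6) (nat_lit 0x200000001c00020001000080000000000000000000000000000000) (nat_lit 0x0) (nat_lit 0x1e00062007c000000014000a000000000000000000000000000) := Q_40 (nat_lit 181) (C_40 L106782 (C_40 L106780 (C_40 L106771 (C_40 L106902 N_40)))) (by decide +kernel)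
theorem L106904 : W_40 (nat_lit 2) (nat_lit 0x200040003e000600010001c0000000000000000000000000000000) (nat_lit 0x0) (nat_lit 0x180080000000000000000000000000000000000000000) := D_40 (nat_lit 176) (nat_lit 175) (nat_lit 163) (nat_lit 2) (nat_lit 5) (nat_lit 10) (nat_lit 2) (nat_lit 6) (nat_lit 10) (by decide +kernel)
theorem L106905 : W_40 (nat_lit 3) (nat_lit 0x200040003e000200010001c0000000000000000000000000000000) (nat_lit 0x0) (nat_lit 0x41800c0000000000000000000000000000000000000000) := T_40 (nat_lit 162) (nat_lit 182) (nat_lit 0) (nat_lit 12) (nat_lit 10) L106904 (by decide +kernel)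
theorem L106906 : W_40 (nat_lit 4) (nat_lit 0x200040001e000200010001c0000000000000000000000000000000) (nat_lit 0x0) (nat_lit 0x800061800c0000000000000000000000000000000000000000) := T_40 (nat_lit 181) (nat_lit 199) (nat_lit 3) (nat_lit 8) (nat_lit 10) L106905 (by decide +kernel)
theorem L106907 : W_40 (nat_lit 5) (nat_lit 0x200040001e00020001000180000000000000000000000000000000) (nat_lit 0x0) (nat_lit 0x800061800c0000000040002000000000000000000000000000) := T_40 (nat_lit 126) (nat_lit 109) (nat_lit 4) (nat_lit 8) (nat_lit 10) L106906 (by decide +kernel)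
theorem L106908 : W_40 (nat_lit 6) (nat_lit 0x200000001e00020001000180000000000000000000000000000000) (nat_lit 0x0) (nat_lit 0xe00061800c0000000040002000000000000000000000000000) := T_40 (nat_lit 198) (nat_lit 197) (nat_lit 3) (nat_lit 7) (nat_lit 10) L106907 (by decide +kernel)
theorem L106909 : W_40 (nat_lit 7) (nat_lit 0x200000001c00020001000180000000000000000000000000000000) (nat_lit 0x0) (nat_lit 0xe40063800c0000000040002000000000000000000000000000) := T_40 (nat_lit 177) (nat_lit 194) (nat_lit 5) (nat_lit 8) (nat_lit 7) L106908 (by decide +kernel)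
theorem L106910 : W_40 (nat_lit 8) (nat_lit 0x200000001c00020001000080000000000000000000000000000000) (nat_lit 0x0) (nat_lit 0xe40063800c000000014000a000000000000000000000000000) := T_40 (nat_lit 128) (nat_lit 111) (nat_lit 6) (nat_lit 8) (nat_lit 10) L106909 (by decide +kernel)
theorem L106911 : W_40 (nat_lit 13) (nat_lit 0x200000001c00020001000080000000000000000000000000000000) (nat_lit 0x0) (nat_lit 0x2000fc00d001ec00600074000800014000a000000000000000000000000000) := Q_40 (nat_lit 181) (C_40 L106789 (C_40 L106782 (C_40 L106780 (C_40 L106771 N_40)))) (by decide +kernel)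
theorem L106912 : W_40 (nat_lit 14) (nat_lit 0x200000001400020001000080000000000000000000000000000000) (nat_lit 0x0) (nat_lit 0x2000fc00d001ef806b807ce00800014000a000000000000000000000000000) := Q_40 (nat_lit 179) (C_40 L106894 (C_40 L106748 (C_40 L106898 (C_40 L106903 (C_40 L106910 (C_40 L106911 N_40)))))) (by decide +kernel)
theorem L106913 : W_40 (nat_lit 6) (nat_lit 0x200000003400020001000080000000000000000000000000000000) (nat_lit 0x0) (nat_lit 0x1e0004a007c0000000100008000000000000000000000000000) := Q_40 (nat_lit 179) (C_40 L106782 (C_40 L106902 (C_40 L106771 N_40))) (by decide +kernel)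
theorem L106914 : W_40 (nat_lit 2) (nat_lit 0x2000f000400036001a0001000180000000000000000000000000000000) (nat_lit 0x0) (nat_lit 0x24001000000000000000000000000000000000000000000000000000000) := D_40 (nat_lit 216) (nat_lit 230) (nat_lit 233) (nat_lit 1) (nat_lit 12) (nat_lit 12) (nat_lit 7) (nat_lit 11) (nat_lit 9) (by decide +kernel)
theorem L106915 : W_40 (nat_lit 3) (nat_lit 0x2000f000400036000a0001000180000000000000000000000000000000) (nat_lit 0x0) (nat_lit 0x2c001000000000000100000000000000000000000000000000000000000) := T_40 (nat_lit 164) (nat_lit 231) (nat_lit 5) (nat_lit 11) (nat_lit 9) L106914 (by decide +kernel)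
theorem L106916 : W_40 (nat_lit 4) (nat_lit 0xf000400036000a0001000180000000000000000000000000000000) (nat_lit 0x0) (nat_lit 0x2f001000000000000100000000000000000000000000000000000000000) := T_40 (nat_lit 229) (nat_lit 228) (nat_lit 1) (nat_lit 11) (nat_lit 12) L106915 (by decide +kernel)
theorem L106917 : W_40 (nat_lit 5) (nat_lit 0xe000400036000a0001000180000000000000000000000000000000) (nat_lit 0x0) (nat_lit 0x2f001100080000000100000000000000000000000000000000000000000) := T_40 (nat_lit 212) (nat_lit 199) (nat_lit 2) (nat_lit 8) (nat_lit 12) L106916 (by decide +kernel)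
theorem L106918 : W_40 (nat_lit 6) (nat_lit 0xe000400036000a0001000080000000000000000000000000000000) (nat_lit 0x0) (nat_lit 0x2f001100080000000100000000100008000000000000000000000000000) := T_40 (nat_lit 128) (nat_lit 111) (nat_lit 6) (nat_lit 8) (nat_lit 10) L106917 (by decide +kernel)
theorem L106919 : W_40 (nat_lit 7) (nat_lit 0x6000400036000a0001000080000000000000000000000000000000) (nat_lit 0x0) (nat_lit 0x3f001900080000000100000000100008000000000000000000000000000) := T_40 (nat_lit 215) (nat_lit 232) (nat_lit 4) (nat_lit 11) (nat_lit 13) L106918 (by decide +kernel)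
theorem L106920 : W_40 (nat_lit 8) (nat_lit 0x6000400034000a0001000080000000000000000000000000000000) (nat_lit 0x0) (nat_lit 0x3f001900084000200100000000100008000000000000000000000000000) := T_40 (nat_lit 177) (nat_lit 194) (nat_lit 5) (nat_lit 8) (nat_lit 7) L106919 (by decide +kernel)
theorem L106921 : W_40 (nat_lit 2) (nat_lit 0x80006001600034000a0001000180000000000000000000000000000000) (nat_lit 0x0) (nat_lit 0x200010000800000000000000000000000000000000000000000000000000000) := D_40 (nat_lit 232) (nat_lit 215) (nat_lit 249) (nat_lit 7) (nat_lit 10) (nat_lit 9) (nat_lit 7) (nat_lit 10) (nat_lit 10) (by decide +kernel)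
theorem L106922 : W_40 (nat_lit 3) (nat_lit 0x6001600034000a0001000180000000000000000000000000000000) (nat_lit 0x0) (nat_lit 0x300018000800000000000000000000000000000000000000000000000000000) := T_40 (nat_lit 231) (nat_lit 248) (nat_lit 6) (nat_lit 10) (nat_lit 14) L106921 (by decide +kernel)
theorem L106923 : W_40 (nat_lit 4) (nat_lit 0x6000600034000a0001000180000000000000000000000000000000) (nat_lit 0x0) (nat_lit 0x300018000800180000000000000000000000000000000000000000000000000) := T_40 (nat_lit 200) (nat_lit 199) (nat_lit 1) (nat_lit 13) (nat_lit 11) L106922 (by decide +kernel)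
theorem L106924 : W_40 (nat_lit 5) (nat_lit 0x6000400034000a0001000180000000000000000000000000000000) (nat_lit 0x0) (nat_lit 0x30001c0008001a0000000000000000000000000000000000000000000000000) := T_40 (nat_lit 197) (nat_lit 230) (nat_lit 5) (nat_lit 10) (nat_lit 9) L106923 (by decide +kernel)
theorem L106925 : W_40 (nat_lit 6) (nat_lit 0x6000400034000a0001000080000000000000000000000000000000) (nat_lit 0x0) (nat_lit 0x30001c0008001a0000000000000000100008000000000000000000000000000) := T_40 (nat_lit 128) (nat_lit 111) (nat_lit 6) (nat_lit 8) (nat_lit 10) L106924 (by decide +kernel)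
theorem L106926 : W_40 (nat_lit 2) (nat_lit 0x2000f000400036001a00090001c0000000000000000000000000000000) (nat_lit 0x0) (nat_lit 0x200010000800000000000000000000000000000000) := D_40 (nat_lit 148) (nat_lit 165) (nat_lit 131) (nat_lit 6) (nat_lit 11) (nat_lit 12) (nat_lit 6) (nat_lit 11) (nat_lit 11) (by decide +kernel)
theorem L106927 : W_40 (nat_lit 3) (nat_lit 0x2000f000400036001a00010001c0000000000000000000000000000000) (nat_lit 0x0) (nat_lit 0x20000000200018000800000000000000000000000000000000) := T_40 (nat_lit 147) (nat_lit 197) (nat_lit 6) (nat_lit 10) (nat_lit 12) L106926 (by decide +kernel)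
theorem L106928 : W_40 (nat_lit 4) (nat_lit 0xf000400036001a00010001c0000000000000000000000000000000) (nat_lit 0x0) (nat_lit 0x3000000020000000200018000800000000000000000000000000000000) := T_40 (nat_lit 229) (nat_lit 228) (nat_lit 1) (nat_lit 11) (nat_lit 12) L106927 (by decide +kernel)
theorem L106929 : W_40 (nat_lit 5) (nat_lit 0xe000400036001a00010001c0000000000000000000000000000000) (nat_lit 0x0) (nat_lit 0x30001000a0000000200018000800000000000000000000000000000000) := T_40 (nat_lit 212) (nat_lit 199) (nat_lit 2) (nat_lit 8) (nat_lit 12) L106928 (by decide +kernel)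
theorem L106930 : W_40 (nat_lit 6) (nat_lit 0xe000400036000a00010001c0000000000000000000000000000000) (nat_lit 0x0) (nat_lit 0xb0001000a0000000300018000800000000000000000000000000000000) := T_40 (nat_lit 164) (nat_lit 231) (nat_lit 5) (nat_lit 11) (nat_lit 9) L106929 (by decide +kernel)
theorem L106931 : W_40 (nat_lit 7) (nat_lit 0x6000400036000a00010001c0000000000000000000000000000000) (nat_lit 0x0) (nat_lit 0x1b0009000a0000000300018000800000000000000000000000000000000) := T_40 (nat_lit 215) (nat_lit 232) (nat_lit 4) (nat_lit 11) (nat_lit 13) L106930 (by decide +kernel)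
theorem L106932 : W_40 (nat_lit 8) (nat_lit 0x6000400036000a00010000c0000000000000000000000000000000) (nat_lit 0x0) (nat_lit 0x1b0009000a0000000300018000900008000000000000000000000000000) := T_40 (nat_lit 128) (nat_lit 111) (nat_lit 6) (nat_lit 8) (nat_lit 10) L106931 (by decide +kernel)
theorem L106933 : W_40 (nat_lit 9) (nat_lit 0x6000400034000a00010000c0000000000000000000000000000000) (nat_lit 0x0) (nat_lit 0x1b0009000a4000200300018000900008000000000000000000000000000) := T_40 (nat_lit 177) (nat_lit 194) (nat_lit 5) (nat_lit 8) (nat_lit 7) L106932 (by decide +kernel)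
theorem L106934 : W_40 (nat_lit 10) (nat_lit 0x6000400034000a0001000080000000000000000000000000000000) (nat_lit 0x0) (nat_lit 0x1b0009000a400020030001800094000a000000000000000000000000000) := T_40 (nat_lit 126) (nat_lit 109) (nat_lit 4) (nat_lit 8) (nat_lit 10) L106933 (by decide +kernel)
theorem L106935 : W_40 (nat_lit 2) (nat_lit 0x2000f000400034000a0001000180000000000000000000000000000000) (nat_lit 0x0) (nat_lit 0x4001000020000000000000000000000000000000000000000000000000) := D_40 (nat_lit 230) (nat_lit 197) (nat_lit 216) (nat_lit 5) (nat_lit 10) (nat_lit 9) (nat_lit 1) (nat_lit 12) (nat_lit 12) (by decide +kernel)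
theorem L106936 : W_40 (nat_lit 3) (nat_lit 0xf000400034000a0001000180000000000000000000000000000000) (nat_lit 0x0) (nat_lit 0x7001000020000000000000000000000000000000000000000000000000) := T_40 (nat_lit 229) (nat_lit 228) (nat_lit 1) (nat_lit 11) (nat_lit 12) L106935 (by decide +kernel)
theorem L106937 : W_40 (nat_lit 4) (nat_lit 0xe000400034000a0001000180000000000000000000000000000000) (nat_lit 0x0) (nat_lit 0x70011000a0000000000000000000000000000000000000000000000000) := T_40 (nat_lit 212) (nat_lit 199) (nat_lit 2) (nat_lit 8) (nat_lit 12) L106936 (by decide +kernel)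
theorem L106938 : W_40 (nat_lit 5) (nat_lit 0xe000400034000a0001000080000000000000000000000000000000) (nat_lit 0x0) (nat_lit 0x70011000a0000000000000000100008000000000000000000000000000) := T_40 (nat_lit 128) (nat_lit 111) (nat_lit 6) (nat_lit 8) (nat_lit 10) L106937 (by decide +kernel)
theorem L106939 : W_40 (nat_lit 6) (nat_lit 0x6000400034000a0001000080000000000000000000000000000000) (nat_lit 0x0) (nat_lit 0x170019000a0000000000000000100008000000000000000000000000000) := T_40 (nat_lit 215) (nat_lit 232) (nat_lit 4) (nat_lit 11) (nat_lit 13) L106938 (by decide +kernel)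
theorem L106940 : W_40 (nat_lit 11) (nat_lit 0x2000400034000a0001000080000000000000000000000000000000) (nat_lit 0x0) (nat_lit 0x30003f001d001a400020030001800094000a000000000000000000000000000) := Q_40 (nat_lit 214) (C_40 L106849 (C_40 L106920 (C_40 L106925 (C_40 L106934 (C_40 L106939 N_40))))) (by decide +kernel)
theorem L106941 : W_40 (nat_lit 12) (nat_lit 0x2000000034000a0001000080000000000000000000000000000000) (nat_lit 0x0) (nat_lit 0x30003f001d001e400020030001c000f4007a000000000000000000000000000) := Q_40 (nat_lit 198) (C_40 L106797 (C_40 L106803 (C_40 L106795 (C_40 L106940 N_40)))) (by decide +kernel)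
theorem L106942 : W_40 (nat_lit 13) (nat_lit 0x200000003400020001000080000000000000000000000000000000) (nat_lit 0x0) (nat_lit 0x30003f001d001e400c200fd003c000f4007a000000000000000000000000000) := Q_40 (nat_lit 163) (C_40 L106841 (C_40 L106881 (C_40 L106844 (C_40 L106941 N_40)))) (by decide +kernel)
theorem L106943 : W_40 (nat_lit 6) (nat_lit 0x2000000034000200010000c0000000000000000000000000000000) (nat_lit 0x0) (nat_lit 0xe0000a00390000000100008000000000000000000000000000) := T_40 (nat_lit 179) (nat_lit 160) (nat_lit 0) (nat_lit 11) (nat_lit 10) L106728 (by decide +kernel)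
theorem L106944 : W_40 (nat_lit 7) (nat_lit 0x200000003400020001000080000000000000000000000000000000) (nat_lit 0x0) (nat_lit 0xe0000a0039000000014000a000000000000000000000000000) := T_40 (nat_lit 126) (nat_lit 109) (nat_lit 4) (nat_lit 8) (nat_lit 10) L106943 (by decide +kernel)
theorem L106945 : W_40 (nat_lit 14) (nat_lit 0x200000001400020001000080000000000000000000000000000000) (nat_lit 0x0) (nat_lit 0x30003f001d001e400ea00fd003c000f4007a000000000000000000000000000) := Q_40 (nat_lit 181) (C_40 L106913 (C_40 L106884 (C_40 L106792 (C_40 L106942 (C_40 L106791 (C_40 L106944 N_40)))))) (by decide +kernel)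
theorem L106946 : W_40 (nat_lit 2) (nat_lit 0x200021001f00028001000180000000000000000000000000000000) (nat_lit 0x0) (nat_lit 0x800080040000000000000000000000000000000000000000) := D_40 (nat_lit 175) (nat_lit 162) (nat_lit 191) (nat_lit 2) (nat_lit 5) (nat_lit 10) (nat_lit 1) (nat_lit 8) (nat_lit 10) (by decide +kernel)
theorem L106947 : W_40 (nat_lit 3) (nat_lit 0x200020001f00028001000180000000000000000000000000000000) (nat_lit 0x0) (nat_lit 0x3800080040000000000000000000000000000000000000000) := T_40 (nat_lit 192) (nat_lit 193) (nat_lit 1) (nat_lit 9) (nat_lit 10) L106946 (by decide +kernel)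
theorem L106948 : W_40 (nat_lit 4) (nat_lit 0x200020001e00028001000180000000000000000000000000000000) (nat_lit 0x0) (nat_lit 0x3800180044000000000000000000000000000000000000000) := T_40 (nat_lit 176) (nat_lit 158) (nat_lit 0) (nat_lit 9) (nat_lit 10) L106947 (by decide +kernel)
theorem L106949 : W_40 (nat_lit 5) (nat_lit 0x200020001e00028001000080000000000000000000000000000000) (nat_lit 0x0) (nat_lit 0x3800180044000000100008000000000000000000000000000) := T_40 (nat_lit 128) (nat_lit 111) (nat_lit 6) (nat_lit 8) (nat_lit 10) L106948 (by decide +kernel)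
theorem L106950 : W_40 (nat_lit 6) (nat_lit 0x200020001e00020001000080000000000000000000000000000000) (nat_lit 0x0) (nat_lit 0x380018005c000000100008000000000000000000000000000) := T_40 (nat_lit 159) (nat_lit 160) (nat_lit 0) (nat_lit 10) (nat_lit 10) L106949 (by decide +kernel)
theorem L106951 : W_40 (nat_lit 7) (nat_lit 0x200000001e00020001000080000000000000000000000000000000) (nat_lit 0x0) (nat_lit 0x6380018005c000000100008000000000000000000000000000) := T_40 (nat_lit 197) (nat_lit 198) (nat_lit 3) (nat_lit 7) (nat_lit 10) L106950 (by decide +kernel)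
theorem L106952 : W_40 (nat_lit 8) (nat_lit 0x200000001c00020001000080000000000000000000000000000000) (nat_lit 0x0) (nat_lit 0x6780038005c000000100008000000000000000000000000000) := T_40 (nat_lit 177) (nat_lit 194) (nat_lit 5) (nat_lit 8) (nat_lit 7) L106951 (by decide +kernel)
theorem L106953 : W_40 (nat_lit 14) (nat_lit 0x200000001400020001000080000000000000000000000000000000) (nat_lit 0x0) (nat_lit 0x2000fc00d001ef806b8075c00800014000a000000000000000000000000000) := Q_40 (nat_lit 179) (C_40 L106911 (C_40 L106894 (C_40 L106752 (C_40 L106724 (C_40 L106952 N_40))))) (by decide +kernel)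
theorem L106954 : W_40 (nat_lit 2) (nat_lit 0x200000001f000200010000c0000000000000000000000000000000) (nat_lit 0x0) (nat_lit 0x1c000000000000000000000000000000000000000) := D_40 (nat_lit 159) (nat_lit 160) (nat_lit 158) (nat_lit 0) (nat_lit 10) (nat_lit 10) (nat_lit 0) (nat_lit 9) (nat_lit 10) (by decide +kernel)
theorem L106955 : W_40 (nat_lit 2) (nat_lit 0x200001001f000a40010000c0000000000000000000000000000000) (nat_lit 0x0) (nat_lit 0x800080002000000000000000000000000000000000000000) := D_40 (nat_lit 175) (nat_lit 191) (nat_lit 157) (nat_lit 1) (nat_lit 8) (nat_lit 10) (nat_lit 0) (nat_lit 8) (nat_lit 10) (by decide +kernel)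
theorem L106956 : W_40 (nat_lit 3) (nat_lit 0x200001001f000a00010000c0000000000000000000000000000000) (nat_lit 0x0) (nat_lit 0x80008000e000000000000000000000000000000000000000) := T_40 (nat_lit 158) (nat_lit 159) (nat_lit 0) (nat_lit 9) (nat_lit 10) L106955 (by decide +kernel)
theorem L106957 : W_40 (nat_lit 4) (nat_lit 0x200000001f000a00010000c0000000000000000000000000000000) (nat_lit 0x0) (nat_lit 0x380008000e000000000000000000000000000000000000000) := T_40 (nat_lit 192) (nat_lit 193) (nat_lit 1) (nat_lit 9) (nat_lit 10) L106956 (by decide +kernel)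
theorem L106958 : W_40 (nat_lit 5) (nat_lit 0x200000001f000200010000c0000000000000000000000000000000) (nat_lit 0x0) (nat_lit 0x380008018e000000000000000000000000000000000000000) := T_40 (nat_lit 163) (nat_lit 164) (nat_lit 2) (nat_lit 7) (nat_lit 10) L106957 (by decide +kernel)
theorem L106959 : W_40 (nat_lit 2) (nat_lit 0x600021001fc00a00010000c0000000000000000000000000000000) (nat_lit 0x0) (nat_lit 0x7000000000000000000000000000000000000000) := D_40 (nat_lit 157) (nat_lit 156) (nat_lit 158) (nat_lit 0) (nat_lit 7) (nat_lit 10) (nat_lit 0) (nat_lit 8) (nat_lit 10) (by decide +kernel)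
theorem L106960 : W_40 (nat_lit 3) (nat_lit 0x600021001f800a00010000c0000000000000000000000000000000) (nat_lit 0x0) (nat_lit 0x40017000000000000000000000000000000000000000) := T_40 (nat_lit 174) (nat_lit 160) (nat_lit 2) (nat_lit 4) (nat_lit 10) L106959 (by decide +kernel)
theorem L106961 : W_40 (nat_lit 4) (nat_lit 0x200021001f800a00010000c0000000000000000000000000000000) (nat_lit 0x0) (nat_lit 0x4000400000000040017000000000000000000000000000000000000000) := T_40 (nat_lit 214) (nat_lit 230) (nat_lit 5) (nat_lit 10) (nat_lit 9) L106960 (by decide +kernel)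
theorem L106962 : W_40 (nat_lit 5) (nat_lit 0x200021001f000a00010000c0000000000000000000000000000000) (nat_lit 0x0) (nat_lit 0x40004000008000c0017000000000000000000000000000000000000000) := T_40 (nat_lit 175) (nat_lit 191) (nat_lit 1) (nat_lit 8) (nat_lit 10) L106961 (by decide +kernel)
theorem L106963 : W_40 (nat_lit 6) (nat_lit 0x200001001f000a00010000c0000000000000000000000000000000) (nat_lit 0x0) (nat_lit 0x40004000608000c0017000000000000000000000000000000000000000) := T_40 (nat_lit 197) (nat_lit 198) (nat_lit 3) (nat_lit 7) (nat_lit 10) L106962 (by decide +kernel)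
theorem L106964 : W_40 (nat_lit 7) (nat_lit 0x200000001f000a00010000c0000000000000000000000000000000) (nat_lit 0x0) (nat_lit 0x40004000638000c0017000000000000000000000000000000000000000) := T_40 (nat_lit 192) (nat_lit 193) (nat_lit 1) (nat_lit 9) (nat_lit 10) L106963 (by decide +kernel)
theorem L106965 : W_40 (nat_lit 8) (nat_lit 0x200000001f000200010000c0000000000000000000000000000000) (nat_lit 0x0) (nat_lit 0x40004000638000c0197000000000000000000000000000000000000000) := T_40 (nat_lit 163) (nat_lit 164) (nat_lit 2) (nat_lit 7) (nat_lit 10) L106964 (by decide +kernel)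
theorem L106966 : W_40 (nat_lit 2) (nat_lit 0x200020001f800b00010000c0000000000000000000000000000000) (nat_lit 0x0) (nat_lit 0x3800000000000000000000000000000000000000000000000) := D_40 (nat_lit 192) (nat_lit 193) (nat_lit 191) (nat_lit 1) (nat_lit 9) (nat_lit 10) (nat_lit 1) (nat_lit 8) (nat_lit 10) (by decide +kernel)
theorem L106967 : W_40 (nat_lit 3) (nat_lit 0x200020001f000b00010000c0000000000000000000000000000000) (nat_lit 0x0) (nat_lit 0x38000c0000000000000000000000000000000000000000000) := T_40 (nat_lit 175) (nat_lit 174) (nat_lit 2) (nat_lit 4) (nat_lit 10) L106966 (by decide +kernel)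
theorem L106968 : W_40 (nat_lit 4) (nat_lit 0x200020001f000300010000c0000000000000000000000000000000) (nat_lit 0x0) (nat_lit 0x38000c0180000000000000000000000000000000000000000) := T_40 (nat_lit 163) (nat_lit 164) (nat_lit 2) (nat_lit 7) (nat_lit 10) L106967 (by decide +kernel)
theorem L106969 : W_40 (nat_lit 5) (nat_lit 0x200020001f000200010000c0000000000000000000000000000000) (nat_lit 0x0) (nat_lit 0x38000c0198000000000000000000000000000000000000000) := T_40 (nat_lit 160) (nat_lit 159) (nat_lit 0) (nat_lit 10) (nat_lit 10) L106968 (by decide +kernel)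
theorem L106970 : W_40 (nat_lit 6) (nat_lit 0x200000001f000200010000c0000000000000000000000000000000) (nat_lit 0x0) (nat_lit 0x638000c0198000000000000000000000000000000000000000) := T_40 (nat_lit 197) (nat_lit 198) (nat_lit 3) (nat_lit 7) (nat_lit 10) L106969 (by decide +kernel)
theorem L106971 : W_40 (nat_lit 9) (nat_lit 0x200000001e000200010000c0000000000000000000000000000000) (nat_lit 0x0) (nat_lit 0x40004000638001c019f000000000000000000000000000000000000000) := Q_40 (nat_lit 176) (C_40 L106954 (C_40 L106958 (C_40 L106965 (C_40 L106970 N_40)))) (by decide +kernel)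
theorem L106972 : W_40 (nat_lit 10) (nat_lit 0x200000001c000200010000c0000000000000000000000000000000) (nat_lit 0x0) (nat_lit 0x40004000678003c019f000000000000000000000000000000000000000) := T_40 (nat_lit 177) (nat_lit 194) (nat_lit 5) (nat_lit 8) (nat_lit 7) L106971 (by decide +kernel)
theorem L106973 : W_40 (nat_lit 11) (nat_lit 0x200000001c00020001000080000000000000000000000000000000) (nat_lit 0x0) (nat_lit 0x40004000678003c019f000000040002000000000000000000000000000) := T_40 (nat_lit 126) (nat_lit 109) (nat_lit 4) (nat_lit 8) (nat_lit 10) L106972 (by decide +kernel)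
theorem L106974 : W_40 (nat_lit 2) (nat_lit 0x300008007c002200010001c0000000000000000000000000000000) (nat_lit 0x0) (nat_lit 0x1c0000000000000000000000000000000000000000000000000) := D_40 (nat_lit 199) (nat_lit 200) (nat_lit 198) (nat_lit 3) (nat_lit 9) (nat_lit 10) (nat_lit 3) (nat_lit 8) (nat_lit 10) (by decide +kernel)
theorem L106975 : W_40 (nat_lit 3) (nat_lit 0x300008003c002200010001c0000000000000000000000000000000) (nat_lit 0x0) (nat_lit 0x1c0004000400000000000000000000000000000000000000000) := T_40 (nat_lit 182) (nat_lit 166) (nat_lit 2) (nat_lit 9) (nat_lit 10) L106974 (by decide +kernel)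
theorem L106976 : W_40 (nat_lit 4) (nat_lit 0x200008003c002200010001c0000000000000000000000000000000) (nat_lit 0x0) (nat_lit 0x40001001c0004000400000000000000000000000000000000000000000) := T_40 (nat_lit 212) (nat_lit 230) (nat_lit 7) (nat_lit 8) (nat_lit 9) L106975 (by decide +kernel)
theorem L106977 : W_40 (nat_lit 5) (nat_lit 0x200008003c000200010001c0000000000000000000000000000000) (nat_lit 0x0) (nat_lit 0x40001001c0004000700000000000000000000000000000000000000000) := T_40 (nat_lit 165) (nat_lit 164) (nat_lit 2) (nat_lit 8) (nat_lit 10) L106976 (by decide +kernel)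
theorem L106978 : W_40 (nat_lit 6) (nat_lit 0x200000003c000200010001c0000000000000000000000000000000) (nat_lit 0x0) (nat_lit 0x40001001cc004000700000000000000000000000000000000000000000) := T_40 (nat_lit 195) (nat_lit 194) (nat_lit 1) (nat_lit 11) (nat_lit 10) L106977 (by decide +kernel)
theorem L106979 : W_40 (nat_lit 7) (nat_lit 0x200000001c000200010001c0000000000000000000000000000000) (nat_lit 0x0) (nat_lit 0x40001001cc006000710000000000000000000000000000000000000000) := T_40 (nat_lit 181) (nat_lit 160) (nat_lit 0) (nat_lit 11) (nat_lit 10) L106978 (by decide +kernel)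
theorem L106980 : W_40 (nat_lit 8) (nat_lit 0x200000001c00020001000180000000000000000000000000000000) (nat_lit 0x0) (nat_lit 0x40001001cc006000710000000040002000000000000000000000000000) := T_40 (nat_lit 126) (nat_lit 109) (nat_lit 4) (nat_lit 8) (nat_lit 10) L106979 (by decide +kernel)
theorem L106981 : W_40 (nat_lit 9) (nat_lit 0x200000001c00020001000080000000000000000000000000000000) (nat_lit 0x0) (nat_lit 0x40001001cc00600071000000014000a000000000000000000000000000) := T_40 (nat_lit 128) (nat_lit 111) (nat_lit 6) (nat_lit 8) (nat_lit 10) L106980 (by decide +kernel)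
theorem L106982 : W_40 (nat_lit 12) (nat_lit 0x200000001400020001000080000000000000000000000000000000) (nat_lit 0x0) (nat_lit 0x40005001ef806bc079f00000014000a000000000000000000000000000) := Q_40 (nat_lit 179) (C_40 L106898 (C_40 L106724 (C_40 L106730 (C_40 L106973 (C_40 L106981 N_40))))) (by decide +kernel)
theorem L106983 : W_40 (nat_lit 2) (nat_lit 0x2000f000400034000a00010001c0000000000000000000000000000000) (nat_lit 0x0) (nat_lit 0x4001000008000000000000000000000000000000000000000000000000) := D_40 (nat_lit 230) (nat_lit 195) (nat_lit 216) (nat_lit 7) (nat_lit 8) (nat_lit 9) (nat_lit 1) (nat_lit 12) (nat_lit 12) (by decide +kernel)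
theorem L106984 : W_40 (nat_lit 3) (nat_lit 0xf000400034000a00010001c0000000000000000000000000000000) (nat_lit 0x0) (nat_lit 0x7001000008000000000000000000000000000000000000000000000000) := T_40 (nat_lit 229) (nat_lit 228) (nat_lit 1) (nat_lit 11) (nat_lit 12) L106983 (by decide +kernel)
theorem L106985 : W_40 (nat_lit 4) (nat_lit 0xe000400034000a00010001c0000000000000000000000000000000) (nat_lit 0x0) (nat_lit 0x7001100088000000000000000000000000000000000000000000000000) := T_40 (nat_lit 212) (nat_lit 199) (nat_lit 2) (nat_lit 8) (nat_lit 12) L106984 (by decide +kernel)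
theorem L106986 : W_40 (nat_lit 5) (nat_lit 0xe000400034000a00010000c0000000000000000000000000000000) (nat_lit 0x0) (nat_lit 0x7001100088000000000000000100008000000000000000000000000000) := T_40 (nat_lit 128) (nat_lit 111) (nat_lit 6) (nat_lit 8) (nat_lit 10) L106985 (by decide +kernel)
theorem L106987 : W_40 (nat_lit 6) (nat_lit 0x6000400034000a00010000c0000000000000000000000000000000) (nat_lit 0x0) (nat_lit 0x17001900088000000000000000100008000000000000000000000000000) := T_40 (nat_lit 215) (nat_lit 232) (nat_lit 4) (nat_lit 11) (nat_lit 13) L106986 (by decide +kernel)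
theorem L106988 : W_40 (nat_lit 7) (nat_lit 0x6000400034000a0001000080000000000000000000000000000000) (nat_lit 0x0) (nat_lit 0x1700190008800000000000000014000a000000000000000000000000000) := T_40 (nat_lit 126) (nat_lit 109) (nat_lit 4) (nat_lit 8) (nat_lit 10) L106987 (by decide +kernel)
theorem L106989 : W_40 (nat_lit 2) (nat_lit 0x2000f000400034001a00090001c0000000000000000000000000000000) (nat_lit 0x0) (nat_lit 0x200010000800000000000000000000000000000000) := D_40 (nat_lit 148) (nat_lit 165) (nat_lit 131) (nat_lit 6) (nat_lit 11) (nat_lit 12) (nat_lit 6) (nat_lit 11) (nat_lit 11) (by decide +kernel)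
theorem L106990 : W_40 (nat_lit 3) (nat_lit 0x2000f000400034001a00010001c0000000000000000000000000000000) (nat_lit 0x0) (nat_lit 0x20000000200018000800000000000000000000000000000000) := T_40 (nat_lit 147) (nat_lit 197) (nat_lit 6) (nat_lit 10) (nat_lit 12) L106989 (by decide +kernel)
theorem L106991 : W_40 (nat_lit 4) (nat_lit 0xf000400034001a00010001c0000000000000000000000000000000) (nat_lit 0x0) (nat_lit 0x3000000020000000200018000800000000000000000000000000000000) := T_40 (nat_lit 229) (nat_lit 228) (nat_lit 1) (nat_lit 11) (nat_lit 12) L106990 (by decide +kernel)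
theorem L106992 : W_40 (nat_lit 5) (nat_lit 0xe000400034001a00010001c0000000000000000000000000000000) (nat_lit 0x0) (nat_lit 0x30001000a0000000200018000800000000000000000000000000000000) := T_40 (nat_lit 212) (nat_lit 199) (nat_lit 2) (nat_lit 8) (nat_lit 12) L106991 (by decide +kernel)
theorem L106993 : W_40 (nat_lit 6) (nat_lit 0xe000400034000a00010001c0000000000000000000000000000000) (nat_lit 0x0) (nat_lit 0xb0001000a0000000300018000800000000000000000000000000000000) := T_40 (nat_lit 164) (nat_lit 231) (nat_lit 5) (nat_lit 11) (nat_lit 9) L106992 (by decide +kernel)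
theorem L106994 : W_40 (nat_lit 7) (nat_lit 0x6000400034000a00010001c0000000000000000000000000000000) (nat_lit 0x0) (nat_lit 0x1b0009000a0000000300018000800000000000000000000000000000000) := T_40 (nat_lit 215) (nat_lit 232) (nat_lit 4) (nat_lit 11) (nat_lit 13) L106993 (by decide +kernel)
theorem L106995 : W_40 (nat_lit 8) (nat_lit 0x6000400034000a0001000180000000000000000000000000000000) (nat_lit 0x0) (nat_lit 0x1b0009000a0000000300018000840002000000000000000000000000000) := T_40 (nat_lit 126) (nat_lit 109) (nat_lit 4) (nat_lit 8) (nat_lit 10) L106994 (by decide +kernel)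
theorem L106996 : W_40 (nat_lit 9) (nat_lit 0x6000400034000a0001000080000000000000000000000000000000) (nat_lit 0x0) (nat_lit 0x1b0009000a000000030001800094000a000000000000000000000000000) := T_40 (nat_lit 128) (nat_lit 111) (nat_lit 6) (nat_lit 8) (nat_lit 10) L106995 (by decide +kernel)
theorem L106997 : W_40 (nat_lit 10) (nat_lit 0x2000400034000a0001000080000000000000000000000000000000) (nat_lit 0x0) (nat_lit 0x1f001d000a800000030001800094000a000000000000000000000000000) := Q_40 (nat_lit 214) (C_40 L106939 (C_40 L106849 (C_40 L106988 (C_40 L106996 N_40)))) (by decide +kernel)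
theorem L106998 : W_40 (nat_lit 11) (nat_lit 0x2000000034000a0001000080000000000000000000000000000000) (nat_lit 0x0) (nat_lit 0x1f001d000e800000030001c000f4007a000000000000000000000000000) := Q_40 (nat_lit 198) (C_40 L106803 (C_40 L106797 (C_40 L106795 (C_40 L106997 N_40)))) (by decide +kernel)
theorem L106999 : W_40 (nat_lit 12) (nat_lit 0x200000003400020001000080000000000000000000000000000000) (nat_lit 0x0) (nat_lit 0x3f001d001e800c000fd003c000f4007a000000000000000000000000000) := Q_40 (nat_lit 163) (C_40 L106881 (C_40 L106844 (C_40 L106841 (C_40 L106998 N_40)))) (by decide +kernel)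
theorem L107000 : W_40 (nat_lit 13) (nat_lit 0x200000001400020001000080000000000000000000000000000000) (nat_lit 0x0) (nat_lit 0x3f001d001e800ea00fd003c000f4007a000000000000000000000000000) := Q_40 (nat_lit 181) (C_40 L106913 (C_40 L106884 (C_40 L106944 (C_40 L106792 (C_40 L106999 (C_40 L106791 N_40)))))) (by decide +kernel)
theorem L107001 : W_40 (nat_lit 2) (nat_lit 0x2000000016000a00050003c0010000000000000000000000000000) (nat_lit 0x0) (nat_lit 0x40002000100000000000000000000000000000000000000000) := D_40 (nat_lit 181) (nat_lit 198) (nat_lit 164) (nat_lit 7) (nat_lit 10) (nat_lit 7) (nat_lit 7) (nat_lit 10) (nat_lit 6) (by decide +kernel)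
theorem L107002 : W_40 (nat_lit 3) (nat_lit 0x2000000016000a00010003c0010000000000000000000000000000) (nat_lit 0x0) (nat_lit 0x4000200010000c000000000000000000000000000000000000) := T_40 (nat_lit 146) (nat_lit 147) (nat_lit 3) (nat_lit 7) (nat_lit 7) L107001 (by decide +kernel)
theorem L107003 : W_40 (nat_lit 4) (nat_lit 0x2000000016000a00010003c0000000000000000000000000000000) (nat_lit 0x0) (nat_lit 0x4000200010000c000000030000000000000000000000000000) := T_40 (nat_lit 112) (nat_lit 113) (nat_lit 2) (nat_lit 7) (nat_lit 7) L107002 (by decide +kernel)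
theorem L107004 : W_40 (nat_lit 5) (nat_lit 0x2000000014000a00010003c0000000000000000000000000000000) (nat_lit 0x0) (nat_lit 0x4400220010000c000000030000000000000000000000000000) := T_40 (nat_lit 177) (nat_lit 194) (nat_lit 5) (nat_lit 8) (nat_lit 7) L107003 (by decide +kernel)
theorem L107005 : W_40 (nat_lit 2) (nat_lit 0x2000000014000a00050003c0000000000000000000000000000000) (nat_lit 0x0) (nat_lit 0x400030000000000000000000000000000) := D_40 (nat_lit 113) (nat_lit 112) (nat_lit 130) (nat_lit 2) (nat_lit 7) (nat_lit 7) (nat_lit 6) (nat_lit 10) (nat_lit 10) (by decide +kernel)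
theorem L107006 : W_40 (nat_lit 3) (nat_lit 0x2000000014000a00010003c0000000000000000000000000000000) (nat_lit 0x0) (nat_lit 0xc000400030000000000000000000000000000) := T_40 (nat_lit 146) (nat_lit 147) (nat_lit 3) (nat_lit 7) (nat_lit 7) L107005 (by decide +kernel)
theorem L107007 : W_40 (nat_lit 2) (nat_lit 0x2000000014000a00010003c0020000000000000000000000000000) (nat_lit 0x0) (nat_lit 0x4000400040000000000000000000000000000) := D_40 (nat_lit 130) (nat_lit 114) (nat_lit 146) (nat_lit 2) (nat_lit 8) (nat_lit 7) (nat_lit 6) (nat_lit 10) (nat_lit 10) (by decide +kernel)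
theorem L107008 : W_40 (nat_lit 3) (nat_lit 0x2000000014000a00010003c0000000000000000000000000000000) (nat_lit 0x0) (nat_lit 0x4000400070000000000000000000000000000) := T_40 (nat_lit 113) (nat_lit 112) (nat_lit 2) (nat_lit 7) (nat_lit 7) L107007 (by decide +kernel)
theorem L107009 : W_40 (nat_lit 2) (nat_lit 0x2000000016001a00010003c0020000000000000000000000000000) (nat_lit 0x0) (nat_lit 0x8000400040000000000000000000000000000) := D_40 (nat_lit 130) (nat_lit 114) (nat_lit 147) (nat_lit 2) (nat_lit 8) (nat_lit 7) (nat_lit 5) (nat_lit 11) (nat_lit 6) (by decide +kernel)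
theorem L107010 : W_40 (nat_lit 3) (nat_lit 0x2000000016001a00010003c0000000000000000000000000000000) (nat_lit 0x0) (nat_lit 0x8000400070000000000000000000000000000) := T_40 (nat_lit 113) (nat_lit 112) (nat_lit 2) (nat_lit 7) (nat_lit 7) L107009 (by decide +kernel)
theorem L107011 : W_40 (nat_lit 4) (nat_lit 0x2000000016000a00010003c0000000000000000000000000000000) (nat_lit 0x0) (nat_lit 0x140008000400070000000000000000000000000000) := T_40 (nat_lit 164) (nat_lit 162) (nat_lit 1) (nat_lit 11) (nat_lit 9) L107010 (by decide +kernel)
theorem L107012 : W_40 (nat_lit 5) (nat_lit 0x2000000014000a00010003c0000000000000000000000000000000) (nat_lit 0x0) (nat_lit 0x4000200140008000400070000000000000000000000000000) := T_40 (nat_lit 177) (nat_lit 194) (nat_lit 5) (nat_lit 8) (nat_lit 7) L107011 (by decide +kernel)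
theorem L107013 : W_40 (nat_lit 2) (nat_lit 0x2000000016001a00090003c0000000000000000000000000000000) (nat_lit 0x0) (nat_lit 0x10000400020000000000000000000000000000) := D_40 (nat_lit 130) (nat_lit 148) (nat_lit 113) (nat_lit 3) (nat_lit 8) (nat_lit 7) (nat_lit 5) (nat_lit 11) (nat_lit 6) (by decide +kernel)
theorem L107014 : W_40 (nat_lit 3) (nat_lit 0x2000000016000a00090003c0000000000000000000000000000000) (nat_lit 0x0) (nat_lit 0x140010000400020000000000000000000000000000) := T_40 (nat_lit 164) (nat_lit 162) (nat_lit 1) (nat_lit 11) (nat_lit 9) L107013 (by decide +kernel)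
theorem L107015 : W_40 (nat_lit 4) (nat_lit 0x2000000014000a00090003c0000000000000000000000000000000) (nat_lit 0x0) (nat_lit 0x4000200140010000400020000000000000000000000000000) := T_40 (nat_lit 177) (nat_lit 194) (nat_lit 5) (nat_lit 8) (nat_lit 7) L107014 (by decide +kernel)
theorem L107016 : W_40 (nat_lit 5) (nat_lit 0x2000000014000a00010003c0000000000000000000000000000000) (nat_lit 0x0) (nat_lit 0x400020014001c000400020000000000000000000000000000) := T_40 (nat_lit 147) (nat_lit 146) (nat_lit 3) (nat_lit 7) (nat_lit 7) L107015 (by decide +kernel)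
theorem L107017 : W_40 (nat_lit 2) (nat_lit 0x2000000016001a00050003c0000000000000000000000000000000) (nat_lit 0x0) (nat_lit 0x40002000000000000000010000000000000000000000000000) := D_40 (nat_lit 181) (nat_lit 198) (nat_lit 112) (nat_lit 7) (nat_lit 10) (nat_lit 7) (nat_lit 7) (nat_lit 10) (nat_lit 6) (by decide +kernel)
theorem L107018 : W_40 (nat_lit 3) (nat_lit 0x2000000016000a00050003c0000000000000000000000000000000) (nat_lit 0x0) (nat_lit 0x40002000140000000000010000000000000000000000000000) := T_40 (nat_lit 164) (nat_lit 162) (nat_lit 1) (nat_lit 11) (nat_lit 9) L107017 (by decide +kernel)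
theorem L107019 : W_40 (nat_lit 4) (nat_lit 0x2000000014000a00050003c0000000000000000000000000000000) (nat_lit 0x0) (nat_lit 0x44002200140000000000010000000000000000000000000000) := T_40 (nat_lit 177) (nat_lit 194) (nat_lit 5) (nat_lit 8) (nat_lit 7) L107018 (by decide +kernel)
theorem L107020 : W_40 (nat_lit 5) (nat_lit 0x2000000014000a00010003c0000000000000000000000000000000) (nat_lit 0x0) (nat_lit 0x4400220014000c000000010000000000000000000000000000) := T_40 (nat_lit 146) (nat_lit 147) (nat_lit 3) (nat_lit 7) (nat_lit 7) L107019 (by decide +kernel)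
theorem L107021 : W_40 (nat_lit 6) (nat_lit 0x2000000014000a00010001c0000000000000000000000000000000) (nat_lit 0x0) (nat_lit 0x4400220014001c000600070000000000000000000000000000) := Q_40 (nat_lit 129) (C_40 L107004 (C_40 L107006 (C_40 L107008 (C_40 L107012 (C_40 L107016 (C_40 L107020 N_40)))))) (by decide +kernel)
theorem L107022 : W_40 (nat_lit 7) (nat_lit 0x2000000014000a00010000c0000000000000000000000000000000) (nat_lit 0x0) (nat_lit 0x4400220014001c000700078000000000000000000000000000) := T_40 (nat_lit 128) (nat_lit 111) (nat_lit 6) (nat_lit 8) (nat_lit 10) L107021 (by decide +kernel)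
theorem L107023 : W_40 (nat_lit 8) (nat_lit 0x2000000014000a0001000080000000000000000000000000000000) (nat_lit 0x0) (nat_lit 0x4400220014001c00074007a000000000000000000000000000) := T_40 (nat_lit 126) (nat_lit 109) (nat_lit 4) (nat_lit 8) (nat_lit 10) L107022 (by decide +kernel)
theorem L107024 : W_40 (nat_lit 2) (nat_lit 0x2000000016000e0001000080000000000000000000000000000000) (nat_lit 0x0) (nat_lit 0x2100010000000000000000000000000000000000000000) := D_40 (nat_lit 160) (nat_lit 176) (nat_lit 181) (nat_lit 1) (nat_lit 10) (nat_lit 9) (nat_lit 3) (nat_lit 7) (nat_lit 9) (by decide +kernel)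
theorem L107025 : W_40 (nat_lit 3) (nat_lit 0x2000000016000a0001000080000000000000000000000000000000) (nat_lit 0x0) (nat_lit 0x2100150000000000000000000000000000000000000000) := T_40 (nat_lit 162) (nat_lit 164) (nat_lit 1) (nat_lit 11) (nat_lit 9) L107024 (by decide +kernel)
theorem L107026 : W_40 (nat_lit 4) (nat_lit 0x2000000014000a0001000080000000000000000000000000000000) (nat_lit 0x0) (nat_lit 0x4002300150000000000000000000000000000000000000000) := T_40 (nat_lit 177) (nat_lit 194) (nat_lit 5) (nat_lit 8) (nat_lit 7) L107025 (by decide +kernel)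
theorem L107027 : W_40 (nat_lit 6) (nat_lit 0x7000000014000a00010000c0000000000000000000000000000000) (nat_lit 0x0) (nat_lit 0x370008000cc002000000000000000000000000000000000000000000000) := T_40 (nat_lit 195) (nat_lit 230) (nat_lit 7) (nat_lit 8) (nat_lit 9) L106722 (by decide +kernel)
theorem L107028 : W_40 (nat_lit 7) (nat_lit 0x7000000014000a0001000080000000000000000000000000000000) (nat_lit 0x0) (nat_lit 0x370008000cc002000000000000040002000000000000000000000000000) := T_40 (nat_lit 126) (nat_lit 109) (nat_lit 4) (nat_lit 8) (nat_lit 10) L107027 (by decide +kernel)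
theorem L107029 : W_40 (nat_lit 2) (nat_lit 0x7000080014000a0001000180000000000000000000000000000000) (nat_lit 0x0) (nat_lit 0x800004000200000000000000000000000000000000000000000000) := D_40 (nat_lit 194) (nat_lit 215) (nat_lit 177) (nat_lit 0) (nat_lit 11) (nat_lit 12) (nat_lit 5) (nat_lit 8) (nat_lit 7) (by decide +kernel)
theorem L107030 : W_40 (nat_lit 3) (nat_lit 0x7000000014000a0001000180000000000000000000000000000000) (nat_lit 0x0) (nat_lit 0x400080000c000200000000000000000000000000000000000000000000) := T_40 (nat_lit 195) (nat_lit 230) (nat_lit 7) (nat_lit 8) (nat_lit 9) L107029 (by decide +kernel)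
theorem L107031 : W_40 (nat_lit 4) (nat_lit 0x7000000014000a0001000080000000000000000000000000000000) (nat_lit 0x0) (nat_lit 0x400080000c000200000000000100008000000000000000000000000000) := T_40 (nat_lit 128) (nat_lit 111) (nat_lit 6) (nat_lit 8) (nat_lit 10) L107030 (by decide +kernel)
theorem L107032 : W_40 (nat_lit 2) (nat_lit 0x2000f000440014000a00010000c0000000000000000000000000000000) (nat_lit 0x0) (nat_lit 0x30000000000002000000000000000000000000000000000000000000000) := D_40 (nat_lit 232) (nat_lit 233) (nat_lit 181) (nat_lit 3) (nat_lit 8) (nat_lit 12) (nat_lit 4) (nat_lit 11) (nat_lit 13) (by decide +kernel)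
theorem L107033 : W_40 (nat_lit 3) (nat_lit 0x2000f000040014000a00010000c0000000000000000000000000000000) (nat_lit 0x0) (nat_lit 0x300000000c0002000000000000000000000000000000000000000000000) := T_40 (nat_lit 198) (nat_lit 199) (nat_lit 2) (nat_lit 8) (nat_lit 12) L107032 (by decide +kernel)
theorem L107034 : W_40 (nat_lit 4) (nat_lit 0xf000040014000a00010000c0000000000000000000000000000000) (nat_lit 0x0) (nat_lit 0x330000000c0002000000000000000000000000000000000000000000000) := T_40 (nat_lit 229) (nat_lit 228) (nat_lit 1) (nat_lit 11) (nat_lit 12) L107033 (by decide +kernel)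
theorem L107035 : W_40 (nat_lit 2) (nat_lit 0x80006000200014001a00010001c0000000000000000000000000000000) (nat_lit 0x0) (nat_lit 0x200010000800000000000000000000000000000000000000000000000000000) := D_40 (nat_lit 232) (nat_lit 249) (nat_lit 215) (nat_lit 7) (nat_lit 10) (nat_lit 10) (nat_lit 7) (nat_lit 10) (nat_lit 9) (by decide +kernel)
theorem L107036 : W_40 (nat_lit 3) (nat_lit 0x6000200014001a00010001c0000000000000000000000000000000) (nat_lit 0x0) (nat_lit 0x200018000800000002000000000000000000000000000000000000000000000) := T_40 (nat_lit 231) (nat_lit 181) (nat_lit 6) (nat_lit 10) (nat_lit 13) L107035 (by decide +kernel)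
theorem L107037 : W_40 (nat_lit 4) (nat_lit 0x6000200014000a00010001c0000000000000000000000000000000) (nat_lit 0x0) (nat_lit 0x200018000800000002000100008000000000000000000000000000000000000) := T_40 (nat_lit 164) (nat_lit 147) (nat_lit 6) (nat_lit 10) (nat_lit 12) L107036 (by decide +kernel)
theorem L107038 : W_40 (nat_lit 5) (nat_lit 0x6000200014000a00010000c0000000000000000000000000000000) (nat_lit 0x0) (nat_lit 0x200018000800000002000100008000100008000000000000000000000000000) := T_40 (nat_lit 128) (nat_lit 111) (nat_lit 6) (nat_lit 8) (nat_lit 10) L107037 (by decide +kernel)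
theorem L107039 : W_40 (nat_lit 6) (nat_lit 0x2000200014000a00010000c0000000000000000000000000000000) (nat_lit 0x0) (nat_lit 0x20001c000c00000002000100008000100008000000000000000000000000000) := T_40 (nat_lit 214) (nat_lit 230) (nat_lit 5) (nat_lit 10) (nat_lit 9) L107038 (by decide +kernel)
theorem L107040 : W_40 (nat_lit 7) (nat_lit 0x2000200014000a0001000080000000000000000000000000000000) (nat_lit 0x0) (nat_lit 0x20001c000c0000000200010000800014000a000000000000000000000000000) := T_40 (nat_lit 126) (nat_lit 109) (nat_lit 4) (nat_lit 8) (nat_lit 10) L107039 (by decide +kernel)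
theorem L107041 : W_40 (nat_lit 2) (nat_lit 0x80006000200014001a0001000180000000000000000000000000000000) (nat_lit 0x0) (nat_lit 0x200010000800000000000000000000000000000000000000000000000000000) := D_40 (nat_lit 232) (nat_lit 249) (nat_lit 215) (nat_lit 7) (nat_lit 10) (nat_lit 10) (nat_lit 7) (nat_lit 10) (nat_lit 9) (by decide +kernel)
theorem L107042 : W_40 (nat_lit 3) (nat_lit 0x6000200014001a0001000180000000000000000000000000000000) (nat_lit 0x0) (nat_lit 0x200018000800000002000000000000000000000000000000000000000000000) := T_40 (nat_lit 231) (nat_lit 181) (nat_lit 6) (nat_lit 10) (nat_lit 13) L107041 (by decide +kernel)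
theorem L107043 : W_40 (nat_lit 4) (nat_lit 0x6000200014000a0001000180000000000000000000000000000000) (nat_lit 0x0) (nat_lit 0x200018000800000002000100008000000000000000000000000000000000000) := T_40 (nat_lit 164) (nat_lit 147) (nat_lit 6) (nat_lit 10) (nat_lit 12) L107042 (by decide +kernel)
theorem L107044 : W_40 (nat_lit 5) (nat_lit 0x6000200014000a0001000080000000000000000000000000000000) (nat_lit 0x0) (nat_lit 0x200018000800000002000100008000100008000000000000000000000000000) := T_40 (nat_lit 128) (nat_lit 111) (nat_lit 6) (nat_lit 8) (nat_lit 10) L107043 (by decide +kernel)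
theorem L107045 : W_40 (nat_lit 6) (nat_lit 0x2000200014000a0001000080000000000000000000000000000000) (nat_lit 0x0) (nat_lit 0x20001c000c00000002000100008000100008000000000000000000000000000) := T_40 (nat_lit 214) (nat_lit 230) (nat_lit 5) (nat_lit 10) (nat_lit 9) L107044 (by decide +kernel)
theorem L107046 : W_40 (nat_lit 2) (nat_lit 0x80006000200014001a00010000c0000000000000000000000000000000) (nat_lit 0x0) (nat_lit 0x200010000800000000000000000000000000000000000000000000000000000) := D_40 (nat_lit 232) (nat_lit 249) (nat_lit 215) (nat_lit 7) (nat_lit 10) (nat_lit 10) (nat_lit 7) (nat_lit 10) (nat_lit 9) (by decide +kernel)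
theorem L107047 : W_40 (nat_lit 3) (nat_lit 0x6000200014001a00010000c0000000000000000000000000000000) (nat_lit 0x0) (nat_lit 0x200018000800000002000000000000000000000000000000000000000000000) := T_40 (nat_lit 231) (nat_lit 181) (nat_lit 6) (nat_lit 10) (nat_lit 13) L107046 (by decide +kernel)
theorem L107048 : W_40 (nat_lit 4) (nat_lit 0x6000200014000a00010000c0000000000000000000000000000000) (nat_lit 0x0) (nat_lit 0x200018000800000002000100008000000000000000000000000000000000000) := T_40 (nat_lit 164) (nat_lit 147) (nat_lit 6) (nat_lit 10) (nat_lit 12) L107047 (by decide +kernel)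
theorem L107049 : W_40 (nat_lit 5) (nat_lit 0x6000200014000a0001000080000000000000000000000000000000) (nat_lit 0x0) (nat_lit 0x200018000800000002000100008000040002000000000000000000000000000) := T_40 (nat_lit 126) (nat_lit 109) (nat_lit 4) (nat_lit 8) (nat_lit 10) L107048 (by decide +kernel)
theorem L107050 : W_40 (nat_lit 6) (nat_lit 0x2000200014000a0001000080000000000000000000000000000000) (nat_lit 0x0) (nat_lit 0x20001c000c00000002000100008000040002000000000000000000000000000) := T_40 (nat_lit 214) (nat_lit 230) (nat_lit 5) (nat_lit 10) (nat_lit 9) L107049 (by decide +kernel)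
theorem L107051 : W_40 (nat_lit 2) (nat_lit 0xe000600014000a00010001c0000000000000000000000000000000) (nat_lit 0x0) (nat_lit 0x100180000000000000000000000000000000000000000000000000) := D_40 (nat_lit 199) (nat_lit 212) (nat_lit 200) (nat_lit 2) (nat_lit 8) (nat_lit 12) (nat_lit 1) (nat_lit 13) (nat_lit 11) (by decide +kernel)
theorem L107052 : W_40 (nat_lit 3) (nat_lit 0xe000200014000a00010001c0000000000000000000000000000000) (nat_lit 0x0) (nat_lit 0x1001c0000000000004000000000000000000000000000000000000) := T_40 (nat_lit 198) (nat_lit 146) (nat_lit 7) (nat_lit 10) (nat_lit 8) L107051 (by decide +kernel)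
theorem L107053 : W_40 (nat_lit 4) (nat_lit 0xe000200014000a0001000180000000000000000000000000000000) (nat_lit 0x0) (nat_lit 0x1001c0000000000004000040002000000000000000000000000000) := T_40 (nat_lit 126) (nat_lit 109) (nat_lit 4) (nat_lit 8) (nat_lit 10) L107052 (by decide +kernel)
theorem L107054 : W_40 (nat_lit 5) (nat_lit 0x6000200014000a0001000180000000000000000000000000000000) (nat_lit 0x0) (nat_lit 0x100009001c0000000000004000040002000000000000000000000000000) := T_40 (nat_lit 215) (nat_lit 232) (nat_lit 7) (nat_lit 10) (nat_lit 9) L107053 (by decide +kernel)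
theorem L107055 : W_40 (nat_lit 6) (nat_lit 0x6000200014000a0001000080000000000000000000000000000000) (nat_lit 0x0) (nat_lit 0x100009001c000000000000400014000a000000000000000000000000000) := T_40 (nat_lit 128) (nat_lit 111) (nat_lit 6) (nat_lit 8) (nat_lit 10) L107054 (by decide +kernel)
theorem L107056 : W_40 (nat_lit 7) (nat_lit 0x2000200014000a0001000080000000000000000000000000000000) (nat_lit 0x0) (nat_lit 0x14000d001c000000000000400014000a000000000000000000000000000) := T_40 (nat_lit 214) (nat_lit 230) (nat_lit 5) (nat_lit 10) (nat_lit 9) L107055 (by decide +kernel)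
theorem L107057 : W_40 (nat_lit 2) (nat_lit 0x2000200016000a00010007c0020000000000000000000000000000) (nat_lit 0x0) (nat_lit 0x100018000000000000000000000000000000000000) := D_40 (nat_lit 147) (nat_lit 148) (nat_lit 164) (nat_lit 3) (nat_lit 8) (nat_lit 7) (nat_lit 5) (nat_lit 11) (nat_lit 6) (by decide +kernel)
theorem L107058 : W_40 (nat_lit 3) (nat_lit 0x2000200016000a00010003c0020000000000000000000000000000) (nat_lit 0x0) (nat_lit 0x100018000400040000000000000000000000000000) := T_40 (nat_lit 130) (nat_lit 114) (nat_lit 2) (nat_lit 8) (nat_lit 7) L107057 (by decide +kernel)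
theorem L107059 : W_40 (nat_lit 4) (nat_lit 0x2000200014000a00010003c0020000000000000000000000000000) (nat_lit 0x0) (nat_lit 0x4000200100018000400040000000000000000000000000000) := T_40 (nat_lit 177) (nat_lit 194) (nat_lit 5) (nat_lit 8) (nat_lit 7) L107058 (by decide +kernel)
theorem L107060 : W_40 (nat_lit 5) (nat_lit 0x2000200014000a00010003c0000000000000000000000000000000) (nat_lit 0x0) (nat_lit 0x4000200100018000400070000000000000000000000000000) := T_40 (nat_lit 113) (nat_lit 112) (nat_lit 2) (nat_lit 7) (nat_lit 7) L107059 (by decide +kernel)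
theorem L107061 : W_40 (nat_lit 6) (nat_lit 0x2000200014000a0001000380000000000000000000000000000000) (nat_lit 0x0) (nat_lit 0x4000200100018000440072000000000000000000000000000) := T_40 (nat_lit 126) (nat_lit 109) (nat_lit 4) (nat_lit 8) (nat_lit 10) L107060 (by decide +kernel)
theorem L107062 : W_40 (nat_lit 7) (nat_lit 0x2000200014000a0001000280000000000000000000000000000000) (nat_lit 0x0) (nat_lit 0x400020010001800054007a000000000000000000000000000) := T_40 (nat_lit 128) (nat_lit 111) (nat_lit 6) (nat_lit 8) (nat_lit 10) L107061 (by decide +kernel)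
theorem L107063 : W_40 (nat_lit 2) (nat_lit 0x2000200016000a00010003c0020000000000000000000000000000) (nat_lit 0x0) (nat_lit 0x4000400040000000000000000000000000000) := D_40 (nat_lit 130) (nat_lit 114) (nat_lit 146) (nat_lit 2) (nat_lit 8) (nat_lit 7) (nat_lit 6) (nat_lit 10) (nat_lit 10) (by decide +kernel)
theorem L107064 : W_40 (nat_lit 3) (nat_lit 0x2000200016000a00010003c0000000000000000000000000000000) (nat_lit 0x0) (nat_lit 0x4000400070000000000000000000000000000) := T_40 (nat_lit 113) (nat_lit 112) (nat_lit 2) (nat_lit 7) (nat_lit 7) L107063 (by decide +kernel)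
theorem L107065 : W_40 (nat_lit 4) (nat_lit 0x2000200016000a0001000380000000000000000000000000000000) (nat_lit 0x0) (nat_lit 0x4000440072000000000000000000000000000) := T_40 (nat_lit 126) (nat_lit 109) (nat_lit 4) (nat_lit 8) (nat_lit 10) L107064 (by decide +kernel)
theorem L107066 : W_40 (nat_lit 5) (nat_lit 0x2000200016000a0001000280000000000000000000000000000000) (nat_lit 0x0) (nat_lit 0x400054007a000000000000000000000000000) := T_40 (nat_lit 128) (nat_lit 111) (nat_lit 6) (nat_lit 8) (nat_lit 10) L107065 (by decide +kernel)
theorem L107067 : W_40 (nat_lit 6) (nat_lit 0x2000200014000a0001000280000000000000000000000000000000) (nat_lit 0x0) (nat_lit 0x400020000000400054007a000000000000000000000000000) := T_40 (nat_lit 177) (nat_lit 194) (nat_lit 5) (nat_lit 8) (nat_lit 7) L107066 (by decide +kernel)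
theorem L107068 : W_40 (nat_lit 2) (nat_lit 0x2000200014000a0005000280000000000000000000000000000000) (nat_lit 0x0) (nat_lit 0x800040002000000000000000000000000000000000000000000000) := D_40 (nat_lit 198) (nat_lit 215) (nat_lit 181) (nat_lit 7) (nat_lit 10) (nat_lit 8) (nat_lit 7) (nat_lit 10) (nat_lit 7) (by decide +kernel)
theorem L107069 : W_40 (nat_lit 2) (nat_lit 0x2000200014000a0005000280000000000000000000000000000000) (nat_lit 0x0) (nat_lit 0x8000400020000000000000000000000000000) := D_40 (nat_lit 130) (nat_lit 147) (nat_lit 113) (nat_lit 6) (nat_lit 10) (nat_lit 11) (nat_lit 6) (nat_lit 10) (nat_lit 10) (by decide +kernel)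
theorem L107070 : W_40 (nat_lit 3) (nat_lit 0x2000200014000a0001000280000000000000000000000000000000) (nat_lit 0x0) (nat_lit 0x80004000200000000c000400020000000000000000000000000000) := Q_40 (nat_lit 146) (C_40 L107068 (C_40 L107069 N_40)) (by decide +kernel)
theorem L107071 : W_40 (nat_lit 2) (nat_lit 0x2000200016000a00050003c0010000000000000000000000000000) (nat_lit 0x0) (nat_lit 0x800040002000000000000000000000000000000000000000000000) := D_40 (nat_lit 198) (nat_lit 215) (nat_lit 181) (nat_lit 7) (nat_lit 10) (nat_lit 8) (nat_lit 7) (nat_lit 10) (nat_lit 7) (by decide +kernel)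
theorem L107072 : W_40 (nat_lit 3) (nat_lit 0x2000200016000a00010003c0010000000000000000000000000000) (nat_lit 0x0) (nat_lit 0x80004000200000000c000000000000000000000000000000000000) := T_40 (nat_lit 146) (nat_lit 147) (nat_lit 3) (nat_lit 7) (nat_lit 7) L107071 (by decide +kernel)
theorem L107073 : W_40 (nat_lit 4) (nat_lit 0x2000200016000a00010003c0000000000000000000000000000000) (nat_lit 0x0) (nat_lit 0x80004000200000000c000000030000000000000000000000000000) := T_40 (nat_lit 112) (nat_lit 113) (nat_lit 2) (nat_lit 7) (nat_lit 7) L107072 (by decide +kernel)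
theorem L107074 : W_40 (nat_lit 5) (nat_lit 0x2000200016000a00010002c0000000000000000000000000000000) (nat_lit 0x0) (nat_lit 0x80004000200000000c000100038000000000000000000000000000) := T_40 (nat_lit 128) (nat_lit 111) (nat_lit 6) (nat_lit 8) (nat_lit 10) L107073 (by decide +kernel)
theorem L107075 : W_40 (nat_lit 6) (nat_lit 0x2000200016000a0001000280000000000000000000000000000000) (nat_lit 0x0) (nat_lit 0x80004000200000000c00014003a000000000000000000000000000) := T_40 (nat_lit 126) (nat_lit 109) (nat_lit 4) (nat_lit 8) (nat_lit 10) L107074 (by decide +kernel)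
theorem L107076 : W_40 (nat_lit 7) (nat_lit 0x2000200014000a0001000280000000000000000000000000000000) (nat_lit 0x0) (nat_lit 0x80004400220000000c00014003a000000000000000000000000000) := T_40 (nat_lit 177) (nat_lit 194) (nat_lit 5) (nat_lit 8) (nat_lit 7) L107075 (by decide +kernel)
theorem L107077 : W_40 (nat_lit 2) (nat_lit 0x2000200016000a00050003c0000000000000000000000000000000) (nat_lit 0x0) (nat_lit 0x800040002000000000000000000000000000000000000000000000) := D_40 (nat_lit 198) (nat_lit 215) (nat_lit 181) (nat_lit 7) (nat_lit 10) (nat_lit 8) (nat_lit 7) (nat_lit 10) (nat_lit 7) (by decide +kernel)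
theorem L107078 : W_40 (nat_lit 3) (nat_lit 0x2000200016000a00010003c0000000000000000000000000000000) (nat_lit 0x0) (nat_lit 0x80004000200000000c000000000000000000000000000000000000) := T_40 (nat_lit 146) (nat_lit 147) (nat_lit 3) (nat_lit 7) (nat_lit 7) L107077 (by decide +kernel)
theorem L107079 : W_40 (nat_lit 4) (nat_lit 0x2000200016000a0001000380000000000000000000000000000000) (nat_lit 0x0) (nat_lit 0x80004000200000000c000040002000000000000000000000000000) := T_40 (nat_lit 126) (nat_lit 109) (nat_lit 4) (nat_lit 8) (nat_lit 10) L107078 (by decide +kernel)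
theorem L107080 : W_40 (nat_lit 5) (nat_lit 0x2000200014000a0001000380000000000000000000000000000000) (nat_lit 0x0) (nat_lit 0x80004400220000000c000040002000000000000000000000000000) := T_40 (nat_lit 177) (nat_lit 194) (nat_lit 5) (nat_lit 8) (nat_lit 7) L107079 (by decide +kernel)
theorem L107081 : W_40 (nat_lit 6) (nat_lit 0x2000200014000a0001000280000000000000000000000000000000) (nat_lit 0x0) (nat_lit 0x80004400220000000c00014000a000000000000000000000000000) := T_40 (nat_lit 128) (nat_lit 111) (nat_lit 6) (nat_lit 8) (nat_lit 10) L107080 (by decide +kernel)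
theorem L107082 : W_40 (nat_lit 8) (nat_lit 0x2000200014000a0001000080000000000000000000000000000000) (nat_lit 0x0) (nat_lit 0x80004400220010001c00074007a000000000000000000000000000) := Q_40 (nat_lit 129) (C_40 L107062 (C_40 L107067 (C_40 L107070 (C_40 L107076 (C_40 L107081 N_40))))) (by decide +kernel)
theorem L107083 : W_40 (nat_lit 2) (nat_lit 0x6000200014000a00090001c0000000000000000000000000000000) (nat_lit 0x0) (nat_lit 0x4000600000000000000000000000000000000) := D_40 (nat_lit 146) (nat_lit 129) (nat_lit 130) (nat_lit 3) (nat_lit 7) (nat_lit 7) (nat_lit 6) (nat_lit 10) (nat_lit 11) (by decide +kernel)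
theorem L107084 : W_40 (nat_lit 3) (nat_lit 0x6000200014000a00010001c0000000000000000000000000000000) (nat_lit 0x0) (nat_lit 0x10000c000600000000000000000000000000000000) := T_40 (nat_lit 147) (nat_lit 164) (nat_lit 6) (nat_lit 10) (nat_lit 12) L107083 (by decide +kernel)
theorem L107085 : W_40 (nat_lit 4) (nat_lit 0x6000200014000a00010000c0000000000000000000000000000000) (nat_lit 0x0) (nat_lit 0x10000c000700008000000000000000000000000000) := T_40 (nat_lit 128) (nat_lit 111) (nat_lit 6) (nat_lit 8) (nat_lit 10) L107084 (by decide +kernel)
theorem L107086 : W_40 (nat_lit 5) (nat_lit 0x2000200014000a00010000c0000000000000000000000000000000) (nat_lit 0x0) (nat_lit 0x400040000000000010000c000700008000000000000000000000000000) := T_40 (nat_lit 214) (nat_lit 230) (nat_lit 5) (nat_lit 10) (nat_lit 9) L107085 (by decide +kernel)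
theorem L107087 : W_40 (nat_lit 6) (nat_lit 0x2000200014000a0001000080000000000000000000000000000000) (nat_lit 0x0) (nat_lit 0x400040000000000010000c00074000a000000000000000000000000000) := T_40 (nat_lit 126) (nat_lit 109) (nat_lit 4) (nat_lit 8) (nat_lit 10) L107086 (by decide +kernel)
theorem L107088 : W_40 (nat_lit 9) (nat_lit 0x2000000014000a0001000080000000000000000000000000000000) (nat_lit 0x0) (nat_lit 0x20001c000d001e400220010001c00074007a000000000000000000000000000) := Q_40 (nat_lit 197) (C_40 L107040 (C_40 L107045 (C_40 L107050 (C_40 L107056 (C_40 L107082 (C_40 L107087 N_40)))))) (by decide +kernel)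
theorem L107089 : W_40 (nat_lit 2) (nat_lit 0x2000000014000f0001000080000000000000000000000000000000) (nat_lit 0x0) (nat_lit 0x300100000000000000000000000000000000000000000) := D_40 (nat_lit 177) (nat_lit 176) (nat_lit 164) (nat_lit 1) (nat_lit 10) (nat_lit 9) (nat_lit 1) (nat_lit 11) (nat_lit 9) (by decide +kernel)
theorem L107090 : W_40 (nat_lit 3) (nat_lit 0x2000000014000e0001000080000000000000000000000000000000) (nat_lit 0x0) (nat_lit 0x2300110000000000000000000000000000000000000000) := T_40 (nat_lit 160) (nat_lit 181) (nat_lit 3) (nat_lit 7) (nat_lit 9) L107089 (by decide +kernel)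
theorem L107091 : W_40 (nat_lit 6) (nat_lit 0x2000000014000e0001000180000000000000000000000000000000) (nat_lit 0x0) (nat_lit 0x20010001c000640032000000000000000000000000000) := T_40 (nat_lit 164) (nat_lit 177) (nat_lit 1) (nat_lit 11) (nat_lit 9) L106770 (by decide +kernel)
theorem L107092 : W_40 (nat_lit 7) (nat_lit 0x2000000014000e0001000080000000000000000000000000000000) (nat_lit 0x0) (nat_lit 0x20010001c00074003a000000000000000000000000000) := T_40 (nat_lit 128) (nat_lit 111) (nat_lit 6) (nat_lit 8) (nat_lit 10) L107091 (by decide +kernel)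
theorem L107093 : W_40 (nat_lit 2) (nat_lit 0x2000000034000e00050003c0000000000000000000000000000000) (nat_lit 0x0) (nat_lit 0x400030000000000000000000000000000) := D_40 (nat_lit 113) (nat_lit 112) (nat_lit 130) (nat_lit 2) (nat_lit 7) (nat_lit 7) (nat_lit 6) (nat_lit 10) (nat_lit 10) (by decide +kernel)
theorem L107094 : W_40 (nat_lit 3) (nat_lit 0x2000000034000e00050001c0000000000000000000000000000000) (nat_lit 0x0) (nat_lit 0x40000000000000000600030000000000000000000000000000) := T_40 (nat_lit 129) (nat_lit 198) (nat_lit 7) (nat_lit 10) (nat_lit 7) L107093 (by decide +kernel)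
theorem L107095 : W_40 (nat_lit 4) (nat_lit 0x2000000034000e00050000c0000000000000000000000000000000) (nat_lit 0x0) (nat_lit 0x40000000000000000700038000000000000000000000000000) := T_40 (nat_lit 128) (nat_lit 111) (nat_lit 6) (nat_lit 8) (nat_lit 10) L107094 (by decide +kernel)
theorem L107096 : W_40 (nat_lit 5) (nat_lit 0x2000000014000e00050000c0000000000000000000000000000000) (nat_lit 0x0) (nat_lit 0x40002000010000000700038000000000000000000000000000) := T_40 (nat_lit 181) (nat_lit 160) (nat_lit 3) (nat_lit 7) (nat_lit 9) L107095 (by decide +kernel)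
theorem L107097 : W_40 (nat_lit 6) (nat_lit 0x2000000014000e0005000080000000000000000000000000000000) (nat_lit 0x0) (nat_lit 0x4000200001000000074003a000000000000000000000000000) := T_40 (nat_lit 126) (nat_lit 109) (nat_lit 4) (nat_lit 8) (nat_lit 10) L107096 (by decide +kernel)
theorem L107098 : W_40 (nat_lit 7) (nat_lit 0x2000000014000e0001000080000000000000000000000000000000) (nat_lit 0x0) (nat_lit 0x4000200001000c00074003a000000000000000000000000000) := Q_40 (nat_lit 146) (C_40 L106761 (C_40 L106762 (C_40 L107097 N_40))) (by decide +kernel)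
theorem L107099 : W_40 (nat_lit 8) (nat_lit 0x2000000014000a0001000080000000000000000000000000000000) (nat_lit 0x0) (nat_lit 0x4000e30015001c00074003a000000000000000000000000000) := Q_40 (nat_lit 162) (C_40 L106766 (C_40 L107090 (C_40 L107092 (C_40 L107098 N_40)))) (by decide +kernel)
theorem L107100 : W_40 (nat_lit 2) (nat_lit 0x2000f000440014000a0001000180000000000000000000000000000000) (nat_lit 0x0) (nat_lit 0x30000000000002000000000000000000000000000000000000000000000) := D_40 (nat_lit 232) (nat_lit 233) (nat_lit 181) (nat_lit 3) (nat_lit 8) (nat_lit 12) (nat_lit 4) (nat_lit 11) (nat_lit 13) (by decide +kernel)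
theorem L107101 : W_40 (nat_lit 3) (nat_lit 0x2000f000040014000a0001000180000000000000000000000000000000) (nat_lit 0x0) (nat_lit 0x300000000c0002000000000000000000000000000000000000000000000) := T_40 (nat_lit 198) (nat_lit 199) (nat_lit 2) (nat_lit 8) (nat_lit 12) L107100 (by decide +kernel)
theorem L107102 : W_40 (nat_lit 4) (nat_lit 0xf000040014000a0001000180000000000000000000000000000000) (nat_lit 0x0) (nat_lit 0x330000000c0002000000000000000000000000000000000000000000000) := T_40 (nat_lit 229) (nat_lit 228) (nat_lit 1) (nat_lit 11) (nat_lit 12) L107101 (by decide +kernel)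
theorem L107103 : W_40 (nat_lit 7) (nat_lit 0x7000000014000a0001000080000000000000000000000000000000) (nat_lit 0x0) (nat_lit 0x770018001c000200000000000014000a000000000000000000000000000) := Q_40 (nat_lit 215) (C_40 L106631 (C_40 L106659 (C_40 L106654 (C_40 L106646 N_40)))) (by decide +kernel)
theorem L107104 : W_40 (nat_lit 2) (nat_lit 0x2000f000440014000a00010001c0000000000000000000000000000000) (nat_lit 0x0) (nat_lit 0x30000000000002000000000000000000000000000000000000000000000) := D_40 (nat_lit 232) (nat_lit 233) (nat_lit 181) (nat_lit 3) (nat_lit 8) (nat_lit 12) (nat_lit 4) (nat_lit 11) (nat_lit 13) (by decide +kernel)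
theorem L107105 : W_40 (nat_lit 3) (nat_lit 0x2000f000040014000a00010001c0000000000000000000000000000000) (nat_lit 0x0) (nat_lit 0x300000000c0002000000000000000000000000000000000000000000000) := T_40 (nat_lit 198) (nat_lit 199) (nat_lit 2) (nat_lit 8) (nat_lit 12) L107104 (by decide +kernel)
theorem L107106 : W_40 (nat_lit 4) (nat_lit 0xf000040014000a00010001c0000000000000000000000000000000) (nat_lit 0x0) (nat_lit 0x330000000c0002000000000000000000000000000000000000000000000) := T_40 (nat_lit 229) (nat_lit 228) (nat_lit 1) (nat_lit 11) (nat_lit 12) L107105 (by decide +kernel)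
theorem L107107 : W_40 (nat_lit 5) (nat_lit 0x7000040014000a00010001c0000000000000000000000000000000) (nat_lit 0x0) (nat_lit 0x330008000c8002000000000000000000000000000000000000000000000) := T_40 (nat_lit 215) (nat_lit 195) (nat_lit 0) (nat_lit 11) (nat_lit 12) L107106 (by decide +kernel)
theorem L107108 : W_40 (nat_lit 6) (nat_lit 0x7000040014000a00010000c0000000000000000000000000000000) (nat_lit 0x0) (nat_lit 0x330008000c8002000000000000100008000000000000000000000000000) := T_40 (nat_lit 128) (nat_lit 111) (nat_lit 6) (nat_lit 8) (nat_lit 10) L107107 (by decide +kernel)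
theorem L107109 : W_40 (nat_lit 7) (nat_lit 0x7000000014000a00010000c0000000000000000000000000000000) (nat_lit 0x0) (nat_lit 0x330008000cc002200000000000100008000000000000000000000000000) := T_40 (nat_lit 194) (nat_lit 177) (nat_lit 5) (nat_lit 8) (nat_lit 7) L107108 (by decide +kernel)
theorem L107110 : W_40 (nat_lit 8) (nat_lit 0x7000000014000a0001000080000000000000000000000000000000) (nat_lit 0x0) (nat_lit 0x330008000cc00220000000000014000a000000000000000000000000000) := T_40 (nat_lit 126) (nat_lit 109) (nat_lit 4) (nat_lit 8) (nat_lit 10) L107109 (by decide +kernel)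
theorem L107111 : W_40 (nat_lit 2) (nat_lit 0x3000080016000b0001000080000000000000000000000000000000) (nat_lit 0x0) (nat_lit 0x2100040000000000000000000000000000000000000000) := D_40 (nat_lit 162) (nat_lit 181) (nat_lit 176) (nat_lit 3) (nat_lit 7) (nat_lit 9) (nat_lit 1) (nat_lit 10) (nat_lit 9) (by decide +kernel)
theorem L107112 : W_40 (nat_lit 3) (nat_lit 0x3000080016000a0001000080000000000000000000000000000000) (nat_lit 0x0) (nat_lit 0x2000000000002100050000000000000000000000000000000000000000) := T_40 (nat_lit 160) (nat_lit 229) (nat_lit 4) (nat_lit 8) (nat_lit 13) L107111 (by decide +kernel)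
theorem L107113 : W_40 (nat_lit 4) (nat_lit 0x3000000016000a0001000080000000000000000000000000000000) (nat_lit 0x0) (nat_lit 0x6000000008002100050000000000000000000000000000000000000000) := T_40 (nat_lit 195) (nat_lit 230) (nat_lit 7) (nat_lit 8) (nat_lit 9) L107112 (by decide +kernel)
theorem L107114 : W_40 (nat_lit 5) (nat_lit 0x3000000014000a0001000080000000000000000000000000000000) (nat_lit 0x0) (nat_lit 0x600000000c002300050000000000000000000000000000000000000000) := T_40 (nat_lit 177) (nat_lit 194) (nat_lit 5) (nat_lit 8) (nat_lit 7) L107113 (by decide +kernel)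
theorem L107115 : W_40 (nat_lit 9) (nat_lit 0x3000000014000a0001000080000000000000000000000000000000) (nat_lit 0x0) (nat_lit 0x77001c001ec00220000000000014000a000000000000000000000000000) := Q_40 (nat_lit 214) (C_40 L107110 (C_40 L107031 (C_40 L107028 (C_40 L107103 (C_40 L106696 N_40))))) (by decide +kernel)
theorem L107116 : W_40 (nat_lit 4) (nat_lit 0x7000000014000a0001000080000000000000000000000000000000) (nat_lit 0x0) (nat_lit 0x140008000e0000000000004000000000000000000000000000000000000) := T_40 (nat_lit 197) (nat_lit 230) (nat_lit 5) (nat_lit 10) (nat_lit 9) L106686 (by decide +kernel)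
theorem L107117 : W_40 (nat_lit 7) (nat_lit 0xb000000014000a0001000080000000000000000000000000000000) (nat_lit 0x0) (nat_lit 0x770014001c000200000000000014000a000000000000000000000000000) := Q_40 (nat_lit 214) (C_40 L106659 (C_40 L106654 (C_40 L106646 (C_40 L106631 N_40)))) (by decide +kernel)
theorem L107118 : W_40 (nat_lit 3) (nat_lit 0xf000000014000a0001000080000000000000000000000000000000) (nat_lit 0x0) (nat_lit 0x40000000e0000000000004000000000000000000000000000000000000) := T_40 (nat_lit 197) (nat_lit 230) (nat_lit 5) (nat_lit 10) (nat_lit 9) L106685 (by decide +kernel)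
theorem L107119 : W_40 (nat_lit 10) (nat_lit 0xb000000014000a0001000080000000000000000000000000000000) (nat_lit 0x0) (nat_lit 0x1ff0074003e0000000000004000100008000000000000000000000000000) := Q_40 (nat_lit 214) (C_40 L106654 (C_40 L106634 (C_40 L106642 (C_40 L107118 (C_40 L106632 N_40))))) (by decide +kernel)
theorem L107120 : W_40 (nat_lit 6) (nat_lit 0xb000000014000a0001000080000000000000000000000000000000) (nat_lit 0x0) (nat_lit 0x770014000e0000000000004000040002000000000000000000000000000) := Q_40 (nat_lit 214) (C_40 L106646 (C_40 L107118 (C_40 L106634 N_40))) (by decide +kernel)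
theorem L107121 : W_40 (nat_lit 6) (nat_lit 0xb000000014000a0001000080000000000000000000000000000000) (nat_lit 0x0) (nat_lit 0x740014001e0000000000004000100008000000000000000000000000000) := Q_40 (nat_lit 214) (C_40 L106654 (C_40 L107118 (C_40 L106632 N_40))) (by decide +kernel)
theorem L107122 : W_40 (nat_lit 12) (nat_lit 0xb000000014000a0001000080000000000000000000000000000000) (nat_lit 0x0) (nat_lit 0x10000e0007000100010000e400e20025003c000f4007a000000000000000000000000000) := Q_40 (nat_lit 198) (C_40 L106706 (C_40 L106718 (C_40 L106713 N_40))) (by decide +kernel)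
theorem L107123 : W_40 (nat_lit 2) (nat_lit 0x2000f000000016000a0001000080000000000000000000000000000000) (nat_lit 0x0) (nat_lit 0x4001000020000000000000000000000000000000000000000000000000) := D_40 (nat_lit 230) (nat_lit 197) (nat_lit 216) (nat_lit 5) (nat_lit 10) (nat_lit 9) (nat_lit 1) (nat_lit 12) (nat_lit 12) (by decide +kernel)
theorem L107124 : W_40 (nat_lit 3) (nat_lit 0xf000000016000a0001000080000000000000000000000000000000) (nat_lit 0x0) (nat_lit 0x7001000020000000000000000000000000000000000000000000000000) := T_40 (nat_lit 229) (nat_lit 228) (nat_lit 1) (nat_lit 11) (nat_lit 12) L107123 (by decide +kernel)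
theorem L107125 : W_40 (nat_lit 4) (nat_lit 0xf000000014000a0001000080000000000000000000000000000000) (nat_lit 0x0) (nat_lit 0x7001000024000200000000000000000000000000000000000000000000) := T_40 (nat_lit 177) (nat_lit 194) (nat_lit 5) (nat_lit 8) (nat_lit 7) L107124 (by decide +kernel)
theorem L107126 : W_40 (nat_lit 10) (nat_lit 0xb000000014000a0001000080000000000000000000000000000000) (nat_lit 0x0) (nat_lit 0x1ff0074003a400020000000000014000a000000000000000000000000000) := Q_40 (nat_lit 214) (C_40 L106646 (C_40 L106642 (C_40 L106632 (C_40 L107125 N_40)))) (by decide +kernel)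
theorem L107127 : W_40 (nat_lit 2) (nat_lit 0x2000f000400016000a0005000380000000000000000000000000000000) (nat_lit 0x0) (nat_lit 0x8000040002000000000000000000000000000) := D_40 (nat_lit 126) (nat_lit 147) (nat_lit 109) (nat_lit 3) (nat_lit 7) (nat_lit 7) (nat_lit 4) (nat_lit 8) (nat_lit 10) (by decide +kernel)
theorem L107128 : W_40 (nat_lit 3) (nat_lit 0x2000f000400016000a0005000180000000000000000000000000000000) (nat_lit 0x0) (nat_lit 0x2000000008000240002000000000000000000000000000) := T_40 (nat_lit 129) (nat_lit 181) (nat_lit 7) (nat_lit 10) (nat_lit 7) L107127 (by decide +kernel)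
theorem L107129 : W_40 (nat_lit 4) (nat_lit 0x2000f000400016000a0005000080000000000000000000000000000000) (nat_lit 0x0) (nat_lit 0x200000000800034000a000000000000000000000000000) := T_40 (nat_lit 128) (nat_lit 111) (nat_lit 6) (nat_lit 8) (nat_lit 10) L107128 (by decide +kernel)
theorem L107130 : W_40 (nat_lit 5) (nat_lit 0x2000f000400016000a0001000080000000000000000000000000000000) (nat_lit 0x0) (nat_lit 0x2000200000000c00034000a000000000000000000000000000) := T_40 (nat_lit 146) (nat_lit 197) (nat_lit 7) (nat_lit 10) (nat_lit 8) L107129 (by decide +kernel)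
theorem L107131 : W_40 (nat_lit 6) (nat_lit 0xf000400016000a0001000080000000000000000000000000000000) (nat_lit 0x0) (nat_lit 0x300000002000200000000c00034000a000000000000000000000000000) := T_40 (nat_lit 229) (nat_lit 228) (nat_lit 1) (nat_lit 11) (nat_lit 12) L107130 (by decide +kernel)
theorem L107132 : W_40 (nat_lit 7) (nat_lit 0xf000000016000a0001000080000000000000000000000000000000) (nat_lit 0x0) (nat_lit 0x30000000e000200000000c00034000a000000000000000000000000000) := T_40 (nat_lit 198) (nat_lit 199) (nat_lit 2) (nat_lit 8) (nat_lit 12) L107131 (by decide +kernel)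
theorem L107133 : W_40 (nat_lit 8) (nat_lit 0xf000000014000a0001000080000000000000000000000000000000) (nat_lit 0x0) (nat_lit 0x30000000e400220000000c00034000a000000000000000000000000000) := T_40 (nat_lit 177) (nat_lit 194) (nat_lit 5) (nat_lit 8) (nat_lit 7) L107132 (by decide +kernel)
theorem L107134 : W_40 (nat_lit 9) (nat_lit 0xb000000014000a0001000080000000000000000000000000000000) (nat_lit 0x0) (nat_lit 0x70014001e400220000000c00034000a000000000000000000000000000) := Q_40 (nat_lit 214) (C_40 L106659 (C_40 L107125 (C_40 L107118 (C_40 L107133 N_40)))) (by decide +kernel)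
theorem L107135 : W_40 (nat_lit 9) (nat_lit 0xb000000014000a0001000080000000000000000000000000000000) (nat_lit 0x0) (nat_lit 0x370004000e400220000000c00034000a000000000000000000000000000) := Q_40 (nat_lit 214) (C_40 L106631 (C_40 L107133 (C_40 L107118 (C_40 L106632 N_40)))) (by decide +kernel)
theorem L107136 : W_40 (nat_lit 6) (nat_lit 0xb000000014000a0001000080000000000000000000000000000000) (nat_lit 0x0) (nat_lit 0x77001400024000200000000000040002000000000000000000000000000) := Q_40 (nat_lit 214) (C_40 L106646 (C_40 L107125 (C_40 L106632 N_40))) (by decide +kernel)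
theorem L107137 : W_40 (nat_lit 13) (nat_lit 0x3000000014000a0001000080000000000000000000000000000000) (nat_lit 0x0) (nat_lit 0x10000e0007001ff007c003e400e20025003c000f4007a000000000000000000000000000) := Q_40 (nat_lit 215) (C_40 L107117 (C_40 L107119 (C_40 L107120 (C_40 L107121 (C_40 L107122 (C_40 L107126 (C_40 L107134 (C_40 L107135 (C_40 L107136 N_40))))))))) (by decide +kernel)
theorem L107138 : W_40 (nat_lit 2) (nat_lit 0xf000040014000a00010001c0000000000000000000000000000000) (nat_lit 0x0) (nat_lit 0x30000000020000000000000000000000000000000000000000000000000) := D_40 (nat_lit 232) (nat_lit 233) (nat_lit 197) (nat_lit 3) (nat_lit 8) (nat_lit 12) (nat_lit 7) (nat_lit 10) (nat_lit 9) (by decide +kernel)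
theorem L107139 : W_40 (nat_lit 3) (nat_lit 0x7000040014000a00010001c0000000000000000000000000000000) (nat_lit 0x0) (nat_lit 0x30000800028000000000000000000000000000000000000000000000000) := T_40 (nat_lit 215) (nat_lit 195) (nat_lit 0) (nat_lit 11) (nat_lit 12) L107138 (by decide +kernel)
theorem L107140 : W_40 (nat_lit 4) (nat_lit 0x7000000014000a00010001c0000000000000000000000000000000) (nat_lit 0x0) (nat_lit 0x3000080002c000200000000000000000000000000000000000000000000) := T_40 (nat_lit 194) (nat_lit 177) (nat_lit 5) (nat_lit 8) (nat_lit 7) L107139 (by decide +kernel)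
theorem L107141 : W_40 (nat_lit 5) (nat_lit 0x7000000014000a00010000c0000000000000000000000000000000) (nat_lit 0x0) (nat_lit 0x3000080002c000200000000000100008000000000000000000000000000) := T_40 (nat_lit 128) (nat_lit 111) (nat_lit 6) (nat_lit 8) (nat_lit 10) L107140 (by decide +kernel)
theorem L107142 : W_40 (nat_lit 6) (nat_lit 0x7000000014000a0001000080000000000000000000000000000000) (nat_lit 0x0) (nat_lit 0x3000080002c00020000000000014000a000000000000000000000000000) := T_40 (nat_lit 126) (nat_lit 109) (nat_lit 4) (nat_lit 8) (nat_lit 10) L107141 (by decide +kernel)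
theorem L107143 : W_40 (nat_lit 7) (nat_lit 0x3000000014000a0001000080000000000000000000000000000000) (nat_lit 0x0) (nat_lit 0x34000c000ec00020000000400014000a000000000000000000000000000) := Q_40 (nat_lit 214) (C_40 L106696 (C_40 L107031 (C_40 L107116 (C_40 L107142 N_40)))) (by decide +kernel)
theorem L107144 : W_40 (nat_lit 2) (nat_lit 0x2000f000400014000a00050001c0000000000000000000000000000000) (nat_lit 0x0) (nat_lit 0x2000000008000200000000000000000000000000000000) := D_40 (nat_lit 129) (nat_lit 147) (nat_lit 181) (nat_lit 3) (nat_lit 7) (nat_lit 7) (nat_lit 7) (nat_lit 10) (nat_lit 7) (by decide +kernel)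
theorem L107145 : W_40 (nat_lit 3) (nat_lit 0x2000f000400014000a00050000c0000000000000000000000000000000) (nat_lit 0x0) (nat_lit 0x2000000008000300008000000000000000000000000000) := T_40 (nat_lit 128) (nat_lit 111) (nat_lit 6) (nat_lit 8) (nat_lit 10) L107144 (by decide +kernel)
theorem L107146 : W_40 (nat_lit 4) (nat_lit 0x2000f000400014000a00010000c0000000000000000000000000000000) (nat_lit 0x0) (nat_lit 0x2000200000000c000300008000000000000000000000000000) := T_40 (nat_lit 146) (nat_lit 197) (nat_lit 7) (nat_lit 10) (nat_lit 8) L107145 (by decide +kernel)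
theorem L107147 : W_40 (nat_lit 5) (nat_lit 0xf000400014000a00010000c0000000000000000000000000000000) (nat_lit 0x0) (nat_lit 0x300000002000200000000c000300008000000000000000000000000000) := T_40 (nat_lit 229) (nat_lit 228) (nat_lit 1) (nat_lit 11) (nat_lit 12) L107146 (by decide +kernel)
theorem L107148 : W_40 (nat_lit 6) (nat_lit 0xf000000014000a00010000c0000000000000000000000000000000) (nat_lit 0x0) (nat_lit 0x30000000e000200000000c000300008000000000000000000000000000) := T_40 (nat_lit 198) (nat_lit 199) (nat_lit 2) (nat_lit 8) (nat_lit 12) L107147 (by decide +kernel)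
theorem L107149 : W_40 (nat_lit 7) (nat_lit 0xf000000014000a0001000080000000000000000000000000000000) (nat_lit 0x0) (nat_lit 0x30000000e000200000000c00034000a000000000000000000000000000) := T_40 (nat_lit 126) (nat_lit 109) (nat_lit 4) (nat_lit 8) (nat_lit 10) L107148 (by decide +kernel)
theorem L107150 : W_40 (nat_lit 8) (nat_lit 0x7000000014000a0001000080000000000000000000000000000000) (nat_lit 0x0) (nat_lit 0x730018001e000200000000c00034000a000000000000000000000000000) := Q_40 (nat_lit 215) (C_40 L106654 (C_40 L106634 (C_40 L106632 (C_40 L107149 N_40)))) (by decide +kernel)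
theorem L107151 : W_40 (nat_lit 9) (nat_lit 0x3000000014000a0001000080000000000000000000000000000000) (nat_lit 0x0) (nat_lit 0x77001c001e800200000000c00034000a000000000000000000000000000) := Q_40 (nat_lit 214) (C_40 L106696 (C_40 L107103 (C_40 L107116 (C_40 L107150 N_40)))) (by decide +kernel)
theorem L107152 : W_40 (nat_lit 5) (nat_lit 0xb000040014000a00010001c0000000000000000000000000000000) (nat_lit 0x0) (nat_lit 0x330004000c8002000000000000000000000000000000000000000000000) := T_40 (nat_lit 214) (nat_lit 195) (nat_lit 0) (nat_lit 11) (nat_lit 12) L107106 (by decide +kernel)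
theorem L107153 : W_40 (nat_lit 6) (nat_lit 0xb000040014000a0001000180000000000000000000000000000000) (nat_lit 0x0) (nat_lit 0x330004000c8002000000000000040002000000000000000000000000000) := T_40 (nat_lit 126) (nat_lit 109) (nat_lit 4) (nat_lit 8) (nat_lit 10) L107152 (by decide +kernel)
theorem L107154 : W_40 (nat_lit 7) (nat_lit 0xb000000014000a0001000180000000000000000000000000000000) (nat_lit 0x0) (nat_lit 0x330004000cc002200000000000040002000000000000000000000000000) := T_40 (nat_lit 194) (nat_lit 177) (nat_lit 5) (nat_lit 8) (nat_lit 7) L107153 (by decide +kernel)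
theorem L107155 : W_40 (nat_lit 8) (nat_lit 0xb000000014000a0001000080000000000000000000000000000000) (nat_lit 0x0) (nat_lit 0x330004000cc00220000000000014000a000000000000000000000000000) := T_40 (nat_lit 128) (nat_lit 111) (nat_lit 6) (nat_lit 8) (nat_lit 10) L107154 (by decide +kernel)
theorem L107156 : W_40 (nat_lit 5) (nat_lit 0xb000040014000a0001000180000000000000000000000000000000) (nat_lit 0x0) (nat_lit 0x330004000c8002000000000000000000000000000000000000000000000) := T_40 (nat_lit 214) (nat_lit 195) (nat_lit 0) (nat_lit 11) (nat_lit 12) L107102 (by decide +kernel)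
theorem L107157 : W_40 (nat_lit 6) (nat_lit 0xb000000014000a0001000180000000000000000000000000000000) (nat_lit 0x0) (nat_lit 0x330004000cc002200000000000000000000000000000000000000000000) := T_40 (nat_lit 194) (nat_lit 177) (nat_lit 5) (nat_lit 8) (nat_lit 7) L107156 (by decide +kernel)
theorem L107158 : W_40 (nat_lit 7) (nat_lit 0xb000000014000a0001000080000000000000000000000000000000) (nat_lit 0x0) (nat_lit 0x330004000cc002200000000000100008000000000000000000000000000) := T_40 (nat_lit 128) (nat_lit 111) (nat_lit 6) (nat_lit 8) (nat_lit 10) L107157 (by decide +kernel)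
theorem L107159 : W_40 (nat_lit 5) (nat_lit 0xb000040014000a00010000c0000000000000000000000000000000) (nat_lit 0x0) (nat_lit 0x330004000c8002000000000000000000000000000000000000000000000) := T_40 (nat_lit 214) (nat_lit 195) (nat_lit 0) (nat_lit 11) (nat_lit 12) L107034 (by decide +kernel)
theorem L107160 : W_40 (nat_lit 6) (nat_lit 0xb000040014000a0001000080000000000000000000000000000000) (nat_lit 0x0) (nat_lit 0x330004000c8002000000000000040002000000000000000000000000000) := T_40 (nat_lit 126) (nat_lit 109) (nat_lit 4) (nat_lit 8) (nat_lit 10) L107159 (by decide +kernel)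
theorem L107161 : W_40 (nat_lit 7) (nat_lit 0xb000000014000a0001000080000000000000000000000000000000) (nat_lit 0x0) (nat_lit 0x330004000cc002200000000000040002000000000000000000000000000) := T_40 (nat_lit 194) (nat_lit 177) (nat_lit 5) (nat_lit 8) (nat_lit 7) L107160 (by decide +kernel)
theorem L107162 : W_40 (nat_lit 8) (nat_lit 0xb000000014000a0001000080000000000000000000000000000000) (nat_lit 0x0) (nat_lit 0x730014001e000200000000c00034000a000000000000000000000000000) := Q_40 (nat_lit 214) (C_40 L106654 (C_40 L107149 (C_40 L106634 (C_40 L106632 N_40)))) (by decide +kernel)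
theorem L107163 : W_40 (nat_lit 3) (nat_lit 0xb000040014000a00010001c0000000000000000000000000000000) (nat_lit 0x0) (nat_lit 0x30000400028000000000000000000000000000000000000000000000000) := T_40 (nat_lit 214) (nat_lit 195) (nat_lit 0) (nat_lit 11) (nat_lit 12) L107138 (by decide +kernel)
theorem L107164 : W_40 (nat_lit 4) (nat_lit 0xb000040014000a00010000c0000000000000000000000000000000) (nat_lit 0x0) (nat_lit 0x30000400028000000000000000100008000000000000000000000000000) := T_40 (nat_lit 128) (nat_lit 111) (nat_lit 6) (nat_lit 8) (nat_lit 10) L107163 (by decide +kernel)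
theorem L107165 : W_40 (nat_lit 5) (nat_lit 0xb000000014000a00010000c0000000000000000000000000000000) (nat_lit 0x0) (nat_lit 0x3000040002c000200000000000100008000000000000000000000000000) := T_40 (nat_lit 194) (nat_lit 177) (nat_lit 5) (nat_lit 8) (nat_lit 7) L107164 (by decide +kernel)
theorem L107166 : W_40 (nat_lit 6) (nat_lit 0xb000000014000a0001000080000000000000000000000000000000) (nat_lit 0x0) (nat_lit 0x3000040002c00020000000000014000a000000000000000000000000000) := T_40 (nat_lit 126) (nat_lit 109) (nat_lit 4) (nat_lit 8) (nat_lit 10) L107165 (by decide +kernel)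
theorem L107167 : W_40 (nat_lit 2) (nat_lit 0x2000f000440014000a00050001c0000000000000000000000000000000) (nat_lit 0x0) (nat_lit 0x2000000008000200000000000000000000000000000000) := D_40 (nat_lit 129) (nat_lit 147) (nat_lit 181) (nat_lit 3) (nat_lit 7) (nat_lit 7) (nat_lit 7) (nat_lit 10) (nat_lit 7) (by decide +kernel)
theorem L107168 : W_40 (nat_lit 3) (nat_lit 0x2000f000440014000a00010001c0000000000000000000000000000000) (nat_lit 0x0) (nat_lit 0x2000200000000c000200000000000000000000000000000000) := T_40 (nat_lit 146) (nat_lit 197) (nat_lit 7) (nat_lit 10) (nat_lit 8) L107167 (by decide +kernel)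
theorem L107169 : W_40 (nat_lit 4) (nat_lit 0x2000f000040014000a00010001c0000000000000000000000000000000) (nat_lit 0x0) (nat_lit 0xe000200000000c000200000000000000000000000000000000) := T_40 (nat_lit 198) (nat_lit 199) (nat_lit 2) (nat_lit 8) (nat_lit 12) L107168 (by decide +kernel)
theorem L107170 : W_40 (nat_lit 5) (nat_lit 0xf000040014000a00010001c0000000000000000000000000000000) (nat_lit 0x0) (nat_lit 0x30000000e000200000000c000200000000000000000000000000000000) := T_40 (nat_lit 229) (nat_lit 228) (nat_lit 1) (nat_lit 11) (nat_lit 12) L107169 (by decide +kernel)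
theorem L107171 : W_40 (nat_lit 6) (nat_lit 0xb000040014000a00010001c0000000000000000000000000000000) (nat_lit 0x0) (nat_lit 0x30004000e800200000000c000200000000000000000000000000000000) := T_40 (nat_lit 214) (nat_lit 195) (nat_lit 0) (nat_lit 11) (nat_lit 12) L107170 (by decide +kernel)
theorem L107172 : W_40 (nat_lit 7) (nat_lit 0xb000000014000a00010001c0000000000000000000000000000000) (nat_lit 0x0) (nat_lit 0x30004000ec00220000000c000200000000000000000000000000000000) := T_40 (nat_lit 194) (nat_lit 177) (nat_lit 5) (nat_lit 8) (nat_lit 7) L107171 (by decide +kernel)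
theorem L107173 : W_40 (nat_lit 8) (nat_lit 0xb000000014000a0001000180000000000000000000000000000000) (nat_lit 0x0) (nat_lit 0x30004000ec00220000000c000240002000000000000000000000000000) := T_40 (nat_lit 126) (nat_lit 109) (nat_lit 4) (nat_lit 8) (nat_lit 10) L107172 (by decide +kernel)
theorem L107174 : W_40 (nat_lit 9) (nat_lit 0xb000000014000a0001000080000000000000000000000000000000) (nat_lit 0x0) (nat_lit 0x30004000ec00220000000c00034000a000000000000000000000000000) := T_40 (nat_lit 128) (nat_lit 111) (nat_lit 6) (nat_lit 8) (nat_lit 10) L107173 (by decide +kernel)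
theorem L107175 : W_40 (nat_lit 13) (nat_lit 0x3000000014000a0001000080000000000000000000000000000000) (nat_lit 0x0) (nat_lit 0x10000e000700073001c001ec00e20025003c000f4007a000000000000000000000000000) := Q_40 (nat_lit 215) (C_40 L107155 (C_40 L107158 (C_40 L107161 (C_40 L107122 (C_40 L107162 (C_40 L107166 (C_40 L107174 N_40))))))) (by decide +kernel)
theorem L107176 : W_40 (nat_lit 14) (nat_lit 0x2000000014000a0001000080000000000000000000000000000000) (nat_lit 0x0) (nat_lit 0x10000e0007001ff007d003ec00e30025003c000f4007a000000000000000000000000000) := Q_40 (nat_lit 212) (C_40 L107114 (C_40 L107115 (C_40 L107137 (C_40 L107143 (C_40 L107151 (C_40 L107175 N_40)))))) (by decide +kernel)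
theorem L107177 : W_40 (nat_lit 2) (nat_lit 0x2000000016000e0001000080000000000000000000000000000000) (nat_lit 0x0) (nat_lit 0x180010000000000000000000000000000000000000000) := D_40 (nat_lit 176) (nat_lit 160) (nat_lit 175) (nat_lit 1) (nat_lit 10) (nat_lit 9) (nat_lit 2) (nat_lit 5) (nat_lit 10) (by decide +kernel)
theorem L107178 : W_40 (nat_lit 3) (nat_lit 0x2000000016000a0001000080000000000000000000000000000000) (nat_lit 0x0) (nat_lit 0x180150000000000000000000000000000000000000000) := T_40 (nat_lit 162) (nat_lit 164) (nat_lit 1) (nat_lit 11) (nat_lit 9) L107177 (by decide +kernel)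
theorem L107179 : W_40 (nat_lit 4) (nat_lit 0x2000000014000a0001000080000000000000000000000000000000) (nat_lit 0x0) (nat_lit 0x4000380150000000000000000000000000000000000000000) := T_40 (nat_lit 177) (nat_lit 194) (nat_lit 5) (nat_lit 8) (nat_lit 7) L107178 (by decide +kernel)
theorem L107180 : W_40 (nat_lit 12) (nat_lit 0x2000000014000a0001000080000000000000000000000000000000) (nat_lit 0x0) (nat_lit 0x1f001d000e800e00035003c000f4007a000000000000000000000000000) := Q_40 (nat_lit 181) (C_40 L106844 (C_40 L106998 (C_40 L106881 N_40))) (by decide +kernel)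
theorem L107181 : W_40 (nat_lit 15) (nat_lit 0x200000001400020001000080000000000000000000000000000000) (nat_lit 0x0) (nat_lit 0x10000e0007001ff007d003ec00e3803d003c000f4007a000000000000000000000000000) := Q_40 (nat_lit 163) (C_40 L107023 (C_40 L107026 (C_40 L107088 (C_40 L107099 (C_40 L107176 (C_40 L107179 (C_40 L107180 N_40))))))) (by decide +kernel)
theorem L107182 : W_40 (nat_lit 2) (nat_lit 0x200000007c000200010001c0000000000000000000000000000000) (nat_lit 0x0) (nat_lit 0x1c0000000000000000000000000000000000000000000000000) := D_40 (nat_lit 199) (nat_lit 198) (nat_lit 200) (nat_lit 3) (nat_lit 8) (nat_lit 10) (nat_lit 3) (nat_lit 9) (nat_lit 10) (by decide +kernel)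
theorem L107183 : W_40 (nat_lit 3) (nat_lit 0x200000003c000200010001c0000000000000000000000000000000) (nat_lit 0x0) (nat_lit 0x1c0004000040000000000000000000000000000000000000000) := T_40 (nat_lit 182) (nat_lit 162) (nat_lit 0) (nat_lit 12) (nat_lit 10) L107182 (by decide +kernel)
theorem L107184 : W_40 (nat_lit 4) (nat_lit 0x200000001c000200010001c0000000000000000000000000000000) (nat_lit 0x0) (nat_lit 0x1c0006000050000000000000000000000000000000000000000) := T_40 (nat_lit 181) (nat_lit 160) (nat_lit 0) (nat_lit 11) (nat_lit 10) L107183 (by decide +kernel)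
theorem L107185 : W_40 (nat_lit 5) (nat_lit 0x200000001c000200010000c0000000000000000000000000000000) (nat_lit 0x0) (nat_lit 0x1c0006000050000000100008000000000000000000000000000) := T_40 (nat_lit 128) (nat_lit 111) (nat_lit 6) (nat_lit 8) (nat_lit 10) L107184 (by decide +kernel)
theorem L107186 : W_40 (nat_lit 6) (nat_lit 0x200000001c00020001000080000000000000000000000000000000) (nat_lit 0x0) (nat_lit 0x1c000600005000000014000a000000000000000000000000000) := T_40 (nat_lit 126) (nat_lit 109) (nat_lit 4) (nat_lit 8) (nat_lit 10) L107185 (by decide +kernel)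
theorem L107187 : W_40 (nat_lit 9) (nat_lit 0x200000001400020001000080000000000000000000000000000000) (nat_lit 0x0) (nat_lit 0x1ef806b800dc00000014000a000000000000000000000000000) := Q_40 (nat_lit 179) (C_40 L106952 (C_40 L106910 (C_40 L106724 (C_40 L107186 N_40)))) (by decide +kernel)
theorem L107188 : W_40 (nat_lit 2) (nat_lit 0x3f001600020001c000280010001c0000000000000000000000000000000) (nat_lit 0x0) (nat_lit 0x70000000000000000000000000000000000000000000000000000000000000) := D_40 (nat_lit 245) (nat_lit 246) (nat_lit 244) (nat_lit 1) (nat_lit 11) (nat_lit 13) (nat_lit 1) (nat_lit 10) (nat_lit 13) (by decide +kernel)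
theorem L107189 : W_40 (nat_lit 3) (nat_lit 0x3e001600020001c000280010001c0000000000000000000000000000000) (nat_lit 0x0) (nat_lit 0x70001800000000000000000000000000000000000000000000000000000000) := T_40 (nat_lit 228) (nat_lit 227) (nat_lit 2) (nat_lit 6) (nat_lit 13) L107188 (by decide +kernel)
theorem L107190 : W_40 (nat_lit 4) (nat_lit 0x3c001600020001c000280010001c0000000000000000000000000000000) (nat_lit 0x0) (nat_lit 0x70003800800000000000000000000000000000000000000000000000000000) := T_40 (nat_lit 229) (nat_lit 215) (nat_lit 2) (nat_lit 8) (nat_lit 13) L107189 (by decide +kernel)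
theorem L107191 : W_40 (nat_lit 5) (nat_lit 0x3c000600020001c000280010001c0000000000000000000000000000000) (nat_lit 0x0) (nat_lit 0x70003803800000000000000000000000000000000000000000000000000000) := T_40 (nat_lit 216) (nat_lit 217) (nat_lit 2) (nat_lit 9) (nat_lit 13) L107190 (by decide +kernel)
theorem L107192 : W_40 (nat_lit 6) (nat_lit 0x3c0006000200014000280010001c0000000000000000000000000000000) (nat_lit 0x0) (nat_lit 0x70003803800000000800040000000000000000000000000000000000000000) := T_40 (nat_lit 179) (nat_lit 162) (nat_lit 4) (nat_lit 10) (nat_lit 13) L107191 (by decide +kernel)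
theorem L107193 : W_40 (nat_lit 2) (nat_lit 0x3f001600028001c00028001000080000000000000000000000000000000) (nat_lit 0x0) (nat_lit 0x70000000000000000000000000000000000000000000000000000000000000) := D_40 (nat_lit 245) (nat_lit 246) (nat_lit 244) (nat_lit 1) (nat_lit 11) (nat_lit 13) (nat_lit 1) (nat_lit 10) (nat_lit 13) (by decide +kernel)
theorem L107194 : W_40 (nat_lit 3) (nat_lit 0x3e001600028001c00028001000080000000000000000000000000000000) (nat_lit 0x0) (nat_lit 0x70001800000000000000000000000000000000000000000000000000000000) := T_40 (nat_lit 228) (nat_lit 227) (nat_lit 2) (nat_lit 6) (nat_lit 13) L107193 (by decide +kernel)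
theorem L107195 : W_40 (nat_lit 4) (nat_lit 0x3c001600028001c00028001000080000000000000000000000000000000) (nat_lit 0x0) (nat_lit 0x70003800800000000000000000000000000000000000000000000000000000) := T_40 (nat_lit 229) (nat_lit 215) (nat_lit 2) (nat_lit 8) (nat_lit 13) L107194 (by decide +kernel)
theorem L107196 : W_40 (nat_lit 5) (nat_lit 0x3c000600028001c00028001000080000000000000000000000000000000) (nat_lit 0x0) (nat_lit 0x70003803800000000000000000000000000000000000000000000000000000) := T_40 (nat_lit 216) (nat_lit 217) (nat_lit 2) (nat_lit 9) (nat_lit 13) L107195 (by decide +kernel)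
theorem L107197 : W_40 (nat_lit 6) (nat_lit 0x3c000600028001400028001000080000000000000000000000000000000) (nat_lit 0x0) (nat_lit 0x70003803800000000800040000000000000000000000000000000000000000) := T_40 (nat_lit 179) (nat_lit 162) (nat_lit 4) (nat_lit 10) (nat_lit 13) L107196 (by decide +kernel)
theorem L107198 : W_40 (nat_lit 7) (nat_lit 0x1c000600028001400028001000080000000000000000000000000000000) (nat_lit 0x0) (nat_lit 0x70063803800000000800040000000000000000000000000000000000000000) := T_40 (nat_lit 233) (nat_lit 234) (nat_lit 0) (nat_lit 13) (nat_lit 13) L107197 (by decide +kernel)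
theorem L107199 : W_40 (nat_lit 8) (nat_lit 0xc000600028001400028001000080000000000000000000000000000000) (nat_lit 0x0) (nat_lit 0x270073803800000000800040000000000000000000000000000000000000000) := T_40 (nat_lit 232) (nat_lit 249) (nat_lit 7) (nat_lit 10) (nat_lit 10) L107198 (by decide +kernel)
theorem L107200 : W_40 (nat_lit 9) (nat_lit 0xc000600020001400028001000080000000000000000000000000000000) (nat_lit 0x0) (nat_lit 0x270073803900008000800040000000000000000000000000000000000000000) := T_40 (nat_lit 195) (nat_lit 212) (nat_lit 7) (nat_lit 8) (nat_lit 9) L107199 (by decide +kernel)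
theorem L107201 : W_40 (nat_lit 2) (nat_lit 0x1c000600020001400028001000180000000000000000000000000000000) (nat_lit 0x0) (nat_lit 0x60000100000000000000000000000000000000000000000000000000000) := D_40 (nat_lit 233) (nat_lit 234) (nat_lit 212) (nat_lit 0) (nat_lit 13) (nat_lit 13) (nat_lit 0) (nat_lit 12) (nat_lit 13) (by decide +kernel)
theorem L107202 : W_40 (nat_lit 3) (nat_lit 0xc000600020001400028001000180000000000000000000000000000000) (nat_lit 0x0) (nat_lit 0x200070000100000000000000000000000000000000000000000000000000000) := T_40 (nat_lit 232) (nat_lit 249) (nat_lit 7) (nat_lit 10) (nat_lit 10) L107201 (by decide +kernel)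
theorem L107203 : W_40 (nat_lit 4) (nat_lit 0xc000600020001400028001000080000000000000000000000000000000) (nat_lit 0x0) (nat_lit 0x200070000100000000000000000000100008000000000000000000000000000) := T_40 (nat_lit 128) (nat_lit 111) (nat_lit 6) (nat_lit 8) (nat_lit 10) L107202 (by decide +kernel)
theorem L107204 : W_40 (nat_lit 2) (nat_lit 0x4001e000800014000280010000c0000000000000000000000000000000) (nat_lit 0x0) (nat_lit 0x100048000000000000000000000000000000000000000000000000) := D_40 (nat_lit 212) (nat_lit 198) (nat_lit 195) (nat_lit 2) (nat_lit 8) (nat_lit 12) (nat_lit 7) (nat_lit 8) (nat_lit 9) (by decide +kernel)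
theorem L107205 : W_40 (nat_lit 3) (nat_lit 0x4001e000000014000280010000c0000000000000000000000000000000) (nat_lit 0x0) (nat_lit 0x1001c8000000000000000000000000000000000000000000000000) := T_40 (nat_lit 199) (nat_lit 200) (nat_lit 2) (nat_lit 9) (nat_lit 12) L107204 (by decide +kernel)
theorem L107206 : W_40 (nat_lit 4) (nat_lit 0x4001e00000001400028001000080000000000000000000000000000000) (nat_lit 0x0) (nat_lit 0x1001c8000000000000000040002000000000000000000000000000) := T_40 (nat_lit 126) (nat_lit 109) (nat_lit 4) (nat_lit 8) (nat_lit 10) L107205 (by decide +kernel)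
theorem L107207 : W_40 (nat_lit 5) (nat_lit 0x4000e00000001400028001000080000000000000000000000000000000) (nat_lit 0x0) (nat_lit 0x20011001c8000000000000000040002000000000000000000000000000) := T_40 (nat_lit 216) (nat_lit 229) (nat_lit 1) (nat_lit 12) (nat_lit 12) L107206 (by decide +kernel)
theorem L107208 : W_40 (nat_lit 2) (nat_lit 0x124007e002080014000280010001c0000000000000000000000000000000) (nat_lit 0x0) (nat_lit 0x210008000000000000000000000000000000000000000000000000000000) := D_40 (nat_lit 219) (nat_lit 232) (nat_lit 237) (nat_lit 1) (nat_lit 15) (nat_lit 12) (nat_lit 3) (nat_lit 12) (nat_lit 12) (by decide +kernel)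
theorem L107209 : W_40 (nat_lit 3) (nat_lit 0x24007e002080014000280010001c0000000000000000000000000000000) (nat_lit 0x0) (nat_lit 0x390008000000000000000000000000000000000000000000000000000000) := T_40 (nat_lit 236) (nat_lit 235) (nat_lit 3) (nat_lit 11) (nat_lit 12) L107208 (by decide +kernel)
theorem L107210 : W_40 (nat_lit 4) (nat_lit 0x24003e002080014000280010001c0000000000000000000000000000000) (nat_lit 0x0) (nat_lit 0x39000c000400000000000000000000000000000000000000000000000000) := T_40 (nat_lit 218) (nat_lit 202) (nat_lit 2) (nat_lit 11) (nat_lit 12) L107209 (by decide +kernel)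
theorem L107211 : W_40 (nat_lit 5) (nat_lit 0x24003e000080014000280010001c0000000000000000000000000000000) (nat_lit 0x0) (nat_lit 0x39000c000700000000000000000000000000000000000000000000000000) := T_40 (nat_lit 201) (nat_lit 200) (nat_lit 2) (nat_lit 10) (nat_lit 12) L107210 (by decide +kernel)
theorem L107212 : W_40 (nat_lit 6) (nat_lit 0x24003e000080014000280010000c0000000000000000000000000000000) (nat_lit 0x0) (nat_lit 0x39000c000700000000000000000100008000000000000000000000000000) := T_40 (nat_lit 128) (nat_lit 111) (nat_lit 6) (nat_lit 8) (nat_lit 10) L107211 (by decide +kernel)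
theorem L107213 : W_40 (nat_lit 7) (nat_lit 0x24001e000080014000280010000c0000000000000000000000000000000) (nat_lit 0x0) (nat_lit 0x39800e000700000000000000000100008000000000000000000000000000) := T_40 (nat_lit 217) (nat_lit 231) (nat_lit 1) (nat_lit 13) (nat_lit 12) L107212 (by decide +kernel)
theorem L107214 : W_40 (nat_lit 8) (nat_lit 0x4001e000080014000280010000c0000000000000000000000000000000) (nat_lit 0x0) (nat_lit 0x3f800e000700000000000000000100008000000000000000000000000000) := T_40 (nat_lit 233) (nat_lit 234) (nat_lit 3) (nat_lit 9) (nat_lit 12) L107213 (by decide +kernel)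
theorem L107215 : W_40 (nat_lit 9) (nat_lit 0x4001e000000014000280010000c0000000000000000000000000000000) (nat_lit 0x0) (nat_lit 0x3f800e100708000000000000000100008000000000000000000000000000) := T_40 (nat_lit 195) (nat_lit 212) (nat_lit 7) (nat_lit 8) (nat_lit 9) L107214 (by decide +kernel)
theorem L107216 : W_40 (nat_lit 10) (nat_lit 0x4000e000000014000280010000c0000000000000000000000000000000) (nat_lit 0x0) (nat_lit 0x3fa00f100708000000000000000100008000000000000000000000000000) := T_40 (nat_lit 216) (nat_lit 229) (nat_lit 1) (nat_lit 12) (nat_lit 12) L107215 (by decide +kernel)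
theorem L107217 : W_40 (nat_lit 11) (nat_lit 0x4000e00000001400028001000080000000000000000000000000000000) (nat_lit 0x0) (nat_lit 0x3fa00f10070800000000000000014000a000000000000000000000000000) := T_40 (nat_lit 126) (nat_lit 109) (nat_lit 4) (nat_lit 8) (nat_lit 10) L107216 (by decide +kernel)
theorem L107218 : W_40 (nat_lit 2) (nat_lit 0x20000000148003c0012001e0000000000000000000000000000000) (nat_lit 0x0) (nat_lit 0x10001800000000000000000000000000) := D_40 (nat_lit 108) (nat_lit 107) (nat_lit 124) (nat_lit 0) (nat_lit 9) (nat_lit 7) (nat_lit 6) (nat_lit 5) (nat_lit 10) (by decide +kernel)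
theorem L107219 : W_40 (nat_lit 3) (nat_lit 0x20000000148003c0012001c0000000000000000000000000000000) (nat_lit 0x0) (nat_lit 0x400030001800000000000000000000000000) := T_40 (nat_lit 125) (nat_lit 142) (nat_lit 1) (nat_lit 9) (nat_lit 7) L107218 (by decide +kernel)
theorem L107220 : W_40 (nat_lit 2) (nat_lit 0x200000001400038001600080000000000000000000000000000000) (nat_lit 0x0) (nat_lit 0x4000180000000000000000000000000000000000) := D_40 (nat_lit 140) (nat_lit 158) (nat_lit 139) (nat_lit 0) (nat_lit 8) (nat_lit 9) (nat_lit 3) (nat_lit 3) (nat_lit 8) (by decide +kernel)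
theorem L107221 : W_40 (nat_lit 3) (nat_lit 0x200000001400038001200080000000000000000000000000000000) (nat_lit 0x0) (nat_lit 0x44000580000000000000000000000000000000000) := T_40 (nat_lit 142) (nat_lit 162) (nat_lit 0) (nat_lit 9) (nat_lit 9) L107220 (by decide +kernel)
theorem L107222 : W_40 (nat_lit 4) (nat_lit 0x20000000148003c001200180000000000000000000000000000000) (nat_lit 0x0) (nat_lit 0x400070003800000000000000000000000000) := T_40 (nat_lit 126) (nat_lit 109) (nat_lit 4) (nat_lit 8) (nat_lit 10) L107219 (by decide +kernel)
theorem L107223 : W_40 (nat_lit 2) (nat_lit 0x20000000158003c0012000c0000000000000000000000000000000) (nat_lit 0x0) (nat_lit 0x40002000000000000000010000000000000000000000000000000) := D_40 (nat_lit 193) (nat_lit 210) (nat_lit 124) (nat_lit 4) (nat_lit 6) (nat_lit 12) (nat_lit 7) (nat_lit 5) (nat_lit 7) (by decide +kernel)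
theorem L107224 : W_40 (nat_lit 3) (nat_lit 0x20000000148003c0012000c0000000000000000000000000000000) (nat_lit 0x0) (nat_lit 0x40002000100040000000010000000000000000000000000000000) := T_40 (nat_lit 176) (nat_lit 162) (nat_lit 1) (nat_lit 9) (nat_lit 9) L107223 (by decide +kernel)
theorem L107225 : W_40 (nat_lit 4) (nat_lit 0x20000000148003c001200080000000000000000000000000000000) (nat_lit 0x0) (nat_lit 0x40002000100040000000050002000000000000000000000000000) := T_40 (nat_lit 126) (nat_lit 109) (nat_lit 4) (nat_lit 8) (nat_lit 10) L107224 (by decide +kernel)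
theorem L107226 : W_40 (nat_lit 5) (nat_lit 0x20000000140003c001200080000000000000000000000000000000) (nat_lit 0x0) (nat_lit 0x400020001c0040000000050002000000000000000000000000000) := T_40 (nat_lit 175) (nat_lit 174) (nat_lit 1) (nat_lit 8) (nat_lit 9) L107225 (by decide +kernel)
theorem L107227 : W_40 (nat_lit 2) (nat_lit 0x200000001400038001200080000000000000000000000000000000) (nat_lit 0x0) (nat_lit 0x800040000400000000000000000000000000000000000) := D_40 (nat_lit 162) (nat_lit 179) (nat_lit 142) (nat_lit 3) (nat_lit 6) (nat_lit 9) (nat_lit 0) (nat_lit 9) (nat_lit 9) (by decide +kernel)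
theorem L107228 : W_40 (nat_lit 2) (nat_lit 0x20000000140002c0012001f0000000000000000000000000000000) (nat_lit 0x0) (nat_lit 0x80000000000000001800000000000000000000000000) := D_40 (nat_lit 108) (nat_lit 107) (nat_lit 175) (nat_lit 0) (nat_lit 9) (nat_lit 7) (nat_lit 6) (nat_lit 5) (nat_lit 10) (by decide +kernel)
theorem L107229 : W_40 (nat_lit 3) (nat_lit 0x20000000140002c0012001e0000000000000000000000000000000) (nat_lit 0x0) (nat_lit 0x80000000100010001800000000000000000000000000) := T_40 (nat_lit 124) (nat_lit 140) (nat_lit 1) (nat_lit 8) (nat_lit 7) L107228 (by decide +kernel)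
theorem L107230 : W_40 (nat_lit 4) (nat_lit 0x20000000140002c0012001c0000000000000000000000000000000) (nat_lit 0x0) (nat_lit 0x80000000500030001800000000000000000000000000) := T_40 (nat_lit 125) (nat_lit 142) (nat_lit 1) (nat_lit 9) (nat_lit 7) L107229 (by decide +kernel)
theorem L107231 : W_40 (nat_lit 5) (nat_lit 0x20000000140002c0012000c0000000000000000000000000000000) (nat_lit 0x0) (nat_lit 0x80000000500130009800000000000000000000000000) := T_40 (nat_lit 128) (nat_lit 111) (nat_lit 6) (nat_lit 8) (nat_lit 10) L107230 (by decide +kernel)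
theorem L107232 : W_40 (nat_lit 6) (nat_lit 0x20000000140002c001200080000000000000000000000000000000) (nat_lit 0x0) (nat_lit 0x8000000050017000b800000000000000000000000000) := T_40 (nat_lit 126) (nat_lit 109) (nat_lit 4) (nat_lit 8) (nat_lit 10) L107231 (by decide +kernel)
theorem L107233 : W_40 (nat_lit 2) (nat_lit 0x20000000148002c001200190000c00000000000000000000000000) (nat_lit 0x0) (nat_lit 0x800040002000000000000000000000000000000000000000) := D_40 (nat_lit 174) (nat_lit 191) (nat_lit 157) (nat_lit 5) (nat_lit 5) (nat_lit 7) (nat_lit 5) (nat_lit 5) (nat_lit 6) (by decide +kernel)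
theorem L107234 : W_40 (nat_lit 3) (nat_lit 0x20000000140002c001200190000c00000000000000000000000000) (nat_lit 0x0) (nat_lit 0x8000c0002000000008000000000000000000000000000000) := T_40 (nat_lit 175) (nat_lit 123) (nat_lit 4) (nat_lit 5) (nat_lit 10) L107233 (by decide +kernel)
theorem L107235 : W_40 (nat_lit 4) (nat_lit 0x20000000140002c001200190000800000000000000000000000000) (nat_lit 0x0) (nat_lit 0x8000c0002000000008000400020000000000000000000000) := T_40 (nat_lit 106) (nat_lit 89) (nat_lit 4) (nat_lit 5) (nat_lit 9) L107234 (by decide +kernel)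
theorem L107236 : W_40 (nat_lit 5) (nat_lit 0x20000000140002c001200190000000000000000000000000000000) (nat_lit 0x0) (nat_lit 0x8001c0002000000008000c00020000000000000000000000) := T_40 (nat_lit 107) (nat_lit 176) (nat_lit 7) (nat_lit 5) (nat_lit 6) L107235 (by decide +kernel)
theorem L107237 : W_40 (nat_lit 6) (nat_lit 0x20000000140002c001200090000000000000000000000000000000) (nat_lit 0x0) (nat_lit 0x8001c0002000000108008c00020000000000000000000000) := T_40 (nat_lit 128) (nat_lit 111) (nat_lit 6) (nat_lit 8) (nat_lit 10) L107236 (by decide +kernel)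
theorem L107238 : W_40 (nat_lit 2) (nat_lit 0x20000000140002c001200090000c00000000000000000000000000) (nat_lit 0x0) (nat_lit 0x60002000000000000000000000000000) := D_40 (nat_lit 126) (nat_lit 109) (nat_lit 125) (nat_lit 4) (nat_lit 8) (nat_lit 10) (nat_lit 0) (nat_lit 8) (nat_lit 7) (by decide +kernel)
theorem L107239 : W_40 (nat_lit 3) (nat_lit 0x20000000140002c001200090000800000000000000000000000000) (nat_lit 0x0) (nat_lit 0x60002400020000000000000000000000) := T_40 (nat_lit 106) (nat_lit 89) (nat_lit 4) (nat_lit 5) (nat_lit 9) L107238 (by decide +kernel)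
theorem L107240 : W_40 (nat_lit 4) (nat_lit 0x20000000140002c001200090000000000000000000000000000000) (nat_lit 0x0) (nat_lit 0x100000000000060002c00020000000000000000000000) := T_40 (nat_lit 107) (nat_lit 176) (nat_lit 7) (nat_lit 5) (nat_lit 6) L107239 (by decide +kernel)
theorem L107241 : W_40 (nat_lit 3) (nat_lit 0x20000000140002c0012001d0000000000000000000000000000000) (nat_lit 0x0) (nat_lit 0x80000000100020001800000000000000000000000000) := T_40 (nat_lit 125) (nat_lit 140) (nat_lit 1) (nat_lit 8) (nat_lit 7) L107228 (by decide +kernel)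
theorem L107242 : W_40 (nat_lit 4) (nat_lit 0x20000000140002c001200190000000000000000000000000000000) (nat_lit 0x0) (nat_lit 0x80000000100060003800000000000000000000000000) := T_40 (nat_lit 126) (nat_lit 109) (nat_lit 4) (nat_lit 8) (nat_lit 10) L107241 (by decide +kernel)
theorem L107243 : W_40 (nat_lit 5) (nat_lit 0x20000000140002c001200090000000000000000000000000000000) (nat_lit 0x0) (nat_lit 0x8000000010016000b800000000000000000000000000) := T_40 (nat_lit 128) (nat_lit 111) (nat_lit 6) (nat_lit 8) (nat_lit 10) L107242 (by decide +kernel)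
theorem L107244 : W_40 (nat_lit 2) (nat_lit 0x20000300148002c0012001f8000000000000000000000000000000) (nat_lit 0x0) (nat_lit 0x10000800040000000000000000000000000000000000000000000) := D_40 (nat_lit 191) (nat_lit 208) (nat_lit 174) (nat_lit 5) (nat_lit 5) (nat_lit 8) (nat_lit 5) (nat_lit 5) (nat_lit 7) (by decide +kernel)
theorem L107245 : W_40 (nat_lit 3) (nat_lit 0x20000200148002c0012001f8000000000000000000000000000000) (nat_lit 0x0) (nat_lit 0x50001800040000000000000000000000000000000000000000000) := T_40 (nat_lit 192) (nat_lit 210) (nat_lit 7) (nat_lit 5) (nat_lit 8) L107244 (by decide +kernel)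
theorem L107246 : W_40 (nat_lit 4) (nat_lit 0x20000200148002c0012001f0000000000000000000000000000000) (nat_lit 0x0) (nat_lit 0x50001800040000000000008000400000000000000000000000000) := T_40 (nat_lit 123) (nat_lit 106) (nat_lit 4) (nat_lit 5) (nat_lit 10) L107245 (by decide +kernel)
theorem L107247 : W_40 (nat_lit 5) (nat_lit 0x20000000148002c0012001f0000000000000000000000000000000) (nat_lit 0x0) (nat_lit 0x50003800140000000000008000400000000000000000000000000) := T_40 (nat_lit 193) (nat_lit 176) (nat_lit 7) (nat_lit 5) (nat_lit 7) L107246 (by decide +kernel)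
theorem L107248 : W_40 (nat_lit 6) (nat_lit 0x20000000140002c0012001f0000000000000000000000000000000) (nat_lit 0x0) (nat_lit 0x500038001c0000000000008001400000000000000000000000000) := T_40 (nat_lit 175) (nat_lit 108) (nat_lit 6) (nat_lit 5) (nat_lit 10) L107247 (by decide +kernel)
theorem L107249 : W_40 (nat_lit 7) (nat_lit 0x20000000140002c0012000f0000000000000000000000000000000) (nat_lit 0x0) (nat_lit 0x500038001c0000000000108009400000000000000000000000000) := T_40 (nat_lit 128) (nat_lit 111) (nat_lit 6) (nat_lit 8) (nat_lit 10) L107248 (by decide +kernel)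
theorem L107250 : W_40 (nat_lit 8) (nat_lit 0x20000000140002c0012000d0000000000000000000000000000000) (nat_lit 0x0) (nat_lit 0x500038001c0000000100128009400000000000000000000000000) := T_40 (nat_lit 125) (nat_lit 140) (nat_lit 1) (nat_lit 8) (nat_lit 7) L107249 (by decide +kernel)
theorem L107251 : W_40 (nat_lit 9) (nat_lit 0x20000000140002c001200090000000000000000000000000000000) (nat_lit 0x0) (nat_lit 0x500038001c000000010016800b400000000000000000000000000) := T_40 (nat_lit 126) (nat_lit 109) (nat_lit 4) (nat_lit 8) (nat_lit 10) L107250 (by decide +kernel)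
theorem L107252 : W_40 (nat_lit 10) (nat_lit 0x20000000140002c001200080000000000000000000000000000000) (nat_lit 0x0) (nat_lit 0x500038001c000200010017800bc00020000000000000000000000) := Q_40 (nat_lit 124) (C_40 L107237 (C_40 L107240 (C_40 L107243 (C_40 L107251 N_40)))) (by decide +kernel)
theorem L107253 : W_40 (nat_lit 2) (nat_lit 0x4003e00008001400028001000180000000000000000000000000000000) (nat_lit 0x0) (nat_lit 0x380000000000000000000000000000000000000000000000000) := D_40 (nat_lit 200) (nat_lit 199) (nat_lit 201) (nat_lit 2) (nat_lit 9) (nat_lit 12) (nat_lit 2) (nat_lit 10) (nat_lit 12) (by decide +kernel)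
theorem L107254 : W_40 (nat_lit 3) (nat_lit 0x4001e00008001400028001000180000000000000000000000000000000) (nat_lit 0x0) (nat_lit 0x8002000380000000000000000000000000000000000000000000000000) := T_40 (nat_lit 217) (nat_lit 231) (nat_lit 1) (nat_lit 13) (nat_lit 12) L107253 (by decide +kernel)
theorem L107255 : W_40 (nat_lit 4) (nat_lit 0x4000e00008001400028001000180000000000000000000000000000000) (nat_lit 0x0) (nat_lit 0xa003000380000000000000000000000000000000000000000000000000) := T_40 (nat_lit 216) (nat_lit 229) (nat_lit 1) (nat_lit 12) (nat_lit 12) L107254 (by decide +kernel)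
theorem L107256 : W_40 (nat_lit 5) (nat_lit 0x4000e00000001400028001000180000000000000000000000000000000) (nat_lit 0x0) (nat_lit 0xa003100388000000000000000000000000000000000000000000000000) := T_40 (nat_lit 195) (nat_lit 212) (nat_lit 7) (nat_lit 8) (nat_lit 9) L107255 (by decide +kernel)
theorem L107257 : W_40 (nat_lit 6) (nat_lit 0x4000e00000001400028001000080000000000000000000000000000000) (nat_lit 0x0) (nat_lit 0xa003100388000000000000000100008000000000000000000000000000) := T_40 (nat_lit 128) (nat_lit 111) (nat_lit 6) (nat_lit 8) (nat_lit 10) L107256 (by decide +kernel)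
theorem L107258 : W_40 (nat_lit 2) (nat_lit 0x44001e00080001400028001000180000000000000000000000000000000) (nat_lit 0x0) (nat_lit 0x88002000000000000000000000000000000000000000000000000000000) := D_40 (nat_lit 217) (nat_lit 231) (nat_lit 235) (nat_lit 1) (nat_lit 13) (nat_lit 12) (nat_lit 3) (nat_lit 10) (nat_lit 12) (by decide +kernel)
theorem L107259 : W_40 (nat_lit 3) (nat_lit 0x4001e00080001400028001000180000000000000000000000000000000) (nat_lit 0x0) (nat_lit 0xe8002000000000000000000000000000000000000000000000000000000) := T_40 (nat_lit 234) (nat_lit 233) (nat_lit 3) (nat_lit 9) (nat_lit 12) L107258 (by decide +kernel)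
theorem L107260 : W_40 (nat_lit 4) (nat_lit 0x4001e00000001400028001000180000000000000000000000000000000) (nat_lit 0x0) (nat_lit 0xe8002000180000000000000000000000000000000000000000000000000) := T_40 (nat_lit 199) (nat_lit 200) (nat_lit 2) (nat_lit 9) (nat_lit 12) L107259 (by decide +kernel)
theorem L107261 : W_40 (nat_lit 5) (nat_lit 0x4001e00000001400028001000080000000000000000000000000000000) (nat_lit 0x0) (nat_lit 0xe8002000180000000000000000100008000000000000000000000000000) := T_40 (nat_lit 128) (nat_lit 111) (nat_lit 6) (nat_lit 8) (nat_lit 10) L107260 (by decide +kernel)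
theorem L107262 : W_40 (nat_lit 6) (nat_lit 0x4000e00000001400028001000080000000000000000000000000000000) (nat_lit 0x0) (nat_lit 0xea003000180000000000000000100008000000000000000000000000000) := T_40 (nat_lit 216) (nat_lit 229) (nat_lit 1) (nat_lit 12) (nat_lit 12) L107261 (by decide +kernel)
theorem L107263 : W_40 (nat_lit 4) (nat_lit 0x10000e00000001400028001000180000000000000000000000000000000) (nat_lit 0x0) (nat_lit 0x2000200001000e0000000080000000000000000000000000000000000000000) := T_40 (nat_lit 212) (nat_lit 233) (nat_lit 3) (nat_lit 8) (nat_lit 12) L106683 (by decide +kernel)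
theorem L107264 : W_40 (nat_lit 5) (nat_lit 0x10000e00000001400028001000080000000000000000000000000000000) (nat_lit 0x0) (nat_lit 0x2000200001000e0000000080000000100008000000000000000000000000000) := T_40 (nat_lit 128) (nat_lit 111) (nat_lit 6) (nat_lit 8) (nat_lit 10) L107263 (by decide +kernel)
theorem L107265 : W_40 (nat_lit 2) (nat_lit 0xc000200012000f000480014000280010000c0000000000000000000000000000000) (nat_lit 0x0) (nat_lit 0x40002000100000000000000000000000000000000000000000000000000000000000000) := D_40 (nat_lit 265) (nat_lit 248) (nat_lit 282) (nat_lit 5) (nat_lit 11) (nat_lit 11) (nat_lit 5) (nat_lit 11) (nat_lit 12) (by decide +kernel)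
theorem L107266 : W_40 (nat_lit 3) (nat_lit 0x8000200012000f000480014000280010000c0000000000000000000000000000000) (nat_lit 0x0) (nat_lit 0x140006000100000000000000000000000000000000000000000000000000000000000000) := T_40 (nat_lit 266) (nat_lit 284) (nat_lit 7) (nat_lit 11) (nat_lit 12) L107265 (by decide +kernel)
theorem L107267 : W_40 (nat_lit 4) (nat_lit 0x8000200012000f00048001400028001000080000000000000000000000000000000) (nat_lit 0x0) (nat_lit 0x140006000100000000000000000000000000000040002000000000000000000000000000) := T_40 (nat_lit 126) (nat_lit 109) (nat_lit 4) (nat_lit 8) (nat_lit 10) L107266 (by decide +kernel)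
theorem L107268 : W_40 (nat_lit 5) (nat_lit 0x200012000f00048001400028001000080000000000000000000000000000000) (nat_lit 0x0) (nat_lit 0x14000e000500000000000000000000000000000040002000000000000000000000000000) := T_40 (nat_lit 267) (nat_lit 250) (nat_lit 7) (nat_lit 11) (nat_lit 11) L107267 (by decide +kernel)
theorem L107269 : W_40 (nat_lit 6) (nat_lit 0x12000f00048001400028001000080000000000000000000000000000000) (nat_lit 0x0) (nat_lit 0x14000e000700000000000020000000000000000040002000000000000000000000000000) := T_40 (nat_lit 249) (nat_lit 197) (nat_lit 4) (nat_lit 11) (nat_lit 14) L107268 (by decide +kernel)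
theorem L107270 : W_40 (nat_lit 7) (nat_lit 0x10000f00048001400028001000080000000000000000000000000000000) (nat_lit 0x0) (nat_lit 0x14000e000700003000000020000000000000000040002000000000000000000000000000) := T_40 (nat_lit 229) (nat_lit 228) (nat_lit 1) (nat_lit 11) (nat_lit 12) L107269 (by decide +kernel)
theorem L107271 : W_40 (nat_lit 8) (nat_lit 0x10000f00008001400028001000080000000000000000000000000000000) (nat_lit 0x0) (nat_lit 0x14000e0007000030000000e0000000000000000040002000000000000000000000000000) := T_40 (nat_lit 198) (nat_lit 199) (nat_lit 2) (nat_lit 8) (nat_lit 12) L107270 (by decide +kernel)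
theorem L107272 : W_40 (nat_lit 9) (nat_lit 0x10000f00000001400028001000080000000000000000000000000000000) (nat_lit 0x0) (nat_lit 0x14000e0007000030000000ec000000000000000040002000000000000000000000000000) := T_40 (nat_lit 195) (nat_lit 194) (nat_lit 0) (nat_lit 11) (nat_lit 12) L107271 (by decide +kernel)
theorem L107273 : W_40 (nat_lit 10) (nat_lit 0x10000e00000001400028001000080000000000000000000000000000000) (nat_lit 0x0) (nat_lit 0x14000e0007000230001000ec000000000000000040002000000000000000000000000000) := T_40 (nat_lit 212) (nat_lit 233) (nat_lit 3) (nat_lit 8) (nat_lit 12) L107272 (by decide +kernel)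
theorem L107274 : W_40 (nat_lit 2) (nat_lit 0x30000e000000014000280010000c0000000000000000000000000000000) (nat_lit 0x0) (nat_lit 0xc8000000000000000000000000000000000000000000000000000000000) := D_40 (nat_lit 234) (nat_lit 235) (nat_lit 231) (nat_lit 0) (nat_lit 14) (nat_lit 13) (nat_lit 0) (nat_lit 13) (nat_lit 13) (by decide +kernel)
theorem L107275 : W_40 (nat_lit 3) (nat_lit 0x10000e000000014000280010000c0000000000000000000000000000000) (nat_lit 0x0) (nat_lit 0xe8000100000000000000000000000000000000000000000000000000000) := T_40 (nat_lit 233) (nat_lit 212) (nat_lit 3) (nat_lit 8) (nat_lit 12) L107274 (by decide +kernel)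
theorem L107276 : W_40 (nat_lit 4) (nat_lit 0x10000e00000001400028001000080000000000000000000000000000000) (nat_lit 0x0) (nat_lit 0xe8000100000000000000000000040002000000000000000000000000000) := T_40 (nat_lit 126) (nat_lit 109) (nat_lit 4) (nat_lit 8) (nat_lit 10) L107275 (by decide +kernel)
theorem L107277 : W_40 (nat_lit 2) (nat_lit 0x30000e000000014000a8001000080000000000000000000000000000000) (nat_lit 0x0) (nat_lit 0xc8000000000000000000000000000000000000000000000000000000000) := D_40 (nat_lit 234) (nat_lit 235) (nat_lit 231) (nat_lit 0) (nat_lit 14) (nat_lit 13) (nat_lit 0) (nat_lit 13) (nat_lit 13) (by decide +kernel)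
theorem L107278 : W_40 (nat_lit 3) (nat_lit 0x10000e000000014000a8001000080000000000000000000000000000000) (nat_lit 0x0) (nat_lit 0xe8000100000000000000000000000000000000000000000000000000000) := T_40 (nat_lit 233) (nat_lit 212) (nat_lit 3) (nat_lit 8) (nat_lit 12) L107277 (by decide +kernel)
theorem L107279 : W_40 (nat_lit 4) (nat_lit 0x10000e00000001400028001000080000000000000000000000000000000) (nat_lit 0x0) (nat_lit 0xe8000100020000000080000000000000000000000000000000000000000) := T_40 (nat_lit 163) (nat_lit 197) (nat_lit 7) (nat_lit 10) (nat_lit 9) L107278 (by decide +kernel)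
theorem L107280 : W_40 (nat_lit 2) (nat_lit 0x10000e00020001400028001000180000000000000000000000000000000) (nat_lit 0x0) (nat_lit 0x4000200008000000000000000000000000000000000000000000000000000000000) := D_40 (nat_lit 249) (nat_lit 231) (nat_lit 266) (nat_lit 7) (nat_lit 10) (nat_lit 10) (nat_lit 4) (nat_lit 11) (nat_lit 15) (by decide +kernel)
theorem L107281 : W_40 (nat_lit 3) (nat_lit 0x10000e00000001400028001000180000000000000000000000000000000) (nat_lit 0x0) (nat_lit 0x4000200008000000020000000080000000000000000000000000000000000000000) := T_40 (nat_lit 197) (nat_lit 163) (nat_lit 7) (nat_lit 10) (nat_lit 9) L107280 (by decide +kernel)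
theorem L107282 : W_40 (nat_lit 4) (nat_lit 0x10000e00000001400028001000080000000000000000000000000000000) (nat_lit 0x0) (nat_lit 0x4000200008000000020000000080000000100008000000000000000000000000000) := T_40 (nat_lit 128) (nat_lit 111) (nat_lit 6) (nat_lit 8) (nat_lit 10) L107281 (by decide +kernel)
theorem L107283 : W_40 (nat_lit 2) (nat_lit 0xc000200012000f00048001400028001000180000000000000000000000000000000) (nat_lit 0x0) (nat_lit 0x40002000100000000000000000000000000000000000000000000000000000000000000) := D_40 (nat_lit 265) (nat_lit 248) (nat_lit 282) (nat_lit 5) (nat_lit 11) (nat_lit 11) (nat_lit 5) (nat_lit 11) (nat_lit 12) (by decide +kernel)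
theorem L107284 : W_40 (nat_lit 3) (nat_lit 0x8000200012000f00048001400028001000180000000000000000000000000000000) (nat_lit 0x0) (nat_lit 0x140006000100000000000000000000000000000000000000000000000000000000000000) := T_40 (nat_lit 266) (nat_lit 284) (nat_lit 7) (nat_lit 11) (nat_lit 12) L107283 (by decide +kernel)
theorem L107285 : W_40 (nat_lit 4) (nat_lit 0x8000200012000f00048001400028001000080000000000000000000000000000000) (nat_lit 0x0) (nat_lit 0x140006000100000000000000000000000000000100008000000000000000000000000000) := T_40 (nat_lit 128) (nat_lit 111) (nat_lit 6) (nat_lit 8) (nat_lit 10) L107284 (by decide +kernel)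
theorem L107286 : W_40 (nat_lit 5) (nat_lit 0x200012000f00048001400028001000080000000000000000000000000000000) (nat_lit 0x0) (nat_lit 0x14000e000500000000000000000000000000000100008000000000000000000000000000) := T_40 (nat_lit 267) (nat_lit 250) (nat_lit 7) (nat_lit 11) (nat_lit 11) L107285 (by decide +kernel)
theorem L107287 : W_40 (nat_lit 6) (nat_lit 0x12000f00048001400028001000080000000000000000000000000000000) (nat_lit 0x0) (nat_lit 0x14000e000700000000000020000000000000000100008000000000000000000000000000) := T_40 (nat_lit 249) (nat_lit 197) (nat_lit 4) (nat_lit 11) (nat_lit 14) L107286 (by decide +kernel)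
theorem L107288 : W_40 (nat_lit 7) (nat_lit 0x10000f00048001400028001000080000000000000000000000000000000) (nat_lit 0x0) (nat_lit 0x14000e000700003000000020000000000000000100008000000000000000000000000000) := T_40 (nat_lit 229) (nat_lit 228) (nat_lit 1) (nat_lit 11) (nat_lit 12) L107287 (by decide +kernel)
theorem L107289 : W_40 (nat_lit 8) (nat_lit 0x10000f00008001400028001000080000000000000000000000000000000) (nat_lit 0x0) (nat_lit 0x14000e0007000030000000e0000000000000000100008000000000000000000000000000) := T_40 (nat_lit 198) (nat_lit 199) (nat_lit 2) (nat_lit 8) (nat_lit 12) L107288 (by decide +kernel)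
theorem L107290 : W_40 (nat_lit 9) (nat_lit 0x10000f00000001400028001000080000000000000000000000000000000) (nat_lit 0x0) (nat_lit 0x14000e0007000030000000ec000000000000000100008000000000000000000000000000) := T_40 (nat_lit 195) (nat_lit 194) (nat_lit 0) (nat_lit 11) (nat_lit 12) L107289 (by decide +kernel)
theorem L107291 : W_40 (nat_lit 10) (nat_lit 0x10000e00000001400028001000080000000000000000000000000000000) (nat_lit 0x0) (nat_lit 0x14000e0007000230001000ec000000000000000100008000000000000000000000000000) := T_40 (nat_lit 212) (nat_lit 233) (nat_lit 3) (nat_lit 8) (nat_lit 12) L107290 (by decide +kernel)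
theorem L107292 : W_40 (nat_lit 2) (nat_lit 0x30000e00000001400028001000180000000000000000000000000000000) (nat_lit 0x0) (nat_lit 0xc8000000000000000000000000000000000000000000000000000000000) := D_40 (nat_lit 234) (nat_lit 235) (nat_lit 231) (nat_lit 0) (nat_lit 14) (nat_lit 13) (nat_lit 0) (nat_lit 13) (nat_lit 13) (by decide +kernel)
theorem L107293 : W_40 (nat_lit 3) (nat_lit 0x10000e00000001400028001000180000000000000000000000000000000) (nat_lit 0x0) (nat_lit 0xe8000100000000000000000000000000000000000000000000000000000) := T_40 (nat_lit 233) (nat_lit 212) (nat_lit 3) (nat_lit 8) (nat_lit 12) L107292 (by decide +kernel)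
theorem L107294 : W_40 (nat_lit 4) (nat_lit 0x10000e00000001400028001000080000000000000000000000000000000) (nat_lit 0x0) (nat_lit 0xe8000100000000000000000000100008000000000000000000000000000) := T_40 (nat_lit 128) (nat_lit 111) (nat_lit 6) (nat_lit 8) (nat_lit 10) L107293 (by decide +kernel)
theorem L107295 : W_40 (nat_lit 11) (nat_lit 0xe00000001400028001000080000000000000000000000000000000) (nat_lit 0x0) (nat_lit 0x14000e0007000fb0001000ec000000080000000100008000000000000000000000000000) := Q_40 (nat_lit 232) (C_40 L107264 (C_40 L107279 (C_40 L107282 (C_40 L107291 (C_40 L107294 N_40))))) (by decide +kernel)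
theorem L107296 : W_40 (nat_lit 2) (nat_lit 0x10000e00020001400028001000080000000000000000000000000000000) (nat_lit 0x0) (nat_lit 0x4000200008000000000000000000000000000000000000000000000000000000000) := D_40 (nat_lit 249) (nat_lit 231) (nat_lit 266) (nat_lit 7) (nat_lit 10) (nat_lit 10) (nat_lit 4) (nat_lit 11) (nat_lit 15) (by decide +kernel)
theorem L107297 : W_40 (nat_lit 3) (nat_lit 0x10000e00000001400028001000080000000000000000000000000000000) (nat_lit 0x0) (nat_lit 0x4000200008000000020000000080000000000000000000000000000000000000000) := T_40 (nat_lit 197) (nat_lit 163) (nat_lit 7) (nat_lit 10) (nat_lit 9) L107296 (by decide +kernel)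
theorem L107298 : W_40 (nat_lit 11) (nat_lit 0xe00000001400028001000080000000000000000000000000000000) (nat_lit 0x0) (nat_lit 0x14000e0007000fb0001000ec000000080000000040002000000000000000000000000000) := Q_40 (nat_lit 232) (C_40 L107279 (C_40 L107297 (C_40 L107276 (C_40 L107273 N_40)))) (by decide +kernel)
theorem L107299 : W_40 (nat_lit 2) (nat_lit 0x40001e00100001400028001000080000000000000000000000000000000) (nat_lit 0x0) (nat_lit 0x80002000200000000000000000000000000000000000000000000000000) := D_40 (nat_lit 217) (nat_lit 201) (nat_lit 235) (nat_lit 2) (nat_lit 10) (nat_lit 12) (nat_lit 3) (nat_lit 10) (nat_lit 12) (by decide +kernel)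
theorem L107300 : W_40 (nat_lit 3) (nat_lit 0x1e00100001400028001000080000000000000000000000000000000) (nat_lit 0x0) (nat_lit 0xe0002000200000000000000000000000000000000000000000000000000) := T_40 (nat_lit 234) (nat_lit 233) (nat_lit 3) (nat_lit 9) (nat_lit 12) L107299 (by decide +kernel)
theorem L107301 : W_40 (nat_lit 4) (nat_lit 0x1e00000001400028001000080000000000000000000000000000000) (nat_lit 0x0) (nat_lit 0xe0002000380000000000000000000000000000000000000000000000000) := T_40 (nat_lit 200) (nat_lit 199) (nat_lit 2) (nat_lit 9) (nat_lit 12) L107300 (by decide +kernel)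
theorem L107302 : W_40 (nat_lit 2) (nat_lit 0x80007e001200014000280010001c0000000000000000000000000000000) (nat_lit 0x0) (nat_lit 0x18000000000000000080000000000000000000000000000000000000000) := D_40 (nat_lit 232) (nat_lit 231) (nat_lit 163) (nat_lit 1) (nat_lit 14) (nat_lit 12) (nat_lit 7) (nat_lit 10) (nat_lit 9) (by decide +kernel)
theorem L107303 : W_40 (nat_lit 3) (nat_lit 0x80007e001000014000280010001c0000000000000000000000000000000) (nat_lit 0x0) (nat_lit 0x18000000060000000080000000000000000000000000000000000000000) := T_40 (nat_lit 197) (nat_lit 198) (nat_lit 0) (nat_lit 14) (nat_lit 12) L107302 (by decide +kernel)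
theorem L107304 : W_40 (nat_lit 4) (nat_lit 0x80003e001000014000280010001c0000000000000000000000000000000) (nat_lit 0x0) (nat_lit 0x118004000060000000080000000000000000000000000000000000000000) := T_40 (nat_lit 218) (nat_lit 236) (nat_lit 3) (nat_lit 11) (nat_lit 12) L107303 (by decide +kernel)
theorem L107305 : W_40 (nat_lit 5) (nat_lit 0x80003e001000014000280010000c0000000000000000000000000000000) (nat_lit 0x0) (nat_lit 0x118004000060000000080000000100008000000000000000000000000000) := T_40 (nat_lit 128) (nat_lit 111) (nat_lit 6) (nat_lit 8) (nat_lit 10) L107304 (by decide +kernel)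
theorem L107306 : W_40 (nat_lit 6) (nat_lit 0x3e001000014000280010000c0000000000000000000000000000000) (nat_lit 0x0) (nat_lit 0x1d8004000060000000080000000100008000000000000000000000000000) := T_40 (nat_lit 235) (nat_lit 234) (nat_lit 3) (nat_lit 10) (nat_lit 12) L107305 (by decide +kernel)
theorem L107307 : W_40 (nat_lit 7) (nat_lit 0x1e001000014000280010000c0000000000000000000000000000000) (nat_lit 0x0) (nat_lit 0x1d8006000260000000080000000100008000000000000000000000000000) := T_40 (nat_lit 217) (nat_lit 201) (nat_lit 2) (nat_lit 10) (nat_lit 12) L107306 (by decide +kernel)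
theorem L107308 : W_40 (nat_lit 8) (nat_lit 0x1e00100001400028001000080000000000000000000000000000000) (nat_lit 0x0) (nat_lit 0x1d800600026000000008000000014000a000000000000000000000000000) := T_40 (nat_lit 126) (nat_lit 109) (nat_lit 4) (nat_lit 8) (nat_lit 10) L107307 (by decide +kernel)
theorem L107309 : W_40 (nat_lit 9) (nat_lit 0x1e00000001400028001000080000000000000000000000000000000) (nat_lit 0x0) (nat_lit 0x1d80060003e000000008000000014000a000000000000000000000000000) := T_40 (nat_lit 200) (nat_lit 199) (nat_lit 2) (nat_lit 9) (nat_lit 12) L107308 (by decide +kernel)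
theorem L107310 : W_40 (nat_lit 2) (nat_lit 0x40007e002200014000280010001c0000000000000000000000000000000) (nat_lit 0x0) (nat_lit 0x18000000000000000080000000000000000000000000000000000000000) := D_40 (nat_lit 232) (nat_lit 231) (nat_lit 163) (nat_lit 1) (nat_lit 14) (nat_lit 12) (nat_lit 7) (nat_lit 10) (nat_lit 9) (by decide +kernel)
theorem L107311 : W_40 (nat_lit 3) (nat_lit 0x40007e002000014000280010001c0000000000000000000000000000000) (nat_lit 0x0) (nat_lit 0x18000000060000000080000000000000000000000000000000000000000) := T_40 (nat_lit 197) (nat_lit 198) (nat_lit 0) (nat_lit 14) (nat_lit 12) L107310 (by decide +kernel)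
theorem L107312 : W_40 (nat_lit 4) (nat_lit 0x40003e002000014000280010001c0000000000000000000000000000000) (nat_lit 0x0) (nat_lit 0x18004000460000000080000000000000000000000000000000000000000) := T_40 (nat_lit 218) (nat_lit 202) (nat_lit 2) (nat_lit 11) (nat_lit 12) L107311 (by decide +kernel)
theorem L107313 : W_40 (nat_lit 5) (nat_lit 0x40003e000000014000280010001c0000000000000000000000000000000) (nat_lit 0x0) (nat_lit 0x18004000760000000080000000000000000000000000000000000000000) := T_40 (nat_lit 201) (nat_lit 200) (nat_lit 2) (nat_lit 10) (nat_lit 12) L107312 (by decide +kernel)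
theorem L107314 : W_40 (nat_lit 6) (nat_lit 0x40001e000000014000280010001c0000000000000000000000000000000) (nat_lit 0x0) (nat_lit 0x98006000760000000080000000000000000000000000000000000000000) := T_40 (nat_lit 217) (nat_lit 235) (nat_lit 3) (nat_lit 10) (nat_lit 12) L107313 (by decide +kernel)
theorem L107315 : W_40 (nat_lit 7) (nat_lit 0x1e000000014000280010001c0000000000000000000000000000000) (nat_lit 0x0) (nat_lit 0xf8006000760000000080000000000000000000000000000000000000000) := T_40 (nat_lit 234) (nat_lit 233) (nat_lit 3) (nat_lit 9) (nat_lit 12) L107314 (by decide +kernel)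
theorem L107316 : W_40 (nat_lit 8) (nat_lit 0x1e00000001400028001000180000000000000000000000000000000) (nat_lit 0x0) (nat_lit 0xf8006000760000000080000000040002000000000000000000000000000) := T_40 (nat_lit 126) (nat_lit 109) (nat_lit 4) (nat_lit 8) (nat_lit 10) L107315 (by decide +kernel)
theorem L107317 : W_40 (nat_lit 9) (nat_lit 0x1e00000001400028001000080000000000000000000000000000000) (nat_lit 0x0) (nat_lit 0xf800600076000000008000000014000a000000000000000000000000000) := T_40 (nat_lit 128) (nat_lit 111) (nat_lit 6) (nat_lit 8) (nat_lit 10) L107316 (by decide +kernel)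
theorem L107318 : W_40 (nat_lit 2) (nat_lit 0xe000200014000a80090000c0000000000000000000000000000000) (nat_lit 0x0) (nat_lit 0x40000000000004000400000000000000000000000000000000) := D_40 (nat_lit 146) (nat_lit 198) (nat_lit 130) (nat_lit 7) (nat_lit 10) (nat_lit 8) (nat_lit 6) (nat_lit 10) (nat_lit 11) (by decide +kernel)
theorem L107319 : W_40 (nat_lit 3) (nat_lit 0xe000200014000a80010000c0000000000000000000000000000000) (nat_lit 0x0) (nat_lit 0x4000000010000c000400000000000000000000000000000000) := T_40 (nat_lit 147) (nat_lit 164) (nat_lit 6) (nat_lit 10) (nat_lit 12) L107318 (by decide +kernel)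
theorem L107320 : W_40 (nat_lit 4) (nat_lit 0xe000200014000a8001000080000000000000000000000000000000) (nat_lit 0x0) (nat_lit 0x4000000010000c000440002000000000000000000000000000) := T_40 (nat_lit 126) (nat_lit 109) (nat_lit 4) (nat_lit 8) (nat_lit 10) L107319 (by decide +kernel)
theorem L107321 : W_40 (nat_lit 2) (nat_lit 0x6000200014000a80090001c0000000000000000000000000000000) (nat_lit 0x0) (nat_lit 0x4000600000000000000000000000000000000) := D_40 (nat_lit 146) (nat_lit 129) (nat_lit 130) (nat_lit 3) (nat_lit 7) (nat_lit 7) (nat_lit 6) (nat_lit 10) (nat_lit 11) (by decide +kernel)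
theorem L107322 : W_40 (nat_lit 3) (nat_lit 0x6000200014000a80090000c0000000000000000000000000000000) (nat_lit 0x0) (nat_lit 0x4000700008000000000000000000000000000) := T_40 (nat_lit 128) (nat_lit 111) (nat_lit 6) (nat_lit 8) (nat_lit 10) L107321 (by decide +kernel)
theorem L107323 : W_40 (nat_lit 4) (nat_lit 0x6000200014000a80010000c0000000000000000000000000000000) (nat_lit 0x0) (nat_lit 0x10000c000700008000000000000000000000000000) := T_40 (nat_lit 147) (nat_lit 164) (nat_lit 6) (nat_lit 10) (nat_lit 12) L107322 (by decide +kernel)
theorem L107324 : W_40 (nat_lit 5) (nat_lit 0x6000200014000a8001000080000000000000000000000000000000) (nat_lit 0x0) (nat_lit 0x10000c00074000a000000000000000000000000000) := T_40 (nat_lit 126) (nat_lit 109) (nat_lit 4) (nat_lit 8) (nat_lit 10) L107323 (by decide +kernel)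
theorem L107325 : W_40 (nat_lit 2) (nat_lit 0xe000600014001a8001000180000000000000000000000000000000) (nat_lit 0x0) (nat_lit 0x100180000000000000000000000000000000000000000000000000) := D_40 (nat_lit 199) (nat_lit 212) (nat_lit 200) (nat_lit 2) (nat_lit 8) (nat_lit 12) (nat_lit 1) (nat_lit 13) (nat_lit 11) (by decide +kernel)
theorem L107326 : W_40 (nat_lit 3) (nat_lit 0xe000200014001a8001000180000000000000000000000000000000) (nat_lit 0x0) (nat_lit 0x1001c0000000000004000000000000000000000000000000000000) := T_40 (nat_lit 198) (nat_lit 146) (nat_lit 7) (nat_lit 10) (nat_lit 8) L107325 (by decide +kernel)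
theorem L107327 : W_40 (nat_lit 4) (nat_lit 0xe000200014001a8001000080000000000000000000000000000000) (nat_lit 0x0) (nat_lit 0x1001c0000000000004000100008000000000000000000000000000) := T_40 (nat_lit 128) (nat_lit 111) (nat_lit 6) (nat_lit 8) (nat_lit 10) L107326 (by decide +kernel)
theorem L107328 : W_40 (nat_lit 5) (nat_lit 0x6000200014001a8001000080000000000000000000000000000000) (nat_lit 0x0) (nat_lit 0x100009001c0000000000004000100008000000000000000000000000000) := T_40 (nat_lit 215) (nat_lit 232) (nat_lit 7) (nat_lit 10) (nat_lit 9) L107327 (by decide +kernel)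
theorem L107329 : W_40 (nat_lit 6) (nat_lit 0x6000200014000a8001000080000000000000000000000000000000) (nat_lit 0x0) (nat_lit 0x100009001c000000010000c000100008000000000000000000000000000) := T_40 (nat_lit 164) (nat_lit 147) (nat_lit 6) (nat_lit 10) (nat_lit 12) L107328 (by decide +kernel)
theorem L107330 : W_40 (nat_lit 5) (nat_lit 0x6000200014000a8001000080000000000000000000000000000000) (nat_lit 0x0) (nat_lit 0x1000080004000000010000c000440002000000000000000000000000000) := T_40 (nat_lit 215) (nat_lit 232) (nat_lit 7) (nat_lit 10) (nat_lit 9) L107320 (by decide +kernel)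
theorem L107331 : W_40 (nat_lit 2) (nat_lit 0xe000600014000a80010001c0000000000000000000000000000000) (nat_lit 0x0) (nat_lit 0x100180000000000000000000000000000000000000000000000000) := D_40 (nat_lit 199) (nat_lit 212) (nat_lit 200) (nat_lit 2) (nat_lit 8) (nat_lit 12) (nat_lit 1) (nat_lit 13) (nat_lit 11) (by decide +kernel)
theorem L107332 : W_40 (nat_lit 3) (nat_lit 0xe000200014000a80010001c0000000000000000000000000000000) (nat_lit 0x0) (nat_lit 0x1001c0000000000004000000000000000000000000000000000000) := T_40 (nat_lit 198) (nat_lit 146) (nat_lit 7) (nat_lit 10) (nat_lit 8) L107331 (by decide +kernel)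
theorem L107333 : W_40 (nat_lit 4) (nat_lit 0xe000200014000a8001000180000000000000000000000000000000) (nat_lit 0x0) (nat_lit 0x1001c0000000000004000040002000000000000000000000000000) := T_40 (nat_lit 126) (nat_lit 109) (nat_lit 4) (nat_lit 8) (nat_lit 10) L107332 (by decide +kernel)
theorem L107334 : W_40 (nat_lit 5) (nat_lit 0x6000200014000a8001000180000000000000000000000000000000) (nat_lit 0x0) (nat_lit 0x100009001c0000000000004000040002000000000000000000000000000) := T_40 (nat_lit 215) (nat_lit 232) (nat_lit 7) (nat_lit 10) (nat_lit 9) L107333 (by decide +kernel)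
theorem L107335 : W_40 (nat_lit 6) (nat_lit 0x6000200014000a8001000080000000000000000000000000000000) (nat_lit 0x0) (nat_lit 0x100009001c000000000000400014000a000000000000000000000000000) := T_40 (nat_lit 128) (nat_lit 111) (nat_lit 6) (nat_lit 8) (nat_lit 10) L107334 (by decide +kernel)
theorem L107336 : W_40 (nat_lit 2) (nat_lit 0x2000000014000280012001f0000000000000000000000000000000) (nat_lit 0x0) (nat_lit 0x1c00000000000000000000000000) := D_40 (nat_lit 107) (nat_lit 108) (nat_lit 106) (nat_lit 0) (nat_lit 9) (nat_lit 7) (nat_lit 0) (nat_lit 8) (nat_lit 7) (by decide +kernel)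
theorem L107337 : W_40 (nat_lit 3) (nat_lit 0x2000000014000280012001e0000000000000000000000000000000) (nat_lit 0x0) (nat_lit 0x100010001c00000000000000000000000000) := T_40 (nat_lit 124) (nat_lit 140) (nat_lit 1) (nat_lit 8) (nat_lit 7) L107336 (by decide +kernel)
theorem L107338 : W_40 (nat_lit 4) (nat_lit 0x2000000014000280012001c0000000000000000000000000000000) (nat_lit 0x0) (nat_lit 0x500030001c00000000000000000000000000) := T_40 (nat_lit 125) (nat_lit 142) (nat_lit 1) (nat_lit 9) (nat_lit 7) L107337 (by decide +kernel)
theorem L107339 : W_40 (nat_lit 5) (nat_lit 0x2000000014000280012000c0000000000000000000000000000000) (nat_lit 0x0) (nat_lit 0x500130009c00000000000000000000000000) := T_40 (nat_lit 128) (nat_lit 111) (nat_lit 6) (nat_lit 8) (nat_lit 10) L107338 (by decide +kernel)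
theorem L107340 : W_40 (nat_lit 6) (nat_lit 0x200000001400028001200080000000000000000000000000000000) (nat_lit 0x0) (nat_lit 0x50017000bc00000000000000000000000000) := T_40 (nat_lit 126) (nat_lit 109) (nat_lit 4) (nat_lit 8) (nat_lit 10) L107339 (by decide +kernel)
theorem L107341 : W_40 (nat_lit 2) (nat_lit 0x200000001400038001200080000000000000000000000000000000) (nat_lit 0x0) (nat_lit 0x800004000100000000000000000000000000000000000) := D_40 (nat_lit 158) (nat_lit 140) (nat_lit 179) (nat_lit 0) (nat_lit 8) (nat_lit 9) (nat_lit 3) (nat_lit 5) (nat_lit 9) (by decide +kernel)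
theorem L107342 : W_40 (nat_lit 4) (nat_lit 0x200000001400028001200080000000000000000000000000000000) (nat_lit 0x0) (nat_lit 0x800054000580000000000000000000000000000000000) := Q_40 (nat_lit 160) (C_40 L107227 (C_40 L107341 (C_40 L107221 N_40))) (by decide +kernel)
theorem L107343 : W_40 (nat_lit 2) (nat_lit 0x20000000140002c001200080000000000000000000000000000000) (nat_lit 0x0) (nat_lit 0x800010000100000000000000000000000000000000000) := D_40 (nat_lit 160) (nat_lit 179) (nat_lit 140) (nat_lit 3) (nat_lit 5) (nat_lit 9) (nat_lit 0) (nat_lit 8) (nat_lit 9) (by decide +kernel)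
theorem L107344 : W_40 (nat_lit 2) (nat_lit 0x20000000158003c0012001c0000000000000000000000000000000) (nat_lit 0x0) (nat_lit 0x40002000000000000000010000000000000000000000000000000) := D_40 (nat_lit 193) (nat_lit 210) (nat_lit 124) (nat_lit 4) (nat_lit 6) (nat_lit 12) (nat_lit 7) (nat_lit 5) (nat_lit 7) (by decide +kernel)
theorem L107345 : W_40 (nat_lit 3) (nat_lit 0x20000000148003c0012001c0000000000000000000000000000000) (nat_lit 0x0) (nat_lit 0x40002000100040000000010000000000000000000000000000000) := T_40 (nat_lit 176) (nat_lit 162) (nat_lit 1) (nat_lit 9) (nat_lit 9) L107344 (by decide +kernel)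
theorem L107346 : W_40 (nat_lit 4) (nat_lit 0x20000000140003c0012001c0000000000000000000000000000000) (nat_lit 0x0) (nat_lit 0x400020001c0040000000010000000000000000000000000000000) := T_40 (nat_lit 175) (nat_lit 174) (nat_lit 1) (nat_lit 8) (nat_lit 9) L107345 (by decide +kernel)
theorem L107347 : W_40 (nat_lit 5) (nat_lit 0x20000000140002c0012001c0000000000000000000000000000000) (nat_lit 0x0) (nat_lit 0x400020009c0050000000010000000000000000000000000000000) := T_40 (nat_lit 160) (nat_lit 179) (nat_lit 3) (nat_lit 5) (nat_lit 9) L107346 (by decide +kernel)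
theorem L107348 : W_40 (nat_lit 6) (nat_lit 0x20000000140002c001200180000000000000000000000000000000) (nat_lit 0x0) (nat_lit 0x400020009c0050000000050002000000000000000000000000000) := T_40 (nat_lit 126) (nat_lit 109) (nat_lit 4) (nat_lit 8) (nat_lit 10) L107347 (by decide +kernel)
theorem L107349 : W_40 (nat_lit 7) (nat_lit 0x20000000140002c001200080000000000000000000000000000000) (nat_lit 0x0) (nat_lit 0x400020009c005000000015000a000000000000000000000000000) := T_40 (nat_lit 128) (nat_lit 111) (nat_lit 6) (nat_lit 8) (nat_lit 10) L107348 (by decide +kernel)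
theorem L107350 : W_40 (nat_lit 11) (nat_lit 0x200000001400028001200080000000000000000000000000000000) (nat_lit 0x0) (nat_lit 0x500038009c005600010017800bc00020000000000000000000000) := Q_40 (nat_lit 158) (C_40 L107252 (C_40 L107343 (C_40 L107349 N_40))) (by decide +kernel)
theorem L107351 : W_40 (nat_lit 2) (nat_lit 0x20000000144002c0012001f0000800000000000000000000000000) (nat_lit 0x0) (nat_lit 0x880010000000000000000000000000000000000000000) := D_40 (nat_lit 160) (nat_lit 179) (nat_lit 175) (nat_lit 3) (nat_lit 5) (nat_lit 9) (nat_lit 1) (nat_lit 8) (nat_lit 9) (by decide +kernel)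
theorem L107352 : W_40 (nat_lit 3) (nat_lit 0x20000000140002c0012001f0000800000000000000000000000000) (nat_lit 0x0) (nat_lit 0x8c0012000000000000000000000000000000000000000) := T_40 (nat_lit 174) (nat_lit 157) (nat_lit 5) (nat_lit 5) (nat_lit 6) L107351 (by decide +kernel)
theorem L107353 : W_40 (nat_lit 4) (nat_lit 0x2000000014000280012001f0000800000000000000000000000000) (nat_lit 0x0) (nat_lit 0x9c0016000000000000000000000000000000000000000) := T_40 (nat_lit 158) (nat_lit 176) (nat_lit 7) (nat_lit 5) (nat_lit 6) L107352 (by decide +kernel)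
theorem L107354 : W_40 (nat_lit 5) (nat_lit 0x2000000014000280012001e0000800000000000000000000000000) (nat_lit 0x0) (nat_lit 0x9c0016000000010000400000000000000000000000000) := T_40 (nat_lit 124) (nat_lit 106) (nat_lit 0) (nat_lit 8) (nat_lit 7) L107353 (by decide +kernel)
theorem L107355 : W_40 (nat_lit 6) (nat_lit 0x2000000014000280012001e0000000000000000000000000000000) (nat_lit 0x0) (nat_lit 0x9c0016000000010001c00000000000000000000000000) := T_40 (nat_lit 107) (nat_lit 108) (nat_lit 0) (nat_lit 9) (nat_lit 7) L107354 (by decide +kernel)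
theorem L107356 : W_40 (nat_lit 7) (nat_lit 0x2000000014000280012001c0000000000000000000000000000000) (nat_lit 0x0) (nat_lit 0x9c0016000400030001c00000000000000000000000000) := T_40 (nat_lit 125) (nat_lit 142) (nat_lit 1) (nat_lit 9) (nat_lit 7) L107355 (by decide +kernel)
theorem L107357 : W_40 (nat_lit 8) (nat_lit 0x200000001400028001200180000000000000000000000000000000) (nat_lit 0x0) (nat_lit 0x9c0016000400070003c00000000000000000000000000) := T_40 (nat_lit 126) (nat_lit 109) (nat_lit 4) (nat_lit 8) (nat_lit 10) L107356 (by decide +kernel)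
theorem L107358 : W_40 (nat_lit 9) (nat_lit 0x200000001400028001200080000000000000000000000000000000) (nat_lit 0x0) (nat_lit 0x9c001600040017000bc00000000000000000000000000) := T_40 (nat_lit 128) (nat_lit 111) (nat_lit 6) (nat_lit 8) (nat_lit 10) L107357 (by decide +kernel)
theorem L107359 : W_40 (nat_lit 12) (nat_lit 0x200000001400028001000080000000000000000000000000000000) (nat_lit 0x0) (nat_lit 0x500038009c005600078017800bc00020000000000000000000000) := Q_40 (nat_lit 141) (C_40 L107340 (C_40 L107342 (C_40 L107350 (C_40 L107358 N_40)))) (by decide +kernel)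
theorem L107360 : W_40 (nat_lit 2) (nat_lit 0x200000001f00028001000080000000000000000000000000000000) (nat_lit 0x0) (nat_lit 0x1c0000000000000000000000000000000000000000) := D_40 (nat_lit 163) (nat_lit 164) (nat_lit 162) (nat_lit 2) (nat_lit 7) (nat_lit 10) (nat_lit 2) (nat_lit 6) (nat_lit 10) (by decide +kernel)
theorem L107361 : W_40 (nat_lit 3) (nat_lit 0x200000001e00028001000080000000000000000000000000000000) (nat_lit 0x0) (nat_lit 0x1001c4000000000000000000000000000000000000000) := T_40 (nat_lit 176) (nat_lit 158) (nat_lit 0) (nat_lit 9) (nat_lit 10) L107360 (by decide +kernel)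
theorem L107362 : W_40 (nat_lit 4) (nat_lit 0x200000001600028001000080000000000000000000000000000000) (nat_lit 0x0) (nat_lit 0x9001d4000000000000000000000000000000000000000) := T_40 (nat_lit 179) (nat_lit 160) (nat_lit 0) (nat_lit 10) (nat_lit 10) L107361 (by decide +kernel)
theorem L107363 : W_40 (nat_lit 5) (nat_lit 0x200000001400028001000080000000000000000000000000000000) (nat_lit 0x0) (nat_lit 0x4000b001d4000000000000000000000000000000000000000) := T_40 (nat_lit 177) (nat_lit 194) (nat_lit 5) (nat_lit 8) (nat_lit 7) L107362 (by decide +kernel)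
theorem L107364 : W_40 (nat_lit 2) (nat_lit 0x700008001400028001000080000000000000000000000000000000) (nat_lit 0x0) (nat_lit 0x800004000200000000000000000000000000000000000000000000) := D_40 (nat_lit 194) (nat_lit 215) (nat_lit 177) (nat_lit 0) (nat_lit 11) (nat_lit 12) (nat_lit 5) (nat_lit 8) (nat_lit 7) (by decide +kernel)
theorem L107365 : W_40 (nat_lit 3) (nat_lit 0x700000001400028001000080000000000000000000000000000000) (nat_lit 0x0) (nat_lit 0x400080000c000200000000000000000000000000000000000000000000) := T_40 (nat_lit 195) (nat_lit 230) (nat_lit 7) (nat_lit 8) (nat_lit 9) L107364 (by decide +kernel)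
theorem L107366 : W_40 (nat_lit 5) (nat_lit 0x700020001600028001000080000000000000000000000000000000) (nat_lit 0x0) (nat_lit 0x8000000040000980044000000040002000000000000000000000000000) := T_40 (nat_lit 179) (nat_lit 198) (nat_lit 3) (nat_lit 7) (nat_lit 10) L106689 (by decide +kernel)
theorem L107367 : W_40 (nat_lit 6) (nat_lit 0x700020001400028001000080000000000000000000000000000000) (nat_lit 0x0) (nat_lit 0x8000000044000b80044000000040002000000000000000000000000000) := T_40 (nat_lit 177) (nat_lit 194) (nat_lit 5) (nat_lit 8) (nat_lit 7) L107366 (by decide +kernel)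
theorem L107368 : W_40 (nat_lit 4) (nat_lit 0x700020001600028001000180000000000000000000000000000000) (nat_lit 0x0) (nat_lit 0x8000000040000980044000000000000000000000000000000000000000) := T_40 (nat_lit 179) (nat_lit 198) (nat_lit 3) (nat_lit 7) (nat_lit 10) L106691 (by decide +kernel)
theorem L107369 : W_40 (nat_lit 5) (nat_lit 0x700020001400028001000180000000000000000000000000000000) (nat_lit 0x0) (nat_lit 0x8000000044000b80044000000000000000000000000000000000000000) := T_40 (nat_lit 177) (nat_lit 194) (nat_lit 5) (nat_lit 8) (nat_lit 7) L107368 (by decide +kernel)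
theorem L107370 : W_40 (nat_lit 6) (nat_lit 0x700020001400028001000080000000000000000000000000000000) (nat_lit 0x0) (nat_lit 0x8000000044000b80044000000100008000000000000000000000000000) := T_40 (nat_lit 128) (nat_lit 111) (nat_lit 6) (nat_lit 8) (nat_lit 10) L107369 (by decide +kernel)
theorem L107371 : W_40 (nat_lit 2) (nat_lit 0x700028001e000280010001c0000000000000000000000000000000) (nat_lit 0x0) (nat_lit 0xa000000000000000040000000000000000000000000000000000000000) := D_40 (nat_lit 162) (nat_lit 231) (nat_lit 229) (nat_lit 4) (nat_lit 10) (nat_lit 13) (nat_lit 6) (nat_lit 8) (nat_lit 13) (by decide +kernel)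
theorem L107372 : W_40 (nat_lit 3) (nat_lit 0x7000280016000280010001c0000000000000000000000000000000) (nat_lit 0x0) (nat_lit 0xa000000040000800040000000000000000000000000000000000000000) := T_40 (nat_lit 179) (nat_lit 198) (nat_lit 3) (nat_lit 7) (nat_lit 10) L107371 (by decide +kernel)
theorem L107373 : W_40 (nat_lit 4) (nat_lit 0x7000280014000280010001c0000000000000000000000000000000) (nat_lit 0x0) (nat_lit 0xa000000044000a00040000000000000000000000000000000000000000) := T_40 (nat_lit 177) (nat_lit 194) (nat_lit 5) (nat_lit 8) (nat_lit 7) L107372 (by decide +kernel)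
theorem L107374 : W_40 (nat_lit 5) (nat_lit 0x7000280014000280010000c0000000000000000000000000000000) (nat_lit 0x0) (nat_lit 0xa000000044000a00040000000100008000000000000000000000000000) := T_40 (nat_lit 128) (nat_lit 111) (nat_lit 6) (nat_lit 8) (nat_lit 10) L107373 (by decide +kernel)
theorem L107375 : W_40 (nat_lit 6) (nat_lit 0x700028001400028001000080000000000000000000000000000000) (nat_lit 0x0) (nat_lit 0xa000000044000a0004000000014000a000000000000000000000000000) := T_40 (nat_lit 126) (nat_lit 109) (nat_lit 4) (nat_lit 8) (nat_lit 10) L107374 (by decide +kernel)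
theorem L107376 : W_40 (nat_lit 7) (nat_lit 0x700020001400028001000080000000000000000000000000000000) (nat_lit 0x0) (nat_lit 0xe00000004c000a0004000000014000a000000000000000000000000000) := T_40 (nat_lit 195) (nat_lit 230) (nat_lit 7) (nat_lit 8) (nat_lit 9) L107375 (by decide +kernel)
theorem L107377 : W_40 (nat_lit 2) (nat_lit 0x4000700022001f00028001000080000000000000000000000000000000) (nat_lit 0x0) (nat_lit 0x1000080008000000000000000000000000000000000000000000000000000000000) := D_40 (nat_lit 247) (nat_lit 231) (nat_lit 264) (nat_lit 5) (nat_lit 10) (nat_lit 10) (nat_lit 6) (nat_lit 9) (nat_lit 15) (by decide +kernel)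
theorem L107378 : W_40 (nat_lit 3) (nat_lit 0x700022001f00028001000080000000000000000000000000000000) (nat_lit 0x0) (nat_lit 0x100008000c000000008000000000000000000000000000000000000000000000000) := T_40 (nat_lit 230) (nat_lit 195) (nat_lit 7) (nat_lit 8) (nat_lit 9) L107377 (by decide +kernel)
theorem L107379 : W_40 (nat_lit 4) (nat_lit 0x700020001f00028001000080000000000000000000000000000000) (nat_lit 0x0) (nat_lit 0x100008000c00000000b000000000000000000000000000000000000000000000000) := T_40 (nat_lit 193) (nat_lit 192) (nat_lit 1) (nat_lit 9) (nat_lit 10) L107378 (by decide +kernel)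
theorem L107380 : W_40 (nat_lit 5) (nat_lit 0x700020001e00028001000080000000000000000000000000000000) (nat_lit 0x0) (nat_lit 0x100008000c00000000b000100004000000000000000000000000000000000000000) := T_40 (nat_lit 176) (nat_lit 158) (nat_lit 0) (nat_lit 9) (nat_lit 10) L107379 (by decide +kernel)
theorem L107381 : W_40 (nat_lit 6) (nat_lit 0x700020001600028001000080000000000000000000000000000000) (nat_lit 0x0) (nat_lit 0x100008000c00000004b000900004000000000000000000000000000000000000000) := T_40 (nat_lit 179) (nat_lit 198) (nat_lit 3) (nat_lit 7) (nat_lit 10) L107380 (by decide +kernel)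
theorem L107382 : W_40 (nat_lit 7) (nat_lit 0x700020001400028001000080000000000000000000000000000000) (nat_lit 0x0) (nat_lit 0x100008000c00000004f000b00004000000000000000000000000000000000000000) := T_40 (nat_lit 177) (nat_lit 194) (nat_lit 5) (nat_lit 8) (nat_lit 7) L107381 (by decide +kernel)
theorem L107383 : W_40 (nat_lit 3) (nat_lit 0x7000200014000280010000c0000000000000000000000000000000) (nat_lit 0x0) (nat_lit 0x100008000c000000008000000000000000000000000000000000000000000000000) := T_40 (nat_lit 230) (nat_lit 195) (nat_lit 7) (nat_lit 8) (nat_lit 9) L106684 (by decide +kernel)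
theorem L107384 : W_40 (nat_lit 4) (nat_lit 0x700020001400028001000080000000000000000000000000000000) (nat_lit 0x0) (nat_lit 0x100008000c000000008000000000000000040002000000000000000000000000000) := T_40 (nat_lit 126) (nat_lit 109) (nat_lit 4) (nat_lit 8) (nat_lit 10) L107383 (by decide +kernel)
theorem L107385 : W_40 (nat_lit 2) (nat_lit 0x700022001f00068001000180000000000000000000000000000000) (nat_lit 0x0) (nat_lit 0x6000000008000000000000000000000000000000000000000000000000) := D_40 (nat_lit 195) (nat_lit 230) (nat_lit 229) (nat_lit 7) (nat_lit 8) (nat_lit 9) (nat_lit 6) (nat_lit 8) (nat_lit 13) (by decide +kernel)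
theorem L107386 : W_40 (nat_lit 3) (nat_lit 0x700022001f00028001000180000000000000000000000000000000) (nat_lit 0x0) (nat_lit 0x6000000008000080040000000000000000000000000000000000000000) := T_40 (nat_lit 162) (nat_lit 175) (nat_lit 2) (nat_lit 5) (nat_lit 10) L107385 (by decide +kernel)
theorem L107387 : W_40 (nat_lit 4) (nat_lit 0x700020001f00028001000180000000000000000000000000000000) (nat_lit 0x0) (nat_lit 0x600000000b000080040000000000000000000000000000000000000000) := T_40 (nat_lit 193) (nat_lit 192) (nat_lit 1) (nat_lit 9) (nat_lit 10) L107386 (by decide +kernel)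
theorem L107388 : W_40 (nat_lit 5) (nat_lit 0x700020001e00028001000180000000000000000000000000000000) (nat_lit 0x0) (nat_lit 0x600000000b000180044000000000000000000000000000000000000000) := T_40 (nat_lit 176) (nat_lit 158) (nat_lit 0) (nat_lit 9) (nat_lit 10) L107387 (by decide +kernel)
theorem L107389 : W_40 (nat_lit 6) (nat_lit 0x700020001600028001000180000000000000000000000000000000) (nat_lit 0x0) (nat_lit 0x600000004b000980044000000000000000000000000000000000000000) := T_40 (nat_lit 179) (nat_lit 198) (nat_lit 3) (nat_lit 7) (nat_lit 10) L107388 (by decide +kernel)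
theorem L107390 : W_40 (nat_lit 7) (nat_lit 0x700020001400028001000180000000000000000000000000000000) (nat_lit 0x0) (nat_lit 0x600000004f000b80044000000000000000000000000000000000000000) := T_40 (nat_lit 177) (nat_lit 194) (nat_lit 5) (nat_lit 8) (nat_lit 7) L107389 (by decide +kernel)
theorem L107391 : W_40 (nat_lit 8) (nat_lit 0x700020001400028001000080000000000000000000000000000000) (nat_lit 0x0) (nat_lit 0x600000004f000b80044000000100008000000000000000000000000000) := T_40 (nat_lit 128) (nat_lit 111) (nat_lit 6) (nat_lit 8) (nat_lit 10) L107390 (by decide +kernel)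
theorem L107392 : W_40 (nat_lit 9) (nat_lit 0x700000001400028001000080000000000000000000000000000000) (nat_lit 0x0) (nat_lit 0x100008000e00000006f000b8004400000014000a000000000000000000000000000) := Q_40 (nat_lit 197) (C_40 L107367 (C_40 L107370 (C_40 L107376 (C_40 L107382 (C_40 L107384 (C_40 L107391 N_40)))))) (by decide +kernel)
theorem L107393 : W_40 (nat_lit 2) (nat_lit 0xa000200012000f000440014000280010001c0000000000000000000000000000000) (nat_lit 0x0) (nat_lit 0x140004000000000000000000000000000000000000000000000000000000000000000000) := D_40 (nat_lit 266) (nat_lit 284) (nat_lit 282) (nat_lit 7) (nat_lit 11) (nat_lit 12) (nat_lit 5) (nat_lit 11) (nat_lit 12) (by decide +kernel)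
theorem L107394 : W_40 (nat_lit 3) (nat_lit 0x8000200012000f000440014000280010001c0000000000000000000000000000000) (nat_lit 0x0) (nat_lit 0x140006000100000000000000000000000000000000000000000000000000000000000000) := T_40 (nat_lit 265) (nat_lit 248) (nat_lit 5) (nat_lit 11) (nat_lit 11) L107393 (by decide +kernel)
theorem L107395 : W_40 (nat_lit 4) (nat_lit 0x200012000f000440014000280010001c0000000000000000000000000000000) (nat_lit 0x0) (nat_lit 0x14000e000500000000000000000000000000000000000000000000000000000000000000) := T_40 (nat_lit 267) (nat_lit 250) (nat_lit 7) (nat_lit 11) (nat_lit 11) L107394 (by decide +kernel)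
theorem L107396 : W_40 (nat_lit 5) (nat_lit 0x12000f000440014000280010001c0000000000000000000000000000000) (nat_lit 0x0) (nat_lit 0x14000e000700000000000020000000000000000000000000000000000000000000000000) := T_40 (nat_lit 249) (nat_lit 197) (nat_lit 4) (nat_lit 11) (nat_lit 14) L107395 (by decide +kernel)
theorem L107397 : W_40 (nat_lit 6) (nat_lit 0x2000f000440014000280010001c0000000000000000000000000000000) (nat_lit 0x0) (nat_lit 0x14000e000700030000000020000000000000000000000000000000000000000000000000) := T_40 (nat_lit 232) (nat_lit 233) (nat_lit 3) (nat_lit 8) (nat_lit 12) L107396 (by decide +kernel)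
theorem L107398 : W_40 (nat_lit 7) (nat_lit 0x2000f000040014000280010001c0000000000000000000000000000000) (nat_lit 0x0) (nat_lit 0x14000e0007000300000000e0000000000000000000000000000000000000000000000000) := T_40 (nat_lit 198) (nat_lit 199) (nat_lit 2) (nat_lit 8) (nat_lit 12) L107397 (by decide +kernel)
theorem L107399 : W_40 (nat_lit 8) (nat_lit 0xf000040014000280010001c0000000000000000000000000000000) (nat_lit 0x0) (nat_lit 0x14000e0007000330000000e0000000000000000000000000000000000000000000000000) := T_40 (nat_lit 229) (nat_lit 228) (nat_lit 1) (nat_lit 11) (nat_lit 12) L107398 (by decide +kernel)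
theorem L107400 : W_40 (nat_lit 9) (nat_lit 0x7000040014000280010001c0000000000000000000000000000000) (nat_lit 0x0) (nat_lit 0x14000e0007000330008000e8000000000000000000000000000000000000000000000000) := T_40 (nat_lit 215) (nat_lit 195) (nat_lit 0) (nat_lit 11) (nat_lit 12) L107399 (by decide +kernel)
theorem L107401 : W_40 (nat_lit 10) (nat_lit 0x7000040014000280010000c0000000000000000000000000000000) (nat_lit 0x0) (nat_lit 0x14000e0007000330008000e8000000000000000100008000000000000000000000000000) := T_40 (nat_lit 128) (nat_lit 111) (nat_lit 6) (nat_lit 8) (nat_lit 10) L107400 (by decide +kernel)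
theorem L107402 : W_40 (nat_lit 11) (nat_lit 0x7000000014000280010000c0000000000000000000000000000000) (nat_lit 0x0) (nat_lit 0x14000e0007000330008000ec000200000000000100008000000000000000000000000000) := T_40 (nat_lit 194) (nat_lit 177) (nat_lit 5) (nat_lit 8) (nat_lit 7) L107401 (by decide +kernel)
theorem L107403 : W_40 (nat_lit 12) (nat_lit 0x700000001400028001000080000000000000000000000000000000) (nat_lit 0x0) (nat_lit 0x14000e0007000330008000ec00020000000000014000a000000000000000000000000000) := T_40 (nat_lit 126) (nat_lit 109) (nat_lit 4) (nat_lit 8) (nat_lit 10) L107402 (by decide +kernel)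
theorem L107404 : W_40 (nat_lit 4) (nat_lit 0x6000200014000a80010000c0000000000000000000000000000000) (nat_lit 0x0) (nat_lit 0x1000080004000000010000c000400000000000000000000000000000000) := T_40 (nat_lit 215) (nat_lit 232) (nat_lit 7) (nat_lit 10) (nat_lit 9) L107319 (by decide +kernel)
theorem L107405 : W_40 (nat_lit 5) (nat_lit 0x6000200014000280010000c0000000000000000000000000000000) (nat_lit 0x0) (nat_lit 0x1400080004000000018000c000400000000000000000000000000000000) := T_40 (nat_lit 163) (nat_lit 230) (nat_lit 5) (nat_lit 10) (nat_lit 9) L107404 (by decide +kernel)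
theorem L107406 : W_40 (nat_lit 6) (nat_lit 0x600020001400028001000080000000000000000000000000000000) (nat_lit 0x0) (nat_lit 0x1400080004000000018000c000440002000000000000000000000000000) := T_40 (nat_lit 126) (nat_lit 109) (nat_lit 4) (nat_lit 8) (nat_lit 10) L107405 (by decide +kernel)
theorem L107407 : W_40 (nat_lit 7) (nat_lit 0x600020001400028001000080000000000000000000000000000000) (nat_lit 0x0) (nat_lit 0x140009001c000000018000c000100008000000000000000000000000000) := T_40 (nat_lit 163) (nat_lit 230) (nat_lit 5) (nat_lit 10) (nat_lit 9) L107329 (by decide +kernel)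
theorem L107408 : W_40 (nat_lit 10) (nat_lit 0xe00000001400028001000080000000000000000000000000000000) (nat_lit 0x0) (nat_lit 0xa00078007f0011001e000000000000000014000a000000000000000000000000000) := Q_40 (nat_lit 212) (C_40 L106667 (C_40 L106650 (C_40 L106675 (C_40 L106663 N_40)))) (by decide +kernel)
theorem L107409 : W_40 (nat_lit 2) (nat_lit 0xf00000001400028001000080000000000000000000000000000000) (nat_lit 0x0) (nat_lit 0x400000000c000000000000000000000000000000000000000000000000) := D_40 (nat_lit 195) (nat_lit 230) (nat_lit 194) (nat_lit 7) (nat_lit 8) (nat_lit 9) (nat_lit 0) (nat_lit 11) (nat_lit 12) (by decide +kernel)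
theorem L107410 : W_40 (nat_lit 6) (nat_lit 0xe00000001400028001000080000000000000000000000000000000) (nat_lit 0x0) (nat_lit 0x770011001cc00000000000000014000a000000000000000000000000000) := Q_40 (nat_lit 212) (C_40 L106667 (C_40 L106650 (C_40 L106663 (C_40 L107409 N_40)))) (by decide +kernel)
theorem L107411 : W_40 (nat_lit 2) (nat_lit 0x24001e000a00014000280010001c0000000000000000000000000000000) (nat_lit 0x0) (nat_lit 0x1000080008000000000000000000000000000000000000000000000000000000000) := D_40 (nat_lit 247) (nat_lit 231) (nat_lit 264) (nat_lit 5) (nat_lit 10) (nat_lit 10) (nat_lit 6) (nat_lit 9) (nat_lit 15) (by decide +kernel)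
theorem L107412 : W_40 (nat_lit 3) (nat_lit 0x24001e000800014000280010001c0000000000000000000000000000000) (nat_lit 0x0) (nat_lit 0x1000080008000000020000000080000000000000000000000000000000000000000) := T_40 (nat_lit 197) (nat_lit 163) (nat_lit 5) (nat_lit 10) (nat_lit 9) L107411 (by decide +kernel)
theorem L107413 : W_40 (nat_lit 4) (nat_lit 0x24001e000800014000280010000c0000000000000000000000000000000) (nat_lit 0x0) (nat_lit 0x1000080008000000020000000080000000100008000000000000000000000000000) := T_40 (nat_lit 128) (nat_lit 111) (nat_lit 6) (nat_lit 8) (nat_lit 10) L107412 (by decide +kernel)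
theorem L107414 : W_40 (nat_lit 5) (nat_lit 0x20001e000800014000280010000c0000000000000000000000000000000) (nat_lit 0x0) (nat_lit 0x100008000e000000020000000080000000100008000000000000000000000000000) := T_40 (nat_lit 230) (nat_lit 229) (nat_lit 1) (nat_lit 12) (nat_lit 12) L107413 (by decide +kernel)
theorem L107415 : W_40 (nat_lit 6) (nat_lit 0x20001e000000014000280010000c0000000000000000000000000000000) (nat_lit 0x0) (nat_lit 0x100008000e0000001a0000000080000000100008000000000000000000000000000) := T_40 (nat_lit 199) (nat_lit 200) (nat_lit 2) (nat_lit 9) (nat_lit 12) L107414 (by decide +kernel)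
theorem L107416 : W_40 (nat_lit 7) (nat_lit 0x1e000000014000280010000c0000000000000000000000000000000) (nat_lit 0x0) (nat_lit 0x100008006e0000001a0000000080000000100008000000000000000000000000000) := T_40 (nat_lit 233) (nat_lit 234) (nat_lit 3) (nat_lit 9) (nat_lit 12) L107415 (by decide +kernel)
theorem L107417 : W_40 (nat_lit 8) (nat_lit 0x1e00000001400028001000080000000000000000000000000000000) (nat_lit 0x0) (nat_lit 0x100008006e0000001a000000008000000014000a000000000000000000000000000) := T_40 (nat_lit 126) (nat_lit 109) (nat_lit 4) (nat_lit 8) (nat_lit 10) L107416 (by decide +kernel)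
theorem L107418 : W_40 (nat_lit 2) (nat_lit 0x4003e000000014000a80010000c0000000000000000000000000000000) (nat_lit 0x0) (nat_lit 0x380000000000000000000000000000000000000000000000000) := D_40 (nat_lit 200) (nat_lit 199) (nat_lit 201) (nat_lit 2) (nat_lit 9) (nat_lit 12) (nat_lit 2) (nat_lit 10) (nat_lit 12) (by decide +kernel)
theorem L107419 : W_40 (nat_lit 3) (nat_lit 0x4001e000000014000a80010000c0000000000000000000000000000000) (nat_lit 0x0) (nat_lit 0x8002000380000000000000000000000000000000000000000000000000) := T_40 (nat_lit 217) (nat_lit 231) (nat_lit 1) (nat_lit 13) (nat_lit 12) L107418 (by decide +kernel)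
theorem L107420 : W_40 (nat_lit 4) (nat_lit 0x4001e000000014000280010000c0000000000000000000000000000000) (nat_lit 0x0) (nat_lit 0x80020003a0000000080000000000000000000000000000000000000000) := T_40 (nat_lit 163) (nat_lit 197) (nat_lit 5) (nat_lit 10) (nat_lit 9) L107419 (by decide +kernel)
theorem L107421 : W_40 (nat_lit 5) (nat_lit 0x4001e00000001400028001000080000000000000000000000000000000) (nat_lit 0x0) (nat_lit 0x80020003a0000000080000000040002000000000000000000000000000) := T_40 (nat_lit 126) (nat_lit 109) (nat_lit 4) (nat_lit 8) (nat_lit 10) L107420 (by decide +kernel)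
theorem L107422 : W_40 (nat_lit 6) (nat_lit 0x1e00000001400028001000080000000000000000000000000000000) (nat_lit 0x0) (nat_lit 0xe0020003a0000000080000000040002000000000000000000000000000) := T_40 (nat_lit 230) (nat_lit 229) (nat_lit 1) (nat_lit 12) (nat_lit 12) L107421 (by decide +kernel)
theorem L107423 : W_40 (nat_lit 2) (nat_lit 0x24001e000200014000280010001c0000000000000000000000000000000) (nat_lit 0x0) (nat_lit 0x80008002000000000000000000000000000000000000000000000000000000) := D_40 (nat_lit 231) (nat_lit 217) (nat_lit 247) (nat_lit 1) (nat_lit 13) (nat_lit 12) (nat_lit 5) (nat_lit 10) (nat_lit 10) (by decide +kernel)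
theorem L107424 : W_40 (nat_lit 3) (nat_lit 0x24001e000000014000280010001c0000000000000000000000000000000) (nat_lit 0x0) (nat_lit 0x80008002000020000000080000000000000000000000000000000000000000) := T_40 (nat_lit 197) (nat_lit 163) (nat_lit 5) (nat_lit 10) (nat_lit 9) L107423 (by decide +kernel)
theorem L107425 : W_40 (nat_lit 4) (nat_lit 0x24001e000000014000280010000c0000000000000000000000000000000) (nat_lit 0x0) (nat_lit 0x80008002000020000000080000000100008000000000000000000000000000) := T_40 (nat_lit 128) (nat_lit 111) (nat_lit 6) (nat_lit 8) (nat_lit 10) L107424 (by decide +kernel)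
theorem L107426 : W_40 (nat_lit 5) (nat_lit 0x20001e000000014000280010000c0000000000000000000000000000000) (nat_lit 0x0) (nat_lit 0x8000e002000020000000080000000100008000000000000000000000000000) := T_40 (nat_lit 230) (nat_lit 229) (nat_lit 1) (nat_lit 12) (nat_lit 12) L107425 (by decide +kernel)
theorem L107427 : W_40 (nat_lit 6) (nat_lit 0x20001e00000001400028001000080000000000000000000000000000000) (nat_lit 0x0) (nat_lit 0x8000e00200002000000008000000014000a000000000000000000000000000) := T_40 (nat_lit 126) (nat_lit 109) (nat_lit 4) (nat_lit 8) (nat_lit 10) L107426 (by decide +kernel)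
theorem L107428 : W_40 (nat_lit 7) (nat_lit 0x1e00000001400028001000080000000000000000000000000000000) (nat_lit 0x0) (nat_lit 0x8006e00200002000000008000000014000a000000000000000000000000000) := T_40 (nat_lit 233) (nat_lit 234) (nat_lit 3) (nat_lit 9) (nat_lit 12) L107427 (by decide +kernel)
theorem L107429 : W_40 (nat_lit 10) (nat_lit 0xe00000001400028001000080000000000000000000000000000000) (nat_lit 0x0) (nat_lit 0x10000801fe0070007e000000008000000014000a000000000000000000000000000) := Q_40 (nat_lit 216) (C_40 L107301 (C_40 L107317 (C_40 L107309 (C_40 L107417 (C_40 L107422 (C_40 L107428 N_40)))))) (by decide +kernel)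
theorem L107430 : W_40 (nat_lit 6) (nat_lit 0xe00000001400028001000080000000000000000000000000000000) (nat_lit 0x0) (nat_lit 0x40002000f80001000e0000000080000000100008000000000000000000000000000) := Q_40 (nat_lit 232) (C_40 L107294 (C_40 L107264 (C_40 L107297 N_40))) (by decide +kernel)
theorem L107431 : W_40 (nat_lit 2) (nat_lit 0x44001e001080014000a80010001c0000000000000000000000000000000) (nat_lit 0x0) (nat_lit 0x80002000200000000000000000000000000000000000000000000000000) := D_40 (nat_lit 217) (nat_lit 201) (nat_lit 235) (nat_lit 2) (nat_lit 10) (nat_lit 12) (nat_lit 3) (nat_lit 10) (nat_lit 12) (by decide +kernel)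
theorem L107432 : W_40 (nat_lit 3) (nat_lit 0x4001e001080014000a80010001c0000000000000000000000000000000) (nat_lit 0x0) (nat_lit 0xe0002000200000000000000000000000000000000000000000000000000) := T_40 (nat_lit 234) (nat_lit 233) (nat_lit 3) (nat_lit 9) (nat_lit 12) L107431 (by decide +kernel)
theorem L107433 : W_40 (nat_lit 4) (nat_lit 0x4001e000080014000a80010001c0000000000000000000000000000000) (nat_lit 0x0) (nat_lit 0xe0002000380000000000000000000000000000000000000000000000000) := T_40 (nat_lit 200) (nat_lit 199) (nat_lit 2) (nat_lit 9) (nat_lit 12) L107432 (by decide +kernel)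
theorem L107434 : W_40 (nat_lit 5) (nat_lit 0x4001e000080014000a80010000c0000000000000000000000000000000) (nat_lit 0x0) (nat_lit 0xe0002000380000000000000000100008000000000000000000000000000) := T_40 (nat_lit 128) (nat_lit 111) (nat_lit 6) (nat_lit 8) (nat_lit 10) L107433 (by decide +kernel)
theorem L107435 : W_40 (nat_lit 6) (nat_lit 0x4000e000080014000a80010000c0000000000000000000000000000000) (nat_lit 0x0) (nat_lit 0xe2003000380000000000000000100008000000000000000000000000000) := T_40 (nat_lit 216) (nat_lit 229) (nat_lit 1) (nat_lit 12) (nat_lit 12) L107434 (by decide +kernel)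
theorem L107436 : W_40 (nat_lit 7) (nat_lit 0x4000e000000014000a80010000c0000000000000000000000000000000) (nat_lit 0x0) (nat_lit 0xe2003100388000000000000000100008000000000000000000000000000) := T_40 (nat_lit 195) (nat_lit 212) (nat_lit 7) (nat_lit 8) (nat_lit 9) L107435 (by decide +kernel)
theorem L107437 : W_40 (nat_lit 8) (nat_lit 0x4000e000000014000280010000c0000000000000000000000000000000) (nat_lit 0x0) (nat_lit 0xe20031003a8000000080000000100008000000000000000000000000000) := T_40 (nat_lit 163) (nat_lit 197) (nat_lit 5) (nat_lit 10) (nat_lit 9) L107436 (by decide +kernel)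
theorem L107438 : W_40 (nat_lit 9) (nat_lit 0x4000e00000001400028001000080000000000000000000000000000000) (nat_lit 0x0) (nat_lit 0xe20031003a800000008000000014000a000000000000000000000000000) := T_40 (nat_lit 126) (nat_lit 109) (nat_lit 4) (nat_lit 8) (nat_lit 10) L107437 (by decide +kernel)
theorem L107439 : W_40 (nat_lit 2) (nat_lit 0x4003e000080014000a80010000c0000000000000000000000000000000) (nat_lit 0x0) (nat_lit 0x380000000000000000000000000000000000000000000000000) := D_40 (nat_lit 200) (nat_lit 199) (nat_lit 201) (nat_lit 2) (nat_lit 9) (nat_lit 12) (nat_lit 2) (nat_lit 10) (nat_lit 12) (by decide +kernel)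
theorem L107440 : W_40 (nat_lit 3) (nat_lit 0x4001e000080014000a80010000c0000000000000000000000000000000) (nat_lit 0x0) (nat_lit 0x8002000380000000000000000000000000000000000000000000000000) := T_40 (nat_lit 217) (nat_lit 231) (nat_lit 1) (nat_lit 13) (nat_lit 12) L107439 (by decide +kernel)
theorem L107441 : W_40 (nat_lit 4) (nat_lit 0x4000e000080014000a80010000c0000000000000000000000000000000) (nat_lit 0x0) (nat_lit 0xa003000380000000000000000000000000000000000000000000000000) := T_40 (nat_lit 216) (nat_lit 229) (nat_lit 1) (nat_lit 12) (nat_lit 12) L107440 (by decide +kernel)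
theorem L107442 : W_40 (nat_lit 5) (nat_lit 0x4000e000000014000a80010000c0000000000000000000000000000000) (nat_lit 0x0) (nat_lit 0xa003100388000000000000000000000000000000000000000000000000) := T_40 (nat_lit 195) (nat_lit 212) (nat_lit 7) (nat_lit 8) (nat_lit 9) L107441 (by decide +kernel)
theorem L107443 : W_40 (nat_lit 6) (nat_lit 0x4000e000000014000280010000c0000000000000000000000000000000) (nat_lit 0x0) (nat_lit 0xa0031003a8000000080000000000000000000000000000000000000000) := T_40 (nat_lit 163) (nat_lit 197) (nat_lit 5) (nat_lit 10) (nat_lit 9) L107442 (by decide +kernel)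
theorem L107444 : W_40 (nat_lit 7) (nat_lit 0x4000e00000001400028001000080000000000000000000000000000000) (nat_lit 0x0) (nat_lit 0xa0031003a8000000080000000040002000000000000000000000000000) := T_40 (nat_lit 126) (nat_lit 109) (nat_lit 4) (nat_lit 8) (nat_lit 10) L107443 (by decide +kernel)
theorem L107445 : W_40 (nat_lit 2) (nat_lit 0x24003f000000014000a80010001c0000000000000000000000000000000) (nat_lit 0x0) (nat_lit 0x380000000000000000000000000000000000000000000000000) := D_40 (nat_lit 200) (nat_lit 199) (nat_lit 201) (nat_lit 2) (nat_lit 9) (nat_lit 12) (nat_lit 2) (nat_lit 10) (nat_lit 12) (by decide +kernel)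
theorem L107446 : W_40 (nat_lit 3) (nat_lit 0x24001f000000014000a80010001c0000000000000000000000000000000) (nat_lit 0x0) (nat_lit 0x8002000380000000000000000000000000000000000000000000000000) := T_40 (nat_lit 217) (nat_lit 231) (nat_lit 1) (nat_lit 13) (nat_lit 12) L107445 (by decide +kernel)
theorem L107447 : W_40 (nat_lit 4) (nat_lit 0x24000f000000014000a80010001c0000000000000000000000000000000) (nat_lit 0x0) (nat_lit 0x48003000380000000000000000000000000000000000000000000000000) := T_40 (nat_lit 216) (nat_lit 234) (nat_lit 3) (nat_lit 9) (nat_lit 12) L107446 (by decide +kernel)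
theorem L107448 : W_40 (nat_lit 5) (nat_lit 0x4000f000000014000a80010001c0000000000000000000000000000000) (nat_lit 0x0) (nat_lit 0x78003000380000000000000000000000000000000000000000000000000) := T_40 (nat_lit 233) (nat_lit 232) (nat_lit 3) (nat_lit 8) (nat_lit 12) L107447 (by decide +kernel)
theorem L107449 : W_40 (nat_lit 6) (nat_lit 0x4000e000000014000a80010001c0000000000000000000000000000000) (nat_lit 0x0) (nat_lit 0x78003100388000000000000000000000000000000000000000000000000) := T_40 (nat_lit 212) (nat_lit 195) (nat_lit 7) (nat_lit 8) (nat_lit 9) L107448 (by decide +kernel)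
theorem L107450 : W_40 (nat_lit 7) (nat_lit 0x4000e000000014000280010001c0000000000000000000000000000000) (nat_lit 0x0) (nat_lit 0x780031003a8000000080000000000000000000000000000000000000000) := T_40 (nat_lit 163) (nat_lit 197) (nat_lit 5) (nat_lit 10) (nat_lit 9) L107449 (by decide +kernel)
theorem L107451 : W_40 (nat_lit 8) (nat_lit 0x4000e00000001400028001000180000000000000000000000000000000) (nat_lit 0x0) (nat_lit 0x780031003a8000000080000000040002000000000000000000000000000) := T_40 (nat_lit 126) (nat_lit 109) (nat_lit 4) (nat_lit 8) (nat_lit 10) L107450 (by decide +kernel)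
theorem L107452 : W_40 (nat_lit 9) (nat_lit 0x4000e00000001400028001000080000000000000000000000000000000) (nat_lit 0x0) (nat_lit 0x780031003a800000008000000014000a000000000000000000000000000) := T_40 (nat_lit 128) (nat_lit 111) (nat_lit 6) (nat_lit 8) (nat_lit 10) L107451 (by decide +kernel)
theorem L107453 : W_40 (nat_lit 2) (nat_lit 0x4000e000280014000280010001c0000000000000000000000000000000) (nat_lit 0x0) (nat_lit 0x1000080008000000000000000000000000000000000000000000000000000000000) := D_40 (nat_lit 247) (nat_lit 231) (nat_lit 264) (nat_lit 5) (nat_lit 10) (nat_lit 10) (nat_lit 6) (nat_lit 9) (nat_lit 15) (by decide +kernel)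
theorem L107454 : W_40 (nat_lit 3) (nat_lit 0x4000e000080014000280010001c0000000000000000000000000000000) (nat_lit 0x0) (nat_lit 0x1000080008000000020000000080000000000000000000000000000000000000000) := T_40 (nat_lit 197) (nat_lit 163) (nat_lit 5) (nat_lit 10) (nat_lit 9) L107453 (by decide +kernel)
theorem L107455 : W_40 (nat_lit 4) (nat_lit 0x4000e00008001400028001000180000000000000000000000000000000) (nat_lit 0x0) (nat_lit 0x1000080008000000020000000080000000040002000000000000000000000000000) := T_40 (nat_lit 126) (nat_lit 109) (nat_lit 4) (nat_lit 8) (nat_lit 10) L107454 (by decide +kernel)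
theorem L107456 : W_40 (nat_lit 5) (nat_lit 0x4000e00008001400028001000080000000000000000000000000000000) (nat_lit 0x0) (nat_lit 0x100008000800000002000000008000000014000a000000000000000000000000000) := T_40 (nat_lit 128) (nat_lit 111) (nat_lit 6) (nat_lit 8) (nat_lit 10) L107455 (by decide +kernel)
theorem L107457 : W_40 (nat_lit 6) (nat_lit 0x4000e00000001400028001000080000000000000000000000000000000) (nat_lit 0x0) (nat_lit 0x100008000800010002800000008000000014000a000000000000000000000000000) := T_40 (nat_lit 195) (nat_lit 212) (nat_lit 7) (nat_lit 8) (nat_lit 9) L107456 (by decide +kernel)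
theorem L107458 : W_40 (nat_lit 10) (nat_lit 0xe00000001400028001000080000000000000000000000000000000) (nat_lit 0x0) (nat_lit 0x10000800fe0031003a800000008000000014000a000000000000000000000000000) := Q_40 (nat_lit 230) (C_40 L107262 (C_40 L107438 (C_40 L107444 (C_40 L107452 (C_40 L107457 N_40))))) (by decide +kernel)
theorem L107459 : W_40 (nat_lit 10) (nat_lit 0xe00000001400028001000080000000000000000000000000000000) (nat_lit 0x0) (nat_lit 0x10000800ee0031003a800000008000000014000a000000000000000000000000000) := Q_40 (nat_lit 230) (C_40 L107262 (C_40 L107438 (C_40 L107457 (C_40 L107444 N_40)))) (by decide +kernel)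
theorem L107460 : W_40 (nat_lit 2) (nat_lit 0x8400fe000800014000a80010001c0000000000000000000000000000000) (nat_lit 0x0) (nat_lit 0xe00000000000000000000000000000000000000000000000000) := D_40 (nat_lit 202) (nat_lit 201) (nat_lit 203) (nat_lit 2) (nat_lit 11) (nat_lit 12) (nat_lit 2) (nat_lit 12) (nat_lit 12) (by decide +kernel)
theorem L107461 : W_40 (nat_lit 3) (nat_lit 0x84007e000800014000a80010001c0000000000000000000000000000000) (nat_lit 0x0) (nat_lit 0x8000e40000000000000000000000000000000000000000000000000) := T_40 (nat_lit 219) (nat_lit 198) (nat_lit 0) (nat_lit 15) (nat_lit 12) L107460 (by decide +kernel)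
theorem L107462 : W_40 (nat_lit 4) (nat_lit 0x84003e000800014000a80010001c0000000000000000000000000000000) (nat_lit 0x0) (nat_lit 0x10000c000e40000000000000000000000000000000000000000000000000) := T_40 (nat_lit 218) (nat_lit 236) (nat_lit 3) (nat_lit 11) (nat_lit 12) L107461 (by decide +kernel)
theorem L107463 : W_40 (nat_lit 5) (nat_lit 0x4003e000800014000a80010001c0000000000000000000000000000000) (nat_lit 0x0) (nat_lit 0x1c000c000e40000000000000000000000000000000000000000000000000) := T_40 (nat_lit 235) (nat_lit 234) (nat_lit 3) (nat_lit 10) (nat_lit 12) L107462 (by decide +kernel)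
theorem L107464 : W_40 (nat_lit 6) (nat_lit 0x4001e000800014000a80010001c0000000000000000000000000000000) (nat_lit 0x0) (nat_lit 0x1c800e000e40000000000000000000000000000000000000000000000000) := T_40 (nat_lit 217) (nat_lit 231) (nat_lit 1) (nat_lit 13) (nat_lit 12) L107463 (by decide +kernel)
theorem L107465 : W_40 (nat_lit 7) (nat_lit 0x4001e000000014000a80010001c0000000000000000000000000000000) (nat_lit 0x0) (nat_lit 0x1c800e000fc0000000000000000000000000000000000000000000000000) := T_40 (nat_lit 199) (nat_lit 200) (nat_lit 2) (nat_lit 9) (nat_lit 12) L107464 (by decide +kernel)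
theorem L107466 : W_40 (nat_lit 8) (nat_lit 0x4001e000000014000a8001000180000000000000000000000000000000) (nat_lit 0x0) (nat_lit 0x1c800e000fc0000000000000000040002000000000000000000000000000) := T_40 (nat_lit 126) (nat_lit 109) (nat_lit 4) (nat_lit 8) (nat_lit 10) L107465 (by decide +kernel)
theorem L107467 : W_40 (nat_lit 9) (nat_lit 0x4000e000000014000a8001000180000000000000000000000000000000) (nat_lit 0x0) (nat_lit 0x1ca00f000fc0000000000000000040002000000000000000000000000000) := T_40 (nat_lit 216) (nat_lit 229) (nat_lit 1) (nat_lit 12) (nat_lit 12) L107466 (by decide +kernel)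
theorem L107468 : W_40 (nat_lit 10) (nat_lit 0x4000e00000001400028001000180000000000000000000000000000000) (nat_lit 0x0) (nat_lit 0x1ca00f000fe0000000080000000040002000000000000000000000000000) := T_40 (nat_lit 163) (nat_lit 197) (nat_lit 5) (nat_lit 10) (nat_lit 9) L107467 (by decide +kernel)
theorem L107469 : W_40 (nat_lit 11) (nat_lit 0x4000e00000001400028001000080000000000000000000000000000000) (nat_lit 0x0) (nat_lit 0x1ca00f000fe000000008000000014000a000000000000000000000000000) := T_40 (nat_lit 128) (nat_lit 111) (nat_lit 6) (nat_lit 8) (nat_lit 10) L107468 (by decide +kernel)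
theorem L107470 : W_40 (nat_lit 12) (nat_lit 0xe00000001400028001000080000000000000000000000000000000) (nat_lit 0x0) (nat_lit 0x10000801ce00f100fe800000008000000014000a000000000000000000000000000) := Q_40 (nat_lit 230) (C_40 L107257 (C_40 L107207 (C_40 L107457 (C_40 L107469 N_40)))) (by decide +kernel)
theorem L107471 : W_40 (nat_lit 2) (nat_lit 0x4000f000000014000a8001000180000000000000000000000000000000) (nat_lit 0x0) (nat_lit 0x3001000000000000000000000000000000000000000000000000000000) := D_40 (nat_lit 229) (nat_lit 216) (nat_lit 228) (nat_lit 1) (nat_lit 12) (nat_lit 12) (nat_lit 1) (nat_lit 11) (nat_lit 12) (by decide +kernel)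
theorem L107472 : W_40 (nat_lit 3) (nat_lit 0x4000e000000014000a8001000180000000000000000000000000000000) (nat_lit 0x0) (nat_lit 0x3001100008000000000000000000000000000000000000000000000000) := T_40 (nat_lit 212) (nat_lit 195) (nat_lit 7) (nat_lit 8) (nat_lit 9) L107471 (by decide +kernel)
theorem L107473 : W_40 (nat_lit 4) (nat_lit 0x4000e00000001400028001000180000000000000000000000000000000) (nat_lit 0x0) (nat_lit 0x3001100028000000080000000000000000000000000000000000000000) := T_40 (nat_lit 163) (nat_lit 197) (nat_lit 5) (nat_lit 10) (nat_lit 9) L107472 (by decide +kernel)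
theorem L107474 : W_40 (nat_lit 5) (nat_lit 0x4000e00000001400028001000080000000000000000000000000000000) (nat_lit 0x0) (nat_lit 0x3001100028000000080000000100008000000000000000000000000000) := T_40 (nat_lit 128) (nat_lit 111) (nat_lit 6) (nat_lit 8) (nat_lit 10) L107473 (by decide +kernel)
theorem L107475 : W_40 (nat_lit 2) (nat_lit 0x24001e000000014000a8001000080000000000000000000000000000000) (nat_lit 0x0) (nat_lit 0x10000100008000000000000000000000000000000000000000000000000) := D_40 (nat_lit 212) (nat_lit 232) (nat_lit 195) (nat_lit 3) (nat_lit 8) (nat_lit 12) (nat_lit 7) (nat_lit 8) (nat_lit 9) (by decide +kernel)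
theorem L107476 : W_40 (nat_lit 3) (nat_lit 0x4001e000000014000a8001000080000000000000000000000000000000) (nat_lit 0x0) (nat_lit 0x70000100008000000000000000000000000000000000000000000000000) := T_40 (nat_lit 233) (nat_lit 234) (nat_lit 3) (nat_lit 9) (nat_lit 12) L107475 (by decide +kernel)
theorem L107477 : W_40 (nat_lit 4) (nat_lit 0x4001e00000001400028001000080000000000000000000000000000000) (nat_lit 0x0) (nat_lit 0x70000100028000000080000000000000000000000000000000000000000) := T_40 (nat_lit 163) (nat_lit 197) (nat_lit 5) (nat_lit 10) (nat_lit 9) L107476 (by decide +kernel)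
theorem L107478 : W_40 (nat_lit 5) (nat_lit 0x4000e00000001400028001000080000000000000000000000000000000) (nat_lit 0x0) (nat_lit 0x72001100028000000080000000000000000000000000000000000000000) := T_40 (nat_lit 216) (nat_lit 229) (nat_lit 1) (nat_lit 12) (nat_lit 12) L107477 (by decide +kernel)
theorem L107479 : W_40 (nat_lit 2) (nat_lit 0x124007e002000014000a80010001c0000000000000000000000000000000) (nat_lit 0x0) (nat_lit 0x210008000000000000000000000000000000000000000000000000000000) := D_40 (nat_lit 219) (nat_lit 232) (nat_lit 237) (nat_lit 1) (nat_lit 15) (nat_lit 12) (nat_lit 3) (nat_lit 12) (nat_lit 12) (by decide +kernel)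
theorem L107480 : W_40 (nat_lit 3) (nat_lit 0x24007e002000014000a80010001c0000000000000000000000000000000) (nat_lit 0x0) (nat_lit 0x390008000000000000000000000000000000000000000000000000000000) := T_40 (nat_lit 236) (nat_lit 235) (nat_lit 3) (nat_lit 11) (nat_lit 12) L107479 (by decide +kernel)
theorem L107481 : W_40 (nat_lit 4) (nat_lit 0x24003e002000014000a80010001c0000000000000000000000000000000) (nat_lit 0x0) (nat_lit 0x39000c000400000000000000000000000000000000000000000000000000) := T_40 (nat_lit 218) (nat_lit 202) (nat_lit 2) (nat_lit 11) (nat_lit 12) L107480 (by decide +kernel)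
theorem L107482 : W_40 (nat_lit 5) (nat_lit 0x24003e002000014000a8001000180000000000000000000000000000000) (nat_lit 0x0) (nat_lit 0x39000c000400000000000000000040002000000000000000000000000000) := T_40 (nat_lit 126) (nat_lit 109) (nat_lit 4) (nat_lit 8) (nat_lit 10) L107481 (by decide +kernel)
theorem L107483 : W_40 (nat_lit 6) (nat_lit 0x24003e000000014000a8001000180000000000000000000000000000000) (nat_lit 0x0) (nat_lit 0x39000c000700000000000000000040002000000000000000000000000000) := T_40 (nat_lit 201) (nat_lit 200) (nat_lit 2) (nat_lit 10) (nat_lit 12) L107482 (by decide +kernel)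
theorem L107484 : W_40 (nat_lit 7) (nat_lit 0x24003e000000014000a8001000080000000000000000000000000000000) (nat_lit 0x0) (nat_lit 0x39000c00070000000000000000014000a000000000000000000000000000) := T_40 (nat_lit 128) (nat_lit 111) (nat_lit 6) (nat_lit 8) (nat_lit 10) L107483 (by decide +kernel)
theorem L107485 : W_40 (nat_lit 8) (nat_lit 0x24001e000000014000a8001000080000000000000000000000000000000) (nat_lit 0x0) (nat_lit 0x39800e00070000000000000000014000a000000000000000000000000000) := T_40 (nat_lit 217) (nat_lit 231) (nat_lit 1) (nat_lit 13) (nat_lit 12) L107484 (by decide +kernel)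
theorem L107486 : W_40 (nat_lit 9) (nat_lit 0x4001e000000014000a8001000080000000000000000000000000000000) (nat_lit 0x0) (nat_lit 0x3f800e00070000000000000000014000a000000000000000000000000000) := T_40 (nat_lit 233) (nat_lit 234) (nat_lit 3) (nat_lit 9) (nat_lit 12) L107485 (by decide +kernel)
theorem L107487 : W_40 (nat_lit 10) (nat_lit 0x4001e00000001400028001000080000000000000000000000000000000) (nat_lit 0x0) (nat_lit 0x3f800e00072000000008000000014000a000000000000000000000000000) := T_40 (nat_lit 163) (nat_lit 197) (nat_lit 5) (nat_lit 10) (nat_lit 9) L107486 (by decide +kernel)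
theorem L107488 : W_40 (nat_lit 11) (nat_lit 0x4000e00000001400028001000080000000000000000000000000000000) (nat_lit 0x0) (nat_lit 0x3fa00f00072000000008000000014000a000000000000000000000000000) := T_40 (nat_lit 216) (nat_lit 229) (nat_lit 1) (nat_lit 12) (nat_lit 12) L107487 (by decide +kernel)
theorem L107489 : W_40 (nat_lit 12) (nat_lit 0xe00000001400028001000080000000000000000000000000000000) (nat_lit 0x0) (nat_lit 0x10000803ff00f10072800000008000000014000a000000000000000000000000000) := Q_40 (nat_lit 230) (C_40 L107217 (C_40 L107474 (C_40 L107478 (C_40 L107488 (C_40 L107457 N_40))))) (by decide +kernel)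
theorem L107490 : W_40 (nat_lit 7) (nat_lit 0xe00000001400028001000080000000000000000000000000000000) (nat_lit 0x0) (nat_lit 0x400020003c00010002c00000008000000014000a000000000000000000000000000) := Q_40 (nat_lit 212) (C_40 L107409 (C_40 L106681 N_40)) (by decide +kernel)
theorem L107491 : W_40 (nat_lit 13) (nat_lit 0x600000001400028001000080000000000000000000000000000000) (nat_lit 0x0) (nat_lit 0x14000f0007803ff00f900fec00000008000000014000a000000000000000000000000000) := Q_40 (nat_lit 215) (C_40 L107408 (C_40 L107410 (C_40 L107295 (C_40 L107298 (C_40 L107429 (C_40 L107430 (C_40 L107458 (C_40 L107459 (C_40 L107470 (C_40 L107489 (C_40 L107490 N_40))))))))))) (by decide +kernel)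
theorem L107492 : W_40 (nat_lit 7) (nat_lit 0x380006000200014000280010001c0000000000000000000000000000000) (nat_lit 0x0) (nat_lit 0xf0007803800000000800040000000000000000000000000000000000000000) := T_40 (nat_lit 230) (nat_lit 247) (nat_lit 5) (nat_lit 10) (nat_lit 10) L107192 (by decide +kernel)
theorem L107493 : W_40 (nat_lit 8) (nat_lit 0x38000600020001400028001000180000000000000000000000000000000) (nat_lit 0x0) (nat_lit 0xf0007803800000000800040000000040002000000000000000000000000000) := T_40 (nat_lit 126) (nat_lit 109) (nat_lit 4) (nat_lit 8) (nat_lit 10) L107492 (by decide +kernel)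
theorem L107494 : W_40 (nat_lit 9) (nat_lit 0x18000600020001400028001000180000000000000000000000000000000) (nat_lit 0x0) (nat_lit 0xf0067803800000000800040000000040002000000000000000000000000000) := T_40 (nat_lit 233) (nat_lit 234) (nat_lit 0) (nat_lit 13) (nat_lit 13) L107493 (by decide +kernel)
theorem L107495 : W_40 (nat_lit 10) (nat_lit 0x8000600020001400028001000180000000000000000000000000000000) (nat_lit 0x0) (nat_lit 0x2f0077803800000000800040000000040002000000000000000000000000000) := T_40 (nat_lit 232) (nat_lit 249) (nat_lit 7) (nat_lit 10) (nat_lit 10) L107494 (by decide +kernel)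
theorem L107496 : W_40 (nat_lit 11) (nat_lit 0x8000600020001400028001000080000000000000000000000000000000) (nat_lit 0x0) (nat_lit 0x2f007780380000000080004000000014000a000000000000000000000000000) := T_40 (nat_lit 128) (nat_lit 111) (nat_lit 6) (nat_lit 8) (nat_lit 10) L107495 (by decide +kernel)
theorem L107497 : W_40 (nat_lit 5) (nat_lit 0x8000600020001400028001000080000000000000000000000000000000) (nat_lit 0x0) (nat_lit 0x280074000100000000000000000000100008000000000000000000000000000) := T_40 (nat_lit 230) (nat_lit 247) (nat_lit 5) (nat_lit 10) (nat_lit 10) L107203 (by decide +kernel)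
theorem L107498 : W_40 (nat_lit 10) (nat_lit 0x8000600020001400028001000080000000000000000000000000000000) (nat_lit 0x0) (nat_lit 0x2f0077803900008000800040000000000000000000000000000000000000000) := T_40 (nat_lit 230) (nat_lit 247) (nat_lit 5) (nat_lit 10) (nat_lit 10) L107200 (by decide +kernel)
theorem L107499 : W_40 (nat_lit 2) (nat_lit 0x1000300008000600160001c000280010001c0000000000000000000000000000000) (nat_lit 0x0) (nat_lit 0x20002000000000000800000000000000000000000000000000000000000000000000000) := D_40 (nat_lit 265) (nat_lit 215) (nat_lit 281) (nat_lit 6) (nat_lit 10) (nat_lit 15) (nat_lit 5) (nat_lit 10) (nat_lit 12) (by decide +kernel)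
theorem L107500 : W_40 (nat_lit 3) (nat_lit 0x300008000600160001c000280010001c0000000000000000000000000000000) (nat_lit 0x0) (nat_lit 0x20003000080000000800000000000000000000000000000000000000000000000000000) := T_40 (nat_lit 264) (nat_lit 247) (nat_lit 5) (nat_lit 10) (nat_lit 11) L107499 (by decide +kernel)
theorem L107501 : W_40 (nat_lit 4) (nat_lit 0x200008000600160001c000280010001c0000000000000000000000000000000) (nat_lit 0x0) (nat_lit 0x20007000180000000800000000000000000000000000000000000000000000000000000) := T_40 (nat_lit 248) (nat_lit 266) (nat_lit 7) (nat_lit 10) (nat_lit 11) L107500 (by decide +kernel)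
theorem L107502 : W_40 (nat_lit 5) (nat_lit 0x200008000600160001c000280010000c0000000000000000000000000000000) (nat_lit 0x0) (nat_lit 0x20007000180000000800000000000000000000100008000000000000000000000000000) := T_40 (nat_lit 128) (nat_lit 111) (nat_lit 6) (nat_lit 8) (nat_lit 10) L107501 (by decide +kernel)
theorem L107503 : W_40 (nat_lit 6) (nat_lit 0x200008000600060001c000280010000c0000000000000000000000000000000) (nat_lit 0x0) (nat_lit 0x20007000180000000800180000000000000000100008000000000000000000000000000) := T_40 (nat_lit 200) (nat_lit 199) (nat_lit 1) (nat_lit 13) (nat_lit 11) L107502 (by decide +kernel)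
theorem L107504 : W_40 (nat_lit 7) (nat_lit 0x200008000600060001c00028001000080000000000000000000000000000000) (nat_lit 0x0) (nat_lit 0x2000700018000000080018000000000000000014000a000000000000000000000000000) := T_40 (nat_lit 126) (nat_lit 109) (nat_lit 4) (nat_lit 8) (nat_lit 10) L107503 (by decide +kernel)
theorem L107505 : W_40 (nat_lit 8) (nat_lit 0x200008000600020001c00028001000080000000000000000000000000000000) (nat_lit 0x0) (nat_lit 0x200070001800000008001c000020000000000014000a000000000000000000000000000) := T_40 (nat_lit 198) (nat_lit 177) (nat_lit 3) (nat_lit 7) (nat_lit 10) L107504 (by decide +kernel)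
theorem L107506 : W_40 (nat_lit 9) (nat_lit 0x200008000600020001400028001000080000000000000000000000000000000) (nat_lit 0x0) (nat_lit 0x200070001800000008001c0000a0004000000014000a000000000000000000000000000) := T_40 (nat_lit 179) (nat_lit 162) (nat_lit 4) (nat_lit 10) (nat_lit 13) L107505 (by decide +kernel)
theorem L107507 : W_40 (nat_lit 10) (nat_lit 0x8000600020001400028001000080000000000000000000000000000000) (nat_lit 0x0) (nat_lit 0x200070003800100008001c0000a0004000000014000a000000000000000000000000000) := T_40 (nat_lit 249) (nat_lit 232) (nat_lit 7) (nat_lit 10) (nat_lit 10) L107506 (by decide +kernel)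
theorem L107508 : W_40 (nat_lit 2) (nat_lit 0x38000600022001f00028001000080000000000000000000000000000000) (nat_lit 0x0) (nat_lit 0x4000900000000000000000000000000000000000000000000000000000) := D_40 (nat_lit 212) (nat_lit 230) (nat_lit 215) (nat_lit 0) (nat_lit 12) (nat_lit 13) (nat_lit 3) (nat_lit 8) (nat_lit 12) (by decide +kernel)
theorem L107509 : W_40 (nat_lit 3) (nat_lit 0x18000600022001f00028001000080000000000000000000000000000000) (nat_lit 0x0) (nat_lit 0x64000900000000000000000000000000000000000000000000000000000) := T_40 (nat_lit 233) (nat_lit 234) (nat_lit 0) (nat_lit 13) (nat_lit 13) L107508 (by decide +kernel)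
theorem L107510 : W_40 (nat_lit 4) (nat_lit 0x8000600022001f00028001000080000000000000000000000000000000) (nat_lit 0x0) (nat_lit 0x200074000900000000000000000000000000000000000000000000000000000) := T_40 (nat_lit 232) (nat_lit 249) (nat_lit 7) (nat_lit 10) (nat_lit 10) L107509 (by decide +kernel)
theorem L107511 : W_40 (nat_lit 5) (nat_lit 0x8000600020001f00028001000080000000000000000000000000000000) (nat_lit 0x0) (nat_lit 0x200074000900003000000000000000000000000000000000000000000000000) := T_40 (nat_lit 193) (nat_lit 192) (nat_lit 1) (nat_lit 9) (nat_lit 10) L107510 (by decide +kernel)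
theorem L107512 : W_40 (nat_lit 6) (nat_lit 0x8000600020001e00028001000080000000000000000000000000000000) (nat_lit 0x0) (nat_lit 0x200074000900003000100004000000000000000000000000000000000000000) := T_40 (nat_lit 176) (nat_lit 158) (nat_lit 0) (nat_lit 9) (nat_lit 10) L107511 (by decide +kernel)
theorem L107513 : W_40 (nat_lit 7) (nat_lit 0x8000600020001c00028001000080000000000000000000000000000000) (nat_lit 0x0) (nat_lit 0x200074000900043000300004000000000000000000000000000000000000000) := T_40 (nat_lit 177) (nat_lit 198) (nat_lit 3) (nat_lit 7) (nat_lit 10) L107512 (by decide +kernel)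
theorem L107514 : W_40 (nat_lit 8) (nat_lit 0x8000600020001400028001000080000000000000000000000000000000) (nat_lit 0x0) (nat_lit 0x200074000900043000b00044000000000000000000000000000000000000000) := T_40 (nat_lit 179) (nat_lit 162) (nat_lit 4) (nat_lit 10) (nat_lit 13) L107513 (by decide +kernel)
theorem L107515 : W_40 (nat_lit 2) (nat_lit 0x4000180008000600160001c000280010001c0000000000000000000000000000000) (nat_lit 0x0) (nat_lit 0x80002000000000000800000000000000000000000000000000000000000000000000000) := D_40 (nat_lit 265) (nat_lit 215) (nat_lit 283) (nat_lit 6) (nat_lit 10) (nat_lit 15) (nat_lit 7) (nat_lit 10) (nat_lit 12) (by decide +kernel)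
theorem L107516 : W_40 (nat_lit 3) (nat_lit 0x180008000600160001c000280010001c0000000000000000000000000000000) (nat_lit 0x0) (nat_lit 0x80006000200000000800000000000000000000000000000000000000000000000000000) := T_40 (nat_lit 266) (nat_lit 249) (nat_lit 7) (nat_lit 10) (nat_lit 11) L107515 (by decide +kernel)
theorem L107517 : W_40 (nat_lit 4) (nat_lit 0x80008000600160001c000280010001c0000000000000000000000000000000) (nat_lit 0x0) (nat_lit 0x80007000300000000800000000000000000000000000000000000000000000000000000) := T_40 (nat_lit 248) (nat_lit 264) (nat_lit 5) (nat_lit 10) (nat_lit 11) L107516 (by decide +kernel)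
theorem L107518 : W_40 (nat_lit 5) (nat_lit 0x8000600160001c000280010001c0000000000000000000000000000000) (nat_lit 0x0) (nat_lit 0x80007000380004000800000000000000000000000000000000000000000000000000000) := T_40 (nat_lit 247) (nat_lit 230) (nat_lit 5) (nat_lit 10) (nat_lit 10) L107517 (by decide +kernel)
theorem L107519 : W_40 (nat_lit 6) (nat_lit 0x8000600060001c000280010001c0000000000000000000000000000000) (nat_lit 0x0) (nat_lit 0x80007000380004000800180000000000000000000000000000000000000000000000000) := T_40 (nat_lit 200) (nat_lit 199) (nat_lit 1) (nat_lit 13) (nat_lit 11) L107518 (by decide +kernel)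
theorem L107520 : W_40 (nat_lit 7) (nat_lit 0x8000600060001c000280010000c0000000000000000000000000000000) (nat_lit 0x0) (nat_lit 0x80007000380004000800180000000000000000100008000000000000000000000000000) := T_40 (nat_lit 128) (nat_lit 111) (nat_lit 6) (nat_lit 8) (nat_lit 10) L107519 (by decide +kernel)
theorem L107521 : W_40 (nat_lit 8) (nat_lit 0x8000600020001c000280010000c0000000000000000000000000000000) (nat_lit 0x0) (nat_lit 0x800070003800040008001c0000200000000000100008000000000000000000000000000) := T_40 (nat_lit 198) (nat_lit 177) (nat_lit 3) (nat_lit 7) (nat_lit 10) L107520 (by decide +kernel)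
theorem L107522 : W_40 (nat_lit 9) (nat_lit 0x80006000200014000280010000c0000000000000000000000000000000) (nat_lit 0x0) (nat_lit 0x800070003800040008001c0000a00040000000100008000000000000000000000000000) := T_40 (nat_lit 179) (nat_lit 162) (nat_lit 4) (nat_lit 10) (nat_lit 13) L107521 (by decide +kernel)
theorem L107523 : W_40 (nat_lit 10) (nat_lit 0x8000600020001400028001000080000000000000000000000000000000) (nat_lit 0x0) (nat_lit 0x800070003800040008001c0000a0004000000014000a000000000000000000000000000) := T_40 (nat_lit 126) (nat_lit 109) (nat_lit 4) (nat_lit 8) (nat_lit 10) L107522 (by decide +kernel)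
theorem L107524 : W_40 (nat_lit 2) (nat_lit 0xc000700060001c000280010000c0000000000000000000000000000000) (nat_lit 0x0) (nat_lit 0x800180000000000000000000000000000000000000000000000000) := D_40 (nat_lit 199) (nat_lit 200) (nat_lit 215) (nat_lit 1) (nat_lit 13) (nat_lit 11) (nat_lit 2) (nat_lit 8) (nat_lit 12) (by decide +kernel)
theorem L107525 : W_40 (nat_lit 3) (nat_lit 0xc000700020001c000280010000c0000000000000000000000000000000) (nat_lit 0x0) (nat_lit 0x8001c0000200000000000000000000000000000000000000000000) := T_40 (nat_lit 198) (nat_lit 177) (nat_lit 3) (nat_lit 7) (nat_lit 10) L107524 (by decide +kernel)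
theorem L107526 : W_40 (nat_lit 4) (nat_lit 0xc0007000200014000280010000c0000000000000000000000000000000) (nat_lit 0x0) (nat_lit 0x8001c0000a00040000000000000000000000000000000000000000) := T_40 (nat_lit 179) (nat_lit 162) (nat_lit 4) (nat_lit 10) (nat_lit 13) L107525 (by decide +kernel)
theorem L107527 : W_40 (nat_lit 5) (nat_lit 0xc0006000200014000280010000c0000000000000000000000000000000) (nat_lit 0x0) (nat_lit 0x9001c8000a00040000000000000000000000000000000000000000) := T_40 (nat_lit 212) (nat_lit 195) (nat_lit 7) (nat_lit 8) (nat_lit 9) L107526 (by decide +kernel)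
theorem L107528 : W_40 (nat_lit 6) (nat_lit 0xc000600020001400028001000080000000000000000000000000000000) (nat_lit 0x0) (nat_lit 0x9001c8000a00040000000040002000000000000000000000000000) := T_40 (nat_lit 126) (nat_lit 109) (nat_lit 4) (nat_lit 8) (nat_lit 10) L107527 (by decide +kernel)
theorem L107529 : W_40 (nat_lit 7) (nat_lit 0x8000600020001400028001000080000000000000000000000000000000) (nat_lit 0x0) (nat_lit 0x800040009001c8000a00040000000040002000000000000000000000000000) := T_40 (nat_lit 230) (nat_lit 247) (nat_lit 5) (nat_lit 10) (nat_lit 10) L107528 (by decide +kernel)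
theorem L107530 : W_40 (nat_lit 12) (nat_lit 0x600020001400028001000080000000000000000000000000000000) (nat_lit 0x0) (nat_lit 0xa00070003f007f8039001cb000b0004400000014000a000000000000000000000000000) := Q_40 (nat_lit 231) (C_40 L107496 (C_40 L107497 (C_40 L107498 (C_40 L107507 (C_40 L107514 (C_40 L107523 (C_40 L107529 N_40))))))) (by decide +kernel)
theorem L107531 : W_40 (nat_lit 6) (nat_lit 0x600020001400028001000080000000000000000000000000000000) (nat_lit 0x0) (nat_lit 0x400000000000000018000c00074000a000000000000000000000000000) := T_40 (nat_lit 163) (nat_lit 230) (nat_lit 5) (nat_lit 10) (nat_lit 9) L107324 (by decide +kernel)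
theorem L107532 : W_40 (nat_lit 2) (nat_lit 0xe000200014001a80010001c0000000000000000000000000000000) (nat_lit 0x0) (nat_lit 0xa00040000000000000000000000000000000000000000) := D_40 (nat_lit 177) (nat_lit 179) (nat_lit 162) (nat_lit 2) (nat_lit 7) (nat_lit 10) (nat_lit 1) (nat_lit 11) (nat_lit 9) (by decide +kernel)
theorem L107533 : W_40 (nat_lit 3) (nat_lit 0xe000200014000a80010001c0000000000000000000000000000000) (nat_lit 0x0) (nat_lit 0xa00140008000000000000000000000000000000000000) := T_40 (nat_lit 164) (nat_lit 147) (nat_lit 6) (nat_lit 10) (nat_lit 12) L107532 (by decide +kernel)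
theorem L107534 : W_40 (nat_lit 4) (nat_lit 0xe000200014000a8001000180000000000000000000000000000000) (nat_lit 0x0) (nat_lit 0xa00140008000040002000000000000000000000000000) := T_40 (nat_lit 126) (nat_lit 109) (nat_lit 4) (nat_lit 8) (nat_lit 10) L107533 (by decide +kernel)
theorem L107535 : W_40 (nat_lit 5) (nat_lit 0x6000200014000a8001000180000000000000000000000000000000) (nat_lit 0x0) (nat_lit 0x10000800000000a00140008000040002000000000000000000000000000) := T_40 (nat_lit 215) (nat_lit 232) (nat_lit 7) (nat_lit 10) (nat_lit 9) L107534 (by decide +kernel)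
theorem L107536 : W_40 (nat_lit 6) (nat_lit 0x6000200014000a8001000080000000000000000000000000000000) (nat_lit 0x0) (nat_lit 0x10000800000000a0014000800014000a000000000000000000000000000) := T_40 (nat_lit 128) (nat_lit 111) (nat_lit 6) (nat_lit 8) (nat_lit 10) L107535 (by decide +kernel)
theorem L107537 : W_40 (nat_lit 7) (nat_lit 0x600020001400028001000080000000000000000000000000000000) (nat_lit 0x0) (nat_lit 0x100009001c0000a001c000c00074000a000000000000000000000000000) := Q_40 (nat_lit 163) (C_40 L107330 (C_40 L107335 (C_40 L107329 (C_40 L107324 (C_40 L107536 N_40))))) (by decide +kernel)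
theorem L107538 : W_40 (nat_lit 13) (nat_lit 0x600000001400028001000080000000000000000000000000000000) (nat_lit 0x0) (nat_lit 0xa00070003f007f8039001eb000b001c400c00074000a000000000000000000000000000) := Q_40 (nat_lit 197) (C_40 L107530 (C_40 L107407 (C_40 L107406 (C_40 L107531 (C_40 L107537 N_40))))) (by decide +kernel)
theorem L107539 : W_40 (nat_lit 2) (nat_lit 0x600020001f00028001000180000000000000000000000000000000) (nat_lit 0x0) (nat_lit 0x8000000000000080040000000000000000000000000000000000000000) := D_40 (nat_lit 162) (nat_lit 231) (nat_lit 175) (nat_lit 4) (nat_lit 10) (nat_lit 13) (nat_lit 2) (nat_lit 5) (nat_lit 10) (by decide +kernel)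
theorem L107540 : W_40 (nat_lit 3) (nat_lit 0x600020001e00028001000180000000000000000000000000000000) (nat_lit 0x0) (nat_lit 0x8000000000000180044000000000000000000000000000000000000000) := T_40 (nat_lit 176) (nat_lit 158) (nat_lit 0) (nat_lit 9) (nat_lit 10) L107539 (by decide +kernel)
theorem L107541 : W_40 (nat_lit 4) (nat_lit 0x600020001600028001000180000000000000000000000000000000) (nat_lit 0x0) (nat_lit 0x8000000040000980044000000000000000000000000000000000000000) := T_40 (nat_lit 179) (nat_lit 198) (nat_lit 3) (nat_lit 7) (nat_lit 10) L107540 (by decide +kernel)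
theorem L107542 : W_40 (nat_lit 5) (nat_lit 0x600020001400028001000180000000000000000000000000000000) (nat_lit 0x0) (nat_lit 0x8000000044000b80044000000000000000000000000000000000000000) := T_40 (nat_lit 177) (nat_lit 194) (nat_lit 5) (nat_lit 8) (nat_lit 7) L107541 (by decide +kernel)
theorem L107543 : W_40 (nat_lit 6) (nat_lit 0x600020001400028001000080000000000000000000000000000000) (nat_lit 0x0) (nat_lit 0x8000000044000b80044000000100008000000000000000000000000000) := T_40 (nat_lit 128) (nat_lit 111) (nat_lit 6) (nat_lit 8) (nat_lit 10) L107542 (by decide +kernel)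
theorem L107544 : W_40 (nat_lit 2) (nat_lit 0x600020001e00028001000080000000000000000000000000000000) (nat_lit 0x0) (nat_lit 0x4000000000000000180000000000000000000000000000000000000000) := D_40 (nat_lit 163) (nat_lit 230) (nat_lit 164) (nat_lit 5) (nat_lit 10) (nat_lit 9) (nat_lit 2) (nat_lit 7) (nat_lit 10) (by decide +kernel)
theorem L107545 : W_40 (nat_lit 3) (nat_lit 0x600020001600028001000080000000000000000000000000000000) (nat_lit 0x0) (nat_lit 0x4000000040000800180000000000000000000000000000000000000000) := T_40 (nat_lit 179) (nat_lit 198) (nat_lit 3) (nat_lit 7) (nat_lit 10) L107544 (by decide +kernel)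
theorem L107546 : W_40 (nat_lit 4) (nat_lit 0x600020001400028001000080000000000000000000000000000000) (nat_lit 0x0) (nat_lit 0x4000000044000a00180000000000000000000000000000000000000000) := T_40 (nat_lit 177) (nat_lit 194) (nat_lit 5) (nat_lit 8) (nat_lit 7) L107545 (by decide +kernel)
theorem L107547 : W_40 (nat_lit 2) (nat_lit 0x6000200016000a8001000080000000000000000000000000000000) (nat_lit 0x0) (nat_lit 0x800100008000000000000000000000000000000000000) := D_40 (nat_lit 164) (nat_lit 179) (nat_lit 147) (nat_lit 2) (nat_lit 7) (nat_lit 10) (nat_lit 6) (nat_lit 10) (nat_lit 12) (by decide +kernel)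
theorem L107548 : W_40 (nat_lit 3) (nat_lit 0x6000200014000a8001000080000000000000000000000000000000) (nat_lit 0x0) (nat_lit 0x4000a00100008000000000000000000000000000000000000) := T_40 (nat_lit 177) (nat_lit 194) (nat_lit 5) (nat_lit 8) (nat_lit 7) L107547 (by decide +kernel)
theorem L107549 : W_40 (nat_lit 4) (nat_lit 0x600020001400028001000080000000000000000000000000000000) (nat_lit 0x0) (nat_lit 0x4000000004000a00180008000000000000000000000000000000000000) := T_40 (nat_lit 163) (nat_lit 230) (nat_lit 5) (nat_lit 10) (nat_lit 9) L107548 (by decide +kernel)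
theorem L107550 : W_40 (nat_lit 8) (nat_lit 0x600000001400028001000080000000000000000000000000000000) (nat_lit 0x0) (nat_lit 0x1c0009001e4000b801c400c000100008000000000000000000000000000) := Q_40 (nat_lit 197) (C_40 L107543 (C_40 L107546 (C_40 L107407 (C_40 L107549 N_40)))) (by decide +kernel)
theorem L107551 : W_40 (nat_lit 2) (nat_lit 0x600020001f00028001000080000000000000000000000000000000) (nat_lit 0x0) (nat_lit 0x8000000000000080040000000000000000000000000000000000000000) := D_40 (nat_lit 162) (nat_lit 231) (nat_lit 175) (nat_lit 4) (nat_lit 10) (nat_lit 13) (nat_lit 2) (nat_lit 5) (nat_lit 10) (by decide +kernel)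
theorem L107552 : W_40 (nat_lit 3) (nat_lit 0x600020001e00028001000080000000000000000000000000000000) (nat_lit 0x0) (nat_lit 0x8000000000000180044000000000000000000000000000000000000000) := T_40 (nat_lit 176) (nat_lit 158) (nat_lit 0) (nat_lit 9) (nat_lit 10) L107551 (by decide +kernel)
theorem L107553 : W_40 (nat_lit 4) (nat_lit 0x600020001600028001000080000000000000000000000000000000) (nat_lit 0x0) (nat_lit 0x8000000040000980044000000000000000000000000000000000000000) := T_40 (nat_lit 179) (nat_lit 198) (nat_lit 3) (nat_lit 7) (nat_lit 10) L107552 (by decide +kernel)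
theorem L107554 : W_40 (nat_lit 5) (nat_lit 0x600020001400028001000080000000000000000000000000000000) (nat_lit 0x0) (nat_lit 0x8000000044000b80044000000000000000000000000000000000000000) := T_40 (nat_lit 177) (nat_lit 194) (nat_lit 5) (nat_lit 8) (nat_lit 7) L107553 (by decide +kernel)
theorem L107555 : W_40 (nat_lit 7) (nat_lit 0x600000001400028001000080000000000000000000000000000000) (nat_lit 0x0) (nat_lit 0x1c000800064000b801c400c000440002000000000000000000000000000) := Q_40 (nat_lit 197) (C_40 L107554 (C_40 L107549 (C_40 L107406 N_40))) (by decide +kernel)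
theorem L107556 : W_40 (nat_lit 13) (nat_lit 0x600000001400028001000080000000000000000000000000000000) (nat_lit 0x0) (nat_lit 0x14000f00078007f0019001ef000b8004400000014000a000000000000000000000000000) := Q_40 (nat_lit 212) (C_40 L107365 (C_40 L107403 (C_40 L106676 (C_40 L107392 N_40)))) (by decide +kernel)
theorem L107557 : W_40 (nat_lit 2) (nat_lit 0x60000000170002c0010000c0000000000000000000000000000000) (nat_lit 0x0) (nat_lit 0x80003000000000000000000000000000000000000000) := D_40 (nat_lit 157) (nat_lit 175) (nat_lit 156) (nat_lit 0) (nat_lit 8) (nat_lit 10) (nat_lit 3) (nat_lit 3) (nat_lit 9) (by decide +kernel)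
theorem L107558 : W_40 (nat_lit 3) (nat_lit 0x6000000017000280010000c0000000000000000000000000000000) (nat_lit 0x0) (nat_lit 0x880007000000000000000000000000000000000000000) := T_40 (nat_lit 158) (nat_lit 179) (nat_lit 0) (nat_lit 9) (nat_lit 10) L107557 (by decide +kernel)
theorem L107559 : W_40 (nat_lit 4) (nat_lit 0x600000001700028001000080000000000000000000000000000000) (nat_lit 0x0) (nat_lit 0x880007000000040002000000000000000000000000000) := T_40 (nat_lit 126) (nat_lit 109) (nat_lit 4) (nat_lit 8) (nat_lit 10) L107558 (by decide +kernel)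
theorem L107560 : W_40 (nat_lit 2) (nat_lit 0x620001001780028001000180000000000000000000000000000000) (nat_lit 0x0) (nat_lit 0x2000000000000400020000000000000000000000000000000) := D_40 (nat_lit 142) (nat_lit 125) (nat_lit 193) (nat_lit 5) (nat_lit 6) (nat_lit 7) (nat_lit 5) (nat_lit 6) (nat_lit 8) (by decide +kernel)
theorem L107561 : W_40 (nat_lit 3) (nat_lit 0x600001001780028001000180000000000000000000000000000000) (nat_lit 0x0) (nat_lit 0x400020002000000000000400020000000000000000000000000000000) := T_40 (nat_lit 209) (nat_lit 226) (nat_lit 6) (nat_lit 5) (nat_lit 13) L107560 (by decide +kernel)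
theorem L107562 : W_40 (nat_lit 4) (nat_lit 0x600001001780028001000080000000000000000000000000000000) (nat_lit 0x0) (nat_lit 0x400020002000000000000400120008000000000000000000000000000) := T_40 (nat_lit 128) (nat_lit 111) (nat_lit 6) (nat_lit 8) (nat_lit 10) L107561 (by decide +kernel)
theorem L107563 : W_40 (nat_lit 5) (nat_lit 0x600000001780028001000080000000000000000000000000000000) (nat_lit 0x0) (nat_lit 0x400020003800000000000400120008000000000000000000000000000) := T_40 (nat_lit 192) (nat_lit 191) (nat_lit 1) (nat_lit 8) (nat_lit 10) L107562 (by decide +kernel)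
theorem L107564 : W_40 (nat_lit 6) (nat_lit 0x600000001700028001000080000000000000000000000000000000) (nat_lit 0x0) (nat_lit 0x400020003800080040000400120008000000000000000000000000000) := T_40 (nat_lit 175) (nat_lit 162) (nat_lit 2) (nat_lit 5) (nat_lit 10) L107563 (by decide +kernel)
theorem L107565 : W_40 (nat_lit 2) (nat_lit 0x600000001f000280010000c0000000000000000000000000000000) (nat_lit 0x0) (nat_lit 0x1c0000000000000000000000000000000000000000) := D_40 (nat_lit 163) (nat_lit 162) (nat_lit 164) (nat_lit 2) (nat_lit 6) (nat_lit 10) (nat_lit 2) (nat_lit 7) (nat_lit 10) (by decide +kernel)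
theorem L107566 : W_40 (nat_lit 3) (nat_lit 0x6000000017000280010000c0000000000000000000000000000000) (nat_lit 0x0) (nat_lit 0x8001c4000000000000000000000000000000000000000) := T_40 (nat_lit 179) (nat_lit 158) (nat_lit 0) (nat_lit 9) (nat_lit 10) L107565 (by decide +kernel)
theorem L107567 : W_40 (nat_lit 4) (nat_lit 0x600000001700028001000080000000000000000000000000000000) (nat_lit 0x0) (nat_lit 0x8001c4000000040002000000000000000000000000000) := T_40 (nat_lit 126) (nat_lit 109) (nat_lit 4) (nat_lit 8) (nat_lit 10) L107566 (by decide +kernel)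
theorem L107568 : W_40 (nat_lit 7) (nat_lit 0x600000001600028001000080000000000000000000000000000000) (nat_lit 0x0) (nat_lit 0x4000200038009801c700040016000a000000000000000000000000000) := Q_40 (nat_lit 176) (C_40 L107567 (C_40 L107564 (C_40 L107559 N_40))) (by decide +kernel)
theorem L107569 : W_40 (nat_lit 8) (nat_lit 0x600000001400028001000080000000000000000000000000000000) (nat_lit 0x0) (nat_lit 0x400020007800b801c700040016000a000000000000000000000000000) := T_40 (nat_lit 177) (nat_lit 194) (nat_lit 5) (nat_lit 8) (nat_lit 7) L107568 (by decide +kernel)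
theorem L107570 : W_40 (nat_lit 14) (nat_lit 0x200000001400028001000080000000000000000000000000000000) (nat_lit 0x0) (nat_lit 0x1e000f0007f03ffc0fd20fef800b801c700c40076000a000000000000000000000000000) := Q_40 (nat_lit 214) (C_40 L107491 (C_40 L107538 (C_40 L107550 (C_40 L107555 (C_40 L107556 (C_40 L107569 N_40)))))) (by decide +kernel)
theorem L107571 : W_40 (nat_lit 2) (nat_lit 0x8000600020001e000a80010001c0000000000000000000000000000000) (nat_lit 0x0) (nat_lit 0x200010000800000000000000000000000000000000000000000000000000000) := D_40 (nat_lit 232) (nat_lit 215) (nat_lit 249) (nat_lit 7) (nat_lit 10) (nat_lit 9) (nat_lit 7) (nat_lit 10) (nat_lit 10) (by decide +kernel)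
theorem L107572 : W_40 (nat_lit 3) (nat_lit 0x600020001e000a80010001c0000000000000000000000000000000) (nat_lit 0x0) (nat_lit 0x200018000800000000000040000000000000000000000000000000000000000) := T_40 (nat_lit 231) (nat_lit 162) (nat_lit 4) (nat_lit 10) (nat_lit 13) L107571 (by decide +kernel)
theorem L107573 : W_40 (nat_lit 4) (nat_lit 0x200020001e000a80010001c0000000000000000000000000000000) (nat_lit 0x0) (nat_lit 0x20001c000c00000000000040000000000000000000000000000000000000000) := T_40 (nat_lit 214) (nat_lit 230) (nat_lit 5) (nat_lit 10) (nat_lit 9) L107572 (by decide +kernel)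
theorem L107574 : W_40 (nat_lit 5) (nat_lit 0x200000001e000a80010001c0000000000000000000000000000000) (nat_lit 0x0) (nat_lit 0x20001c000c00060000000040000000000000000000000000000000000000000) := T_40 (nat_lit 197) (nat_lit 198) (nat_lit 3) (nat_lit 7) (nat_lit 10) L107573 (by decide +kernel)
theorem L107575 : W_40 (nat_lit 6) (nat_lit 0x200000001e000280010001c0000000000000000000000000000000) (nat_lit 0x0) (nat_lit 0x20001c000c000600000001c0000000000000000000000000000000000000000) := T_40 (nat_lit 163) (nat_lit 164) (nat_lit 2) (nat_lit 7) (nat_lit 10) L107574 (by decide +kernel)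
theorem L107576 : W_40 (nat_lit 7) (nat_lit 0x200000001e000280010000c0000000000000000000000000000000) (nat_lit 0x0) (nat_lit 0x20001c000c000600000001c0000000100008000000000000000000000000000) := T_40 (nat_lit 128) (nat_lit 111) (nat_lit 6) (nat_lit 8) (nat_lit 10) L107575 (by decide +kernel)
theorem L107577 : W_40 (nat_lit 8) (nat_lit 0x2000000016000280010000c0000000000000000000000000000000) (nat_lit 0x0) (nat_lit 0x20001c000c000600008001d0000000100008000000000000000000000000000) := T_40 (nat_lit 179) (nat_lit 160) (nat_lit 0) (nat_lit 10) (nat_lit 10) L107576 (by decide +kernel)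
theorem L107578 : W_40 (nat_lit 9) (nat_lit 0x2000000014000280010000c0000000000000000000000000000000) (nat_lit 0x0) (nat_lit 0x20001c000c00064000a001d0000000100008000000000000000000000000000) := T_40 (nat_lit 177) (nat_lit 194) (nat_lit 5) (nat_lit 8) (nat_lit 7) L107577 (by decide +kernel)
theorem L107579 : W_40 (nat_lit 10) (nat_lit 0x200000001400028001000080000000000000000000000000000000) (nat_lit 0x0) (nat_lit 0x20001c000c00064000a001d000000014000a000000000000000000000000000) := T_40 (nat_lit 126) (nat_lit 109) (nat_lit 4) (nat_lit 8) (nat_lit 10) L107578 (by decide +kernel)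
theorem L107580 : W_40 (nat_lit 2) (nat_lit 0x20000000168003c0012001e0000000000000000000000000000000) (nat_lit 0x0) (nat_lit 0x10001800000000000000000000000000) := D_40 (nat_lit 108) (nat_lit 107) (nat_lit 124) (nat_lit 0) (nat_lit 9) (nat_lit 7) (nat_lit 6) (nat_lit 5) (nat_lit 10) (by decide +kernel)
theorem L107581 : W_40 (nat_lit 3) (nat_lit 0x20000000160003c0012001e0000000000000000000000000000000) (nat_lit 0x0) (nat_lit 0xc0000000000010001800000000000000000000000000) := T_40 (nat_lit 175) (nat_lit 174) (nat_lit 1) (nat_lit 8) (nat_lit 9) L107580 (by decide +kernel)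
theorem L107582 : W_40 (nat_lit 4) (nat_lit 0x20000000160003c0012001c0000000000000000000000000000000) (nat_lit 0x0) (nat_lit 0xc0000000400030001800000000000000000000000000) := T_40 (nat_lit 125) (nat_lit 142) (nat_lit 1) (nat_lit 9) (nat_lit 7) L107581 (by decide +kernel)
theorem L107583 : W_40 (nat_lit 5) (nat_lit 0x20000000160003c0010001c0000000000000000000000000000000) (nat_lit 0x0) (nat_lit 0xc0000000700030001800000000000000000000000000) := T_40 (nat_lit 141) (nat_lit 140) (nat_lit 0) (nat_lit 8) (nat_lit 9) L107582 (by decide +kernel)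
theorem L107584 : W_40 (nat_lit 6) (nat_lit 0x2000000016000380010001c0000000000000000000000000000000) (nat_lit 0x0) (nat_lit 0xc0006000700030001800000000000000000000000000) := T_40 (nat_lit 158) (nat_lit 157) (nat_lit 3) (nat_lit 4) (nat_lit 9) L107583 (by decide +kernel)
theorem L107585 : W_40 (nat_lit 7) (nat_lit 0x2000000016000280010001c0000000000000000000000000000000) (nat_lit 0x0) (nat_lit 0x8c0016000700030001800000000000000000000000000) := T_40 (nat_lit 160) (nat_lit 179) (nat_lit 0) (nat_lit 10) (nat_lit 10) L107584 (by decide +kernel)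
theorem L107586 : W_40 (nat_lit 8) (nat_lit 0x2000000014000280010001c0000000000000000000000000000000) (nat_lit 0x0) (nat_lit 0x4000ac0016000700030001800000000000000000000000000) := T_40 (nat_lit 177) (nat_lit 194) (nat_lit 5) (nat_lit 8) (nat_lit 7) L107585 (by decide +kernel)
theorem L107587 : W_40 (nat_lit 9) (nat_lit 0x200000001400028001000180000000000000000000000000000000) (nat_lit 0x0) (nat_lit 0x4000ac0016000700070003800000000000000000000000000) := T_40 (nat_lit 126) (nat_lit 109) (nat_lit 4) (nat_lit 8) (nat_lit 10) L107586 (by decide +kernel)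
theorem L107588 : W_40 (nat_lit 10) (nat_lit 0x200000001400028001000080000000000000000000000000000000) (nat_lit 0x0) (nat_lit 0x4000ac001600070017000b800000000000000000000000000) := T_40 (nat_lit 128) (nat_lit 111) (nat_lit 6) (nat_lit 8) (nat_lit 10) L107587 (by decide +kernel)
theorem L107589 : W_40 (nat_lit 2) (nat_lit 0x20000000148003c001200180000000000000000000000000000000) (nat_lit 0x0) (nat_lit 0x100040000400000000000000000000000000000000000) := D_40 (nat_lit 162) (nat_lit 142) (nat_lit 176) (nat_lit 0) (nat_lit 9) (nat_lit 9) (nat_lit 1) (nat_lit 9) (nat_lit 9) (by decide +kernel)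
theorem L107590 : W_40 (nat_lit 3) (nat_lit 0x20000000140003c001200180000000000000000000000000000000) (nat_lit 0x0) (nat_lit 0x1c0040000400000000000000000000000000000000000) := T_40 (nat_lit 175) (nat_lit 174) (nat_lit 1) (nat_lit 8) (nat_lit 9) L107589 (by decide +kernel)
theorem L107591 : W_40 (nat_lit 4) (nat_lit 0x20000000140002c001200180000000000000000000000000000000) (nat_lit 0x0) (nat_lit 0x1c0050000500000000000000000000000000000000000) := T_40 (nat_lit 160) (nat_lit 140) (nat_lit 0) (nat_lit 8) (nat_lit 9) L107590 (by decide +kernel)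
theorem L107592 : W_40 (nat_lit 5) (nat_lit 0x20000000140002c001200080000000000000000000000000000000) (nat_lit 0x0) (nat_lit 0x1c0050000500100008000000000000000000000000000) := T_40 (nat_lit 128) (nat_lit 111) (nat_lit 6) (nat_lit 8) (nat_lit 10) L107591 (by decide +kernel)
theorem L107593 : W_40 (nat_lit 6) (nat_lit 0x20000000140002c001200080000000000000000000000000000000) (nat_lit 0x0) (nat_lit 0x400020001c0050000100050002000000000000000000000000000) := T_40 (nat_lit 160) (nat_lit 140) (nat_lit 0) (nat_lit 8) (nat_lit 9) L107226 (by decide +kernel)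
theorem L107594 : W_40 (nat_lit 2) (nat_lit 0x20000000140003c001600180000000000000000000000000000000) (nat_lit 0x0) (nat_lit 0x60002000000000000000000000000000) := D_40 (nat_lit 126) (nat_lit 109) (nat_lit 125) (nat_lit 4) (nat_lit 8) (nat_lit 10) (nat_lit 1) (nat_lit 9) (nat_lit 7) (by decide +kernel)
theorem L107595 : W_40 (nat_lit 3) (nat_lit 0x20000000140003c001200180000000000000000000000000000000) (nat_lit 0x0) (nat_lit 0x40000400060002000000000000000000000000000) := T_40 (nat_lit 142) (nat_lit 162) (nat_lit 0) (nat_lit 9) (nat_lit 9) L107594 (by decide +kernel)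
theorem L107596 : W_40 (nat_lit 4) (nat_lit 0x20000000140003c001200080000000000000000000000000000000) (nat_lit 0x0) (nat_lit 0x4000040016000a000000000000000000000000000) := T_40 (nat_lit 128) (nat_lit 111) (nat_lit 6) (nat_lit 8) (nat_lit 10) L107595 (by decide +kernel)
theorem L107597 : W_40 (nat_lit 5) (nat_lit 0x20000000140002c001200080000000000000000000000000000000) (nat_lit 0x0) (nat_lit 0x5000050016000a000000000000000000000000000) := T_40 (nat_lit 160) (nat_lit 140) (nat_lit 0) (nat_lit 8) (nat_lit 9) L107596 (by decide +kernel)
theorem L107598 : W_40 (nat_lit 2) (nat_lit 0x20000000140002c0012001e0000800000000000000000000000000) (nat_lit 0x0) (nat_lit 0x100000000000010000400000000000000000000000000) := D_40 (nat_lit 124) (nat_lit 106) (nat_lit 176) (nat_lit 0) (nat_lit 8) (nat_lit 7) (nat_lit 7) (nat_lit 5) (nat_lit 6) (by decide +kernel)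
theorem L107599 : W_40 (nat_lit 3) (nat_lit 0x20000000140002c0012001e0000000000000000000000000000000) (nat_lit 0x0) (nat_lit 0x100000000000010001c00000000000000000000000000) := T_40 (nat_lit 107) (nat_lit 108) (nat_lit 0) (nat_lit 9) (nat_lit 7) L107598 (by decide +kernel)
theorem L107600 : W_40 (nat_lit 4) (nat_lit 0x20000000140002c0012001c0000000000000000000000000000000) (nat_lit 0x0) (nat_lit 0x100000000400030001c00000000000000000000000000) := T_40 (nat_lit 125) (nat_lit 142) (nat_lit 1) (nat_lit 9) (nat_lit 7) L107599 (by decide +kernel)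
theorem L107601 : W_40 (nat_lit 5) (nat_lit 0x20000000140002c0012000c0000000000000000000000000000000) (nat_lit 0x0) (nat_lit 0x100000000400130009c00000000000000000000000000) := T_40 (nat_lit 128) (nat_lit 111) (nat_lit 6) (nat_lit 8) (nat_lit 10) L107600 (by decide +kernel)
theorem L107602 : W_40 (nat_lit 6) (nat_lit 0x20000000140002c001200080000000000000000000000000000000) (nat_lit 0x0) (nat_lit 0x10000000040017000bc00000000000000000000000000) := T_40 (nat_lit 126) (nat_lit 109) (nat_lit 4) (nat_lit 8) (nat_lit 10) L107601 (by decide +kernel)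
theorem L107603 : W_40 (nat_lit 11) (nat_lit 0x20000000140002c001000080000000000000000000000000000000) (nat_lit 0x0) (nat_lit 0x500038001c005200070017800bc00020000000000000000000000) := Q_40 (nat_lit 141) (C_40 L107252 (C_40 L107592 (C_40 L107593 (C_40 L107232 (C_40 L107597 (C_40 L107602 N_40)))))) (by decide +kernel)
theorem L107604 : W_40 (nat_lit 2) (nat_lit 0x20000000160002e001000180000000000000000000000000000000) (nat_lit 0x0) (nat_lit 0x180001000000000000000000000000000000000000000) := D_40 (nat_lit 176) (nat_lit 156) (nat_lit 175) (nat_lit 3) (nat_lit 3) (nat_lit 9) (nat_lit 0) (nat_lit 8) (nat_lit 10) (by decide +kernel)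
theorem L107605 : W_40 (nat_lit 3) (nat_lit 0x20000000160002c001000180000000000000000000000000000000) (nat_lit 0x0) (nat_lit 0x180013000000000000000000000000000000000000000) := T_40 (nat_lit 157) (nat_lit 160) (nat_lit 3) (nat_lit 4) (nat_lit 9) L107604 (by decide +kernel)
theorem L107606 : W_40 (nat_lit 4) (nat_lit 0x20000000140002c001000180000000000000000000000000000000) (nat_lit 0x0) (nat_lit 0x4000380013000000000000000000000000000000000000000) := T_40 (nat_lit 177) (nat_lit 194) (nat_lit 5) (nat_lit 8) (nat_lit 7) L107605 (by decide +kernel)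
theorem L107607 : W_40 (nat_lit 5) (nat_lit 0x20000000140002c001000080000000000000000000000000000000) (nat_lit 0x0) (nat_lit 0x4000380013000000100008000000000000000000000000000) := T_40 (nat_lit 128) (nat_lit 111) (nat_lit 6) (nat_lit 8) (nat_lit 10) L107606 (by decide +kernel)
theorem L107608 : W_40 (nat_lit 2) (nat_lit 0x20000000160002e001000080000000000000000000000000000000) (nat_lit 0x0) (nat_lit 0x180001000000000000000000000000000000000000000) := D_40 (nat_lit 176) (nat_lit 156) (nat_lit 175) (nat_lit 3) (nat_lit 3) (nat_lit 9) (nat_lit 0) (nat_lit 8) (nat_lit 10) (by decide +kernel)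
theorem L107609 : W_40 (nat_lit 3) (nat_lit 0x20000000160002c001000080000000000000000000000000000000) (nat_lit 0x0) (nat_lit 0x180013000000000000000000000000000000000000000) := T_40 (nat_lit 157) (nat_lit 160) (nat_lit 3) (nat_lit 4) (nat_lit 9) L107608 (by decide +kernel)
theorem L107610 : W_40 (nat_lit 4) (nat_lit 0x20000000140002c001000080000000000000000000000000000000) (nat_lit 0x0) (nat_lit 0x4000380013000000000000000000000000000000000000000) := T_40 (nat_lit 177) (nat_lit 194) (nat_lit 5) (nat_lit 8) (nat_lit 7) L107609 (by decide +kernel)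
theorem L107611 : W_40 (nat_lit 2) (nat_lit 0x20000000168002c001000080000000000000000000000000000000) (nat_lit 0x0) (nat_lit 0x100042000000000000000000000000000000000000000) := D_40 (nat_lit 176) (nat_lit 162) (nat_lit 157) (nat_lit 2) (nat_lit 5) (nat_lit 10) (nat_lit 0) (nat_lit 8) (nat_lit 10) (by decide +kernel)
theorem L107612 : W_40 (nat_lit 3) (nat_lit 0x20000000148002c001000080000000000000000000000000000000) (nat_lit 0x0) (nat_lit 0x4000300042000000000000000000000000000000000000000) := T_40 (nat_lit 177) (nat_lit 194) (nat_lit 5) (nat_lit 8) (nat_lit 7) L107611 (by decide +kernel)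
theorem L107613 : W_40 (nat_lit 2) (nat_lit 0x20000000148002c0014000a0000000000000000000000000000000) (nat_lit 0x0) (nat_lit 0x20001000000000000200000000000000000000000000000000000) := D_40 (nat_lit 192) (nat_lit 209) (nat_lit 141) (nat_lit 6) (nat_lit 5) (nat_lit 12) (nat_lit 6) (nat_lit 5) (nat_lit 11) (by decide +kernel)
theorem L107614 : W_40 (nat_lit 2) (nat_lit 0x20000000168002c0012001f0000800000000000000000000000000) (nat_lit 0x0) (nat_lit 0x800040002000000000000000000000000000000000000000) := D_40 (nat_lit 174) (nat_lit 191) (nat_lit 157) (nat_lit 5) (nat_lit 5) (nat_lit 7) (nat_lit 5) (nat_lit 5) (nat_lit 6) (by decide +kernel)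
theorem L107615 : W_40 (nat_lit 3) (nat_lit 0x20000000168002c0010001f0000800000000000000000000000000) (nat_lit 0x0) (nat_lit 0x800040002000300000000000000000000000000000000000) := T_40 (nat_lit 141) (nat_lit 140) (nat_lit 1) (nat_lit 8) (nat_lit 7) L107614 (by decide +kernel)
theorem L107616 : W_40 (nat_lit 4) (nat_lit 0x20000000168002c0010001e0000800000000000000000000000000) (nat_lit 0x0) (nat_lit 0x800040002000300010000400000000000000000000000000) := T_40 (nat_lit 124) (nat_lit 106) (nat_lit 0) (nat_lit 8) (nat_lit 7) L107615 (by decide +kernel)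
theorem L107617 : W_40 (nat_lit 5) (nat_lit 0x20000000148002c0010001e0000800000000000000000000000000) (nat_lit 0x0) (nat_lit 0x4800240002000300010000400000000000000000000000000) := T_40 (nat_lit 177) (nat_lit 194) (nat_lit 5) (nat_lit 8) (nat_lit 7) L107616 (by decide +kernel)
theorem L107618 : W_40 (nat_lit 6) (nat_lit 0x20000000148002c0010001e0000000000000000000000000000000) (nat_lit 0x0) (nat_lit 0x4800240002000300010001c00000000000000000000000000) := T_40 (nat_lit 107) (nat_lit 108) (nat_lit 0) (nat_lit 9) (nat_lit 7) L107617 (by decide +kernel)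
theorem L107619 : W_40 (nat_lit 7) (nat_lit 0x20000000148002c0010001a0000000000000000000000000000000) (nat_lit 0x0) (nat_lit 0x4800240002000300050003c00000000000000000000000000) := T_40 (nat_lit 126) (nat_lit 109) (nat_lit 4) (nat_lit 8) (nat_lit 10) L107618 (by decide +kernel)
theorem L107620 : W_40 (nat_lit 8) (nat_lit 0x20000000148002c0010000a0000000000000000000000000000000) (nat_lit 0x0) (nat_lit 0x480024000200030015000bc00000000000000000000000000) := T_40 (nat_lit 128) (nat_lit 111) (nat_lit 6) (nat_lit 8) (nat_lit 10) L107619 (by decide +kernel)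
theorem L107621 : W_40 (nat_lit 2) (nat_lit 0x20000000168002c0010001a0001000000000000000000000000000) (nat_lit 0x0) (nat_lit 0x40002800000000000000000000000000) := D_40 (nat_lit 126) (nat_lit 107) (nat_lit 109) (nat_lit 0) (nat_lit 9) (nat_lit 7) (nat_lit 4) (nat_lit 8) (nat_lit 10) (by decide +kernel)
theorem L107622 : W_40 (nat_lit 3) (nat_lit 0x20000000168002c0010000a0001000000000000000000000000000) (nat_lit 0x0) (nat_lit 0x14000a800000000000000000000000000) := T_40 (nat_lit 128) (nat_lit 111) (nat_lit 6) (nat_lit 8) (nat_lit 10) L107621 (by decide +kernel)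
theorem L107623 : W_40 (nat_lit 4) (nat_lit 0x20000000168002c0010000a0000000000000000000000000000000) (nat_lit 0x0) (nat_lit 0x40014000b800000000000000000000000000) := T_40 (nat_lit 108) (nat_lit 142) (nat_lit 5) (nat_lit 6) (nat_lit 6) L107622 (by decide +kernel)
theorem L107624 : W_40 (nat_lit 5) (nat_lit 0x20000000148002c0010000a0000000000000000000000000000000) (nat_lit 0x0) (nat_lit 0x400020000000040014000b800000000000000000000000000) := T_40 (nat_lit 177) (nat_lit 194) (nat_lit 5) (nat_lit 8) (nat_lit 7) L107623 (by decide +kernel)
theorem L107625 : W_40 (nat_lit 2) (nat_lit 0x20000000168002c0014000a0000000000000000000000000000000) (nat_lit 0x0) (nat_lit 0x20001000000000000200000000000000000000000000000000000) := D_40 (nat_lit 192) (nat_lit 209) (nat_lit 141) (nat_lit 6) (nat_lit 5) (nat_lit 12) (nat_lit 6) (nat_lit 5) (nat_lit 11) (by decide +kernel)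
theorem L107626 : W_40 (nat_lit 3) (nat_lit 0x20000000168002c0010000a0000000000000000000000000000000) (nat_lit 0x0) (nat_lit 0x20001000000000000600000001000000000000000000000000000) := T_40 (nat_lit 142) (nat_lit 108) (nat_lit 5) (nat_lit 6) (nat_lit 6) L107625 (by decide +kernel)
theorem L107627 : W_40 (nat_lit 4) (nat_lit 0x20000000148002c0010000a0000000000000000000000000000000) (nat_lit 0x0) (nat_lit 0x20005000200000000600000001000000000000000000000000000) := T_40 (nat_lit 177) (nat_lit 194) (nat_lit 5) (nat_lit 8) (nat_lit 7) L107626 (by decide +kernel)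
theorem L107628 : W_40 (nat_lit 2) (nat_lit 0x20000000148002c0010001e0000000000000000000000000000000) (nat_lit 0x0) (nat_lit 0x400000001800000000000000000000000000) := D_40 (nat_lit 108) (nat_lit 107) (nat_lit 142) (nat_lit 0) (nat_lit 9) (nat_lit 7) (nat_lit 5) (nat_lit 6) (nat_lit 6) (by decide +kernel)
theorem L107629 : W_40 (nat_lit 3) (nat_lit 0x20000000148002c0010001a0000000000000000000000000000000) (nat_lit 0x0) (nat_lit 0x400040003800000000000000000000000000) := T_40 (nat_lit 126) (nat_lit 109) (nat_lit 4) (nat_lit 8) (nat_lit 10) L107628 (by decide +kernel)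
theorem L107630 : W_40 (nat_lit 4) (nat_lit 0x20000000148002c0010000a0000000000000000000000000000000) (nat_lit 0x0) (nat_lit 0x40014000b800000000000000000000000000) := T_40 (nat_lit 128) (nat_lit 111) (nat_lit 6) (nat_lit 8) (nat_lit 10) L107629 (by decide +kernel)
theorem L107631 : W_40 (nat_lit 2) (nat_lit 0x20000000168002c0012001f0000000000000000000000000000000) (nat_lit 0x0) (nat_lit 0x8000c00000000000000000000000000) := D_40 (nat_lit 106) (nat_lit 107) (nat_lit 123) (nat_lit 0) (nat_lit 8) (nat_lit 7) (nat_lit 4) (nat_lit 5) (nat_lit 10) (by decide +kernel)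
theorem L107632 : W_40 (nat_lit 3) (nat_lit 0x20000000168002c0012001e0000000000000000000000000000000) (nat_lit 0x0) (nat_lit 0x100018000c00000000000000000000000000) := T_40 (nat_lit 124) (nat_lit 140) (nat_lit 1) (nat_lit 8) (nat_lit 7) L107631 (by decide +kernel)
theorem L107633 : W_40 (nat_lit 4) (nat_lit 0x20000000168002c0010001e0000000000000000000000000000000) (nat_lit 0x0) (nat_lit 0x700018000c00000000000000000000000000) := T_40 (nat_lit 141) (nat_lit 142) (nat_lit 1) (nat_lit 9) (nat_lit 7) L107632 (by decide +kernel)
theorem L107634 : W_40 (nat_lit 5) (nat_lit 0x20000000168002c0010001a0000000000000000000000000000000) (nat_lit 0x0) (nat_lit 0x700058002c00000000000000000000000000) := T_40 (nat_lit 126) (nat_lit 109) (nat_lit 4) (nat_lit 8) (nat_lit 10) L107633 (by decide +kernel)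
theorem L107635 : W_40 (nat_lit 6) (nat_lit 0x20000000168002c0010000a0000000000000000000000000000000) (nat_lit 0x0) (nat_lit 0x70015800ac00000000000000000000000000) := T_40 (nat_lit 128) (nat_lit 111) (nat_lit 6) (nat_lit 8) (nat_lit 10) L107634 (by decide +kernel)
theorem L107636 : W_40 (nat_lit 7) (nat_lit 0x20000000148002c0010000a0000000000000000000000000000000) (nat_lit 0x0) (nat_lit 0x400020000000070015800ac00000000000000000000000000) := T_40 (nat_lit 177) (nat_lit 194) (nat_lit 5) (nat_lit 8) (nat_lit 7) L107635 (by decide +kernel)
theorem L107637 : W_40 (nat_lit 9) (nat_lit 0x20000000148002c001000080000000000000000000000000000000) (nat_lit 0x0) (nat_lit 0x2000580024000200070017800bc00000000000000000000000000) := Q_40 (nat_lit 125) (C_40 L107620 (C_40 L107624 (C_40 L107627 (C_40 L107630 (C_40 L107636 N_40))))) (by decide +kernel)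
theorem L107638 : W_40 (nat_lit 2) (nat_lit 0x20000000148002c0010001f0000800000000000000000000000000) (nat_lit 0x0) (nat_lit 0x100000000300000000000000000000000000000000000) := D_40 (nat_lit 141) (nat_lit 140) (nat_lit 176) (nat_lit 1) (nat_lit 8) (nat_lit 7) (nat_lit 7) (nat_lit 5) (nat_lit 6) (by decide +kernel)
theorem L107639 : W_40 (nat_lit 3) (nat_lit 0x20000000148002c0010001e0000800000000000000000000000000) (nat_lit 0x0) (nat_lit 0x100000000300010000400000000000000000000000000) := T_40 (nat_lit 124) (nat_lit 106) (nat_lit 0) (nat_lit 8) (nat_lit 7) L107638 (by decide +kernel)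
theorem L107640 : W_40 (nat_lit 4) (nat_lit 0x20000000148002c0010001e0000000000000000000000000000000) (nat_lit 0x0) (nat_lit 0x100000000300010001c00000000000000000000000000) := T_40 (nat_lit 107) (nat_lit 108) (nat_lit 0) (nat_lit 9) (nat_lit 7) L107639 (by decide +kernel)
theorem L107641 : W_40 (nat_lit 5) (nat_lit 0x20000000148002c0010001a0000000000000000000000000000000) (nat_lit 0x0) (nat_lit 0x100000000300050003c00000000000000000000000000) := T_40 (nat_lit 126) (nat_lit 109) (nat_lit 4) (nat_lit 8) (nat_lit 10) L107640 (by decide +kernel)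
theorem L107642 : W_40 (nat_lit 6) (nat_lit 0x20000000148002c0010000a0000000000000000000000000000000) (nat_lit 0x0) (nat_lit 0x10000000030015000bc00000000000000000000000000) := T_40 (nat_lit 128) (nat_lit 111) (nat_lit 6) (nat_lit 8) (nat_lit 10) L107641 (by decide +kernel)
theorem L107643 : W_40 (nat_lit 3) (nat_lit 0x20000000148002c0010000a0000000000000000000000000000000) (nat_lit 0x0) (nat_lit 0x20001000000000000600000001000000000000000000000000000) := T_40 (nat_lit 142) (nat_lit 108) (nat_lit 5) (nat_lit 6) (nat_lit 6) L107613 (by decide +kernel)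
theorem L107644 : W_40 (nat_lit 2) (nat_lit 0x20000000148002c0014001e0000000000000000000000000000000) (nat_lit 0x0) (nat_lit 0x20001000100000000000000000000000000000000000000000000) := D_40 (nat_lit 192) (nat_lit 176) (nat_lit 209) (nat_lit 5) (nat_lit 6) (nat_lit 7) (nat_lit 6) (nat_lit 5) (nat_lit 12) (by decide +kernel)
theorem L107645 : W_40 (nat_lit 3) (nat_lit 0x20000000148002c0010001e0000000000000000000000000000000) (nat_lit 0x0) (nat_lit 0x20001000100000000600000000000000000000000000000000000) := T_40 (nat_lit 142) (nat_lit 141) (nat_lit 1) (nat_lit 9) (nat_lit 7) L107644 (by decide +kernel)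
theorem L107646 : W_40 (nat_lit 4) (nat_lit 0x20000000148002c0010001a0000000000000000000000000000000) (nat_lit 0x0) (nat_lit 0x20001000100000000600040002000000000000000000000000000) := T_40 (nat_lit 126) (nat_lit 109) (nat_lit 4) (nat_lit 8) (nat_lit 10) L107645 (by decide +kernel)
theorem L107647 : W_40 (nat_lit 5) (nat_lit 0x20000000148002c0010000a0000000000000000000000000000000) (nat_lit 0x0) (nat_lit 0x2000100010000000060014000a000000000000000000000000000) := T_40 (nat_lit 128) (nat_lit 111) (nat_lit 6) (nat_lit 8) (nat_lit 10) L107646 (by decide +kernel)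
theorem L107648 : W_40 (nat_lit 7) (nat_lit 0x20000000148002c001000080000000000000000000000000000000) (nat_lit 0x0) (nat_lit 0x2000100010000000070017000bc00000000000000000000000000) := Q_40 (nat_lit 125) (C_40 L107642 (C_40 L107630 (C_40 L107643 (C_40 L107647 N_40)))) (by decide +kernel)
theorem L107649 : W_40 (nat_lit 10) (nat_lit 0x20000000140002c001000080000000000000000000000000000000) (nat_lit 0x0) (nat_lit 0x200058003c004200070017800bc00000000000000000000000000) := Q_40 (nat_lit 175) (C_40 L107612 (C_40 L107637 (C_40 L107648 N_40))) (by decide +kernel)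
theorem L107650 : W_40 (nat_lit 6) (nat_lit 0x20000000160003c0010000c0000000000000000000000000000000) (nat_lit 0x0) (nat_lit 0xc0000000700130009800000000000000000000000000) := T_40 (nat_lit 128) (nat_lit 111) (nat_lit 6) (nat_lit 8) (nat_lit 10) L107583 (by decide +kernel)
theorem L107651 : W_40 (nat_lit 7) (nat_lit 0x20000000160002c0010000c0000000000000000000000000000000) (nat_lit 0x0) (nat_lit 0xc0012000700130009800000000000000000000000000) := T_40 (nat_lit 160) (nat_lit 157) (nat_lit 3) (nat_lit 4) (nat_lit 9) L107650 (by decide +kernel)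
theorem L107652 : W_40 (nat_lit 8) (nat_lit 0x20000000140002c0010000c0000000000000000000000000000000) (nat_lit 0x0) (nat_lit 0x40002c0012000700130009800000000000000000000000000) := T_40 (nat_lit 177) (nat_lit 194) (nat_lit 5) (nat_lit 8) (nat_lit 7) L107651 (by decide +kernel)
theorem L107653 : W_40 (nat_lit 9) (nat_lit 0x20000000140002c001000080000000000000000000000000000000) (nat_lit 0x0) (nat_lit 0x40002c001200070017000b800000000000000000000000000) := T_40 (nat_lit 126) (nat_lit 109) (nat_lit 4) (nat_lit 8) (nat_lit 10) L107652 (by decide +kernel)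
theorem L107654 : W_40 (nat_lit 2) (nat_lit 0x20000000161002f8013801d0000000000000000000000000000000) (nat_lit 0x0) (nat_lit 0x800040000000000000000800000000000000000000000000) := D_40 (nat_lit 174) (nat_lit 191) (nat_lit 107) (nat_lit 6) (nat_lit 4) (nat_lit 11) (nat_lit 5) (nat_lit 5) (nat_lit 6) (by decide +kernel)
theorem L107655 : W_40 (nat_lit 3) (nat_lit 0x20000000161002f8013801c0000000000000000000000000000000) (nat_lit 0x0) (nat_lit 0x800040000000000030000800000000000000000000000000) := T_40 (nat_lit 124) (nat_lit 125) (nat_lit 1) (nat_lit 8) (nat_lit 7) L107654 (by decide +kernel)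
theorem L107656 : W_40 (nat_lit 4) (nat_lit 0x20000000161002f8012801c0000000000000000000000000000000) (nat_lit 0x0) (nat_lit 0x800040000400100030000800000000000000000000000000) := T_40 (nat_lit 140) (nat_lit 154) (nat_lit 2) (nat_lit 1) (nat_lit 9) L107655 (by decide +kernel)
theorem L107657 : W_40 (nat_lit 5) (nat_lit 0x20000000161002f8010801c0000000000000000000000000000000) (nat_lit 0x0) (nat_lit 0x800040000400700030000800000000000000000000000000) := T_40 (nat_lit 141) (nat_lit 142) (nat_lit 2) (nat_lit 2) (nat_lit 9) L107656 (by decide +kernel)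
theorem L107658 : W_40 (nat_lit 6) (nat_lit 0x20000000161002f0010801c0000000000000000000000000000000) (nat_lit 0x0) (nat_lit 0x800048000c00700030000800000000000000000000000000) := T_40 (nat_lit 155) (nat_lit 171) (nat_lit 1) (nat_lit 5) (nat_lit 9) L107657 (by decide +kernel)
theorem L107659 : W_40 (nat_lit 7) (nat_lit 0x20000000160002f0010801c0000000000000000000000000000000) (nat_lit 0x0) (nat_lit 0x800078000c00700030000800000000000000000000000000) := T_40 (nat_lit 172) (nat_lit 173) (nat_lit 1) (nat_lit 6) (nat_lit 9) L107658 (by decide +kernel)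
theorem L107660 : W_40 (nat_lit 8) (nat_lit 0x20000000160002f0010001c0000000000000000000000000000000) (nat_lit 0x0) (nat_lit 0x800078000c007c0030000800000000000000000000000000) := T_40 (nat_lit 139) (nat_lit 138) (nat_lit 0) (nat_lit 6) (nat_lit 9) L107659 (by decide +kernel)
theorem L107661 : W_40 (nat_lit 9) (nat_lit 0x20000000160002e0010001c0000000000000000000000000000000) (nat_lit 0x0) (nat_lit 0x800178001c007c0030000800000000000000000000000000) := T_40 (nat_lit 156) (nat_lit 176) (nat_lit 3) (nat_lit 3) (nat_lit 9) L107660 (by decide +kernel)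
theorem L107662 : W_40 (nat_lit 10) (nat_lit 0x20000000160002c0010001c0000000000000000000000000000000) (nat_lit 0x0) (nat_lit 0x800178013c007c0030000800000000000000000000000000) := T_40 (nat_lit 157) (nat_lit 160) (nat_lit 3) (nat_lit 4) (nat_lit 9) L107661 (by decide +kernel)
theorem L107663 : W_40 (nat_lit 11) (nat_lit 0x20000000140002c0010001c0000000000000000000000000000000) (nat_lit 0x0) (nat_lit 0x4800378013c007c0030000800000000000000000000000000) := T_40 (nat_lit 177) (nat_lit 194) (nat_lit 5) (nat_lit 8) (nat_lit 7) L107662 (by decide +kernel)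
theorem L107664 : W_40 (nat_lit 12) (nat_lit 0x20000000140002c001000180000000000000000000000000000000) (nat_lit 0x0) (nat_lit 0x4800378013c007c0070002800000000000000000000000000) := T_40 (nat_lit 126) (nat_lit 109) (nat_lit 4) (nat_lit 8) (nat_lit 10) L107663 (by decide +kernel)
theorem L107665 : W_40 (nat_lit 13) (nat_lit 0x20000000140002c001000080000000000000000000000000000000) (nat_lit 0x0) (nat_lit 0x4800378013c007c017000a800000000000000000000000000) := T_40 (nat_lit 128) (nat_lit 111) (nat_lit 6) (nat_lit 8) (nat_lit 10) L107664 (by decide +kernel)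
theorem L107666 : W_40 (nat_lit 5) (nat_lit 0x20000000148002c001000080000000000000000000000000000000) (nat_lit 0x0) (nat_lit 0x140050000700100008000000000000000000000000000) := T_40 (nat_lit 160) (nat_lit 174) (nat_lit 1) (nat_lit 8) (nat_lit 9) L106757 (by decide +kernel)
theorem L107667 : W_40 (nat_lit 2) (nat_lit 0x20000000178003c0012000c0000000000000000000000000000000) (nat_lit 0x0) (nat_lit 0x40002000000000000000010000000000000000000000000000000) := D_40 (nat_lit 193) (nat_lit 210) (nat_lit 124) (nat_lit 4) (nat_lit 6) (nat_lit 12) (nat_lit 7) (nat_lit 5) (nat_lit 7) (by decide +kernel)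
theorem L107668 : W_40 (nat_lit 3) (nat_lit 0x20000000178003c0010000c0000000000000000000000000000000) (nat_lit 0x0) (nat_lit 0x40002000000000000300010000000000000000000000000000000) := T_40 (nat_lit 141) (nat_lit 140) (nat_lit 0) (nat_lit 8) (nat_lit 9) L107667 (by decide +kernel)
theorem L107669 : W_40 (nat_lit 4) (nat_lit 0x20000000168003c0010000c0000000000000000000000000000000) (nat_lit 0x0) (nat_lit 0x40002000100040000300010000000000000000000000000000000) := T_40 (nat_lit 176) (nat_lit 162) (nat_lit 2) (nat_lit 5) (nat_lit 10) L107668 (by decide +kernel)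
theorem L107670 : W_40 (nat_lit 5) (nat_lit 0x20000000148003c0010000c0000000000000000000000000000000) (nat_lit 0x0) (nat_lit 0x40006000300040000300010000000000000000000000000000000) := T_40 (nat_lit 177) (nat_lit 194) (nat_lit 5) (nat_lit 8) (nat_lit 7) L107669 (by decide +kernel)
theorem L107671 : W_40 (nat_lit 6) (nat_lit 0x20000000148002c0010000c0000000000000000000000000000000) (nat_lit 0x0) (nat_lit 0x40006000340050000300010000000000000000000000000000000) := T_40 (nat_lit 160) (nat_lit 174) (nat_lit 1) (nat_lit 8) (nat_lit 9) L107670 (by decide +kernel)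
theorem L107672 : W_40 (nat_lit 7) (nat_lit 0x20000000148002c001000080000000000000000000000000000000) (nat_lit 0x0) (nat_lit 0x40006000340050000300050002000000000000000000000000000) := T_40 (nat_lit 126) (nat_lit 109) (nat_lit 4) (nat_lit 8) (nat_lit 10) L107671 (by decide +kernel)
theorem L107673 : W_40 (nat_lit 5) (nat_lit 0x20000000148003c001000180000000000000000000000000000000) (nat_lit 0x0) (nat_lit 0x700070003800000000000000000000000000) := T_40 (nat_lit 141) (nat_lit 140) (nat_lit 0) (nat_lit 8) (nat_lit 9) L107222 (by decide +kernel)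
theorem L107674 : W_40 (nat_lit 6) (nat_lit 0x20000000148003c001000080000000000000000000000000000000) (nat_lit 0x0) (nat_lit 0x70017000b800000000000000000000000000) := T_40 (nat_lit 128) (nat_lit 111) (nat_lit 6) (nat_lit 8) (nat_lit 10) L107673 (by decide +kernel)
theorem L107675 : W_40 (nat_lit 7) (nat_lit 0x20000000148002c001000080000000000000000000000000000000) (nat_lit 0x0) (nat_lit 0x4001000070017000b800000000000000000000000000) := T_40 (nat_lit 160) (nat_lit 174) (nat_lit 1) (nat_lit 8) (nat_lit 9) L107674 (by decide +kernel)
theorem L107676 : W_40 (nat_lit 2) (nat_lit 0x20000100178003c0010001c0000000000000000000000000000000) (nat_lit 0x0) (nat_lit 0x20000000000000000400020000000000000000000000000000000) := D_40 (nat_lit 142) (nat_lit 125) (nat_lit 209) (nat_lit 5) (nat_lit 6) (nat_lit 7) (nat_lit 6) (nat_lit 5) (nat_lit 12) (by decide +kernel)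
theorem L107677 : W_40 (nat_lit 3) (nat_lit 0x20000000178003c0010001c0000000000000000000000000000000) (nat_lit 0x0) (nat_lit 0x20001800000000000400020000000000000000000000000000000) := T_40 (nat_lit 192) (nat_lit 191) (nat_lit 1) (nat_lit 8) (nat_lit 10) L107676 (by decide +kernel)
theorem L107678 : W_40 (nat_lit 4) (nat_lit 0x20000000168003c0010001c0000000000000000000000000000000) (nat_lit 0x0) (nat_lit 0x20001800100040000400020000000000000000000000000000000) := T_40 (nat_lit 176) (nat_lit 162) (nat_lit 2) (nat_lit 5) (nat_lit 10) L107677 (by decide +kernel)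
theorem L107679 : W_40 (nat_lit 5) (nat_lit 0x20000000148003c0010001c0000000000000000000000000000000) (nat_lit 0x0) (nat_lit 0x20005800300040000400020000000000000000000000000000000) := T_40 (nat_lit 177) (nat_lit 194) (nat_lit 5) (nat_lit 8) (nat_lit 7) L107678 (by decide +kernel)
theorem L107680 : W_40 (nat_lit 6) (nat_lit 0x20000000148002c0010001c0000000000000000000000000000000) (nat_lit 0x0) (nat_lit 0x20005800340050000400020000000000000000000000000000000) := T_40 (nat_lit 160) (nat_lit 174) (nat_lit 1) (nat_lit 8) (nat_lit 9) L107679 (by decide +kernel)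
theorem L107681 : W_40 (nat_lit 7) (nat_lit 0x20000000148002c0010000c0000000000000000000000000000000) (nat_lit 0x0) (nat_lit 0x20005800340050000400120008000000000000000000000000000) := T_40 (nat_lit 128) (nat_lit 111) (nat_lit 6) (nat_lit 8) (nat_lit 10) L107680 (by decide +kernel)
theorem L107682 : W_40 (nat_lit 8) (nat_lit 0x20000000148002c001000080000000000000000000000000000000) (nat_lit 0x0) (nat_lit 0x2000580034005000040016000a000000000000000000000000000) := T_40 (nat_lit 126) (nat_lit 109) (nat_lit 4) (nat_lit 8) (nat_lit 10) L107681 (by decide +kernel)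
theorem L107683 : W_40 (nat_lit 9) (nat_lit 0x20000000140002c001000080000000000000000000000000000000) (nat_lit 0x0) (nat_lit 0x600078003c005000070017000bc00000000000000000000000000) := Q_40 (nat_lit 175) (C_40 L107648 (C_40 L107666 (C_40 L107672 (C_40 L107675 (C_40 L107682 N_40))))) (by decide +kernel)
theorem L107684 : W_40 (nat_lit 14) (nat_lit 0x200000001400028001000080000000000000000000000000000000) (nat_lit 0x0) (nat_lit 0x700078003f8057c007c017800bc00020000000000000000000000) := Q_40 (nat_lit 158) (C_40 L107603 (C_40 L107607 (C_40 L107610 (C_40 L107649 (C_40 L107653 (C_40 L107665 (C_40 L107683 N_40))))))) (by decide +kernel)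
theorem L107685 : W_40 (nat_lit 15) (nat_lit 0x200000001400020001000080000000000000000000000000000000) (nat_lit 0x0) (nat_lit 0x1e000f0007f03ffc0fd70fef800bf81dfc0c7c077800bc00020000000000000000000000) := Q_40 (nat_lit 159) (C_40 L107359 (C_40 L107363 (C_40 L107570 (C_40 L107579 (C_40 L107588 (C_40 L107684 N_40)))))) (by decide +kernel)
theorem L107686 : W_40 (nat_lit 16) (nat_lit 0x200000000400020001000080000000000000000000000000000000) (nat_lit 0x0) (nat_lit 0x1e000f0007f03ffc0fd70fef80fbf8fdfc3c7c0f7807bc00020000000000000000000000) := Q_40 (nat_lit 180) (C_40 L106886 (C_40 L106887 (C_40 L106888 (C_40 L106912 (C_40 L106945 (C_40 L106953 (C_40 L106982 (C_40 L107000 (C_40 L107181 (C_40 L107187 (C_40 L107685 N_40))))))))))) (by decide +kernel)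
theorem L107687 : W_40 (nat_lit 17) (nat_lit 0x400020001000080000000000000000000000000000000) (nat_lit 0x0) (nat_lit 0x3ff07ff03ffc3ffc0ff70fff83fbf8fdfc3c7c0f7807bc00020000000000000000000000) := Q_40 (nat_lit 213) (C_40 L103980 (C_40 L104142 (C_40 L106628 (C_40 L107686 N_40)))) (by decide +kernel)
theorem L107688 : W_40 (nat_lit 2) (nat_lit 0x4000600090007c0000000000000000000000000000000) (nat_lit 0x0) (nat_lit 0x70000000000000000000000000000) := D_40 (nat_lit 113) (nat_lit 112) (nat_lit 114) (nat_lit 2) (nat_lit 7) (nat_lit 7) (nat_lit 2) (nat_lit 8) (nat_lit 7) (by decide +kernel)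
theorem L107689 : W_40 (nat_lit 3) (nat_lit 0x4000600090003c0000000000000000000000000000000) (nat_lit 0x0) (nat_lit 0x10000400070000000000000000000000000000) := T_40 (nat_lit 130) (nat_lit 148) (nat_lit 3) (nat_lit 8) (nat_lit 7) L107688 (by decide +kernel)
theorem L107690 : W_40 (nat_lit 4) (nat_lit 0x4000600090001c0000000000000000000000000000000) (nat_lit 0x0) (nat_lit 0x14000600070000000000000000000000000000) := T_40 (nat_lit 129) (nat_lit 146) (nat_lit 3) (nat_lit 7) (nat_lit 7) L107689 (by decide +kernel)
theorem L107691 : W_40 (nat_lit 5) (nat_lit 0x4000600090000c0000000000000000000000000000000) (nat_lit 0x0) (nat_lit 0x14000700078000000000000000000000000000) := T_40 (nat_lit 128) (nat_lit 111) (nat_lit 6) (nat_lit 8) (nat_lit 10) L107690 (by decide +kernel)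
theorem L107692 : W_40 (nat_lit 6) (nat_lit 0x400060009000080000000000000000000000000000000) (nat_lit 0x0) (nat_lit 0x1400074007a000000000000000000000000000) := T_40 (nat_lit 126) (nat_lit 109) (nat_lit 4) (nat_lit 8) (nat_lit 10) L107691 (by decide +kernel)
theorem L107693 : W_40 (nat_lit 2) (nat_lit 0x14800f8009200180000000000000000000000000000000) (nat_lit 0x0) (nat_lit 0x40004000100000000000000000000000000000000000) := D_40 (nat_lit 158) (nat_lit 140) (nat_lit 174) (nat_lit 0) (nat_lit 8) (nat_lit 9) (nat_lit 1) (nat_lit 8) (nat_lit 9) (by decide +kernel)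
theorem L107694 : W_40 (nat_lit 3) (nat_lit 0x14000f8009200180000000000000000000000000000000) (nat_lit 0x0) (nat_lit 0x1c0004000100000000000000000000000000000000000) := T_40 (nat_lit 175) (nat_lit 176) (nat_lit 1) (nat_lit 9) (nat_lit 9) L107693 (by decide +kernel)
theorem L107695 : W_40 (nat_lit 4) (nat_lit 0x14000f8009000180000000000000000000000000000000) (nat_lit 0x0) (nat_lit 0x1c0004000700000000000000000000000000000000000) := T_40 (nat_lit 141) (nat_lit 142) (nat_lit 0) (nat_lit 9) (nat_lit 9) L107694 (by decide +kernel)
theorem L107696 : W_40 (nat_lit 5) (nat_lit 0x14000f0009000180000000000000000000000000000000) (nat_lit 0x0) (nat_lit 0x9c000c000700000000000000000000000000000000000) := T_40 (nat_lit 159) (nat_lit 179) (nat_lit 3) (nat_lit 6) (nat_lit 9) L107695 (by decide +kernel)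
theorem L107697 : W_40 (nat_lit 6) (nat_lit 0x4000f0009000180000000000000000000000000000000) (nat_lit 0x0) (nat_lit 0x39c000c000700000000000000000000000000000000000) := T_40 (nat_lit 180) (nat_lit 181) (nat_lit 3) (nat_lit 7) (nat_lit 9) L107696 (by decide +kernel)
theorem L107698 : W_40 (nat_lit 7) (nat_lit 0x4000e0009000180000000000000000000000000000000) (nat_lit 0x0) (nat_lit 0x39c001c004700000000000000000000000000000000000) := T_40 (nat_lit 160) (nat_lit 146) (nat_lit 2) (nat_lit 7) (nat_lit 9) L107697 (by decide +kernel)
theorem L107699 : W_40 (nat_lit 8) (nat_lit 0x4000e0009000080000000000000000000000000000000) (nat_lit 0x0) (nat_lit 0x39c001c004700100008000000000000000000000000000) := T_40 (nat_lit 128) (nat_lit 111) (nat_lit 6) (nat_lit 8) (nat_lit 10) L107698 (by decide +kernel)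
theorem L107700 : W_40 (nat_lit 2) (nat_lit 0x4000e0009000080000000000000000000000000000000) (nat_lit 0x0) (nat_lit 0x200100010000000000000000000000000000000000000) := D_40 (nat_lit 164) (nat_lit 148) (nat_lit 177) (nat_lit 2) (nat_lit 8) (nat_lit 9) (nat_lit 1) (nat_lit 11) (nat_lit 9) (by decide +kernel)
theorem L107701 : W_40 (nat_lit 9) (nat_lit 0x400060009000080000000000000000000000000000000) (nat_lit 0x0) (nat_lit 0x3bc019c014700100008000000000000000000000000000) := Q_40 (nat_lit 163) (C_40 L107699 (C_40 L107700 N_40)) (by decide +kernel)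
theorem L107702 : W_40 (nat_lit 2) (nat_lit 0x14800f80092000c0000000000000000000000000000000) (nat_lit 0x0) (nat_lit 0x40004000100000000000000000000000000000000000) := D_40 (nat_lit 158) (nat_lit 140) (nat_lit 174) (nat_lit 0) (nat_lit 8) (nat_lit 9) (nat_lit 1) (nat_lit 8) (nat_lit 9) (by decide +kernel)
theorem L107703 : W_40 (nat_lit 3) (nat_lit 0x14000f80092000c0000000000000000000000000000000) (nat_lit 0x0) (nat_lit 0x1c0004000100000000000000000000000000000000000) := T_40 (nat_lit 175) (nat_lit 176) (nat_lit 1) (nat_lit 9) (nat_lit 9) L107702 (by decide +kernel)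
theorem L107704 : W_40 (nat_lit 4) (nat_lit 0x14000f80090000c0000000000000000000000000000000) (nat_lit 0x0) (nat_lit 0x1c0004000700000000000000000000000000000000000) := T_40 (nat_lit 141) (nat_lit 142) (nat_lit 0) (nat_lit 9) (nat_lit 9) L107703 (by decide +kernel)
theorem L107705 : W_40 (nat_lit 5) (nat_lit 0x14000f00090000c0000000000000000000000000000000) (nat_lit 0x0) (nat_lit 0x9c000c000700000000000000000000000000000000000) := T_40 (nat_lit 159) (nat_lit 179) (nat_lit 3) (nat_lit 6) (nat_lit 9) L107704 (by decide +kernel)
theorem L107706 : W_40 (nat_lit 6) (nat_lit 0x4000f00090000c0000000000000000000000000000000) (nat_lit 0x0) (nat_lit 0x39c000c000700000000000000000000000000000000000) := T_40 (nat_lit 180) (nat_lit 181) (nat_lit 3) (nat_lit 7) (nat_lit 9) L107705 (by decide +kernel)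
theorem L107707 : W_40 (nat_lit 7) (nat_lit 0x4000e00090000c0000000000000000000000000000000) (nat_lit 0x0) (nat_lit 0x39c001c004700000000000000000000000000000000000) := T_40 (nat_lit 160) (nat_lit 146) (nat_lit 2) (nat_lit 7) (nat_lit 9) L107706 (by decide +kernel)
theorem L107708 : W_40 (nat_lit 8) (nat_lit 0x4000e0009000080000000000000000000000000000000) (nat_lit 0x0) (nat_lit 0x39c001c004700040002000000000000000000000000000) := T_40 (nat_lit 126) (nat_lit 109) (nat_lit 4) (nat_lit 8) (nat_lit 10) L107707 (by decide +kernel)
theorem L107709 : W_40 (nat_lit 9) (nat_lit 0x400060009000080000000000000000000000000000000) (nat_lit 0x0) (nat_lit 0x3bc019c014700040002000000000000000000000000000) := Q_40 (nat_lit 163) (C_40 L107708 (C_40 L107700 N_40)) (by decide +kernel)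
theorem L107710 : W_40 (nat_lit 2) (nat_lit 0x34001e00090000c0000000000000000000000000000000) (nat_lit 0x0) (nat_lit 0x400020000000000000000400000000000000000000000000000000) := D_40 (nat_lit 197) (nat_lit 214) (nat_lit 130) (nat_lit 6) (nat_lit 10) (nat_lit 12) (nat_lit 5) (nat_lit 11) (nat_lit 7) (by decide +kernel)
theorem L107711 : W_40 (nat_lit 3) (nat_lit 0x24001e00090000c0000000000000000000000000000000) (nat_lit 0x0) (nat_lit 0x400020001000010000000400000000000000000000000000000000) := T_40 (nat_lit 180) (nat_lit 160) (nat_lit 3) (nat_lit 7) (nat_lit 9) L107710 (by decide +kernel)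
theorem L107712 : W_40 (nat_lit 4) (nat_lit 0x4001e00090000c0000000000000000000000000000000) (nat_lit 0x0) (nat_lit 0x400020007000010000000400000000000000000000000000000000) := T_40 (nat_lit 181) (nat_lit 182) (nat_lit 3) (nat_lit 8) (nat_lit 9) L107711 (by decide +kernel)
theorem L107713 : W_40 (nat_lit 5) (nat_lit 0x4001600090000c0000000000000000000000000000000) (nat_lit 0x0) (nat_lit 0x400020007000090010000400000000000000000000000000000000) := T_40 (nat_lit 163) (nat_lit 148) (nat_lit 2) (nat_lit 8) (nat_lit 9) L107712 (by decide +kernel)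
theorem L107714 : W_40 (nat_lit 6) (nat_lit 0x400160009000080000000000000000000000000000000) (nat_lit 0x0) (nat_lit 0x400020007000090010000440002000000000000000000000000000) := T_40 (nat_lit 126) (nat_lit 109) (nat_lit 4) (nat_lit 8) (nat_lit 10) L107713 (by decide +kernel)
theorem L107715 : W_40 (nat_lit 2) (nat_lit 0xc0002c00160009000580000000000000000000000000000000) (nat_lit 0x0) (nat_lit 0x10000200010000000000000000000000000000) := D_40 (nat_lit 129) (nat_lit 112) (nat_lit 148) (nat_lit 4) (nat_lit 11) (nat_lit 10) (nat_lit 3) (nat_lit 8) (nat_lit 7) (by decide +kernel)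
theorem L107716 : W_40 (nat_lit 3) (nat_lit 0xc0002c00160009000180000000000000000000000000000000) (nat_lit 0x0) (nat_lit 0x4000000010000600010000000000000000000000000000) := T_40 (nat_lit 130) (nat_lit 182) (nat_lit 7) (nat_lit 11) (nat_lit 7) L107715 (by decide +kernel)
theorem L107717 : W_40 (nat_lit 4) (nat_lit 0xc0002400160009000180000000000000000000000000000000) (nat_lit 0x0) (nat_lit 0x5800000010000600010000000000000000000000000000) := T_40 (nat_lit 179) (nat_lit 180) (nat_lit 3) (nat_lit 8) (nat_lit 10) L107716 (by decide +kernel)
theorem L107718 : W_40 (nat_lit 5) (nat_lit 0x40002400160009000180000000000000000000000000000000) (nat_lit 0x0) (nat_lit 0x1000080005800000010000600010000000000000000000000000000) := T_40 (nat_lit 199) (nat_lit 216) (nat_lit 7) (nat_lit 11) (nat_lit 8) L107717 (by decide +kernel)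
theorem L107719 : W_40 (nat_lit 6) (nat_lit 0x40002400160009000080000000000000000000000000000000) (nat_lit 0x0) (nat_lit 0x1000080005800000010000700018000000000000000000000000000) := T_40 (nat_lit 128) (nat_lit 111) (nat_lit 6) (nat_lit 8) (nat_lit 10) L107718 (by decide +kernel)
theorem L107720 : W_40 (nat_lit 2) (nat_lit 0xc0002c00160009000480000000000000000000000000000000) (nat_lit 0x0) (nat_lit 0x10000800040000000000000000000000000000) := D_40 (nat_lit 131) (nat_lit 148) (nat_lit 114) (nat_lit 6) (nat_lit 11) (nat_lit 11) (nat_lit 6) (nat_lit 11) (nat_lit 10) (by decide +kernel)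
theorem L107721 : W_40 (nat_lit 3) (nat_lit 0xc0002c00160009000080000000000000000000000000000000) (nat_lit 0x0) (nat_lit 0x4000000010000c00040000000000000000000000000000) := T_40 (nat_lit 130) (nat_lit 182) (nat_lit 7) (nat_lit 11) (nat_lit 7) L107720 (by decide +kernel)
theorem L107722 : W_40 (nat_lit 4) (nat_lit 0xc0002400160009000080000000000000000000000000000000) (nat_lit 0x0) (nat_lit 0x5800000010000c00040000000000000000000000000000) := T_40 (nat_lit 179) (nat_lit 180) (nat_lit 3) (nat_lit 8) (nat_lit 10) L107721 (by decide +kernel)
theorem L107723 : W_40 (nat_lit 5) (nat_lit 0x40002400160009000080000000000000000000000000000000) (nat_lit 0x0) (nat_lit 0x1000080005800000010000c00040000000000000000000000000000) := T_40 (nat_lit 199) (nat_lit 216) (nat_lit 7) (nat_lit 11) (nat_lit 8) L107722 (by decide +kernel)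
theorem L107724 : W_40 (nat_lit 2) (nat_lit 0xc0002400160009000580000000000000000000000000000000) (nat_lit 0x0) (nat_lit 0x10000200010000000000000000000000000000) := D_40 (nat_lit 129) (nat_lit 112) (nat_lit 148) (nat_lit 4) (nat_lit 11) (nat_lit 10) (nat_lit 3) (nat_lit 8) (nat_lit 7) (by decide +kernel)
theorem L107725 : W_40 (nat_lit 3) (nat_lit 0xc0002400160009000180000000000000000000000000000000) (nat_lit 0x0) (nat_lit 0x4000000010000600010000000000000000000000000000) := T_40 (nat_lit 130) (nat_lit 182) (nat_lit 7) (nat_lit 11) (nat_lit 7) L107724 (by decide +kernel)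
theorem L107726 : W_40 (nat_lit 4) (nat_lit 0xc0002400160009000080000000000000000000000000000000) (nat_lit 0x0) (nat_lit 0x4000000010000700018000000000000000000000000000) := T_40 (nat_lit 128) (nat_lit 111) (nat_lit 6) (nat_lit 8) (nat_lit 10) L107725 (by decide +kernel)
theorem L107727 : W_40 (nat_lit 5) (nat_lit 0x40002400160009000080000000000000000000000000000000) (nat_lit 0x0) (nat_lit 0x1000080004000000010000700018000000000000000000000000000) := T_40 (nat_lit 199) (nat_lit 216) (nat_lit 7) (nat_lit 11) (nat_lit 8) L107726 (by decide +kernel)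
theorem L107728 : W_40 (nat_lit 2) (nat_lit 0x4000c0002c00160019000180000000000000000000000000000000) (nat_lit 0x0) (nat_lit 0x8000800000000000200000000000000000000000000000000000000000) := D_40 (nat_lit 215) (nat_lit 165) (nat_lit 231) (nat_lit 6) (nat_lit 11) (nat_lit 12) (nat_lit 5) (nat_lit 11) (nat_lit 9) (by decide +kernel)
theorem L107729 : W_40 (nat_lit 3) (nat_lit 0x4000c0002c00160009000180000000000000000000000000000000) (nat_lit 0x0) (nat_lit 0x8000800000000000200010000800000000000000000000000000000000) := T_40 (nat_lit 148) (nat_lit 131) (nat_lit 6) (nat_lit 11) (nat_lit 11) L107728 (by decide +kernel)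
theorem L107730 : W_40 (nat_lit 4) (nat_lit 0xc0002c00160009000180000000000000000000000000000000) (nat_lit 0x0) (nat_lit 0x8000c00020000000200010000800000000000000000000000000000000) := T_40 (nat_lit 214) (nat_lit 197) (nat_lit 5) (nat_lit 11) (nat_lit 8) L107729 (by decide +kernel)
theorem L107731 : W_40 (nat_lit 5) (nat_lit 0xc0002c00160009000080000000000000000000000000000000) (nat_lit 0x0) (nat_lit 0x8000c00020000000200010000900008000000000000000000000000000) := T_40 (nat_lit 128) (nat_lit 111) (nat_lit 6) (nat_lit 8) (nat_lit 10) L107730 (by decide +kernel)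
theorem L107732 : W_40 (nat_lit 6) (nat_lit 0xc0002400160009000080000000000000000000000000000000) (nat_lit 0x0) (nat_lit 0x8000c00020001800200010000900008000000000000000000000000000) := T_40 (nat_lit 179) (nat_lit 180) (nat_lit 3) (nat_lit 8) (nat_lit 10) L107731 (by decide +kernel)
theorem L107733 : W_40 (nat_lit 7) (nat_lit 0x40002400160009000080000000000000000000000000000000) (nat_lit 0x0) (nat_lit 0x8001c000a0001800200010000900008000000000000000000000000000) := T_40 (nat_lit 199) (nat_lit 216) (nat_lit 7) (nat_lit 11) (nat_lit 8) L107732 (by decide +kernel)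
theorem L107734 : W_40 (nat_lit 2) (nat_lit 0x800040002400160019000080000000000000000000000000000000) (nat_lit 0x0) (nat_lit 0x8000400020000000000000000000000000000000000000000000000000) := D_40 (nat_lit 214) (nat_lit 231) (nat_lit 197) (nat_lit 5) (nat_lit 11) (nat_lit 9) (nat_lit 5) (nat_lit 11) (nat_lit 8) (by decide +kernel)
theorem L107735 : W_40 (nat_lit 3) (nat_lit 0x40002400160019000080000000000000000000000000000000) (nat_lit 0x0) (nat_lit 0x8000c00020000000200000000000000000000000000000000000000000) := T_40 (nat_lit 215) (nat_lit 165) (nat_lit 6) (nat_lit 11) (nat_lit 12) L107734 (by decide +kernel)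
theorem L107736 : W_40 (nat_lit 4) (nat_lit 0x40002400160009000080000000000000000000000000000000) (nat_lit 0x0) (nat_lit 0x8000c00020000000200010000800000000000000000000000000000000) := T_40 (nat_lit 148) (nat_lit 131) (nat_lit 6) (nat_lit 11) (nat_lit 11) L107735 (by decide +kernel)
theorem L107737 : W_40 (nat_lit 2) (nat_lit 0xc0002c00160009000780000000000000000000000000000000) (nat_lit 0x0) (nat_lit 0x800060000000000000000000000000000) := D_40 (nat_lit 114) (nat_lit 113) (nat_lit 131) (nat_lit 2) (nat_lit 8) (nat_lit 7) (nat_lit 6) (nat_lit 11) (nat_lit 10) (by decide +kernel)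
theorem L107738 : W_40 (nat_lit 3) (nat_lit 0xc0002c00160009000580000000000000000000000000000000) (nat_lit 0x0) (nat_lit 0xa00070000000000000000000000000000) := T_40 (nat_lit 129) (nat_lit 112) (nat_lit 4) (nat_lit 11) (nat_lit 10) L107737 (by decide +kernel)
theorem L107739 : W_40 (nat_lit 4) (nat_lit 0xc0002c00160009000180000000000000000000000000000000) (nat_lit 0x0) (nat_lit 0x4000000000000e00070000000000000000000000000000) := T_40 (nat_lit 130) (nat_lit 182) (nat_lit 7) (nat_lit 11) (nat_lit 7) L107738 (by decide +kernel)
theorem L107740 : W_40 (nat_lit 5) (nat_lit 0xc0002400160009000180000000000000000000000000000000) (nat_lit 0x0) (nat_lit 0x5800000000000e00070000000000000000000000000000) := T_40 (nat_lit 179) (nat_lit 180) (nat_lit 3) (nat_lit 8) (nat_lit 10) L107739 (by decide +kernel)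
theorem L107741 : W_40 (nat_lit 6) (nat_lit 0x40002400160009000180000000000000000000000000000000) (nat_lit 0x0) (nat_lit 0x1000080005800000000000e00070000000000000000000000000000) := T_40 (nat_lit 199) (nat_lit 216) (nat_lit 7) (nat_lit 11) (nat_lit 8) L107740 (by decide +kernel)
theorem L107742 : W_40 (nat_lit 7) (nat_lit 0x40002400160009000080000000000000000000000000000000) (nat_lit 0x0) (nat_lit 0x1000080005800000000000f00078000000000000000000000000000) := T_40 (nat_lit 128) (nat_lit 111) (nat_lit 6) (nat_lit 8) (nat_lit 10) L107741 (by decide +kernel)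
theorem L107743 : W_40 (nat_lit 8) (nat_lit 0x2400160009000080000000000000000000000000000000) (nat_lit 0x0) (nat_lit 0x8001c000e0005800200010000f00078000000000000000000000000000) := Q_40 (nat_lit 198) (C_40 L107719 (C_40 L107723 (C_40 L107727 (C_40 L107733 (C_40 L107736 (C_40 L107742 N_40)))))) (by decide +kernel)
theorem L107744 : W_40 (nat_lit 2) (nat_lit 0xc0002c001600090004c0050000000000000000000000000000) (nat_lit 0x0) (nat_lit 0x20002800000000000000000000000) := D_40 (nat_lit 113) (nat_lit 95) (nat_lit 97) (nat_lit 4) (nat_lit 11) (nat_lit 9) (nat_lit 6) (nat_lit 11) (nat_lit 9) (by decide +kernel)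
theorem L107745 : W_40 (nat_lit 3) (nat_lit 0xc0002c001600090004c0010000000000000000000000000000) (nat_lit 0x0) (nat_lit 0x800060002800000000000000000000000) := T_40 (nat_lit 114) (nat_lit 131) (nat_lit 6) (nat_lit 11) (nat_lit 10) L107744 (by decide +kernel)
theorem L107746 : W_40 (nat_lit 4) (nat_lit 0xc0002c001600090004c0000000000000000000000000000000) (nat_lit 0x0) (nat_lit 0xa00070002800000000000000000000000) := T_40 (nat_lit 112) (nat_lit 129) (nat_lit 4) (nat_lit 11) (nat_lit 10) L107745 (by decide +kernel)
theorem L107747 : W_40 (nat_lit 5) (nat_lit 0xc0002c001600090000c0000000000000000000000000000000) (nat_lit 0x0) (nat_lit 0x4000000000000e00070002800000000000000000000000) := T_40 (nat_lit 130) (nat_lit 182) (nat_lit 7) (nat_lit 11) (nat_lit 7) L107746 (by decide +kernel)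
theorem L107748 : W_40 (nat_lit 6) (nat_lit 0xc00024001600090000c0000000000000000000000000000000) (nat_lit 0x0) (nat_lit 0x5800000000000e00070002800000000000000000000000) := T_40 (nat_lit 179) (nat_lit 180) (nat_lit 3) (nat_lit 8) (nat_lit 10) L107747 (by decide +kernel)
theorem L107749 : W_40 (nat_lit 7) (nat_lit 0x400024001600090000c0000000000000000000000000000000) (nat_lit 0x0) (nat_lit 0x1000080005800000000000e00070002800000000000000000000000) := T_40 (nat_lit 199) (nat_lit 216) (nat_lit 7) (nat_lit 11) (nat_lit 8) L107748 (by decide +kernel)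
theorem L107750 : W_40 (nat_lit 8) (nat_lit 0x40002400160009000080000000000000000000000000000000) (nat_lit 0x0) (nat_lit 0x1000080005800000000000e40072002800000000000000000000000) := T_40 (nat_lit 126) (nat_lit 109) (nat_lit 4) (nat_lit 8) (nat_lit 10) L107749 (by decide +kernel)
theorem L107751 : W_40 (nat_lit 2) (nat_lit 0xc000c0006c001600090000c0000000000000000000000000000000) (nat_lit 0x0) (nat_lit 0x10000000000000000200010000000000000000000000000000000000000) := D_40 (nat_lit 165) (nat_lit 148) (nat_lit 232) (nat_lit 6) (nat_lit 11) (nat_lit 12) (nat_lit 6) (nat_lit 11) (nat_lit 13) (by decide +kernel)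
theorem L107752 : W_40 (nat_lit 3) (nat_lit 0x4000c0006c001600090000c0000000000000000000000000000000) (nat_lit 0x0) (nat_lit 0x18000800000000000200010000000000000000000000000000000000000) := T_40 (nat_lit 215) (nat_lit 231) (nat_lit 5) (nat_lit 11) (nat_lit 9) L107751 (by decide +kernel)
theorem L107753 : W_40 (nat_lit 4) (nat_lit 0xc0006c001600090000c0000000000000000000000000000000) (nat_lit 0x0) (nat_lit 0x18000c00020000000200010000000000000000000000000000000000000) := T_40 (nat_lit 214) (nat_lit 197) (nat_lit 5) (nat_lit 11) (nat_lit 8) L107752 (by decide +kernel)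
theorem L107754 : W_40 (nat_lit 5) (nat_lit 0xc0006c00160009000080000000000000000000000000000000) (nat_lit 0x0) (nat_lit 0x18000c00020000000200010000040002000000000000000000000000000) := T_40 (nat_lit 126) (nat_lit 109) (nat_lit 4) (nat_lit 8) (nat_lit 10) L107753 (by decide +kernel)
theorem L107755 : W_40 (nat_lit 6) (nat_lit 0xc0002c00160009000080000000000000000000000000000000) (nat_lit 0x0) (nat_lit 0x18000c00020004000200010000440002000000000000000000000000000) := T_40 (nat_lit 182) (nat_lit 130) (nat_lit 7) (nat_lit 11) (nat_lit 7) L107754 (by decide +kernel)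
theorem L107756 : W_40 (nat_lit 7) (nat_lit 0xc0002400160009000080000000000000000000000000000000) (nat_lit 0x0) (nat_lit 0x18000c00020005800200010000440002000000000000000000000000000) := T_40 (nat_lit 179) (nat_lit 180) (nat_lit 3) (nat_lit 8) (nat_lit 10) L107755 (by decide +kernel)
theorem L107757 : W_40 (nat_lit 8) (nat_lit 0x40002400160009000080000000000000000000000000000000) (nat_lit 0x0) (nat_lit 0x18001c000a0005800200010000440002000000000000000000000000000) := T_40 (nat_lit 199) (nat_lit 216) (nat_lit 7) (nat_lit 11) (nat_lit 8) L107756 (by decide +kernel)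
theorem L107758 : W_40 (nat_lit 9) (nat_lit 0x2400160009000080000000000000000000000000000000) (nat_lit 0x0) (nat_lit 0x18001c000e0005800200010000e40072002800000000000000000000000) := Q_40 (nat_lit 198) (C_40 L107723 (C_40 L107736 (C_40 L107750 (C_40 L107757 N_40)))) (by decide +kernel)
theorem L107759 : W_40 (nat_lit 2) (nat_lit 0x40002400160009000cc0000000000000000000000000000000) (nat_lit 0x0) (nat_lit 0x1000080004000000000000000000000000000000000000000000000) := D_40 (nat_lit 199) (nat_lit 216) (nat_lit 182) (nat_lit 7) (nat_lit 11) (nat_lit 8) (nat_lit 7) (nat_lit 11) (nat_lit 7) (by decide +kernel)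
theorem L107760 : W_40 (nat_lit 3) (nat_lit 0x2400160009000cc0000000000000000000000000000000) (nat_lit 0x0) (nat_lit 0x10000c0004000000010000000000000000000000000000000000000) := T_40 (nat_lit 198) (nat_lit 148) (nat_lit 6) (nat_lit 11) (nat_lit 11) L107759 (by decide +kernel)
theorem L107761 : W_40 (nat_lit 4) (nat_lit 0x24001600090004c0000000000000000000000000000000) (nat_lit 0x0) (nat_lit 0x10000c0004000000010000800040000000000000000000000000000) := T_40 (nat_lit 131) (nat_lit 114) (nat_lit 6) (nat_lit 11) (nat_lit 10) L107760 (by decide +kernel)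
theorem L107762 : W_40 (nat_lit 5) (nat_lit 0x2400160009000480000000000000000000000000000000) (nat_lit 0x0) (nat_lit 0x10000c0004000000010000840042000000000000000000000000000) := T_40 (nat_lit 126) (nat_lit 109) (nat_lit 4) (nat_lit 8) (nat_lit 10) L107761 (by decide +kernel)
theorem L107763 : W_40 (nat_lit 2) (nat_lit 0x60016400160009000c80020000000000000000000000000000) (nat_lit 0x0) (nat_lit 0x200010000800000000000000000000000) := D_40 (nat_lit 112) (nat_lit 95) (nat_lit 129) (nat_lit 4) (nat_lit 11) (nat_lit 9) (nat_lit 4) (nat_lit 11) (nat_lit 10) (by decide +kernel)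
theorem L107764 : W_40 (nat_lit 3) (nat_lit 0x60016400160009000c80000000000000000000000000000000) (nat_lit 0x0) (nat_lit 0x200000000200030000800000000000000000000000) := T_40 (nat_lit 113) (nat_lit 165) (nat_lit 7) (nat_lit 11) (nat_lit 6) L107763 (by decide +kernel)
theorem L107765 : W_40 (nat_lit 4) (nat_lit 0x60006400160009000c80000000000000000000000000000000) (nat_lit 0x0) (nat_lit 0x18000200000000200030000800000000000000000000000) := T_40 (nat_lit 184) (nat_lit 183) (nat_lit 1) (nat_lit 14) (nat_lit 10) L107764 (by decide +kernel)
theorem L107766 : W_40 (nat_lit 5) (nat_lit 0x40006400160009000c80000000000000000000000000000000) (nat_lit 0x0) (nat_lit 0x400020018000200000000200030000800000000000000000000000) := T_40 (nat_lit 197) (nat_lit 214) (nat_lit 5) (nat_lit 11) (nat_lit 8) L107765 (by decide +kernel)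
theorem L107767 : W_40 (nat_lit 6) (nat_lit 0x6400160009000c80000000000000000000000000000000) (nat_lit 0x0) (nat_lit 0x400060018000200010000200030000800000000000000000000000) := T_40 (nat_lit 198) (nat_lit 148) (nat_lit 6) (nat_lit 11) (nat_lit 11) L107766 (by decide +kernel)
theorem L107768 : W_40 (nat_lit 7) (nat_lit 0x6400160009000480000000000000000000000000000000) (nat_lit 0x0) (nat_lit 0x400060018000200010000a00070000800000000000000000000000) := T_40 (nat_lit 131) (nat_lit 114) (nat_lit 6) (nat_lit 11) (nat_lit 10) L107767 (by decide +kernel)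
theorem L107769 : W_40 (nat_lit 8) (nat_lit 0x2400160009000480000000000000000000000000000000) (nat_lit 0x0) (nat_lit 0x4000e001c000200010000a00070000800000000000000000000000) := T_40 (nat_lit 182) (nat_lit 199) (nat_lit 7) (nat_lit 11) (nat_lit 7) L107768 (by decide +kernel)
theorem L107770 : W_40 (nat_lit 2) (nat_lit 0x2400160009000680000000000000000000000000000000) (nat_lit 0x0) (nat_lit 0x10000100008000000000000000000000000000) := D_40 (nat_lit 128) (nat_lit 148) (nat_lit 111) (nat_lit 3) (nat_lit 8) (nat_lit 7) (nat_lit 6) (nat_lit 8) (nat_lit 10) (by decide +kernel)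
theorem L107771 : W_40 (nat_lit 3) (nat_lit 0x2400160009000480000000000000000000000000000000) (nat_lit 0x0) (nat_lit 0x10000300018000000000000000000000000000) := T_40 (nat_lit 129) (nat_lit 112) (nat_lit 4) (nat_lit 11) (nat_lit 10) L107770 (by decide +kernel)
theorem L107772 : W_40 (nat_lit 2) (nat_lit 0x24001600090006c0040000000000000000000000000000) (nat_lit 0x0) (nat_lit 0x100028000000000000000000000000000) := D_40 (nat_lit 128) (nat_lit 111) (nat_lit 113) (nat_lit 6) (nat_lit 8) (nat_lit 10) (nat_lit 2) (nat_lit 8) (nat_lit 7) (by decide +kernel)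
theorem L107773 : W_40 (nat_lit 3) (nat_lit 0x24001600090006c0000000000000000000000000000000) (nat_lit 0x0) (nat_lit 0x900068000000000000000000000000000) := T_40 (nat_lit 114) (nat_lit 131) (nat_lit 6) (nat_lit 11) (nat_lit 10) L107772 (by decide +kernel)
theorem L107774 : W_40 (nat_lit 4) (nat_lit 0x24001600090004c0000000000000000000000000000000) (nat_lit 0x0) (nat_lit 0xb00078000000000000000000000000000) := T_40 (nat_lit 129) (nat_lit 112) (nat_lit 4) (nat_lit 11) (nat_lit 10) L107773 (by decide +kernel)
theorem L107775 : W_40 (nat_lit 5) (nat_lit 0x2400160009000480000000000000000000000000000000) (nat_lit 0x0) (nat_lit 0xb4007a000000000000000000000000000) := T_40 (nat_lit 126) (nat_lit 109) (nat_lit 4) (nat_lit 8) (nat_lit 10) L107774 (by decide +kernel)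
theorem L107776 : W_40 (nat_lit 9) (nat_lit 0x2400160009000080000000000000000000000000000000) (nat_lit 0x0) (nat_lit 0x14000e001c000200010000f4007a000800000000000000000000000) := Q_40 (nat_lit 130) (C_40 L107762 (C_40 L107769 (C_40 L107771 (C_40 L107775 N_40)))) (by decide +kernel)
theorem L107777 : W_40 (nat_lit 6) (nat_lit 0x2400160009000080000000000000000000000000000000) (nat_lit 0x0) (nat_lit 0x10000c0004000000010000f4007a000000000000000000000000000) := Q_40 (nat_lit 130) (C_40 L107771 (C_40 L107775 (C_40 L107762 N_40))) (by decide +kernel)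
theorem L107778 : W_40 (nat_lit 2) (nat_lit 0x64001600090004c0000000000000000000000000000000) (nat_lit 0x0) (nat_lit 0x20001800000000000000000000000000000000000000000000) := D_40 (nat_lit 180) (nat_lit 179) (nat_lit 197) (nat_lit 0) (nat_lit 12) (nat_lit 10) (nat_lit 5) (nat_lit 11) (nat_lit 7) (by decide +kernel)
theorem L107779 : W_40 (nat_lit 3) (nat_lit 0x24001600090004c0000000000000000000000000000000) (nat_lit 0x0) (nat_lit 0xa0005800000000000000000000000000000000000000000000) := T_40 (nat_lit 182) (nat_lit 199) (nat_lit 7) (nat_lit 11) (nat_lit 7) L107778 (by decide +kernel)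
theorem L107780 : W_40 (nat_lit 4) (nat_lit 0x2400160009000480000000000000000000000000000000) (nat_lit 0x0) (nat_lit 0xa0005800000000000040002000000000000000000000000000) := T_40 (nat_lit 126) (nat_lit 109) (nat_lit 4) (nat_lit 8) (nat_lit 10) L107779 (by decide +kernel)
theorem L107781 : W_40 (nat_lit 6) (nat_lit 0x2400160009000080000000000000000000000000000000) (nat_lit 0x0) (nat_lit 0xa0005800000010000f4007a000000000000000000000000000) := Q_40 (nat_lit 130) (C_40 L107775 (C_40 L107771 (C_40 L107780 N_40))) (by decide +kernel)
theorem L107782 : W_40 (nat_lit 2) (nat_lit 0x4000180008000c0002c001600190001c0000000000000000000000000000000) (nat_lit 0x0) (nat_lit 0x8000200000000000000004000000000000000000000000000000000000000000000) := D_40 (nat_lit 249) (nat_lit 182) (nat_lit 267) (nat_lit 6) (nat_lit 11) (nat_lit 14) (nat_lit 7) (nat_lit 11) (nat_lit 11) (by decide +kernel)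
theorem L107783 : W_40 (nat_lit 3) (nat_lit 0x180008000c0002c001600190001c0000000000000000000000000000000) (nat_lit 0x0) (nat_lit 0x8000600020000000000004000000000000000000000000000000000000000000000) := T_40 (nat_lit 250) (nat_lit 233) (nat_lit 7) (nat_lit 11) (nat_lit 10) L107782 (by decide +kernel)
theorem L107784 : W_40 (nat_lit 4) (nat_lit 0x80008000c0002c001600190001c0000000000000000000000000000000) (nat_lit 0x0) (nat_lit 0x8000700030000000000004000000000000000000000000000000000000000000000) := T_40 (nat_lit 232) (nat_lit 248) (nat_lit 5) (nat_lit 11) (nat_lit 10) L107783 (by decide +kernel)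
theorem L107785 : W_40 (nat_lit 5) (nat_lit 0x80008000c0002c001600190000c0000000000000000000000000000000) (nat_lit 0x0) (nat_lit 0x8000700030000000000004000000000000100008000000000000000000000000000) := T_40 (nat_lit 128) (nat_lit 111) (nat_lit 6) (nat_lit 8) (nat_lit 10) L107784 (by decide +kernel)
theorem L107786 : W_40 (nat_lit 6) (nat_lit 0x8000c0002c001600190000c0000000000000000000000000000000) (nat_lit 0x0) (nat_lit 0x8000700038000400000004000000000000100008000000000000000000000000000) := T_40 (nat_lit 231) (nat_lit 214) (nat_lit 5) (nat_lit 11) (nat_lit 9) L107785 (by decide +kernel)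
theorem L107787 : W_40 (nat_lit 7) (nat_lit 0xc0002c001600190000c0000000000000000000000000000000) (nat_lit 0x0) (nat_lit 0x8000700038000c00000004000200000000100008000000000000000000000000000) := T_40 (nat_lit 215) (nat_lit 165) (nat_lit 6) (nat_lit 11) (nat_lit 12) L107786 (by decide +kernel)
theorem L107788 : W_40 (nat_lit 8) (nat_lit 0xc0002c001600090000c0000000000000000000000000000000) (nat_lit 0x0) (nat_lit 0x8000700038000c00000004000200010000900008000000000000000000000000000) := T_40 (nat_lit 148) (nat_lit 131) (nat_lit 6) (nat_lit 11) (nat_lit 11) L107787 (by decide +kernel)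
theorem L107789 : W_40 (nat_lit 9) (nat_lit 0xc00024001600090000c0000000000000000000000000000000) (nat_lit 0x0) (nat_lit 0x8000700038000c00000005800200010000900008000000000000000000000000000) := T_40 (nat_lit 179) (nat_lit 180) (nat_lit 3) (nat_lit 8) (nat_lit 10) L107788 (by decide +kernel)
theorem L107790 : W_40 (nat_lit 10) (nat_lit 0x400024001600090000c0000000000000000000000000000000) (nat_lit 0x0) (nat_lit 0x8000700038001c00080005800200010000900008000000000000000000000000000) := T_40 (nat_lit 199) (nat_lit 216) (nat_lit 7) (nat_lit 11) (nat_lit 8) L107789 (by decide +kernel)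
theorem L107791 : W_40 (nat_lit 11) (nat_lit 0x40002400160009000080000000000000000000000000000000) (nat_lit 0x0) (nat_lit 0x8000700038001c0008000580020001000094000a000000000000000000000000000) := T_40 (nat_lit 126) (nat_lit 109) (nat_lit 4) (nat_lit 8) (nat_lit 10) L107790 (by decide +kernel)
theorem L107792 : W_40 (nat_lit 2) (nat_lit 0x1c0007400b600390001c0000000000000000000000000000000) (nat_lit 0x0) (nat_lit 0x10000c0000000000000000000000000000000000000) := D_40 (nat_lit 150) (nat_lit 168) (nat_lit 151) (nat_lit 3) (nat_lit 11) (nat_lit 8) (nat_lit 1) (nat_lit 15) (nat_lit 8) (by decide +kernel)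
theorem L107793 : W_40 (nat_lit 3) (nat_lit 0x1c0007400b600190001c0000000000000000000000000000000) (nat_lit 0x0) (nat_lit 0x10000e0001000000000000000000000000000000000) := T_40 (nat_lit 149) (nat_lit 132) (nat_lit 6) (nat_lit 12) (nat_lit 11) L107792 (by decide +kernel)
theorem L107794 : W_40 (nat_lit 4) (nat_lit 0x1c0003400b600190001c0000000000000000000000000000000) (nat_lit 0x0) (nat_lit 0x20000000040010000e0001000000000000000000000000000000000) := T_40 (nat_lit 182) (nat_lit 217) (nat_lit 7) (nat_lit 12) (nat_lit 8) L107793 (by decide +kernel)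
theorem L107795 : W_40 (nat_lit 5) (nat_lit 0x1c00034003600190001c0000000000000000000000000000000) (nat_lit 0x0) (nat_lit 0x2000000004001c000e0001000000000000000000000000000000000) := T_40 (nat_lit 167) (nat_lit 166) (nat_lit 1) (nat_lit 14) (nat_lit 9) L107794 (by decide +kernel)
theorem L107796 : W_40 (nat_lit 6) (nat_lit 0xc00034003600190001c0000000000000000000000000000000) (nat_lit 0x0) (nat_lit 0x2000300004001c000e0001000000000000000000000000000000000) := T_40 (nat_lit 200) (nat_lit 201) (nat_lit 0) (nat_lit 14) (nat_lit 11) L107795 (by decide +kernel)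
theorem L107797 : W_40 (nat_lit 7) (nat_lit 0xc00034001600190001c0000000000000000000000000000000) (nat_lit 0x0) (nat_lit 0x2800300004001e000e0001000000000000000000000000000000000) := T_40 (nat_lit 165) (nat_lit 215) (nat_lit 6) (nat_lit 11) (nat_lit 12) L107796 (by decide +kernel)
theorem L107798 : W_40 (nat_lit 8) (nat_lit 0xc00034001600090001c0000000000000000000000000000000) (nat_lit 0x0) (nat_lit 0x2800300004001e000f0001800000000000000000000000000000000) := T_40 (nat_lit 148) (nat_lit 131) (nat_lit 6) (nat_lit 11) (nat_lit 11) L107797 (by decide +kernel)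
theorem L107799 : W_40 (nat_lit 9) (nat_lit 0xc00024001600090001c0000000000000000000000000000000) (nat_lit 0x0) (nat_lit 0x2800300005801e000f0001800000000000000000000000000000000) := T_40 (nat_lit 180) (nat_lit 179) (nat_lit 3) (nat_lit 8) (nat_lit 10) L107798 (by decide +kernel)
theorem L107800 : W_40 (nat_lit 10) (nat_lit 0x400024001600090001c0000000000000000000000000000000) (nat_lit 0x0) (nat_lit 0x3800380005801e000f0001800000000000000000000000000000000) := T_40 (nat_lit 199) (nat_lit 216) (nat_lit 7) (nat_lit 11) (nat_lit 8) L107799 (by decide +kernel)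
theorem L107801 : W_40 (nat_lit 11) (nat_lit 0x40002400160009000180000000000000000000000000000000) (nat_lit 0x0) (nat_lit 0x3800380005801e000f0001840002000000000000000000000000000) := T_40 (nat_lit 126) (nat_lit 109) (nat_lit 4) (nat_lit 8) (nat_lit 10) L107800 (by decide +kernel)
theorem L107802 : W_40 (nat_lit 12) (nat_lit 0x40002400160009000080000000000000000000000000000000) (nat_lit 0x0) (nat_lit 0x3800380005801e000f000194000a000000000000000000000000000) := T_40 (nat_lit 128) (nat_lit 111) (nat_lit 6) (nat_lit 8) (nat_lit 10) L107801 (by decide +kernel)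
theorem L107803 : W_40 (nat_lit 6) (nat_lit 0xe00024001600190001c0000000000000000000000000000000) (nat_lit 0x0) (nat_lit 0x600030001d800600000000000000000000000000000000000000000) := T_40 (nat_lit 180) (nat_lit 179) (nat_lit 3) (nat_lit 8) (nat_lit 10) L101701 (by decide +kernel)
theorem L107804 : W_40 (nat_lit 7) (nat_lit 0x600024001600190001c0000000000000000000000000000000) (nat_lit 0x0) (nat_lit 0x700038001d800600000000000000000000000000000000000000000) := T_40 (nat_lit 199) (nat_lit 216) (nat_lit 7) (nat_lit 11) (nat_lit 8) L107803 (by decide +kernel)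
theorem L107805 : W_40 (nat_lit 8) (nat_lit 0x60002400160019000180000000000000000000000000000000) (nat_lit 0x0) (nat_lit 0x700038001d800600000000040002000000000000000000000000000) := T_40 (nat_lit 126) (nat_lit 109) (nat_lit 4) (nat_lit 8) (nat_lit 10) L107804 (by decide +kernel)
theorem L107806 : W_40 (nat_lit 9) (nat_lit 0x60002400160019000080000000000000000000000000000000) (nat_lit 0x0) (nat_lit 0x700038001d80060000000014000a000000000000000000000000000) := T_40 (nat_lit 128) (nat_lit 111) (nat_lit 6) (nat_lit 8) (nat_lit 10) L107805 (by decide +kernel)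
theorem L107807 : W_40 (nat_lit 10) (nat_lit 0x40002400160019000080000000000000000000000000000000) (nat_lit 0x0) (nat_lit 0x74003a001d80060000000014000a000000000000000000000000000) := T_40 (nat_lit 197) (nat_lit 214) (nat_lit 5) (nat_lit 11) (nat_lit 8) L107806 (by decide +kernel)
theorem L107808 : W_40 (nat_lit 11) (nat_lit 0x40002400160009000080000000000000000000000000000000) (nat_lit 0x0) (nat_lit 0x74003a001d80060001000094000a000000000000000000000000000) := T_40 (nat_lit 148) (nat_lit 131) (nat_lit 6) (nat_lit 11) (nat_lit 11) L107807 (by decide +kernel)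
theorem L107809 : W_40 (nat_lit 2) (nat_lit 0x1400040002400160009000080000000000000000000000000000000) (nat_lit 0x0) (nat_lit 0x28000800000000000000000000000000000000000000000000000000000) := D_40 (nat_lit 215) (nat_lit 233) (nat_lit 231) (nat_lit 7) (nat_lit 11) (nat_lit 9) (nat_lit 5) (nat_lit 11) (nat_lit 9) (by decide +kernel)
theorem L107810 : W_40 (nat_lit 3) (nat_lit 0x1000040002400160009000080000000000000000000000000000000) (nat_lit 0x0) (nat_lit 0x28000c00020000000000000000000000000000000000000000000000000) := T_40 (nat_lit 214) (nat_lit 197) (nat_lit 5) (nat_lit 11) (nat_lit 8) L107809 (by decide +kernel)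
theorem L107811 : W_40 (nat_lit 4) (nat_lit 0x40002400160009000080000000000000000000000000000000) (nat_lit 0x0) (nat_lit 0x28001c000a0000000000000000000000000000000000000000000000000) := T_40 (nat_lit 216) (nat_lit 199) (nat_lit 7) (nat_lit 11) (nat_lit 8) L107810 (by decide +kernel)
theorem L107812 : W_40 (nat_lit 13) (nat_lit 0x2400160009000080000000000000000000000000000000) (nat_lit 0x0) (nat_lit 0x8000700038007c003e001d801e000f000194000a000000000000000000000000000) := Q_40 (nat_lit 198) (C_40 L107791 (C_40 L107736 (C_40 L107802 (C_40 L107808 (C_40 L107811 N_40))))) (by decide +kernel)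
theorem L107813 : W_40 (nat_lit 2) (nat_lit 0x10000400024001600190000c0000000000000000000000000000000) (nat_lit 0x0) (nat_lit 0x20000800000000000200000000000000000000000000000000000000000) := D_40 (nat_lit 215) (nat_lit 165) (nat_lit 233) (nat_lit 6) (nat_lit 11) (nat_lit 12) (nat_lit 7) (nat_lit 11) (nat_lit 9) (by decide +kernel)
theorem L107814 : W_40 (nat_lit 3) (nat_lit 0x10000400024001600090000c0000000000000000000000000000000) (nat_lit 0x0) (nat_lit 0x20000800000000000200010000800000000000000000000000000000000) := T_40 (nat_lit 148) (nat_lit 131) (nat_lit 6) (nat_lit 11) (nat_lit 11) L107813 (by decide +kernel)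
theorem L107815 : W_40 (nat_lit 4) (nat_lit 0x400024001600090000c0000000000000000000000000000000) (nat_lit 0x0) (nat_lit 0x20001800080000000200010000800000000000000000000000000000000) := T_40 (nat_lit 216) (nat_lit 199) (nat_lit 7) (nat_lit 11) (nat_lit 8) L107814 (by decide +kernel)
theorem L107816 : W_40 (nat_lit 5) (nat_lit 0x40002400160009000080000000000000000000000000000000) (nat_lit 0x0) (nat_lit 0x20001800080000000200010000840002000000000000000000000000000) := T_40 (nat_lit 126) (nat_lit 109) (nat_lit 4) (nat_lit 8) (nat_lit 10) L107815 (by decide +kernel)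
theorem L107817 : W_40 (nat_lit 2) (nat_lit 0xe00024001600190000c0000000000000000000000000000000) (nat_lit 0x0) (nat_lit 0x1800000000000400000000000000000000000000000000) := D_40 (nat_lit 180) (nat_lit 179) (nat_lit 130) (nat_lit 3) (nat_lit 8) (nat_lit 10) (nat_lit 5) (nat_lit 11) (nat_lit 7) (by decide +kernel)
theorem L107818 : W_40 (nat_lit 3) (nat_lit 0x600024001600190000c0000000000000000000000000000000) (nat_lit 0x0) (nat_lit 0x1000080001800000000000400000000000000000000000000000000) := T_40 (nat_lit 199) (nat_lit 216) (nat_lit 7) (nat_lit 11) (nat_lit 8) L107817 (by decide +kernel)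
theorem L107819 : W_40 (nat_lit 4) (nat_lit 0x400024001600190000c0000000000000000000000000000000) (nat_lit 0x0) (nat_lit 0x14000a0001800000000000400000000000000000000000000000000) := T_40 (nat_lit 197) (nat_lit 214) (nat_lit 5) (nat_lit 11) (nat_lit 8) L107818 (by decide +kernel)
theorem L107820 : W_40 (nat_lit 5) (nat_lit 0x40002400160019000080000000000000000000000000000000) (nat_lit 0x0) (nat_lit 0x14000a0001800000000000440002000000000000000000000000000) := T_40 (nat_lit 126) (nat_lit 109) (nat_lit 4) (nat_lit 8) (nat_lit 10) L107819 (by decide +kernel)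
theorem L107821 : W_40 (nat_lit 6) (nat_lit 0x40002400160009000080000000000000000000000000000000) (nat_lit 0x0) (nat_lit 0x14000a0001800000010000c40002000000000000000000000000000) := T_40 (nat_lit 148) (nat_lit 131) (nat_lit 6) (nat_lit 11) (nat_lit 11) L107820 (by decide +kernel)
theorem L107822 : W_40 (nat_lit 7) (nat_lit 0x2400160009000080000000000000000000000000000000) (nat_lit 0x0) (nat_lit 0x28001c000e0001800200010000c40002000000000000000000000000000) := Q_40 (nat_lit 198) (C_40 L107816 (C_40 L107811 (C_40 L107821 (C_40 L107736 N_40)))) (by decide +kernel)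
theorem L107823 : W_40 (nat_lit 2) (nat_lit 0x3400160009000080000000000000000000000000000000) (nat_lit 0x0) (nat_lit 0x4800010000000000000000000000000000000000000000) := D_40 (nat_lit 179) (nat_lit 160) (nat_lit 182) (nat_lit 0) (nat_lit 11) (nat_lit 10) (nat_lit 0) (nat_lit 12) (nat_lit 10) (by decide +kernel)
theorem L107824 : W_40 (nat_lit 2) (nat_lit 0x3400160009000080000000000000000000000000000000) (nat_lit 0x0) (nat_lit 0x4800200000000000000000000000000000000000000000) := D_40 (nat_lit 179) (nat_lit 182) (nat_lit 165) (nat_lit 0) (nat_lit 12) (nat_lit 10) (nat_lit 2) (nat_lit 8) (nat_lit 10) (by decide +kernel)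
theorem L107825 : W_40 (nat_lit 2) (nat_lit 0x7400160009000dc0010000000000000000000000000000) (nat_lit 0x0) (nat_lit 0x200000000000020000800000000000000000000000) := D_40 (nat_lit 113) (nat_lit 165) (nat_lit 95) (nat_lit 7) (nat_lit 11) (nat_lit 6) (nat_lit 4) (nat_lit 11) (nat_lit 9) (by decide +kernel)
theorem L107826 : W_40 (nat_lit 3) (nat_lit 0x7400160009000dc0000000000000000000000000000000) (nat_lit 0x0) (nat_lit 0x200000000200030000800000000000000000000000) := T_40 (nat_lit 112) (nat_lit 129) (nat_lit 4) (nat_lit 11) (nat_lit 10) L107825 (by decide +kernel)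
theorem L107827 : W_40 (nat_lit 4) (nat_lit 0x3400160009000dc0000000000000000000000000000000) (nat_lit 0x0) (nat_lit 0x80004000200000000200030000800000000000000000000000) := T_40 (nat_lit 182) (nat_lit 199) (nat_lit 7) (nat_lit 11) (nat_lit 7) L107826 (by decide +kernel)
theorem L107828 : W_40 (nat_lit 5) (nat_lit 0x34001600090005c0000000000000000000000000000000) (nat_lit 0x0) (nat_lit 0x80004000200000000a00070000800000000000000000000000) := T_40 (nat_lit 131) (nat_lit 114) (nat_lit 6) (nat_lit 11) (nat_lit 10) L107827 (by decide +kernel)
theorem L107829 : W_40 (nat_lit 6) (nat_lit 0x34001600090004c0000000000000000000000000000000) (nat_lit 0x0) (nat_lit 0x80004000200000000b00078000800000000000000000000000) := T_40 (nat_lit 128) (nat_lit 111) (nat_lit 6) (nat_lit 8) (nat_lit 10) L107828 (by decide +kernel)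
theorem L107830 : W_40 (nat_lit 7) (nat_lit 0x34001600090000c0000000000000000000000000000000) (nat_lit 0x0) (nat_lit 0xa0004000200000000f00078000800000000000000000000000) := T_40 (nat_lit 130) (nat_lit 197) (nat_lit 5) (nat_lit 11) (nat_lit 7) L107829 (by decide +kernel)
theorem L107831 : W_40 (nat_lit 8) (nat_lit 0x3400160009000080000000000000000000000000000000) (nat_lit 0x0) (nat_lit 0xa0004000200000000f4007a000800000000000000000000000) := T_40 (nat_lit 126) (nat_lit 109) (nat_lit 4) (nat_lit 8) (nat_lit 10) L107830 (by decide +kernel)
theorem L107832 : W_40 (nat_lit 2) (nat_lit 0x3400160009000080000000000000000000000000000000) (nat_lit 0x0) (nat_lit 0x800210000000000000000000000000000000000000000) := D_40 (nat_lit 179) (nat_lit 160) (nat_lit 165) (nat_lit 0) (nat_lit 11) (nat_lit 10) (nat_lit 2) (nat_lit 8) (nat_lit 10) (by decide +kernel)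
theorem L107833 : W_40 (nat_lit 9) (nat_lit 0x2400160009000080000000000000000000000000000000) (nat_lit 0x0) (nat_lit 0xa0005800210000000f4007a000800000000000000000000000) := Q_40 (nat_lit 180) (C_40 L107823 (C_40 L107824 (C_40 L107831 (C_40 L107832 N_40)))) (by decide +kernel)
theorem L107834 : W_40 (nat_lit 2) (nat_lit 0x3400160009000580000000000000000000000000000000) (nat_lit 0x0) (nat_lit 0x10000200010000000000000000000000000000) := D_40 (nat_lit 129) (nat_lit 148) (nat_lit 112) (nat_lit 3) (nat_lit 8) (nat_lit 7) (nat_lit 4) (nat_lit 11) (nat_lit 10) (by decide +kernel)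
theorem L107835 : W_40 (nat_lit 3) (nat_lit 0x3400160009000180000000000000000000000000000000) (nat_lit 0x0) (nat_lit 0x20000000000010000600010000000000000000000000000000) := T_40 (nat_lit 130) (nat_lit 197) (nat_lit 5) (nat_lit 11) (nat_lit 7) L107834 (by decide +kernel)
theorem L107836 : W_40 (nat_lit 4) (nat_lit 0x3400160009000080000000000000000000000000000000) (nat_lit 0x0) (nat_lit 0x20000000000010000700018000000000000000000000000000) := T_40 (nat_lit 128) (nat_lit 111) (nat_lit 6) (nat_lit 8) (nat_lit 10) L107835 (by decide +kernel)
theorem L107837 : W_40 (nat_lit 5) (nat_lit 0x2400160009000080000000000000000000000000000000) (nat_lit 0x0) (nat_lit 0x20005800210010000700018000000000000000000000000000) := Q_40 (nat_lit 180) (C_40 L107832 (C_40 L107824 (C_40 L107836 N_40))) (by decide +kernel)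
theorem L107838 : W_40 (nat_lit 14) (nat_lit 0x400160009000080000000000000000000000000000000) (nat_lit 0x0) (nat_lit 0x8000700038007c003e001f801e100f0001f4007a002800000000000000000000000) := Q_40 (nat_lit 181) (C_40 L107743 (C_40 L107758 (C_40 L107776 (C_40 L107777 (C_40 L107781 (C_40 L107812 (C_40 L107822 (C_40 L107833 (C_40 L107837 N_40))))))))) (by decide +kernel)
theorem L107839 : W_40 (nat_lit 2) (nat_lit 0x400160009000080000000000000000000000000000000) (nat_lit 0x0) (nat_lit 0x200080010000000000000000000000000000000000000) := D_40 (nat_lit 163) (nat_lit 148) (nat_lit 177) (nat_lit 2) (nat_lit 8) (nat_lit 9) (nat_lit 1) (nat_lit 11) (nat_lit 9) (by decide +kernel)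
theorem L107840 : W_40 (nat_lit 2) (nat_lit 0x34001e00090001c0000000000000000000000000000000) (nat_lit 0x0) (nat_lit 0x400020000000000000000400000000000000000000000000000000) := D_40 (nat_lit 197) (nat_lit 214) (nat_lit 130) (nat_lit 6) (nat_lit 10) (nat_lit 12) (nat_lit 5) (nat_lit 11) (nat_lit 7) (by decide +kernel)
theorem L107841 : W_40 (nat_lit 3) (nat_lit 0x24001e00090001c0000000000000000000000000000000) (nat_lit 0x0) (nat_lit 0x400020001000010000000400000000000000000000000000000000) := T_40 (nat_lit 180) (nat_lit 160) (nat_lit 3) (nat_lit 7) (nat_lit 9) L107840 (by decide +kernel)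
theorem L107842 : W_40 (nat_lit 4) (nat_lit 0x4001e00090001c0000000000000000000000000000000) (nat_lit 0x0) (nat_lit 0x400020007000010000000400000000000000000000000000000000) := T_40 (nat_lit 181) (nat_lit 182) (nat_lit 3) (nat_lit 8) (nat_lit 9) L107841 (by decide +kernel)
theorem L107843 : W_40 (nat_lit 5) (nat_lit 0x4001e0009000180000000000000000000000000000000) (nat_lit 0x0) (nat_lit 0x400020007000010000000440002000000000000000000000000000) := T_40 (nat_lit 126) (nat_lit 109) (nat_lit 4) (nat_lit 8) (nat_lit 10) L107842 (by decide +kernel)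
theorem L107844 : W_40 (nat_lit 6) (nat_lit 0x400160009000180000000000000000000000000000000) (nat_lit 0x0) (nat_lit 0x400020007200090000000440002000000000000000000000000000) := T_40 (nat_lit 163) (nat_lit 177) (nat_lit 1) (nat_lit 11) (nat_lit 9) L107843 (by decide +kernel)
theorem L107845 : W_40 (nat_lit 7) (nat_lit 0x400160009000080000000000000000000000000000000) (nat_lit 0x0) (nat_lit 0x40002000720009000000054000a000000000000000000000000000) := T_40 (nat_lit 128) (nat_lit 111) (nat_lit 6) (nat_lit 8) (nat_lit 10) L107844 (by decide +kernel)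
theorem L107846 : W_40 (nat_lit 15) (nat_lit 0x400060009000080000000000000000000000000000000) (nat_lit 0x0) (nat_lit 0x8000700038007c003e001fa01f900f0001f4007a002800000000000000000000000) := Q_40 (nat_lit 164) (C_40 L107714 (C_40 L107838 (C_40 L107839 (C_40 L107845 N_40)))) (by decide +kernel)
theorem L107847 : W_40 (nat_lit 2) (nat_lit 0x4003e000d0001c0000000000000000000000000000000) (nat_lit 0x0) (nat_lit 0xe000000000000000000000000000000000000000000000) := D_40 (nat_lit 182) (nat_lit 181) (nat_lit 183) (nat_lit 3) (nat_lit 8) (nat_lit 9) (nat_lit 3) (nat_lit 9) (nat_lit 9) (by decide +kernel)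
theorem L107848 : W_40 (nat_lit 3) (nat_lit 0x4001e000d0001c0000000000000000000000000000000) (nat_lit 0x0) (nat_lit 0xe800200000000000000000000000000000000000000000) := T_40 (nat_lit 165) (nat_lit 179) (nat_lit 1) (nat_lit 12) (nat_lit 9) L107847 (by decide +kernel)
theorem L107849 : W_40 (nat_lit 4) (nat_lit 0x4000e000d0001c0000000000000000000000000000000) (nat_lit 0x0) (nat_lit 0xea00300000000000000000000000000000000000000000) := T_40 (nat_lit 164) (nat_lit 177) (nat_lit 1) (nat_lit 11) (nat_lit 9) L107848 (by decide +kernel)
theorem L107850 : W_40 (nat_lit 5) (nat_lit 0x40006000d0001c0000000000000000000000000000000) (nat_lit 0x0) (nat_lit 0xea00390000000000000000000000000000000000000000) := T_40 (nat_lit 163) (nat_lit 160) (nat_lit 2) (nat_lit 7) (nat_lit 9) L107849 (by decide +kernel)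
theorem L107851 : W_40 (nat_lit 6) (nat_lit 0x4000600090001c0000000000000000000000000000000) (nat_lit 0x0) (nat_lit 0xea00390004000200000000000000000000000000000000) := T_40 (nat_lit 146) (nat_lit 129) (nat_lit 3) (nat_lit 7) (nat_lit 7) L107850 (by decide +kernel)
theorem L107852 : W_40 (nat_lit 7) (nat_lit 0x400060009000180000000000000000000000000000000) (nat_lit 0x0) (nat_lit 0xea00390004000240002000000000000000000000000000) := T_40 (nat_lit 126) (nat_lit 109) (nat_lit 4) (nat_lit 8) (nat_lit 10) L107851 (by decide +kernel)
theorem L107853 : W_40 (nat_lit 8) (nat_lit 0x400060009000080000000000000000000000000000000) (nat_lit 0x0) (nat_lit 0xea0039000400034000a000000000000000000000000000) := T_40 (nat_lit 128) (nat_lit 111) (nat_lit 6) (nat_lit 8) (nat_lit 10) L107852 (by decide +kernel)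
theorem L107854 : W_40 (nat_lit 16) (nat_lit 0x400060001000080000000000000000000000000000000) (nat_lit 0x0) (nat_lit 0x8000700038007c003e001fbc1f9c0fc701f4007a002800000000000000000000000) := Q_40 (nat_lit 147) (C_40 L107692 (C_40 L107701 (C_40 L107709 (C_40 L107846 (C_40 L107853 N_40))))) (by decide +kernel)
theorem L107855 : W_40 (nat_lit 4) (nat_lit 0x4000600010000c0000000000000000000000000000000) (nat_lit 0x0) (nat_lit 0x4000380190000000000000000000000000000000000000000) := T_40 (nat_lit 177) (nat_lit 194) (nat_lit 5) (nat_lit 8) (nat_lit 7) L67301 (by decide +kernel)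
theorem L107856 : W_40 (nat_lit 5) (nat_lit 0x400060001000080000000000000000000000000000000) (nat_lit 0x0) (nat_lit 0x4000380190000000040002000000000000000000000000000) := T_40 (nat_lit 126) (nat_lit 109) (nat_lit 4) (nat_lit 8) (nat_lit 10) L107855 (by decide +kernel)
theorem L107857 : W_40 (nat_lit 2) (nat_lit 0x700060001000180000000000000000000000000000000) (nat_lit 0x0) (nat_lit 0x190000000000000000000000000000000000000000) := D_40 (nat_lit 163) (nat_lit 164) (nat_lit 160) (nat_lit 1) (nat_lit 11) (nat_lit 9) (nat_lit 1) (nat_lit 10) (nat_lit 9) (by decide +kernel)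
theorem L107858 : W_40 (nat_lit 3) (nat_lit 0x600060001000180000000000000000000000000000000) (nat_lit 0x0) (nat_lit 0x180190000000000000000000000000000000000000000) := T_40 (nat_lit 176) (nat_lit 175) (nat_lit 2) (nat_lit 5) (nat_lit 10) L107857 (by decide +kernel)
theorem L107859 : W_40 (nat_lit 4) (nat_lit 0x400060001000180000000000000000000000000000000) (nat_lit 0x0) (nat_lit 0x4000380190000000000000000000000000000000000000000) := T_40 (nat_lit 177) (nat_lit 194) (nat_lit 5) (nat_lit 8) (nat_lit 7) L107858 (by decide +kernel)
theorem L107860 : W_40 (nat_lit 5) (nat_lit 0x400060001000080000000000000000000000000000000) (nat_lit 0x0) (nat_lit 0x4000380190000000100008000000000000000000000000000) := T_40 (nat_lit 128) (nat_lit 111) (nat_lit 6) (nat_lit 8) (nat_lit 10) L107859 (by decide +kernel)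
theorem L107861 : W_40 (nat_lit 3) (nat_lit 0x600060001000080000000000000000000000000000000) (nat_lit 0x0) (nat_lit 0x980180000000000000000000000000000000000000000) := T_40 (nat_lit 176) (nat_lit 175) (nat_lit 2) (nat_lit 5) (nat_lit 10) L76587 (by decide +kernel)
theorem L107862 : W_40 (nat_lit 4) (nat_lit 0x400060001000080000000000000000000000000000000) (nat_lit 0x0) (nat_lit 0x4000b80180000000000000000000000000000000000000000) := T_40 (nat_lit 177) (nat_lit 194) (nat_lit 5) (nat_lit 8) (nat_lit 7) L107861 (by decide +kernel)
theorem L107863 : W_40 (nat_lit 5) (nat_lit 0x4000e00090000c0000000000000000000000000000000) (nat_lit 0x0) (nat_lit 0x400020007000110010000400000000000000000000000000000000) := T_40 (nat_lit 164) (nat_lit 148) (nat_lit 2) (nat_lit 8) (nat_lit 9) L107712 (by decide +kernel)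
theorem L107864 : W_40 (nat_lit 6) (nat_lit 0x4000e0009000080000000000000000000000000000000) (nat_lit 0x0) (nat_lit 0x400020007000110010000440002000000000000000000000000000) := T_40 (nat_lit 126) (nat_lit 109) (nat_lit 4) (nat_lit 8) (nat_lit 10) L107863 (by decide +kernel)
theorem L107865 : W_40 (nat_lit 2) (nat_lit 0x1c000f0009000080000000000000000000000000000000) (nat_lit 0x0) (nat_lit 0x300010000000000000000000000000000000000000) := D_40 (nat_lit 164) (nat_lit 148) (nat_lit 165) (nat_lit 2) (nat_lit 8) (nat_lit 9) (nat_lit 1) (nat_lit 12) (nat_lit 9) (by decide +kernel)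
theorem L107866 : W_40 (nat_lit 3) (nat_lit 0x14000f0009000080000000000000000000000000000000) (nat_lit 0x0) (nat_lit 0x800308010000000000000000000000000000000000000) := T_40 (nat_lit 179) (nat_lit 159) (nat_lit 3) (nat_lit 6) (nat_lit 9) L107865 (by decide +kernel)
theorem L107867 : W_40 (nat_lit 4) (nat_lit 0x4000f0009000080000000000000000000000000000000) (nat_lit 0x0) (nat_lit 0x3800308010000000000000000000000000000000000000) := T_40 (nat_lit 180) (nat_lit 181) (nat_lit 3) (nat_lit 7) (nat_lit 9) L107866 (by decide +kernel)
theorem L107868 : W_40 (nat_lit 5) (nat_lit 0x4000e0009000080000000000000000000000000000000) (nat_lit 0x0) (nat_lit 0x3800318014000000000000000000000000000000000000) := T_40 (nat_lit 160) (nat_lit 146) (nat_lit 2) (nat_lit 7) (nat_lit 9) L107867 (by decide +kernel)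
theorem L107869 : W_40 (nat_lit 2) (nat_lit 0x4000e00090001c0000000000000000000000000000000) (nat_lit 0x0) (nat_lit 0x10004000200000000000000000000000000000000) := D_40 (nat_lit 146) (nat_lit 129) (nat_lit 160) (nat_lit 3) (nat_lit 7) (nat_lit 7) (nat_lit 2) (nat_lit 7) (nat_lit 9) (by decide +kernel)
theorem L107870 : W_40 (nat_lit 3) (nat_lit 0x4000e0009000180000000000000000000000000000000) (nat_lit 0x0) (nat_lit 0x10004000240002000000000000000000000000000) := T_40 (nat_lit 126) (nat_lit 109) (nat_lit 4) (nat_lit 8) (nat_lit 10) L107869 (by decide +kernel)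
theorem L107871 : W_40 (nat_lit 4) (nat_lit 0x4000e0009000080000000000000000000000000000000) (nat_lit 0x0) (nat_lit 0x1000400034000a000000000000000000000000000) := T_40 (nat_lit 128) (nat_lit 111) (nat_lit 6) (nat_lit 8) (nat_lit 10) L107870 (by decide +kernel)
theorem L107872 : W_40 (nat_lit 2) (nat_lit 0x4000e00090003c0000000000000000000000000000000) (nat_lit 0x0) (nat_lit 0x100010000400000000000000000000000000000000) := D_40 (nat_lit 148) (nat_lit 164) (nat_lit 130) (nat_lit 2) (nat_lit 8) (nat_lit 9) (nat_lit 3) (nat_lit 8) (nat_lit 7) (by decide +kernel)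
theorem L107873 : W_40 (nat_lit 3) (nat_lit 0x4000e00090001c0000000000000000000000000000000) (nat_lit 0x0) (nat_lit 0x100014000600000000000000000000000000000000) := T_40 (nat_lit 129) (nat_lit 146) (nat_lit 3) (nat_lit 7) (nat_lit 7) L107872 (by decide +kernel)
theorem L107874 : W_40 (nat_lit 4) (nat_lit 0x4000e0009000180000000000000000000000000000000) (nat_lit 0x0) (nat_lit 0x100014000640002000000000000000000000000000) := T_40 (nat_lit 126) (nat_lit 109) (nat_lit 4) (nat_lit 8) (nat_lit 10) L107873 (by decide +kernel)
theorem L107875 : W_40 (nat_lit 5) (nat_lit 0x4000e0009000080000000000000000000000000000000) (nat_lit 0x0) (nat_lit 0x10001400074000a000000000000000000000000000) := T_40 (nat_lit 128) (nat_lit 111) (nat_lit 6) (nat_lit 8) (nat_lit 10) L107874 (by decide +kernel)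
theorem L107876 : W_40 (nat_lit 7) (nat_lit 0x4000e0001000080000000000000000000000000000000) (nat_lit 0x0) (nat_lit 0x40002000780031801c00074000a000000000000000000000000000) := Q_40 (nat_lit 147) (C_40 L107864 (C_40 L107868 (C_40 L107871 (C_40 L107875 N_40)))) (by decide +kernel)
theorem L107877 : W_40 (nat_lit 2) (nat_lit 0x4000e0001000080000000000000000000000000000000) (nat_lit 0x0) (nat_lit 0x4000200100000000000000000000000000000000000000000) := D_40 (nat_lit 177) (nat_lit 194) (nat_lit 164) (nat_lit 5) (nat_lit 8) (nat_lit 7) (nat_lit 1) (nat_lit 11) (nat_lit 9) (by decide +kernel)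
theorem L107878 : W_40 (nat_lit 2) (nat_lit 0x34000e00010001c0000000000000000000000000000000) (nat_lit 0x0) (nat_lit 0xc800000000000000000000000000000000000000000000) := D_40 (nat_lit 182) (nat_lit 183) (nat_lit 179) (nat_lit 0) (nat_lit 13) (nat_lit 10) (nat_lit 0) (nat_lit 12) (nat_lit 10) (by decide +kernel)
theorem L107879 : W_40 (nat_lit 3) (nat_lit 0x14000e00010001c0000000000000000000000000000000) (nat_lit 0x0) (nat_lit 0xe800010000000000000000000000000000000000000000) := T_40 (nat_lit 181) (nat_lit 160) (nat_lit 3) (nat_lit 7) (nat_lit 9) L107878 (by decide +kernel)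
theorem L107880 : W_40 (nat_lit 4) (nat_lit 0x14000e00010000c0000000000000000000000000000000) (nat_lit 0x0) (nat_lit 0xe800010000000100008000000000000000000000000000) := T_40 (nat_lit 128) (nat_lit 111) (nat_lit 6) (nat_lit 8) (nat_lit 10) L107879 (by decide +kernel)
theorem L107881 : W_40 (nat_lit 5) (nat_lit 0x14000e0001000080000000000000000000000000000000) (nat_lit 0x0) (nat_lit 0xe80001000000014000a000000000000000000000000000) := T_40 (nat_lit 126) (nat_lit 109) (nat_lit 4) (nat_lit 8) (nat_lit 10) L107880 (by decide +kernel)
theorem L107882 : W_40 (nat_lit 2) (nat_lit 0x14000fc001200180000000000000000000000000000000) (nat_lit 0x0) (nat_lit 0x4000200002000000000000000000000000000000000000000) := D_40 (nat_lit 177) (nat_lit 194) (nat_lit 157) (nat_lit 5) (nat_lit 8) (nat_lit 7) (nat_lit 3) (nat_lit 4) (nat_lit 9) (by decide +kernel)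
theorem L107883 : W_40 (nat_lit 3) (nat_lit 0x14000f8001200180000000000000000000000000000000) (nat_lit 0x0) (nat_lit 0x4000200006000100000000000000000000000000000000000) := T_40 (nat_lit 158) (nat_lit 140) (nat_lit 0) (nat_lit 8) (nat_lit 9) L107882 (by decide +kernel)
theorem L107884 : W_40 (nat_lit 4) (nat_lit 0x14000f8001200080000000000000000000000000000000) (nat_lit 0x0) (nat_lit 0x4000200006000100100008000000000000000000000000000) := T_40 (nat_lit 128) (nat_lit 111) (nat_lit 6) (nat_lit 8) (nat_lit 10) L107883 (by decide +kernel)
theorem L107885 : W_40 (nat_lit 5) (nat_lit 0x14000f8001000080000000000000000000000000000000) (nat_lit 0x0) (nat_lit 0x4000200006000700100008000000000000000000000000000) := T_40 (nat_lit 141) (nat_lit 142) (nat_lit 0) (nat_lit 9) (nat_lit 9) L107884 (by decide +kernel)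
theorem L107886 : W_40 (nat_lit 6) (nat_lit 0x14000f0001000080000000000000000000000000000000) (nat_lit 0x0) (nat_lit 0x4000a0000e000700100008000000000000000000000000000) := T_40 (nat_lit 159) (nat_lit 179) (nat_lit 3) (nat_lit 6) (nat_lit 9) L107885 (by decide +kernel)
theorem L107887 : W_40 (nat_lit 7) (nat_lit 0x14000e0001000080000000000000000000000000000000) (nat_lit 0x0) (nat_lit 0x4002a0001e000700100008000000000000000000000000000) := T_40 (nat_lit 160) (nat_lit 181) (nat_lit 3) (nat_lit 7) (nat_lit 9) L107886 (by decide +kernel)
theorem L107888 : W_40 (nat_lit 2) (nat_lit 0x16000fc0010000c0000000000000000000000000000000) (nat_lit 0x0) (nat_lit 0x700000000000000000000000000000000000) := D_40 (nat_lit 141) (nat_lit 142) (nat_lit 140) (nat_lit 0) (nat_lit 9) (nat_lit 9) (nat_lit 0) (nat_lit 8) (nat_lit 9) (by decide +kernel)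
theorem L107889 : W_40 (nat_lit 3) (nat_lit 0x16000f80010000c0000000000000000000000000000000) (nat_lit 0x0) (nat_lit 0x6000700000000000000000000000000000000000) := T_40 (nat_lit 158) (nat_lit 157) (nat_lit 3) (nat_lit 4) (nat_lit 9) L107888 (by decide +kernel)
theorem L107890 : W_40 (nat_lit 4) (nat_lit 0x16000f00010000c0000000000000000000000000000000) (nat_lit 0x0) (nat_lit 0x80000e000700000000000000000000000000000000000) := T_40 (nat_lit 159) (nat_lit 179) (nat_lit 3) (nat_lit 6) (nat_lit 9) L107889 (by decide +kernel)
theorem L107891 : W_40 (nat_lit 5) (nat_lit 0x16000e00010000c0000000000000000000000000000000) (nat_lit 0x0) (nat_lit 0x280001e000700000000000000000000000000000000000) := T_40 (nat_lit 160) (nat_lit 181) (nat_lit 3) (nat_lit 7) (nat_lit 9) L107890 (by decide +kernel)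
theorem L107892 : W_40 (nat_lit 6) (nat_lit 0x14000e00010000c0000000000000000000000000000000) (nat_lit 0x0) (nat_lit 0x4002a0001e000700000000000000000000000000000000000) := T_40 (nat_lit 177) (nat_lit 194) (nat_lit 5) (nat_lit 8) (nat_lit 7) L107891 (by decide +kernel)
theorem L107893 : W_40 (nat_lit 7) (nat_lit 0x14000e0001000080000000000000000000000000000000) (nat_lit 0x0) (nat_lit 0x4002a0001e000700040002000000000000000000000000000) := T_40 (nat_lit 126) (nat_lit 109) (nat_lit 4) (nat_lit 8) (nat_lit 10) L107892 (by decide +kernel)
theorem L107894 : W_40 (nat_lit 2) (nat_lit 0x34000e0001000080000000000000000000000000000000) (nat_lit 0x0) (nat_lit 0xc800000000000000000000000000000000000000000000) := D_40 (nat_lit 182) (nat_lit 179) (nat_lit 183) (nat_lit 0) (nat_lit 12) (nat_lit 10) (nat_lit 0) (nat_lit 13) (nat_lit 10) (by decide +kernel)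
theorem L107895 : W_40 (nat_lit 2) (nat_lit 0x34000e0005000780000000000000000000000000000000) (nat_lit 0x0) (nat_lit 0x20000000000018000000000000000000000000000000000000) := D_40 (nat_lit 147) (nat_lit 197) (nat_lit 148) (nat_lit 6) (nat_lit 10) (nat_lit 11) (nat_lit 3) (nat_lit 8) (nat_lit 7) (by decide +kernel)
theorem L107896 : W_40 (nat_lit 3) (nat_lit 0x34000e0005000380000000000000000000000000000000) (nat_lit 0x0) (nat_lit 0x20000000000018000400020000000000000000000000000000) := T_40 (nat_lit 130) (nat_lit 113) (nat_lit 6) (nat_lit 10) (nat_lit 10) L107895 (by decide +kernel)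
theorem L107897 : W_40 (nat_lit 2) (nat_lit 0x76000e00110007c0020000000000000000000000000000) (nat_lit 0x0) (nat_lit 0x200020000800000000000000000000000000000000) := D_40 (nat_lit 131) (nat_lit 149) (nat_lit 165) (nat_lit 3) (nat_lit 9) (nat_lit 7) (nat_lit 4) (nat_lit 12) (nat_lit 10) (by decide +kernel)
theorem L107898 : W_40 (nat_lit 3) (nat_lit 0x76000e00010007c0020000000000000000000000000000) (nat_lit 0x0) (nat_lit 0x200038000800000000000000000000000000000000) := T_40 (nat_lit 148) (nat_lit 147) (nat_lit 3) (nat_lit 8) (nat_lit 7) L107897 (by decide +kernel)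
theorem L107899 : W_40 (nat_lit 4) (nat_lit 0x76000e00010003c0020000000000000000000000000000) (nat_lit 0x0) (nat_lit 0x200038000c00040000000000000000000000000000) := T_40 (nat_lit 130) (nat_lit 114) (nat_lit 2) (nat_lit 8) (nat_lit 7) L107898 (by decide +kernel)
theorem L107900 : W_40 (nat_lit 5) (nat_lit 0x76000e00010003c0000000000000000000000000000000) (nat_lit 0x0) (nat_lit 0x200038000c00070000000000000000000000000000) := T_40 (nat_lit 113) (nat_lit 112) (nat_lit 2) (nat_lit 7) (nat_lit 7) L107899 (by decide +kernel)
theorem L107901 : W_40 (nat_lit 6) (nat_lit 0x76000e0001000380000000000000000000000000000000) (nat_lit 0x0) (nat_lit 0x200038000c40072000000000000000000000000000) := T_40 (nat_lit 126) (nat_lit 109) (nat_lit 4) (nat_lit 8) (nat_lit 10) L107900 (by decide +kernel)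
theorem L107902 : W_40 (nat_lit 7) (nat_lit 0x74000e0001000380000000000000000000000000000000) (nat_lit 0x0) (nat_lit 0x4000200200038000c40072000000000000000000000000000) := T_40 (nat_lit 177) (nat_lit 194) (nat_lit 5) (nat_lit 8) (nat_lit 7) L107901 (by decide +kernel)
theorem L107903 : W_40 (nat_lit 2) (nat_lit 0xb4000e0005000380000000000000000000000000000000) (nat_lit 0x0) (nat_lit 0x8000040002000000000000000000000000000) := D_40 (nat_lit 126) (nat_lit 147) (nat_lit 109) (nat_lit 3) (nat_lit 7) (nat_lit 7) (nat_lit 4) (nat_lit 8) (nat_lit 10) (by decide +kernel)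
theorem L107904 : W_40 (nat_lit 3) (nat_lit 0xb4000e0001000380000000000000000000000000000000) (nat_lit 0x0) (nat_lit 0x4000000000000c000040002000000000000000000000000000) := T_40 (nat_lit 146) (nat_lit 198) (nat_lit 7) (nat_lit 10) (nat_lit 7) L107903 (by decide +kernel)
theorem L107905 : W_40 (nat_lit 4) (nat_lit 0x34000e0001000380000000000000000000000000000000) (nat_lit 0x0) (nat_lit 0x4000c00000000c000040002000000000000000000000000000) := T_40 (nat_lit 183) (nat_lit 182) (nat_lit 0) (nat_lit 13) (nat_lit 10) L107904 (by decide +kernel)
theorem L107906 : W_40 (nat_lit 4) (nat_lit 0x34000e0001000380000000000000000000000000000000) (nat_lit 0x0) (nat_lit 0x6000000000001c000400020000000000000000000000000000) := T_40 (nat_lit 146) (nat_lit 198) (nat_lit 7) (nat_lit 10) (nat_lit 7) L107896 (by decide +kernel)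
theorem L107907 : W_40 (nat_lit 2) (nat_lit 0xb4000e00010003c0020000000000000000000000000000) (nat_lit 0x0) (nat_lit 0x40000000000004000400000000000000000000000000000000) := D_40 (nat_lit 146) (nat_lit 198) (nat_lit 130) (nat_lit 7) (nat_lit 10) (nat_lit 7) (nat_lit 6) (nat_lit 10) (nat_lit 10) (by decide +kernel)
theorem L107908 : W_40 (nat_lit 3) (nat_lit 0xb4000e00010003c0000000000000000000000000000000) (nat_lit 0x0) (nat_lit 0x40000000000004000400030000000000000000000000000000) := T_40 (nat_lit 113) (nat_lit 112) (nat_lit 2) (nat_lit 7) (nat_lit 7) L107907 (by decide +kernel)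
theorem L107909 : W_40 (nat_lit 4) (nat_lit 0xb4000e0001000380000000000000000000000000000000) (nat_lit 0x0) (nat_lit 0x40000000000004000440032000000000000000000000000000) := T_40 (nat_lit 126) (nat_lit 109) (nat_lit 4) (nat_lit 8) (nat_lit 10) L107908 (by decide +kernel)
theorem L107910 : W_40 (nat_lit 5) (nat_lit 0x34000e0001000380000000000000000000000000000000) (nat_lit 0x0) (nat_lit 0x4000c000000004000440032000000000000000000000000000) := T_40 (nat_lit 183) (nat_lit 182) (nat_lit 0) (nat_lit 13) (nat_lit 10) L107909 (by decide +kernel)
theorem L107911 : W_40 (nat_lit 8) (nat_lit 0x34000e0001000380000000000000000000000000000000) (nat_lit 0x0) (nat_lit 0x400c200200038000c40072000000000000000000000000000) := T_40 (nat_lit 182) (nat_lit 183) (nat_lit 0) (nat_lit 13) (nat_lit 10) L107902 (by decide +kernel)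
theorem L107912 : W_40 (nat_lit 9) (nat_lit 0x34000e0001000180000000000000000000000000000000) (nat_lit 0x0) (nat_lit 0x6400c20020003c000e40072000000000000000000000000000) := Q_40 (nat_lit 129) (C_40 L107905 (C_40 L107906 (C_40 L107910 (C_40 L107911 N_40)))) (by decide +kernel)
theorem L107913 : W_40 (nat_lit 10) (nat_lit 0x34000e0001000080000000000000000000000000000000) (nat_lit 0x0) (nat_lit 0x6400c20020003c000f4007a000000000000000000000000000) := T_40 (nat_lit 128) (nat_lit 111) (nat_lit 6) (nat_lit 8) (nat_lit 10) L107912 (by decide +kernel)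
theorem L107914 : W_40 (nat_lit 2) (nat_lit 0x40034000e00010001c0000000000000000000000000000000) (nat_lit 0x0) (nat_lit 0x80008000800000000000000000000000000000000000000000000) := D_40 (nat_lit 195) (nat_lit 211) (nat_lit 179) (nat_lit 5) (nat_lit 8) (nat_lit 8) (nat_lit 1) (nat_lit 11) (nat_lit 10) (by decide +kernel)
theorem L107915 : W_40 (nat_lit 3) (nat_lit 0x34000e00010001c0000000000000000000000000000000) (nat_lit 0x0) (nat_lit 0x8000c000a00000000000000000000000000000000000000000000) := T_40 (nat_lit 194) (nat_lit 177) (nat_lit 5) (nat_lit 8) (nat_lit 7) L107914 (by decide +kernel)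
theorem L107916 : W_40 (nat_lit 4) (nat_lit 0x34000e00010000c0000000000000000000000000000000) (nat_lit 0x0) (nat_lit 0x8000c000a00000000000100008000000000000000000000000000) := T_40 (nat_lit 128) (nat_lit 111) (nat_lit 6) (nat_lit 8) (nat_lit 10) L107915 (by decide +kernel)
theorem L107917 : W_40 (nat_lit 5) (nat_lit 0x34000e0001000080000000000000000000000000000000) (nat_lit 0x0) (nat_lit 0x8000c000a0000000000014000a000000000000000000000000000) := T_40 (nat_lit 126) (nat_lit 109) (nat_lit 4) (nat_lit 8) (nat_lit 10) L107916 (by decide +kernel)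
theorem L107918 : W_40 (nat_lit 11) (nat_lit 0x14000e0001000080000000000000000000000000000000) (nat_lit 0x0) (nat_lit 0x8006c00ea0020003c000f4007a000000000000000000000000000) := Q_40 (nat_lit 181) (C_40 L107894 (C_40 L107913 (C_40 L107917 N_40))) (by decide +kernel)
theorem L107919 : W_40 (nat_lit 10) (nat_lit 0x14000e0001000180000000000000000000000000000000) (nat_lit 0x0) (nat_lit 0x6400e20021003c000e40072000000000000000000000000000) := T_40 (nat_lit 181) (nat_lit 160) (nat_lit 3) (nat_lit 7) (nat_lit 9) L107912 (by decide +kernel)
theorem L107920 : W_40 (nat_lit 11) (nat_lit 0x14000e0001000080000000000000000000000000000000) (nat_lit 0x0) (nat_lit 0x6400e20021003c000f4007a000000000000000000000000000) := T_40 (nat_lit 128) (nat_lit 111) (nat_lit 6) (nat_lit 8) (nat_lit 10) L107919 (by decide +kernel)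
theorem L107921 : W_40 (nat_lit 2) (nat_lit 0x16000fc005000080000000000000000000000000000000) (nat_lit 0x0) (nat_lit 0x700000000000000000000000000000000000) := D_40 (nat_lit 141) (nat_lit 142) (nat_lit 140) (nat_lit 0) (nat_lit 9) (nat_lit 9) (nat_lit 0) (nat_lit 8) (nat_lit 9) (by decide +kernel)
theorem L107922 : W_40 (nat_lit 3) (nat_lit 0x16000f8005000080000000000000000000000000000000) (nat_lit 0x0) (nat_lit 0x6000700000000000000000000000000000000000) := T_40 (nat_lit 158) (nat_lit 157) (nat_lit 3) (nat_lit 4) (nat_lit 9) L107921 (by decide +kernel)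
theorem L107923 : W_40 (nat_lit 4) (nat_lit 0x16000f0005000080000000000000000000000000000000) (nat_lit 0x0) (nat_lit 0x80000e000700000000000000000000000000000000000) := T_40 (nat_lit 159) (nat_lit 179) (nat_lit 3) (nat_lit 6) (nat_lit 9) L107922 (by decide +kernel)
theorem L107924 : W_40 (nat_lit 5) (nat_lit 0x16000e0005000080000000000000000000000000000000) (nat_lit 0x0) (nat_lit 0x80001e008700000000000000000000000000000000000) := T_40 (nat_lit 160) (nat_lit 147) (nat_lit 2) (nat_lit 7) (nat_lit 9) L107923 (by decide +kernel)
theorem L107925 : W_40 (nat_lit 6) (nat_lit 0x14000e0005000080000000000000000000000000000000) (nat_lit 0x0) (nat_lit 0x4000a0001e008700000000000000000000000000000000000) := T_40 (nat_lit 177) (nat_lit 194) (nat_lit 5) (nat_lit 8) (nat_lit 7) L107924 (by decide +kernel)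
theorem L107926 : W_40 (nat_lit 2) (nat_lit 0x16000e000d0000c0000000000000000000000000000000) (nat_lit 0x0) (nat_lit 0x300008000000000000000000000000000) := D_40 (nat_lit 128) (nat_lit 111) (nat_lit 129) (nat_lit 6) (nat_lit 8) (nat_lit 10) (nat_lit 3) (nat_lit 7) (nat_lit 7) (by decide +kernel)
theorem L107927 : W_40 (nat_lit 3) (nat_lit 0x16000e00050000c0000000000000000000000000000000) (nat_lit 0x0) (nat_lit 0x10008000300008000000000000000000000000000) := T_40 (nat_lit 147) (nat_lit 160) (nat_lit 2) (nat_lit 7) (nat_lit 9) L107926 (by decide +kernel)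
theorem L107928 : W_40 (nat_lit 4) (nat_lit 0x14000e00050000c0000000000000000000000000000000) (nat_lit 0x0) (nat_lit 0x4000200010008000300008000000000000000000000000000) := T_40 (nat_lit 177) (nat_lit 194) (nat_lit 5) (nat_lit 8) (nat_lit 7) L107927 (by decide +kernel)
theorem L107929 : W_40 (nat_lit 5) (nat_lit 0x14000e0005000080000000000000000000000000000000) (nat_lit 0x0) (nat_lit 0x400020001000800034000a000000000000000000000000000) := T_40 (nat_lit 126) (nat_lit 109) (nat_lit 4) (nat_lit 8) (nat_lit 10) L107928 (by decide +kernel)
theorem L107930 : W_40 (nat_lit 2) (nat_lit 0x16000e00050003c0000000000000000000000000000000) (nat_lit 0x0) (nat_lit 0x800000000000000030000000000000000000000000000) := D_40 (nat_lit 112) (nat_lit 113) (nat_lit 179) (nat_lit 2) (nat_lit 7) (nat_lit 7) (nat_lit 5) (nat_lit 10) (nat_lit 6) (by decide +kernel)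
theorem L107931 : W_40 (nat_lit 3) (nat_lit 0x16000e00050001c0000000000000000000000000000000) (nat_lit 0x0) (nat_lit 0x800000008000200030000000000000000000000000000) := T_40 (nat_lit 129) (nat_lit 147) (nat_lit 3) (nat_lit 7) (nat_lit 7) L107930 (by decide +kernel)
theorem L107932 : W_40 (nat_lit 4) (nat_lit 0x16000e0005000180000000000000000000000000000000) (nat_lit 0x0) (nat_lit 0x800000008000240032000000000000000000000000000) := T_40 (nat_lit 126) (nat_lit 109) (nat_lit 4) (nat_lit 8) (nat_lit 10) L107931 (by decide +kernel)
theorem L107933 : W_40 (nat_lit 5) (nat_lit 0x14000e0005000180000000000000000000000000000000) (nat_lit 0x0) (nat_lit 0x4000a00000008000240032000000000000000000000000000) := T_40 (nat_lit 177) (nat_lit 194) (nat_lit 5) (nat_lit 8) (nat_lit 7) L107932 (by decide +kernel)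
theorem L107934 : W_40 (nat_lit 6) (nat_lit 0x14000e0005000080000000000000000000000000000000) (nat_lit 0x0) (nat_lit 0x4000a0000000800034003a000000000000000000000000000) := T_40 (nat_lit 128) (nat_lit 111) (nat_lit 6) (nat_lit 8) (nat_lit 10) L107933 (by decide +kernel)
theorem L107935 : W_40 (nat_lit 2) (nat_lit 0x14000e00050001c0000000000000000000000000000000) (nat_lit 0x0) (nat_lit 0x10008000200000000000000000000000000000000) := D_40 (nat_lit 147) (nat_lit 129) (nat_lit 160) (nat_lit 3) (nat_lit 7) (nat_lit 7) (nat_lit 2) (nat_lit 7) (nat_lit 9) (by decide +kernel)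
theorem L107936 : W_40 (nat_lit 3) (nat_lit 0x14000e00050000c0000000000000000000000000000000) (nat_lit 0x0) (nat_lit 0x10008000300008000000000000000000000000000) := T_40 (nat_lit 128) (nat_lit 111) (nat_lit 6) (nat_lit 8) (nat_lit 10) L107935 (by decide +kernel)
theorem L107937 : W_40 (nat_lit 4) (nat_lit 0x14000e0005000080000000000000000000000000000000) (nat_lit 0x0) (nat_lit 0x1000800034000a000000000000000000000000000) := T_40 (nat_lit 126) (nat_lit 109) (nat_lit 4) (nat_lit 8) (nat_lit 10) L107936 (by decide +kernel)
theorem L107938 : W_40 (nat_lit 2) (nat_lit 0x600014000e0005000180000000000000000000000000000000) (nat_lit 0x0) (nat_lit 0x4000a00000000000000000000000000000000000000000000) := D_40 (nat_lit 177) (nat_lit 179) (nat_lit 194) (nat_lit 3) (nat_lit 7) (nat_lit 10) (nat_lit 5) (nat_lit 8) (nat_lit 7) (by decide +kernel)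
theorem L107939 : W_40 (nat_lit 3) (nat_lit 0x200014000e0005000180000000000000000000000000000000) (nat_lit 0x0) (nat_lit 0x800044000a00000000000000000000000000000000000000000000) := T_40 (nat_lit 198) (nat_lit 215) (nat_lit 7) (nat_lit 10) (nat_lit 8) L107938 (by decide +kernel)
theorem L107940 : W_40 (nat_lit 4) (nat_lit 0x200014000e0005000080000000000000000000000000000000) (nat_lit 0x0) (nat_lit 0x800044000a00000000000100008000000000000000000000000000) := T_40 (nat_lit 128) (nat_lit 111) (nat_lit 6) (nat_lit 8) (nat_lit 10) L107939 (by decide +kernel)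
theorem L107941 : W_40 (nat_lit 2) (nat_lit 0x600014000e00050000c0000000000000000000000000000000) (nat_lit 0x0) (nat_lit 0x4000a00000000000000000000000000000000000000000000) := D_40 (nat_lit 177) (nat_lit 179) (nat_lit 194) (nat_lit 3) (nat_lit 7) (nat_lit 10) (nat_lit 5) (nat_lit 8) (nat_lit 7) (by decide +kernel)
theorem L107942 : W_40 (nat_lit 3) (nat_lit 0x200014000e00050000c0000000000000000000000000000000) (nat_lit 0x0) (nat_lit 0x800044000a00000000000000000000000000000000000000000000) := T_40 (nat_lit 198) (nat_lit 215) (nat_lit 7) (nat_lit 10) (nat_lit 8) L107941 (by decide +kernel)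
theorem L107943 : W_40 (nat_lit 4) (nat_lit 0x200014000e0005000080000000000000000000000000000000) (nat_lit 0x0) (nat_lit 0x800044000a00000000000040002000000000000000000000000000) := T_40 (nat_lit 126) (nat_lit 109) (nat_lit 4) (nat_lit 8) (nat_lit 10) L107942 (by decide +kernel)
theorem L107944 : W_40 (nat_lit 2) (nat_lit 0x8000c000200014000e00050001c0000000000000000000000000000000) (nat_lit 0x0) (nat_lit 0x80004000200000000000000000000000000000000000000000000000000000) := D_40 (nat_lit 230) (nat_lit 247) (nat_lit 213) (nat_lit 5) (nat_lit 10) (nat_lit 10) (nat_lit 5) (nat_lit 10) (nat_lit 9) (by decide +kernel)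
theorem L107945 : W_40 (nat_lit 3) (nat_lit 0xc000200014000e00050001c0000000000000000000000000000000) (nat_lit 0x0) (nat_lit 0x8000c000200000000800000000000000000000000000000000000000000000) := T_40 (nat_lit 231) (nat_lit 179) (nat_lit 4) (nat_lit 10) (nat_lit 13) L107944 (by decide +kernel)
theorem L107946 : W_40 (nat_lit 4) (nat_lit 0x8000200014000e00050001c0000000000000000000000000000000) (nat_lit 0x0) (nat_lit 0x8001c000600000000800000000000000000000000000000000000000000000) := T_40 (nat_lit 214) (nat_lit 232) (nat_lit 7) (nat_lit 10) (nat_lit 9) L107945 (by decide +kernel)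
theorem L107947 : W_40 (nat_lit 5) (nat_lit 0x200014000e00050001c0000000000000000000000000000000) (nat_lit 0x0) (nat_lit 0x8001c000e00040000800000000000000000000000000000000000000000000) := T_40 (nat_lit 215) (nat_lit 198) (nat_lit 7) (nat_lit 10) (nat_lit 8) L107946 (by decide +kernel)
theorem L107948 : W_40 (nat_lit 6) (nat_lit 0x200014000e0005000180000000000000000000000000000000) (nat_lit 0x0) (nat_lit 0x8001c000e00040000800000000000040002000000000000000000000000000) := T_40 (nat_lit 126) (nat_lit 109) (nat_lit 4) (nat_lit 8) (nat_lit 10) L107947 (by decide +kernel)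
theorem L107949 : W_40 (nat_lit 7) (nat_lit 0x200014000e0005000080000000000000000000000000000000) (nat_lit 0x0) (nat_lit 0x8001c000e0004000080000000000014000a000000000000000000000000000) := T_40 (nat_lit 128) (nat_lit 111) (nat_lit 6) (nat_lit 8) (nat_lit 10) L107948 (by decide +kernel)
theorem L107950 : W_40 (nat_lit 2) (nat_lit 0xc0002c0014000e00050001c0000000000000000000000000000000) (nat_lit 0x0) (nat_lit 0x4000300000000000000000000000000000000000000000000000000000) := D_40 (nat_lit 213) (nat_lit 230) (nat_lit 212) (nat_lit 5) (nat_lit 10) (nat_lit 9) (nat_lit 0) (nat_lit 11) (nat_lit 12) (by decide +kernel)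
theorem L107951 : W_40 (nat_lit 3) (nat_lit 0x80002c0014000e00050001c0000000000000000000000000000000) (nat_lit 0x0) (nat_lit 0x14000700000000000000000000000000000000000000000000000000000) := T_40 (nat_lit 214) (nat_lit 232) (nat_lit 7) (nat_lit 10) (nat_lit 9) L107950 (by decide +kernel)
theorem L107952 : W_40 (nat_lit 4) (nat_lit 0x80002c0014000e00050000c0000000000000000000000000000000) (nat_lit 0x0) (nat_lit 0x14000700000000000000000000100008000000000000000000000000000) := T_40 (nat_lit 128) (nat_lit 111) (nat_lit 6) (nat_lit 8) (nat_lit 10) L107951 (by decide +kernel)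
theorem L107953 : W_40 (nat_lit 5) (nat_lit 0x8000240014000e00050000c0000000000000000000000000000000) (nat_lit 0x0) (nat_lit 0x14000780008000000000000000100008000000000000000000000000000) := T_40 (nat_lit 195) (nat_lit 211) (nat_lit 5) (nat_lit 8) (nat_lit 8) L107952 (by decide +kernel)
theorem L107954 : W_40 (nat_lit 6) (nat_lit 0x8000240014000e0005000080000000000000000000000000000000) (nat_lit 0x0) (nat_lit 0x1400078000800000000000000014000a000000000000000000000000000) := T_40 (nat_lit 126) (nat_lit 109) (nat_lit 4) (nat_lit 8) (nat_lit 10) L107953 (by decide +kernel)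
theorem L107955 : W_40 (nat_lit 7) (nat_lit 0x8000200014000e0005000080000000000000000000000000000000) (nat_lit 0x0) (nat_lit 0x1400078000c00020000000000014000a000000000000000000000000000) := T_40 (nat_lit 194) (nat_lit 177) (nat_lit 5) (nat_lit 8) (nat_lit 7) L107954 (by decide +kernel)
theorem L107956 : W_40 (nat_lit 8) (nat_lit 0x200014000e0005000080000000000000000000000000000000) (nat_lit 0x0) (nat_lit 0x14000f8004c00020000000000014000a000000000000000000000000000) := T_40 (nat_lit 215) (nat_lit 198) (nat_lit 7) (nat_lit 10) (nat_lit 8) L107955 (by decide +kernel)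
theorem L107957 : W_40 (nat_lit 2) (nat_lit 0x80004000200014000e0005000180000000000000000000000000000000) (nat_lit 0x0) (nat_lit 0x80004000200000000000000000000000000000000000000000000000000000) := D_40 (nat_lit 230) (nat_lit 247) (nat_lit 213) (nat_lit 5) (nat_lit 10) (nat_lit 10) (nat_lit 5) (nat_lit 10) (nat_lit 9) (by decide +kernel)
theorem L107958 : W_40 (nat_lit 3) (nat_lit 0x4000200014000e0005000180000000000000000000000000000000) (nat_lit 0x0) (nat_lit 0x8000c000200000000800000000000000000000000000000000000000000000) := T_40 (nat_lit 231) (nat_lit 179) (nat_lit 4) (nat_lit 10) (nat_lit 13) L107957 (by decide +kernel)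
theorem L107959 : W_40 (nat_lit 4) (nat_lit 0x4000200014000e0005000080000000000000000000000000000000) (nat_lit 0x0) (nat_lit 0x8000c000200000000800000000000100008000000000000000000000000000) := T_40 (nat_lit 128) (nat_lit 111) (nat_lit 6) (nat_lit 8) (nat_lit 10) L107958 (by decide +kernel)
theorem L107960 : W_40 (nat_lit 2) (nat_lit 0x80004000200014000e0005000080000000000000000000000000000000) (nat_lit 0x0) (nat_lit 0x80004000200000000000000000000000000000000000000000000000000000) := D_40 (nat_lit 230) (nat_lit 247) (nat_lit 213) (nat_lit 5) (nat_lit 10) (nat_lit 10) (nat_lit 5) (nat_lit 10) (nat_lit 9) (by decide +kernel)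
theorem L107961 : W_40 (nat_lit 3) (nat_lit 0x4000200014000e0005000080000000000000000000000000000000) (nat_lit 0x0) (nat_lit 0x8000c000200000000800000000000000000000000000000000000000000000) := T_40 (nat_lit 231) (nat_lit 179) (nat_lit 4) (nat_lit 10) (nat_lit 13) L107960 (by decide +kernel)
theorem L107962 : W_40 (nat_lit 2) (nat_lit 0x1f0004800240014000e00050001c0000000000000000000000000000000) (nat_lit 0x0) (nat_lit 0x70000000000000000000000000000000000000000000000000000000000000) := D_40 (nat_lit 245) (nat_lit 244) (nat_lit 246) (nat_lit 1) (nat_lit 10) (nat_lit 13) (nat_lit 1) (nat_lit 11) (nat_lit 13) (by decide +kernel)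
theorem L107963 : W_40 (nat_lit 3) (nat_lit 0x1e0004800240014000e00050001c0000000000000000000000000000000) (nat_lit 0x0) (nat_lit 0x70001000040000000000000000000000000000000000000000000000000000) := T_40 (nat_lit 228) (nat_lit 210) (nat_lit 0) (nat_lit 10) (nat_lit 13) L107962 (by decide +kernel)
theorem L107964 : W_40 (nat_lit 4) (nat_lit 0x1c0004800240014000e00050001c0000000000000000000000000000000) (nat_lit 0x0) (nat_lit 0x70003000140000000000000000000000000000000000000000000000000000) := T_40 (nat_lit 229) (nat_lit 212) (nat_lit 0) (nat_lit 11) (nat_lit 13) L107963 (by decide +kernel)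
theorem L107965 : W_40 (nat_lit 5) (nat_lit 0x1c0004000240014000e00050001c0000000000000000000000000000000) (nat_lit 0x0) (nat_lit 0x700030001c0008000000000000000000000000000000000000000000000000) := T_40 (nat_lit 211) (nat_lit 195) (nat_lit 5) (nat_lit 8) (nat_lit 8) L107964 (by decide +kernel)
theorem L107966 : W_40 (nat_lit 6) (nat_lit 0x1c0004000200014000e00050001c0000000000000000000000000000000) (nat_lit 0x0) (nat_lit 0x700030001c000c000200000000000000000000000000000000000000000000) := T_40 (nat_lit 194) (nat_lit 177) (nat_lit 5) (nat_lit 8) (nat_lit 7) L107965 (by decide +kernel)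
theorem L107967 : W_40 (nat_lit 7) (nat_lit 0x1c0004000200014000e0005000180000000000000000000000000000000) (nat_lit 0x0) (nat_lit 0x700030001c000c000200000000000040002000000000000000000000000000) := T_40 (nat_lit 126) (nat_lit 109) (nat_lit 4) (nat_lit 8) (nat_lit 10) L107966 (by decide +kernel)
theorem L107968 : W_40 (nat_lit 8) (nat_lit 0x1c0004000200014000e0005000080000000000000000000000000000000) (nat_lit 0x0) (nat_lit 0x700030001c000c00020000000000014000a000000000000000000000000000) := T_40 (nat_lit 128) (nat_lit 111) (nat_lit 6) (nat_lit 8) (nat_lit 10) L107967 (by decide +kernel)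
theorem L107969 : W_40 (nat_lit 9) (nat_lit 0xc0004000200014000e0005000080000000000000000000000000000000) (nat_lit 0x0) (nat_lit 0x2700130001c000c00020000000000014000a000000000000000000000000000) := T_40 (nat_lit 232) (nat_lit 249) (nat_lit 7) (nat_lit 10) (nat_lit 10) L107968 (by decide +kernel)
theorem L107970 : W_40 (nat_lit 10) (nat_lit 0x80004000200014000e0005000080000000000000000000000000000000) (nat_lit 0x0) (nat_lit 0x2f00170001c000c00020000000000014000a000000000000000000000000000) := T_40 (nat_lit 230) (nat_lit 247) (nat_lit 5) (nat_lit 10) (nat_lit 10) L107969 (by decide +kernel)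
theorem L107971 : W_40 (nat_lit 11) (nat_lit 0x4000200014000e0005000080000000000000000000000000000000) (nat_lit 0x0) (nat_lit 0x2f001f0001c000c000a0000000000014000a000000000000000000000000000) := T_40 (nat_lit 231) (nat_lit 179) (nat_lit 4) (nat_lit 10) (nat_lit 13) L107970 (by decide +kernel)
theorem L107972 : W_40 (nat_lit 2) (nat_lit 0x6800240014000e0005000080000000000000000000000000000000) (nat_lit 0x0) (nat_lit 0x100042000000000000000000000000000000000000000000000000) := D_40 (nat_lit 212) (nat_lit 198) (nat_lit 193) (nat_lit 2) (nat_lit 7) (nat_lit 12) (nat_lit 0) (nat_lit 10) (nat_lit 12) (by decide +kernel)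
theorem L107973 : W_40 (nat_lit 3) (nat_lit 0x6000240014000e0005000080000000000000000000000000000000) (nat_lit 0x0) (nat_lit 0x18004a000000000000000000000000000000000000000000000000) := T_40 (nat_lit 211) (nat_lit 195) (nat_lit 5) (nat_lit 8) (nat_lit 8) L107972 (by decide +kernel)
theorem L107974 : W_40 (nat_lit 4) (nat_lit 0x4000240014000e0005000080000000000000000000000000000000) (nat_lit 0x0) (nat_lit 0x400038004a000000000000000000000000000000000000000000000000) := T_40 (nat_lit 213) (nat_lit 230) (nat_lit 5) (nat_lit 10) (nat_lit 9) L107973 (by decide +kernel)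
theorem L107975 : W_40 (nat_lit 5) (nat_lit 0x4000200014000e0005000080000000000000000000000000000000) (nat_lit 0x0) (nat_lit 0x400038004e000200000000000000000000000000000000000000000000) := T_40 (nat_lit 194) (nat_lit 177) (nat_lit 5) (nat_lit 8) (nat_lit 7) L107974 (by decide +kernel)
theorem L107976 : W_40 (nat_lit 2) (nat_lit 0x4000200016000e0005000180000000000000000000000000000000) (nat_lit 0x0) (nat_lit 0x8000000040000800000000000000000000000000000000000000000000) := D_40 (nat_lit 179) (nat_lit 198) (nat_lit 231) (nat_lit 3) (nat_lit 7) (nat_lit 10) (nat_lit 4) (nat_lit 10) (nat_lit 13) (by decide +kernel)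
theorem L107977 : W_40 (nat_lit 3) (nat_lit 0x4000200014000e0005000180000000000000000000000000000000) (nat_lit 0x0) (nat_lit 0x8000000044000a00000000000000000000000000000000000000000000) := T_40 (nat_lit 177) (nat_lit 194) (nat_lit 5) (nat_lit 8) (nat_lit 7) L107976 (by decide +kernel)
theorem L107978 : W_40 (nat_lit 4) (nat_lit 0x4000200014000e0005000080000000000000000000000000000000) (nat_lit 0x0) (nat_lit 0x8000000044000a00000000000100008000000000000000000000000000) := T_40 (nat_lit 128) (nat_lit 111) (nat_lit 6) (nat_lit 8) (nat_lit 10) L107977 (by decide +kernel)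
theorem L107979 : W_40 (nat_lit 12) (nat_lit 0x200014000e0005000080000000000000000000000000000000) (nat_lit 0x0) (nat_lit 0x2f001f0007c004e000a0000000000014000a000000000000000000000000000) := Q_40 (nat_lit 214) (C_40 L107959 (C_40 L107961 (C_40 L107971 (C_40 L107975 (C_40 L107978 N_40))))) (by decide +kernel)
theorem L107980 : W_40 (nat_lit 2) (nat_lit 0xe000240014000e0005000080000000000000000000000000000000) (nat_lit 0x0) (nat_lit 0x180008000000000000000000000000000000000000000000000000) := D_40 (nat_lit 195) (nat_lit 212) (nat_lit 211) (nat_lit 0) (nat_lit 11) (nat_lit 12) (nat_lit 5) (nat_lit 8) (nat_lit 8) (by decide +kernel)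
theorem L107981 : W_40 (nat_lit 3) (nat_lit 0xc000240014000e0005000080000000000000000000000000000000) (nat_lit 0x0) (nat_lit 0x4000380008000000000000000000000000000000000000000000000000) := T_40 (nat_lit 213) (nat_lit 230) (nat_lit 5) (nat_lit 10) (nat_lit 9) L107980 (by decide +kernel)
theorem L107982 : W_40 (nat_lit 4) (nat_lit 0xc000200014000e0005000080000000000000000000000000000000) (nat_lit 0x0) (nat_lit 0x400038000c000200000000000000000000000000000000000000000000) := T_40 (nat_lit 194) (nat_lit 177) (nat_lit 5) (nat_lit 8) (nat_lit 7) L107981 (by decide +kernel)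
theorem L107983 : W_40 (nat_lit 5) (nat_lit 0x4000200014000e0005000080000000000000000000000000000000) (nat_lit 0x0) (nat_lit 0x14000b8000c000200000000000000000000000000000000000000000000) := T_40 (nat_lit 215) (nat_lit 232) (nat_lit 7) (nat_lit 10) (nat_lit 9) L107982 (by decide +kernel)
theorem L107984 : W_40 (nat_lit 2) (nat_lit 0x80004000200014000e0005000080000000000000000000000000000000) (nat_lit 0x0) (nat_lit 0x200010000800000000000000000000000000000000000000000000000000000) := D_40 (nat_lit 232) (nat_lit 215) (nat_lit 249) (nat_lit 7) (nat_lit 10) (nat_lit 9) (nat_lit 7) (nat_lit 10) (nat_lit 10) (by decide +kernel)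
theorem L107985 : W_40 (nat_lit 3) (nat_lit 0x4000200014000e0005000080000000000000000000000000000000) (nat_lit 0x0) (nat_lit 0x200018000800000000800000000000000000000000000000000000000000000) := T_40 (nat_lit 231) (nat_lit 179) (nat_lit 4) (nat_lit 10) (nat_lit 13) L107984 (by decide +kernel)
theorem L107986 : W_40 (nat_lit 12) (nat_lit 0x200014000e0005000080000000000000000000000000000000) (nat_lit 0x0) (nat_lit 0x2f001f000fc000c000a0000000000014000a000000000000000000000000000) := Q_40 (nat_lit 214) (C_40 L107971 (C_40 L107961 (C_40 L107983 (C_40 L107985 N_40)))) (by decide +kernel)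
theorem L107987 : W_40 (nat_lit 13) (nat_lit 0x14000e0005000080000000000000000000000000000000) (nat_lit 0x0) (nat_lit 0x2f001f000fc006e000a0000000000014000a000000000000000000000000000) := Q_40 (nat_lit 197) (C_40 L107940 (C_40 L107943 (C_40 L107949 (C_40 L107956 (C_40 L107979 (C_40 L107986 N_40)))))) (by decide +kernel)
theorem L107988 : W_40 (nat_lit 14) (nat_lit 0x14000e0001000080000000000000000000000000000000) (nat_lit 0x0) (nat_lit 0x2f001f000fc006e000a0001e00c70034003a000000000000000000000000000) := Q_40 (nat_lit 146) (C_40 L107925 (C_40 L107929 (C_40 L107934 (C_40 L107937 (C_40 L107987 N_40))))) (by decide +kernel)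
theorem L107989 : W_40 (nat_lit 15) (nat_lit 0x4000e0001000080000000000000000000000000000000) (nat_lit 0x0) (nat_lit 0x2f001f000fc006e00fa0021e03c700f4007a000000000000000000000000000) := Q_40 (nat_lit 180) (C_40 L107881 (C_40 L107887 (C_40 L107893 (C_40 L107918 (C_40 L107920 (C_40 L107988 N_40)))))) (by decide +kernel)
theorem L107990 : W_40 (nat_lit 16) (nat_lit 0x400060001000080000000000000000000000000000000) (nat_lit 0x0) (nat_lit 0x2f001f000fc006e00fa0039e03c700f4007a000000000000000000000000000) := Q_40 (nat_lit 163) (C_40 L107876 (C_40 L107877 (C_40 L107989 N_40))) (by decide +kernel)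
theorem L107991 : W_40 (nat_lit 2) (nat_lit 0x4000780012000c0000000000000000000000000000000) (nat_lit 0x0) (nat_lit 0x800004000100000000000000000000000000000000000) := D_40 (nat_lit 158) (nat_lit 140) (nat_lit 179) (nat_lit 0) (nat_lit 8) (nat_lit 9) (nat_lit 3) (nat_lit 5) (nat_lit 9) (by decide +kernel)
theorem L107992 : W_40 (nat_lit 3) (nat_lit 0x4000680012000c0000000000000000000000000000000) (nat_lit 0x0) (nat_lit 0x800014000500000000000000000000000000000000000) := T_40 (nat_lit 160) (nat_lit 142) (nat_lit 0) (nat_lit 9) (nat_lit 9) L107991 (by decide +kernel)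
theorem L107993 : W_40 (nat_lit 4) (nat_lit 0x400068001200080000000000000000000000000000000) (nat_lit 0x0) (nat_lit 0x800014000500040002000000000000000000000000000) := T_40 (nat_lit 126) (nat_lit 109) (nat_lit 4) (nat_lit 8) (nat_lit 10) L107992 (by decide +kernel)
theorem L107994 : W_40 (nat_lit 4) (nat_lit 0x400068001200080000000000000000000000000000000) (nat_lit 0x0) (nat_lit 0x1c0014000500000000000000000000000000000000000) := T_40 (nat_lit 160) (nat_lit 142) (nat_lit 0) (nat_lit 9) (nat_lit 9) L102103 (by decide +kernel)
theorem L107995 : W_40 (nat_lit 2) (nat_lit 0x4000680012001f0000000000000000000000000000000) (nat_lit 0x0) (nat_lit 0x1c00000000000000000000000000) := D_40 (nat_lit 107) (nat_lit 108) (nat_lit 106) (nat_lit 0) (nat_lit 9) (nat_lit 7) (nat_lit 0) (nat_lit 8) (nat_lit 7) (by decide +kernel)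
theorem L107996 : W_40 (nat_lit 3) (nat_lit 0x4000680012001e0000000000000000000000000000000) (nat_lit 0x0) (nat_lit 0x100010001c00000000000000000000000000) := T_40 (nat_lit 124) (nat_lit 140) (nat_lit 1) (nat_lit 8) (nat_lit 7) L107995 (by decide +kernel)
theorem L107997 : W_40 (nat_lit 4) (nat_lit 0x4000680012001c0000000000000000000000000000000) (nat_lit 0x0) (nat_lit 0x500030001c00000000000000000000000000) := T_40 (nat_lit 125) (nat_lit 142) (nat_lit 1) (nat_lit 9) (nat_lit 7) L107996 (by decide +kernel)
theorem L107998 : W_40 (nat_lit 5) (nat_lit 0x4000680012000c0000000000000000000000000000000) (nat_lit 0x0) (nat_lit 0x500130009c00000000000000000000000000) := T_40 (nat_lit 128) (nat_lit 111) (nat_lit 6) (nat_lit 8) (nat_lit 10) L107997 (by decide +kernel)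
theorem L107999 : W_40 (nat_lit 6) (nat_lit 0x400068001200080000000000000000000000000000000) (nat_lit 0x0) (nat_lit 0x50017000bc00000000000000000000000000) := T_40 (nat_lit 126) (nat_lit 109) (nat_lit 4) (nat_lit 8) (nat_lit 10) L107998 (by decide +kernel)
theorem L108000 : W_40 (nat_lit 2) (nat_lit 0x40006c001200080000000000000000000000000000000) (nat_lit 0x0) (nat_lit 0x800010000100000000000000000000000000000000000) := D_40 (nat_lit 160) (nat_lit 140) (nat_lit 179) (nat_lit 0) (nat_lit 8) (nat_lit 9) (nat_lit 3) (nat_lit 5) (nat_lit 9) (by decide +kernel)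
theorem L108001 : W_40 (nat_lit 2) (nat_lit 0x40007c001200180000000000000000000000000000000) (nat_lit 0x0) (nat_lit 0x1c0000000000000000000000000000000000000000000) := D_40 (nat_lit 175) (nat_lit 176) (nat_lit 174) (nat_lit 1) (nat_lit 9) (nat_lit 9) (nat_lit 1) (nat_lit 8) (nat_lit 9) (by decide +kernel)
theorem L108002 : W_40 (nat_lit 3) (nat_lit 0x40006c001200180000000000000000000000000000000) (nat_lit 0x0) (nat_lit 0x1c0010000100000000000000000000000000000000000) := T_40 (nat_lit 160) (nat_lit 140) (nat_lit 0) (nat_lit 8) (nat_lit 9) L108001 (by decide +kernel)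
theorem L108003 : W_40 (nat_lit 4) (nat_lit 0x40006c001200080000000000000000000000000000000) (nat_lit 0x0) (nat_lit 0x1c0010000100100008000000000000000000000000000) := T_40 (nat_lit 128) (nat_lit 111) (nat_lit 6) (nat_lit 8) (nat_lit 10) L108002 (by decide +kernel)
theorem L108004 : W_40 (nat_lit 2) (nat_lit 0x40006c0012000f0000000000000000000000000000000) (nat_lit 0x0) (nat_lit 0x100000000000000000c00000000000000000000000000) := D_40 (nat_lit 107) (nat_lit 176) (nat_lit 106) (nat_lit 7) (nat_lit 5) (nat_lit 6) (nat_lit 0) (nat_lit 8) (nat_lit 7) (by decide +kernel)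
theorem L108005 : W_40 (nat_lit 3) (nat_lit 0x40006c0012000d0000000000000000000000000000000) (nat_lit 0x0) (nat_lit 0x100000000100020000c00000000000000000000000000) := T_40 (nat_lit 125) (nat_lit 140) (nat_lit 1) (nat_lit 8) (nat_lit 7) L108004 (by decide +kernel)
theorem L108006 : W_40 (nat_lit 4) (nat_lit 0x40006c001200090000000000000000000000000000000) (nat_lit 0x0) (nat_lit 0x100000000100060002c00000000000000000000000000) := T_40 (nat_lit 126) (nat_lit 109) (nat_lit 4) (nat_lit 8) (nat_lit 10) L108005 (by decide +kernel)
theorem L108007 : W_40 (nat_lit 2) (nat_lit 0x48006c001200090000c00000000000000000000000000) (nat_lit 0x0) (nat_lit 0x800040002000000000000000000000000000000000000000) := D_40 (nat_lit 174) (nat_lit 191) (nat_lit 157) (nat_lit 5) (nat_lit 5) (nat_lit 7) (nat_lit 5) (nat_lit 5) (nat_lit 6) (by decide +kernel)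
theorem L108008 : W_40 (nat_lit 3) (nat_lit 0x40006c001200090000c00000000000000000000000000) (nat_lit 0x0) (nat_lit 0x8000c0002000000008000000000000000000000000000000) := T_40 (nat_lit 175) (nat_lit 123) (nat_lit 4) (nat_lit 5) (nat_lit 10) L108007 (by decide +kernel)
theorem L108009 : W_40 (nat_lit 4) (nat_lit 0x40006c001200090000800000000000000000000000000) (nat_lit 0x0) (nat_lit 0x8000c0002000000008000400020000000000000000000000) := T_40 (nat_lit 106) (nat_lit 89) (nat_lit 4) (nat_lit 5) (nat_lit 9) L108008 (by decide +kernel)
theorem L108010 : W_40 (nat_lit 5) (nat_lit 0x40006c001200090000000000000000000000000000000) (nat_lit 0x0) (nat_lit 0x8001c0002000000008000c00020000000000000000000000) := T_40 (nat_lit 107) (nat_lit 176) (nat_lit 7) (nat_lit 5) (nat_lit 6) L108009 (by decide +kernel)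
theorem L108011 : W_40 (nat_lit 2) (nat_lit 0x40006c0012001f0000000000000000000000000000000) (nat_lit 0x0) (nat_lit 0x80000000000000001800000000000000000000000000) := D_40 (nat_lit 108) (nat_lit 107) (nat_lit 175) (nat_lit 0) (nat_lit 9) (nat_lit 7) (nat_lit 6) (nat_lit 5) (nat_lit 10) (by decide +kernel)
theorem L108012 : W_40 (nat_lit 3) (nat_lit 0x40006c0012000f0000000000000000000000000000000) (nat_lit 0x0) (nat_lit 0x80000000000100009800000000000000000000000000) := T_40 (nat_lit 128) (nat_lit 111) (nat_lit 6) (nat_lit 8) (nat_lit 10) L108011 (by decide +kernel)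
theorem L108013 : W_40 (nat_lit 4) (nat_lit 0x40006c0012000d0000000000000000000000000000000) (nat_lit 0x0) (nat_lit 0x80000000100120009800000000000000000000000000) := T_40 (nat_lit 125) (nat_lit 140) (nat_lit 1) (nat_lit 8) (nat_lit 7) L108012 (by decide +kernel)
theorem L108014 : W_40 (nat_lit 5) (nat_lit 0x40006c001200090000000000000000000000000000000) (nat_lit 0x0) (nat_lit 0x8000000010016000b800000000000000000000000000) := T_40 (nat_lit 126) (nat_lit 109) (nat_lit 4) (nat_lit 8) (nat_lit 10) L108013 (by decide +kernel)
theorem L108015 : W_40 (nat_lit 2) (nat_lit 0x300048006c0012001f8000000000000000000000000000000) (nat_lit 0x0) (nat_lit 0x10000800040000000000000000000000000000000000000000000) := D_40 (nat_lit 191) (nat_lit 208) (nat_lit 174) (nat_lit 5) (nat_lit 5) (nat_lit 8) (nat_lit 5) (nat_lit 5) (nat_lit 7) (by decide +kernel)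
theorem L108016 : W_40 (nat_lit 3) (nat_lit 0x200048006c0012001f8000000000000000000000000000000) (nat_lit 0x0) (nat_lit 0x50001800040000000000000000000000000000000000000000000) := T_40 (nat_lit 192) (nat_lit 210) (nat_lit 7) (nat_lit 5) (nat_lit 8) L108015 (by decide +kernel)
theorem L108017 : W_40 (nat_lit 4) (nat_lit 0x200048006c0012001f0000000000000000000000000000000) (nat_lit 0x0) (nat_lit 0x50001800040000000000008000400000000000000000000000000) := T_40 (nat_lit 123) (nat_lit 106) (nat_lit 4) (nat_lit 5) (nat_lit 10) L108016 (by decide +kernel)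
theorem L108018 : W_40 (nat_lit 5) (nat_lit 0x48006c0012001f0000000000000000000000000000000) (nat_lit 0x0) (nat_lit 0x50003800140000000000008000400000000000000000000000000) := T_40 (nat_lit 193) (nat_lit 176) (nat_lit 7) (nat_lit 5) (nat_lit 7) L108017 (by decide +kernel)
theorem L108019 : W_40 (nat_lit 6) (nat_lit 0x40006c0012001f0000000000000000000000000000000) (nat_lit 0x0) (nat_lit 0x500038001c0000000000008001400000000000000000000000000) := T_40 (nat_lit 175) (nat_lit 108) (nat_lit 6) (nat_lit 5) (nat_lit 10) L108018 (by decide +kernel)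
theorem L108020 : W_40 (nat_lit 7) (nat_lit 0x40006c0012001d0000000000000000000000000000000) (nat_lit 0x0) (nat_lit 0x500038001c0000000100028001400000000000000000000000000) := T_40 (nat_lit 125) (nat_lit 140) (nat_lit 1) (nat_lit 8) (nat_lit 7) L108019 (by decide +kernel)
theorem L108021 : W_40 (nat_lit 8) (nat_lit 0x40006c001200190000000000000000000000000000000) (nat_lit 0x0) (nat_lit 0x500038001c0000000100068003400000000000000000000000000) := T_40 (nat_lit 126) (nat_lit 109) (nat_lit 4) (nat_lit 8) (nat_lit 10) L108020 (by decide +kernel)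
theorem L108022 : W_40 (nat_lit 9) (nat_lit 0x40006c001200090000000000000000000000000000000) (nat_lit 0x0) (nat_lit 0x500038001c000000010016800b400000000000000000000000000) := T_40 (nat_lit 128) (nat_lit 111) (nat_lit 6) (nat_lit 8) (nat_lit 10) L108021 (by decide +kernel)
theorem L108023 : W_40 (nat_lit 10) (nat_lit 0x40006c001200080000000000000000000000000000000) (nat_lit 0x0) (nat_lit 0x500038001c000200010017800bc00020000000000000000000000) := Q_40 (nat_lit 124) (C_40 L108006 (C_40 L108010 (C_40 L108014 (C_40 L108022 N_40)))) (by decide +kernel)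
theorem L108024 : W_40 (nat_lit 2) (nat_lit 0x40007c0012000c0000000000000000000000000000000) (nat_lit 0x0) (nat_lit 0x1c0000000000000000000000000000000000000000000) := D_40 (nat_lit 175) (nat_lit 176) (nat_lit 174) (nat_lit 1) (nat_lit 9) (nat_lit 9) (nat_lit 1) (nat_lit 8) (nat_lit 9) (by decide +kernel)
theorem L108025 : W_40 (nat_lit 3) (nat_lit 0x40006c0012000c0000000000000000000000000000000) (nat_lit 0x0) (nat_lit 0x9c0010000000000000000000000000000000000000000) := T_40 (nat_lit 160) (nat_lit 179) (nat_lit 3) (nat_lit 5) (nat_lit 9) L108024 (by decide +kernel)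
theorem L108026 : W_40 (nat_lit 4) (nat_lit 0x40006c001200080000000000000000000000000000000) (nat_lit 0x0) (nat_lit 0x9c0010000000040002000000000000000000000000000) := T_40 (nat_lit 126) (nat_lit 109) (nat_lit 4) (nat_lit 8) (nat_lit 10) L108025 (by decide +kernel)
theorem L108027 : W_40 (nat_lit 11) (nat_lit 0x400068001200080000000000000000000000000000000) (nat_lit 0x0) (nat_lit 0x500038009c001600010017800bc00020000000000000000000000) := Q_40 (nat_lit 158) (C_40 L108000 (C_40 L108003 (C_40 L108023 (C_40 L108026 N_40)))) (by decide +kernel)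
theorem L108028 : W_40 (nat_lit 2) (nat_lit 0x4000780012000c0000000000000000000000000000000) (nat_lit 0x0) (nat_lit 0x1800004000000000000000000000000000000000000000) := D_40 (nat_lit 179) (nat_lit 158) (nat_lit 180) (nat_lit 3) (nat_lit 5) (nat_lit 9) (nat_lit 3) (nat_lit 6) (nat_lit 9) (by decide +kernel)
theorem L108029 : W_40 (nat_lit 3) (nat_lit 0x4000680012000c0000000000000000000000000000000) (nat_lit 0x0) (nat_lit 0x1800014000400000000000000000000000000000000000) := T_40 (nat_lit 160) (nat_lit 142) (nat_lit 0) (nat_lit 9) (nat_lit 9) L108028 (by decide +kernel)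
theorem L108030 : W_40 (nat_lit 4) (nat_lit 0x400068001200080000000000000000000000000000000) (nat_lit 0x0) (nat_lit 0x1800014000400040002000000000000000000000000000) := T_40 (nat_lit 126) (nat_lit 109) (nat_lit 4) (nat_lit 8) (nat_lit 10) L108029 (by decide +kernel)
theorem L108031 : W_40 (nat_lit 12) (nat_lit 0x400068001000080000000000000000000000000000000) (nat_lit 0x0) (nat_lit 0x500038019c001600070017800bc00020000000000000000000000) := Q_40 (nat_lit 141) (C_40 L107993 (C_40 L107994 (C_40 L107999 (C_40 L108027 (C_40 L108030 N_40))))) (by decide +kernel)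
theorem L108032 : W_40 (nat_lit 2) (nat_lit 0x42001f00068001000180000000000000000000000000000000) (nat_lit 0x0) (nat_lit 0x80006000000000000000000000000000000000000000000000) := D_40 (nat_lit 181) (nat_lit 182) (nat_lit 199) (nat_lit 0) (nat_lit 12) (nat_lit 10) (nat_lit 3) (nat_lit 8) (nat_lit 10) (by decide +kernel)
theorem L108033 : W_40 (nat_lit 3) (nat_lit 0x2001f00068001000180000000000000000000000000000000) (nat_lit 0x0) (nat_lit 0xe0006000000000000000000000000000000000000000000000) := T_40 (nat_lit 198) (nat_lit 197) (nat_lit 3) (nat_lit 7) (nat_lit 10) L108032 (by decide +kernel)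
theorem L108034 : W_40 (nat_lit 4) (nat_lit 0x2000f00068001000180000000000000000000000000000000) (nat_lit 0x0) (nat_lit 0xe0007000010000000000000000000000000000000000000000) := T_40 (nat_lit 180) (nat_lit 160) (nat_lit 3) (nat_lit 6) (nat_lit 9) L108033 (by decide +kernel)
theorem L108035 : W_40 (nat_lit 5) (nat_lit 0xf00068001000180000000000000000000000000000000) (nat_lit 0x0) (nat_lit 0xe3007000010000000000000000000000000000000000000000) := T_40 (nat_lit 193) (nat_lit 192) (nat_lit 1) (nat_lit 9) (nat_lit 10) L108034 (by decide +kernel)
theorem L108036 : W_40 (nat_lit 6) (nat_lit 0x700068001000180000000000000000000000000000000) (nat_lit 0x0) (nat_lit 0xe3007800014000000000000000000000000000000000000000) := T_40 (nat_lit 179) (nat_lit 158) (nat_lit 0) (nat_lit 9) (nat_lit 10) L108035 (by decide +kernel)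
theorem L108037 : W_40 (nat_lit 7) (nat_lit 0x700068001000080000000000000000000000000000000) (nat_lit 0x0) (nat_lit 0xe3007800014000000100008000000000000000000000000000) := T_40 (nat_lit 128) (nat_lit 111) (nat_lit 6) (nat_lit 8) (nat_lit 10) L108036 (by decide +kernel)
theorem L108038 : W_40 (nat_lit 8) (nat_lit 0x600068001000080000000000000000000000000000000) (nat_lit 0x0) (nat_lit 0xe3007980014000000100008000000000000000000000000000) := T_40 (nat_lit 176) (nat_lit 175) (nat_lit 2) (nat_lit 5) (nat_lit 10) L108037 (by decide +kernel)
theorem L108039 : W_40 (nat_lit 9) (nat_lit 0x400068001000080000000000000000000000000000000) (nat_lit 0x0) (nat_lit 0xe7007b80014000000100008000000000000000000000000000) := T_40 (nat_lit 177) (nat_lit 194) (nat_lit 5) (nat_lit 8) (nat_lit 7) L108038 (by decide +kernel)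
theorem L108040 : W_40 (nat_lit 2) (nat_lit 0x42001f000680010000c0000000000000000000000000000000) (nat_lit 0x0) (nat_lit 0x80006000000000000000000000000000000000000000000000) := D_40 (nat_lit 181) (nat_lit 182) (nat_lit 199) (nat_lit 0) (nat_lit 12) (nat_lit 10) (nat_lit 3) (nat_lit 8) (nat_lit 10) (by decide +kernel)
theorem L108041 : W_40 (nat_lit 3) (nat_lit 0x2001f000680010000c0000000000000000000000000000000) (nat_lit 0x0) (nat_lit 0xe0006000000000000000000000000000000000000000000000) := T_40 (nat_lit 198) (nat_lit 197) (nat_lit 3) (nat_lit 7) (nat_lit 10) L108040 (by decide +kernel)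
theorem L108042 : W_40 (nat_lit 4) (nat_lit 0x2000f000680010000c0000000000000000000000000000000) (nat_lit 0x0) (nat_lit 0xe0007000010000000000000000000000000000000000000000) := T_40 (nat_lit 180) (nat_lit 160) (nat_lit 3) (nat_lit 6) (nat_lit 9) L108041 (by decide +kernel)
theorem L108043 : W_40 (nat_lit 5) (nat_lit 0xf000680010000c0000000000000000000000000000000) (nat_lit 0x0) (nat_lit 0xe3007000010000000000000000000000000000000000000000) := T_40 (nat_lit 193) (nat_lit 192) (nat_lit 1) (nat_lit 9) (nat_lit 10) L108042 (by decide +kernel)
theorem L108044 : W_40 (nat_lit 6) (nat_lit 0x7000680010000c0000000000000000000000000000000) (nat_lit 0x0) (nat_lit 0xe3007800014000000000000000000000000000000000000000) := T_40 (nat_lit 179) (nat_lit 158) (nat_lit 0) (nat_lit 9) (nat_lit 10) L108043 (by decide +kernel)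
theorem L108045 : W_40 (nat_lit 7) (nat_lit 0x6000680010000c0000000000000000000000000000000) (nat_lit 0x0) (nat_lit 0xe3007980014000000000000000000000000000000000000000) := T_40 (nat_lit 176) (nat_lit 175) (nat_lit 2) (nat_lit 5) (nat_lit 10) L108044 (by decide +kernel)
theorem L108046 : W_40 (nat_lit 8) (nat_lit 0x4000680010000c0000000000000000000000000000000) (nat_lit 0x0) (nat_lit 0xe7007b80014000000000000000000000000000000000000000) := T_40 (nat_lit 177) (nat_lit 194) (nat_lit 5) (nat_lit 8) (nat_lit 7) L108045 (by decide +kernel)
theorem L108047 : W_40 (nat_lit 9) (nat_lit 0x400068001000080000000000000000000000000000000) (nat_lit 0x0) (nat_lit 0xe7007b80014000000040002000000000000000000000000000) := T_40 (nat_lit 126) (nat_lit 109) (nat_lit 4) (nat_lit 8) (nat_lit 10) L108046 (by decide +kernel)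
theorem L108048 : W_40 (nat_lit 2) (nat_lit 0x70006c001000180000000000000000000000000000000) (nat_lit 0x0) (nat_lit 0x13000000000000000000000000000000000000000) := D_40 (nat_lit 157) (nat_lit 156) (nat_lit 160) (nat_lit 3) (nat_lit 3) (nat_lit 9) (nat_lit 3) (nat_lit 4) (nat_lit 9) (by decide +kernel)
theorem L108049 : W_40 (nat_lit 3) (nat_lit 0x700068001000180000000000000000000000000000000) (nat_lit 0x0) (nat_lit 0x800017000000000000000000000000000000000000000) := T_40 (nat_lit 158) (nat_lit 179) (nat_lit 0) (nat_lit 9) (nat_lit 10) L108048 (by decide +kernel)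
theorem L108050 : W_40 (nat_lit 4) (nat_lit 0x700068001000080000000000000000000000000000000) (nat_lit 0x0) (nat_lit 0x800017000000100008000000000000000000000000000) := T_40 (nat_lit 128) (nat_lit 111) (nat_lit 6) (nat_lit 8) (nat_lit 10) L108049 (by decide +kernel)
theorem L108051 : W_40 (nat_lit 5) (nat_lit 0x600068001000080000000000000000000000000000000) (nat_lit 0x0) (nat_lit 0x980017000000100008000000000000000000000000000) := T_40 (nat_lit 176) (nat_lit 175) (nat_lit 2) (nat_lit 5) (nat_lit 10) L108050 (by decide +kernel)
theorem L108052 : W_40 (nat_lit 6) (nat_lit 0x400068001000080000000000000000000000000000000) (nat_lit 0x0) (nat_lit 0x4000b80017000000100008000000000000000000000000000) := T_40 (nat_lit 177) (nat_lit 194) (nat_lit 5) (nat_lit 8) (nat_lit 7) L108051 (by decide +kernel)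
theorem L108053 : W_40 (nat_lit 2) (nat_lit 0x800040005000680014001e0000000000000000000000000000000) (nat_lit 0x0) (nat_lit 0x10001800000000000000000000000000) := D_40 (nat_lit 107) (nat_lit 108) (nat_lit 124) (nat_lit 0) (nat_lit 9) (nat_lit 7) (nat_lit 4) (nat_lit 6) (nat_lit 10) (by decide +kernel)
theorem L108054 : W_40 (nat_lit 3) (nat_lit 0x800040005000680014001c0000000000000000000000000000000) (nat_lit 0x0) (nat_lit 0x200030001800000000000000000000000000) := T_40 (nat_lit 125) (nat_lit 141) (nat_lit 1) (nat_lit 9) (nat_lit 7) L108053 (by decide +kernel)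
theorem L108055 : W_40 (nat_lit 4) (nat_lit 0x800040005000680010001c0000000000000000000000000000000) (nat_lit 0x0) (nat_lit 0x2000000000000600030001800000000000000000000000000) := T_40 (nat_lit 142) (nat_lit 193) (nat_lit 7) (nat_lit 6) (nat_lit 8) L108054 (by decide +kernel)
theorem L108056 : W_40 (nat_lit 5) (nat_lit 0x80004000500068001000180000000000000000000000000000000) (nat_lit 0x0) (nat_lit 0x2000000000000600070003800000000000000000000000000) := T_40 (nat_lit 126) (nat_lit 109) (nat_lit 4) (nat_lit 8) (nat_lit 10) L108055 (by decide +kernel)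
theorem L108057 : W_40 (nat_lit 6) (nat_lit 0x80000000500068001000180000000000000000000000000000000) (nat_lit 0x0) (nat_lit 0xe000000000000600070003800000000000000000000000000) := T_40 (nat_lit 194) (nat_lit 195) (nat_lit 5) (nat_lit 8) (nat_lit 8) L108056 (by decide +kernel)
theorem L108058 : W_40 (nat_lit 7) (nat_lit 0x80000000500068001000080000000000000000000000000000000) (nat_lit 0x0) (nat_lit 0xe00000000000060017000b800000000000000000000000000) := T_40 (nat_lit 128) (nat_lit 111) (nat_lit 6) (nat_lit 8) (nat_lit 10) L108057 (by decide +kernel)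
theorem L108059 : W_40 (nat_lit 2) (nat_lit 0x2000180008000500068001000180000000000000000000000000000000) (nat_lit 0x0) (nat_lit 0x80004000200000000000000000000000000000000000000000000000000000) := D_40 (nat_lit 230) (nat_lit 247) (nat_lit 213) (nat_lit 7) (nat_lit 8) (nat_lit 10) (nat_lit 7) (nat_lit 8) (nat_lit 9) (by decide +kernel)
theorem L108060 : W_40 (nat_lit 3) (nat_lit 0x180008000500068001000180000000000000000000000000000000) (nat_lit 0x0) (nat_lit 0x80006000200000000800000000000000000000000000000000000000000000) := T_40 (nat_lit 229) (nat_lit 179) (nat_lit 6) (nat_lit 8) (nat_lit 13) L108059 (by decide +kernel)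
theorem L108061 : W_40 (nat_lit 4) (nat_lit 0x180008000500068001000080000000000000000000000000000000) (nat_lit 0x0) (nat_lit 0x80006000200000000800000000000100008000000000000000000000000000) := T_40 (nat_lit 128) (nat_lit 111) (nat_lit 6) (nat_lit 8) (nat_lit 10) L108060 (by decide +kernel)
theorem L108062 : W_40 (nat_lit 5) (nat_lit 0x80008000500068001000080000000000000000000000000000000) (nat_lit 0x0) (nat_lit 0x80007000300000000800000000000100008000000000000000000000000000) := T_40 (nat_lit 212) (nat_lit 228) (nat_lit 5) (nat_lit 8) (nat_lit 9) L108061 (by decide +kernel)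
theorem L108063 : W_40 (nat_lit 6) (nat_lit 0x80000000500068001000080000000000000000000000000000000) (nat_lit 0x0) (nat_lit 0x8000700030000c000800000000000100008000000000000000000000000000) := T_40 (nat_lit 195) (nat_lit 194) (nat_lit 5) (nat_lit 8) (nat_lit 8) L108062 (by decide +kernel)
theorem L108064 : W_40 (nat_lit 2) (nat_lit 0x40001800080005000680010000c0000000000000000000000000000000) (nat_lit 0x0) (nat_lit 0x80002000000000000800000000000000000000000000000000000000000000) := D_40 (nat_lit 229) (nat_lit 179) (nat_lit 247) (nat_lit 6) (nat_lit 8) (nat_lit 13) (nat_lit 7) (nat_lit 8) (nat_lit 10) (by decide +kernel)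
theorem L108065 : W_40 (nat_lit 3) (nat_lit 0x1800080005000680010000c0000000000000000000000000000000) (nat_lit 0x0) (nat_lit 0x80006000200000000800000000000000000000000000000000000000000000) := T_40 (nat_lit 230) (nat_lit 213) (nat_lit 7) (nat_lit 8) (nat_lit 9) L108064 (by decide +kernel)
theorem L108066 : W_40 (nat_lit 4) (nat_lit 0x800080005000680010000c0000000000000000000000000000000) (nat_lit 0x0) (nat_lit 0x80007000300000000800000000000000000000000000000000000000000000) := T_40 (nat_lit 212) (nat_lit 228) (nat_lit 5) (nat_lit 8) (nat_lit 9) L108065 (by decide +kernel)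
theorem L108067 : W_40 (nat_lit 5) (nat_lit 0x800000005000680010000c0000000000000000000000000000000) (nat_lit 0x0) (nat_lit 0x8000700030000c000800000000000000000000000000000000000000000000) := T_40 (nat_lit 195) (nat_lit 194) (nat_lit 5) (nat_lit 8) (nat_lit 8) L108066 (by decide +kernel)
theorem L108068 : W_40 (nat_lit 6) (nat_lit 0x80000000500068001000080000000000000000000000000000000) (nat_lit 0x0) (nat_lit 0x8000700030000c000800000000000040002000000000000000000000000000) := T_40 (nat_lit 126) (nat_lit 109) (nat_lit 4) (nat_lit 8) (nat_lit 10) L108067 (by decide +kernel)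
theorem L108069 : W_40 (nat_lit 2) (nat_lit 0x800000005000680014001e0001000000000000000000000000000) (nat_lit 0x0) (nat_lit 0x1000080004000000000000000000000000000000000000000) := D_40 (nat_lit 175) (nat_lit 192) (nat_lit 158) (nat_lit 5) (nat_lit 6) (nat_lit 7) (nat_lit 5) (nat_lit 6) (nat_lit 6) (by decide +kernel)
theorem L108070 : W_40 (nat_lit 3) (nat_lit 0x800000005000680010001e0001000000000000000000000000000) (nat_lit 0x0) (nat_lit 0x1000080004000600000000000000000000000000000000000) := T_40 (nat_lit 142) (nat_lit 141) (nat_lit 1) (nat_lit 9) (nat_lit 7) L108069 (by decide +kernel)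
theorem L108071 : W_40 (nat_lit 4) (nat_lit 0x800000005000680010001e0000000000000000000000000000000) (nat_lit 0x0) (nat_lit 0x1000080004000600000001800000000000000000000000000) := T_40 (nat_lit 108) (nat_lit 107) (nat_lit 0) (nat_lit 9) (nat_lit 7) L108070 (by decide +kernel)
theorem L108072 : W_40 (nat_lit 5) (nat_lit 0x800000005000680010001a0000000000000000000000000000000) (nat_lit 0x0) (nat_lit 0x1000080004000600040003800000000000000000000000000) := T_40 (nat_lit 126) (nat_lit 109) (nat_lit 4) (nat_lit 8) (nat_lit 10) L108071 (by decide +kernel)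
theorem L108073 : W_40 (nat_lit 6) (nat_lit 0x800000005000680010000a0000000000000000000000000000000) (nat_lit 0x0) (nat_lit 0x100008000400060014000b800000000000000000000000000) := T_40 (nat_lit 128) (nat_lit 111) (nat_lit 6) (nat_lit 8) (nat_lit 10) L108072 (by decide +kernel)
theorem L108074 : W_40 (nat_lit 2) (nat_lit 0x800020005000680014001a0000000000000000000000000000000) (nat_lit 0x0) (nat_lit 0x20001000080000000000000000000000000000000000000000000) := D_40 (nat_lit 192) (nat_lit 175) (nat_lit 209) (nat_lit 5) (nat_lit 6) (nat_lit 7) (nat_lit 5) (nat_lit 6) (nat_lit 8) (by decide +kernel)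
theorem L108075 : W_40 (nat_lit 3) (nat_lit 0x800000005000680014001a0000000000000000000000000000000) (nat_lit 0x0) (nat_lit 0x20007000080000000000000000000000000000000000000000000) := T_40 (nat_lit 193) (nat_lit 194) (nat_lit 7) (nat_lit 6) (nat_lit 8) L108074 (by decide +kernel)
theorem L108076 : W_40 (nat_lit 4) (nat_lit 0x800000005000680014000a0000000000000000000000000000000) (nat_lit 0x0) (nat_lit 0x20007000080000000000100008000000000000000000000000000) := T_40 (nat_lit 128) (nat_lit 111) (nat_lit 6) (nat_lit 8) (nat_lit 10) L108075 (by decide +kernel)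
theorem L108077 : W_40 (nat_lit 2) (nat_lit 0x800020005000680014000b0000000000000000000000000000000) (nat_lit 0x0) (nat_lit 0x20001000080000000000000000000000000000000000000000000) := D_40 (nat_lit 192) (nat_lit 209) (nat_lit 175) (nat_lit 5) (nat_lit 6) (nat_lit 8) (nat_lit 5) (nat_lit 6) (nat_lit 7) (by decide +kernel)
theorem L108078 : W_40 (nat_lit 3) (nat_lit 0x800000005000680014000b0000000000000000000000000000000) (nat_lit 0x0) (nat_lit 0x20003000080000000200000000000000000000000000000000000) := T_40 (nat_lit 193) (nat_lit 141) (nat_lit 4) (nat_lit 6) (nat_lit 11) L108077 (by decide +kernel)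
theorem L108079 : W_40 (nat_lit 4) (nat_lit 0x800000005000680014000a0000000000000000000000000000000) (nat_lit 0x0) (nat_lit 0x20003000080000000200010000800000000000000000000000000) := T_40 (nat_lit 124) (nat_lit 107) (nat_lit 4) (nat_lit 6) (nat_lit 10) L108078 (by decide +kernel)
theorem L108080 : W_40 (nat_lit 2) (nat_lit 0x800000005800680014001b0001000180002000000000000000000) (nat_lit 0x0) (nat_lit 0x200000000000000004000100000000000000) := D_40 (nat_lit 74) (nat_lit 141) (nat_lit 56) (nat_lit 5) (nat_lit 6) (nat_lit 4) (nat_lit 4) (nat_lit 6) (nat_lit 7) (by decide +kernel)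
theorem L108081 : W_40 (nat_lit 3) (nat_lit 0x800000005800680014001b0001000180000000000000000000000) (nat_lit 0x0) (nat_lit 0x200000000000040006000100000000000000) := T_40 (nat_lit 73) (nat_lit 90) (nat_lit 4) (nat_lit 6) (nat_lit 8) L108080 (by decide +kernel)
theorem L108082 : W_40 (nat_lit 4) (nat_lit 0x800000005800680014001b0001000100000000000000000000000) (nat_lit 0x0) (nat_lit 0x2000000000000c000e000100000000000000) := T_40 (nat_lit 91) (nat_lit 75) (nat_lit 6) (nat_lit 6) (nat_lit 8) L108081 (by decide +kernel)
theorem L108083 : W_40 (nat_lit 5) (nat_lit 0x800000005800680014001b0001000000000000000000000000000) (nat_lit 0x0) (nat_lit 0x2000000020001c000e000100000000000000) := T_40 (nat_lit 92) (nat_lit 109) (nat_lit 6) (nat_lit 6) (nat_lit 9) L108082 (by decide +kernel)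
theorem L108084 : W_40 (nat_lit 6) (nat_lit 0x800000005800680014001b0000000000000000000000000000000) (nat_lit 0x0) (nat_lit 0x40002000000030001c000e000100000000000000) := T_40 (nat_lit 108) (nat_lit 158) (nat_lit 5) (nat_lit 6) (nat_lit 6) L108083 (by decide +kernel)
theorem L108085 : W_40 (nat_lit 7) (nat_lit 0x800000005000680014001b0000000000000000000000000000000) (nat_lit 0x0) (nat_lit 0x10000800040002000000030001c000e000100000000000000) := T_40 (nat_lit 175) (nat_lit 192) (nat_lit 5) (nat_lit 6) (nat_lit 7) L108084 (by decide +kernel)
theorem L108086 : W_40 (nat_lit 8) (nat_lit 0x800000005000680014001a0000000000000000000000000000000) (nat_lit 0x0) (nat_lit 0x10000800040002000100038001c000e000100000000000000) := T_40 (nat_lit 124) (nat_lit 107) (nat_lit 4) (nat_lit 6) (nat_lit 10) L108085 (by decide +kernel)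
theorem L108087 : W_40 (nat_lit 9) (nat_lit 0x800000005000680014000a0000000000000000000000000000000) (nat_lit 0x0) (nat_lit 0x100008000400020011000b8001c000e000100000000000000) := T_40 (nat_lit 128) (nat_lit 111) (nat_lit 6) (nat_lit 8) (nat_lit 10) L108086 (by decide +kernel)
theorem L108088 : W_40 (nat_lit 2) (nat_lit 0x800020005000680014000a0000000000000000000000000000000) (nat_lit 0x0) (nat_lit 0x200010000800000000000000000000000000) := D_40 (nat_lit 124) (nat_lit 107) (nat_lit 141) (nat_lit 4) (nat_lit 6) (nat_lit 10) (nat_lit 4) (nat_lit 6) (nat_lit 11) (by decide +kernel)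
theorem L108089 : W_40 (nat_lit 3) (nat_lit 0x800000005000680014000a0000000000000000000000000000000) (nat_lit 0x0) (nat_lit 0x6000000000000200010000800000000000000000000000000) := T_40 (nat_lit 193) (nat_lit 194) (nat_lit 7) (nat_lit 6) (nat_lit 8) L108088 (by decide +kernel)
theorem L108090 : W_40 (nat_lit 10) (nat_lit 0x800000005000680010000a0000000000000000000000000000000) (nat_lit 0x0) (nat_lit 0x2000700008000400060011000b8001c000e000100000000000000) := Q_40 (nat_lit 142) (C_40 L108076 (C_40 L108079 (C_40 L108087 (C_40 L108089 N_40)))) (by decide +kernel)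
theorem L108091 : W_40 (nat_lit 2) (nat_lit 0x8000000058006c0015000f8000000000000000000000000000000) (nat_lit 0x0) (nat_lit 0x2000000000000600000000000000000000000000) := D_40 (nat_lit 106) (nat_lit 105) (nat_lit 157) (nat_lit 0) (nat_lit 7) (nat_lit 7) (nat_lit 7) (nat_lit 4) (nat_lit 6) (by decide +kernel)
theorem L108092 : W_40 (nat_lit 3) (nat_lit 0x800000005800680015000f8000000000000000000000000000000) (nat_lit 0x0) (nat_lit 0x6000000000001600000000000000000000000000) := T_40 (nat_lit 158) (nat_lit 108) (nat_lit 5) (nat_lit 6) (nat_lit 6) L108091 (by decide +kernel)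
theorem L108093 : W_40 (nat_lit 4) (nat_lit 0x800000005800680015000f0000000000000000000000000000000) (nat_lit 0x0) (nat_lit 0x6000080008001600000000000000000000000000) := T_40 (nat_lit 123) (nat_lit 139) (nat_lit 1) (nat_lit 7) (nat_lit 7) L108092 (by decide +kernel)
theorem L108094 : W_40 (nat_lit 5) (nat_lit 0x800000005000680015000f0000000000000000000000000000000) (nat_lit 0x0) (nat_lit 0x1000080006000080008001600000000000000000000000000) := T_40 (nat_lit 175) (nat_lit 192) (nat_lit 5) (nat_lit 6) (nat_lit 7) L108093 (by decide +kernel)
theorem L108095 : W_40 (nat_lit 6) (nat_lit 0x800000005000680014000f0000000000000000000000000000000) (nat_lit 0x0) (nat_lit 0x1000080006000380008001600000000000000000000000000) := T_40 (nat_lit 140) (nat_lit 141) (nat_lit 1) (nat_lit 8) (nat_lit 7) L108094 (by decide +kernel)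
theorem L108096 : W_40 (nat_lit 7) (nat_lit 0x800000005000680014000e0000000000000000000000000000000) (nat_lit 0x0) (nat_lit 0x1000080006000380018001e00000000000000000000000000) := T_40 (nat_lit 124) (nat_lit 107) (nat_lit 4) (nat_lit 6) (nat_lit 10) L108095 (by decide +kernel)
theorem L108097 : W_40 (nat_lit 8) (nat_lit 0x800000005000680014000a0000000000000000000000000000000) (nat_lit 0x0) (nat_lit 0x1000080006000380058003e00000000000000000000000000) := T_40 (nat_lit 126) (nat_lit 109) (nat_lit 6) (nat_lit 6) (nat_lit 10) L108096 (by decide +kernel)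
theorem L108098 : W_40 (nat_lit 2) (nat_lit 0xc00020005800680014000a0000000000000000000000000000000) (nat_lit 0x0) (nat_lit 0x800000000000000004000000000001000000000000000000000000000) := D_40 (nat_lit 158) (nat_lit 227) (nat_lit 108) (nat_lit 4) (nat_lit 6) (nat_lit 13) (nat_lit 5) (nat_lit 6) (nat_lit 6) (by decide +kernel)
theorem L108099 : W_40 (nat_lit 3) (nat_lit 0x800020005800680014000a0000000000000000000000000000000) (nat_lit 0x0) (nat_lit 0x1800040000000000004000000000001000000000000000000000000000) := T_40 (nat_lit 210) (nat_lit 228) (nat_lit 7) (nat_lit 6) (nat_lit 9) L108098 (by decide +kernel)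
theorem L108100 : W_40 (nat_lit 4) (nat_lit 0x800000005800680014000a0000000000000000000000000000000) (nat_lit 0x0) (nat_lit 0x1800040006000000004000000000001000000000000000000000000000) := T_40 (nat_lit 193) (nat_lit 194) (nat_lit 7) (nat_lit 6) (nat_lit 8) L108099 (by decide +kernel)
theorem L108101 : W_40 (nat_lit 5) (nat_lit 0x800000005000680014000a0000000000000000000000000000000) (nat_lit 0x0) (nat_lit 0x1800040007000080004000000000001000000000000000000000000000) := T_40 (nat_lit 175) (nat_lit 192) (nat_lit 5) (nat_lit 6) (nat_lit 7) L108100 (by decide +kernel)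
theorem L108102 : W_40 (nat_lit 9) (nat_lit 0x800000005000680010000a0000000000000000000000000000000) (nat_lit 0x0) (nat_lit 0x1800060007000080006000780058003e00000000000000000000000000) := Q_40 (nat_lit 142) (C_40 L108089 (C_40 L108079 (C_40 L108097 (C_40 L108101 N_40)))) (by decide +kernel)
theorem L108103 : W_40 (nat_lit 2) (nat_lit 0x800000005000680010001e0000800000000000000000000000000) (nat_lit 0x0) (nat_lit 0x400010000400000000000000000000000000) := D_40 (nat_lit 124) (nat_lit 106) (nat_lit 142) (nat_lit 0) (nat_lit 8) (nat_lit 7) (nat_lit 4) (nat_lit 6) (nat_lit 10) (by decide +kernel)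
theorem L108104 : W_40 (nat_lit 3) (nat_lit 0x800000005000680010001e0000000000000000000000000000000) (nat_lit 0x0) (nat_lit 0x400010001c00000000000000000000000000) := T_40 (nat_lit 107) (nat_lit 108) (nat_lit 0) (nat_lit 9) (nat_lit 7) L108103 (by decide +kernel)
theorem L108105 : W_40 (nat_lit 4) (nat_lit 0x800000005000680010000e0000000000000000000000000000000) (nat_lit 0x0) (nat_lit 0x400110009c00000000000000000000000000) := T_40 (nat_lit 128) (nat_lit 111) (nat_lit 6) (nat_lit 8) (nat_lit 10) L108104 (by decide +kernel)
theorem L108106 : W_40 (nat_lit 5) (nat_lit 0x800000005000680010000a0000000000000000000000000000000) (nat_lit 0x0) (nat_lit 0x40015000bc00000000000000000000000000) := T_40 (nat_lit 126) (nat_lit 109) (nat_lit 4) (nat_lit 8) (nat_lit 10) L108105 (by decide +kernel)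
theorem L108107 : W_40 (nat_lit 2) (nat_lit 0x800000005000680010001f0000800000000000000000000000000) (nat_lit 0x0) (nat_lit 0x4000300000000000000000000000000000000000) := D_40 (nat_lit 141) (nat_lit 140) (nat_lit 158) (nat_lit 1) (nat_lit 8) (nat_lit 7) (nat_lit 7) (nat_lit 5) (nat_lit 6) (by decide +kernel)
theorem L108108 : W_40 (nat_lit 3) (nat_lit 0x800000005000680010001e0000800000000000000000000000000) (nat_lit 0x0) (nat_lit 0x4000300010000400000000000000000000000000) := T_40 (nat_lit 124) (nat_lit 106) (nat_lit 0) (nat_lit 8) (nat_lit 7) L108107 (by decide +kernel)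
theorem L108109 : W_40 (nat_lit 4) (nat_lit 0x800000005000680010001e0000000000000000000000000000000) (nat_lit 0x0) (nat_lit 0x4000300010001c00000000000000000000000000) := T_40 (nat_lit 107) (nat_lit 108) (nat_lit 0) (nat_lit 9) (nat_lit 7) L108108 (by decide +kernel)
theorem L108110 : W_40 (nat_lit 5) (nat_lit 0x800000005000680010001a0000000000000000000000000000000) (nat_lit 0x0) (nat_lit 0x4000300050003c00000000000000000000000000) := T_40 (nat_lit 126) (nat_lit 109) (nat_lit 4) (nat_lit 8) (nat_lit 10) L108109 (by decide +kernel)
theorem L108111 : W_40 (nat_lit 6) (nat_lit 0x800000005000680010000a0000000000000000000000000000000) (nat_lit 0x0) (nat_lit 0x400030015000bc00000000000000000000000000) := T_40 (nat_lit 128) (nat_lit 111) (nat_lit 6) (nat_lit 8) (nat_lit 10) L108110 (by decide +kernel)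
theorem L108112 : W_40 (nat_lit 2) (nat_lit 0x8000c00020005800680014001e0000000000000000000000000000000) (nat_lit 0x0) (nat_lit 0x8000400020000000000000000000000000000000000000000000000000000) := D_40 (nat_lit 226) (nat_lit 243) (nat_lit 209) (nat_lit 5) (nat_lit 6) (nat_lit 10) (nat_lit 5) (nat_lit 6) (nat_lit 9) (by decide +kernel)
theorem L108113 : W_40 (nat_lit 3) (nat_lit 0xc00020005800680014001e0000000000000000000000000000000) (nat_lit 0x0) (nat_lit 0x8000c00020000000000004000000000000000000000000000000000000000) := T_40 (nat_lit 227) (nat_lit 158) (nat_lit 4) (nat_lit 6) (nat_lit 13) L108112 (by decide +kernel)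
theorem L108114 : W_40 (nat_lit 4) (nat_lit 0x800020005800680014001e0000000000000000000000000000000) (nat_lit 0x0) (nat_lit 0x8001c00060000000000004000000000000000000000000000000000000000) := T_40 (nat_lit 210) (nat_lit 228) (nat_lit 7) (nat_lit 6) (nat_lit 9) L108113 (by decide +kernel)
theorem L108115 : W_40 (nat_lit 5) (nat_lit 0x800000005800680014001e0000000000000000000000000000000) (nat_lit 0x0) (nat_lit 0x8001c00060006000000004000000000000000000000000000000000000000) := T_40 (nat_lit 193) (nat_lit 194) (nat_lit 7) (nat_lit 6) (nat_lit 8) L108114 (by decide +kernel)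
theorem L108116 : W_40 (nat_lit 6) (nat_lit 0x800000005000680014001e0000000000000000000000000000000) (nat_lit 0x0) (nat_lit 0x8001c00060007000080004000000000000000000000000000000000000000) := T_40 (nat_lit 175) (nat_lit 192) (nat_lit 5) (nat_lit 6) (nat_lit 7) L108115 (by decide +kernel)
theorem L108117 : W_40 (nat_lit 7) (nat_lit 0x800000005000680010001e0000000000000000000000000000000) (nat_lit 0x0) (nat_lit 0x8001c00060007000080004000600000000000000000000000000000000000) := T_40 (nat_lit 142) (nat_lit 141) (nat_lit 1) (nat_lit 9) (nat_lit 7) L108116 (by decide +kernel)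
theorem L108118 : W_40 (nat_lit 8) (nat_lit 0x800000005000680010000e0000000000000000000000000000000) (nat_lit 0x0) (nat_lit 0x8001c00060007000080004000600100008000000000000000000000000000) := T_40 (nat_lit 128) (nat_lit 111) (nat_lit 6) (nat_lit 8) (nat_lit 10) L108117 (by decide +kernel)
theorem L108119 : W_40 (nat_lit 9) (nat_lit 0x800000005000680010000a0000000000000000000000000000000) (nat_lit 0x0) (nat_lit 0x8001c0006000700008000400060014000a000000000000000000000000000) := T_40 (nat_lit 126) (nat_lit 109) (nat_lit 4) (nat_lit 8) (nat_lit 10) L108118 (by decide +kernel)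
theorem L108120 : W_40 (nat_lit 2) (nat_lit 0x800000005000680014001e0000000000000000000000000000000) (nat_lit 0x0) (nat_lit 0x10001800000000000000000000000000) := D_40 (nat_lit 107) (nat_lit 124) (nat_lit 108) (nat_lit 4) (nat_lit 6) (nat_lit 10) (nat_lit 0) (nat_lit 9) (nat_lit 7) (by decide +kernel)
theorem L108121 : W_40 (nat_lit 3) (nat_lit 0x800000005000680014001a0000000000000000000000000000000) (nat_lit 0x0) (nat_lit 0x200050001800000000000000000000000000) := T_40 (nat_lit 126) (nat_lit 141) (nat_lit 1) (nat_lit 9) (nat_lit 7) L108120 (by decide +kernel)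
theorem L108122 : W_40 (nat_lit 4) (nat_lit 0x800000005000680014000a0000000000000000000000000000000) (nat_lit 0x0) (nat_lit 0x200150009800000000000000000000000000) := T_40 (nat_lit 128) (nat_lit 111) (nat_lit 6) (nat_lit 8) (nat_lit 10) L108121 (by decide +kernel)
theorem L108123 : W_40 (nat_lit 6) (nat_lit 0x800000005000680010000a0000000000000000000000000000000) (nat_lit 0x0) (nat_lit 0x1800060007000080004000600150009800000000000000000000000000) := Q_40 (nat_lit 142) (C_40 L108101 (C_40 L108079 (C_40 L108122 N_40))) (by decide +kernel)
theorem L108124 : W_40 (nat_lit 11) (nat_lit 0x80000000500068001000080000000000000000000000000000000) (nat_lit 0x0) (nat_lit 0x8001c0006000700008000600078017800be001c000e000100000000000000) := Q_40 (nat_lit 125) (C_40 L108073 (C_40 L108090 (C_40 L108102 (C_40 L108106 (C_40 L108111 (C_40 L108119 (C_40 L108123 N_40))))))) (by decide +kernel)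
theorem L108125 : W_40 (nat_lit 2) (nat_lit 0x800000005000680014001a0001800000000000000000000000000) (nat_lit 0x0) (nat_lit 0x1000080004000000000000000000000000000000000000000) := D_40 (nat_lit 175) (nat_lit 158) (nat_lit 192) (nat_lit 5) (nat_lit 6) (nat_lit 6) (nat_lit 5) (nat_lit 6) (nat_lit 7) (by decide +kernel)
theorem L108126 : W_40 (nat_lit 3) (nat_lit 0x800000005000680014001a0000800000000000000000000000000) (nat_lit 0x0) (nat_lit 0x1000080004000000000001000040000000000000000000000) := T_40 (nat_lit 108) (nat_lit 90) (nat_lit 4) (nat_lit 6) (nat_lit 9) L108125 (by decide +kernel)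
theorem L108127 : W_40 (nat_lit 4) (nat_lit 0x800000005000680014000a0000800000000000000000000000000) (nat_lit 0x0) (nat_lit 0x1000080004000000100009000040000000000000000000000) := T_40 (nat_lit 128) (nat_lit 111) (nat_lit 6) (nat_lit 8) (nat_lit 10) L108126 (by decide +kernel)
theorem L108128 : W_40 (nat_lit 5) (nat_lit 0x800000005000680014000a0000000000000000000000000000000) (nat_lit 0x0) (nat_lit 0x1000080004000000110009800040000000000000000000000) := T_40 (nat_lit 107) (nat_lit 124) (nat_lit 4) (nat_lit 6) (nat_lit 10) L108127 (by decide +kernel)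
theorem L108129 : W_40 (nat_lit 2) (nat_lit 0xa00020005000680014000b0000000000000000000000000000000) (nat_lit 0x0) (nat_lit 0x1400040000000000000000000000000000000000000000000000000000) := D_40 (nat_lit 210) (nat_lit 228) (nat_lit 226) (nat_lit 7) (nat_lit 6) (nat_lit 9) (nat_lit 5) (nat_lit 6) (nat_lit 9) (by decide +kernel)
theorem L108130 : W_40 (nat_lit 3) (nat_lit 0x800020005000680014000b0000000000000000000000000000000) (nat_lit 0x0) (nat_lit 0x1400060001000000000000000000000000000000000000000000000000) := T_40 (nat_lit 209) (nat_lit 192) (nat_lit 5) (nat_lit 6) (nat_lit 8) L108129 (by decide +kernel)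
theorem L108131 : W_40 (nat_lit 4) (nat_lit 0x800000005000680014000b0000000000000000000000000000000) (nat_lit 0x0) (nat_lit 0x1400060003000000000000200000000000000000000000000000000000) := T_40 (nat_lit 193) (nat_lit 141) (nat_lit 4) (nat_lit 6) (nat_lit 11) L108130 (by decide +kernel)
theorem L108132 : W_40 (nat_lit 5) (nat_lit 0x800000005000680014000a0000000000000000000000000000000) (nat_lit 0x0) (nat_lit 0x1400060003000000000000200010000800000000000000000000000000) := T_40 (nat_lit 124) (nat_lit 107) (nat_lit 4) (nat_lit 6) (nat_lit 10) L108131 (by decide +kernel)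
theorem L108133 : W_40 (nat_lit 2) (nat_lit 0x8000000050006c0014001a0001800100000000000000000000000) (nat_lit 0x0) (nat_lit 0x200000000000080008000000000000000000) := D_40 (nat_lit 91) (nat_lit 141) (nat_lit 75) (nat_lit 5) (nat_lit 6) (nat_lit 5) (nat_lit 6) (nat_lit 6) (nat_lit 8) (by decide +kernel)
theorem L108134 : W_40 (nat_lit 3) (nat_lit 0x8000000050006c0014001a0001800000000000000000000000000) (nat_lit 0x0) (nat_lit 0x200000002000180008000000000000000000) := T_40 (nat_lit 92) (nat_lit 109) (nat_lit 6) (nat_lit 6) (nat_lit 9) L108133 (by decide +kernel)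
theorem L108135 : W_40 (nat_lit 4) (nat_lit 0x800000005000680014001a0001800000000000000000000000000) (nat_lit 0x0) (nat_lit 0x80004000200000002000180008000000000000000000) := T_40 (nat_lit 158) (nat_lit 175) (nat_lit 5) (nat_lit 6) (nat_lit 6) L108134 (by decide +kernel)
theorem L108136 : W_40 (nat_lit 5) (nat_lit 0x800000005000680014001a0000800000000000000000000000000) (nat_lit 0x0) (nat_lit 0x800040002000000030001c0008000000000000000000) := T_40 (nat_lit 108) (nat_lit 90) (nat_lit 4) (nat_lit 6) (nat_lit 9) L108135 (by decide +kernel)
theorem L108137 : W_40 (nat_lit 6) (nat_lit 0x800000005000680014001a0000000000000000000000000000000) (nat_lit 0x0) (nat_lit 0x800040002000100038001c0008000000000000000000) := T_40 (nat_lit 107) (nat_lit 124) (nat_lit 4) (nat_lit 6) (nat_lit 10) L108136 (by decide +kernel)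
theorem L108138 : W_40 (nat_lit 7) (nat_lit 0x800000005000680014000a0000000000000000000000000000000) (nat_lit 0x0) (nat_lit 0x8000400020011000b8001c0008000000000000000000) := T_40 (nat_lit 128) (nat_lit 111) (nat_lit 6) (nat_lit 8) (nat_lit 10) L108137 (by decide +kernel)
theorem L108139 : W_40 (nat_lit 2) (nat_lit 0x800000005800680014001a0001000140000000000000000000000) (nat_lit 0x0) (nat_lit 0x8000a000000000000000000) := D_40 (nat_lit 91) (nat_lit 73) (nat_lit 75) (nat_lit 4) (nat_lit 6) (nat_lit 8) (nat_lit 6) (nat_lit 6) (nat_lit 8) (by decide +kernel)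
theorem L108140 : W_40 (nat_lit 3) (nat_lit 0x800000005800680014001a0001000040000000000000000000000) (nat_lit 0x0) (nat_lit 0x200018000a000000000000000000) := T_40 (nat_lit 92) (nat_lit 109) (nat_lit 6) (nat_lit 6) (nat_lit 9) L108139 (by decide +kernel)
theorem L108141 : W_40 (nat_lit 4) (nat_lit 0x800000005800680014001a0001000000000000000000000000000) (nat_lit 0x0) (nat_lit 0x28001c000a000000000000000000) := T_40 (nat_lit 90) (nat_lit 107) (nat_lit 4) (nat_lit 6) (nat_lit 9) L108140 (by decide +kernel)
theorem L108142 : W_40 (nat_lit 5) (nat_lit 0x800000005800680014001a0000000000000000000000000000000) (nat_lit 0x0) (nat_lit 0x40000000000038001c000a000000000000000000) := T_40 (nat_lit 108) (nat_lit 158) (nat_lit 5) (nat_lit 6) (nat_lit 6) L108141 (by decide +kernel)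
theorem L108143 : W_40 (nat_lit 6) (nat_lit 0x800000005800680014000a0000000000000000000000000000000) (nat_lit 0x0) (nat_lit 0x400000010000b8001c000a000000000000000000) := T_40 (nat_lit 128) (nat_lit 111) (nat_lit 6) (nat_lit 8) (nat_lit 10) L108142 (by decide +kernel)
theorem L108144 : W_40 (nat_lit 7) (nat_lit 0x800000005000680014000a0000000000000000000000000000000) (nat_lit 0x0) (nat_lit 0x100008000400000010000b8001c000a000000000000000000) := T_40 (nat_lit 175) (nat_lit 192) (nat_lit 5) (nat_lit 6) (nat_lit 7) L108143 (by decide +kernel)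
theorem L108145 : W_40 (nat_lit 2) (nat_lit 0x800030005000680016001a0000000000000000000000000000000) (nat_lit 0x0) (nat_lit 0x1000040000000000004000000000000000000000000000000000000000) := D_40 (nat_lit 210) (nat_lit 158) (nat_lit 228) (nat_lit 4) (nat_lit 6) (nat_lit 12) (nat_lit 7) (nat_lit 6) (nat_lit 9) (by decide +kernel)
theorem L108146 : W_40 (nat_lit 3) (nat_lit 0x800030005000680014001a0000000000000000000000000000000) (nat_lit 0x0) (nat_lit 0x1000040000000000004000200010000000000000000000000000000000) := T_40 (nat_lit 141) (nat_lit 124) (nat_lit 4) (nat_lit 6) (nat_lit 11) L108145 (by decide +kernel)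
theorem L108147 : W_40 (nat_lit 4) (nat_lit 0x800010005000680014001a0000000000000000000000000000000) (nat_lit 0x0) (nat_lit 0x1000060002000000004000200010000000000000000000000000000000) := T_40 (nat_lit 193) (nat_lit 209) (nat_lit 5) (nat_lit 6) (nat_lit 8) L108146 (by decide +kernel)
theorem L108148 : W_40 (nat_lit 5) (nat_lit 0x800010005000680014000a0000000000000000000000000000000) (nat_lit 0x0) (nat_lit 0x1000060002000000004000200110008000000000000000000000000000) := T_40 (nat_lit 128) (nat_lit 111) (nat_lit 6) (nat_lit 8) (nat_lit 10) L108147 (by decide +kernel)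
theorem L108149 : W_40 (nat_lit 6) (nat_lit 0x800000005000680014000a0000000000000000000000000000000) (nat_lit 0x0) (nat_lit 0x1000060003000080004000200110008000000000000000000000000000) := T_40 (nat_lit 192) (nat_lit 175) (nat_lit 5) (nat_lit 6) (nat_lit 7) L108148 (by decide +kernel)
theorem L108150 : W_40 (nat_lit 10) (nat_lit 0x800000005000680010000a0000000000000000000000000000000) (nat_lit 0x0) (nat_lit 0x140006000300008000400060011000b8001c000e000100000000000000) := Q_40 (nat_lit 142) (C_40 L108087 (C_40 L108079 (C_40 L108128 (C_40 L108132 (C_40 L108138 (C_40 L108144 (C_40 L108149 N_40))))))) (by decide +kernel)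
theorem L108151 : W_40 (nat_lit 2) (nat_lit 0x800000005800680014000e0000800000000000000000000000000) (nat_lit 0x0) (nat_lit 0x4000000000001000040000000000000000000000) := D_40 (nat_lit 108) (nat_lit 90) (nat_lit 158) (nat_lit 4) (nat_lit 6) (nat_lit 9) (nat_lit 5) (nat_lit 6) (nat_lit 6) (by decide +kernel)
theorem L108152 : W_40 (nat_lit 3) (nat_lit 0x800000005000680014000e0000800000000000000000000000000) (nat_lit 0x0) (nat_lit 0x1000080004000000000001000040000000000000000000000) := T_40 (nat_lit 175) (nat_lit 192) (nat_lit 5) (nat_lit 6) (nat_lit 7) L108151 (by decide +kernel)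
theorem L108153 : W_40 (nat_lit 4) (nat_lit 0x800000005000680014000e0000000000000000000000000000000) (nat_lit 0x0) (nat_lit 0x1000080004000000010001800040000000000000000000000) := T_40 (nat_lit 107) (nat_lit 124) (nat_lit 4) (nat_lit 6) (nat_lit 10) L108152 (by decide +kernel)
theorem L108154 : W_40 (nat_lit 5) (nat_lit 0x800000005000680014000a0000000000000000000000000000000) (nat_lit 0x0) (nat_lit 0x1000080004000000050003800040000000000000000000000) := T_40 (nat_lit 126) (nat_lit 109) (nat_lit 6) (nat_lit 6) (nat_lit 10) L108153 (by decide +kernel)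
theorem L108155 : W_40 (nat_lit 2) (nat_lit 0x800000005000680016000b0000000000000000000000000000000) (nat_lit 0x0) (nat_lit 0x100040002000000000000000000000000000) := D_40 (nat_lit 126) (nat_lit 109) (nat_lit 140) (nat_lit 6) (nat_lit 6) (nat_lit 10) (nat_lit 1) (nat_lit 8) (nat_lit 7) (by decide +kernel)
theorem L108156 : W_40 (nat_lit 3) (nat_lit 0x800000005000680014000b0000000000000000000000000000000) (nat_lit 0x0) (nat_lit 0x2000000000000300040002000000000000000000000000000) := T_40 (nat_lit 141) (nat_lit 193) (nat_lit 4) (nat_lit 6) (nat_lit 11) L108155 (by decide +kernel)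
theorem L108157 : W_40 (nat_lit 4) (nat_lit 0x800000005000680014000a0000000000000000000000000000000) (nat_lit 0x0) (nat_lit 0x2000000000000300050002800000000000000000000000000) := T_40 (nat_lit 124) (nat_lit 107) (nat_lit 4) (nat_lit 6) (nat_lit 10) L108156 (by decide +kernel)
theorem L108158 : W_40 (nat_lit 2) (nat_lit 0x800000005800680014000a0002000000000000000000000000000) (nat_lit 0x0) (nat_lit 0x4000000000001000100000000000000000000000) := D_40 (nat_lit 108) (nat_lit 92) (nat_lit 158) (nat_lit 6) (nat_lit 6) (nat_lit 9) (nat_lit 5) (nat_lit 6) (nat_lit 6) (by decide +kernel)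
theorem L108159 : W_40 (nat_lit 3) (nat_lit 0x800000005000680014000a0002000000000000000000000000000) (nat_lit 0x0) (nat_lit 0x1000080004000000000001000100000000000000000000000) := T_40 (nat_lit 175) (nat_lit 192) (nat_lit 5) (nat_lit 6) (nat_lit 7) L108158 (by decide +kernel)
theorem L108160 : W_40 (nat_lit 4) (nat_lit 0x800000005000680014000a0000000000000000000000000000000) (nat_lit 0x0) (nat_lit 0x1000080004000000040003000100000000000000000000000) := T_40 (nat_lit 109) (nat_lit 126) (nat_lit 6) (nat_lit 6) (nat_lit 10) L108159 (by decide +kernel)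
theorem L108161 : W_40 (nat_lit 9) (nat_lit 0x800000005000680010000a0000000000000000000000000000000) (nat_lit 0x0) (nat_lit 0x1400060003000080006000780058003e00140000000000000000000000) := Q_40 (nat_lit 142) (C_40 L108132 (C_40 L108097 (C_40 L108154 (C_40 L108157 (C_40 L108160 N_40))))) (by decide +kernel)
theorem L108162 : W_40 (nat_lit 2) (nat_lit 0x800000005000680012001f0000000000000000000000000000000) (nat_lit 0x0) (nat_lit 0x4000000000000c00000000000000000000000000) := D_40 (nat_lit 107) (nat_lit 106) (nat_lit 158) (nat_lit 0) (nat_lit 8) (nat_lit 7) (nat_lit 7) (nat_lit 5) (nat_lit 6) (by decide +kernel)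
theorem L108163 : W_40 (nat_lit 3) (nat_lit 0x800000005000680012001e0000000000000000000000000000000) (nat_lit 0x0) (nat_lit 0x4000100010000c00000000000000000000000000) := T_40 (nat_lit 124) (nat_lit 140) (nat_lit 1) (nat_lit 8) (nat_lit 7) L108162 (by decide +kernel)
theorem L108164 : W_40 (nat_lit 4) (nat_lit 0x800000005000680010001e0000000000000000000000000000000) (nat_lit 0x0) (nat_lit 0x4000700010000c00000000000000000000000000) := T_40 (nat_lit 141) (nat_lit 142) (nat_lit 1) (nat_lit 9) (nat_lit 7) L108163 (by decide +kernel)
theorem L108165 : W_40 (nat_lit 5) (nat_lit 0x800000005000680010000e0000000000000000000000000000000) (nat_lit 0x0) (nat_lit 0x4000700110008c00000000000000000000000000) := T_40 (nat_lit 128) (nat_lit 111) (nat_lit 6) (nat_lit 8) (nat_lit 10) L108164 (by decide +kernel)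
theorem L108166 : W_40 (nat_lit 6) (nat_lit 0x800000005000680010000a0000000000000000000000000000000) (nat_lit 0x0) (nat_lit 0x400070015000ac00000000000000000000000000) := T_40 (nat_lit 126) (nat_lit 109) (nat_lit 4) (nat_lit 8) (nat_lit 10) L108165 (by decide +kernel)
theorem L108167 : W_40 (nat_lit 2) (nat_lit 0x800000005000680014001a0000000000000000000000000000000) (nat_lit 0x0) (nat_lit 0x200040002000000000000000000000000000) := D_40 (nat_lit 126) (nat_lit 141) (nat_lit 109) (nat_lit 1) (nat_lit 9) (nat_lit 7) (nat_lit 6) (nat_lit 6) (nat_lit 10) (by decide +kernel)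
theorem L108168 : W_40 (nat_lit 3) (nat_lit 0x800000005000680014000a0000000000000000000000000000000) (nat_lit 0x0) (nat_lit 0x20014000a000000000000000000000000000) := T_40 (nat_lit 128) (nat_lit 111) (nat_lit 6) (nat_lit 8) (nat_lit 10) L108167 (by decide +kernel)
theorem L108169 : W_40 (nat_lit 7) (nat_lit 0x800000005000680010000a0000000000000000000000000000000) (nat_lit 0x0) (nat_lit 0x100006000300008000400060015000b000100000000000000000000000) := Q_40 (nat_lit 142) (C_40 L108160 (C_40 L108149 (C_40 L108168 N_40))) (by decide +kernel)
theorem L108170 : W_40 (nat_lit 2) (nat_lit 0x800000005800680014001e0000000000000000000000000000000) (nat_lit 0x0) (nat_lit 0x4000000000001800000000000000000000000000) := D_40 (nat_lit 108) (nat_lit 158) (nat_lit 107) (nat_lit 5) (nat_lit 6) (nat_lit 6) (nat_lit 0) (nat_lit 9) (nat_lit 7) (by decide +kernel)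
theorem L108171 : W_40 (nat_lit 3) (nat_lit 0x800000005800680014001a0000000000000000000000000000000) (nat_lit 0x0) (nat_lit 0x4000200040001800000000000000000000000000) := T_40 (nat_lit 126) (nat_lit 141) (nat_lit 1) (nat_lit 9) (nat_lit 7) L108170 (by decide +kernel)
theorem L108172 : W_40 (nat_lit 4) (nat_lit 0x800000005800680014000a0000000000000000000000000000000) (nat_lit 0x0) (nat_lit 0x4000200140009800000000000000000000000000) := T_40 (nat_lit 128) (nat_lit 111) (nat_lit 6) (nat_lit 8) (nat_lit 10) L108171 (by decide +kernel)
theorem L108173 : W_40 (nat_lit 5) (nat_lit 0x800000005000680014000a0000000000000000000000000000000) (nat_lit 0x0) (nat_lit 0x1000080004000200140009800000000000000000000000000) := T_40 (nat_lit 175) (nat_lit 192) (nat_lit 5) (nat_lit 6) (nat_lit 7) L108172 (by decide +kernel)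
theorem L108174 : W_40 (nat_lit 7) (nat_lit 0x800000005000680010000a0000000000000000000000000000000) (nat_lit 0x0) (nat_lit 0x1400060003000080004000600150009800040000000000000000000000) := Q_40 (nat_lit 142) (C_40 L108149 (C_40 L108132 (C_40 L108128 (C_40 L108122 (C_40 L108173 N_40))))) (by decide +kernel)
theorem L108175 : W_40 (nat_lit 11) (nat_lit 0x80000000500068001000080000000000000000000000000000000) (nat_lit 0x0) (nat_lit 0x140006000300008000600078017800be001c000e000100000000000000) := Q_40 (nat_lit 125) (C_40 L108111 (C_40 L108150 (C_40 L108161 (C_40 L108106 (C_40 L108073 (C_40 L108166 (C_40 L108169 (C_40 L108174 N_40)))))))) (by decide +kernel)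
theorem L108176 : W_40 (nat_lit 12) (nat_lit 0x500068001000080000000000000000000000000000000) (nat_lit 0x0) (nat_lit 0x88007c003e000f00088000600078017800be001c000e000100000000000000) := Q_40 (nat_lit 211) (C_40 L108058 (C_40 L108063 (C_40 L108068 (C_40 L108124 (C_40 L108175 N_40))))) (by decide +kernel)
theorem L108177 : W_40 (nat_lit 2) (nat_lit 0x500068001000080000000000000000000000000000000) (nat_lit 0x0) (nat_lit 0x4000280000000000000000000000000000000000000000000) := D_40 (nat_lit 177) (nat_lit 194) (nat_lit 175) (nat_lit 5) (nat_lit 8) (nat_lit 7) (nat_lit 2) (nat_lit 5) (nat_lit 10) (by decide +kernel)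
theorem L108178 : W_40 (nat_lit 2) (nat_lit 0x5800680010001e0000000000000000000000000000000) (nat_lit 0x0) (nat_lit 0x1000000000000600000000000000000000000000000000000) := D_40 (nat_lit 142) (nat_lit 192) (nat_lit 141) (nat_lit 5) (nat_lit 6) (nat_lit 7) (nat_lit 1) (nat_lit 9) (nat_lit 7) (by decide +kernel)
theorem L108179 : W_40 (nat_lit 3) (nat_lit 0x5800680010000e0000000000000000000000000000000) (nat_lit 0x0) (nat_lit 0x1000000000000600100008000000000000000000000000000) := T_40 (nat_lit 128) (nat_lit 111) (nat_lit 6) (nat_lit 8) (nat_lit 10) L108178 (by decide +kernel)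
theorem L108180 : W_40 (nat_lit 4) (nat_lit 0x5000680010000e0000000000000000000000000000000) (nat_lit 0x0) (nat_lit 0x1000280000000600100008000000000000000000000000000) := T_40 (nat_lit 175) (nat_lit 177) (nat_lit 2) (nat_lit 5) (nat_lit 10) L108179 (by decide +kernel)
theorem L108181 : W_40 (nat_lit 5) (nat_lit 0x5000680010000a0000000000000000000000000000000) (nat_lit 0x0) (nat_lit 0x100028000000060014000a000000000000000000000000000) := T_40 (nat_lit 126) (nat_lit 109) (nat_lit 4) (nat_lit 8) (nat_lit 10) L108180 (by decide +kernel)
theorem L108182 : W_40 (nat_lit 2) (nat_lit 0x5800680014001a0001000000000000000000000000000) (nat_lit 0x0) (nat_lit 0x10000800040000000000000000000000) := D_40 (nat_lit 107) (nat_lit 124) (nat_lit 90) (nat_lit 4) (nat_lit 6) (nat_lit 10) (nat_lit 4) (nat_lit 6) (nat_lit 9) (by decide +kernel)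
theorem L108183 : W_40 (nat_lit 3) (nat_lit 0x5800680014001a0000000000000000000000000000000) (nat_lit 0x0) (nat_lit 0x4000000010001800040000000000000000000000) := T_40 (nat_lit 108) (nat_lit 158) (nat_lit 5) (nat_lit 6) (nat_lit 6) L108182 (by decide +kernel)
theorem L108184 : W_40 (nat_lit 4) (nat_lit 0x5800680010001a0000000000000000000000000000000) (nat_lit 0x0) (nat_lit 0x1000000004000400010001800040000000000000000000000) := T_40 (nat_lit 142) (nat_lit 192) (nat_lit 5) (nat_lit 6) (nat_lit 7) L108183 (by decide +kernel)
theorem L108185 : W_40 (nat_lit 5) (nat_lit 0x5800680010000a0000000000000000000000000000000) (nat_lit 0x0) (nat_lit 0x1000000004000400110009800040000000000000000000000) := T_40 (nat_lit 128) (nat_lit 111) (nat_lit 6) (nat_lit 8) (nat_lit 10) L108184 (by decide +kernel)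
theorem L108186 : W_40 (nat_lit 6) (nat_lit 0x5000680010000a0000000000000000000000000000000) (nat_lit 0x0) (nat_lit 0x1000280004000400110009800040000000000000000000000) := T_40 (nat_lit 175) (nat_lit 177) (nat_lit 2) (nat_lit 5) (nat_lit 10) L108185 (by decide +kernel)
theorem L108187 : W_40 (nat_lit 2) (nat_lit 0x5800680014000e0001000000000000000000000000000) (nat_lit 0x0) (nat_lit 0x10000800040000000000000000000000) := D_40 (nat_lit 107) (nat_lit 124) (nat_lit 90) (nat_lit 4) (nat_lit 6) (nat_lit 10) (nat_lit 4) (nat_lit 6) (nat_lit 9) (by decide +kernel)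
theorem L108188 : W_40 (nat_lit 3) (nat_lit 0x5800680014000e0000000000000000000000000000000) (nat_lit 0x0) (nat_lit 0x4000000010001800040000000000000000000000) := T_40 (nat_lit 108) (nat_lit 158) (nat_lit 5) (nat_lit 6) (nat_lit 6) L108187 (by decide +kernel)
theorem L108189 : W_40 (nat_lit 4) (nat_lit 0x5800680010000e0000000000000000000000000000000) (nat_lit 0x0) (nat_lit 0x1000000004000400010001800040000000000000000000000) := T_40 (nat_lit 142) (nat_lit 192) (nat_lit 5) (nat_lit 6) (nat_lit 7) L108188 (by decide +kernel)
theorem L108190 : W_40 (nat_lit 5) (nat_lit 0x5800680010000a0000000000000000000000000000000) (nat_lit 0x0) (nat_lit 0x1000000004000400050003800040000000000000000000000) := T_40 (nat_lit 126) (nat_lit 109) (nat_lit 4) (nat_lit 8) (nat_lit 10) L108189 (by decide +kernel)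
theorem L108191 : W_40 (nat_lit 6) (nat_lit 0x5000680010000a0000000000000000000000000000000) (nat_lit 0x0) (nat_lit 0x1000280004000400050003800040000000000000000000000) := T_40 (nat_lit 175) (nat_lit 177) (nat_lit 2) (nat_lit 5) (nat_lit 10) L108190 (by decide +kernel)
theorem L108192 : W_40 (nat_lit 2) (nat_lit 0x5000680010001e0000800000000000000000000000000) (nat_lit 0x0) (nat_lit 0x600010000000000000000000000000000000) := D_40 (nat_lit 142) (nat_lit 141) (nat_lit 124) (nat_lit 1) (nat_lit 9) (nat_lit 7) (nat_lit 4) (nat_lit 6) (nat_lit 10) (by decide +kernel)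
theorem L108193 : W_40 (nat_lit 3) (nat_lit 0x5000680010001e0000000000000000000000000000000) (nat_lit 0x0) (nat_lit 0x600010001800000000000000000000000000) := T_40 (nat_lit 107) (nat_lit 108) (nat_lit 0) (nat_lit 9) (nat_lit 7) L108192 (by decide +kernel)
theorem L108194 : W_40 (nat_lit 4) (nat_lit 0x5000680010001a0000000000000000000000000000000) (nat_lit 0x0) (nat_lit 0x600050003800000000000000000000000000) := T_40 (nat_lit 126) (nat_lit 109) (nat_lit 4) (nat_lit 8) (nat_lit 10) L108193 (by decide +kernel)
theorem L108195 : W_40 (nat_lit 5) (nat_lit 0x5000680010000a0000000000000000000000000000000) (nat_lit 0x0) (nat_lit 0x60015000b800000000000000000000000000) := T_40 (nat_lit 128) (nat_lit 111) (nat_lit 6) (nat_lit 8) (nat_lit 10) L108194 (by decide +kernel)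
theorem L108196 : W_40 (nat_lit 2) (nat_lit 0x5800680010001f0000800000000000000000000000000) (nat_lit 0x0) (nat_lit 0x4000300000000000000000000000000000000000) := D_40 (nat_lit 141) (nat_lit 140) (nat_lit 158) (nat_lit 1) (nat_lit 8) (nat_lit 7) (nat_lit 7) (nat_lit 5) (nat_lit 6) (by decide +kernel)
theorem L108197 : W_40 (nat_lit 3) (nat_lit 0x5800680010001e0000800000000000000000000000000) (nat_lit 0x0) (nat_lit 0x4000300010000400000000000000000000000000) := T_40 (nat_lit 124) (nat_lit 106) (nat_lit 0) (nat_lit 8) (nat_lit 7) L108196 (by decide +kernel)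
theorem L108198 : W_40 (nat_lit 4) (nat_lit 0x5800680010001e0000000000000000000000000000000) (nat_lit 0x0) (nat_lit 0x4000300010001c00000000000000000000000000) := T_40 (nat_lit 107) (nat_lit 108) (nat_lit 0) (nat_lit 9) (nat_lit 7) L108197 (by decide +kernel)
theorem L108199 : W_40 (nat_lit 5) (nat_lit 0x5800680010000e0000000000000000000000000000000) (nat_lit 0x0) (nat_lit 0x4000300110009c00000000000000000000000000) := T_40 (nat_lit 128) (nat_lit 111) (nat_lit 6) (nat_lit 8) (nat_lit 10) L108198 (by decide +kernel)
theorem L108200 : W_40 (nat_lit 6) (nat_lit 0x5000680010000e0000000000000000000000000000000) (nat_lit 0x0) (nat_lit 0x280004000300110009c00000000000000000000000000) := T_40 (nat_lit 175) (nat_lit 177) (nat_lit 2) (nat_lit 5) (nat_lit 10) L108199 (by decide +kernel)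
theorem L108201 : W_40 (nat_lit 7) (nat_lit 0x5000680010000a0000000000000000000000000000000) (nat_lit 0x0) (nat_lit 0x28000400030015000bc00000000000000000000000000) := T_40 (nat_lit 126) (nat_lit 109) (nat_lit 4) (nat_lit 8) (nat_lit 10) L108200 (by decide +kernel)
theorem L108202 : W_40 (nat_lit 8) (nat_lit 0x500068001000080000000000000000000000000000000) (nat_lit 0x0) (nat_lit 0x100028000400070017000bc00040000000000000000000000) := Q_40 (nat_lit 125) (C_40 L108181 (C_40 L108186 (C_40 L108191 (C_40 L108195 (C_40 L108201 N_40))))) (by decide +kernel)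
theorem L108203 : W_40 (nat_lit 5) (nat_lit 0x40005000680010001c0000000000000000000000000000000) (nat_lit 0x0) (nat_lit 0x8000a000000000000600030001800000000000000000000000000) := T_40 (nat_lit 211) (nat_lit 195) (nat_lit 5) (nat_lit 8) (nat_lit 8) L108055 (by decide +kernel)
theorem L108204 : W_40 (nat_lit 6) (nat_lit 0x5000680010001c0000000000000000000000000000000) (nat_lit 0x0) (nat_lit 0x8000e000200000000600030001800000000000000000000000000) := T_40 (nat_lit 194) (nat_lit 177) (nat_lit 5) (nat_lit 8) (nat_lit 7) L108203 (by decide +kernel)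
theorem L108205 : W_40 (nat_lit 7) (nat_lit 0x500068001000180000000000000000000000000000000) (nat_lit 0x0) (nat_lit 0x8000e000200000000600070003800000000000000000000000000) := T_40 (nat_lit 126) (nat_lit 109) (nat_lit 4) (nat_lit 8) (nat_lit 10) L108204 (by decide +kernel)
theorem L108206 : W_40 (nat_lit 8) (nat_lit 0x500068001000080000000000000000000000000000000) (nat_lit 0x0) (nat_lit 0x8000e00020000000060017000b800000000000000000000000000) := T_40 (nat_lit 128) (nat_lit 111) (nat_lit 6) (nat_lit 8) (nat_lit 10) L108205 (by decide +kernel)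
theorem L108207 : W_40 (nat_lit 13) (nat_lit 0x400068001000080000000000000000000000000000000) (nat_lit 0x0) (nat_lit 0x88007c003e000f000b8000600078017800be001c000e000100000000000000) := Q_40 (nat_lit 176) (C_40 L108176 (C_40 L108177 (C_40 L108202 (C_40 L108206 N_40)))) (by decide +kernel)
theorem L108208 : W_40 (nat_lit 2) (nat_lit 0x40007c001000080000000000000000000000000000000) (nat_lit 0x0) (nat_lit 0x700000000000000000000000000000000000) := D_40 (nat_lit 141) (nat_lit 142) (nat_lit 140) (nat_lit 0) (nat_lit 9) (nat_lit 9) (nat_lit 0) (nat_lit 8) (nat_lit 9) (by decide +kernel)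
theorem L108209 : W_40 (nat_lit 3) (nat_lit 0x40006c001000080000000000000000000000000000000) (nat_lit 0x0) (nat_lit 0x800010000700000000000000000000000000000000000) := T_40 (nat_lit 160) (nat_lit 179) (nat_lit 3) (nat_lit 5) (nat_lit 9) L108208 (by decide +kernel)
theorem L108210 : W_40 (nat_lit 2) (nat_lit 0x40006000100068006e001000080000000000000000000000000000000) (nat_lit 0x0) (nat_lit 0x4000200010000000000000000000000000000000000000000000000000000) := D_40 (nat_lit 225) (nat_lit 242) (nat_lit 208) (nat_lit 5) (nat_lit 5) (nat_lit 10) (nat_lit 5) (nat_lit 5) (nat_lit 9) (by decide +kernel)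
theorem L108211 : W_40 (nat_lit 3) (nat_lit 0x6000100068006e001000080000000000000000000000000000000) (nat_lit 0x0) (nat_lit 0x4000600010000000040000000000000000000000000000000000000000000) := T_40 (nat_lit 226) (nat_lit 174) (nat_lit 4) (nat_lit 5) (nat_lit 13) L108210 (by decide +kernel)
theorem L108212 : W_40 (nat_lit 4) (nat_lit 0x6000100068006c001000080000000000000000000000000000000) (nat_lit 0x0) (nat_lit 0x4000600010000000040002000100000000000000000000000000000000000) := T_40 (nat_lit 157) (nat_lit 140) (nat_lit 4) (nat_lit 5) (nat_lit 12) L108211 (by decide +kernel)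
theorem L108213 : W_40 (nat_lit 5) (nat_lit 0x2000100068006c001000080000000000000000000000000000000) (nat_lit 0x0) (nat_lit 0x4000e00050000000040002000100000000000000000000000000000000000) := T_40 (nat_lit 210) (nat_lit 227) (nat_lit 7) (nat_lit 5) (nat_lit 9) L108212 (by decide +kernel)
theorem L108214 : W_40 (nat_lit 6) (nat_lit 0x100068006c001000080000000000000000000000000000000) (nat_lit 0x0) (nat_lit 0x4000e00070000000040002000500000000000000000000000000000000000) := T_40 (nat_lit 209) (nat_lit 142) (nat_lit 6) (nat_lit 5) (nat_lit 12) L108213 (by decide +kernel)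
theorem L108215 : W_40 (nat_lit 7) (nat_lit 0x100048006c001000080000000000000000000000000000000) (nat_lit 0x0) (nat_lit 0x4000e00070004000240002000500000000000000000000000000000000000) := T_40 (nat_lit 177) (nat_lit 194) (nat_lit 5) (nat_lit 8) (nat_lit 7) L108214 (by decide +kernel)
theorem L108216 : W_40 (nat_lit 2) (nat_lit 0x40006000100048006e001000180000000000000000000000000000000) (nat_lit 0x0) (nat_lit 0x4000200010000000000000000000000000000000000000000000000000000) := D_40 (nat_lit 225) (nat_lit 242) (nat_lit 208) (nat_lit 5) (nat_lit 5) (nat_lit 10) (nat_lit 5) (nat_lit 5) (nat_lit 9) (by decide +kernel)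
theorem L108217 : W_40 (nat_lit 3) (nat_lit 0x6000100048006e001000180000000000000000000000000000000) (nat_lit 0x0) (nat_lit 0x4000600010000000040000000000000000000000000000000000000000000) := T_40 (nat_lit 226) (nat_lit 174) (nat_lit 4) (nat_lit 5) (nat_lit 13) L108216 (by decide +kernel)
theorem L108218 : W_40 (nat_lit 4) (nat_lit 0x6000100048006c001000180000000000000000000000000000000) (nat_lit 0x0) (nat_lit 0x4000600010000000040002000100000000000000000000000000000000000) := T_40 (nat_lit 157) (nat_lit 140) (nat_lit 4) (nat_lit 5) (nat_lit 12) L108217 (by decide +kernel)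
theorem L108219 : W_40 (nat_lit 5) (nat_lit 0x2000100048006c001000180000000000000000000000000000000) (nat_lit 0x0) (nat_lit 0x4000e00050000000040002000100000000000000000000000000000000000) := T_40 (nat_lit 210) (nat_lit 227) (nat_lit 7) (nat_lit 5) (nat_lit 9) L108218 (by decide +kernel)
theorem L108220 : W_40 (nat_lit 6) (nat_lit 0x100048006c001000180000000000000000000000000000000) (nat_lit 0x0) (nat_lit 0x4000e00070000000040002000500000000000000000000000000000000000) := T_40 (nat_lit 209) (nat_lit 142) (nat_lit 6) (nat_lit 5) (nat_lit 12) L108219 (by decide +kernel)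
theorem L108221 : W_40 (nat_lit 7) (nat_lit 0x100048006c001000080000000000000000000000000000000) (nat_lit 0x0) (nat_lit 0x4000e00070000000040002000500100008000000000000000000000000000) := T_40 (nat_lit 128) (nat_lit 111) (nat_lit 6) (nat_lit 8) (nat_lit 10) L108220 (by decide +kernel)
theorem L108222 : W_40 (nat_lit 2) (nat_lit 0x40002000100068006e0010001c0000000000000000000000000000000) (nat_lit 0x0) (nat_lit 0x4000200010000000000000000000000000000000000000000000000000000) := D_40 (nat_lit 225) (nat_lit 242) (nat_lit 208) (nat_lit 5) (nat_lit 5) (nat_lit 10) (nat_lit 5) (nat_lit 5) (nat_lit 9) (by decide +kernel)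
theorem L108223 : W_40 (nat_lit 3) (nat_lit 0x2000100068006e0010001c0000000000000000000000000000000) (nat_lit 0x0) (nat_lit 0x4000600010000000040000000000000000000000000000000000000000000) := T_40 (nat_lit 226) (nat_lit 174) (nat_lit 4) (nat_lit 5) (nat_lit 13) L108222 (by decide +kernel)
theorem L108224 : W_40 (nat_lit 4) (nat_lit 0x2000100068006c0010001c0000000000000000000000000000000) (nat_lit 0x0) (nat_lit 0x4000600010000000040002000100000000000000000000000000000000000) := T_40 (nat_lit 157) (nat_lit 140) (nat_lit 4) (nat_lit 5) (nat_lit 12) L108223 (by decide +kernel)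
theorem L108225 : W_40 (nat_lit 5) (nat_lit 0x100068006c0010001c0000000000000000000000000000000) (nat_lit 0x0) (nat_lit 0x4000600030000000040002000500000000000000000000000000000000000) := T_40 (nat_lit 209) (nat_lit 142) (nat_lit 6) (nat_lit 5) (nat_lit 12) L108224 (by decide +kernel)
theorem L108226 : W_40 (nat_lit 6) (nat_lit 0x100068006c0010000c0000000000000000000000000000000) (nat_lit 0x0) (nat_lit 0x4000600030000000040002000500100008000000000000000000000000000) := T_40 (nat_lit 128) (nat_lit 111) (nat_lit 6) (nat_lit 8) (nat_lit 10) L108225 (by decide +kernel)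
theorem L108227 : W_40 (nat_lit 7) (nat_lit 0x100048006c0010000c0000000000000000000000000000000) (nat_lit 0x0) (nat_lit 0x4000600030004000240002000500100008000000000000000000000000000) := T_40 (nat_lit 177) (nat_lit 194) (nat_lit 5) (nat_lit 8) (nat_lit 7) L108226 (by decide +kernel)
theorem L108228 : W_40 (nat_lit 8) (nat_lit 0x100048006c001000080000000000000000000000000000000) (nat_lit 0x0) (nat_lit 0x400060003000400024000200050014000a000000000000000000000000000) := T_40 (nat_lit 126) (nat_lit 109) (nat_lit 4) (nat_lit 8) (nat_lit 10) L108227 (by decide +kernel)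
theorem L108229 : W_40 (nat_lit 2) (nat_lit 0xd00048006c0010001c0000000000000000000000000000000) (nat_lit 0x0) (nat_lit 0x2000840000000000000000000000000000000000000000000) := D_40 (nat_lit 193) (nat_lit 179) (nat_lit 174) (nat_lit 2) (nat_lit 5) (nat_lit 11) (nat_lit 0) (nat_lit 8) (nat_lit 11) (by decide +kernel)
theorem L108230 : W_40 (nat_lit 3) (nat_lit 0x500048006c0010001c0000000000000000000000000000000) (nat_lit 0x0) (nat_lit 0x8000a000840000000000000000000000000000000000000000000) := T_40 (nat_lit 195) (nat_lit 211) (nat_lit 5) (nat_lit 8) (nat_lit 8) L108229 (by decide +kernel)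
theorem L108231 : W_40 (nat_lit 4) (nat_lit 0x500048006c0010000c0000000000000000000000000000000) (nat_lit 0x0) (nat_lit 0x8000a000840000000000100008000000000000000000000000000) := T_40 (nat_lit 128) (nat_lit 111) (nat_lit 6) (nat_lit 8) (nat_lit 10) L108230 (by decide +kernel)
theorem L108232 : W_40 (nat_lit 5) (nat_lit 0x100048006c0010000c0000000000000000000000000000000) (nat_lit 0x0) (nat_lit 0x8000e000a40000000000100008000000000000000000000000000) := T_40 (nat_lit 194) (nat_lit 177) (nat_lit 5) (nat_lit 8) (nat_lit 7) L108231 (by decide +kernel)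
theorem L108233 : W_40 (nat_lit 6) (nat_lit 0x100048006c001000080000000000000000000000000000000) (nat_lit 0x0) (nat_lit 0x8000e000a4000000000014000a000000000000000000000000000) := T_40 (nat_lit 126) (nat_lit 109) (nat_lit 4) (nat_lit 8) (nat_lit 10) L108232 (by decide +kernel)
theorem L108234 : W_40 (nat_lit 2) (nat_lit 0x6000100048006e001200180000000000000000000000000000000) (nat_lit 0x0) (nat_lit 0x200010000800000000000000000000000000000000000000000000000) := D_40 (nat_lit 208) (nat_lit 191) (nat_lit 225) (nat_lit 5) (nat_lit 5) (nat_lit 8) (nat_lit 5) (nat_lit 5) (nat_lit 9) (by decide +kernel)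
theorem L108235 : W_40 (nat_lit 3) (nat_lit 0x6000100048006e001000180000000000000000000000000000000) (nat_lit 0x0) (nat_lit 0x200010002800000000000200000000000000000000000000000000000) := T_40 (nat_lit 141) (nat_lit 193) (nat_lit 7) (nat_lit 5) (nat_lit 8) L108234 (by decide +kernel)
theorem L108236 : W_40 (nat_lit 4) (nat_lit 0x6000100048006c001000180000000000000000000000000000000) (nat_lit 0x0) (nat_lit 0x200010002800000002000300000000000000000000000000000000000) := T_40 (nat_lit 157) (nat_lit 140) (nat_lit 4) (nat_lit 5) (nat_lit 12) L108235 (by decide +kernel)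
theorem L108237 : W_40 (nat_lit 5) (nat_lit 0x2000100048006c001000180000000000000000000000000000000) (nat_lit 0x0) (nat_lit 0xa00050002800000002000300000000000000000000000000000000000) := T_40 (nat_lit 210) (nat_lit 227) (nat_lit 7) (nat_lit 5) (nat_lit 9) L108236 (by decide +kernel)
theorem L108238 : W_40 (nat_lit 6) (nat_lit 0x100048006c001000180000000000000000000000000000000) (nat_lit 0x0) (nat_lit 0xa00070002800000002000700000000000000000000000000000000000) := T_40 (nat_lit 209) (nat_lit 142) (nat_lit 6) (nat_lit 5) (nat_lit 12) L108237 (by decide +kernel)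
theorem L108239 : W_40 (nat_lit 7) (nat_lit 0x100048006c001000080000000000000000000000000000000) (nat_lit 0x0) (nat_lit 0xa00070002800000002000700100008000000000000000000000000000) := T_40 (nat_lit 128) (nat_lit 111) (nat_lit 6) (nat_lit 8) (nat_lit 10) L108238 (by decide +kernel)
theorem L108240 : W_40 (nat_lit 9) (nat_lit 0x48006c001000080000000000000000000000000000000) (nat_lit 0x0) (nat_lit 0x4000e000f000f800a4000200070014000a000000000000000000000000000) := Q_40 (nat_lit 192) (C_40 L108215 (C_40 L108221 (C_40 L108228 (C_40 L108233 (C_40 L108239 N_40))))) (by decide +kernel)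
theorem L108241 : W_40 (nat_lit 2) (nat_lit 0x10000f00048006c0013001c0000000000000000000000000000000) (nat_lit 0x0) (nat_lit 0x400030000000000000000000000000000000) := D_40 (nat_lit 125) (nat_lit 142) (nat_lit 124) (nat_lit 1) (nat_lit 9) (nat_lit 7) (nat_lit 1) (nat_lit 8) (nat_lit 7) (by decide +kernel)
theorem L108242 : W_40 (nat_lit 3) (nat_lit 0x10000f00048006c0012001c0000000000000000000000000000000) (nat_lit 0x0) (nat_lit 0x500038000000000000000000000000000000) := T_40 (nat_lit 140) (nat_lit 123) (nat_lit 4) (nat_lit 5) (nat_lit 11) L108241 (by decide +kernel)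
theorem L108243 : W_40 (nat_lit 4) (nat_lit 0x10000f00048006c0010001c0000000000000000000000000000000) (nat_lit 0x0) (nat_lit 0x40000000000000000700038000000000000000000000000000000) := T_40 (nat_lit 141) (nat_lit 210) (nat_lit 7) (nat_lit 5) (nat_lit 8) L108242 (by decide +kernel)
theorem L108244 : W_40 (nat_lit 5) (nat_lit 0xf00048006c0010001c0000000000000000000000000000000) (nat_lit 0x0) (nat_lit 0x340000000000000000700038000000000000000000000000000000) := T_40 (nat_lit 212) (nat_lit 213) (nat_lit 3) (nat_lit 5) (nat_lit 11) L108243 (by decide +kernel)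
theorem L108245 : W_40 (nat_lit 6) (nat_lit 0xd00048006c0010001c0000000000000000000000000000000) (nat_lit 0x0) (nat_lit 0x340002000040000000700038000000000000000000000000000000) := T_40 (nat_lit 193) (nat_lit 174) (nat_lit 0) (nat_lit 8) (nat_lit 11) L108244 (by decide +kernel)
theorem L108246 : W_40 (nat_lit 7) (nat_lit 0x500048006c0010001c0000000000000000000000000000000) (nat_lit 0x0) (nat_lit 0x3c000a000040000000700038000000000000000000000000000000) := T_40 (nat_lit 195) (nat_lit 211) (nat_lit 5) (nat_lit 8) (nat_lit 8) L108245 (by decide +kernel)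
theorem L108247 : W_40 (nat_lit 8) (nat_lit 0x100048006c0010001c0000000000000000000000000000000) (nat_lit 0x0) (nat_lit 0x3c000e000240000000700038000000000000000000000000000000) := T_40 (nat_lit 194) (nat_lit 177) (nat_lit 5) (nat_lit 8) (nat_lit 7) L108246 (by decide +kernel)
theorem L108248 : W_40 (nat_lit 9) (nat_lit 0x100048006c0010000c0000000000000000000000000000000) (nat_lit 0x0) (nat_lit 0x3c000e000240000000700138008000000000000000000000000000) := T_40 (nat_lit 128) (nat_lit 111) (nat_lit 6) (nat_lit 8) (nat_lit 10) L108247 (by decide +kernel)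
theorem L108249 : W_40 (nat_lit 10) (nat_lit 0x100048006c001000080000000000000000000000000000000) (nat_lit 0x0) (nat_lit 0x3c000e00024000000070017800a000000000000000000000000000) := T_40 (nat_lit 126) (nat_lit 109) (nat_lit 4) (nat_lit 8) (nat_lit 10) L108248 (by decide +kernel)
theorem L108250 : W_40 (nat_lit 2) (nat_lit 0x2000f00048006c0010000c0000000000000000000000000000000) (nat_lit 0x0) (nat_lit 0x800040000000000000000200000000000000000000000000000000000) := D_40 (nat_lit 210) (nat_lit 141) (nat_lit 227) (nat_lit 7) (nat_lit 5) (nat_lit 8) (nat_lit 7) (nat_lit 5) (nat_lit 9) (by decide +kernel)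
theorem L108251 : W_40 (nat_lit 3) (nat_lit 0xf00048006c0010000c0000000000000000000000000000000) (nat_lit 0x0) (nat_lit 0x800070000000000000000200000000000000000000000000000000000) := T_40 (nat_lit 209) (nat_lit 208) (nat_lit 1) (nat_lit 8) (nat_lit 11) L108250 (by decide +kernel)
theorem L108252 : W_40 (nat_lit 4) (nat_lit 0xd00048006c0010000c0000000000000000000000000000000) (nat_lit 0x0) (nat_lit 0x800070002000040000000200000000000000000000000000000000000) := T_40 (nat_lit 193) (nat_lit 174) (nat_lit 0) (nat_lit 8) (nat_lit 11) L108251 (by decide +kernel)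
theorem L108253 : W_40 (nat_lit 5) (nat_lit 0x500048006c0010000c0000000000000000000000000000000) (nat_lit 0x0) (nat_lit 0x8000f000a000040000000200000000000000000000000000000000000) := T_40 (nat_lit 195) (nat_lit 211) (nat_lit 5) (nat_lit 8) (nat_lit 8) L108252 (by decide +kernel)
theorem L108254 : W_40 (nat_lit 6) (nat_lit 0x500048006c001000080000000000000000000000000000000) (nat_lit 0x0) (nat_lit 0x8000f000a000040000000200040002000000000000000000000000000) := T_40 (nat_lit 126) (nat_lit 109) (nat_lit 4) (nat_lit 8) (nat_lit 10) L108253 (by decide +kernel)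
theorem L108255 : W_40 (nat_lit 7) (nat_lit 0x100048006c001000080000000000000000000000000000000) (nat_lit 0x0) (nat_lit 0x8000f000e000240000000200040002000000000000000000000000000) := T_40 (nat_lit 194) (nat_lit 177) (nat_lit 5) (nat_lit 8) (nat_lit 7) L108254 (by decide +kernel)
theorem L108256 : W_40 (nat_lit 11) (nat_lit 0x48006c001000080000000000000000000000000000000) (nat_lit 0x0) (nat_lit 0x4000e003f000f80024000200070017800a000000000000000000000000000) := Q_40 (nat_lit 192) (C_40 L108239 (C_40 L108215 (C_40 L108228 (C_40 L108249 (C_40 L108255 N_40))))) (by decide +kernel)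
theorem L108257 : W_40 (nat_lit 2) (nat_lit 0x40002000100048006e001000080000000000000000000000000000000) (nat_lit 0x0) (nat_lit 0x4000200010000000000000000000000000000000000000000000000000000) := D_40 (nat_lit 225) (nat_lit 242) (nat_lit 208) (nat_lit 5) (nat_lit 5) (nat_lit 10) (nat_lit 5) (nat_lit 5) (nat_lit 9) (by decide +kernel)
theorem L108258 : W_40 (nat_lit 3) (nat_lit 0x2000100048006e001000080000000000000000000000000000000) (nat_lit 0x0) (nat_lit 0x4000600010000000040000000000000000000000000000000000000000000) := T_40 (nat_lit 226) (nat_lit 174) (nat_lit 4) (nat_lit 5) (nat_lit 13) L108257 (by decide +kernel)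
theorem L108259 : W_40 (nat_lit 4) (nat_lit 0x2000100048006c001000080000000000000000000000000000000) (nat_lit 0x0) (nat_lit 0x4000600010000000040002000100000000000000000000000000000000000) := T_40 (nat_lit 157) (nat_lit 140) (nat_lit 4) (nat_lit 5) (nat_lit 12) L108258 (by decide +kernel)
theorem L108260 : W_40 (nat_lit 5) (nat_lit 0x100048006c001000080000000000000000000000000000000) (nat_lit 0x0) (nat_lit 0x4000600030000000040002000500000000000000000000000000000000000) := T_40 (nat_lit 209) (nat_lit 142) (nat_lit 6) (nat_lit 5) (nat_lit 12) L108259 (by decide +kernel)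
theorem L108261 : W_40 (nat_lit 2) (nat_lit 0xd00048006c001000180000000000000000000000000000000) (nat_lit 0x0) (nat_lit 0x2000840000000000000000000000000000000000000000000) := D_40 (nat_lit 193) (nat_lit 179) (nat_lit 174) (nat_lit 2) (nat_lit 5) (nat_lit 11) (nat_lit 0) (nat_lit 8) (nat_lit 11) (by decide +kernel)
theorem L108262 : W_40 (nat_lit 3) (nat_lit 0x500048006c001000180000000000000000000000000000000) (nat_lit 0x0) (nat_lit 0x8000a000840000000000000000000000000000000000000000000) := T_40 (nat_lit 195) (nat_lit 211) (nat_lit 5) (nat_lit 8) (nat_lit 8) L108261 (by decide +kernel)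
theorem L108263 : W_40 (nat_lit 4) (nat_lit 0x100048006c001000180000000000000000000000000000000) (nat_lit 0x0) (nat_lit 0x8000e000a40000000000000000000000000000000000000000000) := T_40 (nat_lit 194) (nat_lit 177) (nat_lit 5) (nat_lit 8) (nat_lit 7) L108262 (by decide +kernel)
theorem L108264 : W_40 (nat_lit 5) (nat_lit 0x100048006c001000080000000000000000000000000000000) (nat_lit 0x0) (nat_lit 0x8000e000a40000000000100008000000000000000000000000000) := T_40 (nat_lit 128) (nat_lit 111) (nat_lit 6) (nat_lit 8) (nat_lit 10) L108263 (by decide +kernel)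
theorem L108265 : W_40 (nat_lit 8) (nat_lit 0x48006c001000080000000000000000000000000000000) (nat_lit 0x0) (nat_lit 0x4000e000f000f800a40002000700100008000000000000000000000000000) := Q_40 (nat_lit 192) (C_40 L108239 (C_40 L108215 (C_40 L108260 (C_40 L108264 N_40)))) (by decide +kernel)
theorem L108266 : W_40 (nat_lit 2) (nat_lit 0xd00048006c0010000c0000000000000000000000000000000) (nat_lit 0x0) (nat_lit 0x2000840000000000000000000000000000000000000000000) := D_40 (nat_lit 193) (nat_lit 179) (nat_lit 174) (nat_lit 2) (nat_lit 5) (nat_lit 11) (nat_lit 0) (nat_lit 8) (nat_lit 11) (by decide +kernel)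
theorem L108267 : W_40 (nat_lit 3) (nat_lit 0x500048006c0010000c0000000000000000000000000000000) (nat_lit 0x0) (nat_lit 0x8000a000840000000000000000000000000000000000000000000) := T_40 (nat_lit 195) (nat_lit 211) (nat_lit 5) (nat_lit 8) (nat_lit 8) L108266 (by decide +kernel)
theorem L108268 : W_40 (nat_lit 4) (nat_lit 0x500048006c001000080000000000000000000000000000000) (nat_lit 0x0) (nat_lit 0x8000a000840000000000040002000000000000000000000000000) := T_40 (nat_lit 126) (nat_lit 109) (nat_lit 4) (nat_lit 8) (nat_lit 10) L108267 (by decide +kernel)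
theorem L108269 : W_40 (nat_lit 5) (nat_lit 0x100048006c001000080000000000000000000000000000000) (nat_lit 0x0) (nat_lit 0x8000e000a40000000000040002000000000000000000000000000) := T_40 (nat_lit 194) (nat_lit 177) (nat_lit 5) (nat_lit 8) (nat_lit 7) L108268 (by decide +kernel)
theorem L108270 : W_40 (nat_lit 2) (nat_lit 0x6000100048006e0012000c0000000000000000000000000000000) (nat_lit 0x0) (nat_lit 0x200010000800000000000000000000000000000000000000000000000) := D_40 (nat_lit 208) (nat_lit 191) (nat_lit 225) (nat_lit 5) (nat_lit 5) (nat_lit 8) (nat_lit 5) (nat_lit 5) (nat_lit 9) (by decide +kernel)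
theorem L108271 : W_40 (nat_lit 3) (nat_lit 0x6000100048006e0010000c0000000000000000000000000000000) (nat_lit 0x0) (nat_lit 0x200010002800000000000200000000000000000000000000000000000) := T_40 (nat_lit 141) (nat_lit 193) (nat_lit 7) (nat_lit 5) (nat_lit 8) L108270 (by decide +kernel)
theorem L108272 : W_40 (nat_lit 4) (nat_lit 0x6000100048006c0010000c0000000000000000000000000000000) (nat_lit 0x0) (nat_lit 0x200010002800000002000300000000000000000000000000000000000) := T_40 (nat_lit 157) (nat_lit 140) (nat_lit 4) (nat_lit 5) (nat_lit 12) L108271 (by decide +kernel)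
theorem L108273 : W_40 (nat_lit 5) (nat_lit 0x2000100048006c0010000c0000000000000000000000000000000) (nat_lit 0x0) (nat_lit 0xa00050002800000002000300000000000000000000000000000000000) := T_40 (nat_lit 210) (nat_lit 227) (nat_lit 7) (nat_lit 5) (nat_lit 9) L108272 (by decide +kernel)
theorem L108274 : W_40 (nat_lit 6) (nat_lit 0x100048006c0010000c0000000000000000000000000000000) (nat_lit 0x0) (nat_lit 0xa00070002800000002000700000000000000000000000000000000000) := T_40 (nat_lit 209) (nat_lit 142) (nat_lit 6) (nat_lit 5) (nat_lit 12) L108273 (by decide +kernel)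
theorem L108275 : W_40 (nat_lit 7) (nat_lit 0x100048006c001000080000000000000000000000000000000) (nat_lit 0x0) (nat_lit 0xa00070002800000002000700040002000000000000000000000000000) := T_40 (nat_lit 126) (nat_lit 109) (nat_lit 4) (nat_lit 8) (nat_lit 10) L108274 (by decide +kernel)
theorem L108276 : W_40 (nat_lit 8) (nat_lit 0x48006c001000080000000000000000000000000000000) (nat_lit 0x0) (nat_lit 0x4000e000f000f800a40002000700040002000000000000000000000000000) := Q_40 (nat_lit 192) (C_40 L108260 (C_40 L108269 (C_40 L108275 N_40))) (by decide +kernel)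
theorem L108277 : W_40 (nat_lit 2) (nat_lit 0x380068006d0017800c4000000000000000000000000000000) (nat_lit 0x0) (nat_lit 0x40002000000010000000000000000000000000000000) := D_40 (nat_lit 174) (nat_lit 124) (nat_lit 157) (nat_lit 5) (nat_lit 5) (nat_lit 7) (nat_lit 4) (nat_lit 4) (nat_lit 11) (by decide +kernel)
theorem L108278 : W_40 (nat_lit 3) (nat_lit 0x300068006d0017800c4000000000000000000000000000000) (nat_lit 0x0) (nat_lit 0x10000800040002000000010000000000000000000000000000000) := T_40 (nat_lit 191) (nat_lit 208) (nat_lit 5) (nat_lit 5) (nat_lit 8) L108277 (by decide +kernel)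
theorem L108279 : W_40 (nat_lit 4) (nat_lit 0x300068006d0017800c0000000000000000000000000000000) (nat_lit 0x0) (nat_lit 0x10000800040002000000016000000000000000000000000000000) := T_40 (nat_lit 122) (nat_lit 121) (nat_lit 0) (nat_lit 6) (nat_lit 8) L108278 (by decide +kernel)
theorem L108280 : W_40 (nat_lit 5) (nat_lit 0x300068006c0017800c0000000000000000000000000000000) (nat_lit 0x0) (nat_lit 0x10000800040003800000016000000000000000000000000000000) := T_40 (nat_lit 156) (nat_lit 155) (nat_lit 1) (nat_lit 6) (nat_lit 8) L108279 (by decide +kernel)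
theorem L108281 : W_40 (nat_lit 6) (nat_lit 0x300068006c001780080000000000000000000000000000000) (nat_lit 0x0) (nat_lit 0x10000800040003800000056002000000000000000000000000000) := T_40 (nat_lit 126) (nat_lit 109) (nat_lit 4) (nat_lit 8) (nat_lit 10) L108280 (by decide +kernel)
theorem L108282 : W_40 (nat_lit 7) (nat_lit 0x300068006c001700080000000000000000000000000000000) (nat_lit 0x0) (nat_lit 0x100008000400038000c0056002000000000000000000000000000) := T_40 (nat_lit 139) (nat_lit 138) (nat_lit 3) (nat_lit 2) (nat_lit 8) L108281 (by decide +kernel)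
theorem L108283 : W_40 (nat_lit 8) (nat_lit 0x300068006c001600080000000000000000000000000000000) (nat_lit 0x0) (nat_lit 0x100008000400038001c005e002000000000000000000000000000) := T_40 (nat_lit 140) (nat_lit 123) (nat_lit 4) (nat_lit 5) (nat_lit 11) L108282 (by decide +kernel)
theorem L108284 : W_40 (nat_lit 9) (nat_lit 0x100068006c001600080000000000000000000000000000000) (nat_lit 0x0) (nat_lit 0x500028000400038001c005e002000000000000000000000000000) := T_40 (nat_lit 193) (nat_lit 210) (nat_lit 7) (nat_lit 5) (nat_lit 8) L108283 (by decide +kernel)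
theorem L108285 : W_40 (nat_lit 10) (nat_lit 0x100068006c001200080000000000000000000000000000000) (nat_lit 0x0) (nat_lit 0x500028000400038005c007e002000000000000000000000000000) := T_40 (nat_lit 142) (nat_lit 125) (nat_lit 6) (nat_lit 5) (nat_lit 11) L108284 (by decide +kernel)
theorem L108286 : W_40 (nat_lit 11) (nat_lit 0x100048006c001200080000000000000000000000000000000) (nat_lit 0x0) (nat_lit 0x500068002400038005c007e002000000000000000000000000000) := T_40 (nat_lit 177) (nat_lit 194) (nat_lit 5) (nat_lit 8) (nat_lit 7) L108285 (by decide +kernel)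
theorem L108287 : W_40 (nat_lit 2) (nat_lit 0x380048006d0017801c4000000000000000000000000000000) (nat_lit 0x0) (nat_lit 0x40002000000010000000000000000000000000000000) := D_40 (nat_lit 174) (nat_lit 124) (nat_lit 157) (nat_lit 5) (nat_lit 5) (nat_lit 7) (nat_lit 4) (nat_lit 4) (nat_lit 11) (by decide +kernel)
theorem L108288 : W_40 (nat_lit 3) (nat_lit 0x300048006d0017801c4000000000000000000000000000000) (nat_lit 0x0) (nat_lit 0x10000800040002000000010000000000000000000000000000000) := T_40 (nat_lit 191) (nat_lit 208) (nat_lit 5) (nat_lit 5) (nat_lit 8) L108287 (by decide +kernel)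
theorem L108289 : W_40 (nat_lit 4) (nat_lit 0x300048006d0017801c0000000000000000000000000000000) (nat_lit 0x0) (nat_lit 0x10000800040002000000016000000000000000000000000000000) := T_40 (nat_lit 122) (nat_lit 121) (nat_lit 0) (nat_lit 6) (nat_lit 8) L108288 (by decide +kernel)
theorem L108290 : W_40 (nat_lit 5) (nat_lit 0x300048006c0017801c0000000000000000000000000000000) (nat_lit 0x0) (nat_lit 0x10000800040003800000016000000000000000000000000000000) := T_40 (nat_lit 156) (nat_lit 155) (nat_lit 1) (nat_lit 6) (nat_lit 8) L108289 (by decide +kernel)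
theorem L108291 : W_40 (nat_lit 6) (nat_lit 0x300048006c001780180000000000000000000000000000000) (nat_lit 0x0) (nat_lit 0x10000800040003800000056002000000000000000000000000000) := T_40 (nat_lit 126) (nat_lit 109) (nat_lit 4) (nat_lit 8) (nat_lit 10) L108290 (by decide +kernel)
theorem L108292 : W_40 (nat_lit 7) (nat_lit 0x300048006c001700180000000000000000000000000000000) (nat_lit 0x0) (nat_lit 0x100008000400038000c0056002000000000000000000000000000) := T_40 (nat_lit 139) (nat_lit 138) (nat_lit 3) (nat_lit 2) (nat_lit 8) L108291 (by decide +kernel)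
theorem L108293 : W_40 (nat_lit 8) (nat_lit 0x300048006c001600180000000000000000000000000000000) (nat_lit 0x0) (nat_lit 0x100008000400038001c005e002000000000000000000000000000) := T_40 (nat_lit 140) (nat_lit 123) (nat_lit 4) (nat_lit 5) (nat_lit 11) L108292 (by decide +kernel)
theorem L108294 : W_40 (nat_lit 9) (nat_lit 0x100048006c001600180000000000000000000000000000000) (nat_lit 0x0) (nat_lit 0x500028000400038001c005e002000000000000000000000000000) := T_40 (nat_lit 193) (nat_lit 210) (nat_lit 7) (nat_lit 5) (nat_lit 8) L108293 (by decide +kernel)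
theorem L108295 : W_40 (nat_lit 10) (nat_lit 0x100048006c001200180000000000000000000000000000000) (nat_lit 0x0) (nat_lit 0x500028000400038005c007e002000000000000000000000000000) := T_40 (nat_lit 142) (nat_lit 125) (nat_lit 6) (nat_lit 5) (nat_lit 11) L108294 (by decide +kernel)
theorem L108296 : W_40 (nat_lit 11) (nat_lit 0x100048006c001200080000000000000000000000000000000) (nat_lit 0x0) (nat_lit 0x500028000400038005c017e00a000000000000000000000000000) := T_40 (nat_lit 128) (nat_lit 111) (nat_lit 6) (nat_lit 8) (nat_lit 10) L108295 (by decide +kernel)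
theorem L108297 : W_40 (nat_lit 2) (nat_lit 0x180048006c001200190000000000000000000000000000000) (nat_lit 0x0) (nat_lit 0x400020001000000000000000000000000000) := D_40 (nat_lit 125) (nat_lit 142) (nat_lit 108) (nat_lit 6) (nat_lit 5) (nat_lit 11) (nat_lit 6) (nat_lit 5) (nat_lit 10) (by decide +kernel)
theorem L108298 : W_40 (nat_lit 3) (nat_lit 0x180048006c001200180000000000000000000000000000000) (nat_lit 0x0) (nat_lit 0x40000000400030001000000000000000000000000000) := T_40 (nat_lit 124) (nat_lit 174) (nat_lit 5) (nat_lit 5) (nat_lit 7) L108297 (by decide +kernel)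
theorem L108299 : W_40 (nat_lit 4) (nat_lit 0x180048006c001200080000000000000000000000000000000) (nat_lit 0x0) (nat_lit 0x40000000400130009000000000000000000000000000) := T_40 (nat_lit 128) (nat_lit 111) (nat_lit 6) (nat_lit 8) (nat_lit 10) L108298 (by decide +kernel)
theorem L108300 : W_40 (nat_lit 5) (nat_lit 0x100048006c001200080000000000000000000000000000000) (nat_lit 0x0) (nat_lit 0x10000800040000000400130009000000000000000000000000000) := T_40 (nat_lit 191) (nat_lit 208) (nat_lit 5) (nat_lit 5) (nat_lit 8) L108299 (by decide +kernel)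
theorem L108301 : W_40 (nat_lit 2) (nat_lit 0x780048006c0012001c0000000000000000000000000000000) (nat_lit 0x0) (nat_lit 0x60000000000010000000000000000000000000000000) := D_40 (nat_lit 174) (nat_lit 173) (nat_lit 124) (nat_lit 0) (nat_lit 7) (nat_lit 11) (nat_lit 5) (nat_lit 5) (nat_lit 7) (by decide +kernel)
theorem L108302 : W_40 (nat_lit 3) (nat_lit 0x380048006c0012001c0000000000000000000000000000000) (nat_lit 0x0) (nat_lit 0x4000260000000000010000000000000000000000000000000) := T_40 (nat_lit 194) (nat_lit 177) (nat_lit 2) (nat_lit 4) (nat_lit 11) L108301 (by decide +kernel)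
theorem L108303 : W_40 (nat_lit 4) (nat_lit 0x180048006c0012001c0000000000000000000000000000000) (nat_lit 0x0) (nat_lit 0x40006000260000000000010000000000000000000000000000000) := T_40 (nat_lit 193) (nat_lit 210) (nat_lit 7) (nat_lit 5) (nat_lit 8) L108302 (by decide +kernel)
theorem L108304 : W_40 (nat_lit 5) (nat_lit 0x100048006c0012001c0000000000000000000000000000000) (nat_lit 0x0) (nat_lit 0x50006800260000000000010000000000000000000000000000000) := T_40 (nat_lit 191) (nat_lit 208) (nat_lit 5) (nat_lit 5) (nat_lit 8) L108303 (by decide +kernel)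
theorem L108305 : W_40 (nat_lit 6) (nat_lit 0x100048006c0012000c0000000000000000000000000000000) (nat_lit 0x0) (nat_lit 0x50006800260000000000110008000000000000000000000000000) := T_40 (nat_lit 128) (nat_lit 111) (nat_lit 6) (nat_lit 8) (nat_lit 10) L108304 (by decide +kernel)
theorem L108306 : W_40 (nat_lit 7) (nat_lit 0x100048006c001200080000000000000000000000000000000) (nat_lit 0x0) (nat_lit 0x5000680026000000000015000a000000000000000000000000000) := T_40 (nat_lit 126) (nat_lit 109) (nat_lit 4) (nat_lit 8) (nat_lit 10) L108305 (by decide +kernel)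
theorem L108307 : W_40 (nat_lit 2) (nat_lit 0x8007c004a006c001740080000000000000000000000000000000) (nat_lit 0x0) (nat_lit 0x3800000000000000000000000000000000000000) := D_40 (nat_lit 156) (nat_lit 155) (nat_lit 157) (nat_lit 4) (nat_lit 3) (nat_lit 12) (nat_lit 6) (nat_lit 3) (nat_lit 12) (by decide +kernel)
theorem L108308 : W_40 (nat_lit 3) (nat_lit 0x7c004a006c001740080000000000000000000000000000000) (nat_lit 0x0) (nat_lit 0xc000000000003800000000000000000000000000000000000000) := T_40 (nat_lit 207) (nat_lit 206) (nat_lit 1) (nat_lit 6) (nat_lit 11) L108307 (by decide +kernel)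
theorem L108309 : W_40 (nat_lit 4) (nat_lit 0x78004a006c001740080000000000000000000000000000000) (nat_lit 0x0) (nat_lit 0xc000400010003800000000000000000000000000000000000000) := T_40 (nat_lit 190) (nat_lit 172) (nat_lit 0) (nat_lit 6) (nat_lit 11) L108308 (by decide +kernel)
theorem L108310 : W_40 (nat_lit 5) (nat_lit 0x780048006c001740080000000000000000000000000000000) (nat_lit 0x0) (nat_lit 0xc000400070003800000000000000000000000000000000000000) := T_40 (nat_lit 173) (nat_lit 174) (nat_lit 0) (nat_lit 7) (nat_lit 11) L108309 (by decide +kernel)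
theorem L108311 : W_40 (nat_lit 6) (nat_lit 0x580048006c001740080000000000000000000000000000000) (nat_lit 0x0) (nat_lit 0x4c002400070003800000000000000000000000000000000000000) := T_40 (nat_lit 193) (nat_lit 210) (nat_lit 7) (nat_lit 5) (nat_lit 8) L108310 (by decide +kernel)
theorem L108312 : W_40 (nat_lit 7) (nat_lit 0x180048006c001740080000000000000000000000000000000) (nat_lit 0x0) (nat_lit 0x4c006400270003800000000000000000000000000000000000000) := T_40 (nat_lit 194) (nat_lit 177) (nat_lit 5) (nat_lit 8) (nat_lit 7) L108311 (by decide +kernel)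
theorem L108313 : W_40 (nat_lit 8) (nat_lit 0x100048006c001740080000000000000000000000000000000) (nat_lit 0x0) (nat_lit 0x5c006c00270003800000000000000000000000000000000000000) := T_40 (nat_lit 191) (nat_lit 208) (nat_lit 5) (nat_lit 5) (nat_lit 8) L108312 (by decide +kernel)
theorem L108314 : W_40 (nat_lit 9) (nat_lit 0x100048006c001340080000000000000000000000000000000) (nat_lit 0x0) (nat_lit 0x5c006c00270003800400020000000000000000000000000000000) := T_40 (nat_lit 142) (nat_lit 125) (nat_lit 6) (nat_lit 5) (nat_lit 11) L108313 (by decide +kernel)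
theorem L108315 : W_40 (nat_lit 10) (nat_lit 0x100048006c001300080000000000000000000000000000000) (nat_lit 0x0) (nat_lit 0x5c006c002700038004c0020000000000000000000000000000000) := T_40 (nat_lit 138) (nat_lit 139) (nat_lit 3) (nat_lit 2) (nat_lit 8) L108314 (by decide +kernel)
theorem L108316 : W_40 (nat_lit 11) (nat_lit 0x100048006c001200080000000000000000000000000000000) (nat_lit 0x0) (nat_lit 0x5c006c002700038005c0028000000000000000000000000000000) := T_40 (nat_lit 140) (nat_lit 123) (nat_lit 4) (nat_lit 5) (nat_lit 11) L108315 (by decide +kernel)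
theorem L108317 : W_40 (nat_lit 2) (nat_lit 0x30004c006c0016000d8000000000000000000000000000000) (nat_lit 0x0) (nat_lit 0x2000000000000800040000000000000000000000) := D_40 (nat_lit 107) (nat_lit 90) (nat_lit 157) (nat_lit 7) (nat_lit 5) (nat_lit 5) (nat_lit 5) (nat_lit 5) (nat_lit 6) (by decide +kernel)
theorem L108318 : W_40 (nat_lit 3) (nat_lit 0x300048006c0016000d8000000000000000000000000000000) (nat_lit 0x0) (nat_lit 0x800040002000000000000800040000000000000000000000) := T_40 (nat_lit 174) (nat_lit 191) (nat_lit 5) (nat_lit 5) (nat_lit 7) L108317 (by decide +kernel)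
theorem L108319 : W_40 (nat_lit 4) (nat_lit 0x300048006c0016000c8000000000000000000000000000000) (nat_lit 0x0) (nat_lit 0x800040002000000010000c00040000000000000000000000) := T_40 (nat_lit 124) (nat_lit 106) (nat_lit 4) (nat_lit 5) (nat_lit 10) L108318 (by decide +kernel)
theorem L108320 : W_40 (nat_lit 5) (nat_lit 0x100048006c0016000c8000000000000000000000000000000) (nat_lit 0x0) (nat_lit 0x40002800040002000000010000c00040000000000000000000000) := T_40 (nat_lit 193) (nat_lit 210) (nat_lit 7) (nat_lit 5) (nat_lit 8) L108319 (by decide +kernel)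
theorem L108321 : W_40 (nat_lit 6) (nat_lit 0x100048006c0016000c0000000000000000000000000000000) (nat_lit 0x0) (nat_lit 0x40002800040002000100018000c00040000000000000000000000) := T_40 (nat_lit 123) (nat_lit 140) (nat_lit 4) (nat_lit 5) (nat_lit 11) L108320 (by decide +kernel)
theorem L108322 : W_40 (nat_lit 7) (nat_lit 0x100048006c0012000c0000000000000000000000000000000) (nat_lit 0x0) (nat_lit 0x40002800040002000500038000c00040000000000000000000000) := T_40 (nat_lit 142) (nat_lit 125) (nat_lit 6) (nat_lit 5) (nat_lit 11) L108321 (by decide +kernel)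
theorem L108323 : W_40 (nat_lit 8) (nat_lit 0x100048006c001200080000000000000000000000000000000) (nat_lit 0x0) (nat_lit 0x40002800040002000500078002c00040000000000000000000000) := T_40 (nat_lit 126) (nat_lit 109) (nat_lit 4) (nat_lit 8) (nat_lit 10) L108322 (by decide +kernel)
theorem L108324 : W_40 (nat_lit 2) (nat_lit 0x180048006c0013400c0000000000000000000000000000000) (nat_lit 0x0) (nat_lit 0x400030000000000000000000000000000000) := D_40 (nat_lit 125) (nat_lit 124) (nat_lit 142) (nat_lit 1) (nat_lit 8) (nat_lit 7) (nat_lit 6) (nat_lit 5) (nat_lit 11) (by decide +kernel)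
theorem L108325 : W_40 (nat_lit 3) (nat_lit 0x180048006c001340080000000000000000000000000000000) (nat_lit 0x0) (nat_lit 0x400070002000000000000000000000000000) := T_40 (nat_lit 126) (nat_lit 109) (nat_lit 4) (nat_lit 8) (nat_lit 10) L108324 (by decide +kernel)
theorem L108326 : W_40 (nat_lit 4) (nat_lit 0x100048006c001340080000000000000000000000000000000) (nat_lit 0x0) (nat_lit 0x10000800000000000400070002000000000000000000000000000) := T_40 (nat_lit 191) (nat_lit 208) (nat_lit 5) (nat_lit 5) (nat_lit 8) L108325 (by decide +kernel)
theorem L108327 : W_40 (nat_lit 5) (nat_lit 0x100048006c001300080000000000000000000000000000000) (nat_lit 0x0) (nat_lit 0x100008000000000004c0070002000000000000000000000000000) := T_40 (nat_lit 138) (nat_lit 139) (nat_lit 3) (nat_lit 2) (nat_lit 8) L108326 (by decide +kernel)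
theorem L108328 : W_40 (nat_lit 6) (nat_lit 0x100048006c001200080000000000000000000000000000000) (nat_lit 0x0) (nat_lit 0x100008000000000005c0078002000000000000000000000000000) := T_40 (nat_lit 140) (nat_lit 123) (nat_lit 4) (nat_lit 5) (nat_lit 11) L108327 (by decide +kernel)
theorem L108329 : W_40 (nat_lit 2) (nat_lit 0x300048006c0012000b0000000000000000000000000000000) (nat_lit 0x0) (nat_lit 0x100008000400000000000000000000000000) := D_40 (nat_lit 123) (nat_lit 106) (nat_lit 140) (nat_lit 4) (nat_lit 5) (nat_lit 10) (nat_lit 4) (nat_lit 5) (nat_lit 11) (by decide +kernel)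
theorem L108330 : W_40 (nat_lit 3) (nat_lit 0x300048006c0012000a0000000000000000000000000000000) (nat_lit 0x0) (nat_lit 0x100018001400000000000000000000000000) := T_40 (nat_lit 124) (nat_lit 108) (nat_lit 6) (nat_lit 5) (nat_lit 10) L108329 (by decide +kernel)
theorem L108331 : W_40 (nat_lit 4) (nat_lit 0x100048006c0012000a0000000000000000000000000000000) (nat_lit 0x0) (nat_lit 0x40002000000000000100018001400000000000000000000000000) := T_40 (nat_lit 193) (nat_lit 210) (nat_lit 7) (nat_lit 5) (nat_lit 8) L108330 (by decide +kernel)
theorem L108332 : W_40 (nat_lit 5) (nat_lit 0x100048006c001200080000000000000000000000000000000) (nat_lit 0x0) (nat_lit 0x40002000000000000500038001400000000000000000000000000) := T_40 (nat_lit 125) (nat_lit 142) (nat_lit 6) (nat_lit 5) (nat_lit 11) L108331 (by decide +kernel)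
theorem L108333 : W_40 (nat_lit 12) (nat_lit 0x100048006c001000080000000000000000000000000000000) (nat_lit 0x0) (nat_lit 0x5c006c002700038007c017e00bc00040000000000000000000000) := Q_40 (nat_lit 141) (C_40 L108286 (C_40 L108296 (C_40 L108300 (C_40 L108306 (C_40 L108316 (C_40 L108323 (C_40 L108328 (C_40 L108332 N_40)))))))) (by decide +kernel)
theorem L108334 : W_40 (nat_lit 2) (nat_lit 0x40002000100048006e0010000c0000000000000000000000000000000) (nat_lit 0x0) (nat_lit 0x10000800040000000000000000000000000000000000000000000000000000) := D_40 (nat_lit 227) (nat_lit 210) (nat_lit 244) (nat_lit 7) (nat_lit 5) (nat_lit 9) (nat_lit 7) (nat_lit 5) (nat_lit 10) (by decide +kernel)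
theorem L108335 : W_40 (nat_lit 3) (nat_lit 0x2000100048006e0010000c0000000000000000000000000000000) (nat_lit 0x0) (nat_lit 0x10000c00040000000040000000000000000000000000000000000000000000) := T_40 (nat_lit 226) (nat_lit 174) (nat_lit 4) (nat_lit 5) (nat_lit 13) L108334 (by decide +kernel)
theorem L108336 : W_40 (nat_lit 4) (nat_lit 0x2000100048006c0010000c0000000000000000000000000000000) (nat_lit 0x0) (nat_lit 0x10000c00040000000040002000100000000000000000000000000000000000) := T_40 (nat_lit 157) (nat_lit 140) (nat_lit 4) (nat_lit 5) (nat_lit 12) L108335 (by decide +kernel)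
theorem L108337 : W_40 (nat_lit 5) (nat_lit 0x2000100048006c001000080000000000000000000000000000000) (nat_lit 0x0) (nat_lit 0x10000c00040000000040002000100040002000000000000000000000000000) := T_40 (nat_lit 126) (nat_lit 109) (nat_lit 4) (nat_lit 8) (nat_lit 10) L108336 (by decide +kernel)
theorem L108338 : W_40 (nat_lit 2) (nat_lit 0x7000100048006c001000080000000000000000000000000000000) (nat_lit 0x0) (nat_lit 0x2800000000000200000000000000000000000000000000000) := D_40 (nat_lit 141) (nat_lit 193) (nat_lit 191) (nat_lit 7) (nat_lit 5) (nat_lit 8) (nat_lit 5) (nat_lit 5) (nat_lit 8) (by decide +kernel)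
theorem L108339 : W_40 (nat_lit 3) (nat_lit 0x6000100048006c001000080000000000000000000000000000000) (nat_lit 0x0) (nat_lit 0x200010002800000000000200000000000000000000000000000000000) := T_40 (nat_lit 208) (nat_lit 225) (nat_lit 5) (nat_lit 5) (nat_lit 9) L108338 (by decide +kernel)
theorem L108340 : W_40 (nat_lit 4) (nat_lit 0x2000100048006c001000080000000000000000000000000000000) (nat_lit 0x0) (nat_lit 0xa00050002800000000000200000000000000000000000000000000000) := T_40 (nat_lit 210) (nat_lit 227) (nat_lit 7) (nat_lit 5) (nat_lit 9) L108339 (by decide +kernel)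
theorem L108341 : W_40 (nat_lit 6) (nat_lit 0x100048006c001000080000000000000000000000000000000) (nat_lit 0x0) (nat_lit 0x14000e00070002800040002000300040002000000000000000000000000000) := Q_40 (nat_lit 209) (C_40 L108259 (C_40 L108337 (C_40 L108340 N_40))) (by decide +kernel)
theorem L108342 : W_40 (nat_lit 5) (nat_lit 0x100048006c0010000c0000000000000000000000000000000) (nat_lit 0x0) (nat_lit 0x10000c00060000000040002000500000000000000000000000000000000000) := T_40 (nat_lit 209) (nat_lit 142) (nat_lit 6) (nat_lit 5) (nat_lit 12) L108336 (by decide +kernel)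
theorem L108343 : W_40 (nat_lit 6) (nat_lit 0x100048006c001000080000000000000000000000000000000) (nat_lit 0x0) (nat_lit 0x10000c00060000000040002000500040002000000000000000000000000000) := T_40 (nat_lit 126) (nat_lit 109) (nat_lit 4) (nat_lit 8) (nat_lit 10) L108342 (by decide +kernel)
theorem L108344 : W_40 (nat_lit 2) (nat_lit 0x7000100048006c0010001c0000000000000000000000000000000) (nat_lit 0x0) (nat_lit 0x2800000000000200000000000000000000000000000000000) := D_40 (nat_lit 141) (nat_lit 193) (nat_lit 191) (nat_lit 7) (nat_lit 5) (nat_lit 8) (nat_lit 5) (nat_lit 5) (nat_lit 8) (by decide +kernel)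
theorem L108345 : W_40 (nat_lit 3) (nat_lit 0x6000100048006c0010001c0000000000000000000000000000000) (nat_lit 0x0) (nat_lit 0x200010002800000000000200000000000000000000000000000000000) := T_40 (nat_lit 208) (nat_lit 225) (nat_lit 5) (nat_lit 5) (nat_lit 9) L108344 (by decide +kernel)
theorem L108346 : W_40 (nat_lit 4) (nat_lit 0x2000100048006c0010001c0000000000000000000000000000000) (nat_lit 0x0) (nat_lit 0xa00050002800000000000200000000000000000000000000000000000) := T_40 (nat_lit 210) (nat_lit 227) (nat_lit 7) (nat_lit 5) (nat_lit 9) L108345 (by decide +kernel)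
theorem L108347 : W_40 (nat_lit 5) (nat_lit 0x100048006c0010001c0000000000000000000000000000000) (nat_lit 0x0) (nat_lit 0xa00070002800000000000600000000000000000000000000000000000) := T_40 (nat_lit 209) (nat_lit 142) (nat_lit 6) (nat_lit 5) (nat_lit 12) L108346 (by decide +kernel)
theorem L108348 : W_40 (nat_lit 6) (nat_lit 0x100048006c001000180000000000000000000000000000000) (nat_lit 0x0) (nat_lit 0xa00070002800000000000600040002000000000000000000000000000) := T_40 (nat_lit 126) (nat_lit 109) (nat_lit 4) (nat_lit 8) (nat_lit 10) L108347 (by decide +kernel)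
theorem L108349 : W_40 (nat_lit 7) (nat_lit 0x100048006c001000080000000000000000000000000000000) (nat_lit 0x0) (nat_lit 0xa0007000280000000000060014000a000000000000000000000000000) := T_40 (nat_lit 128) (nat_lit 111) (nat_lit 6) (nat_lit 8) (nat_lit 10) L108348 (by decide +kernel)
theorem L108350 : W_40 (nat_lit 13) (nat_lit 0x48006c001000080000000000000000000000000000000) (nat_lit 0x0) (nat_lit 0x14000e0007c007c002700038007c017e00bc00040000000000000000000000) := Q_40 (nat_lit 192) (C_40 L108275 (C_40 L108260 (C_40 L108333 (C_40 L108341 (C_40 L108343 (C_40 L108349 N_40)))))) (by decide +kernel)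
theorem L108351 : W_40 (nat_lit 2) (nat_lit 0x300048006c0013400d0000000000000000000000000000000) (nat_lit 0x0) (nat_lit 0x10000800040000000000000000000000000000000000000000000) := D_40 (nat_lit 191) (nat_lit 208) (nat_lit 174) (nat_lit 5) (nat_lit 5) (nat_lit 8) (nat_lit 5) (nat_lit 5) (nat_lit 7) (by decide +kernel)
theorem L108352 : W_40 (nat_lit 3) (nat_lit 0x300048006c0013400c0000000000000000000000000000000) (nat_lit 0x0) (nat_lit 0x10000800040000000000030000000000000000000000000000000) := T_40 (nat_lit 124) (nat_lit 125) (nat_lit 1) (nat_lit 8) (nat_lit 7) L108351 (by decide +kernel)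
theorem L108353 : W_40 (nat_lit 4) (nat_lit 0x300048006c0013000c0000000000000000000000000000000) (nat_lit 0x0) (nat_lit 0x100008000400000000c0030000000000000000000000000000000) := T_40 (nat_lit 138) (nat_lit 139) (nat_lit 3) (nat_lit 2) (nat_lit 8) L108352 (by decide +kernel)
theorem L108354 : W_40 (nat_lit 5) (nat_lit 0x300048006c0012000c0000000000000000000000000000000) (nat_lit 0x0) (nat_lit 0x100008000400000001c0038000000000000000000000000000000) := T_40 (nat_lit 140) (nat_lit 123) (nat_lit 4) (nat_lit 5) (nat_lit 11) L108353 (by decide +kernel)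
theorem L108355 : W_40 (nat_lit 6) (nat_lit 0x100048006c0012000c0000000000000000000000000000000) (nat_lit 0x0) (nat_lit 0x500028000400000001c0038000000000000000000000000000000) := T_40 (nat_lit 193) (nat_lit 210) (nat_lit 7) (nat_lit 5) (nat_lit 8) L108354 (by decide +kernel)
theorem L108356 : W_40 (nat_lit 7) (nat_lit 0x100048006c001200080000000000000000000000000000000) (nat_lit 0x0) (nat_lit 0x500028000400000001c0078002000000000000000000000000000) := T_40 (nat_lit 126) (nat_lit 109) (nat_lit 4) (nat_lit 8) (nat_lit 10) L108355 (by decide +kernel)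
theorem L108357 : W_40 (nat_lit 2) (nat_lit 0x380048006d0017801c4000000000000000000000000000000) (nat_lit 0x0) (nat_lit 0x60002000000000000000000000000000000000000000) := D_40 (nat_lit 174) (nat_lit 157) (nat_lit 173) (nat_lit 4) (nat_lit 4) (nat_lit 11) (nat_lit 7) (nat_lit 3) (nat_lit 7) (by decide +kernel)
theorem L108358 : W_40 (nat_lit 3) (nat_lit 0x380048006d0017801c0000000000000000000000000000000) (nat_lit 0x0) (nat_lit 0x60002000000006000000000000000000000000000000) := T_40 (nat_lit 122) (nat_lit 121) (nat_lit 0) (nat_lit 6) (nat_lit 8) L108357 (by decide +kernel)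
theorem L108359 : W_40 (nat_lit 4) (nat_lit 0x380048006c0017801c0000000000000000000000000000000) (nat_lit 0x0) (nat_lit 0x60003800000006000000000000000000000000000000) := T_40 (nat_lit 156) (nat_lit 155) (nat_lit 1) (nat_lit 6) (nat_lit 8) L108358 (by decide +kernel)
theorem L108360 : W_40 (nat_lit 5) (nat_lit 0x380048006c0017800c0000000000000000000000000000000) (nat_lit 0x0) (nat_lit 0x60003800000106008000000000000000000000000000) := T_40 (nat_lit 128) (nat_lit 111) (nat_lit 6) (nat_lit 8) (nat_lit 10) L108359 (by decide +kernel)
theorem L108361 : W_40 (nat_lit 6) (nat_lit 0x380048006c0017000c0000000000000000000000000000000) (nat_lit 0x0) (nat_lit 0x600038000c0106008000000000000000000000000000) := T_40 (nat_lit 139) (nat_lit 138) (nat_lit 3) (nat_lit 2) (nat_lit 8) L108360 (by decide +kernel)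
theorem L108362 : W_40 (nat_lit 7) (nat_lit 0x380048006c0016000c0000000000000000000000000000000) (nat_lit 0x0) (nat_lit 0x600038001c010e008000000000000000000000000000) := T_40 (nat_lit 140) (nat_lit 123) (nat_lit 4) (nat_lit 5) (nat_lit 11) L108361 (by decide +kernel)
theorem L108363 : W_40 (nat_lit 8) (nat_lit 0x180048006c0016000c0000000000000000000000000000000) (nat_lit 0x0) (nat_lit 0x400020000600038001c010e008000000000000000000000000000) := T_40 (nat_lit 193) (nat_lit 210) (nat_lit 7) (nat_lit 5) (nat_lit 8) L108362 (by decide +kernel)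
theorem L108364 : W_40 (nat_lit 9) (nat_lit 0x180048006c001600080000000000000000000000000000000) (nat_lit 0x0) (nat_lit 0x400020000600038001c014e00a000000000000000000000000000) := T_40 (nat_lit 126) (nat_lit 109) (nat_lit 4) (nat_lit 8) (nat_lit 10) L108363 (by decide +kernel)
theorem L108365 : W_40 (nat_lit 10) (nat_lit 0x180048006c001200080000000000000000000000000000000) (nat_lit 0x0) (nat_lit 0x400020000600038005c016e00a000000000000000000000000000) := T_40 (nat_lit 142) (nat_lit 125) (nat_lit 6) (nat_lit 5) (nat_lit 11) L108364 (by decide +kernel)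
theorem L108366 : W_40 (nat_lit 11) (nat_lit 0x100048006c001200080000000000000000000000000000000) (nat_lit 0x0) (nat_lit 0x500028000600038005c016e00a000000000000000000000000000) := T_40 (nat_lit 191) (nat_lit 208) (nat_lit 5) (nat_lit 5) (nat_lit 8) L108365 (by decide +kernel)
theorem L108367 : W_40 (nat_lit 2) (nat_lit 0x180048006c0012001d0000000000000000000000000000000) (nat_lit 0x0) (nat_lit 0x100008000400000000000000000000000000) := D_40 (nat_lit 123) (nat_lit 140) (nat_lit 106) (nat_lit 4) (nat_lit 5) (nat_lit 11) (nat_lit 4) (nat_lit 5) (nat_lit 10) (by decide +kernel)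
theorem L108368 : W_40 (nat_lit 3) (nat_lit 0x180048006c0012001c0000000000000000000000000000000) (nat_lit 0x0) (nat_lit 0x40000000100018000400000000000000000000000000) := T_40 (nat_lit 124) (nat_lit 174) (nat_lit 5) (nat_lit 5) (nat_lit 7) L108367 (by decide +kernel)
theorem L108369 : W_40 (nat_lit 4) (nat_lit 0x180048006c001200180000000000000000000000000000000) (nat_lit 0x0) (nat_lit 0x40000000100058002400000000000000000000000000) := T_40 (nat_lit 126) (nat_lit 109) (nat_lit 4) (nat_lit 8) (nat_lit 10) L108368 (by decide +kernel)
theorem L108370 : W_40 (nat_lit 5) (nat_lit 0x100048006c001200180000000000000000000000000000000) (nat_lit 0x0) (nat_lit 0x10000800040000000100058002400000000000000000000000000) := T_40 (nat_lit 191) (nat_lit 208) (nat_lit 5) (nat_lit 5) (nat_lit 8) L108369 (by decide +kernel)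
theorem L108371 : W_40 (nat_lit 6) (nat_lit 0x100048006c001200080000000000000000000000000000000) (nat_lit 0x0) (nat_lit 0x1000080004000000010015800a400000000000000000000000000) := T_40 (nat_lit 128) (nat_lit 111) (nat_lit 6) (nat_lit 8) (nat_lit 10) L108370 (by decide +kernel)
theorem L108372 : W_40 (nat_lit 12) (nat_lit 0x100048006c001000080000000000000000000000000000000) (nat_lit 0x0) (nat_lit 0x500028000600038007c017e00b400000000000000000000000000) := Q_40 (nat_lit 141) (C_40 L108332 (C_40 L108328 (C_40 L108356 (C_40 L108366 (C_40 L108371 (C_40 L108300 N_40)))))) (by decide +kernel)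
theorem L108373 : W_40 (nat_lit 13) (nat_lit 0x48006c001000080000000000000000000000000000000) (nat_lit 0x0) (nat_lit 0x14000e000700038000600038007c017e00b400000000000000000000000000) := Q_40 (nat_lit 192) (C_40 L108349 (C_40 L108260 (C_40 L108372 (C_40 L108341 (C_40 L108343 N_40))))) (by decide +kernel)
theorem L108374 : W_40 (nat_lit 2) (nat_lit 0x180048006d001780184000000000000000000000000000000) (nat_lit 0x0) (nat_lit 0x60002000000000000000000000000000000000000000) := D_40 (nat_lit 174) (nat_lit 157) (nat_lit 173) (nat_lit 4) (nat_lit 4) (nat_lit 11) (nat_lit 7) (nat_lit 3) (nat_lit 7) (by decide +kernel)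
theorem L108375 : W_40 (nat_lit 3) (nat_lit 0x180048006d001780180000000000000000000000000000000) (nat_lit 0x0) (nat_lit 0x60002000000006000000000000000000000000000000) := T_40 (nat_lit 122) (nat_lit 121) (nat_lit 0) (nat_lit 6) (nat_lit 8) L108374 (by decide +kernel)
theorem L108376 : W_40 (nat_lit 4) (nat_lit 0x180048006c001780180000000000000000000000000000000) (nat_lit 0x0) (nat_lit 0x60003800000006000000000000000000000000000000) := T_40 (nat_lit 156) (nat_lit 155) (nat_lit 1) (nat_lit 6) (nat_lit 8) L108375 (by decide +kernel)
theorem L108377 : W_40 (nat_lit 5) (nat_lit 0x100048006c001780180000000000000000000000000000000) (nat_lit 0x0) (nat_lit 0x10000800060003800000006000000000000000000000000000000) := T_40 (nat_lit 191) (nat_lit 208) (nat_lit 5) (nat_lit 5) (nat_lit 8) L108376 (by decide +kernel)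
theorem L108378 : W_40 (nat_lit 6) (nat_lit 0x100048006c001700180000000000000000000000000000000) (nat_lit 0x0) (nat_lit 0x100008000600038000c0006000000000000000000000000000000) := T_40 (nat_lit 139) (nat_lit 138) (nat_lit 3) (nat_lit 2) (nat_lit 8) L108377 (by decide +kernel)
theorem L108379 : W_40 (nat_lit 7) (nat_lit 0x100048006c001600180000000000000000000000000000000) (nat_lit 0x0) (nat_lit 0x100008000600038001c000e000000000000000000000000000000) := T_40 (nat_lit 140) (nat_lit 123) (nat_lit 4) (nat_lit 5) (nat_lit 11) L108378 (by decide +kernel)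
theorem L108380 : W_40 (nat_lit 8) (nat_lit 0x100048006c001600080000000000000000000000000000000) (nat_lit 0x0) (nat_lit 0x100008000600038001c010e008000000000000000000000000000) := T_40 (nat_lit 128) (nat_lit 111) (nat_lit 6) (nat_lit 8) (nat_lit 10) L108379 (by decide +kernel)
theorem L108381 : W_40 (nat_lit 9) (nat_lit 0x100048006c001200080000000000000000000000000000000) (nat_lit 0x0) (nat_lit 0x100008000600038005c012e008000000000000000000000000000) := T_40 (nat_lit 142) (nat_lit 125) (nat_lit 6) (nat_lit 5) (nat_lit 11) L108380 (by decide +kernel)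
theorem L108382 : W_40 (nat_lit 2) (nat_lit 0x100068006c0013401a0000000000000000000000000000000) (nat_lit 0x0) (nat_lit 0x50002000000000000000000000000000) := D_40 (nat_lit 126) (nat_lit 109) (nat_lit 124) (nat_lit 4) (nat_lit 8) (nat_lit 10) (nat_lit 1) (nat_lit 8) (nat_lit 7) (by decide +kernel)
theorem L108383 : W_40 (nat_lit 3) (nat_lit 0x100068006c001340180000000000000000000000000000000) (nat_lit 0x0) (nat_lit 0x400070002000000000000000000000000000) := T_40 (nat_lit 125) (nat_lit 142) (nat_lit 6) (nat_lit 5) (nat_lit 11) L108382 (by decide +kernel)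
theorem L108384 : W_40 (nat_lit 4) (nat_lit 0x100068006c001300180000000000000000000000000000000) (nat_lit 0x0) (nat_lit 0x4c0070002000000000000000000000000000) := T_40 (nat_lit 138) (nat_lit 139) (nat_lit 3) (nat_lit 2) (nat_lit 8) L108383 (by decide +kernel)
theorem L108385 : W_40 (nat_lit 5) (nat_lit 0x100068006c001200180000000000000000000000000000000) (nat_lit 0x0) (nat_lit 0x5c0078002000000000000000000000000000) := T_40 (nat_lit 140) (nat_lit 123) (nat_lit 4) (nat_lit 5) (nat_lit 11) L108384 (by decide +kernel)
theorem L108386 : W_40 (nat_lit 6) (nat_lit 0x100068006c001200080000000000000000000000000000000) (nat_lit 0x0) (nat_lit 0x5c017800a000000000000000000000000000) := T_40 (nat_lit 128) (nat_lit 111) (nat_lit 6) (nat_lit 8) (nat_lit 10) L108385 (by decide +kernel)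
theorem L108387 : W_40 (nat_lit 7) (nat_lit 0x100048006c001200080000000000000000000000000000000) (nat_lit 0x0) (nat_lit 0x40002000000005c017800a000000000000000000000000000) := T_40 (nat_lit 177) (nat_lit 194) (nat_lit 5) (nat_lit 8) (nat_lit 7) L108386 (by decide +kernel)
theorem L108388 : W_40 (nat_lit 10) (nat_lit 0x100048006c001000080000000000000000000000000000000) (nat_lit 0x0) (nat_lit 0x100048002600038007c017e00b400000000000000000000000000) := Q_40 (nat_lit 141) (C_40 L108371 (C_40 L108300 (C_40 L108328 (C_40 L108381 (C_40 L108387 N_40))))) (by decide +kernel)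
theorem L108389 : W_40 (nat_lit 2) (nat_lit 0x7000180068006e0010000c0000000000000000000000000000000) (nat_lit 0x0) (nat_lit 0x80000600000000000000000000000000000000000000000000000) := D_40 (nat_lit 190) (nat_lit 189) (nat_lit 211) (nat_lit 3) (nat_lit 2) (nat_lit 11) (nat_lit 0) (nat_lit 7) (nat_lit 12) (by decide +kernel)
theorem L108390 : W_40 (nat_lit 3) (nat_lit 0x7000100068006e0010000c0000000000000000000000000000000) (nat_lit 0x0) (nat_lit 0x80000e00000000000200000000000000000000000000000000000) := T_40 (nat_lit 191) (nat_lit 141) (nat_lit 5) (nat_lit 5) (nat_lit 8) L108389 (by decide +kernel)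
theorem L108391 : W_40 (nat_lit 4) (nat_lit 0x7000100048006e0010000c0000000000000000000000000000000) (nat_lit 0x0) (nat_lit 0x80004e00200000000200000000000000000000000000000000000) := T_40 (nat_lit 177) (nat_lit 194) (nat_lit 5) (nat_lit 8) (nat_lit 7) L108390 (by decide +kernel)
theorem L108392 : W_40 (nat_lit 5) (nat_lit 0x6000100048006e0010000c0000000000000000000000000000000) (nat_lit 0x0) (nat_lit 0x200090004e00200000000200000000000000000000000000000000000) := T_40 (nat_lit 208) (nat_lit 225) (nat_lit 5) (nat_lit 5) (nat_lit 9) L108391 (by decide +kernel)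
theorem L108393 : W_40 (nat_lit 6) (nat_lit 0x6000100048006c0010000c0000000000000000000000000000000) (nat_lit 0x0) (nat_lit 0x200090004e00200002000300000000000000000000000000000000000) := T_40 (nat_lit 157) (nat_lit 140) (nat_lit 4) (nat_lit 5) (nat_lit 12) L108392 (by decide +kernel)
theorem L108394 : W_40 (nat_lit 7) (nat_lit 0x6000100048006c001000080000000000000000000000000000000) (nat_lit 0x0) (nat_lit 0x200090004e00200002000300040002000000000000000000000000000) := T_40 (nat_lit 126) (nat_lit 109) (nat_lit 4) (nat_lit 8) (nat_lit 10) L108393 (by decide +kernel)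
theorem L108395 : W_40 (nat_lit 8) (nat_lit 0x2000100048006c001000080000000000000000000000000000000) (nat_lit 0x0) (nat_lit 0xa000d0004e00200002000300040002000000000000000000000000000) := T_40 (nat_lit 210) (nat_lit 227) (nat_lit 7) (nat_lit 5) (nat_lit 9) L108394 (by decide +kernel)
theorem L108396 : W_40 (nat_lit 2) (nat_lit 0x7000180068006c0010001c0000000000000000000000000000000) (nat_lit 0x0) (nat_lit 0x80000600000000000000000000000000000000000000000000000) := D_40 (nat_lit 190) (nat_lit 189) (nat_lit 211) (nat_lit 3) (nat_lit 2) (nat_lit 11) (nat_lit 0) (nat_lit 7) (nat_lit 12) (by decide +kernel)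
theorem L108397 : W_40 (nat_lit 3) (nat_lit 0x7000100068006c0010001c0000000000000000000000000000000) (nat_lit 0x0) (nat_lit 0x80000e00000000000200000000000000000000000000000000000) := T_40 (nat_lit 191) (nat_lit 141) (nat_lit 5) (nat_lit 5) (nat_lit 8) L108396 (by decide +kernel)
theorem L108398 : W_40 (nat_lit 4) (nat_lit 0x6000100068006c0010001c0000000000000000000000000000000) (nat_lit 0x0) (nat_lit 0x200090000e00000000000200000000000000000000000000000000000) := T_40 (nat_lit 208) (nat_lit 225) (nat_lit 5) (nat_lit 5) (nat_lit 9) L108397 (by decide +kernel)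
theorem L108399 : W_40 (nat_lit 5) (nat_lit 0x6000100048006c0010001c0000000000000000000000000000000) (nat_lit 0x0) (nat_lit 0x200090004e00200000000200000000000000000000000000000000000) := T_40 (nat_lit 177) (nat_lit 194) (nat_lit 5) (nat_lit 8) (nat_lit 7) L108398 (by decide +kernel)
theorem L108400 : W_40 (nat_lit 6) (nat_lit 0x2000100048006c0010001c0000000000000000000000000000000) (nat_lit 0x0) (nat_lit 0xa000d0004e00200000000200000000000000000000000000000000000) := T_40 (nat_lit 210) (nat_lit 227) (nat_lit 7) (nat_lit 5) (nat_lit 9) L108399 (by decide +kernel)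
theorem L108401 : W_40 (nat_lit 7) (nat_lit 0x2000100048006c001000180000000000000000000000000000000) (nat_lit 0x0) (nat_lit 0xa000d0004e00200000000200040002000000000000000000000000000) := T_40 (nat_lit 126) (nat_lit 109) (nat_lit 4) (nat_lit 8) (nat_lit 10) L108400 (by decide +kernel)
theorem L108402 : W_40 (nat_lit 8) (nat_lit 0x2000100048006c001000080000000000000000000000000000000) (nat_lit 0x0) (nat_lit 0xa000d0004e0020000000020014000a000000000000000000000000000) := T_40 (nat_lit 128) (nat_lit 111) (nat_lit 6) (nat_lit 8) (nat_lit 10) L108401 (by decide +kernel)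
theorem L108403 : W_40 (nat_lit 9) (nat_lit 0x100048006c001000080000000000000000000000000000000) (nat_lit 0x0) (nat_lit 0x14000e000f0004e0024000200030014000a000000000000000000000000000) := Q_40 (nat_lit 209) (C_40 L108337 (C_40 L108259 (C_40 L108395 (C_40 L108402 N_40)))) (by decide +kernel)
theorem L108404 : W_40 (nat_lit 8) (nat_lit 0x100048006c001000180000000000000000000000000000000) (nat_lit 0x0) (nat_lit 0xa000f0004e00200000000600040002000000000000000000000000000) := T_40 (nat_lit 209) (nat_lit 142) (nat_lit 6) (nat_lit 5) (nat_lit 12) L108401 (by decide +kernel)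
theorem L108405 : W_40 (nat_lit 9) (nat_lit 0x100048006c001000080000000000000000000000000000000) (nat_lit 0x0) (nat_lit 0xa000f0004e0020000000060014000a000000000000000000000000000) := T_40 (nat_lit 128) (nat_lit 111) (nat_lit 6) (nat_lit 8) (nat_lit 10) L108404 (by decide +kernel)
theorem L108406 : W_40 (nat_lit 11) (nat_lit 0x48006c001000080000000000000000000000000000000) (nat_lit 0x0) (nat_lit 0x14000e000f0005e002600038007c017e00b400000000000000000000000000) := Q_40 (nat_lit 192) (C_40 L108343 (C_40 L108260 (C_40 L108388 (C_40 L108403 (C_40 L108405 N_40))))) (by decide +kernel)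
theorem L108407 : W_40 (nat_lit 2) (nat_lit 0x7000500048006e0010001c0000000000000000000000000000000) (nat_lit 0x0) (nat_lit 0x8000a000000000000000000000000000000000000000000000000) := D_40 (nat_lit 195) (nat_lit 211) (nat_lit 193) (nat_lit 2) (nat_lit 4) (nat_lit 12) (nat_lit 1) (nat_lit 8) (nat_lit 11) (by decide +kernel)
theorem L108408 : W_40 (nat_lit 3) (nat_lit 0x7000100048006e0010001c0000000000000000000000000000000) (nat_lit 0x0) (nat_lit 0x8000e000200000000000000000000000000000000000000000000) := T_40 (nat_lit 194) (nat_lit 177) (nat_lit 5) (nat_lit 8) (nat_lit 7) L108407 (by decide +kernel)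
theorem L108409 : W_40 (nat_lit 4) (nat_lit 0x7000100048006e0010000c0000000000000000000000000000000) (nat_lit 0x0) (nat_lit 0x8000e000200000000000100008000000000000000000000000000) := T_40 (nat_lit 128) (nat_lit 111) (nat_lit 6) (nat_lit 8) (nat_lit 10) L108408 (by decide +kernel)
theorem L108410 : W_40 (nat_lit 5) (nat_lit 0x7000100048006e001000080000000000000000000000000000000) (nat_lit 0x0) (nat_lit 0x8000e00020000000000014000a000000000000000000000000000) := T_40 (nat_lit 126) (nat_lit 109) (nat_lit 4) (nat_lit 8) (nat_lit 10) L108409 (by decide +kernel)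
theorem L108411 : W_40 (nat_lit 6) (nat_lit 0x6000100048006e001000080000000000000000000000000000000) (nat_lit 0x0) (nat_lit 0x20009000e00020000000000014000a000000000000000000000000000) := T_40 (nat_lit 208) (nat_lit 225) (nat_lit 5) (nat_lit 5) (nat_lit 9) L108410 (by decide +kernel)
theorem L108412 : W_40 (nat_lit 7) (nat_lit 0x6000100048006c001000080000000000000000000000000000000) (nat_lit 0x0) (nat_lit 0x20009000e00020000200010014000a000000000000000000000000000) := T_40 (nat_lit 157) (nat_lit 140) (nat_lit 4) (nat_lit 5) (nat_lit 12) L108411 (by decide +kernel)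
theorem L108413 : W_40 (nat_lit 8) (nat_lit 0x2000100048006c001000080000000000000000000000000000000) (nat_lit 0x0) (nat_lit 0xa000d000e00020000200010014000a000000000000000000000000000) := T_40 (nat_lit 210) (nat_lit 227) (nat_lit 7) (nat_lit 5) (nat_lit 9) L108412 (by decide +kernel)
theorem L108414 : W_40 (nat_lit 9) (nat_lit 0x100048006c001000080000000000000000000000000000000) (nat_lit 0x0) (nat_lit 0xa000f000e00020000200050014000a000000000000000000000000000) := T_40 (nat_lit 209) (nat_lit 142) (nat_lit 6) (nat_lit 5) (nat_lit 12) L108413 (by decide +kernel)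
theorem L108415 : W_40 (nat_lit 10) (nat_lit 0x48006c001000080000000000000000000000000000000) (nat_lit 0x0) (nat_lit 0x10000e000f000f000a4000200050014000a000000000000000000000000000) := Q_40 (nat_lit 192) (C_40 L108343 (C_40 L108264 (C_40 L108414 N_40))) (by decide +kernel)
theorem L108416 : W_40 (nat_lit 2) (nat_lit 0x3000100068006c001100180000000000000000000000000000000) (nat_lit 0x0) (nat_lit 0x800000000000200008000000000000000000000000000000) := D_40 (nat_lit 141) (nat_lit 123) (nat_lit 191) (nat_lit 4) (nat_lit 5) (nat_lit 11) (nat_lit 5) (nat_lit 5) (nat_lit 8) (by decide +kernel)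
theorem L108417 : W_40 (nat_lit 3) (nat_lit 0x2000100068006c001100180000000000000000000000000000000) (nat_lit 0x0) (nat_lit 0x200010000800000000000200008000000000000000000000000000000) := T_40 (nat_lit 208) (nat_lit 225) (nat_lit 5) (nat_lit 5) (nat_lit 9) L108416 (by decide +kernel)
theorem L108418 : W_40 (nat_lit 4) (nat_lit 0x2000100068006c001000180000000000000000000000000000000) (nat_lit 0x0) (nat_lit 0x200010000800000002000300008000000000000000000000000000000) := T_40 (nat_lit 140) (nat_lit 157) (nat_lit 4) (nat_lit 5) (nat_lit 12) L108417 (by decide +kernel)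
theorem L108419 : W_40 (nat_lit 5) (nat_lit 0x100068006c001000180000000000000000000000000000000) (nat_lit 0x0) (nat_lit 0x200030000800000002000700008000000000000000000000000000000) := T_40 (nat_lit 209) (nat_lit 142) (nat_lit 6) (nat_lit 5) (nat_lit 12) L108418 (by decide +kernel)
theorem L108420 : W_40 (nat_lit 6) (nat_lit 0x100048006c001000180000000000000000000000000000000) (nat_lit 0x0) (nat_lit 0x200030004800200002000700008000000000000000000000000000000) := T_40 (nat_lit 177) (nat_lit 194) (nat_lit 5) (nat_lit 8) (nat_lit 7) L108419 (by decide +kernel)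
theorem L108421 : W_40 (nat_lit 7) (nat_lit 0x100048006c001000080000000000000000000000000000000) (nat_lit 0x0) (nat_lit 0x200030004800200002000700108008000000000000000000000000000) := T_40 (nat_lit 128) (nat_lit 111) (nat_lit 6) (nat_lit 8) (nat_lit 10) L108420 (by decide +kernel)
theorem L108422 : W_40 (nat_lit 11) (nat_lit 0x48006c001000080000000000000000000000000000000) (nat_lit 0x0) (nat_lit 0x40006000b000f800a600038007c017e00b400000000000000000000000000) := Q_40 (nat_lit 192) (C_40 L108388 (C_40 L108264 (C_40 L108269 (C_40 L108260 (C_40 L108421 N_40))))) (by decide +kernel)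
theorem L108423 : W_40 (nat_lit 2) (nat_lit 0x68006c0012001e0000000000000000000000000000000) (nat_lit 0x0) (nat_lit 0x100010001000000000000000000000000000) := D_40 (nat_lit 124) (nat_lit 140) (nat_lit 108) (nat_lit 1) (nat_lit 8) (nat_lit 7) (nat_lit 6) (nat_lit 5) (nat_lit 10) (by decide +kernel)
theorem L108424 : W_40 (nat_lit 3) (nat_lit 0x68006c0012001c0000000000000000000000000000000) (nat_lit 0x0) (nat_lit 0x500030001000000000000000000000000000) := T_40 (nat_lit 125) (nat_lit 142) (nat_lit 1) (nat_lit 9) (nat_lit 7) L108423 (by decide +kernel)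
theorem L108425 : W_40 (nat_lit 4) (nat_lit 0x68006c001200180000000000000000000000000000000) (nat_lit 0x0) (nat_lit 0x500070003000000000000000000000000000) := T_40 (nat_lit 126) (nat_lit 109) (nat_lit 4) (nat_lit 8) (nat_lit 10) L108424 (by decide +kernel)
theorem L108426 : W_40 (nat_lit 5) (nat_lit 0x48006c001200180000000000000000000000000000000) (nat_lit 0x0) (nat_lit 0x4000200000000500070003000000000000000000000000000) := T_40 (nat_lit 177) (nat_lit 194) (nat_lit 5) (nat_lit 8) (nat_lit 7) L108425 (by decide +kernel)
theorem L108427 : W_40 (nat_lit 6) (nat_lit 0x48006c001200080000000000000000000000000000000) (nat_lit 0x0) (nat_lit 0x400020000000050017000b000000000000000000000000000) := T_40 (nat_lit 128) (nat_lit 111) (nat_lit 6) (nat_lit 8) (nat_lit 10) L108426 (by decide +kernel)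
theorem L108428 : W_40 (nat_lit 2) (nat_lit 0x100048006c0012001b0000000000000000000000000000000) (nat_lit 0x0) (nat_lit 0x10000800040000000000000000000000000000000000000000000) := D_40 (nat_lit 191) (nat_lit 174) (nat_lit 208) (nat_lit 5) (nat_lit 5) (nat_lit 7) (nat_lit 5) (nat_lit 5) (nat_lit 8) (by decide +kernel)
theorem L108429 : W_40 (nat_lit 3) (nat_lit 0x48006c0012001b0000000000000000000000000000000) (nat_lit 0x0) (nat_lit 0x10001800040000000400000000000000000000000000000000000) := T_40 (nat_lit 192) (nat_lit 142) (nat_lit 6) (nat_lit 5) (nat_lit 11) L108428 (by decide +kernel)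
theorem L108430 : W_40 (nat_lit 4) (nat_lit 0x48006c001200190000000000000000000000000000000) (nat_lit 0x0) (nat_lit 0x10001800040000000400020001000000000000000000000000000) := T_40 (nat_lit 125) (nat_lit 108) (nat_lit 6) (nat_lit 5) (nat_lit 10) L108429 (by decide +kernel)
theorem L108431 : W_40 (nat_lit 5) (nat_lit 0x48006c001200090000000000000000000000000000000) (nat_lit 0x0) (nat_lit 0x10001800040000000400120009000000000000000000000000000) := T_40 (nat_lit 128) (nat_lit 111) (nat_lit 6) (nat_lit 8) (nat_lit 10) L108430 (by decide +kernel)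
theorem L108432 : W_40 (nat_lit 2) (nat_lit 0x100048006c001200098000000000000000000000000000000) (nat_lit 0x0) (nat_lit 0x10000800040000000000000000000000000000000000000000000) := D_40 (nat_lit 191) (nat_lit 208) (nat_lit 174) (nat_lit 5) (nat_lit 5) (nat_lit 8) (nat_lit 5) (nat_lit 5) (nat_lit 7) (by decide +kernel)
theorem L108433 : W_40 (nat_lit 3) (nat_lit 0x48006c001200098000000000000000000000000000000) (nat_lit 0x0) (nat_lit 0x10001800040000000100000000000000000000000000000000000) := T_40 (nat_lit 192) (nat_lit 140) (nat_lit 4) (nat_lit 5) (nat_lit 11) L108432 (by decide +kernel)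
theorem L108434 : W_40 (nat_lit 4) (nat_lit 0x48006c001200090000000000000000000000000000000) (nat_lit 0x0) (nat_lit 0x10001800040000000100008000400000000000000000000000000) := T_40 (nat_lit 123) (nat_lit 106) (nat_lit 4) (nat_lit 5) (nat_lit 10) L108433 (by decide +kernel)
theorem L108435 : W_40 (nat_lit 2) (nat_lit 0x6d006c0012001b8000800040001000000000000000000) (nat_lit 0x0) (nat_lit 0x100000000000000002000080000000000000) := D_40 (nat_lit 73) (nat_lit 140) (nat_lit 55) (nat_lit 5) (nat_lit 5) (nat_lit 4) (nat_lit 4) (nat_lit 5) (nat_lit 7) (by decide +kernel)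
theorem L108436 : W_40 (nat_lit 3) (nat_lit 0x6d006c0012001b8000800040000000000000000000000) (nat_lit 0x0) (nat_lit 0x100000000000020003000080000000000000) := T_40 (nat_lit 72) (nat_lit 89) (nat_lit 4) (nat_lit 5) (nat_lit 8) L108435 (by decide +kernel)
theorem L108437 : W_40 (nat_lit 4) (nat_lit 0x6d006c0012001b8000800000000000000000000000000) (nat_lit 0x0) (nat_lit 0x500000000000060003000080000000000000) := T_40 (nat_lit 90) (nat_lit 142) (nat_lit 7) (nat_lit 5) (nat_lit 5) L108436 (by decide +kernel)
theorem L108438 : W_40 (nat_lit 5) (nat_lit 0x4d006c0012001b8000800000000000000000000000000) (nat_lit 0x0) (nat_lit 0x4000200000000500000000000060003000080000000000000) := T_40 (nat_lit 177) (nat_lit 194) (nat_lit 5) (nat_lit 8) (nat_lit 7) L108437 (by decide +kernel)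
theorem L108439 : W_40 (nat_lit 6) (nat_lit 0x4d006c0012001b8000000000000000000000000000000) (nat_lit 0x0) (nat_lit 0x4000200002000500000000800060003000080000000000000) := T_40 (nat_lit 107) (nat_lit 157) (nat_lit 5) (nat_lit 5) (nat_lit 6) L108438 (by decide +kernel)
theorem L108440 : W_40 (nat_lit 7) (nat_lit 0x4c006c0012001b8000000000000000000000000000000) (nat_lit 0x0) (nat_lit 0x4000230002000500000000800060003000080000000000000) := T_40 (nat_lit 172) (nat_lit 173) (nat_lit 2) (nat_lit 2) (nat_lit 10) L108439 (by decide +kernel)
theorem L108441 : W_40 (nat_lit 8) (nat_lit 0x48006c0012001b8000000000000000000000000000000) (nat_lit 0x0) (nat_lit 0x4800270002000500000000800060003000080000000000000) := T_40 (nat_lit 174) (nat_lit 191) (nat_lit 5) (nat_lit 5) (nat_lit 7) L108440 (by decide +kernel)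
theorem L108442 : W_40 (nat_lit 9) (nat_lit 0x48006c0012001b0000000000000000000000000000000) (nat_lit 0x0) (nat_lit 0x4800270002000500008000c00060003000080000000000000) := T_40 (nat_lit 123) (nat_lit 106) (nat_lit 4) (nat_lit 5) (nat_lit 10) L108441 (by decide +kernel)
theorem L108443 : W_40 (nat_lit 10) (nat_lit 0x48006c0012000b0000000000000000000000000000000) (nat_lit 0x0) (nat_lit 0x4800270002000500108008c00060003000080000000000000) := T_40 (nat_lit 128) (nat_lit 111) (nat_lit 6) (nat_lit 8) (nat_lit 10) L108442 (by decide +kernel)
theorem L108444 : W_40 (nat_lit 11) (nat_lit 0x48006c001200090000000000000000000000000000000) (nat_lit 0x0) (nat_lit 0x4800270002000500128009c00060003000080000000000000) := T_40 (nat_lit 125) (nat_lit 108) (nat_lit 6) (nat_lit 5) (nat_lit 10) L108443 (by decide +kernel)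
theorem L108445 : W_40 (nat_lit 2) (nat_lit 0x100048006c0012000b0000000000000000000000000000000) (nat_lit 0x0) (nat_lit 0x100008000400000000000000000000000000) := D_40 (nat_lit 123) (nat_lit 106) (nat_lit 140) (nat_lit 4) (nat_lit 5) (nat_lit 10) (nat_lit 4) (nat_lit 5) (nat_lit 11) (by decide +kernel)
theorem L108446 : W_40 (nat_lit 3) (nat_lit 0x48006c0012000b0000000000000000000000000000000) (nat_lit 0x0) (nat_lit 0x1000000000000500008000400000000000000000000000000) := T_40 (nat_lit 192) (nat_lit 142) (nat_lit 6) (nat_lit 5) (nat_lit 11) L108445 (by decide +kernel)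
theorem L108447 : W_40 (nat_lit 4) (nat_lit 0x48006c001200090000000000000000000000000000000) (nat_lit 0x0) (nat_lit 0x1000000000000500028001400000000000000000000000000) := T_40 (nat_lit 125) (nat_lit 108) (nat_lit 6) (nat_lit 5) (nat_lit 10) L108446 (by decide +kernel)
theorem L108448 : W_40 (nat_lit 12) (nat_lit 0x48006c001200080000000000000000000000000000000) (nat_lit 0x0) (nat_lit 0x10005800270002000500138009c00060003000080000000000000) := Q_40 (nat_lit 124) (C_40 L108431 (C_40 L108434 (C_40 L108444 (C_40 L108447 N_40)))) (by decide +kernel)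
theorem L108449 : W_40 (nat_lit 2) (nat_lit 0x48006c0012000d0000000000000000000000000000000) (nat_lit 0x0) (nat_lit 0x100020001000000000000000000000000000) := D_40 (nat_lit 125) (nat_lit 140) (nat_lit 108) (nat_lit 1) (nat_lit 8) (nat_lit 7) (nat_lit 6) (nat_lit 5) (nat_lit 10) (by decide +kernel)
theorem L108450 : W_40 (nat_lit 3) (nat_lit 0x48006c001200090000000000000000000000000000000) (nat_lit 0x0) (nat_lit 0x100060003000000000000000000000000000) := T_40 (nat_lit 126) (nat_lit 109) (nat_lit 4) (nat_lit 8) (nat_lit 10) L108449 (by decide +kernel)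
theorem L108451 : W_40 (nat_lit 2) (nat_lit 0x100048006c0012000b0000000000000000000000000000000) (nat_lit 0x0) (nat_lit 0x10000800040000000000000000000000000000000000000000000) := D_40 (nat_lit 191) (nat_lit 174) (nat_lit 208) (nat_lit 5) (nat_lit 5) (nat_lit 7) (nat_lit 5) (nat_lit 5) (nat_lit 8) (by decide +kernel)
theorem L108452 : W_40 (nat_lit 3) (nat_lit 0x48006c0012000b0000000000000000000000000000000) (nat_lit 0x0) (nat_lit 0x10001800040000000400000000000000000000000000000000000) := T_40 (nat_lit 192) (nat_lit 142) (nat_lit 6) (nat_lit 5) (nat_lit 11) L108451 (by decide +kernel)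
theorem L108453 : W_40 (nat_lit 4) (nat_lit 0x48006c001200090000000000000000000000000000000) (nat_lit 0x0) (nat_lit 0x10001800040000000400020001000000000000000000000000000) := T_40 (nat_lit 125) (nat_lit 108) (nat_lit 6) (nat_lit 5) (nat_lit 10) L108452 (by decide +kernel)
theorem L108454 : W_40 (nat_lit 5) (nat_lit 0x48006c001200080000000000000000000000000000000) (nat_lit 0x0) (nat_lit 0x10001800040000000500078003400000000000000000000000000) := Q_40 (nat_lit 124) (C_40 L108447 (C_40 L108434 (C_40 L108450 (C_40 L108453 N_40)))) (by decide +kernel)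
theorem L108455 : W_40 (nat_lit 2) (nat_lit 0x48006c0012000f0000000000000000000000000000000) (nat_lit 0x0) (nat_lit 0x8000c00000000000000000000000000) := D_40 (nat_lit 106) (nat_lit 107) (nat_lit 123) (nat_lit 0) (nat_lit 8) (nat_lit 7) (nat_lit 4) (nat_lit 5) (nat_lit 10) (by decide +kernel)
theorem L108456 : W_40 (nat_lit 3) (nat_lit 0x48006c0012000b0000000000000000000000000000000) (nat_lit 0x0) (nat_lit 0x48002c00000000000000000000000000) := T_40 (nat_lit 126) (nat_lit 109) (nat_lit 4) (nat_lit 8) (nat_lit 10) L108455 (by decide +kernel)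
theorem L108457 : W_40 (nat_lit 4) (nat_lit 0x48006c001200090000000000000000000000000000000) (nat_lit 0x0) (nat_lit 0x68003c00000000000000000000000000) := T_40 (nat_lit 125) (nat_lit 108) (nat_lit 6) (nat_lit 5) (nat_lit 10) L108456 (by decide +kernel)
theorem L108458 : W_40 (nat_lit 5) (nat_lit 0x48006c001200080000000000000000000000000000000) (nat_lit 0x0) (nat_lit 0x10001800040000000100078003c00000000000000000000000000) := Q_40 (nat_lit 124) (C_40 L108450 (C_40 L108434 (C_40 L108457 N_40))) (by decide +kernel)
theorem L108459 : W_40 (nat_lit 2) (nat_lit 0x780048006c0013400c0000000000000000000000000000000) (nat_lit 0x0) (nat_lit 0x180008000000000000000000000000000000000000000000000000) := D_40 (nat_lit 211) (nat_lit 212) (nat_lit 195) (nat_lit 3) (nat_lit 4) (nat_lit 11) (nat_lit 5) (nat_lit 8) (nat_lit 8) (by decide +kernel)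
theorem L108460 : W_40 (nat_lit 3) (nat_lit 0x380048006c0013400c0000000000000000000000000000000) (nat_lit 0x0) (nat_lit 0x18000c000200000000000000000000000000000000000000000000) := T_40 (nat_lit 194) (nat_lit 177) (nat_lit 2) (nat_lit 4) (nat_lit 11) L108459 (by decide +kernel)
theorem L108461 : W_40 (nat_lit 4) (nat_lit 0x300048006c0013400c0000000000000000000000000000000) (nat_lit 0x0) (nat_lit 0x19000c800200000000000000000000000000000000000000000000) := T_40 (nat_lit 191) (nat_lit 208) (nat_lit 5) (nat_lit 5) (nat_lit 8) L108460 (by decide +kernel)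
theorem L108462 : W_40 (nat_lit 5) (nat_lit 0x300048006c0013000c0000000000000000000000000000000) (nat_lit 0x0) (nat_lit 0x19000c8002000000000c0000000000000000000000000000000000) := T_40 (nat_lit 138) (nat_lit 139) (nat_lit 3) (nat_lit 2) (nat_lit 8) L108461 (by decide +kernel)
theorem L108463 : W_40 (nat_lit 6) (nat_lit 0x300048006c0012000c0000000000000000000000000000000) (nat_lit 0x0) (nat_lit 0x19000c8002000000001c0008000000000000000000000000000000) := T_40 (nat_lit 140) (nat_lit 123) (nat_lit 4) (nat_lit 5) (nat_lit 11) L108462 (by decide +kernel)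
theorem L108464 : W_40 (nat_lit 7) (nat_lit 0x100048006c0012000c0000000000000000000000000000000) (nat_lit 0x0) (nat_lit 0x1d000e8002000000001c0008000000000000000000000000000000) := T_40 (nat_lit 193) (nat_lit 210) (nat_lit 7) (nat_lit 5) (nat_lit 8) L108463 (by decide +kernel)
theorem L108465 : W_40 (nat_lit 8) (nat_lit 0x100048006c001200080000000000000000000000000000000) (nat_lit 0x0) (nat_lit 0x1d000e8002000000001c0048002000000000000000000000000000) := T_40 (nat_lit 126) (nat_lit 109) (nat_lit 4) (nat_lit 8) (nat_lit 10) L108464 (by decide +kernel)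
theorem L108466 : W_40 (nat_lit 2) (nat_lit 0xd00048006c0012000c0000000000000000000000000000000) (nat_lit 0x0) (nat_lit 0x40002000800000000000000000000000000000000000000000000) := D_40 (nat_lit 193) (nat_lit 179) (nat_lit 210) (nat_lit 2) (nat_lit 5) (nat_lit 11) (nat_lit 7) (nat_lit 5) (nat_lit 8) (by decide +kernel)
theorem L108467 : W_40 (nat_lit 3) (nat_lit 0x500048006c0012000c0000000000000000000000000000000) (nat_lit 0x0) (nat_lit 0xc000a000800000000000000000000000000000000000000000000) := T_40 (nat_lit 195) (nat_lit 211) (nat_lit 5) (nat_lit 8) (nat_lit 8) L108466 (by decide +kernel)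
theorem L108468 : W_40 (nat_lit 4) (nat_lit 0x500048006c001200080000000000000000000000000000000) (nat_lit 0x0) (nat_lit 0xc000a000800000000000040002000000000000000000000000000) := T_40 (nat_lit 126) (nat_lit 109) (nat_lit 4) (nat_lit 8) (nat_lit 10) L108467 (by decide +kernel)
theorem L108469 : W_40 (nat_lit 5) (nat_lit 0x100048006c001200080000000000000000000000000000000) (nat_lit 0x0) (nat_lit 0xc000e000a00000000000040002000000000000000000000000000) := T_40 (nat_lit 194) (nat_lit 177) (nat_lit 5) (nat_lit 8) (nat_lit 7) L108468 (by decide +kernel)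
theorem L108470 : W_40 (nat_lit 12) (nat_lit 0x48006c001200080000000000000000000000000000000) (nat_lit 0x0) (nat_lit 0x1dc00fc00a700038005c016e00a000000000000000000000000000) := Q_40 (nat_lit 192) (C_40 L108381 (C_40 L108316 (C_40 L108465 (C_40 L108469 N_40)))) (by decide +kernel)
theorem L108471 : W_40 (nat_lit 2) (nat_lit 0x38006e006c001380180000000000000000000000000000000) (nat_lit 0x0) (nat_lit 0x3000000004000000000000000000000000000000) := D_40 (nat_lit 122) (nat_lit 157) (nat_lit 156) (nat_lit 4) (nat_lit 4) (nat_lit 11) (nat_lit 7) (nat_lit 3) (nat_lit 7) (by decide +kernel)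
theorem L108472 : W_40 (nat_lit 3) (nat_lit 0x38006c006c001380180000000000000000000000000000000) (nat_lit 0x0) (nat_lit 0x30003000000004000000000000000000000000000000) := T_40 (nat_lit 173) (nat_lit 172) (nat_lit 3) (nat_lit 2) (nat_lit 10) L108471 (by decide +kernel)
theorem L108473 : W_40 (nat_lit 4) (nat_lit 0x380068006c001380180000000000000000000000000000000) (nat_lit 0x0) (nat_lit 0x70003000000014000000000000000000000000000000) := T_40 (nat_lit 174) (nat_lit 124) (nat_lit 5) (nat_lit 5) (nat_lit 7) L108472 (by decide +kernel)
theorem L108474 : W_40 (nat_lit 5) (nat_lit 0x300068006c001380180000000000000000000000000000000) (nat_lit 0x0) (nat_lit 0x10000800070003000000014000000000000000000000000000000) := T_40 (nat_lit 191) (nat_lit 208) (nat_lit 5) (nat_lit 5) (nat_lit 8) L108473 (by decide +kernel)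
theorem L108475 : W_40 (nat_lit 6) (nat_lit 0x300068006c001380080000000000000000000000000000000) (nat_lit 0x0) (nat_lit 0x10000800070003000000114008000000000000000000000000000) := T_40 (nat_lit 128) (nat_lit 111) (nat_lit 6) (nat_lit 8) (nat_lit 10) L108474 (by decide +kernel)
theorem L108476 : W_40 (nat_lit 7) (nat_lit 0x100068006c001380080000000000000000000000000000000) (nat_lit 0x0) (nat_lit 0x50002800070003000000114008000000000000000000000000000) := T_40 (nat_lit 193) (nat_lit 210) (nat_lit 7) (nat_lit 5) (nat_lit 8) L108475 (by decide +kernel)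
theorem L108477 : W_40 (nat_lit 8) (nat_lit 0x100068006c001300080000000000000000000000000000000) (nat_lit 0x0) (nat_lit 0x500028000700030000c0114008000000000000000000000000000) := T_40 (nat_lit 139) (nat_lit 138) (nat_lit 3) (nat_lit 2) (nat_lit 8) L108476 (by decide +kernel)
theorem L108478 : W_40 (nat_lit 9) (nat_lit 0x100068006c001200080000000000000000000000000000000) (nat_lit 0x0) (nat_lit 0x500028000700030001c011c008000000000000000000000000000) := T_40 (nat_lit 140) (nat_lit 123) (nat_lit 4) (nat_lit 5) (nat_lit 11) L108477 (by decide +kernel)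
theorem L108479 : W_40 (nat_lit 10) (nat_lit 0x100048006c001200080000000000000000000000000000000) (nat_lit 0x0) (nat_lit 0x500068002700030001c011c008000000000000000000000000000) := T_40 (nat_lit 177) (nat_lit 194) (nat_lit 5) (nat_lit 8) (nat_lit 7) L108478 (by decide +kernel)
theorem L108480 : W_40 (nat_lit 11) (nat_lit 0x48006c001200080000000000000000000000000000000) (nat_lit 0x0) (nat_lit 0xd000f800a700030001c015c00a400000000000000000000000000) := Q_40 (nat_lit 192) (C_40 L108469 (C_40 L108371 (C_40 L108479 N_40))) (by decide +kernel)
theorem L108481 : W_40 (nat_lit 2) (nat_lit 0x68006c0012001e0000000000000000000000000000000) (nat_lit 0x0) (nat_lit 0x10001800000000000000000000000000) := D_40 (nat_lit 108) (nat_lit 107) (nat_lit 124) (nat_lit 0) (nat_lit 9) (nat_lit 7) (nat_lit 6) (nat_lit 5) (nat_lit 10) (by decide +kernel)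
theorem L108482 : W_40 (nat_lit 3) (nat_lit 0x68006c0012001c0000000000000000000000000000000) (nat_lit 0x0) (nat_lit 0x400030001800000000000000000000000000) := T_40 (nat_lit 125) (nat_lit 142) (nat_lit 1) (nat_lit 9) (nat_lit 7) L108481 (by decide +kernel)
theorem L108483 : W_40 (nat_lit 4) (nat_lit 0x68006c0012000c0000000000000000000000000000000) (nat_lit 0x0) (nat_lit 0x400130009800000000000000000000000000) := T_40 (nat_lit 128) (nat_lit 111) (nat_lit 6) (nat_lit 8) (nat_lit 10) L108482 (by decide +kernel)
theorem L108484 : W_40 (nat_lit 5) (nat_lit 0x48006c0012000c0000000000000000000000000000000) (nat_lit 0x0) (nat_lit 0x4000200000000400130009800000000000000000000000000) := T_40 (nat_lit 177) (nat_lit 194) (nat_lit 5) (nat_lit 8) (nat_lit 7) L108483 (by decide +kernel)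
theorem L108485 : W_40 (nat_lit 6) (nat_lit 0x48006c001200080000000000000000000000000000000) (nat_lit 0x0) (nat_lit 0x400020000000040017000b800000000000000000000000000) := T_40 (nat_lit 126) (nat_lit 109) (nat_lit 4) (nat_lit 8) (nat_lit 10) L108484 (by decide +kernel)
theorem L108486 : W_40 (nat_lit 13) (nat_lit 0x48006c001000080000000000000000000000000000000) (nat_lit 0x0) (nat_lit 0x1dc00fc00a700038007c017e00bc00060003000080000000000000) := Q_40 (nat_lit 141) (C_40 L108427 (C_40 L108448 (C_40 L108454 (C_40 L108458 (C_40 L108470 (C_40 L108480 (C_40 L108485 N_40))))))) (by decide +kernel)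
theorem L108487 : W_40 (nat_lit 2) (nat_lit 0x10000f00048006c0012001c0000000000000000000000000000000) (nat_lit 0x0) (nat_lit 0x30000800000000000000000000000000000000000000000000000) := D_40 (nat_lit 208) (nat_lit 209) (nat_lit 191) (nat_lit 1) (nat_lit 8) (nat_lit 11) (nat_lit 5) (nat_lit 5) (nat_lit 8) (by decide +kernel)
theorem L108488 : W_40 (nat_lit 3) (nat_lit 0x10000f00048006c0010001c0000000000000000000000000000000) (nat_lit 0x0) (nat_lit 0x70000800000000000200000000000000000000000000000000000) := T_40 (nat_lit 141) (nat_lit 210) (nat_lit 7) (nat_lit 5) (nat_lit 8) L108487 (by decide +kernel)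
theorem L108489 : W_40 (nat_lit 4) (nat_lit 0xf00048006c0010001c0000000000000000000000000000000) (nat_lit 0x0) (nat_lit 0x370000800000000000200000000000000000000000000000000000) := T_40 (nat_lit 212) (nat_lit 213) (nat_lit 3) (nat_lit 5) (nat_lit 11) L108488 (by decide +kernel)
theorem L108490 : W_40 (nat_lit 5) (nat_lit 0xd00048006c0010001c0000000000000000000000000000000) (nat_lit 0x0) (nat_lit 0x370002800800000000200000000000000000000000000000000000) := T_40 (nat_lit 193) (nat_lit 179) (nat_lit 2) (nat_lit 5) (nat_lit 11) L108489 (by decide +kernel)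
theorem L108491 : W_40 (nat_lit 6) (nat_lit 0x500048006c0010001c0000000000000000000000000000000) (nat_lit 0x0) (nat_lit 0x3f000a800800000000200000000000000000000000000000000000) := T_40 (nat_lit 195) (nat_lit 211) (nat_lit 5) (nat_lit 8) (nat_lit 8) L108490 (by decide +kernel)
theorem L108492 : W_40 (nat_lit 7) (nat_lit 0x100048006c0010001c0000000000000000000000000000000) (nat_lit 0x0) (nat_lit 0x3f000e800a00000000200000000000000000000000000000000000) := T_40 (nat_lit 194) (nat_lit 177) (nat_lit 5) (nat_lit 8) (nat_lit 7) L108491 (by decide +kernel)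
theorem L108493 : W_40 (nat_lit 8) (nat_lit 0x100048006c0010000c0000000000000000000000000000000) (nat_lit 0x0) (nat_lit 0x3f000e800a00000000200100008000000000000000000000000000) := T_40 (nat_lit 128) (nat_lit 111) (nat_lit 6) (nat_lit 8) (nat_lit 10) L108492 (by decide +kernel)
theorem L108494 : W_40 (nat_lit 9) (nat_lit 0x100048006c001000080000000000000000000000000000000) (nat_lit 0x0) (nat_lit 0x3f000e800a0000000020014000a000000000000000000000000000) := T_40 (nat_lit 126) (nat_lit 109) (nat_lit 4) (nat_lit 8) (nat_lit 10) L108493 (by decide +kernel)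
theorem L108495 : W_40 (nat_lit 10) (nat_lit 0x48006c001000080000000000000000000000000000000) (nat_lit 0x0) (nat_lit 0x14000e003f000fe00a4000200030014000a000000000000000000000000000) := Q_40 (nat_lit 192) (C_40 L108403 (C_40 L108264 (C_40 L108341 (C_40 L108494 N_40)))) (by decide +kernel)
theorem L108496 : W_40 (nat_lit 2) (nat_lit 0x48006c0010000e0001000000000000000000000000000) (nat_lit 0x0) (nat_lit 0x100008800000000000000000000000000) := D_40 (nat_lit 128) (nat_lit 107) (nat_lit 111) (nat_lit 0) (nat_lit 9) (nat_lit 7) (nat_lit 6) (nat_lit 8) (nat_lit 10) (by decide +kernel)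
theorem L108497 : W_40 (nat_lit 3) (nat_lit 0x48006c0010000e0000000000000000000000000000000) (nat_lit 0x0) (nat_lit 0x400100009800000000000000000000000000) := T_40 (nat_lit 108) (nat_lit 142) (nat_lit 5) (nat_lit 6) (nat_lit 6) L108496 (by decide +kernel)
theorem L108498 : W_40 (nat_lit 2) (nat_lit 0x68006c0010000f8001400000000000000000000000000) (nat_lit 0x0) (nat_lit 0x2000180000000000000000000000000000000000) := D_40 (nat_lit 140) (nat_lit 139) (nat_lit 157) (nat_lit 1) (nat_lit 7) (nat_lit 7) (nat_lit 7) (nat_lit 4) (nat_lit 6) (by decide +kernel)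
theorem L108499 : W_40 (nat_lit 3) (nat_lit 0x68006c0010000f0001400000000000000000000000000) (nat_lit 0x0) (nat_lit 0x2000180008000200000000000000000000000000) := T_40 (nat_lit 123) (nat_lit 105) (nat_lit 0) (nat_lit 7) (nat_lit 7) L108498 (by decide +kernel)
theorem L108500 : W_40 (nat_lit 4) (nat_lit 0x68006c0010000f0001000000000000000000000000000) (nat_lit 0x0) (nat_lit 0x2000180008000e00000000000000000000000000) := T_40 (nat_lit 106) (nat_lit 107) (nat_lit 0) (nat_lit 8) (nat_lit 7) L108499 (by decide +kernel)
theorem L108501 : W_40 (nat_lit 5) (nat_lit 0x68006c0010000e0001000000000000000000000000000) (nat_lit 0x0) (nat_lit 0x2000380018000e00000000000000000000000000) := T_40 (nat_lit 124) (nat_lit 141) (nat_lit 6) (nat_lit 5) (nat_lit 10) L108500 (by decide +kernel)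
theorem L108502 : W_40 (nat_lit 6) (nat_lit 0x48006c0010000e0001000000000000000000000000000) (nat_lit 0x0) (nat_lit 0x4000200002000380018000e00000000000000000000000000) := T_40 (nat_lit 177) (nat_lit 194) (nat_lit 5) (nat_lit 8) (nat_lit 7) L108501 (by decide +kernel)
theorem L108503 : W_40 (nat_lit 7) (nat_lit 0x48006c0010000e0000000000000000000000000000000) (nat_lit 0x0) (nat_lit 0x4000200002000780018001e00000000000000000000000000) := T_40 (nat_lit 108) (nat_lit 142) (nat_lit 5) (nat_lit 6) (nat_lit 6) L108502 (by decide +kernel)
theorem L108504 : W_40 (nat_lit 2) (nat_lit 0x68006c0012001f0000800000000000000000000000000) (nat_lit 0x0) (nat_lit 0x800040002000000000000000000000000000000000000000) := D_40 (nat_lit 174) (nat_lit 191) (nat_lit 157) (nat_lit 5) (nat_lit 5) (nat_lit 7) (nat_lit 5) (nat_lit 5) (nat_lit 6) (by decide +kernel)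
theorem L108505 : W_40 (nat_lit 3) (nat_lit 0x68006c0010001f0000800000000000000000000000000) (nat_lit 0x0) (nat_lit 0x800040002000300000000000000000000000000000000000) := T_40 (nat_lit 141) (nat_lit 140) (nat_lit 1) (nat_lit 8) (nat_lit 7) L108504 (by decide +kernel)
theorem L108506 : W_40 (nat_lit 4) (nat_lit 0x68006c0010001e0000800000000000000000000000000) (nat_lit 0x0) (nat_lit 0x800040002000300010000400000000000000000000000000) := T_40 (nat_lit 124) (nat_lit 106) (nat_lit 0) (nat_lit 8) (nat_lit 7) L108505 (by decide +kernel)
theorem L108507 : W_40 (nat_lit 5) (nat_lit 0x48006c0010001e0000800000000000000000000000000) (nat_lit 0x0) (nat_lit 0x4800240002000300010000400000000000000000000000000) := T_40 (nat_lit 177) (nat_lit 194) (nat_lit 5) (nat_lit 8) (nat_lit 7) L108506 (by decide +kernel)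
theorem L108508 : W_40 (nat_lit 6) (nat_lit 0x48006c0010001e0000000000000000000000000000000) (nat_lit 0x0) (nat_lit 0x4800240002000300010001c00000000000000000000000000) := T_40 (nat_lit 107) (nat_lit 108) (nat_lit 0) (nat_lit 9) (nat_lit 7) L108507 (by decide +kernel)
theorem L108509 : W_40 (nat_lit 7) (nat_lit 0x48006c0010000e0000000000000000000000000000000) (nat_lit 0x0) (nat_lit 0x4800240002000300110009c00000000000000000000000000) := T_40 (nat_lit 128) (nat_lit 111) (nat_lit 6) (nat_lit 8) (nat_lit 10) L108508 (by decide +kernel)
theorem L108510 : W_40 (nat_lit 2) (nat_lit 0x68006c0012001f0000000000000000000000000000000) (nat_lit 0x0) (nat_lit 0x8000c00000000000000000000000000) := D_40 (nat_lit 106) (nat_lit 107) (nat_lit 123) (nat_lit 0) (nat_lit 8) (nat_lit 7) (nat_lit 4) (nat_lit 5) (nat_lit 10) (by decide +kernel)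
theorem L108511 : W_40 (nat_lit 3) (nat_lit 0x68006c0012001e0000000000000000000000000000000) (nat_lit 0x0) (nat_lit 0x100018000c00000000000000000000000000) := T_40 (nat_lit 124) (nat_lit 140) (nat_lit 1) (nat_lit 8) (nat_lit 7) L108510 (by decide +kernel)
theorem L108512 : W_40 (nat_lit 4) (nat_lit 0x68006c0010001e0000000000000000000000000000000) (nat_lit 0x0) (nat_lit 0x700018000c00000000000000000000000000) := T_40 (nat_lit 141) (nat_lit 142) (nat_lit 1) (nat_lit 9) (nat_lit 7) L108511 (by decide +kernel)
theorem L108513 : W_40 (nat_lit 5) (nat_lit 0x68006c0010000e0000000000000000000000000000000) (nat_lit 0x0) (nat_lit 0x700118008c00000000000000000000000000) := T_40 (nat_lit 128) (nat_lit 111) (nat_lit 6) (nat_lit 8) (nat_lit 10) L108512 (by decide +kernel)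
theorem L108514 : W_40 (nat_lit 6) (nat_lit 0x48006c0010000e0000000000000000000000000000000) (nat_lit 0x0) (nat_lit 0x4000200000000700118008c00000000000000000000000000) := T_40 (nat_lit 177) (nat_lit 194) (nat_lit 5) (nat_lit 8) (nat_lit 7) L108513 (by decide +kernel)
theorem L108515 : W_40 (nat_lit 2) (nat_lit 0x48006c0010001e0000000000000000000000000000000) (nat_lit 0x0) (nat_lit 0x600000001000000000000000000000000000) := D_40 (nat_lit 142) (nat_lit 141) (nat_lit 108) (nat_lit 1) (nat_lit 9) (nat_lit 7) (nat_lit 5) (nat_lit 6) (nat_lit 6) (by decide +kernel)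
theorem L108516 : W_40 (nat_lit 3) (nat_lit 0x48006c0010000e0000000000000000000000000000000) (nat_lit 0x0) (nat_lit 0x600100009000000000000000000000000000) := T_40 (nat_lit 128) (nat_lit 111) (nat_lit 6) (nat_lit 8) (nat_lit 10) L108515 (by decide +kernel)
theorem L108517 : W_40 (nat_lit 8) (nat_lit 0x48006c0010000c0000000000000000000000000000000) (nat_lit 0x0) (nat_lit 0x4800240002000780138009e00000000000000000000000000) := Q_40 (nat_lit 125) (C_40 L108497 (C_40 L108503 (C_40 L108509 (C_40 L108514 (C_40 L108516 N_40))))) (by decide +kernel)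
theorem L108518 : W_40 (nat_lit 9) (nat_lit 0x48006c001000080000000000000000000000000000000) (nat_lit 0x0) (nat_lit 0x480024000200078017800be00000000000000000000000000) := T_40 (nat_lit 126) (nat_lit 109) (nat_lit 4) (nat_lit 8) (nat_lit 10) L108517 (by decide +kernel)
theorem L108519 : W_40 (nat_lit 2) (nat_lit 0x10000f00048006c0013401a0000000000000000000000000000000) (nat_lit 0x0) (nat_lit 0x50002000000000000000000000000000) := D_40 (nat_lit 126) (nat_lit 109) (nat_lit 124) (nat_lit 4) (nat_lit 8) (nat_lit 10) (nat_lit 1) (nat_lit 8) (nat_lit 7) (by decide +kernel)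
theorem L108520 : W_40 (nat_lit 3) (nat_lit 0x10000f00048006c001340180000000000000000000000000000000) (nat_lit 0x0) (nat_lit 0x400070002000000000000000000000000000) := T_40 (nat_lit 125) (nat_lit 142) (nat_lit 6) (nat_lit 5) (nat_lit 11) L108519 (by decide +kernel)
theorem L108521 : W_40 (nat_lit 4) (nat_lit 0x10000f00048006c001300180000000000000000000000000000000) (nat_lit 0x0) (nat_lit 0x4c0070002000000000000000000000000000) := T_40 (nat_lit 138) (nat_lit 139) (nat_lit 3) (nat_lit 2) (nat_lit 8) L108520 (by decide +kernel)
theorem L108522 : W_40 (nat_lit 5) (nat_lit 0x10000f00048006c001200180000000000000000000000000000000) (nat_lit 0x0) (nat_lit 0x5c0078002000000000000000000000000000) := T_40 (nat_lit 140) (nat_lit 123) (nat_lit 4) (nat_lit 5) (nat_lit 11) L108521 (by decide +kernel)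
theorem L108523 : W_40 (nat_lit 6) (nat_lit 0x10000f00048006c001000180000000000000000000000000000000) (nat_lit 0x0) (nat_lit 0x400000000000000007c0078002000000000000000000000000000) := T_40 (nat_lit 141) (nat_lit 210) (nat_lit 7) (nat_lit 5) (nat_lit 8) L108522 (by decide +kernel)
theorem L108524 : W_40 (nat_lit 7) (nat_lit 0xf00048006c001000180000000000000000000000000000000) (nat_lit 0x0) (nat_lit 0x3400000000000000007c0078002000000000000000000000000000) := T_40 (nat_lit 212) (nat_lit 213) (nat_lit 3) (nat_lit 5) (nat_lit 11) L108523 (by decide +kernel)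
theorem L108525 : W_40 (nat_lit 8) (nat_lit 0xd00048006c001000180000000000000000000000000000000) (nat_lit 0x0) (nat_lit 0x3400020008000000007c0078002000000000000000000000000000) := T_40 (nat_lit 193) (nat_lit 179) (nat_lit 2) (nat_lit 5) (nat_lit 11) L108524 (by decide +kernel)
theorem L108526 : W_40 (nat_lit 9) (nat_lit 0x500048006c001000180000000000000000000000000000000) (nat_lit 0x0) (nat_lit 0x3c000a0008000000007c0078002000000000000000000000000000) := T_40 (nat_lit 195) (nat_lit 211) (nat_lit 5) (nat_lit 8) (nat_lit 8) L108525 (by decide +kernel)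
theorem L108527 : W_40 (nat_lit 10) (nat_lit 0x500048006c001000080000000000000000000000000000000) (nat_lit 0x0) (nat_lit 0x3c000a0008000000007c017800a000000000000000000000000000) := T_40 (nat_lit 128) (nat_lit 111) (nat_lit 6) (nat_lit 8) (nat_lit 10) L108526 (by decide +kernel)
theorem L108528 : W_40 (nat_lit 11) (nat_lit 0x100048006c001000080000000000000000000000000000000) (nat_lit 0x0) (nat_lit 0x3c000e000a000000007c017800a000000000000000000000000000) := T_40 (nat_lit 194) (nat_lit 177) (nat_lit 5) (nat_lit 8) (nat_lit 7) L108527 (by decide +kernel)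
theorem L108529 : W_40 (nat_lit 12) (nat_lit 0x48006c001000080000000000000000000000000000000) (nat_lit 0x0) (nat_lit 0xa003f000f800a000020007c017800a000000000000000000000000000) := Q_40 (nat_lit 192) (C_40 L108421 (C_40 L108349 (C_40 L108494 (C_40 L108275 (C_40 L108414 (C_40 L108528 N_40)))))) (by decide +kernel)
theorem L108530 : W_40 (nat_lit 10) (nat_lit 0x48006c001000080000000000000000000000000000000) (nat_lit 0x0) (nat_lit 0xa003f000fe00a4000000060014000a000000000000000000000000000) := Q_40 (nat_lit 192) (C_40 L108264 (C_40 L108349 (C_40 L108494 (C_40 L108269 (C_40 L108405 N_40))))) (by decide +kernel)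
theorem L108531 : W_40 (nat_lit 14) (nat_lit 0x40006c001000080000000000000000000000000000000) (nat_lit 0x0) (nat_lit 0x14000e003fc00fe00af00038007c017e00be00060003000080000000000000) := Q_40 (nat_lit 175) (C_40 L108240 (C_40 L108256 (C_40 L108265 (C_40 L108276 (C_40 L108350 (C_40 L108373 (C_40 L108406 (C_40 L108415 (C_40 L108422 (C_40 L108486 (C_40 L108495 (C_40 L108518 (C_40 L108529 (C_40 L108530 N_40)))))))))))))) (by decide +kernel)
theorem L108532 : W_40 (nat_lit 2) (nat_lit 0x40007c001000180000000000000000000000000000000) (nat_lit 0x0) (nat_lit 0x4000200002000000000000000000000000000000000000000) := D_40 (nat_lit 177) (nat_lit 157) (nat_lit 194) (nat_lit 3) (nat_lit 4) (nat_lit 9) (nat_lit 5) (nat_lit 8) (nat_lit 7) (by decide +kernel)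
theorem L108533 : W_40 (nat_lit 3) (nat_lit 0x40006c001000180000000000000000000000000000000) (nat_lit 0x0) (nat_lit 0x4000a00012000000000000000000000000000000000000000) := T_40 (nat_lit 160) (nat_lit 179) (nat_lit 3) (nat_lit 5) (nat_lit 9) L108532 (by decide +kernel)
theorem L108534 : W_40 (nat_lit 4) (nat_lit 0x40006c001000080000000000000000000000000000000) (nat_lit 0x0) (nat_lit 0x4000a00012000000100008000000000000000000000000000) := T_40 (nat_lit 128) (nat_lit 111) (nat_lit 6) (nat_lit 8) (nat_lit 10) L108533 (by decide +kernel)
theorem L108535 : W_40 (nat_lit 2) (nat_lit 0x60007c0010001c0000000000000000000000000000000) (nat_lit 0x0) (nat_lit 0x700000000000000000000000000000000000) := D_40 (nat_lit 141) (nat_lit 142) (nat_lit 140) (nat_lit 0) (nat_lit 9) (nat_lit 9) (nat_lit 0) (nat_lit 8) (nat_lit 9) (by decide +kernel)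
theorem L108536 : W_40 (nat_lit 3) (nat_lit 0x60006c0010001c0000000000000000000000000000000) (nat_lit 0x0) (nat_lit 0x12000700000000000000000000000000000000000) := T_40 (nat_lit 160) (nat_lit 157) (nat_lit 3) (nat_lit 4) (nat_lit 9) L108535 (by decide +kernel)
theorem L108537 : W_40 (nat_lit 4) (nat_lit 0x40006c0010001c0000000000000000000000000000000) (nat_lit 0x0) (nat_lit 0x4000200012000700000000000000000000000000000000000) := T_40 (nat_lit 177) (nat_lit 194) (nat_lit 5) (nat_lit 8) (nat_lit 7) L108536 (by decide +kernel)
theorem L108538 : W_40 (nat_lit 5) (nat_lit 0x40006c001000180000000000000000000000000000000) (nat_lit 0x0) (nat_lit 0x4000200012000700040002000000000000000000000000000) := T_40 (nat_lit 126) (nat_lit 109) (nat_lit 4) (nat_lit 8) (nat_lit 10) L108537 (by decide +kernel)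
theorem L108539 : W_40 (nat_lit 6) (nat_lit 0x40006c001000080000000000000000000000000000000) (nat_lit 0x0) (nat_lit 0x400020001200070014000a000000000000000000000000000) := T_40 (nat_lit 128) (nat_lit 111) (nat_lit 6) (nat_lit 8) (nat_lit 10) L108538 (by decide +kernel)
theorem L108540 : W_40 (nat_lit 15) (nat_lit 0x400068001000080000000000000000000000000000000) (nat_lit 0x0) (nat_lit 0x14000e003fc00fe00af00178007c017e00be00060003000080000000000000) := Q_40 (nat_lit 158) (C_40 L108209 (C_40 L108531 (C_40 L108534 (C_40 L108539 N_40)))) (by decide +kernel)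
theorem L108541 : W_40 (nat_lit 2) (nat_lit 0x500068001400080000000000000000000000000000000) (nat_lit 0x0) (nat_lit 0x80010000200000000000000000000000000000000000) := D_40 (nat_lit 160) (nat_lit 175) (nat_lit 141) (nat_lit 1) (nat_lit 9) (nat_lit 9) (nat_lit 0) (nat_lit 9) (nat_lit 9) (by decide +kernel)
theorem L108542 : W_40 (nat_lit 2) (nat_lit 0x5000680014001e0000000000000000000000000000000) (nat_lit 0x0) (nat_lit 0x10001800000000000000000000000000) := D_40 (nat_lit 107) (nat_lit 108) (nat_lit 124) (nat_lit 0) (nat_lit 9) (nat_lit 7) (nat_lit 4) (nat_lit 6) (nat_lit 10) (by decide +kernel)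
theorem L108543 : W_40 (nat_lit 3) (nat_lit 0x5000680014001c0000000000000000000000000000000) (nat_lit 0x0) (nat_lit 0x200030001800000000000000000000000000) := T_40 (nat_lit 125) (nat_lit 141) (nat_lit 1) (nat_lit 9) (nat_lit 7) L108542 (by decide +kernel)
theorem L108544 : W_40 (nat_lit 4) (nat_lit 0x500068001400180000000000000000000000000000000) (nat_lit 0x0) (nat_lit 0x200070003800000000000000000000000000) := T_40 (nat_lit 126) (nat_lit 109) (nat_lit 4) (nat_lit 8) (nat_lit 10) L108543 (by decide +kernel)
theorem L108545 : W_40 (nat_lit 5) (nat_lit 0x500068001400080000000000000000000000000000000) (nat_lit 0x0) (nat_lit 0x20017000b800000000000000000000000000) := T_40 (nat_lit 128) (nat_lit 111) (nat_lit 6) (nat_lit 8) (nat_lit 10) L108544 (by decide +kernel)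
theorem L108546 : W_40 (nat_lit 2) (nat_lit 0x5800680014001e0000000000000000000000000000000) (nat_lit 0x0) (nat_lit 0x4000000000001800000000000000000000000000) := D_40 (nat_lit 108) (nat_lit 107) (nat_lit 158) (nat_lit 0) (nat_lit 9) (nat_lit 7) (nat_lit 5) (nat_lit 6) (nat_lit 6) (by decide +kernel)
theorem L108547 : W_40 (nat_lit 3) (nat_lit 0x5800680014001c0000000000000000000000000000000) (nat_lit 0x0) (nat_lit 0x1000000004000000020001800000000000000000000000000) := T_40 (nat_lit 125) (nat_lit 192) (nat_lit 5) (nat_lit 6) (nat_lit 7) L108546 (by decide +kernel)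
theorem L108548 : W_40 (nat_lit 4) (nat_lit 0x5800680014000c0000000000000000000000000000000) (nat_lit 0x0) (nat_lit 0x1000000004000000120009800000000000000000000000000) := T_40 (nat_lit 128) (nat_lit 111) (nat_lit 6) (nat_lit 8) (nat_lit 10) L108547 (by decide +kernel)
theorem L108549 : W_40 (nat_lit 5) (nat_lit 0x5000680014000c0000000000000000000000000000000) (nat_lit 0x0) (nat_lit 0x1000080014000000120009800000000000000000000000000) := T_40 (nat_lit 175) (nat_lit 160) (nat_lit 1) (nat_lit 9) (nat_lit 9) L108548 (by decide +kernel)
theorem L108550 : W_40 (nat_lit 6) (nat_lit 0x500068001400080000000000000000000000000000000) (nat_lit 0x0) (nat_lit 0x100008001400000016000b800000000000000000000000000) := T_40 (nat_lit 126) (nat_lit 109) (nat_lit 4) (nat_lit 8) (nat_lit 10) L108549 (by decide +kernel)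
theorem L108551 : W_40 (nat_lit 7) (nat_lit 0x500068001000080000000000000000000000000000000) (nat_lit 0x0) (nat_lit 0x100008001400060017000b800000000000000000000000000) := Q_40 (nat_lit 142) (C_40 L108541 (C_40 L108545 (C_40 L108550 N_40))) (by decide +kernel)
theorem L108552 : W_40 (nat_lit 9) (nat_lit 0x400068001000080000000000000000000000000000000) (nat_lit 0x0) (nat_lit 0x8000f00038001400060017000b800000000000000000000000000) := Q_40 (nat_lit 176) (C_40 L108551 (C_40 L108177 (C_40 L108206 N_40))) (by decide +kernel)
theorem L108553 : W_40 (nat_lit 2) (nat_lit 0x5800680014001e0000000000000000000000000000000) (nat_lit 0x0) (nat_lit 0x10001800000000000000000000000000) := D_40 (nat_lit 107) (nat_lit 108) (nat_lit 124) (nat_lit 0) (nat_lit 9) (nat_lit 7) (nat_lit 4) (nat_lit 6) (nat_lit 10) (by decide +kernel)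
theorem L108554 : W_40 (nat_lit 3) (nat_lit 0x5800680014001c0000000000000000000000000000000) (nat_lit 0x0) (nat_lit 0x1000000000000000030001800000000000000000000000000) := T_40 (nat_lit 125) (nat_lit 192) (nat_lit 5) (nat_lit 6) (nat_lit 7) L108553 (by decide +kernel)
theorem L108555 : W_40 (nat_lit 4) (nat_lit 0x580068001400180000000000000000000000000000000) (nat_lit 0x0) (nat_lit 0x1000000000000000070003800000000000000000000000000) := T_40 (nat_lit 126) (nat_lit 109) (nat_lit 4) (nat_lit 8) (nat_lit 10) L108554 (by decide +kernel)
theorem L108556 : W_40 (nat_lit 5) (nat_lit 0x500068001400180000000000000000000000000000000) (nat_lit 0x0) (nat_lit 0x1000080010000000070003800000000000000000000000000) := T_40 (nat_lit 175) (nat_lit 160) (nat_lit 1) (nat_lit 9) (nat_lit 9) L108555 (by decide +kernel)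
theorem L108557 : W_40 (nat_lit 6) (nat_lit 0x500068001400080000000000000000000000000000000) (nat_lit 0x0) (nat_lit 0x100008001000000017000b800000000000000000000000000) := T_40 (nat_lit 128) (nat_lit 111) (nat_lit 6) (nat_lit 8) (nat_lit 10) L108556 (by decide +kernel)
theorem L108558 : W_40 (nat_lit 7) (nat_lit 0x500068001000080000000000000000000000000000000) (nat_lit 0x0) (nat_lit 0x100008001000060017000b800000000000000000000000000) := Q_40 (nat_lit 142) (C_40 L108545 (C_40 L108541 (C_40 L108557 N_40))) (by decide +kernel)
theorem L108559 : W_40 (nat_lit 9) (nat_lit 0x400068001000080000000000000000000000000000000) (nat_lit 0x0) (nat_lit 0x8000f00038001000060017000b800000000000000000000000000) := Q_40 (nat_lit 176) (C_40 L108558 (C_40 L108177 (C_40 L108206 N_40))) (by decide +kernel)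
theorem L108560 : W_40 (nat_lit 2) (nat_lit 0x4000780014001e0001000000000000000000000000000) (nat_lit 0x0) (nat_lit 0x1800004000000000000000000000000000000000000000) := D_40 (nat_lit 179) (nat_lit 180) (nat_lit 158) (nat_lit 3) (nat_lit 6) (nat_lit 9) (nat_lit 3) (nat_lit 5) (nat_lit 9) (by decide +kernel)
theorem L108561 : W_40 (nat_lit 3) (nat_lit 0x4000680014001e0001000000000000000000000000000) (nat_lit 0x0) (nat_lit 0x1a00014000000000000000000000000000000000000000) := T_40 (nat_lit 160) (nat_lit 177) (nat_lit 7) (nat_lit 6) (nat_lit 6) L108560 (by decide +kernel)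
theorem L108562 : W_40 (nat_lit 4) (nat_lit 0x4000680010001e0001000000000000000000000000000) (nat_lit 0x0) (nat_lit 0x1a00014000600000000000000000000000000000000000) := T_40 (nat_lit 142) (nat_lit 141) (nat_lit 1) (nat_lit 9) (nat_lit 7) L108561 (by decide +kernel)
theorem L108563 : W_40 (nat_lit 5) (nat_lit 0x4000680010001e0000000000000000000000000000000) (nat_lit 0x0) (nat_lit 0x1a00014000600000001800000000000000000000000000) := T_40 (nat_lit 108) (nat_lit 107) (nat_lit 0) (nat_lit 9) (nat_lit 7) L108562 (by decide +kernel)
theorem L108564 : W_40 (nat_lit 2) (nat_lit 0x6000680014001e0000000000000000000000000000000) (nat_lit 0x0) (nat_lit 0x10000000000001800000000000000000000000000) := D_40 (nat_lit 108) (nat_lit 107) (nat_lit 160) (nat_lit 0) (nat_lit 9) (nat_lit 7) (nat_lit 7) (nat_lit 6) (nat_lit 6) (by decide +kernel)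
theorem L108565 : W_40 (nat_lit 3) (nat_lit 0x4000680014001e0000000000000000000000000000000) (nat_lit 0x0) (nat_lit 0x4000200010000000000001800000000000000000000000000) := T_40 (nat_lit 177) (nat_lit 194) (nat_lit 5) (nat_lit 8) (nat_lit 7) L108564 (by decide +kernel)
theorem L108566 : W_40 (nat_lit 4) (nat_lit 0x4000680010001e0000000000000000000000000000000) (nat_lit 0x0) (nat_lit 0x4000200010000600000001800000000000000000000000000) := T_40 (nat_lit 142) (nat_lit 141) (nat_lit 1) (nat_lit 9) (nat_lit 7) L108565 (by decide +kernel)
theorem L108567 : W_40 (nat_lit 2) (nat_lit 0x4000680014001e0000800000000000000000000000000) (nat_lit 0x0) (nat_lit 0x100000000000010000400000000000000000000000000) := D_40 (nat_lit 124) (nat_lit 106) (nat_lit 176) (nat_lit 0) (nat_lit 8) (nat_lit 7) (nat_lit 4) (nat_lit 6) (nat_lit 10) (by decide +kernel)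
theorem L108568 : W_40 (nat_lit 3) (nat_lit 0x4000680010001e0000800000000000000000000000000) (nat_lit 0x0) (nat_lit 0x100000000600010000400000000000000000000000000) := T_40 (nat_lit 142) (nat_lit 141) (nat_lit 1) (nat_lit 9) (nat_lit 7) L108567 (by decide +kernel)
theorem L108569 : W_40 (nat_lit 4) (nat_lit 0x4000680010001e0000000000000000000000000000000) (nat_lit 0x0) (nat_lit 0x100000000600010001c00000000000000000000000000) := T_40 (nat_lit 107) (nat_lit 108) (nat_lit 0) (nat_lit 9) (nat_lit 7) L108568 (by decide +kernel)
theorem L108570 : W_40 (nat_lit 2) (nat_lit 0x6000780010001e0001000000000000000000000000000) (nat_lit 0x0) (nat_lit 0x1800004000000000000000000000000000000000000000) := D_40 (nat_lit 179) (nat_lit 180) (nat_lit 158) (nat_lit 3) (nat_lit 6) (nat_lit 9) (nat_lit 3) (nat_lit 5) (nat_lit 9) (by decide +kernel)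
theorem L108571 : W_40 (nat_lit 3) (nat_lit 0x6000680010001e0001000000000000000000000000000) (nat_lit 0x0) (nat_lit 0x1800014000400000000000000000000000000000000000) := T_40 (nat_lit 160) (nat_lit 142) (nat_lit 7) (nat_lit 6) (nat_lit 6) L108570 (by decide +kernel)
theorem L108572 : W_40 (nat_lit 4) (nat_lit 0x4000680010001e0001000000000000000000000000000) (nat_lit 0x0) (nat_lit 0x4001a00014000400000000000000000000000000000000000) := T_40 (nat_lit 177) (nat_lit 194) (nat_lit 5) (nat_lit 8) (nat_lit 7) L108571 (by decide +kernel)
theorem L108573 : W_40 (nat_lit 5) (nat_lit 0x4000680010001e0000000000000000000000000000000) (nat_lit 0x0) (nat_lit 0x4001a00014000400000001800000000000000000000000000) := T_40 (nat_lit 108) (nat_lit 107) (nat_lit 0) (nat_lit 9) (nat_lit 7) L108572 (by decide +kernel)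
theorem L108574 : W_40 (nat_lit 2) (nat_lit 0x60006c0012001f0000800000000000000000000000000) (nat_lit 0x0) (nat_lit 0x40012000000000000000000000000000000000000000) := D_40 (nat_lit 157) (nat_lit 174) (nat_lit 160) (nat_lit 5) (nat_lit 5) (nat_lit 6) (nat_lit 3) (nat_lit 4) (nat_lit 9) (by decide +kernel)
theorem L108575 : W_40 (nat_lit 3) (nat_lit 0x6000680012001f0000800000000000000000000000000) (nat_lit 0x0) (nat_lit 0x140016000000000000000000000000000000000000000) := T_40 (nat_lit 158) (nat_lit 176) (nat_lit 7) (nat_lit 5) (nat_lit 6) L108574 (by decide +kernel)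
theorem L108576 : W_40 (nat_lit 4) (nat_lit 0x6000680010001f0000800000000000000000000000000) (nat_lit 0x0) (nat_lit 0x140016000300000000000000000000000000000000000) := T_40 (nat_lit 141) (nat_lit 140) (nat_lit 1) (nat_lit 8) (nat_lit 7) L108575 (by decide +kernel)
theorem L108577 : W_40 (nat_lit 5) (nat_lit 0x6000680010001e0000800000000000000000000000000) (nat_lit 0x0) (nat_lit 0x140016000300010000400000000000000000000000000) := T_40 (nat_lit 124) (nat_lit 106) (nat_lit 0) (nat_lit 8) (nat_lit 7) L108576 (by decide +kernel)
theorem L108578 : W_40 (nat_lit 6) (nat_lit 0x6000680010001e0000000000000000000000000000000) (nat_lit 0x0) (nat_lit 0x140016000300010001c00000000000000000000000000) := T_40 (nat_lit 107) (nat_lit 108) (nat_lit 0) (nat_lit 9) (nat_lit 7) L108577 (by decide +kernel)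
theorem L108579 : W_40 (nat_lit 7) (nat_lit 0x4000680010001e0000000000000000000000000000000) (nat_lit 0x0) (nat_lit 0x4000340016000300010001c00000000000000000000000000) := T_40 (nat_lit 177) (nat_lit 194) (nat_lit 5) (nat_lit 8) (nat_lit 7) L108578 (by decide +kernel)
theorem L108580 : W_40 (nat_lit 4) (nat_lit 0x6000680012001f0000000000000000000000000000000) (nat_lit 0x0) (nat_lit 0x140016000000000000c00000000000000000000000000) := T_40 (nat_lit 107) (nat_lit 106) (nat_lit 0) (nat_lit 8) (nat_lit 7) L108575 (by decide +kernel)
theorem L108581 : W_40 (nat_lit 5) (nat_lit 0x6000680012001e0000000000000000000000000000000) (nat_lit 0x0) (nat_lit 0x140016000100010000c00000000000000000000000000) := T_40 (nat_lit 124) (nat_lit 140) (nat_lit 1) (nat_lit 8) (nat_lit 7) L108580 (by decide +kernel)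
theorem L108582 : W_40 (nat_lit 6) (nat_lit 0x4000680012001e0000000000000000000000000000000) (nat_lit 0x0) (nat_lit 0x4000340016000100010000c00000000000000000000000000) := T_40 (nat_lit 177) (nat_lit 194) (nat_lit 5) (nat_lit 8) (nat_lit 7) L108581 (by decide +kernel)
theorem L108583 : W_40 (nat_lit 7) (nat_lit 0x4000680010001e0000000000000000000000000000000) (nat_lit 0x0) (nat_lit 0x4000340016000700010000c00000000000000000000000000) := T_40 (nat_lit 141) (nat_lit 142) (nat_lit 1) (nat_lit 9) (nat_lit 7) L108582 (by decide +kernel)
theorem L108584 : W_40 (nat_lit 2) (nat_lit 0x6000780014001e0000000000000000000000000000000) (nat_lit 0x0) (nat_lit 0x1800004000000000000000000000000000000000000000) := D_40 (nat_lit 179) (nat_lit 180) (nat_lit 158) (nat_lit 3) (nat_lit 6) (nat_lit 9) (nat_lit 3) (nat_lit 5) (nat_lit 9) (by decide +kernel)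
theorem L108585 : W_40 (nat_lit 3) (nat_lit 0x6000680014001e0000000000000000000000000000000) (nat_lit 0x0) (nat_lit 0x1800014000000000001000000000000000000000000000) := T_40 (nat_lit 160) (nat_lit 108) (nat_lit 7) (nat_lit 6) (nat_lit 6) L108584 (by decide +kernel)
theorem L108586 : W_40 (nat_lit 4) (nat_lit 0x4000680014001e0000000000000000000000000000000) (nat_lit 0x0) (nat_lit 0x4001a00014000000000001000000000000000000000000000) := T_40 (nat_lit 177) (nat_lit 194) (nat_lit 5) (nat_lit 8) (nat_lit 7) L108585 (by decide +kernel)
theorem L108587 : W_40 (nat_lit 5) (nat_lit 0x4000680010001e0000000000000000000000000000000) (nat_lit 0x0) (nat_lit 0x4001a00014000600000001000000000000000000000000000) := T_40 (nat_lit 142) (nat_lit 141) (nat_lit 1) (nat_lit 9) (nat_lit 7) L108586 (by decide +kernel)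
theorem L108588 : W_40 (nat_lit 8) (nat_lit 0x4000680010001c0000000000000000000000000000000) (nat_lit 0x0) (nat_lit 0x4001b40016000700030001c00000000000000000000000000) := Q_40 (nat_lit 125) (C_40 L108563 (C_40 L108566 (C_40 L108569 (C_40 L108573 (C_40 L108579 (C_40 L108583 (C_40 L108587 N_40))))))) (by decide +kernel)
theorem L108589 : W_40 (nat_lit 9) (nat_lit 0x400068001000180000000000000000000000000000000) (nat_lit 0x0) (nat_lit 0x4001b40016000700070003c00000000000000000000000000) := T_40 (nat_lit 126) (nat_lit 109) (nat_lit 4) (nat_lit 8) (nat_lit 10) L108588 (by decide +kernel)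
theorem L108590 : W_40 (nat_lit 10) (nat_lit 0x400068001000080000000000000000000000000000000) (nat_lit 0x0) (nat_lit 0x4001b4001600070017000bc00000000000000000000000000) := T_40 (nat_lit 128) (nat_lit 111) (nat_lit 6) (nat_lit 8) (nat_lit 10) L108589 (by decide +kernel)
theorem L108591 : W_40 (nat_lit 16) (nat_lit 0x400060001000080000000000000000000000000000000) (nat_lit 0x0) (nat_lit 0x9c007e003fc0efe07bf001f8007c017e00be001e000f000180000000000000) := Q_40 (nat_lit 159) (C_40 L108031 (C_40 L108039 (C_40 L108047 (C_40 L108052 (C_40 L108207 (C_40 L108540 (C_40 L108552 (C_40 L108559 (C_40 L108590 N_40))))))))) (by decide +kernel)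
theorem L108592 : W_40 (nat_lit 2) (nat_lit 0x40007c001000180000000000000000000000000000000) (nat_lit 0x0) (nat_lit 0x700000000000000000000000000000000000) := D_40 (nat_lit 141) (nat_lit 140) (nat_lit 142) (nat_lit 0) (nat_lit 8) (nat_lit 9) (nat_lit 0) (nat_lit 9) (nat_lit 9) (by decide +kernel)
theorem L108593 : W_40 (nat_lit 3) (nat_lit 0x400078001000180000000000000000000000000000000) (nat_lit 0x0) (nat_lit 0x800004000700000000000000000000000000000000000) := T_40 (nat_lit 158) (nat_lit 179) (nat_lit 3) (nat_lit 5) (nat_lit 9) L108592 (by decide +kernel)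
theorem L108594 : W_40 (nat_lit 4) (nat_lit 0x400078001000080000000000000000000000000000000) (nat_lit 0x0) (nat_lit 0x800004000700100008000000000000000000000000000) := T_40 (nat_lit 128) (nat_lit 111) (nat_lit 6) (nat_lit 8) (nat_lit 10) L108593 (by decide +kernel)
theorem L108595 : W_40 (nat_lit 4) (nat_lit 0x400078001000080000000000000000000000000000000) (nat_lit 0x0) (nat_lit 0x1c0004000700000000000000000000000000000000000) := T_40 (nat_lit 141) (nat_lit 142) (nat_lit 0) (nat_lit 9) (nat_lit 9) L102103 (by decide +kernel)
theorem L108596 : W_40 (nat_lit 2) (nat_lit 0x4000f8001000080000000000000000000000000000000) (nat_lit 0x0) (nat_lit 0x3800000000000000000000000000000000000000000000) := D_40 (nat_lit 180) (nat_lit 179) (nat_lit 181) (nat_lit 3) (nat_lit 6) (nat_lit 9) (nat_lit 3) (nat_lit 7) (nat_lit 9) (by decide +kernel)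
theorem L108597 : W_40 (nat_lit 5) (nat_lit 0x4000f8001000080000000000000000000000000000000) (nat_lit 0x0) (nat_lit 0x700010001c600000000000000000000000000000000000) := T_40 (nat_lit 142) (nat_lit 141) (nat_lit 0) (nat_lit 9) (nat_lit 9) L75636 (by decide +kernel)
theorem L108598 : W_40 (nat_lit 2) (nat_lit 0x44001f8009400180000000000000000000000000000000) (nat_lit 0x0) (nat_lit 0x8800200000000000000000000000000000000000000000) := D_40 (nat_lit 165) (nat_lit 179) (nat_lit 183) (nat_lit 1) (nat_lit 12) (nat_lit 9) (nat_lit 3) (nat_lit 9) (nat_lit 9) (by decide +kernel)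
theorem L108599 : W_40 (nat_lit 3) (nat_lit 0x4001f8009400180000000000000000000000000000000) (nat_lit 0x0) (nat_lit 0xe800200000000000000000000000000000000000000000) := T_40 (nat_lit 182) (nat_lit 181) (nat_lit 3) (nat_lit 8) (nat_lit 9) L108598 (by decide +kernel)
theorem L108600 : W_40 (nat_lit 4) (nat_lit 0x4000f8009400180000000000000000000000000000000) (nat_lit 0x0) (nat_lit 0xe800300010000000000000000000000000000000000000) := T_40 (nat_lit 164) (nat_lit 148) (nat_lit 2) (nat_lit 8) (nat_lit 9) L108599 (by decide +kernel)
theorem L108601 : W_40 (nat_lit 5) (nat_lit 0x4000f8009400080000000000000000000000000000000) (nat_lit 0x0) (nat_lit 0xe800300010000100008000000000000000000000000000) := T_40 (nat_lit 128) (nat_lit 111) (nat_lit 6) (nat_lit 8) (nat_lit 10) L108600 (by decide +kernel)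
theorem L108602 : W_40 (nat_lit 6) (nat_lit 0x4000f8001400080000000000000000000000000000000) (nat_lit 0x0) (nat_lit 0xe80030001c000100008000000000000000000000000000) := T_40 (nat_lit 147) (nat_lit 146) (nat_lit 2) (nat_lit 7) (nat_lit 9) L108601 (by decide +kernel)
theorem L108603 : W_40 (nat_lit 7) (nat_lit 0x4000f8001000080000000000000000000000000000000) (nat_lit 0x0) (nat_lit 0xe80030001c600100008000000000000000000000000000) := T_40 (nat_lit 142) (nat_lit 141) (nat_lit 0) (nat_lit 9) (nat_lit 9) L108602 (by decide +kernel)
theorem L108604 : W_40 (nat_lit 2) (nat_lit 0xd001f8001000080000000000000000000000000000000) (nat_lit 0x0) (nat_lit 0x1c000000000000000000000000000000000000) := D_40 (nat_lit 147) (nat_lit 146) (nat_lit 148) (nat_lit 2) (nat_lit 7) (nat_lit 9) (nat_lit 2) (nat_lit 8) (nat_lit 9) (by decide +kernel)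
theorem L108605 : W_40 (nat_lit 3) (nat_lit 0xd000f8001000080000000000000000000000000000000) (nat_lit 0x0) (nat_lit 0x30001c000000000000000000000000000000000000) := T_40 (nat_lit 164) (nat_lit 165) (nat_lit 1) (nat_lit 12) (nat_lit 9) L108604 (by decide +kernel)
theorem L108606 : W_40 (nat_lit 4) (nat_lit 0x5000f8001000080000000000000000000000000000000) (nat_lit 0x0) (nat_lit 0x180030001c000000000000000000000000000000000000) := T_40 (nat_lit 179) (nat_lit 180) (nat_lit 3) (nat_lit 6) (nat_lit 9) L108605 (by decide +kernel)
theorem L108607 : W_40 (nat_lit 5) (nat_lit 0x4000f8001000080000000000000000000000000000000) (nat_lit 0x0) (nat_lit 0x198030001c000000000000000000000000000000000000) := T_40 (nat_lit 176) (nat_lit 175) (nat_lit 1) (nat_lit 9) (nat_lit 9) L108606 (by decide +kernel)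
theorem L108608 : W_40 (nat_lit 8) (nat_lit 0x400078001000080000000000000000000000000000000) (nat_lit 0x0) (nat_lit 0xf98038001c600100008000000000000000000000000000) := Q_40 (nat_lit 163) (C_40 L108596 (C_40 L108597 (C_40 L108603 (C_40 L108607 N_40)))) (by decide +kernel)
theorem L108609 : W_40 (nat_lit 9) (nat_lit 0x400070001000080000000000000000000000000000000) (nat_lit 0x0) (nat_lit 0xf9c038c01c700100008000000000000000000000000000) := Q_40 (nat_lit 159) (C_40 L1132 (C_40 L108594 (C_40 L108595 (C_40 L108608 N_40)))) (by decide +kernel)
theorem L108610 : W_40 (nat_lit 2) (nat_lit 0x45001f80094000c0000000000000000000000000000000) (nat_lit 0x0) (nat_lit 0x8800200000000000000000000000000000000000000000) := D_40 (nat_lit 165) (nat_lit 179) (nat_lit 183) (nat_lit 1) (nat_lit 12) (nat_lit 9) (nat_lit 3) (nat_lit 9) (nat_lit 9) (by decide +kernel)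
theorem L108611 : W_40 (nat_lit 3) (nat_lit 0x5001f80094000c0000000000000000000000000000000) (nat_lit 0x0) (nat_lit 0xe800200000000000000000000000000000000000000000) := T_40 (nat_lit 182) (nat_lit 181) (nat_lit 3) (nat_lit 8) (nat_lit 9) L108610 (by decide +kernel)
theorem L108612 : W_40 (nat_lit 4) (nat_lit 0x5000f80094000c0000000000000000000000000000000) (nat_lit 0x0) (nat_lit 0xe800300010000000000000000000000000000000000000) := T_40 (nat_lit 164) (nat_lit 148) (nat_lit 2) (nat_lit 8) (nat_lit 9) L108611 (by decide +kernel)
theorem L108613 : W_40 (nat_lit 5) (nat_lit 0x5000f80014000c0000000000000000000000000000000) (nat_lit 0x0) (nat_lit 0xe80030001c000000000000000000000000000000000000) := T_40 (nat_lit 147) (nat_lit 146) (nat_lit 2) (nat_lit 7) (nat_lit 9) L108612 (by decide +kernel)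
theorem L108614 : W_40 (nat_lit 6) (nat_lit 0x5000f80010000c0000000000000000000000000000000) (nat_lit 0x0) (nat_lit 0xe80030001c600000000000000000000000000000000000) := T_40 (nat_lit 142) (nat_lit 141) (nat_lit 0) (nat_lit 9) (nat_lit 9) L108613 (by decide +kernel)
theorem L108615 : W_40 (nat_lit 7) (nat_lit 0x4000f80010000c0000000000000000000000000000000) (nat_lit 0x0) (nat_lit 0xe98030001c600000000000000000000000000000000000) := T_40 (nat_lit 176) (nat_lit 175) (nat_lit 1) (nat_lit 9) (nat_lit 9) L108614 (by decide +kernel)
theorem L108616 : W_40 (nat_lit 8) (nat_lit 0x4000f8001000080000000000000000000000000000000) (nat_lit 0x0) (nat_lit 0xe98030001c600040002000000000000000000000000000) := T_40 (nat_lit 126) (nat_lit 109) (nat_lit 4) (nat_lit 8) (nat_lit 10) L108615 (by decide +kernel)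
theorem L108617 : W_40 (nat_lit 9) (nat_lit 0x400078001000080000000000000000000000000000000) (nat_lit 0x0) (nat_lit 0xf98038001c600040002000000000000000000000000000) := Q_40 (nat_lit 163) (C_40 L108607 (C_40 L108597 (C_40 L108616 (C_40 L108596 N_40)))) (by decide +kernel)
theorem L108618 : W_40 (nat_lit 10) (nat_lit 0x400070001000080000000000000000000000000000000) (nat_lit 0x0) (nat_lit 0xf9c038c01c700040002000000000000000000000000000) := Q_40 (nat_lit 159) (C_40 L108595 (C_40 L1132 (C_40 L108617 N_40))) (by decide +kernel)
theorem L108619 : W_40 (nat_lit 3) (nat_lit 0x4000700012000c0000000000000000000000000000000) (nat_lit 0x0) (nat_lit 0x80000c000500000000000000000000000000000000000) := T_40 (nat_lit 159) (nat_lit 142) (nat_lit 0) (nat_lit 9) (nat_lit 9) L107991 (by decide +kernel)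
theorem L108620 : W_40 (nat_lit 4) (nat_lit 0x400070001200080000000000000000000000000000000) (nat_lit 0x0) (nat_lit 0x80000c000500040002000000000000000000000000000) := T_40 (nat_lit 126) (nat_lit 109) (nat_lit 4) (nat_lit 8) (nat_lit 10) L108619 (by decide +kernel)
theorem L108621 : W_40 (nat_lit 4) (nat_lit 0x400070001200080000000000000000000000000000000) (nat_lit 0x0) (nat_lit 0x1c000c000500000000000000000000000000000000000) := T_40 (nat_lit 159) (nat_lit 142) (nat_lit 0) (nat_lit 9) (nat_lit 9) L102103 (by decide +kernel)
theorem L108622 : W_40 (nat_lit 2) (nat_lit 0x4000700012001f0000000000000000000000000000000) (nat_lit 0x0) (nat_lit 0x1c00000000000000000000000000) := D_40 (nat_lit 107) (nat_lit 108) (nat_lit 106) (nat_lit 0) (nat_lit 9) (nat_lit 7) (nat_lit 0) (nat_lit 8) (nat_lit 7) (by decide +kernel)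
theorem L108623 : W_40 (nat_lit 3) (nat_lit 0x4000700012001e0000000000000000000000000000000) (nat_lit 0x0) (nat_lit 0x100010001c00000000000000000000000000) := T_40 (nat_lit 124) (nat_lit 140) (nat_lit 1) (nat_lit 8) (nat_lit 7) L108622 (by decide +kernel)
theorem L108624 : W_40 (nat_lit 4) (nat_lit 0x4000700012001c0000000000000000000000000000000) (nat_lit 0x0) (nat_lit 0x500030001c00000000000000000000000000) := T_40 (nat_lit 125) (nat_lit 142) (nat_lit 1) (nat_lit 9) (nat_lit 7) L108623 (by decide +kernel)
theorem L108625 : W_40 (nat_lit 5) (nat_lit 0x4000700012000c0000000000000000000000000000000) (nat_lit 0x0) (nat_lit 0x500130009c00000000000000000000000000) := T_40 (nat_lit 128) (nat_lit 111) (nat_lit 6) (nat_lit 8) (nat_lit 10) L108624 (by decide +kernel)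
theorem L108626 : W_40 (nat_lit 6) (nat_lit 0x400070001200080000000000000000000000000000000) (nat_lit 0x0) (nat_lit 0x50017000bc00000000000000000000000000) := T_40 (nat_lit 126) (nat_lit 109) (nat_lit 4) (nat_lit 8) (nat_lit 10) L108625 (by decide +kernel)
theorem L108627 : W_40 (nat_lit 2) (nat_lit 0x400074001200080000000000000000000000000000000) (nat_lit 0x0) (nat_lit 0x800008000100000000000000000000000000000000000) := D_40 (nat_lit 159) (nat_lit 140) (nat_lit 179) (nat_lit 0) (nat_lit 8) (nat_lit 9) (nat_lit 3) (nat_lit 5) (nat_lit 9) (by decide +kernel)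
theorem L108628 : W_40 (nat_lit 3) (nat_lit 0x400074001200180000000000000000000000000000000) (nat_lit 0x0) (nat_lit 0x1c0008000100000000000000000000000000000000000) := T_40 (nat_lit 159) (nat_lit 140) (nat_lit 0) (nat_lit 8) (nat_lit 9) L108001 (by decide +kernel)
theorem L108629 : W_40 (nat_lit 4) (nat_lit 0x400074001200080000000000000000000000000000000) (nat_lit 0x0) (nat_lit 0x1c0008000100100008000000000000000000000000000) := T_40 (nat_lit 128) (nat_lit 111) (nat_lit 6) (nat_lit 8) (nat_lit 10) L108628 (by decide +kernel)
theorem L108630 : W_40 (nat_lit 2) (nat_lit 0x480074001200190001800000000000000000000000000) (nat_lit 0x0) (nat_lit 0x800040002000000000000000000000000000000000000000) := D_40 (nat_lit 174) (nat_lit 157) (nat_lit 191) (nat_lit 5) (nat_lit 5) (nat_lit 6) (nat_lit 5) (nat_lit 5) (nat_lit 7) (by decide +kernel)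
theorem L108631 : W_40 (nat_lit 3) (nat_lit 0x400074001200190001800000000000000000000000000) (nat_lit 0x0) (nat_lit 0x8000c0002000000020000000000000000000000000000000) := T_40 (nat_lit 175) (nat_lit 125) (nat_lit 6) (nat_lit 5) (nat_lit 10) L108630 (by decide +kernel)
theorem L108632 : W_40 (nat_lit 4) (nat_lit 0x400074001200190000800000000000000000000000000) (nat_lit 0x0) (nat_lit 0x8000c0002000000020001000080000000000000000000000) := T_40 (nat_lit 108) (nat_lit 91) (nat_lit 6) (nat_lit 5) (nat_lit 9) L108631 (by decide +kernel)
theorem L108633 : W_40 (nat_lit 5) (nat_lit 0x400074001200090000800000000000000000000000000) (nat_lit 0x0) (nat_lit 0x8000c0002000000120009000080000000000000000000000) := T_40 (nat_lit 128) (nat_lit 111) (nat_lit 6) (nat_lit 8) (nat_lit 10) L108632 (by decide +kernel)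
theorem L108634 : W_40 (nat_lit 2) (nat_lit 0x480074001200090000c00000000000000000000000000) (nat_lit 0x0) (nat_lit 0x800040002000000000000000000000000000000000000000) := D_40 (nat_lit 174) (nat_lit 191) (nat_lit 157) (nat_lit 5) (nat_lit 5) (nat_lit 7) (nat_lit 5) (nat_lit 5) (nat_lit 6) (by decide +kernel)
theorem L108635 : W_40 (nat_lit 3) (nat_lit 0x400074001200090000c00000000000000000000000000) (nat_lit 0x0) (nat_lit 0x8000c0002000000008000000000000000000000000000000) := T_40 (nat_lit 175) (nat_lit 123) (nat_lit 4) (nat_lit 5) (nat_lit 10) L108634 (by decide +kernel)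
theorem L108636 : W_40 (nat_lit 4) (nat_lit 0x400074001200090000800000000000000000000000000) (nat_lit 0x0) (nat_lit 0x8000c0002000000008000400020000000000000000000000) := T_40 (nat_lit 106) (nat_lit 89) (nat_lit 4) (nat_lit 5) (nat_lit 9) L108635 (by decide +kernel)
theorem L108637 : W_40 (nat_lit 2) (nat_lit 0x400076001200190001800020000000000000000000000) (nat_lit 0x0) (nat_lit 0x100000000000040001000000000000000000) := D_40 (nat_lit 90) (nat_lit 72) (nat_lit 140) (nat_lit 4) (nat_lit 5) (nat_lit 8) (nat_lit 5) (nat_lit 5) (nat_lit 5) (by decide +kernel)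
theorem L108638 : W_40 (nat_lit 3) (nat_lit 0x400074001200190001800020000000000000000000000) (nat_lit 0x0) (nat_lit 0x40002000100000000000040001000000000000000000) := T_40 (nat_lit 157) (nat_lit 174) (nat_lit 5) (nat_lit 5) (nat_lit 6) L108637 (by decide +kernel)
theorem L108639 : W_40 (nat_lit 4) (nat_lit 0x400074001200190001800000000000000000000000000) (nat_lit 0x0) (nat_lit 0x40002000100000000400060001000000000000000000) := T_40 (nat_lit 89) (nat_lit 106) (nat_lit 4) (nat_lit 5) (nat_lit 9) L108638 (by decide +kernel)
theorem L108640 : W_40 (nat_lit 5) (nat_lit 0x400074001200090001800000000000000000000000000) (nat_lit 0x0) (nat_lit 0x40002000100100008400060001000000000000000000) := T_40 (nat_lit 128) (nat_lit 111) (nat_lit 6) (nat_lit 8) (nat_lit 10) L108639 (by decide +kernel)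
theorem L108641 : W_40 (nat_lit 6) (nat_lit 0x400074001200090000800000000000000000000000000) (nat_lit 0x0) (nat_lit 0x400020001001000094000e0001000000000000000000) := T_40 (nat_lit 108) (nat_lit 91) (nat_lit 6) (nat_lit 5) (nat_lit 9) L108640 (by decide +kernel)
theorem L108642 : W_40 (nat_lit 2) (nat_lit 0x480074001200090000c00000000000000000000000000) (nat_lit 0x0) (nat_lit 0x20001000080000000000000000000000) := D_40 (nat_lit 108) (nat_lit 91) (nat_lit 125) (nat_lit 6) (nat_lit 5) (nat_lit 9) (nat_lit 6) (nat_lit 5) (nat_lit 10) (by decide +kernel)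
theorem L108643 : W_40 (nat_lit 3) (nat_lit 0x400074001200090000c00000000000000000000000000) (nat_lit 0x0) (nat_lit 0x80000000000028001000080000000000000000000000) := T_40 (nat_lit 175) (nat_lit 123) (nat_lit 4) (nat_lit 5) (nat_lit 10) L108642 (by decide +kernel)
theorem L108644 : W_40 (nat_lit 4) (nat_lit 0x400074001200090000800000000000000000000000000) (nat_lit 0x0) (nat_lit 0x800000000000280014000a0000000000000000000000) := T_40 (nat_lit 106) (nat_lit 89) (nat_lit 4) (nat_lit 5) (nat_lit 9) L108643 (by decide +kernel)
theorem L108645 : W_40 (nat_lit 7) (nat_lit 0x400074001200090000000000000000000000000000000) (nat_lit 0x0) (nat_lit 0x8000c0002000100128009c000e0001000000000000000000) := Q_40 (nat_lit 107) (C_40 L108633 (C_40 L108636 (C_40 L108641 (C_40 L108644 N_40)))) (by decide +kernel)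
theorem L108646 : W_40 (nat_lit 2) (nat_lit 0x4000740012000f0000800000000000000000000000000) (nat_lit 0x0) (nat_lit 0x80000000000000001000080000000000000000000000) := D_40 (nat_lit 108) (nat_lit 175) (nat_lit 91) (nat_lit 6) (nat_lit 5) (nat_lit 10) (nat_lit 6) (nat_lit 5) (nat_lit 9) (by decide +kernel)
theorem L108647 : W_40 (nat_lit 3) (nat_lit 0x4000740012000f0000000000000000000000000000000) (nat_lit 0x0) (nat_lit 0x80000000000000001c00080000000000000000000000) := T_40 (nat_lit 107) (nat_lit 106) (nat_lit 0) (nat_lit 8) (nat_lit 7) L108646 (by decide +kernel)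
theorem L108648 : W_40 (nat_lit 4) (nat_lit 0x4000740012000d0000000000000000000000000000000) (nat_lit 0x0) (nat_lit 0x80000000100020001c00080000000000000000000000) := T_40 (nat_lit 125) (nat_lit 140) (nat_lit 1) (nat_lit 8) (nat_lit 7) L108647 (by decide +kernel)
theorem L108649 : W_40 (nat_lit 5) (nat_lit 0x400074001200090000000000000000000000000000000) (nat_lit 0x0) (nat_lit 0x80000000100060003c00080000000000000000000000) := T_40 (nat_lit 126) (nat_lit 109) (nat_lit 4) (nat_lit 8) (nat_lit 10) L108648 (by decide +kernel)
theorem L108650 : W_40 (nat_lit 2) (nat_lit 0x4000740012001f0000000000000000000000000000000) (nat_lit 0x0) (nat_lit 0x1c00000000000000000000000000) := D_40 (nat_lit 107) (nat_lit 108) (nat_lit 106) (nat_lit 0) (nat_lit 9) (nat_lit 7) (nat_lit 0) (nat_lit 8) (nat_lit 7) (by decide +kernel)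
theorem L108651 : W_40 (nat_lit 3) (nat_lit 0x4000740012000f0000000000000000000000000000000) (nat_lit 0x0) (nat_lit 0x100009c00000000000000000000000000) := T_40 (nat_lit 128) (nat_lit 111) (nat_lit 6) (nat_lit 8) (nat_lit 10) L108650 (by decide +kernel)
theorem L108652 : W_40 (nat_lit 4) (nat_lit 0x4000740012000d0000000000000000000000000000000) (nat_lit 0x0) (nat_lit 0x100120009c00000000000000000000000000) := T_40 (nat_lit 125) (nat_lit 140) (nat_lit 1) (nat_lit 8) (nat_lit 7) L108651 (by decide +kernel)
theorem L108653 : W_40 (nat_lit 5) (nat_lit 0x400074001200090000000000000000000000000000000) (nat_lit 0x0) (nat_lit 0x10016000bc00000000000000000000000000) := T_40 (nat_lit 126) (nat_lit 109) (nat_lit 4) (nat_lit 8) (nat_lit 10) L108652 (by decide +kernel)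
theorem L108654 : W_40 (nat_lit 2) (nat_lit 0x4000740012001d8000c000c0000000000000000000000) (nat_lit 0x0) (nat_lit 0x2000100000000000000002000000000000000000) := D_40 (nat_lit 140) (nat_lit 157) (nat_lit 73) (nat_lit 6) (nat_lit 4) (nat_lit 9) (nat_lit 5) (nat_lit 5) (nat_lit 4) (by decide +kernel)
theorem L108655 : W_40 (nat_lit 3) (nat_lit 0x4000740012001d8000c00080000000000000000000000) (nat_lit 0x0) (nat_lit 0x2000100000000000040006000000000000000000) := T_40 (nat_lit 90) (nat_lit 74) (nat_lit 6) (nat_lit 5) (nat_lit 8) L108654 (by decide +kernel)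
theorem L108656 : W_40 (nat_lit 4) (nat_lit 0x4000740012001d8000c00000000000000000000000000) (nat_lit 0x0) (nat_lit 0x20001000000010000c0006000000000000000000) := T_40 (nat_lit 91) (nat_lit 108) (nat_lit 6) (nat_lit 5) (nat_lit 9) L108655 (by decide +kernel)
theorem L108657 : W_40 (nat_lit 5) (nat_lit 0x4000740012000d8000c00000000000000000000000000) (nat_lit 0x0) (nat_lit 0x20001001000090000c0006000000000000000000) := T_40 (nat_lit 128) (nat_lit 111) (nat_lit 6) (nat_lit 8) (nat_lit 10) L108656 (by decide +kernel)
theorem L108658 : W_40 (nat_lit 6) (nat_lit 0x4000740012000d0000c00000000000000000000000000) (nat_lit 0x0) (nat_lit 0x800020001001080090000c0006000000000000000000) := T_40 (nat_lit 123) (nat_lit 175) (nat_lit 4) (nat_lit 5) (nat_lit 10) L108657 (by decide +kernel)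
theorem L108659 : W_40 (nat_lit 7) (nat_lit 0x4000740012000d0000800000000000000000000000000) (nat_lit 0x0) (nat_lit 0x800020001001080094000e0006000000000000000000) := T_40 (nat_lit 106) (nat_lit 89) (nat_lit 4) (nat_lit 5) (nat_lit 9) L108658 (by decide +kernel)
theorem L108660 : W_40 (nat_lit 8) (nat_lit 0x400074001200090000800000000000000000000000000) (nat_lit 0x0) (nat_lit 0x8000200010014800b4000e0006000000000000000000) := T_40 (nat_lit 126) (nat_lit 109) (nat_lit 4) (nat_lit 8) (nat_lit 10) L108659 (by decide +kernel)
theorem L108661 : W_40 (nat_lit 2) (nat_lit 0x4000740012001900008000c0000000000000000000000) (nat_lit 0x0) (nat_lit 0x40002000100000000000000000000000000000000000) := D_40 (nat_lit 157) (nat_lit 174) (nat_lit 140) (nat_lit 5) (nat_lit 5) (nat_lit 6) (nat_lit 5) (nat_lit 5) (nat_lit 5) (by decide +kernel)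
theorem L108662 : W_40 (nat_lit 3) (nat_lit 0x400074001200190000800080000000000000000000000) (nat_lit 0x0) (nat_lit 0x40002000100000000000040004000000000000000000) := T_40 (nat_lit 90) (nat_lit 74) (nat_lit 6) (nat_lit 5) (nat_lit 8) L108661 (by decide +kernel)
theorem L108663 : W_40 (nat_lit 4) (nat_lit 0x400074001200090000800080000000000000000000000) (nat_lit 0x0) (nat_lit 0x40002000100100008000040004000000000000000000) := T_40 (nat_lit 128) (nat_lit 111) (nat_lit 6) (nat_lit 8) (nat_lit 10) L108662 (by decide +kernel)
theorem L108664 : W_40 (nat_lit 5) (nat_lit 0x400074001200090000800000000000000000000000000) (nat_lit 0x0) (nat_lit 0x400020001001000090000c0004000000000000000000) := T_40 (nat_lit 91) (nat_lit 108) (nat_lit 6) (nat_lit 5) (nat_lit 9) L108663 (by decide +kernel)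
theorem L108665 : W_40 (nat_lit 2) (nat_lit 0x2800480074001200090000c00000000000000000000000000) (nat_lit 0x0) (nat_lit 0x50001000000000000000000000000000000000000000000000000) := D_40 (nat_lit 192) (nat_lit 208) (nat_lit 210) (nat_lit 5) (nat_lit 5) (nat_lit 8) (nat_lit 7) (nat_lit 5) (nat_lit 8) (by decide +kernel)
theorem L108666 : W_40 (nat_lit 3) (nat_lit 0x800480074001200090000c00000000000000000000000000) (nat_lit 0x0) (nat_lit 0x50003000100000000000000000000000000000000000000000000) := T_40 (nat_lit 193) (nat_lit 176) (nat_lit 7) (nat_lit 5) (nat_lit 7) L108665 (by decide +kernel)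
theorem L108667 : W_40 (nat_lit 4) (nat_lit 0x480074001200090000c00000000000000000000000000) (nat_lit 0x0) (nat_lit 0x50003800140000000000000000000000000000000000000000000) := T_40 (nat_lit 191) (nat_lit 174) (nat_lit 5) (nat_lit 5) (nat_lit 7) L108666 (by decide +kernel)
theorem L108668 : W_40 (nat_lit 5) (nat_lit 0x400074001200090000c00000000000000000000000000) (nat_lit 0x0) (nat_lit 0x500038001c0000000000008000000000000000000000000000000) := T_40 (nat_lit 175) (nat_lit 123) (nat_lit 4) (nat_lit 5) (nat_lit 10) L108667 (by decide +kernel)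
theorem L108669 : W_40 (nat_lit 6) (nat_lit 0x400074001200090000800000000000000000000000000) (nat_lit 0x0) (nat_lit 0x500038001c0000000000008000400020000000000000000000000) := T_40 (nat_lit 106) (nat_lit 89) (nat_lit 4) (nat_lit 5) (nat_lit 9) L108668 (by decide +kernel)
theorem L108670 : W_40 (nat_lit 9) (nat_lit 0x400074001200090000000000000000000000000000000) (nat_lit 0x0) (nat_lit 0x500038001c000200010014800bc000e0007000000000000000000) := Q_40 (nat_lit 107) (C_40 L108641 (C_40 L108636 (C_40 L108660 (C_40 L108664 (C_40 L108669 N_40))))) (by decide +kernel)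
theorem L108671 : W_40 (nat_lit 2) (nat_lit 0x4000740012001f0000400000000000000000000000000) (nat_lit 0x0) (nat_lit 0x80000000000008000200000000000000000000000000) := D_40 (nat_lit 123) (nat_lit 105) (nat_lit 175) (nat_lit 0) (nat_lit 7) (nat_lit 7) (nat_lit 4) (nat_lit 5) (nat_lit 10) (by decide +kernel)
theorem L108672 : W_40 (nat_lit 3) (nat_lit 0x4000740012001f0000000000000000000000000000000) (nat_lit 0x0) (nat_lit 0x80000000000008000e00000000000000000000000000) := T_40 (nat_lit 106) (nat_lit 107) (nat_lit 0) (nat_lit 8) (nat_lit 7) L108671 (by decide +kernel)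
theorem L108673 : W_40 (nat_lit 4) (nat_lit 0x4000740012001d0000000000000000000000000000000) (nat_lit 0x0) (nat_lit 0x80000000100028000e00000000000000000000000000) := T_40 (nat_lit 125) (nat_lit 140) (nat_lit 1) (nat_lit 8) (nat_lit 7) L108672 (by decide +kernel)
theorem L108674 : W_40 (nat_lit 5) (nat_lit 0x400074001200190000000000000000000000000000000) (nat_lit 0x0) (nat_lit 0x80000000100068002e00000000000000000000000000) := T_40 (nat_lit 126) (nat_lit 109) (nat_lit 4) (nat_lit 8) (nat_lit 10) L108673 (by decide +kernel)
theorem L108675 : W_40 (nat_lit 6) (nat_lit 0x400074001200090000000000000000000000000000000) (nat_lit 0x0) (nat_lit 0x8000000010016800ae00000000000000000000000000) := T_40 (nat_lit 128) (nat_lit 111) (nat_lit 6) (nat_lit 8) (nat_lit 10) L108674 (by decide +kernel)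
theorem L108676 : W_40 (nat_lit 2) (nat_lit 0x4000740012000d0001800000000000000000000000000) (nat_lit 0x0) (nat_lit 0x120008000000000000000000000000000) := D_40 (nat_lit 128) (nat_lit 125) (nat_lit 111) (nat_lit 0) (nat_lit 9) (nat_lit 7) (nat_lit 6) (nat_lit 8) (nat_lit 10) (by decide +kernel)
theorem L108677 : W_40 (nat_lit 3) (nat_lit 0x400074001200090001800000000000000000000000000) (nat_lit 0x0) (nat_lit 0x16000a000000000000000000000000000) := T_40 (nat_lit 126) (nat_lit 109) (nat_lit 4) (nat_lit 8) (nat_lit 10) L108676 (by decide +kernel)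
theorem L108678 : W_40 (nat_lit 4) (nat_lit 0x400074001200090000800000000000000000000000000) (nat_lit 0x0) (nat_lit 0x16000b000080000000000000000000000) := T_40 (nat_lit 108) (nat_lit 91) (nat_lit 6) (nat_lit 5) (nat_lit 9) L108677 (by decide +kernel)
theorem L108679 : W_40 (nat_lit 7) (nat_lit 0x400074001200090000000000000000000000000000000) (nat_lit 0x0) (nat_lit 0x500038001c000000000016800bc000a0000000000000000000000) := Q_40 (nat_lit 107) (C_40 L108669 (C_40 L108644 (C_40 L108678 N_40))) (by decide +kernel)
theorem L108680 : W_40 (nat_lit 2) (nat_lit 0x30004800740012001f8000000000000000000000000000000) (nat_lit 0x0) (nat_lit 0x10000800040000000000000000000000000000000000000000000) := D_40 (nat_lit 191) (nat_lit 208) (nat_lit 174) (nat_lit 5) (nat_lit 5) (nat_lit 8) (nat_lit 5) (nat_lit 5) (nat_lit 7) (by decide +kernel)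
theorem L108681 : W_40 (nat_lit 3) (nat_lit 0x20004800740012001f8000000000000000000000000000000) (nat_lit 0x0) (nat_lit 0x50001800040000000000000000000000000000000000000000000) := T_40 (nat_lit 192) (nat_lit 210) (nat_lit 7) (nat_lit 5) (nat_lit 8) L108680 (by decide +kernel)
theorem L108682 : W_40 (nat_lit 4) (nat_lit 0x20004800740012001f0000000000000000000000000000000) (nat_lit 0x0) (nat_lit 0x50001800040000000000008000400000000000000000000000000) := T_40 (nat_lit 123) (nat_lit 106) (nat_lit 4) (nat_lit 5) (nat_lit 10) L108681 (by decide +kernel)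
theorem L108683 : W_40 (nat_lit 5) (nat_lit 0x4800740012001f0000000000000000000000000000000) (nat_lit 0x0) (nat_lit 0x50003800140000000000008000400000000000000000000000000) := T_40 (nat_lit 193) (nat_lit 176) (nat_lit 7) (nat_lit 5) (nat_lit 7) L108682 (by decide +kernel)
theorem L108684 : W_40 (nat_lit 6) (nat_lit 0x4000740012001f0000000000000000000000000000000) (nat_lit 0x0) (nat_lit 0x500038001c0000000000008001400000000000000000000000000) := T_40 (nat_lit 175) (nat_lit 108) (nat_lit 6) (nat_lit 5) (nat_lit 10) L108683 (by decide +kernel)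
theorem L108685 : W_40 (nat_lit 7) (nat_lit 0x4000740012000f0000000000000000000000000000000) (nat_lit 0x0) (nat_lit 0x500038001c0000000000108009400000000000000000000000000) := T_40 (nat_lit 128) (nat_lit 111) (nat_lit 6) (nat_lit 8) (nat_lit 10) L108684 (by decide +kernel)
theorem L108686 : W_40 (nat_lit 8) (nat_lit 0x4000740012000d0000000000000000000000000000000) (nat_lit 0x0) (nat_lit 0x500038001c0000000100128009400000000000000000000000000) := T_40 (nat_lit 125) (nat_lit 140) (nat_lit 1) (nat_lit 8) (nat_lit 7) L108685 (by decide +kernel)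
theorem L108687 : W_40 (nat_lit 9) (nat_lit 0x400074001200090000000000000000000000000000000) (nat_lit 0x0) (nat_lit 0x500038001c000000010016800b400000000000000000000000000) := T_40 (nat_lit 126) (nat_lit 109) (nat_lit 4) (nat_lit 8) (nat_lit 10) L108686 (by decide +kernel)
theorem L108688 : W_40 (nat_lit 2) (nat_lit 0x4000740012001f0000000000000000000000000000000) (nat_lit 0x0) (nat_lit 0x80000000000000001800000000000000000000000000) := D_40 (nat_lit 108) (nat_lit 107) (nat_lit 175) (nat_lit 0) (nat_lit 9) (nat_lit 7) (nat_lit 6) (nat_lit 5) (nat_lit 10) (by decide +kernel)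
theorem L108689 : W_40 (nat_lit 3) (nat_lit 0x4000740012001d0000000000000000000000000000000) (nat_lit 0x0) (nat_lit 0x80000000100020001800000000000000000000000000) := T_40 (nat_lit 125) (nat_lit 140) (nat_lit 1) (nat_lit 8) (nat_lit 7) L108688 (by decide +kernel)
theorem L108690 : W_40 (nat_lit 4) (nat_lit 0x400074001200190000000000000000000000000000000) (nat_lit 0x0) (nat_lit 0x80000000100060003800000000000000000000000000) := T_40 (nat_lit 126) (nat_lit 109) (nat_lit 4) (nat_lit 8) (nat_lit 10) L108689 (by decide +kernel)
theorem L108691 : W_40 (nat_lit 5) (nat_lit 0x400074001200090000000000000000000000000000000) (nat_lit 0x0) (nat_lit 0x8000000010016000b800000000000000000000000000) := T_40 (nat_lit 128) (nat_lit 111) (nat_lit 6) (nat_lit 8) (nat_lit 10) L108690 (by decide +kernel)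
theorem L108692 : W_40 (nat_lit 10) (nat_lit 0x400074001200080000000000000000000000000000000) (nat_lit 0x0) (nat_lit 0x500038001c000200010017800be000e0007000000000000000000) := Q_40 (nat_lit 124) (C_40 L108645 (C_40 L108649 (C_40 L108653 (C_40 L108670 (C_40 L108675 (C_40 L108679 (C_40 L108687 (C_40 L108691 N_40)))))))) (by decide +kernel)
theorem L108693 : W_40 (nat_lit 3) (nat_lit 0x4000740012000c0000000000000000000000000000000) (nat_lit 0x0) (nat_lit 0x9c0008000000000000000000000000000000000000000) := T_40 (nat_lit 159) (nat_lit 179) (nat_lit 3) (nat_lit 5) (nat_lit 9) L108024 (by decide +kernel)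
theorem L108694 : W_40 (nat_lit 4) (nat_lit 0x400074001200080000000000000000000000000000000) (nat_lit 0x0) (nat_lit 0x9c0008000000040002000000000000000000000000000) := T_40 (nat_lit 126) (nat_lit 109) (nat_lit 4) (nat_lit 8) (nat_lit 10) L108693 (by decide +kernel)
theorem L108695 : W_40 (nat_lit 11) (nat_lit 0x400070001200080000000000000000000000000000000) (nat_lit 0x0) (nat_lit 0x500038009c000e00010017800be000e0007000000000000000000) := Q_40 (nat_lit 158) (C_40 L108627 (C_40 L108629 (C_40 L108692 (C_40 L108694 N_40)))) (by decide +kernel)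
theorem L108696 : W_40 (nat_lit 2) (nat_lit 0x480078001200180000000000000000000000000000000) (nat_lit 0x0) (nat_lit 0x840004000000000000000000000000000000000000000) := D_40 (nat_lit 158) (nat_lit 179) (nat_lit 174) (nat_lit 3) (nat_lit 5) (nat_lit 9) (nat_lit 1) (nat_lit 8) (nat_lit 9) (by decide +kernel)
theorem L108697 : W_40 (nat_lit 3) (nat_lit 0x400078001200180000000000000000000000000000000) (nat_lit 0x0) (nat_lit 0x9c0004000000000000000000000000000000000000000) := T_40 (nat_lit 175) (nat_lit 176) (nat_lit 1) (nat_lit 9) (nat_lit 9) L108696 (by decide +kernel)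
theorem L108698 : W_40 (nat_lit 4) (nat_lit 0x400070001200180000000000000000000000000000000) (nat_lit 0x0) (nat_lit 0x9c000c000400000000000000000000000000000000000) := T_40 (nat_lit 159) (nat_lit 142) (nat_lit 0) (nat_lit 9) (nat_lit 9) L108697 (by decide +kernel)
theorem L108699 : W_40 (nat_lit 5) (nat_lit 0x400070001200080000000000000000000000000000000) (nat_lit 0x0) (nat_lit 0x9c000c000400100008000000000000000000000000000) := T_40 (nat_lit 128) (nat_lit 111) (nat_lit 6) (nat_lit 8) (nat_lit 10) L108698 (by decide +kernel)
theorem L108700 : W_40 (nat_lit 12) (nat_lit 0x400070001000080000000000000000000000000000000) (nat_lit 0x0) (nat_lit 0x500038009c000e00070017800be000e0007000000000000000000) := Q_40 (nat_lit 141) (C_40 L108620 (C_40 L108621 (C_40 L108626 (C_40 L108695 (C_40 L108699 N_40))))) (by decide +kernel)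
theorem L108701 : W_40 (nat_lit 2) (nat_lit 0x4000700090007c0000000000000000000000000000000) (nat_lit 0x0) (nat_lit 0x70000000000000000000000000000) := D_40 (nat_lit 113) (nat_lit 112) (nat_lit 114) (nat_lit 2) (nat_lit 7) (nat_lit 7) (nat_lit 2) (nat_lit 8) (nat_lit 7) (by decide +kernel)
theorem L108702 : W_40 (nat_lit 3) (nat_lit 0x4000700090003c0000000000000000000000000000000) (nat_lit 0x0) (nat_lit 0x10000400070000000000000000000000000000) := T_40 (nat_lit 130) (nat_lit 148) (nat_lit 3) (nat_lit 8) (nat_lit 7) L108701 (by decide +kernel)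
theorem L108703 : W_40 (nat_lit 4) (nat_lit 0x4000700090001c0000000000000000000000000000000) (nat_lit 0x0) (nat_lit 0x14000600070000000000000000000000000000) := T_40 (nat_lit 129) (nat_lit 146) (nat_lit 3) (nat_lit 7) (nat_lit 7) L108702 (by decide +kernel)
theorem L108704 : W_40 (nat_lit 5) (nat_lit 0x400070009000180000000000000000000000000000000) (nat_lit 0x0) (nat_lit 0x14000640072000000000000000000000000000) := T_40 (nat_lit 126) (nat_lit 109) (nat_lit 4) (nat_lit 8) (nat_lit 10) L108703 (by decide +kernel)
theorem L108705 : W_40 (nat_lit 6) (nat_lit 0x400070009000080000000000000000000000000000000) (nat_lit 0x0) (nat_lit 0x1400074007a000000000000000000000000000) := T_40 (nat_lit 128) (nat_lit 111) (nat_lit 6) (nat_lit 8) (nat_lit 10) L108704 (by decide +kernel)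
theorem L108706 : W_40 (nat_lit 5) (nat_lit 0x400070009000080000000000000000000000000000000) (nat_lit 0x0) (nat_lit 0x3800388014000000000000000000000000000000000000) := T_40 (nat_lit 163) (nat_lit 146) (nat_lit 2) (nat_lit 7) (nat_lit 9) L107867 (by decide +kernel)
theorem L108707 : W_40 (nat_lit 2) (nat_lit 0x2400070009000080000000000000000000000000000000) (nat_lit 0x0) (nat_lit 0x1800080000000000000000000000000000000000000000) := D_40 (nat_lit 180) (nat_lit 179) (nat_lit 163) (nat_lit 0) (nat_lit 11) (nat_lit 10) (nat_lit 3) (nat_lit 7) (nat_lit 9) (by decide +kernel)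
theorem L108708 : W_40 (nat_lit 2) (nat_lit 0x24000f00090000c0000000000000000000000000000000) (nat_lit 0x0) (nat_lit 0x4000100010000000000000000000000000000000000000) := D_40 (nat_lit 164) (nat_lit 182) (nat_lit 148) (nat_lit 3) (nat_lit 8) (nat_lit 9) (nat_lit 2) (nat_lit 8) (nat_lit 9) (by decide +kernel)
theorem L108709 : W_40 (nat_lit 3) (nat_lit 0x24000700090000c0000000000000000000000000000000) (nat_lit 0x0) (nat_lit 0x5000180010000000000000000000000000000000000000) := T_40 (nat_lit 163) (nat_lit 180) (nat_lit 3) (nat_lit 7) (nat_lit 9) L108708 (by decide +kernel)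
theorem L108710 : W_40 (nat_lit 4) (nat_lit 0x2400070009000080000000000000000000000000000000) (nat_lit 0x0) (nat_lit 0x5000180010000040002000000000000000000000000000) := T_40 (nat_lit 126) (nat_lit 109) (nat_lit 4) (nat_lit 8) (nat_lit 10) L108709 (by decide +kernel)
theorem L108711 : W_40 (nat_lit 2) (nat_lit 0x2400170009000080000000000000000000000000000000) (nat_lit 0x0) (nat_lit 0x4000080010000000000000000000000000000000000000) := D_40 (nat_lit 163) (nat_lit 148) (nat_lit 182) (nat_lit 2) (nat_lit 8) (nat_lit 9) (nat_lit 3) (nat_lit 8) (nat_lit 9) (by decide +kernel)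
theorem L108712 : W_40 (nat_lit 2) (nat_lit 0x2400170009000580000000000000000000000000000000) (nat_lit 0x0) (nat_lit 0x10000200010000000000000000000000000000) := D_40 (nat_lit 129) (nat_lit 148) (nat_lit 112) (nat_lit 3) (nat_lit 8) (nat_lit 7) (nat_lit 4) (nat_lit 11) (nat_lit 10) (by decide +kernel)
theorem L108713 : W_40 (nat_lit 3) (nat_lit 0x2400170009000480000000000000000000000000000000) (nat_lit 0x0) (nat_lit 0x10000300018000000000000000000000000000) := T_40 (nat_lit 128) (nat_lit 111) (nat_lit 6) (nat_lit 8) (nat_lit 10) L108712 (by decide +kernel)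
theorem L108714 : W_40 (nat_lit 2) (nat_lit 0x64001700090004c0020000000000000000000000000000) (nat_lit 0x0) (nat_lit 0x200010000800000000000000000000000) := D_40 (nat_lit 112) (nat_lit 95) (nat_lit 129) (nat_lit 4) (nat_lit 11) (nat_lit 9) (nat_lit 4) (nat_lit 11) (nat_lit 10) (by decide +kernel)
theorem L108715 : W_40 (nat_lit 3) (nat_lit 0x64001700090004c0000000000000000000000000000000) (nat_lit 0x0) (nat_lit 0x200000000200030000800000000000000000000000) := T_40 (nat_lit 113) (nat_lit 165) (nat_lit 7) (nat_lit 11) (nat_lit 6) L108714 (by decide +kernel)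
theorem L108716 : W_40 (nat_lit 4) (nat_lit 0x6400170009000480000000000000000000000000000000) (nat_lit 0x0) (nat_lit 0x200000000240032000800000000000000000000000) := T_40 (nat_lit 126) (nat_lit 109) (nat_lit 4) (nat_lit 8) (nat_lit 10) L108715 (by decide +kernel)
theorem L108717 : W_40 (nat_lit 5) (nat_lit 0x2400170009000480000000000000000000000000000000) (nat_lit 0x0) (nat_lit 0x80004000200000000240032000800000000000000000000000) := T_40 (nat_lit 182) (nat_lit 199) (nat_lit 7) (nat_lit 11) (nat_lit 7) L108716 (by decide +kernel)
theorem L108718 : W_40 (nat_lit 2) (nat_lit 0x64001700090004c0020000000000000000000000000000) (nat_lit 0x0) (nat_lit 0x800040002000000000000000000000000) := D_40 (nat_lit 114) (nat_lit 131) (nat_lit 97) (nat_lit 6) (nat_lit 11) (nat_lit 10) (nat_lit 6) (nat_lit 11) (nat_lit 9) (by decide +kernel)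
theorem L108719 : W_40 (nat_lit 3) (nat_lit 0x64001700090004c0000000000000000000000000000000) (nat_lit 0x0) (nat_lit 0x200000000800060002000000000000000000000000) := T_40 (nat_lit 113) (nat_lit 165) (nat_lit 7) (nat_lit 11) (nat_lit 6) L108718 (by decide +kernel)
theorem L108720 : W_40 (nat_lit 4) (nat_lit 0x6400170009000480000000000000000000000000000000) (nat_lit 0x0) (nat_lit 0x200000000840062002000000000000000000000000) := T_40 (nat_lit 126) (nat_lit 109) (nat_lit 4) (nat_lit 8) (nat_lit 10) L108719 (by decide +kernel)
theorem L108721 : W_40 (nat_lit 5) (nat_lit 0x2400170009000480000000000000000000000000000000) (nat_lit 0x0) (nat_lit 0x80004000200000000840062002000000000000000000000000) := T_40 (nat_lit 182) (nat_lit 199) (nat_lit 7) (nat_lit 11) (nat_lit 7) L108720 (by decide +kernel)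
theorem L108722 : W_40 (nat_lit 6) (nat_lit 0x2400170009000080000000000000000000000000000000) (nat_lit 0x0) (nat_lit 0x80004000200010000f4007a002800000000000000000000000) := Q_40 (nat_lit 130) (C_40 L108713 (C_40 L108717 (C_40 L108721 N_40))) (by decide +kernel)
theorem L108723 : W_40 (nat_lit 2) (nat_lit 0x8000400024001700190003c0000000000000000000000000000000) (nat_lit 0x0) (nat_lit 0x20001000080000000000000000000000000000000000000000000000000) := D_40 (nat_lit 216) (nat_lit 233) (nat_lit 199) (nat_lit 7) (nat_lit 11) (nat_lit 9) (nat_lit 7) (nat_lit 11) (nat_lit 8) (by decide +kernel)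
theorem L108724 : W_40 (nat_lit 3) (nat_lit 0x400024001700190003c0000000000000000000000000000000) (nat_lit 0x0) (nat_lit 0x20001800080000000200000000000000000000000000000000000000000) := T_40 (nat_lit 215) (nat_lit 165) (nat_lit 6) (nat_lit 11) (nat_lit 12) L108723 (by decide +kernel)
theorem L108725 : W_40 (nat_lit 4) (nat_lit 0x24001700190003c0000000000000000000000000000000) (nat_lit 0x0) (nat_lit 0x200018000c0000000200000000800000000000000000000000000000000) := T_40 (nat_lit 198) (nat_lit 131) (nat_lit 6) (nat_lit 11) (nat_lit 11) L108724 (by decide +kernel)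
theorem L108726 : W_40 (nat_lit 5) (nat_lit 0x24001700190001c0000000000000000000000000000000) (nat_lit 0x0) (nat_lit 0x200018000c0000000200000000e00000000000000000000000000000000) := T_40 (nat_lit 129) (nat_lit 130) (nat_lit 3) (nat_lit 8) (nat_lit 7) L108725 (by decide +kernel)
theorem L108727 : W_40 (nat_lit 6) (nat_lit 0x24001700190000c0000000000000000000000000000000) (nat_lit 0x0) (nat_lit 0x200018000c0000000200000000f00008000000000000000000000000000) := T_40 (nat_lit 128) (nat_lit 111) (nat_lit 6) (nat_lit 8) (nat_lit 10) L108726 (by decide +kernel)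
theorem L108728 : W_40 (nat_lit 7) (nat_lit 0x24001700090000c0000000000000000000000000000000) (nat_lit 0x0) (nat_lit 0x200018000c0000000280010000f00008000000000000000000000000000) := T_40 (nat_lit 148) (nat_lit 163) (nat_lit 2) (nat_lit 8) (nat_lit 9) L108727 (by decide +kernel)
theorem L108729 : W_40 (nat_lit 8) (nat_lit 0x2400170009000080000000000000000000000000000000) (nat_lit 0x0) (nat_lit 0x200018000c0000000280010000f4000a000000000000000000000000000) := T_40 (nat_lit 126) (nat_lit 109) (nat_lit 4) (nat_lit 8) (nat_lit 10) L108728 (by decide +kernel)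
theorem L108730 : W_40 (nat_lit 2) (nat_lit 0x6400170009000780000000000000000000000000000000) (nat_lit 0x0) (nat_lit 0x200000000000060000000000000000000000000000) := D_40 (nat_lit 113) (nat_lit 114) (nat_lit 165) (nat_lit 2) (nat_lit 8) (nat_lit 7) (nat_lit 7) (nat_lit 11) (nat_lit 6) (by decide +kernel)
theorem L108731 : W_40 (nat_lit 3) (nat_lit 0x6400170009000580000000000000000000000000000000) (nat_lit 0x0) (nat_lit 0x200000000200070000000000000000000000000000) := T_40 (nat_lit 129) (nat_lit 112) (nat_lit 4) (nat_lit 11) (nat_lit 10) L108730 (by decide +kernel)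
theorem L108732 : W_40 (nat_lit 4) (nat_lit 0x6400170009000180000000000000000000000000000000) (nat_lit 0x0) (nat_lit 0x80000000200000000600070000000000000000000000000000) := T_40 (nat_lit 130) (nat_lit 199) (nat_lit 7) (nat_lit 11) (nat_lit 7) L108731 (by decide +kernel)
theorem L108733 : W_40 (nat_lit 5) (nat_lit 0x6400170009000080000000000000000000000000000000) (nat_lit 0x0) (nat_lit 0x80000000200000000700078000000000000000000000000000) := T_40 (nat_lit 128) (nat_lit 111) (nat_lit 6) (nat_lit 8) (nat_lit 10) L108732 (by decide +kernel)
theorem L108734 : W_40 (nat_lit 6) (nat_lit 0x2400170009000080000000000000000000000000000000) (nat_lit 0x0) (nat_lit 0x80004000280000000700078000000000000000000000000000) := T_40 (nat_lit 182) (nat_lit 163) (nat_lit 3) (nat_lit 8) (nat_lit 9) L108733 (by decide +kernel)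
theorem L108735 : W_40 (nat_lit 9) (nat_lit 0x2400070009000080000000000000000000000000000000) (nat_lit 0x0) (nat_lit 0x200018000c0004000380010000f4007a002800000000000000000000000) := Q_40 (nat_lit 164) (C_40 L108711 (C_40 L108722 (C_40 L108729 (C_40 L108734 N_40)))) (by decide +kernel)
theorem L108736 : W_40 (nat_lit 2) (nat_lit 0x3400070009000780000000000000000000000000000000) (nat_lit 0x0) (nat_lit 0x20000000100000000000010000000000000000000000000000) := D_40 (nat_lit 164) (nat_lit 197) (nat_lit 112) (nat_lit 5) (nat_lit 11) (nat_lit 7) (nat_lit 4) (nat_lit 11) (nat_lit 10) (by decide +kernel)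
theorem L108737 : W_40 (nat_lit 3) (nat_lit 0x3400070009000580000000000000000000000000000000) (nat_lit 0x0) (nat_lit 0x20000000100010000200010000000000000000000000000000) := T_40 (nat_lit 129) (nat_lit 148) (nat_lit 3) (nat_lit 8) (nat_lit 7) L108736 (by decide +kernel)
theorem L108738 : W_40 (nat_lit 4) (nat_lit 0x3400070009000480000000000000000000000000000000) (nat_lit 0x0) (nat_lit 0x20000000100010000300018000000000000000000000000000) := T_40 (nat_lit 128) (nat_lit 111) (nat_lit 6) (nat_lit 8) (nat_lit 10) L108737 (by decide +kernel)
theorem L108739 : W_40 (nat_lit 5) (nat_lit 0x2400070009000480000000000000000000000000000000) (nat_lit 0x0) (nat_lit 0x20001800100010000300018000000000000000000000000000) := T_40 (nat_lit 180) (nat_lit 179) (nat_lit 0) (nat_lit 11) (nat_lit 10) L108738 (by decide +kernel)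
theorem L108740 : W_40 (nat_lit 2) (nat_lit 0x40003400170009000ec0000000000000000000000000000000) (nat_lit 0x0) (nat_lit 0x1000080004000000000000000000000000000000000000000000000) := D_40 (nat_lit 199) (nat_lit 216) (nat_lit 182) (nat_lit 7) (nat_lit 11) (nat_lit 8) (nat_lit 7) (nat_lit 11) (nat_lit 7) (by decide +kernel)
theorem L108741 : W_40 (nat_lit 3) (nat_lit 0x3400170009000ec0000000000000000000000000000000) (nat_lit 0x0) (nat_lit 0x10000c0004000000010000000000000000000000000000000000000) := T_40 (nat_lit 198) (nat_lit 148) (nat_lit 6) (nat_lit 11) (nat_lit 11) L108740 (by decide +kernel)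
theorem L108742 : W_40 (nat_lit 4) (nat_lit 0x34001700090006c0000000000000000000000000000000) (nat_lit 0x0) (nat_lit 0x10000c0004000000010000800040000000000000000000000000000) := T_40 (nat_lit 131) (nat_lit 114) (nat_lit 6) (nat_lit 11) (nat_lit 10) L108741 (by decide +kernel)
theorem L108743 : W_40 (nat_lit 5) (nat_lit 0x34001700090004c0000000000000000000000000000000) (nat_lit 0x0) (nat_lit 0x10000c0004000000010000a00050000000000000000000000000000) := T_40 (nat_lit 129) (nat_lit 112) (nat_lit 4) (nat_lit 11) (nat_lit 10) L108742 (by decide +kernel)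
theorem L108744 : W_40 (nat_lit 6) (nat_lit 0x34000700090004c0000000000000000000000000000000) (nat_lit 0x0) (nat_lit 0x10000e0004000100010000a00050000000000000000000000000000) := T_40 (nat_lit 164) (nat_lit 197) (nat_lit 5) (nat_lit 11) (nat_lit 7) L108743 (by decide +kernel)
theorem L108745 : W_40 (nat_lit 7) (nat_lit 0x3400070009000480000000000000000000000000000000) (nat_lit 0x0) (nat_lit 0x10000e0004000100010000a40052000000000000000000000000000) := T_40 (nat_lit 126) (nat_lit 109) (nat_lit 4) (nat_lit 8) (nat_lit 10) L108744 (by decide +kernel)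
theorem L108746 : W_40 (nat_lit 8) (nat_lit 0x2400070009000480000000000000000000000000000000) (nat_lit 0x0) (nat_lit 0x10000e0005800100010000a40052000000000000000000000000000) := T_40 (nat_lit 180) (nat_lit 179) (nat_lit 0) (nat_lit 11) (nat_lit 10) L108745 (by decide +kernel)
theorem L108747 : W_40 (nat_lit 2) (nat_lit 0x24000700090007c0000000000000000000000000000000) (nat_lit 0x0) (nat_lit 0x100000000000030000000000000000000000000000) := D_40 (nat_lit 112) (nat_lit 113) (nat_lit 164) (nat_lit 2) (nat_lit 7) (nat_lit 7) (nat_lit 4) (nat_lit 11) (nat_lit 10) (by decide +kernel)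
theorem L108748 : W_40 (nat_lit 3) (nat_lit 0x2400070009000780000000000000000000000000000000) (nat_lit 0x0) (nat_lit 0x100000000040032000000000000000000000000000) := T_40 (nat_lit 126) (nat_lit 109) (nat_lit 4) (nat_lit 8) (nat_lit 10) L108747 (by decide +kernel)
theorem L108749 : W_40 (nat_lit 4) (nat_lit 0x2400070009000580000000000000000000000000000000) (nat_lit 0x0) (nat_lit 0x100010000240032000000000000000000000000000) := T_40 (nat_lit 129) (nat_lit 148) (nat_lit 3) (nat_lit 8) (nat_lit 7) L108748 (by decide +kernel)
theorem L108750 : W_40 (nat_lit 5) (nat_lit 0x2400070009000480000000000000000000000000000000) (nat_lit 0x0) (nat_lit 0x10001000034003a000000000000000000000000000) := T_40 (nat_lit 128) (nat_lit 111) (nat_lit 6) (nat_lit 8) (nat_lit 10) L108749 (by decide +kernel)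
theorem L108751 : W_40 (nat_lit 2) (nat_lit 0x34000700090007c0000000000000000000000000000000) (nat_lit 0x0) (nat_lit 0x70000000000000000000000000000) := D_40 (nat_lit 113) (nat_lit 112) (nat_lit 114) (nat_lit 2) (nat_lit 7) (nat_lit 7) (nat_lit 2) (nat_lit 8) (nat_lit 7) (by decide +kernel)
theorem L108752 : W_40 (nat_lit 3) (nat_lit 0x34000700090005c0000000000000000000000000000000) (nat_lit 0x0) (nat_lit 0x10000200070000000000000000000000000000) := T_40 (nat_lit 129) (nat_lit 148) (nat_lit 3) (nat_lit 8) (nat_lit 7) L108751 (by decide +kernel)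
theorem L108753 : W_40 (nat_lit 4) (nat_lit 0x34000700090004c0000000000000000000000000000000) (nat_lit 0x0) (nat_lit 0x10000300078000000000000000000000000000) := T_40 (nat_lit 128) (nat_lit 111) (nat_lit 6) (nat_lit 8) (nat_lit 10) L108752 (by decide +kernel)
theorem L108754 : W_40 (nat_lit 5) (nat_lit 0x24000700090004c0000000000000000000000000000000) (nat_lit 0x0) (nat_lit 0x1800000010000300078000000000000000000000000000) := T_40 (nat_lit 180) (nat_lit 179) (nat_lit 0) (nat_lit 11) (nat_lit 10) L108753 (by decide +kernel)
theorem L108755 : W_40 (nat_lit 6) (nat_lit 0x2400070009000480000000000000000000000000000000) (nat_lit 0x0) (nat_lit 0x180000001000034007a000000000000000000000000000) := T_40 (nat_lit 126) (nat_lit 109) (nat_lit 4) (nat_lit 8) (nat_lit 10) L108754 (by decide +kernel)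
theorem L108756 : W_40 (nat_lit 2) (nat_lit 0x7400170019000dc0020000800000000000000000000000) (nat_lit 0x0) (nat_lit 0x10000c0000000000000000000) := D_40 (nat_lit 96) (nat_lit 79) (nat_lit 78) (nat_lit 7) (nat_lit 11) (nat_lit 4) (nat_lit 4) (nat_lit 11) (nat_lit 8) (by decide +kernel)
theorem L108757 : W_40 (nat_lit 3) (nat_lit 0x7400170019000dc0020000000000000000000000000000) (nat_lit 0x0) (nat_lit 0x100018000c0000000000000000000) := T_40 (nat_lit 95) (nat_lit 112) (nat_lit 4) (nat_lit 11) (nat_lit 9) L108756 (by decide +kernel)
theorem L108758 : W_40 (nat_lit 4) (nat_lit 0x7400170019000dc0000000000000000000000000000000) (nat_lit 0x0) (nat_lit 0x2000000000000300018000c0000000000000000000) := T_40 (nat_lit 113) (nat_lit 165) (nat_lit 7) (nat_lit 11) (nat_lit 6) L108757 (by decide +kernel)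
theorem L108759 : W_40 (nat_lit 5) (nat_lit 0x7400170009000dc0000000000000000000000000000000) (nat_lit 0x0) (nat_lit 0x400000002000100000000300018000c0000000000000000000) := T_40 (nat_lit 148) (nat_lit 198) (nat_lit 6) (nat_lit 11) (nat_lit 11) L108758 (by decide +kernel)
theorem L108760 : W_40 (nat_lit 6) (nat_lit 0x74001700090005c0000000000000000000000000000000) (nat_lit 0x0) (nat_lit 0x400000002000100008000700018000c0000000000000000000) := T_40 (nat_lit 131) (nat_lit 114) (nat_lit 6) (nat_lit 11) (nat_lit 10) L108759 (by decide +kernel)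
theorem L108761 : W_40 (nat_lit 7) (nat_lit 0x34001700090005c0000000000000000000000000000000) (nat_lit 0x0) (nat_lit 0xc00040002000100008000700018000c0000000000000000000) := T_40 (nat_lit 182) (nat_lit 199) (nat_lit 7) (nat_lit 11) (nat_lit 7) L108760 (by decide +kernel)
theorem L108762 : W_40 (nat_lit 8) (nat_lit 0x34000700090005c0000000000000000000000000000000) (nat_lit 0x0) (nat_lit 0xe00040003000100008000700018000c0000000000000000000) := T_40 (nat_lit 164) (nat_lit 197) (nat_lit 5) (nat_lit 11) (nat_lit 7) L108761 (by decide +kernel)
theorem L108763 : W_40 (nat_lit 9) (nat_lit 0x24000700090005c0000000000000000000000000000000) (nat_lit 0x0) (nat_lit 0xe00058003000100008000700018000c0000000000000000000) := T_40 (nat_lit 180) (nat_lit 179) (nat_lit 0) (nat_lit 11) (nat_lit 10) L108762 (by decide +kernel)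
theorem L108764 : W_40 (nat_lit 10) (nat_lit 0x2400070009000580000000000000000000000000000000) (nat_lit 0x0) (nat_lit 0xe00058003000100008400720018000c0000000000000000000) := T_40 (nat_lit 126) (nat_lit 109) (nat_lit 4) (nat_lit 8) (nat_lit 10) L108763 (by decide +kernel)
theorem L108765 : W_40 (nat_lit 11) (nat_lit 0x2400070009000480000000000000000000000000000000) (nat_lit 0x0) (nat_lit 0xe000580030001000094007a0018000c0000000000000000000) := T_40 (nat_lit 128) (nat_lit 111) (nat_lit 6) (nat_lit 8) (nat_lit 10) L108764 (by decide +kernel)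
theorem L108766 : W_40 (nat_lit 2) (nat_lit 0x7400170009000dc0010000000000000000000000000000) (nat_lit 0x0) (nat_lit 0x200000000000020000800000000000000000000000) := D_40 (nat_lit 113) (nat_lit 165) (nat_lit 95) (nat_lit 7) (nat_lit 11) (nat_lit 6) (nat_lit 4) (nat_lit 11) (nat_lit 9) (by decide +kernel)
theorem L108767 : W_40 (nat_lit 3) (nat_lit 0x7400170009000dc0000000000000000000000000000000) (nat_lit 0x0) (nat_lit 0x200000000200030000800000000000000000000000) := T_40 (nat_lit 112) (nat_lit 129) (nat_lit 4) (nat_lit 11) (nat_lit 10) L108766 (by decide +kernel)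
theorem L108768 : W_40 (nat_lit 4) (nat_lit 0x3400170009000dc0000000000000000000000000000000) (nat_lit 0x0) (nat_lit 0x80004000200000000200030000800000000000000000000000) := T_40 (nat_lit 182) (nat_lit 199) (nat_lit 7) (nat_lit 11) (nat_lit 7) L108767 (by decide +kernel)
theorem L108769 : W_40 (nat_lit 5) (nat_lit 0x34001700090005c0000000000000000000000000000000) (nat_lit 0x0) (nat_lit 0x80004000200000000a00070000800000000000000000000000) := T_40 (nat_lit 131) (nat_lit 114) (nat_lit 6) (nat_lit 11) (nat_lit 10) L108768 (by decide +kernel)
theorem L108770 : W_40 (nat_lit 6) (nat_lit 0x3400170009000580000000000000000000000000000000) (nat_lit 0x0) (nat_lit 0x80004000200000000a40072000800000000000000000000000) := T_40 (nat_lit 126) (nat_lit 109) (nat_lit 4) (nat_lit 8) (nat_lit 10) L108769 (by decide +kernel)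
theorem L108771 : W_40 (nat_lit 7) (nat_lit 0x3400070009000580000000000000000000000000000000) (nat_lit 0x0) (nat_lit 0xa0004000300000000a40072000800000000000000000000000) := T_40 (nat_lit 164) (nat_lit 197) (nat_lit 5) (nat_lit 11) (nat_lit 7) L108770 (by decide +kernel)
theorem L108772 : W_40 (nat_lit 8) (nat_lit 0x3400070009000480000000000000000000000000000000) (nat_lit 0x0) (nat_lit 0xa0004000300000000b4007a000800000000000000000000000) := T_40 (nat_lit 128) (nat_lit 111) (nat_lit 6) (nat_lit 8) (nat_lit 10) L108771 (by decide +kernel)
theorem L108773 : W_40 (nat_lit 9) (nat_lit 0x2400070009000480000000000000000000000000000000) (nat_lit 0x0) (nat_lit 0xa0005800300000000b4007a000800000000000000000000000) := T_40 (nat_lit 180) (nat_lit 179) (nat_lit 0) (nat_lit 11) (nat_lit 10) L108772 (by decide +kernel)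
theorem L108774 : W_40 (nat_lit 2) (nat_lit 0x34001700090007c0020000000000000000000000000000) (nat_lit 0x0) (nat_lit 0x80004000200000000000000000000000000000000000000000) := D_40 (nat_lit 182) (nat_lit 199) (nat_lit 165) (nat_lit 7) (nat_lit 11) (nat_lit 7) (nat_lit 7) (nat_lit 11) (nat_lit 6) (by decide +kernel)
theorem L108775 : W_40 (nat_lit 3) (nat_lit 0x34000700090007c0020000000000000000000000000000) (nat_lit 0x0) (nat_lit 0xa0004000300000000000000000000000000000000000000000) := T_40 (nat_lit 164) (nat_lit 197) (nat_lit 5) (nat_lit 11) (nat_lit 7) L108774 (by decide +kernel)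
theorem L108776 : W_40 (nat_lit 4) (nat_lit 0x34000700090007c0000000000000000000000000000000) (nat_lit 0x0) (nat_lit 0xa0004000300000000000060000000000000000000000000000) := T_40 (nat_lit 113) (nat_lit 114) (nat_lit 2) (nat_lit 8) (nat_lit 7) L108775 (by decide +kernel)
theorem L108777 : W_40 (nat_lit 5) (nat_lit 0x24000700090007c0000000000000000000000000000000) (nat_lit 0x0) (nat_lit 0xa0005800300000000000060000000000000000000000000000) := T_40 (nat_lit 180) (nat_lit 179) (nat_lit 0) (nat_lit 11) (nat_lit 10) L108776 (by decide +kernel)
theorem L108778 : W_40 (nat_lit 6) (nat_lit 0x24000700090005c0000000000000000000000000000000) (nat_lit 0x0) (nat_lit 0xa0005800300010000200060000000000000000000000000000) := T_40 (nat_lit 129) (nat_lit 148) (nat_lit 3) (nat_lit 8) (nat_lit 7) L108777 (by decide +kernel)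
theorem L108779 : W_40 (nat_lit 7) (nat_lit 0x24000700090004c0000000000000000000000000000000) (nat_lit 0x0) (nat_lit 0xa0005800300010000300068000000000000000000000000000) := T_40 (nat_lit 128) (nat_lit 111) (nat_lit 6) (nat_lit 8) (nat_lit 10) L108778 (by decide +kernel)
theorem L108780 : W_40 (nat_lit 8) (nat_lit 0x2400070009000480000000000000000000000000000000) (nat_lit 0x0) (nat_lit 0xa000580030001000034006a000000000000000000000000000) := T_40 (nat_lit 126) (nat_lit 109) (nat_lit 4) (nat_lit 8) (nat_lit 10) L108779 (by decide +kernel)
theorem L108781 : W_40 (nat_lit 12) (nat_lit 0x2400070009000080000000000000000000000000000000) (nat_lit 0x0) (nat_lit 0x10000e0005800300010000f4007a0018000c0000000000000000000) := Q_40 (nat_lit 130) (C_40 L108739 (C_40 L108746 (C_40 L108750 (C_40 L108755 (C_40 L108765 (C_40 L108773 (C_40 L108780 N_40))))))) (by decide +kernel)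
theorem L108782 : W_40 (nat_lit 13) (nat_lit 0x400070009000080000000000000000000000000000000) (nat_lit 0x0) (nat_lit 0x200018000e0007800380010000f4007a0038000c0000000000000000000) := Q_40 (nat_lit 181) (C_40 L108707 (C_40 L108710 (C_40 L108735 (C_40 L108781 N_40)))) (by decide +kernel)
theorem L108783 : W_40 (nat_lit 2) (nat_lit 0x40007000d0000c0000000000000000000000000000000) (nat_lit 0x0) (nat_lit 0x300008000000000000000000000000000) := D_40 (nat_lit 128) (nat_lit 111) (nat_lit 129) (nat_lit 6) (nat_lit 8) (nat_lit 10) (nat_lit 3) (nat_lit 7) (nat_lit 7) (by decide +kernel)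
theorem L108784 : W_40 (nat_lit 3) (nat_lit 0x4000700090000c0000000000000000000000000000000) (nat_lit 0x0) (nat_lit 0x80004000300008000000000000000000000000000) := T_40 (nat_lit 146) (nat_lit 163) (nat_lit 2) (nat_lit 7) (nat_lit 9) L108783 (by decide +kernel)
theorem L108785 : W_40 (nat_lit 4) (nat_lit 0x400070009000080000000000000000000000000000000) (nat_lit 0x0) (nat_lit 0x8000400034000a000000000000000000000000000) := T_40 (nat_lit 126) (nat_lit 109) (nat_lit 4) (nat_lit 8) (nat_lit 10) L108784 (by decide +kernel)
theorem L108786 : W_40 (nat_lit 14) (nat_lit 0x400070001000080000000000000000000000000000000) (nat_lit 0x0) (nat_lit 0x200018000e000780038801c000f4007a0038000c0000000000000000000) := Q_40 (nat_lit 147) (C_40 L108705 (C_40 L108706 (C_40 L108782 (C_40 L108785 N_40)))) (by decide +kernel)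
theorem L108787 : W_40 (nat_lit 2) (nat_lit 0x24000f0009000180000000000000000000000000000000) (nat_lit 0x0) (nat_lit 0x4000100010000000000000000000000000000000000000) := D_40 (nat_lit 164) (nat_lit 148) (nat_lit 182) (nat_lit 2) (nat_lit 8) (nat_lit 9) (nat_lit 3) (nat_lit 8) (nat_lit 9) (by decide +kernel)
theorem L108788 : W_40 (nat_lit 3) (nat_lit 0x4000f0009000180000000000000000000000000000000) (nat_lit 0x0) (nat_lit 0x7000100010000000000000000000000000000000000000) := T_40 (nat_lit 181) (nat_lit 180) (nat_lit 3) (nat_lit 7) (nat_lit 9) L108787 (by decide +kernel)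
theorem L108789 : W_40 (nat_lit 4) (nat_lit 0x400070009000180000000000000000000000000000000) (nat_lit 0x0) (nat_lit 0x7000180014000000000000000000000000000000000000) := T_40 (nat_lit 163) (nat_lit 146) (nat_lit 2) (nat_lit 7) (nat_lit 9) L108788 (by decide +kernel)
theorem L108790 : W_40 (nat_lit 5) (nat_lit 0x400070009000080000000000000000000000000000000) (nat_lit 0x0) (nat_lit 0x7000180014000100008000000000000000000000000000) := T_40 (nat_lit 128) (nat_lit 111) (nat_lit 6) (nat_lit 8) (nat_lit 10) L108789 (by decide +kernel)
theorem L108791 : W_40 (nat_lit 2) (nat_lit 0x24000f0009000080000000000000000000000000000000) (nat_lit 0x0) (nat_lit 0x4000100010000000000000000000000000000000000000) := D_40 (nat_lit 164) (nat_lit 148) (nat_lit 182) (nat_lit 2) (nat_lit 8) (nat_lit 9) (nat_lit 3) (nat_lit 8) (nat_lit 9) (by decide +kernel)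
theorem L108792 : W_40 (nat_lit 3) (nat_lit 0x4000f0009000080000000000000000000000000000000) (nat_lit 0x0) (nat_lit 0x7000100010000000000000000000000000000000000000) := T_40 (nat_lit 181) (nat_lit 180) (nat_lit 3) (nat_lit 7) (nat_lit 9) L108791 (by decide +kernel)
theorem L108793 : W_40 (nat_lit 4) (nat_lit 0x400070009000080000000000000000000000000000000) (nat_lit 0x0) (nat_lit 0x7000180014000000000000000000000000000000000000) := T_40 (nat_lit 163) (nat_lit 146) (nat_lit 2) (nat_lit 7) (nat_lit 9) L108792 (by decide +kernel)
theorem L108794 : W_40 (nat_lit 14) (nat_lit 0x400070001000080000000000000000000000000000000) (nat_lit 0x0) (nat_lit 0x200018000e000780038001c000f4007a0038000c0000000000000000000) := Q_40 (nat_lit 147) (C_40 L108705 (C_40 L108785 (C_40 L108790 (C_40 L108793 (C_40 L108782 N_40))))) (by decide +kernel)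
theorem L108795 : W_40 (nat_lit 3) (nat_lit 0x4000740012000c0000000000000000000000000000000) (nat_lit 0x0) (nat_lit 0x1c0008000100000000000000000000000000000000000) := T_40 (nat_lit 159) (nat_lit 140) (nat_lit 0) (nat_lit 8) (nat_lit 9) L108024 (by decide +kernel)
theorem L108796 : W_40 (nat_lit 4) (nat_lit 0x400074001200080000000000000000000000000000000) (nat_lit 0x0) (nat_lit 0x1c0008000100040002000000000000000000000000000) := T_40 (nat_lit 126) (nat_lit 109) (nat_lit 4) (nat_lit 8) (nat_lit 10) L108795 (by decide +kernel)
theorem L108797 : W_40 (nat_lit 2) (nat_lit 0x480074001200080000000000000000000000000000000) (nat_lit 0x0) (nat_lit 0x40008000100000000000000000000000000000000000) := D_40 (nat_lit 159) (nat_lit 174) (nat_lit 140) (nat_lit 1) (nat_lit 8) (nat_lit 9) (nat_lit 0) (nat_lit 8) (nat_lit 9) (by decide +kernel)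
theorem L108798 : W_40 (nat_lit 2) (nat_lit 0x10004800740012000b8000000000000000000000000000000) (nat_lit 0x0) (nat_lit 0x10000800040000000000000000000000000000000000000000000) := D_40 (nat_lit 191) (nat_lit 208) (nat_lit 174) (nat_lit 5) (nat_lit 5) (nat_lit 8) (nat_lit 5) (nat_lit 5) (nat_lit 7) (by decide +kernel)
theorem L108799 : W_40 (nat_lit 3) (nat_lit 0x4800740012000b8000000000000000000000000000000) (nat_lit 0x0) (nat_lit 0x10001800040000000100000000000000000000000000000000000) := T_40 (nat_lit 192) (nat_lit 140) (nat_lit 4) (nat_lit 5) (nat_lit 11) L108798 (by decide +kernel)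
theorem L108800 : W_40 (nat_lit 4) (nat_lit 0x4800740012000b0000000000000000000000000000000) (nat_lit 0x0) (nat_lit 0x10001800040000000100008000400000000000000000000000000) := T_40 (nat_lit 123) (nat_lit 106) (nat_lit 4) (nat_lit 5) (nat_lit 10) L108799 (by decide +kernel)
theorem L108801 : W_40 (nat_lit 5) (nat_lit 0x480074001200090000000000000000000000000000000) (nat_lit 0x0) (nat_lit 0x10001800040000000100028001400000000000000000000000000) := T_40 (nat_lit 125) (nat_lit 108) (nat_lit 6) (nat_lit 5) (nat_lit 10) L108800 (by decide +kernel)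
theorem L108802 : W_40 (nat_lit 2) (nat_lit 0x4c00740012000d0000000000000000000000000000000) (nat_lit 0x0) (nat_lit 0x100020001000000000000000000000000000) := D_40 (nat_lit 125) (nat_lit 140) (nat_lit 108) (nat_lit 1) (nat_lit 8) (nat_lit 7) (nat_lit 6) (nat_lit 5) (nat_lit 10) (by decide +kernel)
theorem L108803 : W_40 (nat_lit 3) (nat_lit 0x4c0074001200090000000000000000000000000000000) (nat_lit 0x0) (nat_lit 0x100060003000000000000000000000000000) := T_40 (nat_lit 126) (nat_lit 109) (nat_lit 4) (nat_lit 8) (nat_lit 10) L108802 (by decide +kernel)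
theorem L108804 : W_40 (nat_lit 4) (nat_lit 0x480074001200090000000000000000000000000000000) (nat_lit 0x0) (nat_lit 0x800040000000100060003000000000000000000000000000) := T_40 (nat_lit 174) (nat_lit 191) (nat_lit 5) (nat_lit 5) (nat_lit 7) L108803 (by decide +kernel)
theorem L108805 : W_40 (nat_lit 2) (nat_lit 0x4800740012000d0000000000000000000000000000000) (nat_lit 0x0) (nat_lit 0x100020001000000000000000000000000000) := D_40 (nat_lit 125) (nat_lit 140) (nat_lit 108) (nat_lit 1) (nat_lit 8) (nat_lit 7) (nat_lit 6) (nat_lit 5) (nat_lit 10) (by decide +kernel)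
theorem L108806 : W_40 (nat_lit 3) (nat_lit 0x480074001200090000000000000000000000000000000) (nat_lit 0x0) (nat_lit 0x100060003000000000000000000000000000) := T_40 (nat_lit 126) (nat_lit 109) (nat_lit 4) (nat_lit 8) (nat_lit 10) L108805 (by decide +kernel)
theorem L108807 : W_40 (nat_lit 2) (nat_lit 0x4c00740012000d0000800000000000000000000000000) (nat_lit 0x0) (nat_lit 0x8000400020000000000000000000000) := D_40 (nat_lit 106) (nat_lit 123) (nat_lit 89) (nat_lit 4) (nat_lit 5) (nat_lit 10) (nat_lit 4) (nat_lit 5) (nat_lit 9) (by decide +kernel)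
theorem L108808 : W_40 (nat_lit 3) (nat_lit 0x4c00740012000d0000000000000000000000000000000) (nat_lit 0x0) (nat_lit 0x2000000008000c00020000000000000000000000) := T_40 (nat_lit 107) (nat_lit 157) (nat_lit 5) (nat_lit 5) (nat_lit 6) L108807 (by decide +kernel)
theorem L108809 : W_40 (nat_lit 4) (nat_lit 0x4c0074001200090000000000000000000000000000000) (nat_lit 0x0) (nat_lit 0x2000000048002c00020000000000000000000000) := T_40 (nat_lit 126) (nat_lit 109) (nat_lit 4) (nat_lit 8) (nat_lit 10) L108808 (by decide +kernel)
theorem L108810 : W_40 (nat_lit 5) (nat_lit 0x480074001200090000000000000000000000000000000) (nat_lit 0x0) (nat_lit 0x800040002000000048002c00020000000000000000000000) := T_40 (nat_lit 174) (nat_lit 191) (nat_lit 5) (nat_lit 5) (nat_lit 7) L108809 (by decide +kernel)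
theorem L108811 : W_40 (nat_lit 6) (nat_lit 0x480074001200080000000000000000000000000000000) (nat_lit 0x0) (nat_lit 0x10001800040002000100078003c00020000000000000000000000) := Q_40 (nat_lit 124) (C_40 L108801 (C_40 L108804 (C_40 L108806 (C_40 L108810 N_40)))) (by decide +kernel)
theorem L108812 : W_40 (nat_lit 2) (nat_lit 0x200010004800740013001c0000000000000000000000000000000) (nat_lit 0x0) (nat_lit 0x200010000800000000000000000000000000000000000000000000000) := D_40 (nat_lit 208) (nat_lit 225) (nat_lit 191) (nat_lit 5) (nat_lit 5) (nat_lit 9) (nat_lit 5) (nat_lit 5) (nat_lit 8) (by decide +kernel)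
theorem L108813 : W_40 (nat_lit 3) (nat_lit 0x10004800740013001c0000000000000000000000000000000) (nat_lit 0x0) (nat_lit 0x200030000800000002000000000000000000000000000000000000000) := T_40 (nat_lit 209) (nat_lit 157) (nat_lit 4) (nat_lit 5) (nat_lit 12) L108812 (by decide +kernel)
theorem L108814 : W_40 (nat_lit 4) (nat_lit 0x4800740013001c0000000000000000000000000000000) (nat_lit 0x0) (nat_lit 0x200030001800000002000000008000000000000000000000000000000) := T_40 (nat_lit 192) (nat_lit 123) (nat_lit 4) (nat_lit 5) (nat_lit 11) L108813 (by decide +kernel)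
theorem L108815 : W_40 (nat_lit 5) (nat_lit 0x4800740013000c0000000000000000000000000000000) (nat_lit 0x0) (nat_lit 0x200030001800000002000000108008000000000000000000000000000) := T_40 (nat_lit 128) (nat_lit 111) (nat_lit 6) (nat_lit 8) (nat_lit 10) L108814 (by decide +kernel)
theorem L108816 : W_40 (nat_lit 6) (nat_lit 0x4800740012000c0000000000000000000000000000000) (nat_lit 0x0) (nat_lit 0x20003000180000000a000100108008000000000000000000000000000) := T_40 (nat_lit 140) (nat_lit 159) (nat_lit 0) (nat_lit 8) (nat_lit 9) L108815 (by decide +kernel)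
theorem L108817 : W_40 (nat_lit 7) (nat_lit 0x480074001200080000000000000000000000000000000) (nat_lit 0x0) (nat_lit 0x20003000180000000a00010014800a000000000000000000000000000) := T_40 (nat_lit 126) (nat_lit 109) (nat_lit 4) (nat_lit 8) (nat_lit 10) L108816 (by decide +kernel)
theorem L108818 : W_40 (nat_lit 4) (nat_lit 0x4c00740012000c0000000000000000000000000000000) (nat_lit 0x0) (nat_lit 0x800000002000000018000c00020000000000000000000000) := T_40 (nat_lit 124) (nat_lit 191) (nat_lit 5) (nat_lit 5) (nat_lit 7) L108808 (by decide +kernel)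
theorem L108819 : W_40 (nat_lit 5) (nat_lit 0x4c0074001200080000000000000000000000000000000) (nat_lit 0x0) (nat_lit 0x800000002000000058002c00020000000000000000000000) := T_40 (nat_lit 126) (nat_lit 109) (nat_lit 4) (nat_lit 8) (nat_lit 10) L108818 (by decide +kernel)
theorem L108820 : W_40 (nat_lit 6) (nat_lit 0x480074001200080000000000000000000000000000000) (nat_lit 0x0) (nat_lit 0x80004000a000000058002c00020000000000000000000000) := T_40 (nat_lit 174) (nat_lit 159) (nat_lit 1) (nat_lit 8) (nat_lit 9) L108819 (by decide +kernel)
theorem L108821 : W_40 (nat_lit 8) (nat_lit 0x400074001200080000000000000000000000000000000) (nat_lit 0x0) (nat_lit 0x2000300018000c000a00010017800bc00020000000000000000000000) := Q_40 (nat_lit 175) (C_40 L108797 (C_40 L108811 (C_40 L108817 (C_40 L108820 N_40)))) (by decide +kernel)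
theorem L108822 : W_40 (nat_lit 2) (nat_lit 0x40007c0012001900008000a0000000000000000000000) (nat_lit 0x0) (nat_lit 0x40005000000000000000000) := D_40 (nat_lit 90) (nat_lit 72) (nat_lit 74) (nat_lit 4) (nat_lit 5) (nat_lit 8) (nat_lit 6) (nat_lit 5) (nat_lit 8) (by decide +kernel)
theorem L108823 : W_40 (nat_lit 3) (nat_lit 0x40007c001200190000800020000000000000000000000) (nat_lit 0x0) (nat_lit 0x10000c0005000000000000000000) := T_40 (nat_lit 91) (nat_lit 108) (nat_lit 6) (nat_lit 5) (nat_lit 9) L108822 (by decide +kernel)
theorem L108824 : W_40 (nat_lit 4) (nat_lit 0x40007c001200190000800000000000000000000000000) (nat_lit 0x0) (nat_lit 0x14000e0005000000000000000000) := T_40 (nat_lit 89) (nat_lit 106) (nat_lit 4) (nat_lit 5) (nat_lit 9) L108823 (by decide +kernel)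
theorem L108825 : W_40 (nat_lit 5) (nat_lit 0x40007c001200190000000000000000000000000000000) (nat_lit 0x0) (nat_lit 0x100000000000000001c000e0005000000000000000000) := T_40 (nat_lit 107) (nat_lit 176) (nat_lit 7) (nat_lit 5) (nat_lit 6) L108824 (by decide +kernel)
theorem L108826 : W_40 (nat_lit 6) (nat_lit 0x40007c001200090000000000000000000000000000000) (nat_lit 0x0) (nat_lit 0x100000000000100009c000e0005000000000000000000) := T_40 (nat_lit 128) (nat_lit 111) (nat_lit 6) (nat_lit 8) (nat_lit 10) L108825 (by decide +kernel)
theorem L108827 : W_40 (nat_lit 7) (nat_lit 0x400074001200090000000000000000000000000000000) (nat_lit 0x0) (nat_lit 0x100008000100100009c000e0005000000000000000000) := T_40 (nat_lit 159) (nat_lit 140) (nat_lit 0) (nat_lit 8) (nat_lit 9) L108826 (by decide +kernel)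
theorem L108828 : W_40 (nat_lit 2) (nat_lit 0x40007c0012000d0000800000000000000000000000000) (nat_lit 0x0) (nat_lit 0x20000400020000000000000000000000) := D_40 (nat_lit 106) (nat_lit 89) (nat_lit 125) (nat_lit 4) (nat_lit 5) (nat_lit 9) (nat_lit 0) (nat_lit 8) (nat_lit 7) (by decide +kernel)
theorem L108829 : W_40 (nat_lit 3) (nat_lit 0x40007c0012000d0000000000000000000000000000000) (nat_lit 0x0) (nat_lit 0x100000000000020000c00020000000000000000000000) := T_40 (nat_lit 107) (nat_lit 176) (nat_lit 7) (nat_lit 5) (nat_lit 6) L108828 (by decide +kernel)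
theorem L108830 : W_40 (nat_lit 4) (nat_lit 0x40007c001200090000000000000000000000000000000) (nat_lit 0x0) (nat_lit 0x100000000000060002c00020000000000000000000000) := T_40 (nat_lit 126) (nat_lit 109) (nat_lit 4) (nat_lit 8) (nat_lit 10) L108829 (by decide +kernel)
theorem L108831 : W_40 (nat_lit 5) (nat_lit 0x400074001200090000000000000000000000000000000) (nat_lit 0x0) (nat_lit 0x100008000100060002c00020000000000000000000000) := T_40 (nat_lit 159) (nat_lit 140) (nat_lit 0) (nat_lit 8) (nat_lit 9) L108830 (by decide +kernel)
theorem L108832 : W_40 (nat_lit 5) (nat_lit 0x400074001200190000800000000000000000000000000) (nat_lit 0x0) (nat_lit 0x1000080000000000014000e0005000000000000000000) := T_40 (nat_lit 159) (nat_lit 176) (nat_lit 7) (nat_lit 5) (nat_lit 6) L108824 (by decide +kernel)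
theorem L108833 : W_40 (nat_lit 6) (nat_lit 0x400074001200090000800000000000000000000000000) (nat_lit 0x0) (nat_lit 0x1000080000001000094000e0005000000000000000000) := T_40 (nat_lit 128) (nat_lit 111) (nat_lit 6) (nat_lit 8) (nat_lit 10) L108832 (by decide +kernel)
theorem L108834 : W_40 (nat_lit 2) (nat_lit 0x400074001200090000c00000000000000000000000000) (nat_lit 0x0) (nat_lit 0x60002000000000000000000000000000) := D_40 (nat_lit 126) (nat_lit 125) (nat_lit 109) (nat_lit 0) (nat_lit 8) (nat_lit 7) (nat_lit 4) (nat_lit 8) (nat_lit 10) (by decide +kernel)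
theorem L108835 : W_40 (nat_lit 3) (nat_lit 0x400074001200090000800000000000000000000000000) (nat_lit 0x0) (nat_lit 0x60002400020000000000000000000000) := T_40 (nat_lit 106) (nat_lit 89) (nat_lit 4) (nat_lit 5) (nat_lit 9) L108834 (by decide +kernel)
theorem L108836 : W_40 (nat_lit 7) (nat_lit 0x400074001200090000000000000000000000000000000) (nat_lit 0x0) (nat_lit 0x10000800000016000bc000e0005000000000000000000) := Q_40 (nat_lit 107) (C_40 L108833 (C_40 L108835 (C_40 L108678 N_40))) (by decide +kernel)
theorem L108837 : W_40 (nat_lit 2) (nat_lit 0x4000740012000d0000000000000000000000000000000) (nat_lit 0x0) (nat_lit 0x8000100020000000000000000000000000000000) := D_40 (nat_lit 140) (nat_lit 125) (nat_lit 159) (nat_lit 1) (nat_lit 8) (nat_lit 7) (nat_lit 0) (nat_lit 8) (nat_lit 9) (by decide +kernel)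
theorem L108838 : W_40 (nat_lit 3) (nat_lit 0x400074001200090000000000000000000000000000000) (nat_lit 0x0) (nat_lit 0x8000100060002000000000000000000000000000) := T_40 (nat_lit 126) (nat_lit 109) (nat_lit 4) (nat_lit 8) (nat_lit 10) L108837 (by decide +kernel)
theorem L108839 : W_40 (nat_lit 8) (nat_lit 0x400074001200080000000000000000000000000000000) (nat_lit 0x0) (nat_lit 0x10000800010017000bc000e0005000000000000000000) := Q_40 (nat_lit 124) (C_40 L108827 (C_40 L108831 (C_40 L108653 (C_40 L108836 (C_40 L108838 N_40))))) (by decide +kernel)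
theorem L108840 : W_40 (nat_lit 2) (nat_lit 0x480074001200080000000000000000000000000000000) (nat_lit 0x0) (nat_lit 0x140008000000000000000000000000000000000000000) := D_40 (nat_lit 159) (nat_lit 176) (nat_lit 174) (nat_lit 1) (nat_lit 9) (nat_lit 9) (nat_lit 1) (nat_lit 8) (nat_lit 9) (by decide +kernel)
theorem L108841 : W_40 (nat_lit 2) (nat_lit 0x5c00740012000b0000400000000000000000000000000) (nat_lit 0x0) (nat_lit 0x2000000000000800020000000000000000000000) := D_40 (nat_lit 107) (nat_lit 89) (nat_lit 157) (nat_lit 4) (nat_lit 5) (nat_lit 9) (nat_lit 5) (nat_lit 5) (nat_lit 6) (by decide +kernel)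
theorem L108842 : W_40 (nat_lit 3) (nat_lit 0x5800740012000b0000400000000000000000000000000) (nat_lit 0x0) (nat_lit 0x800040002000000000000800020000000000000000000000) := T_40 (nat_lit 174) (nat_lit 191) (nat_lit 5) (nat_lit 5) (nat_lit 7) L108841 (by decide +kernel)
theorem L108843 : W_40 (nat_lit 4) (nat_lit 0x5800740012000b0000000000000000000000000000000) (nat_lit 0x0) (nat_lit 0x800040002000000008000c00020000000000000000000000) := T_40 (nat_lit 106) (nat_lit 123) (nat_lit 4) (nat_lit 5) (nat_lit 10) L108842 (by decide +kernel)
theorem L108844 : W_40 (nat_lit 5) (nat_lit 0x4800740012000b0000000000000000000000000000000) (nat_lit 0x0) (nat_lit 0x2800140002000000008000c00020000000000000000000000) := T_40 (nat_lit 176) (nat_lit 193) (nat_lit 7) (nat_lit 5) (nat_lit 7) L108843 (by decide +kernel)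
theorem L108845 : W_40 (nat_lit 6) (nat_lit 0x480074001200090000000000000000000000000000000) (nat_lit 0x0) (nat_lit 0x2800140002000000028001c00020000000000000000000000) := T_40 (nat_lit 125) (nat_lit 108) (nat_lit 6) (nat_lit 5) (nat_lit 10) L108844 (by decide +kernel)
theorem L108846 : W_40 (nat_lit 2) (nat_lit 0x580074001200090000c00000000000000000000000000) (nat_lit 0x0) (nat_lit 0x60002000000000000000000000000000) := D_40 (nat_lit 126) (nat_lit 125) (nat_lit 109) (nat_lit 0) (nat_lit 8) (nat_lit 7) (nat_lit 4) (nat_lit 8) (nat_lit 10) (by decide +kernel)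
theorem L108847 : W_40 (nat_lit 3) (nat_lit 0x580074001200090000400000000000000000000000000) (nat_lit 0x0) (nat_lit 0x60002800020000000000000000000000) := T_40 (nat_lit 107) (nat_lit 89) (nat_lit 4) (nat_lit 5) (nat_lit 9) L108846 (by decide +kernel)
theorem L108848 : W_40 (nat_lit 4) (nat_lit 0x480074001200090000400000000000000000000000000) (nat_lit 0x0) (nat_lit 0x2000100000000000060002800020000000000000000000000) := T_40 (nat_lit 176) (nat_lit 193) (nat_lit 7) (nat_lit 5) (nat_lit 7) L108847 (by decide +kernel)
theorem L108849 : W_40 (nat_lit 5) (nat_lit 0x480074001200090000000000000000000000000000000) (nat_lit 0x0) (nat_lit 0x2000100000000000068002c00020000000000000000000000) := T_40 (nat_lit 106) (nat_lit 123) (nat_lit 4) (nat_lit 5) (nat_lit 10) L108848 (by decide +kernel)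
theorem L108850 : W_40 (nat_lit 2) (nat_lit 0x18004800740012000b8000000000000000000000000000000) (nat_lit 0x0) (nat_lit 0x40002000100000000000000000000000000000000000000000000) := D_40 (nat_lit 193) (nat_lit 176) (nat_lit 210) (nat_lit 7) (nat_lit 5) (nat_lit 7) (nat_lit 7) (nat_lit 5) (nat_lit 8) (by decide +kernel)
theorem L108851 : W_40 (nat_lit 3) (nat_lit 0x8004800740012000b8000000000000000000000000000000) (nat_lit 0x0) (nat_lit 0x50003000100000000000000000000000000000000000000000000) := T_40 (nat_lit 192) (nat_lit 208) (nat_lit 5) (nat_lit 5) (nat_lit 8) L108850 (by decide +kernel)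
theorem L108852 : W_40 (nat_lit 4) (nat_lit 0x800480074001200098000000000000000000000000000000) (nat_lit 0x0) (nat_lit 0x50003000100000000000020001000000000000000000000000000) := T_40 (nat_lit 125) (nat_lit 108) (nat_lit 6) (nat_lit 5) (nat_lit 10) L108851 (by decide +kernel)
theorem L108853 : W_40 (nat_lit 5) (nat_lit 0x480074001200098000000000000000000000000000000) (nat_lit 0x0) (nat_lit 0x50003800140000000000020001000000000000000000000000000) := T_40 (nat_lit 191) (nat_lit 174) (nat_lit 5) (nat_lit 5) (nat_lit 7) L108852 (by decide +kernel)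
theorem L108854 : W_40 (nat_lit 6) (nat_lit 0x480074001200090000000000000000000000000000000) (nat_lit 0x0) (nat_lit 0x50003800140000000000028001400000000000000000000000000) := T_40 (nat_lit 123) (nat_lit 106) (nat_lit 4) (nat_lit 5) (nat_lit 10) L108853 (by decide +kernel)
theorem L108855 : W_40 (nat_lit 2) (nat_lit 0x4c00740012000d0001000000000000000000000000000) (nat_lit 0x0) (nat_lit 0x2000000000000800080000000000000000000000) := D_40 (nat_lit 107) (nat_lit 157) (nat_lit 91) (nat_lit 5) (nat_lit 5) (nat_lit 6) (nat_lit 6) (nat_lit 5) (nat_lit 9) (by decide +kernel)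
theorem L108856 : W_40 (nat_lit 3) (nat_lit 0x4c00740012000d0000000000000000000000000000000) (nat_lit 0x0) (nat_lit 0x2000000020001800080000000000000000000000) := T_40 (nat_lit 108) (nat_lit 125) (nat_lit 6) (nat_lit 5) (nat_lit 10) L108855 (by decide +kernel)
theorem L108857 : W_40 (nat_lit 4) (nat_lit 0x4800740012000d0000000000000000000000000000000) (nat_lit 0x0) (nat_lit 0x800040002000000020001800080000000000000000000000) := T_40 (nat_lit 174) (nat_lit 191) (nat_lit 5) (nat_lit 5) (nat_lit 7) L108856 (by decide +kernel)
theorem L108858 : W_40 (nat_lit 5) (nat_lit 0x480074001200090000000000000000000000000000000) (nat_lit 0x0) (nat_lit 0x800040002000000060003800080000000000000000000000) := T_40 (nat_lit 126) (nat_lit 109) (nat_lit 4) (nat_lit 8) (nat_lit 10) L108857 (by decide +kernel)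
theorem L108859 : W_40 (nat_lit 7) (nat_lit 0x480074001200080000000000000000000000000000000) (nat_lit 0x0) (nat_lit 0x50003800140002000000078003c000a0000000000000000000000) := Q_40 (nat_lit 124) (C_40 L108845 (C_40 L108810 (C_40 L108849 (C_40 L108854 (C_40 L108858 N_40))))) (by decide +kernel)
theorem L108860 : W_40 (nat_lit 2) (nat_lit 0x5800740012001d0000400000000000000000000000000) (nat_lit 0x0) (nat_lit 0x20001800000000000000000000000000) := D_40 (nat_lit 125) (nat_lit 108) (nat_lit 107) (nat_lit 6) (nat_lit 5) (nat_lit 10) (nat_lit 0) (nat_lit 8) (nat_lit 7) (by decide +kernel)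
theorem L108861 : W_40 (nat_lit 3) (nat_lit 0x5800740012001d0000000000000000000000000000000) (nat_lit 0x0) (nat_lit 0x28001c00000000000000000000000000) := T_40 (nat_lit 106) (nat_lit 123) (nat_lit 4) (nat_lit 5) (nat_lit 10) L108860 (by decide +kernel)
theorem L108862 : W_40 (nat_lit 4) (nat_lit 0x5800740012001c0000000000000000000000000000000) (nat_lit 0x0) (nat_lit 0x2000000000000000038001c00000000000000000000000000) := T_40 (nat_lit 124) (nat_lit 193) (nat_lit 7) (nat_lit 5) (nat_lit 7) L108861 (by decide +kernel)
theorem L108863 : W_40 (nat_lit 5) (nat_lit 0x5800740012000c0000000000000000000000000000000) (nat_lit 0x0) (nat_lit 0x2000000000000000138009c00000000000000000000000000) := T_40 (nat_lit 128) (nat_lit 111) (nat_lit 6) (nat_lit 8) (nat_lit 10) L108862 (by decide +kernel)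
theorem L108864 : W_40 (nat_lit 6) (nat_lit 0x4800740012000c0000000000000000000000000000000) (nat_lit 0x0) (nat_lit 0x2000100008000000138009c00000000000000000000000000) := T_40 (nat_lit 176) (nat_lit 159) (nat_lit 1) (nat_lit 9) (nat_lit 9) L108863 (by decide +kernel)
theorem L108865 : W_40 (nat_lit 7) (nat_lit 0x480074001200080000000000000000000000000000000) (nat_lit 0x0) (nat_lit 0x200010000800000017800bc00000000000000000000000000) := T_40 (nat_lit 126) (nat_lit 109) (nat_lit 4) (nat_lit 8) (nat_lit 10) L108864 (by decide +kernel)
theorem L108866 : W_40 (nat_lit 8) (nat_lit 0x400074001200080000000000000000000000000000000) (nat_lit 0x0) (nat_lit 0x500038001c000a00000017800bc000a0000000000000000000000) := Q_40 (nat_lit 175) (C_40 L108840 (C_40 L108820 (C_40 L108859 (C_40 L108865 N_40)))) (by decide +kernel)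
theorem L108867 : W_40 (nat_lit 11) (nat_lit 0x400070001200080000000000000000000000000000000) (nat_lit 0x0) (nat_lit 0x2000700038001c000e00010017800be000e0007000000000000000000) := Q_40 (nat_lit 158) (C_40 L108692 (C_40 L108629 (C_40 L108796 (C_40 L108821 (C_40 L108839 (C_40 L108866 N_40)))))) (by decide +kernel)
theorem L108868 : W_40 (nat_lit 2) (nat_lit 0x4000700016000c0000000000000000000000000000000) (nat_lit 0x0) (nat_lit 0x120008000000000000000000000000000) := D_40 (nat_lit 128) (nat_lit 111) (nat_lit 125) (nat_lit 6) (nat_lit 8) (nat_lit 10) (nat_lit 1) (nat_lit 9) (nat_lit 7) (by decide +kernel)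
theorem L108869 : W_40 (nat_lit 3) (nat_lit 0x4000700012000c0000000000000000000000000000000) (nat_lit 0x0) (nat_lit 0x8000400120008000000000000000000000000000) := T_40 (nat_lit 142) (nat_lit 159) (nat_lit 0) (nat_lit 9) (nat_lit 9) L108868 (by decide +kernel)
theorem L108870 : W_40 (nat_lit 4) (nat_lit 0x400070001200080000000000000000000000000000000) (nat_lit 0x0) (nat_lit 0x800040016000a000000000000000000000000000) := T_40 (nat_lit 126) (nat_lit 109) (nat_lit 4) (nat_lit 8) (nat_lit 10) L108869 (by decide +kernel)
theorem L108871 : W_40 (nat_lit 12) (nat_lit 0x400070001000080000000000000000000000000000000) (nat_lit 0x0) (nat_lit 0x2000700038001c000e00070017800be000e0007000000000000000000) := Q_40 (nat_lit 141) (C_40 L108626 (C_40 L108621 (C_40 L108867 (C_40 L108870 N_40)))) (by decide +kernel)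
theorem L108872 : W_40 (nat_lit 15) (nat_lit 0x400060001000080000000000000000000000000000000) (nat_lit 0x0) (nat_lit 0x202018700e380f9c039e01c700f7807be038e00c7000000000000000000) := Q_40 (nat_lit 160) (C_40 L108609 (C_40 L108618 (C_40 L108700 (C_40 L108786 (C_40 L108794 (C_40 L108871 N_40)))))) (by decide +kernel)
theorem L108873 : W_40 (nat_lit 17) (nat_lit 0x400020001000080000000000000000000000000000000) (nat_lit 0x0) (nat_lit 0x80007fc03fe07ffc3efe1fbf1fdf8fc7c1f7e07be039e00cf000180000000000000) := Q_40 (nat_lit 162) (C_40 L107854 (C_40 L107856 (C_40 L107860 (C_40 L107862 (C_40 L107990 (C_40 L108591 (C_40 L108872 N_40))))))) (by decide +kernel)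
theorem L108874 : W_40 (nat_lit 18) (nat_lit 0x20001000080000000000000000000000000000000) (nat_lit 0x0) (nat_lit 0x3ff07ff03ffc3ffe0fffcffff3fff9fdfdfc7e7f7fffbe079f03cf008380000000000000) := Q_40 (nat_lit 178) (C_40 L101873 (C_40 L849 (C_40 L101876 (C_40 L102120 (C_40 L102580 (C_40 L103979 (C_40 L107687 (C_40 L108873 N_40)))))))) (by decide +kernel)
end Crest.Agent.Helper32.Snaky.R1_0
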