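import Crest.Agent.Helper32.Snaky.Gen.R1_0_p1
set_option autoImplicit false
set_option maxRecDepth 100000
set_option linter.all false
set_option Elab.async false
namespace Crest.Agent.Helper32.Snaky.R1_0
@[reducible] def W_41 (d M Bz Z : Nat) : Prop := Crest.Agent.Helper32.Snaky.Wins (nat_lit 17) d M Bz Z
theorem D_41 {d M Bz Z : Nat} (m t1 t2 o1 x1 y1 o2 x2 y2 : Nat) (h : Crest.Agent.Helper32.Snaky.chkDoubleC (nat_lit 17) d M Bz Z m t1 t2 o1 x1 y1 o2 x2 y2 = true) : W_41 d M Bz Z := Crest.Agent.Helper32.Snaky.doubleC m t1 t2 o1 x1 y1 o2 x2 y2 h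
theorem T_41 {d M Bz Z cd cM cBz cZ : Nat} (m t o x y : Nat) (child : W_41 cd cM cBz cZ) (h : Crest.Agent.Helper32.Snaky.chkThreatC (nat_lit 17) d M Bz Z cd cM cBz cZ m t o x y = true) : W_41 d M Bz Z := Crest.Agent.Helper32.Snaky.threatC m t o x y child h
theorem Q_41 {d M Bz Z : Nat} (m : Nat) {l : List Crest.Agent.Helper32.Snaky.Spec} (kids : Crest.Agent.Helper32.Snaky.AllWins (nat_lit 17) l) (h : Crest.Agent.Helper32.Snaky.chkQuiet d M Bz Z m l = true) : W_41 d M Bz Z := Crest.Agent.Helper32.Snaky.quiet m kids h
theorem C_41 {cd cM cBz cZ : Nat} {l : List Crest.Agent.Helper32.Snaky.Spec} (h : W_41 cd cM cBz cZ) (hl : Crest.Agent.Helper32.Snaky.AllWins (nat_lit 17) l) : Crest.Agent.Helper32.Snaky.AllWins (nat_lit 17) ((cd, cM, cBz, cZ) :: l) := Crest.Agent.Helper32.Snaky.AllWins.cons h hl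
theorem N_41 : Crest.Agent.Helper32.Snaky.AllWins (nat_lit 17) [] := Crest.Agent.Helper32.Snaky.AllWins.nil
theorem L108895 : W_41 (nat_lit 2) (nat_lit 0x60009000080004000200000000000000000000000) (nat_lit 0x0) (nat_lit 0x8000400020000000000000000000) := D_41 (nat_lit 94) (nat_lit 111) (nat_lit 77) (nat_lit 6) (nat_lit 8) (nat_lit 9) (nat_lit 6) (nat_lit 8) (nat_lit 8) (by decide +kernel)
theorem L108896 : W_41 (nat_lit 2) (nat_lit 0x4000260019000480004000300000000000000000000000) (nat_lit 0x0) (nat_lit 0x800020001000000000000000000000000) := D_41 (nat_lit 113) (nat_lit 96) (nat_lit 131) (nat_lit 7) (nat_lit 11) (nat_lit 5) (nat_lit 4) (nat_lit 12) (nat_lit 10) (by decide +kernel)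
theorem L108897 : W_41 (nat_lit 3) (nat_lit 0x260019000480004000300000000000000000000000) (nat_lit 0x0) (nat_lit 0x80004000000000000800020001000000000000000000000000) := T_41 (nat_lit 182) (nat_lit 199) (nat_lit 4) (nat_lit 12) (nat_lit 11) L108896 (by decide +kernel)
theorem L108898 : W_41 (nat_lit 4) (nat_lit 0x260019000480004000200000000000000000000000) (nat_lit 0x0) (nat_lit 0x80004000000000000800020001100008000000000000000000) := T_41 (nat_lit 92) (nat_lit 75) (nat_lit 4) (nat_lit 8) (nat_lit 8) L108897 (by decide +kernel)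
theorem L108899 : W_41 (nat_lit 2) (nat_lit 0x260019000480024000200000000000000000000000) (nat_lit 0x0) (nat_lit 0x4000180000000000000000000000000000000000000000) := D_41 (nat_lit 164) (nat_lit 163) (nat_lit 182) (nat_lit 2) (nat_lit 8) (nat_lit 9) (nat_lit 7) (nat_lit 11) (nat_lit 6) (by decide +kernel)
theorem L108900 : W_41 (nat_lit 3) (nat_lit 0x260019000480004000200000000000000000000000) (nat_lit 0x0) (nat_lit 0x4000180000000000020001000000000000000000000000) := T_41 (nat_lit 113) (nat_lit 96) (nat_lit 7) (nat_lit 11) (nat_lit 5) L108899 (by decide +kernel)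
theorem L108901 : W_41 (nat_lit 2) (nat_lit 0xd0002e001d000c80004000300000000000000000000000) (nat_lit 0x0) (nat_lit 0x3000080000000000000000000000000000) := D_41 (nat_lit 132) (nat_lit 133) (nat_lit 115) (nat_lit 1) (nat_lit 14) (nat_lit 7) (nat_lit 6) (nat_lit 12) (nat_lit 10) (by decide +kernel)
theorem L108902 : W_41 (nat_lit 3) (nat_lit 0xd0002e001d000480004000300000000000000000000000) (nat_lit 0x0) (nat_lit 0x100000000000000003800080000000000000000000000000000) := T_41 (nat_lit 131) (nat_lit 200) (nat_lit 7) (nat_lit 12) (nat_lit 7) L108901 (by decide +kernel)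
theorem L108903 : W_41 (nat_lit 4) (nat_lit 0x50002e001d000480004000300000000000000000000000) (nat_lit 0x0) (nat_lit 0x10000a000000000003800080000000000000000000000000000) := T_41 (nat_lit 183) (nat_lit 181) (nat_lit 0) (nat_lit 13) (nat_lit 10) L108902 (by decide +kernel)
theorem L108904 : W_41 (nat_lit 5) (nat_lit 0x40002e001d000480004000300000000000000000000000) (nat_lit 0x0) (nat_lit 0x12000b000000000003800080000000000000000000000000000) := T_41 (nat_lit 180) (nat_lit 197) (nat_lit 6) (nat_lit 10) (nat_lit 11) L108903 (by decide +kernel)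
theorem L108905 : W_41 (nat_lit 6) (nat_lit 0x40002e0019000480004000300000000000000000000000) (nat_lit 0x0) (nat_lit 0x12000b000000024003800080000000000000000000000000000) := T_41 (nat_lit 146) (nat_lit 149) (nat_lit 1) (nat_lit 13) (nat_lit 8) L108904 (by decide +kernel)
theorem L108906 : W_41 (nat_lit 7) (nat_lit 0x4000260019000480004000300000000000000000000000) (nat_lit 0x0) (nat_lit 0x12000b000180024003800080000000000000000000000000000) := T_41 (nat_lit 163) (nat_lit 164) (nat_lit 2) (nat_lit 8) (nat_lit 9) L108905 (by decide +kernel)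
theorem L108907 : W_41 (nat_lit 8) (nat_lit 0x260019000480004000300000000000000000000000) (nat_lit 0x0) (nat_lit 0x1a000f000180024003800080000000000000000000000000000) := T_41 (nat_lit 182) (nat_lit 199) (nat_lit 4) (nat_lit 12) (nat_lit 11) L108906 (by decide +kernel)
theorem L108908 : W_41 (nat_lit 9) (nat_lit 0x260019000480004000200000000000000000000000) (nat_lit 0x0) (nat_lit 0x1a000f000180024003800080000100008000000000000000000) := T_41 (nat_lit 92) (nat_lit 75) (nat_lit 4) (nat_lit 8) (nat_lit 8) L108907 (by decide +kernel)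
theorem L108909 : W_41 (nat_lit 2) (nat_lit 0x760019000c802e4000300000000000000000000000) (nat_lit 0x0) (nat_lit 0x1800004000000000000000000000000000000000000) := D_41 (nat_lit 167) (nat_lit 168) (nat_lit 146) (nat_lit 0) (nat_lit 15) (nat_lit 9) (nat_lit 0) (nat_lit 14) (nat_lit 9) (by decide +kernel)
theorem L108910 : W_41 (nat_lit 3) (nat_lit 0x360019000c802e4000300000000000000000000000) (nat_lit 0x0) (nat_lit 0x8001c00004000000000000000000000000000000000000) := T_41 (nat_lit 166) (nat_lit 183) (nat_lit 7) (nat_lit 12) (nat_lit 6) L108909 (by decide +kernel)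
theorem L108911 : W_41 (nat_lit 4) (nat_lit 0x360019000c800e4000300000000000000000000000) (nat_lit 0x0) (nat_lit 0x8001c00004000000300000000000000000000000000000) := T_41 (nat_lit 117) (nat_lit 116) (nat_lit 1) (nat_lit 15) (nat_lit 6) L108910 (by decide +kernel)
theorem L108912 : W_41 (nat_lit 5) (nat_lit 0x360019000c80064000300000000000000000000000) (nat_lit 0x0) (nat_lit 0x8001c00004000000380004000000000000000000000000) := T_41 (nat_lit 115) (nat_lit 98) (nat_lit 6) (nat_lit 12) (nat_lit 9) L108911 (by decide +kernel)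
theorem L108913 : W_41 (nat_lit 6) (nat_lit 0x360019000480064000300000000000000000000000) (nat_lit 0x0) (nat_lit 0xa001c00004000800380004000000000000000000000000) := T_41 (nat_lit 131) (nat_lit 181) (nat_lit 6) (nat_lit 11) (nat_lit 10) L108912 (by decide +kernel)
theorem L108914 : W_41 (nat_lit 7) (nat_lit 0x360019000480024000300000000000000000000000) (nat_lit 0x0) (nat_lit 0xa001c000040008003c0006000000000000000000000000) := T_41 (nat_lit 114) (nat_lit 97) (nat_lit 6) (nat_lit 11) (nat_lit 9) L108913 (by decide +kernel)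
theorem L108915 : W_41 (nat_lit 8) (nat_lit 0x360019000480004000300000000000000000000000) (nat_lit 0x0) (nat_lit 0xa001c000040008003e0007000000000000000000000000) := T_41 (nat_lit 113) (nat_lit 96) (nat_lit 7) (nat_lit 11) (nat_lit 5) L108914 (by decide +kernel)
theorem L108916 : W_41 (nat_lit 9) (nat_lit 0x360019000480004000200000000000000000000000) (nat_lit 0x0) (nat_lit 0xa001c000040008003e0007100008000000000000000000) := T_41 (nat_lit 92) (nat_lit 75) (nat_lit 4) (nat_lit 8) (nat_lit 8) L108915 (by decide +kernel)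
theorem L108917 : W_41 (nat_lit 10) (nat_lit 0x260019000480004000200000000000000000000000) (nat_lit 0x0) (nat_lit 0xa001d800040008003e0007100008000000000000000000) := T_41 (nat_lit 164) (nat_lit 163) (nat_lit 2) (nat_lit 8) (nat_lit 9) L108916 (by decide +kernel)
theorem L108918 : W_41 (nat_lit 2) (nat_lit 0x6001900008002c000200000000000000000000000) (nat_lit 0x0) (nat_lit 0x40010000100000000000000000000000) := D_41 (nat_lit 112) (nat_lit 126) (nat_lit 92) (nat_lit 1) (nat_lit 11) (nat_lit 6) (nat_lit 0) (nat_lit 11) (nat_lit 6) (by decide +kernel)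
theorem L108919 : W_41 (nat_lit 3) (nat_lit 0x60019000080024000200000000000000000000000) (nat_lit 0x0) (nat_lit 0x40018000500000000000000000000000) := T_41 (nat_lit 111) (nat_lit 94) (nat_lit 6) (nat_lit 8) (nat_lit 9) L108918 (by decide +kernel)
theorem L108920 : W_41 (nat_lit 2) (nat_lit 0xe001d000080024001f00000000000000000000000) (nat_lit 0x0) (nat_lit 0x1c0000000000000000000) := D_41 (nat_lit 79) (nat_lit 80) (nat_lit 78) (nat_lit 2) (nat_lit 8) (nat_lit 5) (nat_lit 2) (nat_lit 7) (nat_lit 5) (by decide +kernel)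
theorem L108921 : W_41 (nat_lit 3) (nat_lit 0xe001d000080024001700000000000000000000000) (nat_lit 0x0) (nat_lit 0x400008001c0000000000000000000) := T_41 (nat_lit 95) (nat_lit 114) (nat_lit 3) (nat_lit 8) (nat_lit 5) L108920 (by decide +kernel)
theorem L108922 : W_41 (nat_lit 4) (nat_lit 0xe001d000080024000700000000000000000000000) (nat_lit 0x0) (nat_lit 0x4000400018001c0000000000000000000) := T_41 (nat_lit 96) (nat_lit 130) (nat_lit 5) (nat_lit 11) (nat_lit 5) L108921 (by decide +kernel)
theorem L108923 : W_41 (nat_lit 5) (nat_lit 0xe001d000080024000300000000000000000000000) (nat_lit 0x0) (nat_lit 0x400048001c001c0000000000000000000) := T_41 (nat_lit 94) (nat_lit 111) (nat_lit 6) (nat_lit 8) (nat_lit 9) L108922 (by decide +kernel)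
theorem L108924 : W_41 (nat_lit 6) (nat_lit 0xe0019000080024000300000000000000000000000) (nat_lit 0x0) (nat_lit 0x24000400048001c001c0000000000000000000) := T_41 (nat_lit 146) (nat_lit 149) (nat_lit 1) (nat_lit 13) (nat_lit 8) L108923 (by decide +kernel)
theorem L108925 : W_41 (nat_lit 7) (nat_lit 0x60019000080024000300000000000000000000000) (nat_lit 0x0) (nat_lit 0x180024000400048001c001c0000000000000000000) := T_41 (nat_lit 163) (nat_lit 164) (nat_lit 2) (nat_lit 8) (nat_lit 9) L108924 (by decide +kernel)
theorem L108926 : W_41 (nat_lit 8) (nat_lit 0x60019000080024000200000000000000000000000) (nat_lit 0x0) (nat_lit 0x180024000400048001d001c8000000000000000000) := T_41 (nat_lit 92) (nat_lit 75) (nat_lit 4) (nat_lit 8) (nat_lit 8) L108925 (by decide +kernel)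
theorem L108927 : W_41 (nat_lit 2) (nat_lit 0xe003900048003c000200000000000000000000000) (nat_lit 0x0) (nat_lit 0x200000000000000003000000000000000000000000) := D_41 (nat_lit 96) (nat_lit 97) (nat_lit 165) (nat_lit 2) (nat_lit 8) (nat_lit 6) (nat_lit 7) (nat_lit 11) (nat_lit 5) (by decide +kernel)
theorem L108928 : W_41 (nat_lit 3) (nat_lit 0xe003900008003c000200000000000000000000000) (nat_lit 0x0) (nat_lit 0x200000000c00000003000000000000000000000000) := T_41 (nat_lit 130) (nat_lit 131) (nat_lit 3) (nat_lit 8) (nat_lit 6) L108927 (by decide +kernel)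
theorem L108929 : W_41 (nat_lit 4) (nat_lit 0xe001900008003c000200000000000000000000000) (nat_lit 0x0) (nat_lit 0x200024000c00000003000000000000000000000000) := T_41 (nat_lit 149) (nat_lit 146) (nat_lit 1) (nat_lit 13) (nat_lit 8) L108928 (by decide +kernel)
theorem L108930 : W_41 (nat_lit 5) (nat_lit 0x6001900008003c000200000000000000000000000) (nat_lit 0x0) (nat_lit 0x380024000c00000003000000000000000000000000) := T_41 (nat_lit 163) (nat_lit 164) (nat_lit 2) (nat_lit 8) (nat_lit 9) L108929 (by decide +kernel)
theorem L108931 : W_41 (nat_lit 6) (nat_lit 0x6001900008002c000200000000000000000000000) (nat_lit 0x0) (nat_lit 0x380024000c40010003000000000000000000000000) := T_41 (nat_lit 112) (nat_lit 126) (nat_lit 1) (nat_lit 11) (nat_lit 6) L108930 (by decide +kernel)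
theorem L108932 : W_41 (nat_lit 7) (nat_lit 0x60019000080024000200000000000000000000000) (nat_lit 0x0) (nat_lit 0x380024000c40018003400000000000000000000000) := T_41 (nat_lit 111) (nat_lit 94) (nat_lit 6) (nat_lit 8) (nat_lit 9) L108931 (by decide +kernel)
theorem L108933 : W_41 (nat_lit 2) (nat_lit 0xe0019000480024001200080000000000000000000) (nat_lit 0x0) (nat_lit 0x2000100008000000000000000) := D_41 (nat_lit 80) (nat_lit 63) (nat_lit 97) (nat_lit 6) (nat_lit 11) (nat_lit 7) (nat_lit 6) (nat_lit 11) (nat_lit 8) (by decide +kernel)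
theorem L108934 : W_41 (nat_lit 3) (nat_lit 0xe0019000480024001200000000000000000000000) (nat_lit 0x0) (nat_lit 0x800000002000180008000000000000000) := T_41 (nat_lit 79) (nat_lit 131) (nat_lit 7) (nat_lit 11) (nat_lit 4) L108933 (by decide +kernel)
theorem L108935 : W_41 (nat_lit 4) (nat_lit 0xe0019000480024000200000000000000000000000) (nat_lit 0x0) (nat_lit 0x200000000800000003000180008000000000000000) := T_41 (nat_lit 96) (nat_lit 165) (nat_lit 7) (nat_lit 11) (nat_lit 5) L108934 (by decide +kernel)
theorem L108936 : W_41 (nat_lit 5) (nat_lit 0x60019000480024000200000000000000000000000) (nat_lit 0x0) (nat_lit 0x380000000800000003000180008000000000000000) := T_41 (nat_lit 163) (nat_lit 164) (nat_lit 2) (nat_lit 8) (nat_lit 9) L108935 (by decide +kernel)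
theorem L108937 : W_41 (nat_lit 2) (nat_lit 0xe0019000480024000300000000000000000000000) (nat_lit 0x0) (nat_lit 0x24000000000001000000000000000000000000) := D_41 (nat_lit 146) (nat_lit 149) (nat_lit 96) (nat_lit 1) (nat_lit 13) (nat_lit 8) (nat_lit 5) (nat_lit 11) (nat_lit 5) (by decide +kernel)
theorem L108938 : W_41 (nat_lit 3) (nat_lit 0x60019000480024000300000000000000000000000) (nat_lit 0x0) (nat_lit 0x180024000000000001000000000000000000000000) := T_41 (nat_lit 163) (nat_lit 164) (nat_lit 2) (nat_lit 8) (nat_lit 9) L108937 (by decide +kernel)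
theorem L108939 : W_41 (nat_lit 4) (nat_lit 0x60019000480024000200000000000000000000000) (nat_lit 0x0) (nat_lit 0x180024000000000001100008000000000000000000) := T_41 (nat_lit 92) (nat_lit 75) (nat_lit 4) (nat_lit 8) (nat_lit 8) L108938 (by decide +kernel)
theorem L108940 : W_41 (nat_lit 2) (nat_lit 0x2000160019000480064000300000000000000000000000) (nat_lit 0x0) (nat_lit 0x80004000200000000000000000000000000000000000000000) := D_41 (nat_lit 182) (nat_lit 165) (nat_lit 199) (nat_lit 7) (nat_lit 11) (nat_lit 6) (nat_lit 7) (nat_lit 11) (nat_lit 7) (by decide +kernel)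
theorem L108941 : W_41 (nat_lit 3) (nat_lit 0x160019000480064000300000000000000000000000) (nat_lit 0x0) (nat_lit 0x80006000200000000800000000000000000000000000000000) := T_41 (nat_lit 181) (nat_lit 131) (nat_lit 6) (nat_lit 11) (nat_lit 10) L108940 (by decide +kernel)
theorem L108942 : W_41 (nat_lit 4) (nat_lit 0x160019000480024000300000000000000000000000) (nat_lit 0x0) (nat_lit 0x80006000200000000800040002000000000000000000000000) := T_41 (nat_lit 114) (nat_lit 97) (nat_lit 6) (nat_lit 11) (nat_lit 9) L108941 (by decide +kernel)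
theorem L108943 : W_41 (nat_lit 5) (nat_lit 0x160019000480024000200000000000000000000000) (nat_lit 0x0) (nat_lit 0x80006000200000000800040002100008000000000000000000) := T_41 (nat_lit 92) (nat_lit 75) (nat_lit 4) (nat_lit 8) (nat_lit 8) L108942 (by decide +kernel)
theorem L108944 : W_41 (nat_lit 6) (nat_lit 0x60019000480024000200000000000000000000000) (nat_lit 0x0) (nat_lit 0x80006000380000000800040002100008000000000000000000) := T_41 (nat_lit 164) (nat_lit 163) (nat_lit 2) (nat_lit 8) (nat_lit 9) L108943 (by decide +kernel)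
theorem L108945 : W_41 (nat_lit 2) (nat_lit 0x60019000480024001300080000000000000000000) (nat_lit 0x0) (nat_lit 0x2000100008000000000000000) := D_41 (nat_lit 80) (nat_lit 63) (nat_lit 97) (nat_lit 6) (nat_lit 11) (nat_lit 7) (nat_lit 6) (nat_lit 11) (nat_lit 8) (by decide +kernel)
theorem L108946 : W_41 (nat_lit 3) (nat_lit 0x60019000480024001300000000000000000000000) (nat_lit 0x0) (nat_lit 0x800000002000180008000000000000000) := T_41 (nat_lit 79) (nat_lit 131) (nat_lit 7) (nat_lit 11) (nat_lit 4) L108945 (by decide +kernel)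
theorem L108947 : W_41 (nat_lit 4) (nat_lit 0x60019000480024000300000000000000000000000) (nat_lit 0x0) (nat_lit 0x200000000800000003000180008000000000000000) := T_41 (nat_lit 96) (nat_lit 165) (nat_lit 7) (nat_lit 11) (nat_lit 5) L108946 (by decide +kernel)
theorem L108948 : W_41 (nat_lit 5) (nat_lit 0x60019000480024000200000000000000000000000) (nat_lit 0x0) (nat_lit 0x200000000800000003100188008000000000000000) := T_41 (nat_lit 92) (nat_lit 75) (nat_lit 4) (nat_lit 8) (nat_lit 8) L108947 (by decide +kernel)
theorem L108949 : W_41 (nat_lit 7) (nat_lit 0x60019000080024000200000000000000000000000) (nat_lit 0x0) (nat_lit 0x80006000380024000c00040003100188008000000000000000) := Q_41 (nat_lit 130) (C_41 L108936 (C_41 L108939 (C_41 L108944 (C_41 L108948 N_41)))) (by decide +kernel)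
theorem L108950 : W_41 (nat_lit 9) (nat_lit 0x60019000080004000200000000000000000000000) (nat_lit 0x0) (nat_lit 0x80006000380024000c40078003d001c8008000000000000000) := Q_41 (nat_lit 113) (C_41 L108919 (C_41 L108926 (C_41 L108932 (C_41 L108949 N_41)))) (by decide +kernel)
theorem L108951 : W_41 (nat_lit 2) (nat_lit 0xe001d00018000c000200018000000000000000000) (nat_lit 0x0) (nat_lit 0x1000000000000240000000000000000000000000000000) := D_41 (nat_lit 129) (nat_lit 180) (nat_lit 126) (nat_lit 4) (nat_lit 10) (nat_lit 10) (nat_lit 3) (nat_lit 7) (nat_lit 7) (by decide +kernel)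
theorem L108952 : W_41 (nat_lit 3) (nat_lit 0xe001d00008000c000200018000000000000000000) (nat_lit 0x0) (nat_lit 0x1000000000000340000000000000000800000000000000) := T_41 (nat_lit 128) (nat_lit 59) (nat_lit 7) (nat_lit 8) (nat_lit 3) L108951 (by decide +kernel)
theorem L108953 : W_41 (nat_lit 4) (nat_lit 0xe001d00008000c000200008000000000000000000) (nat_lit 0x0) (nat_lit 0x1000000000000340000000000010000c00000000000000) := T_41 (nat_lit 76) (nat_lit 58) (nat_lit 4) (nat_lit 8) (nat_lit 7) L108952 (by decide +kernel)
theorem L108954 : W_41 (nat_lit 5) (nat_lit 0xe001d00008000c000200000000000000000000000) (nat_lit 0x0) (nat_lit 0x1000000000000340000000100018000c00000000000000) := T_41 (nat_lit 75) (nat_lit 92) (nat_lit 4) (nat_lit 8) (nat_lit 8) L108953 (by decide +kernel)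
theorem L108955 : W_41 (nat_lit 6) (nat_lit 0xe001d000080004000200000000000000000000000) (nat_lit 0x0) (nat_lit 0x1000000000000340008000500018000c00000000000000) := T_41 (nat_lit 111) (nat_lit 94) (nat_lit 6) (nat_lit 8) (nat_lit 9) L108954 (by decide +kernel)
theorem L108956 : W_41 (nat_lit 7) (nat_lit 0xe0019000080004000200000000000000000000000) (nat_lit 0x0) (nat_lit 0x1000000024000340008000500018000c00000000000000) := T_41 (nat_lit 146) (nat_lit 149) (nat_lit 1) (nat_lit 13) (nat_lit 8) L108955 (by decide +kernel)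
theorem L108957 : W_41 (nat_lit 8) (nat_lit 0x60019000080004000200000000000000000000000) (nat_lit 0x0) (nat_lit 0x1000180024000340008000500018000c00000000000000) := T_41 (nat_lit 163) (nat_lit 164) (nat_lit 2) (nat_lit 8) (nat_lit 9) L108956 (by decide +kernel)
theorem L108958 : W_41 (nat_lit 2) (nat_lit 0xe001d00048002c000340000000000000000000000) (nat_lit 0x0) (nat_lit 0x1000000000000300000000000000000000000000000000) := D_41 (nat_lit 129) (nat_lit 128) (nat_lit 180) (nat_lit 3) (nat_lit 8) (nat_lit 7) (nat_lit 6) (nat_lit 10) (nat_lit 10) (by decide +kernel)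
theorem L108959 : W_41 (nat_lit 3) (nat_lit 0xe001d00008002c000340000000000000000000000) (nat_lit 0x0) (nat_lit 0x1000000000000700000001000000000000000000000000) := T_41 (nat_lit 130) (nat_lit 96) (nat_lit 5) (nat_lit 11) (nat_lit 5) L108958 (by decide +kernel)
theorem L108960 : W_41 (nat_lit 4) (nat_lit 0xe001d00008000c000340000000000000000000000) (nat_lit 0x0) (nat_lit 0x1000000000000700030001000000000000000000000000) := T_41 (nat_lit 113) (nat_lit 112) (nat_lit 0) (nat_lit 11) (nat_lit 6) L108959 (by decide +kernel)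
theorem L108961 : W_41 (nat_lit 5) (nat_lit 0xe001d00008000c000300000000000000000000000) (nat_lit 0x0) (nat_lit 0x10000000000007000300010c0000000000000000000000) := T_41 (nat_lit 90) (nat_lit 91) (nat_lit 3) (nat_lit 5) (nat_lit 5) L108960 (by decide +kernel)
theorem L108962 : W_41 (nat_lit 6) (nat_lit 0xe001d000080004000300000000000000000000000) (nat_lit 0x0) (nat_lit 0x10000000000007000380014c0000000000000000000000) := T_41 (nat_lit 111) (nat_lit 94) (nat_lit 6) (nat_lit 8) (nat_lit 9) L108961 (by decide +kernel)
theorem L108963 : W_41 (nat_lit 7) (nat_lit 0xe0019000080004000300000000000000000000000) (nat_lit 0x0) (nat_lit 0x10000000240007000380014c0000000000000000000000) := T_41 (nat_lit 146) (nat_lit 149) (nat_lit 1) (nat_lit 13) (nat_lit 8) L108962 (by decide +kernel)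
theorem L108964 : W_41 (nat_lit 8) (nat_lit 0x60019000080004000300000000000000000000000) (nat_lit 0x0) (nat_lit 0x10001800240007000380014c0000000000000000000000) := T_41 (nat_lit 163) (nat_lit 164) (nat_lit 2) (nat_lit 8) (nat_lit 9) L108963 (by decide +kernel)
theorem L108965 : W_41 (nat_lit 9) (nat_lit 0x60019000080004000200000000000000000000000) (nat_lit 0x0) (nat_lit 0x10001800240007000380015c0008000000000000000000) := T_41 (nat_lit 92) (nat_lit 75) (nat_lit 4) (nat_lit 8) (nat_lit 8) L108964 (by decide +kernel)
theorem L108966 : W_41 (nat_lit 2) (nat_lit 0x200016001900068000c000200000000000000000000000) (nat_lit 0x0) (nat_lit 0x40000000000000000800040000000000000000000000000000) := D_41 (nat_lit 131) (nat_lit 114) (nat_lit 198) (nat_lit 6) (nat_lit 11) (nat_lit 10) (nat_lit 6) (nat_lit 11) (nat_lit 11) (by decide +kernel)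
theorem L108967 : W_41 (nat_lit 3) (nat_lit 0x16001900068000c000200000000000000000000000) (nat_lit 0x0) (nat_lit 0x40002000000000000800050000000000000000000000000000) := T_41 (nat_lit 181) (nat_lit 112) (nat_lit 4) (nat_lit 11) (nat_lit 10) L108966 (by decide +kernel)
theorem L108968 : W_41 (nat_lit 4) (nat_lit 0x160019000680004000200000000000000000000000) (nat_lit 0x0) (nat_lit 0x40002000000000000800058000400000000000000000000000) := T_41 (nat_lit 111) (nat_lit 94) (nat_lit 6) (nat_lit 8) (nat_lit 9) L108967 (by decide +kernel)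
theorem L108969 : W_41 (nat_lit 5) (nat_lit 0x160019000480004000200000000000000000000000) (nat_lit 0x0) (nat_lit 0x40002000000000000b00058000400000000000000000000000) := T_41 (nat_lit 129) (nat_lit 128) (nat_lit 3) (nat_lit 8) (nat_lit 7) L108968 (by decide +kernel)
theorem L108970 : W_41 (nat_lit 6) (nat_lit 0x60019000480004000200000000000000000000000) (nat_lit 0x0) (nat_lit 0x40002000180000000b00058000400000000000000000000000) := T_41 (nat_lit 164) (nat_lit 163) (nat_lit 2) (nat_lit 8) (nat_lit 9) L108969 (by decide +kernel)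
theorem L108971 : W_41 (nat_lit 2) (nat_lit 0x46003d001e8000c000200000000000000000000000) (nat_lit 0x0) (nat_lit 0x100008000000000000000040000000000000000000000000000) := D_41 (nat_lit 183) (nat_lit 114) (nat_lit 200) (nat_lit 4) (nat_lit 13) (nat_lit 10) (nat_lit 4) (nat_lit 13) (nat_lit 11) (by decide +kernel)
theorem L108972 : W_41 (nat_lit 3) (nat_lit 0x6003d001e8000c000200000000000000000000000) (nat_lit 0x0) (nat_lit 0x100008000c00000000000040000000000000000000000000000) := T_41 (nat_lit 166) (nat_lit 167) (nat_lit 3) (nat_lit 10) (nat_lit 8) L108971 (by decide +kernel)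
theorem L108973 : W_41 (nat_lit 4) (nat_lit 0x6003d00168000c000200000000000000000000000) (nat_lit 0x0) (nat_lit 0x100008000c00000000800050000000000000000000000000000) := T_41 (nat_lit 131) (nat_lit 112) (nat_lit 0) (nat_lit 13) (nat_lit 7) L108972 (by decide +kernel)
theorem L108974 : W_41 (nat_lit 5) (nat_lit 0x6003d00068000c000200000000000000000000000) (nat_lit 0x0) (nat_lit 0x100008000c00000003800050000000000000000000000000000) := T_41 (nat_lit 132) (nat_lit 133) (nat_lit 2) (nat_lit 10) (nat_lit 8) L108973 (by decide +kernel)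
theorem L108975 : W_41 (nat_lit 6) (nat_lit 0x6003900068000c000200000000000000000000000) (nat_lit 0x0) (nat_lit 0x100008000c80004003800050000000000000000000000000000) := T_41 (nat_lit 146) (nat_lit 163) (nat_lit 1) (nat_lit 13) (nat_lit 8) L108974 (by decide +kernel)
theorem L108976 : W_41 (nat_lit 7) (nat_lit 0x6001900068000c000200000000000000000000000) (nat_lit 0x0) (nat_lit 0x100008000c80064003800050000000000000000000000000000) := T_41 (nat_lit 149) (nat_lit 150) (nat_lit 0) (nat_lit 14) (nat_lit 8) L108975 (by decide +kernel)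
theorem L108977 : W_41 (nat_lit 8) (nat_lit 0x6001900048000c000200000000000000000000000) (nat_lit 0x0) (nat_lit 0x100008000c80064003b00050000000000000000000000000000) := T_41 (nat_lit 129) (nat_lit 128) (nat_lit 3) (nat_lit 8) (nat_lit 7) L108976 (by decide +kernel)
theorem L108978 : W_41 (nat_lit 9) (nat_lit 0x60019000480004000200000000000000000000000) (nat_lit 0x0) (nat_lit 0x100008000c80064003b00058000400000000000000000000000) := T_41 (nat_lit 111) (nat_lit 94) (nat_lit 6) (nat_lit 8) (nat_lit 9) L108977 (by decide +kernel)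
theorem L108979 : W_41 (nat_lit 2) (nat_lit 0xe0019000680004000200000000000000000000000) (nat_lit 0x0) (nat_lit 0x64000000000000000000000000000000000000) := D_41 (nat_lit 149) (nat_lit 146) (nat_lit 150) (nat_lit 1) (nat_lit 13) (nat_lit 8) (nat_lit 0) (nat_lit 14) (nat_lit 8) (by decide +kernel)
theorem L108980 : W_41 (nat_lit 3) (nat_lit 0x60019000680004000200000000000000000000000) (nat_lit 0x0) (nat_lit 0x180064000000000000000000000000000000000000) := T_41 (nat_lit 163) (nat_lit 164) (nat_lit 2) (nat_lit 8) (nat_lit 9) L108979 (by decide +kernel)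
theorem L108981 : W_41 (nat_lit 4) (nat_lit 0x60019000480004000200000000000000000000000) (nat_lit 0x0) (nat_lit 0x180064000300000000000000000000000000000000) := T_41 (nat_lit 129) (nat_lit 128) (nat_lit 3) (nat_lit 8) (nat_lit 7) L108980 (by decide +kernel)
theorem L108982 : W_41 (nat_lit 2) (nat_lit 0x200000000e001d00048002c000200000000000000000000000) (nat_lit 0x0) (nat_lit 0x840010000000000000000000000000000) := D_41 (nat_lit 112) (nat_lit 131) (nat_lit 126) (nat_lit 3) (nat_lit 8) (nat_lit 6) (nat_lit 1) (nat_lit 11) (nat_lit 6) (by decide +kernel)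
theorem L108983 : W_41 (nat_lit 3) (nat_lit 0x200000000e001d00048000c000200000000000000000000000) (nat_lit 0x0) (nat_lit 0x840030001000000000000000000000000) := T_41 (nat_lit 113) (nat_lit 96) (nat_lit 5) (nat_lit 11) (nat_lit 5) L108982 (by decide +kernel)
theorem L108984 : W_41 (nat_lit 4) (nat_lit 0xe001d00048000c000200000000000000000000000) (nat_lit 0x0) (nat_lit 0x20001000000000000840030001000000000000000000000000) := T_41 (nat_lit 197) (nat_lit 180) (nat_lit 6) (nat_lit 10) (nat_lit 11) L108983 (by decide +kernel)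
theorem L108985 : W_41 (nat_lit 5) (nat_lit 0xe001d000480004000200000000000000000000000) (nat_lit 0x0) (nat_lit 0x20001000000000000840038001400000000000000000000000) := T_41 (nat_lit 111) (nat_lit 94) (nat_lit 6) (nat_lit 8) (nat_lit 9) L108984 (by decide +kernel)
theorem L108986 : W_41 (nat_lit 6) (nat_lit 0xe0019000480004000200000000000000000000000) (nat_lit 0x0) (nat_lit 0x20001000000024000840038001400000000000000000000000) := T_41 (nat_lit 146) (nat_lit 149) (nat_lit 1) (nat_lit 13) (nat_lit 8) L108985 (by decide +kernel)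
theorem L108987 : W_41 (nat_lit 7) (nat_lit 0x60019000480004000200000000000000000000000) (nat_lit 0x0) (nat_lit 0x20001000180024000840038001400000000000000000000000) := T_41 (nat_lit 163) (nat_lit 164) (nat_lit 2) (nat_lit 8) (nat_lit 9) L108986 (by decide +kernel)
theorem L108988 : W_41 (nat_lit 2) (nat_lit 0x6001900048002c000200000000000000000000000) (nat_lit 0x0) (nat_lit 0x840010000000000000000000000000000) := D_41 (nat_lit 112) (nat_lit 131) (nat_lit 126) (nat_lit 3) (nat_lit 8) (nat_lit 6) (nat_lit 1) (nat_lit 11) (nat_lit 6) (by decide +kernel)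
theorem L108989 : W_41 (nat_lit 3) (nat_lit 0x60019000480024000200000000000000000000000) (nat_lit 0x0) (nat_lit 0x840018000400000000000000000000000) := T_41 (nat_lit 111) (nat_lit 94) (nat_lit 6) (nat_lit 8) (nat_lit 9) L108988 (by decide +kernel)
theorem L108990 : W_41 (nat_lit 2) (nat_lit 0x60019000480024001200080000000000000000000) (nat_lit 0x0) (nat_lit 0x2000100008000000000000000) := D_41 (nat_lit 80) (nat_lit 63) (nat_lit 97) (nat_lit 6) (nat_lit 11) (nat_lit 7) (nat_lit 6) (nat_lit 11) (nat_lit 8) (by decide +kernel)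
theorem L108991 : W_41 (nat_lit 3) (nat_lit 0x60019000480024001200000000000000000000000) (nat_lit 0x0) (nat_lit 0x800000002000180008000000000000000) := T_41 (nat_lit 79) (nat_lit 131) (nat_lit 7) (nat_lit 11) (nat_lit 4) L108990 (by decide +kernel)
theorem L108992 : W_41 (nat_lit 4) (nat_lit 0x60019000480024000200000000000000000000000) (nat_lit 0x0) (nat_lit 0x200000000800000003000180008000000000000000) := T_41 (nat_lit 96) (nat_lit 165) (nat_lit 7) (nat_lit 11) (nat_lit 5) L108991 (by decide +kernel)
theorem L108993 : W_41 (nat_lit 2) (nat_lit 0x6001900048003c000200000000000000000000000) (nat_lit 0x0) (nat_lit 0x200000000000000003000000000000000000000000) := D_41 (nat_lit 96) (nat_lit 165) (nat_lit 97) (nat_lit 7) (nat_lit 11) (nat_lit 5) (nat_lit 2) (nat_lit 8) (nat_lit 6) (by decide +kernel)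
theorem L108994 : W_41 (nat_lit 3) (nat_lit 0x6001900048002c000200000000000000000000000) (nat_lit 0x0) (nat_lit 0x200000000040010003000000000000000000000000) := T_41 (nat_lit 112) (nat_lit 126) (nat_lit 1) (nat_lit 11) (nat_lit 6) L108993 (by decide +kernel)
theorem L108995 : W_41 (nat_lit 4) (nat_lit 0x60019000480024000200000000000000000000000) (nat_lit 0x0) (nat_lit 0x200000000040018003400000000000000000000000) := T_41 (nat_lit 111) (nat_lit 94) (nat_lit 6) (nat_lit 8) (nat_lit 9) L108994 (by decide +kernel)
theorem L108996 : W_41 (nat_lit 5) (nat_lit 0x60019000480004000200000000000000000000000) (nat_lit 0x0) (nat_lit 0x200000000840038003400180008000000000000000) := Q_41 (nat_lit 113) (C_41 L108989 (C_41 L108992 (C_41 L108995 N_41))) (by decide +kernel)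
theorem L108997 : W_41 (nat_lit 10) (nat_lit 0x60019000080004000200000000000000000000000) (nat_lit 0x0) (nat_lit 0x16000b000f80064003f40078003400180008000000000000000) := Q_41 (nat_lit 130) (C_41 L108970 (C_41 L108978 (C_41 L108981 (C_41 L108987 (C_41 L108996 N_41))))) (by decide +kernel)
theorem L108998 : W_41 (nat_lit 2) (nat_lit 0x2000160059000680004000300000000000000000000000) (nat_lit 0x0) (nat_lit 0x40000000000000000800040000000000000000000000000000) := D_41 (nat_lit 131) (nat_lit 114) (nat_lit 198) (nat_lit 6) (nat_lit 11) (nat_lit 10) (nat_lit 6) (nat_lit 11) (nat_lit 11) (by decide +kernel)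
theorem L108999 : W_41 (nat_lit 3) (nat_lit 0x160059000680004000300000000000000000000000) (nat_lit 0x0) (nat_lit 0x40002000000000000800050000000000000000000000000000) := T_41 (nat_lit 181) (nat_lit 112) (nat_lit 4) (nat_lit 11) (nat_lit 10) L108998 (by decide +kernel)
theorem L109000 : W_41 (nat_lit 4) (nat_lit 0x160019000680004000300000000000000000000000) (nat_lit 0x0) (nat_lit 0x40002000000060000800050000000000000000000000000000) := T_41 (nat_lit 150) (nat_lit 149) (nat_lit 0) (nat_lit 14) (nat_lit 8) L108999 (by decide +kernel)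
theorem L109001 : W_41 (nat_lit 5) (nat_lit 0x60019000680004000300000000000000000000000) (nat_lit 0x0) (nat_lit 0x40002000180060000800050000000000000000000000000000) := T_41 (nat_lit 164) (nat_lit 163) (nat_lit 2) (nat_lit 8) (nat_lit 9) L109000 (by decide +kernel)
theorem L109002 : W_41 (nat_lit 6) (nat_lit 0x60019000480004000300000000000000000000000) (nat_lit 0x0) (nat_lit 0x40002000180060000b00050000000000000000000000000000) := T_41 (nat_lit 129) (nat_lit 128) (nat_lit 3) (nat_lit 8) (nat_lit 7) L109001 (by decide +kernel)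
theorem L109003 : W_41 (nat_lit 7) (nat_lit 0x60019000480004000200000000000000000000000) (nat_lit 0x0) (nat_lit 0x40002000180060000b00050000100008000000000000000000) := T_41 (nat_lit 92) (nat_lit 75) (nat_lit 4) (nat_lit 8) (nat_lit 8) L109002 (by decide +kernel)
theorem L109004 : W_41 (nat_lit 2) (nat_lit 0x8000000066003d001680084000300000000000000000000000) (nat_lit 0x0) (nat_lit 0x800100008000000000000000000000000) := D_41 (nat_lit 116) (nat_lit 99) (nat_lit 131) (nat_lit 6) (nat_lit 13) (nat_lit 9) (nat_lit 2) (nat_lit 10) (nat_lit 7) (by decide +kernel)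
theorem L109005 : W_41 (nat_lit 3) (nat_lit 0x8000000026003d001680084000300000000000000000000000) (nat_lit 0x0) (nat_lit 0xc00000000800100008000000000000000000000000) := T_41 (nat_lit 166) (nat_lit 167) (nat_lit 3) (nat_lit 10) (nat_lit 8) L109004 (by decide +kernel)
theorem L109006 : W_41 (nat_lit 4) (nat_lit 0x8000000026003d001680004000300000000000000000000000) (nat_lit 0x0) (nat_lit 0xc0000000080018000c000000000000000000000000) := T_41 (nat_lit 115) (nat_lit 98) (nat_lit 5) (nat_lit 13) (nat_lit 5) L109005 (by decide +kernel)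
theorem L109007 : W_41 (nat_lit 5) (nat_lit 0x8000000026003d000680004000300000000000000000000000) (nat_lit 0x0) (nat_lit 0xc0000000380018000c000000000000000000000000) := T_41 (nat_lit 132) (nat_lit 133) (nat_lit 2) (nat_lit 10) (nat_lit 8) L109006 (by decide +kernel)
theorem L109008 : W_41 (nat_lit 6) (nat_lit 0x80000000260039000680004000300000000000000000000000) (nat_lit 0x0) (nat_lit 0xc8000400380018000c000000000000000000000000) := T_41 (nat_lit 146) (nat_lit 163) (nat_lit 1) (nat_lit 13) (nat_lit 8) L109007 (by decide +kernel)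
theorem L109009 : W_41 (nat_lit 7) (nat_lit 0x80000000260019000680004000300000000000000000000000) (nat_lit 0x0) (nat_lit 0xc8006400380018000c000000000000000000000000) := T_41 (nat_lit 149) (nat_lit 150) (nat_lit 0) (nat_lit 14) (nat_lit 8) L109008 (by decide +kernel)
theorem L109010 : W_41 (nat_lit 8) (nat_lit 0x80000000260019000480004000300000000000000000000000) (nat_lit 0x0) (nat_lit 0xc80064003b0018000c000000000000000000000000) := T_41 (nat_lit 129) (nat_lit 128) (nat_lit 3) (nat_lit 8) (nat_lit 7) L109009 (by decide +kernel)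
theorem L109011 : W_41 (nat_lit 9) (nat_lit 0x260019000480004000300000000000000000000000) (nat_lit 0x0) (nat_lit 0x80004000c80064003b0018000c000000000000000000000000) := T_41 (nat_lit 199) (nat_lit 182) (nat_lit 4) (nat_lit 12) (nat_lit 11) L109010 (by decide +kernel)
theorem L109012 : W_41 (nat_lit 10) (nat_lit 0x260019000480004000200000000000000000000000) (nat_lit 0x0) (nat_lit 0x80004000c80064003b0018000c100008000000000000000000) := T_41 (nat_lit 92) (nat_lit 75) (nat_lit 4) (nat_lit 8) (nat_lit 8) L109011 (by decide +kernel)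
theorem L109013 : W_41 (nat_lit 2) (nat_lit 0x260019000580024000200000000000000000000000) (nat_lit 0x0) (nat_lit 0x80004000000000000800000000000000000000000000000000) := D_41 (nat_lit 182) (nat_lit 199) (nat_lit 131) (nat_lit 4) (nat_lit 12) (nat_lit 11) (nat_lit 4) (nat_lit 12) (nat_lit 10) (by decide +kernel)
theorem L109014 : W_41 (nat_lit 3) (nat_lit 0x260019000580004000200000000000000000000000) (nat_lit 0x0) (nat_lit 0x80004000000000000800020001000000000000000000000000) := T_41 (nat_lit 113) (nat_lit 96) (nat_lit 7) (nat_lit 11) (nat_lit 5) L109013 (by decide +kernel)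
theorem L109015 : W_41 (nat_lit 4) (nat_lit 0x260019000480004000200000000000000000000000) (nat_lit 0x0) (nat_lit 0x80004000000000000b00020001000000000000000000000000) := T_41 (nat_lit 128) (nat_lit 129) (nat_lit 3) (nat_lit 8) (nat_lit 7) L109014 (by decide +kernel)
theorem L109016 : W_41 (nat_lit 2) (nat_lit 0x66003d001680084001300000000000000000000000) (nat_lit 0x0) (nat_lit 0x800100008000000000000000000000000) := D_41 (nat_lit 116) (nat_lit 99) (nat_lit 131) (nat_lit 6) (nat_lit 13) (nat_lit 9) (nat_lit 2) (nat_lit 10) (nat_lit 7) (by decide +kernel)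
theorem L109017 : W_41 (nat_lit 3) (nat_lit 0x26003d001680084001300000000000000000000000) (nat_lit 0x0) (nat_lit 0xc00000000800100008000000000000000000000000) := T_41 (nat_lit 166) (nat_lit 167) (nat_lit 3) (nat_lit 10) (nat_lit 8) L109016 (by decide +kernel)
theorem L109018 : W_41 (nat_lit 4) (nat_lit 0x26003d001680004001300000000000000000000000) (nat_lit 0x0) (nat_lit 0xc0000000080018000c000000000000000000000000) := T_41 (nat_lit 115) (nat_lit 98) (nat_lit 5) (nat_lit 13) (nat_lit 5) L109017 (by decide +kernel)
theorem L109019 : W_41 (nat_lit 5) (nat_lit 0x26003d000680004001300000000000000000000000) (nat_lit 0x0) (nat_lit 0xc0000000380018000c000000000000000000000000) := T_41 (nat_lit 132) (nat_lit 133) (nat_lit 2) (nat_lit 10) (nat_lit 8) L109018 (by decide +kernel)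
theorem L109020 : W_41 (nat_lit 6) (nat_lit 0x260039000680004001300000000000000000000000) (nat_lit 0x0) (nat_lit 0xc8000400380018000c000000000000000000000000) := T_41 (nat_lit 146) (nat_lit 163) (nat_lit 1) (nat_lit 13) (nat_lit 8) L109019 (by decide +kernel)
theorem L109021 : W_41 (nat_lit 7) (nat_lit 0x260019000680004001300000000000000000000000) (nat_lit 0x0) (nat_lit 0xc8006400380018000c000000000000000000000000) := T_41 (nat_lit 149) (nat_lit 150) (nat_lit 0) (nat_lit 14) (nat_lit 8) L109020 (by decide +kernel)
theorem L109022 : W_41 (nat_lit 8) (nat_lit 0x260019000680004000300000000000000000000000) (nat_lit 0x0) (nat_lit 0xc800640038001a000d000000000000000000000000) := T_41 (nat_lit 96) (nat_lit 113) (nat_lit 7) (nat_lit 11) (nat_lit 5) L109021 (by decide +kernel)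
theorem L109023 : W_41 (nat_lit 9) (nat_lit 0x260019000480004000300000000000000000000000) (nat_lit 0x0) (nat_lit 0xc80064003b001a000d000000000000000000000000) := T_41 (nat_lit 129) (nat_lit 128) (nat_lit 3) (nat_lit 8) (nat_lit 7) L109022 (by decide +kernel)
theorem L109024 : W_41 (nat_lit 10) (nat_lit 0x260019000480004000200000000000000000000000) (nat_lit 0x0) (nat_lit 0xc80064003b001a000d100008000000000000000000) := T_41 (nat_lit 92) (nat_lit 75) (nat_lit 4) (nat_lit 8) (nat_lit 8) L109023 (by decide +kernel)
theorem L109025 : W_41 (nat_lit 2) (nat_lit 0x80000000260039000680014001a00018000000000000000000) (nat_lit 0x0) (nat_lit 0x80004000000000000000080000000000000000000) := D_41 (nat_lit 146) (nat_lit 163) (nat_lit 79) (nat_lit 1) (nat_lit 13) (nat_lit 8) (nat_lit 6) (nat_lit 10) (nat_lit 8) (by decide +kernel)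
theorem L109026 : W_41 (nat_lit 3) (nat_lit 0x80000000260039000680004001a00018000000000000000000) (nat_lit 0x0) (nat_lit 0x800040000000100000000c0000000000000000000) := T_41 (nat_lit 112) (nat_lit 78) (nat_lit 7) (nat_lit 10) (nat_lit 4) L109025 (by decide +kernel)
theorem L109027 : W_41 (nat_lit 4) (nat_lit 0x80000000260019000680004001a00018000000000000000000) (nat_lit 0x0) (nat_lit 0x800640000000100000000c0000000000000000000) := T_41 (nat_lit 149) (nat_lit 150) (nat_lit 0) (nat_lit 14) (nat_lit 8) L109026 (by decide +kernel)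
theorem L109028 : W_41 (nat_lit 5) (nat_lit 0x80000000260019000680004001200018000000000000000000) (nat_lit 0x0) (nat_lit 0x80064000000010000c000c0000000000000000000) := T_41 (nat_lit 95) (nat_lit 94) (nat_lit 0) (nat_lit 11) (nat_lit 5) L109027 (by decide +kernel)
theorem L109029 : W_41 (nat_lit 6) (nat_lit 0x80000000260019000680004001200008000000000000000000) (nat_lit 0x0) (nat_lit 0x80064000000010000c000d0000400000000000000) := T_41 (nat_lit 76) (nat_lit 58) (nat_lit 4) (nat_lit 8) (nat_lit 7) L109028 (by decide +kernel)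
theorem L109030 : W_41 (nat_lit 7) (nat_lit 0x80000000260019000480004001200008000000000000000000) (nat_lit 0x0) (nat_lit 0x80064000300010000c000d0000400000000000000) := T_41 (nat_lit 129) (nat_lit 128) (nat_lit 3) (nat_lit 8) (nat_lit 7) L109029 (by decide +kernel)
theorem L109031 : W_41 (nat_lit 8) (nat_lit 0x80000000260019000480004001200000000000000000000000) (nat_lit 0x0) (nat_lit 0x80064000300010000d000d8000400000000000000) := T_41 (nat_lit 75) (nat_lit 92) (nat_lit 4) (nat_lit 8) (nat_lit 8) L109030 (by decide +kernel)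
theorem L109032 : W_41 (nat_lit 9) (nat_lit 0x260019000480004001200000000000000000000000) (nat_lit 0x0) (nat_lit 0x80004000080064000300010000d000d8000400000000000000) := T_41 (nat_lit 199) (nat_lit 182) (nat_lit 4) (nat_lit 12) (nat_lit 11) L109031 (by decide +kernel)
theorem L109033 : W_41 (nat_lit 10) (nat_lit 0x260019000480004000200000000000000000000000) (nat_lit 0x0) (nat_lit 0x80004000080064000300030001d000d8000400000000000000) := T_41 (nat_lit 96) (nat_lit 113) (nat_lit 7) (nat_lit 11) (nat_lit 5) L109032 (by decide +kernel)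
theorem L109034 : W_41 (nat_lit 11) (nat_lit 0x60019000480004000200000000000000000000000) (nat_lit 0x0) (nat_lit 0x80004000e80064003b001b000dd000d8000400000000000000) := Q_41 (nat_lit 165) (C_41 L109012 (C_41 L108898 (C_41 L109015 (C_41 L109024 (C_41 L109033 N_41))))) (by decide +kernel)
theorem L109035 : W_41 (nat_lit 11) (nat_lit 0x60019000480004000200000000000000000000000) (nat_lit 0x0) (nat_lit 0x1a000f001f800240038003e0007100008000000000000000000) := Q_41 (nat_lit 165) (C_41 L108908 (C_41 L108917 (C_41 L108900 (C_41 L108898 N_41)))) (by decide +kernel)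
theorem L109036 : W_41 (nat_lit 4) (nat_lit 0x60019000480004001300000000000000000000000) (nat_lit 0x0) (nat_lit 0x200000000800020002000180008000000000000000) := T_41 (nat_lit 113) (nat_lit 165) (nat_lit 7) (nat_lit 11) (nat_lit 5) L108946 (by decide +kernel)
theorem L109037 : W_41 (nat_lit 5) (nat_lit 0x60019000480004001200000000000000000000000) (nat_lit 0x0) (nat_lit 0x200000000800020002100188008000000000000000) := T_41 (nat_lit 92) (nat_lit 75) (nat_lit 4) (nat_lit 8) (nat_lit 8) L109036 (by decide +kernel)
theorem L109038 : W_41 (nat_lit 4) (nat_lit 0x60019000480004001200000000000000000000000) (nat_lit 0x0) (nat_lit 0x200000000800020002000180008000000000000000) := T_41 (nat_lit 113) (nat_lit 165) (nat_lit 7) (nat_lit 11) (nat_lit 5) L108991 (by decide +kernel)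
theorem L109039 : W_41 (nat_lit 2) (nat_lit 0x60019000580024003b00000000000000000000000) (nat_lit 0x0) (nat_lit 0x50000400000000000000000000000) := D_41 (nat_lit 94) (nat_lit 114) (nat_lit 112) (nat_lit 3) (nat_lit 8) (nat_lit 5) (nat_lit 3) (nat_lit 7) (nat_lit 5) (by decide +kernel)
theorem L109040 : W_41 (nat_lit 3) (nat_lit 0x60019000580024003300000000000000000000000) (nat_lit 0x0) (nat_lit 0x50000c00040000000000000000000) := T_41 (nat_lit 95) (nat_lit 78) (nat_lit 4) (nat_lit 11) (nat_lit 8) L109039 (by decide +kernel)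
theorem L109041 : W_41 (nat_lit 4) (nat_lit 0x60019000580024001300000000000000000000000) (nat_lit 0x0) (nat_lit 0x50002c00140000000000000000000) := T_41 (nat_lit 97) (nat_lit 80) (nat_lit 6) (nat_lit 11) (nat_lit 8) L109040 (by decide +kernel)
theorem L109042 : W_41 (nat_lit 5) (nat_lit 0x60019000580004001300000000000000000000000) (nat_lit 0x0) (nat_lit 0x200000000000070002c00140000000000000000000) := T_41 (nat_lit 113) (nat_lit 165) (nat_lit 7) (nat_lit 11) (nat_lit 5) L109041 (by decide +kernel)
theorem L109043 : W_41 (nat_lit 6) (nat_lit 0x60019000580004001200000000000000000000000) (nat_lit 0x0) (nat_lit 0x200000000000070002d00148000000000000000000) := T_41 (nat_lit 92) (nat_lit 75) (nat_lit 4) (nat_lit 8) (nat_lit 8) L109042 (by decide +kernel)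
theorem L109044 : W_41 (nat_lit 7) (nat_lit 0x60019000480004001200000000000000000000000) (nat_lit 0x0) (nat_lit 0x200000000300070002d00148000000000000000000) := T_41 (nat_lit 128) (nat_lit 129) (nat_lit 3) (nat_lit 8) (nat_lit 7) L109043 (by decide +kernel)
theorem L109045 : W_41 (nat_lit 2) (nat_lit 0x60059000680014001a00018000000000000000000) (nat_lit 0x0) (nat_lit 0x100004000000000000000080000000000000000000) := D_41 (nat_lit 146) (nat_lit 79) (nat_lit 164) (nat_lit 6) (nat_lit 10) (nat_lit 8) (nat_lit 7) (nat_lit 10) (nat_lit 5) (by decide +kernel)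
theorem L109046 : W_41 (nat_lit 3) (nat_lit 0x60059000680004001a00018000000000000000000) (nat_lit 0x0) (nat_lit 0x1000040000000100000000c0000000000000000000) := T_41 (nat_lit 112) (nat_lit 78) (nat_lit 7) (nat_lit 10) (nat_lit 4) L109045 (by decide +kernel)
theorem L109047 : W_41 (nat_lit 4) (nat_lit 0x60059000680004001200018000000000000000000) (nat_lit 0x0) (nat_lit 0x100004000000010000c000c0000000000000000000) := T_41 (nat_lit 95) (nat_lit 94) (nat_lit 0) (nat_lit 11) (nat_lit 5) L109046 (by decide +kernel)
theorem L109048 : W_41 (nat_lit 5) (nat_lit 0x60059000680004001200008000000000000000000) (nat_lit 0x0) (nat_lit 0x100004000000010000c000d0000400000000000000) := T_41 (nat_lit 76) (nat_lit 58) (nat_lit 4) (nat_lit 8) (nat_lit 7) L109047 (by decide +kernel)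
theorem L109049 : W_41 (nat_lit 6) (nat_lit 0x60019000680004001200008000000000000000000) (nat_lit 0x0) (nat_lit 0x100064000000010000c000d0000400000000000000) := T_41 (nat_lit 150) (nat_lit 149) (nat_lit 0) (nat_lit 14) (nat_lit 8) L109048 (by decide +kernel)
theorem L109050 : W_41 (nat_lit 7) (nat_lit 0x60019000680004001200000000000000000000000) (nat_lit 0x0) (nat_lit 0x100064000000010000d000d8000400000000000000) := T_41 (nat_lit 75) (nat_lit 92) (nat_lit 4) (nat_lit 8) (nat_lit 8) L109049 (by decide +kernel)
theorem L109051 : W_41 (nat_lit 8) (nat_lit 0x60019000480004001200000000000000000000000) (nat_lit 0x0) (nat_lit 0x100064000300010000d000d8000400000000000000) := T_41 (nat_lit 129) (nat_lit 128) (nat_lit 3) (nat_lit 8) (nat_lit 7) L109050 (by decide +kernel)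
theorem L109052 : W_41 (nat_lit 9) (nat_lit 0x60019000480004000200000000000000000000000) (nat_lit 0x0) (nat_lit 0x300064000b00070003d001d8008400000000000000) := Q_41 (nat_lit 96) (C_41 L109037 (C_41 L109038 (C_41 L109044 (C_41 L109051 N_41)))) (by decide +kernel)
theorem L109053 : W_41 (nat_lit 2) (nat_lit 0x2000160019000680004000300000000000000000000000) (nat_lit 0x0) (nat_lit 0x40000000000004000800000000000000000000000000000000) := D_41 (nat_lit 198) (nat_lit 146) (nat_lit 131) (nat_lit 4) (nat_lit 11) (nat_lit 11) (nat_lit 6) (nat_lit 11) (nat_lit 11) (by decide +kernel)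
theorem L109054 : W_41 (nat_lit 3) (nat_lit 0x160019000680004000300000000000000000000000) (nat_lit 0x0) (nat_lit 0x40002000000004000800010000000000000000000000000000) := T_41 (nat_lit 181) (nat_lit 112) (nat_lit 4) (nat_lit 11) (nat_lit 10) L109053 (by decide +kernel)
theorem L109055 : W_41 (nat_lit 4) (nat_lit 0x160019000480004000300000000000000000000000) (nat_lit 0x0) (nat_lit 0x40002000000004000b00010000000000000000000000000000) := T_41 (nat_lit 129) (nat_lit 128) (nat_lit 3) (nat_lit 8) (nat_lit 7) L109054 (by decide +kernel)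
theorem L109056 : W_41 (nat_lit 5) (nat_lit 0x60019000480004000300000000000000000000000) (nat_lit 0x0) (nat_lit 0x40002000180004000b00010000000000000000000000000000) := T_41 (nat_lit 164) (nat_lit 163) (nat_lit 2) (nat_lit 8) (nat_lit 9) L109055 (by decide +kernel)
theorem L109057 : W_41 (nat_lit 6) (nat_lit 0x60019000480004000200000000000000000000000) (nat_lit 0x0) (nat_lit 0x40002000180004000b00010000100008000000000000000000) := T_41 (nat_lit 92) (nat_lit 75) (nat_lit 4) (nat_lit 8) (nat_lit 8) L109056 (by decide +kernel)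
theorem L109058 : W_41 (nat_lit 12) (nat_lit 0x60019000080004000200000000000000000000000) (nat_lit 0x0) (nat_lit 0x1e000f001f80064003f003f000fd001d8008400000000000000) := Q_41 (nat_lit 130) (C_41 L109003 (C_41 L109034 (C_41 L108981 (C_41 L109035 (C_41 L109052 (C_41 L109057 N_41)))))) (by decide +kernel)
theorem L109059 : W_41 (nat_lit 2) (nat_lit 0xe001900048000c000200018000000000000000000) (nat_lit 0x0) (nat_lit 0x300000000000000000800000000000000) := D_41 (nat_lit 128) (nat_lit 129) (nat_lit 59) (nat_lit 3) (nat_lit 8) (nat_lit 7) (nat_lit 7) (nat_lit 8) (nat_lit 3) (by decide +kernel)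
theorem L109060 : W_41 (nat_lit 3) (nat_lit 0xe0019000480004000200018000000000000000000) (nat_lit 0x0) (nat_lit 0x300008000400000000800000000000000) := T_41 (nat_lit 111) (nat_lit 94) (nat_lit 6) (nat_lit 8) (nat_lit 9) L109059 (by decide +kernel)
theorem L109061 : W_41 (nat_lit 4) (nat_lit 0xe0019000480004000200008000000000000000000) (nat_lit 0x0) (nat_lit 0x300008000400010000c00000000000000) := T_41 (nat_lit 76) (nat_lit 58) (nat_lit 4) (nat_lit 8) (nat_lit 7) L109060 (by decide +kernel)
theorem L109062 : W_41 (nat_lit 5) (nat_lit 0x60019000480004000200008000000000000000000) (nat_lit 0x0) (nat_lit 0x180000000300008000400010000c00000000000000) := T_41 (nat_lit 163) (nat_lit 164) (nat_lit 2) (nat_lit 8) (nat_lit 9) L109061 (by decide +kernel)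
theorem L109063 : W_41 (nat_lit 6) (nat_lit 0x60019000480004000200000000000000000000000) (nat_lit 0x0) (nat_lit 0x180000000300008000500018000c00000000000000) := T_41 (nat_lit 75) (nat_lit 92) (nat_lit 4) (nat_lit 8) (nat_lit 8) L109062 (by decide +kernel)
theorem L109064 : W_41 (nat_lit 8) (nat_lit 0x60019000080004000200000000000000000000000) (nat_lit 0x0) (nat_lit 0x40002000380060000f40078003500198008c00000000000000) := Q_41 (nat_lit 130) (C_41 L108996 (C_41 L109003 (C_41 L109063 N_41))) (by decide +kernel)
theorem L109065 : W_41 (nat_lit 2) (nat_lit 0x6001900058002c003200010000000000000000000) (nat_lit 0x0) (nat_lit 0x100008000400000000000000) := D_41 (nat_lit 75) (nat_lit 92) (nat_lit 58) (nat_lit 4) (nat_lit 8) (nat_lit 8) (nat_lit 4) (nat_lit 8) (nat_lit 7) (by decide +kernel)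
theorem L109066 : W_41 (nat_lit 3) (nat_lit 0x6001900058002c003200000000000000000000000) (nat_lit 0x0) (nat_lit 0x100018000c00000000000000) := T_41 (nat_lit 76) (nat_lit 59) (nat_lit 7) (nat_lit 8) (nat_lit 3) L109065 (by decide +kernel)
theorem L109067 : W_41 (nat_lit 4) (nat_lit 0x60019000580024003200000000000000000000000) (nat_lit 0x0) (nat_lit 0x18000100018000c00000000000000) := T_41 (nat_lit 111) (nat_lit 112) (nat_lit 2) (nat_lit 8) (nat_lit 6) L109066 (by decide +kernel)
theorem L109068 : W_41 (nat_lit 5) (nat_lit 0x60019000580024001200000000000000000000000) (nat_lit 0x0) (nat_lit 0x18002100118000c00000000000000) := T_41 (nat_lit 97) (nat_lit 80) (nat_lit 6) (nat_lit 11) (nat_lit 8) L109067 (by decide +kernel)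
theorem L109069 : W_41 (nat_lit 6) (nat_lit 0x60019000580024000200000000000000000000000) (nat_lit 0x0) (nat_lit 0x200000000000018003100118000c00000000000000) := T_41 (nat_lit 96) (nat_lit 165) (nat_lit 7) (nat_lit 11) (nat_lit 5) L109068 (by decide +kernel)
theorem L109070 : W_41 (nat_lit 7) (nat_lit 0x60019000480024000200000000000000000000000) (nat_lit 0x0) (nat_lit 0x200000000300018003100118000c00000000000000) := T_41 (nat_lit 128) (nat_lit 129) (nat_lit 3) (nat_lit 8) (nat_lit 7) L109069 (by decide +kernel)
theorem L109071 : W_41 (nat_lit 2) (nat_lit 0x6001900058002c000200018000000000000000000) (nat_lit 0x0) (nat_lit 0x840010000000000000000000000000000) := D_41 (nat_lit 112) (nat_lit 131) (nat_lit 126) (nat_lit 3) (nat_lit 8) (nat_lit 6) (nat_lit 1) (nat_lit 11) (nat_lit 6) (by decide +kernel)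
theorem L109072 : W_41 (nat_lit 3) (nat_lit 0x60019000580024000200018000000000000000000) (nat_lit 0x0) (nat_lit 0x840018000000000000800000000000000) := T_41 (nat_lit 111) (nat_lit 59) (nat_lit 7) (nat_lit 8) (nat_lit 3) L109071 (by decide +kernel)
theorem L109073 : W_41 (nat_lit 4) (nat_lit 0x60019000580024000200008000000000000000000) (nat_lit 0x0) (nat_lit 0x840018000000010000c00000000000000) := T_41 (nat_lit 76) (nat_lit 58) (nat_lit 4) (nat_lit 8) (nat_lit 7) L109072 (by decide +kernel)
theorem L109074 : W_41 (nat_lit 5) (nat_lit 0x60019000480024000200008000000000000000000) (nat_lit 0x0) (nat_lit 0xb40018000000010000c00000000000000) := T_41 (nat_lit 128) (nat_lit 129) (nat_lit 3) (nat_lit 8) (nat_lit 7) L109073 (by decide +kernel)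
theorem L109075 : W_41 (nat_lit 6) (nat_lit 0x60019000480024000200000000000000000000000) (nat_lit 0x0) (nat_lit 0xb40018000100018000c00000000000000) := T_41 (nat_lit 75) (nat_lit 92) (nat_lit 4) (nat_lit 8) (nat_lit 8) L109074 (by decide +kernel)
theorem L109076 : W_41 (nat_lit 8) (nat_lit 0x60019000480004000200000000000000000000000) (nat_lit 0x0) (nat_lit 0x200000000b40038003100198008c00000000000000) := Q_41 (nat_lit 113) (C_41 L108992 (C_41 L109070 (C_41 L109075 N_41))) (by decide +kernel)
theorem L109077 : W_41 (nat_lit 12) (nat_lit 0x60019000080004000200000000000000000000000) (nat_lit 0x0) (nat_lit 0x1e000f001f80064003f403f8007100198008c00000000000000) := Q_41 (nat_lit 130) (C_41 L109003 (C_41 L109076 (C_41 L109035 (C_41 L108981 N_41)))) (by decide +kernel)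
theorem L109078 : W_41 (nat_lit 2) (nat_lit 0x6001900038000c000200018000000000000000000) (nat_lit 0x0) (nat_lit 0x24000040000000000000000000000000000000) := D_41 (nat_lit 146) (nat_lit 126) (nat_lit 149) (nat_lit 3) (nat_lit 7) (nat_lit 7) (nat_lit 0) (nat_lit 13) (nat_lit 8) (by decide +kernel)
theorem L109079 : W_41 (nat_lit 3) (nat_lit 0x6001900018000c000200018000000000000000000) (nat_lit 0x0) (nat_lit 0x24000640000000000000000000000000000000) := T_41 (nat_lit 129) (nat_lit 130) (nat_lit 3) (nat_lit 8) (nat_lit 7) L109078 (by decide +kernel)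
theorem L109080 : W_41 (nat_lit 4) (nat_lit 0x6001900008000c000200018000000000000000000) (nat_lit 0x0) (nat_lit 0x24000740000000000000000800000000000000) := T_41 (nat_lit 128) (nat_lit 59) (nat_lit 7) (nat_lit 8) (nat_lit 3) L109079 (by decide +kernel)
theorem L109081 : W_41 (nat_lit 5) (nat_lit 0x6001900008000c000200008000000000000000000) (nat_lit 0x0) (nat_lit 0x24000740000000000010000c00000000000000) := T_41 (nat_lit 76) (nat_lit 58) (nat_lit 4) (nat_lit 8) (nat_lit 7) L109080 (by decide +kernel)
theorem L109082 : W_41 (nat_lit 6) (nat_lit 0x60019000080004000200008000000000000000000) (nat_lit 0x0) (nat_lit 0x24000740008000400010000c00000000000000) := T_41 (nat_lit 111) (nat_lit 94) (nat_lit 6) (nat_lit 8) (nat_lit 9) L109081 (by decide +kernel)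
theorem L109083 : W_41 (nat_lit 7) (nat_lit 0x60019000080004000200000000000000000000000) (nat_lit 0x0) (nat_lit 0x24000740008000500018000c00000000000000) := T_41 (nat_lit 75) (nat_lit 92) (nat_lit 4) (nat_lit 8) (nat_lit 8) L109082 (by decide +kernel)
theorem L109084 : W_41 (nat_lit 2) (nat_lit 0xe001900038000c000200018000000000000000000) (nat_lit 0x0) (nat_lit 0x1000000004000040000000000000000000000000000000) := D_41 (nat_lit 146) (nat_lit 126) (nat_lit 180) (nat_lit 3) (nat_lit 7) (nat_lit 7) (nat_lit 4) (nat_lit 10) (nat_lit 10) (by decide +kernel)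
theorem L109085 : W_41 (nat_lit 3) (nat_lit 0xe001900018000c000200018000000000000000000) (nat_lit 0x0) (nat_lit 0x1000000004000640000000000000000000000000000000) := T_41 (nat_lit 129) (nat_lit 130) (nat_lit 3) (nat_lit 8) (nat_lit 7) L109084 (by decide +kernel)
theorem L109086 : W_41 (nat_lit 4) (nat_lit 0xe001900008000c000200018000000000000000000) (nat_lit 0x0) (nat_lit 0x1000000004000740000000000000000800000000000000) := T_41 (nat_lit 128) (nat_lit 59) (nat_lit 7) (nat_lit 8) (nat_lit 3) L109085 (by decide +kernel)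
theorem L109087 : W_41 (nat_lit 5) (nat_lit 0xe001900008000c000200008000000000000000000) (nat_lit 0x0) (nat_lit 0x1000000004000740000000000010000c00000000000000) := T_41 (nat_lit 76) (nat_lit 58) (nat_lit 4) (nat_lit 8) (nat_lit 7) L109086 (by decide +kernel)
theorem L109088 : W_41 (nat_lit 6) (nat_lit 0xe001900008000c000200000000000000000000000) (nat_lit 0x0) (nat_lit 0x1000000004000740000000100018000c00000000000000) := T_41 (nat_lit 75) (nat_lit 92) (nat_lit 4) (nat_lit 8) (nat_lit 8) L109087 (by decide +kernel)
theorem L109089 : W_41 (nat_lit 7) (nat_lit 0x6001900008000c000200000000000000000000000) (nat_lit 0x0) (nat_lit 0x1000180004000740000000100018000c00000000000000) := T_41 (nat_lit 163) (nat_lit 164) (nat_lit 2) (nat_lit 8) (nat_lit 9) L109088 (by decide +kernel)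
theorem L109090 : W_41 (nat_lit 8) (nat_lit 0x60019000080004000200000000000000000000000) (nat_lit 0x0) (nat_lit 0x1000180004000740008000500018000c00000000000000) := T_41 (nat_lit 111) (nat_lit 94) (nat_lit 6) (nat_lit 8) (nat_lit 9) L109089 (by decide +kernel)
theorem L109091 : W_41 (nat_lit 13) (nat_lit 0x60009000080004000200000000000000000000000) (nat_lit 0x0) (nat_lit 0x1e000f001f80074003f403f800fdc01d8008c00000000000000) := Q_41 (nat_lit 148) (C_41 L108950 (C_41 L108957 (C_41 L108965 (C_41 L108997 (C_41 L109058 (C_41 L109064 (C_41 L109077 (C_41 L109083 (C_41 L109090 N_41))))))))) (by decide +kernel)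
theorem L109092 : W_41 (nat_lit 2) (nat_lit 0x60009000080004000200028000000000000000000) (nat_lit 0x0) (nat_lit 0x10001400000000000000) := D_41 (nat_lit 76) (nat_lit 58) (nat_lit 60) (nat_lit 4) (nat_lit 8) (nat_lit 7) (nat_lit 6) (nat_lit 8) (nat_lit 7) (by decide +kernel)
theorem L109093 : W_41 (nat_lit 3) (nat_lit 0x60009000080004000200008000000000000000000) (nat_lit 0x0) (nat_lit 0x400030001400000000000000) := T_41 (nat_lit 77) (nat_lit 94) (nat_lit 6) (nat_lit 8) (nat_lit 8) L109092 (by decide +kernel)
theorem L109094 : W_41 (nat_lit 4) (nat_lit 0x60009000080004000200000000000000000000000) (nat_lit 0x0) (nat_lit 0x500038001400000000000000) := T_41 (nat_lit 75) (nat_lit 92) (nat_lit 4) (nat_lit 8) (nat_lit 8) L109093 (by decide +kernel)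
theorem L109095 : W_41 (nat_lit 2) (nat_lit 0x20001e0009000480004000300000000000000000000000) (nat_lit 0x0) (nat_lit 0x20001000000000000000020000000000000000000000000000) := D_41 (nat_lit 180) (nat_lit 113) (nat_lit 197) (nat_lit 5) (nat_lit 11) (nat_lit 6) (nat_lit 5) (nat_lit 11) (nat_lit 7) (by decide +kernel)
theorem L109096 : W_41 (nat_lit 3) (nat_lit 0x1e0009000480004000300000000000000000000000) (nat_lit 0x0) (nat_lit 0x20007000000000000000020000000000000000000000000000) := T_41 (nat_lit 181) (nat_lit 182) (nat_lit 3) (nat_lit 8) (nat_lit 9) L109095 (by decide +kernel)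
theorem L109097 : W_41 (nat_lit 4) (nat_lit 0x160009000480004000300000000000000000000000) (nat_lit 0x0) (nat_lit 0x20007000080010000000020000000000000000000000000000) := T_41 (nat_lit 163) (nat_lit 148) (nat_lit 2) (nat_lit 8) (nat_lit 9) L109096 (by decide +kernel)
theorem L109098 : W_41 (nat_lit 5) (nat_lit 0x160009000480004000200000000000000000000000) (nat_lit 0x0) (nat_lit 0x20007000080010000000020000100008000000000000000000) := T_41 (nat_lit 92) (nat_lit 75) (nat_lit 4) (nat_lit 8) (nat_lit 8) L109097 (by decide +kernel)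
theorem L109099 : W_41 (nat_lit 2) (nat_lit 0x20001e0009000480004000200000000000000000000000) (nat_lit 0x0) (nat_lit 0x20001000000000000000020000000000000000000000000000) := D_41 (nat_lit 180) (nat_lit 113) (nat_lit 197) (nat_lit 5) (nat_lit 11) (nat_lit 6) (nat_lit 5) (nat_lit 11) (nat_lit 7) (by decide +kernel)
theorem L109100 : W_41 (nat_lit 3) (nat_lit 0x1e0009000480004000200000000000000000000000) (nat_lit 0x0) (nat_lit 0x20007000000000000000020000000000000000000000000000) := T_41 (nat_lit 181) (nat_lit 182) (nat_lit 3) (nat_lit 8) (nat_lit 9) L109099 (by decide +kernel)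
theorem L109101 : W_41 (nat_lit 4) (nat_lit 0x160009000480004000200000000000000000000000) (nat_lit 0x0) (nat_lit 0x20007000080010000000020000000000000000000000000000) := T_41 (nat_lit 163) (nat_lit 148) (nat_lit 2) (nat_lit 8) (nat_lit 9) L109100 (by decide +kernel)
theorem L109102 : W_41 (nat_lit 2) (nat_lit 0x8000600020001e0009000c80004000300000000000000000000000) (nat_lit 0x0) (nat_lit 0x20001000080000000000000000000000000000000000000000000000000) := D_41 (nat_lit 216) (nat_lit 199) (nat_lit 233) (nat_lit 7) (nat_lit 11) (nat_lit 8) (nat_lit 7) (nat_lit 11) (nat_lit 9) (by decide +kernel)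
theorem L109103 : W_41 (nat_lit 3) (nat_lit 0x600020001e0009000c80004000300000000000000000000000) (nat_lit 0x0) (nat_lit 0x20001800080000000000004000000000000000000000000000000000000) := T_41 (nat_lit 215) (nat_lit 146) (nat_lit 4) (nat_lit 11) (nat_lit 12) L109102 (by decide +kernel)
theorem L109104 : W_41 (nat_lit 4) (nat_lit 0x200020001e0009000c80004000300000000000000000000000) (nat_lit 0x0) (nat_lit 0x20001c000c0000000000004000000000000000000000000000000000000) := T_41 (nat_lit 198) (nat_lit 214) (nat_lit 5) (nat_lit 11) (nat_lit 8) L109103 (by decide +kernel)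
theorem L109105 : W_41 (nat_lit 5) (nat_lit 0x200020001e0009000480004000300000000000000000000000) (nat_lit 0x0) (nat_lit 0x20001c000c0000000000004000800040000000000000000000000000000) := T_41 (nat_lit 131) (nat_lit 114) (nat_lit 6) (nat_lit 11) (nat_lit 10) L109104 (by decide +kernel)
theorem L109106 : W_41 (nat_lit 6) (nat_lit 0x20001e0009000480004000300000000000000000000000) (nat_lit 0x0) (nat_lit 0x20001c000e0001000000004000800040000000000000000000000000000) := T_41 (nat_lit 197) (nat_lit 180) (nat_lit 5) (nat_lit 11) (nat_lit 7) L109105 (by decide +kernel)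
theorem L109107 : W_41 (nat_lit 7) (nat_lit 0x1e0009000480004000300000000000000000000000) (nat_lit 0x0) (nat_lit 0x20001c000e0007000000004000800040000000000000000000000000000) := T_41 (nat_lit 181) (nat_lit 182) (nat_lit 3) (nat_lit 8) (nat_lit 9) L109106 (by decide +kernel)
theorem L109108 : W_41 (nat_lit 8) (nat_lit 0x1e0009000480004000200000000000000000000000) (nat_lit 0x0) (nat_lit 0x20001c000e0007000000004000800040000100008000000000000000000) := T_41 (nat_lit 92) (nat_lit 75) (nat_lit 4) (nat_lit 8) (nat_lit 8) L109107 (by decide +kernel)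
theorem L109109 : W_41 (nat_lit 9) (nat_lit 0x160009000480004000200000000000000000000000) (nat_lit 0x0) (nat_lit 0x20001c000e0007000080014000800040000100008000000000000000000) := T_41 (nat_lit 163) (nat_lit 148) (nat_lit 2) (nat_lit 8) (nat_lit 9) L109108 (by decide +kernel)
theorem L109110 : W_41 (nat_lit 2) (nat_lit 0x160009000480024000300000000000000000000000) (nat_lit 0x0) (nat_lit 0x18000800000000000000000000000) := D_41 (nat_lit 112) (nat_lit 111) (nat_lit 95) (nat_lit 0) (nat_lit 11) (nat_lit 6) (nat_lit 4) (nat_lit 11) (nat_lit 9) (by decide +kernel)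
theorem L109111 : W_41 (nat_lit 3) (nat_lit 0x160009000480024000200000000000000000000000) (nat_lit 0x0) (nat_lit 0x18000900008000000000000000000) := T_41 (nat_lit 92) (nat_lit 75) (nat_lit 4) (nat_lit 8) (nat_lit 8) L109110 (by decide +kernel)
theorem L109112 : W_41 (nat_lit 2) (nat_lit 0x360009000480024001200000000000000000000000) (nat_lit 0x0) (nat_lit 0x40002000100000000000000000000) := D_41 (nat_lit 97) (nat_lit 80) (nat_lit 114) (nat_lit 6) (nat_lit 11) (nat_lit 8) (nat_lit 6) (nat_lit 11) (nat_lit 9) (by decide +kernel)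
theorem L109113 : W_41 (nat_lit 3) (nat_lit 0x360009000480024000200000000000000000000000) (nat_lit 0x0) (nat_lit 0x10000000040003000100000000000000000000) := T_41 (nat_lit 96) (nat_lit 148) (nat_lit 7) (nat_lit 11) (nat_lit 5) L109112 (by decide +kernel)
theorem L109114 : W_41 (nat_lit 4) (nat_lit 0x160009000480024000200000000000000000000000) (nat_lit 0x0) (nat_lit 0x4000200010000000040003000100000000000000000000) := T_41 (nat_lit 165) (nat_lit 182) (nat_lit 7) (nat_lit 11) (nat_lit 6) L109113 (by decide +kernel)
theorem L109115 : W_41 (nat_lit 5) (nat_lit 0x160009000480004000200000000000000000000000) (nat_lit 0x0) (nat_lit 0x4000200010000000078003900108000000000000000000) := Q_41 (nat_lit 113) (C_41 L109111 (C_41 L109114 N_41)) (by decide +kernel)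
theorem L109116 : W_41 (nat_lit 2) (nat_lit 0x1e0009000480064000300000000000000000000000) (nat_lit 0x0) (nat_lit 0x6000200000000000000000000000000000000000000000) := D_41 (nat_lit 182) (nat_lit 165) (nat_lit 181) (nat_lit 7) (nat_lit 11) (nat_lit 6) (nat_lit 3) (nat_lit 8) (nat_lit 9) (by decide +kernel)
theorem L109117 : W_41 (nat_lit 3) (nat_lit 0x160009000480064000300000000000000000000000) (nat_lit 0x0) (nat_lit 0x7000280000000000000000000000000000000000000000) := T_41 (nat_lit 163) (nat_lit 180) (nat_lit 5) (nat_lit 11) (nat_lit 6) L109116 (by decide +kernel)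
theorem L109118 : W_41 (nat_lit 4) (nat_lit 0x160009000480024000300000000000000000000000) (nat_lit 0x0) (nat_lit 0x7000280000000000040002000000000000000000000000) := T_41 (nat_lit 114) (nat_lit 97) (nat_lit 6) (nat_lit 11) (nat_lit 9) L109117 (by decide +kernel)
theorem L109119 : W_41 (nat_lit 5) (nat_lit 0x160009000480024000200000000000000000000000) (nat_lit 0x0) (nat_lit 0x7000280000000000040002100008000000000000000000) := T_41 (nat_lit 92) (nat_lit 75) (nat_lit 4) (nat_lit 8) (nat_lit 8) L109118 (by decide +kernel)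
theorem L109120 : W_41 (nat_lit 2) (nat_lit 0x160009000480074000200000000000000000000000) (nat_lit 0x0) (nat_lit 0x840008000000000000000000000000000) := D_41 (nat_lit 111) (nat_lit 131) (nat_lit 126) (nat_lit 3) (nat_lit 8) (nat_lit 6) (nat_lit 1) (nat_lit 11) (nat_lit 6) (by decide +kernel)
theorem L109121 : W_41 (nat_lit 3) (nat_lit 0x160009000480064000200000000000000000000000) (nat_lit 0x0) (nat_lit 0x840018000800000000000000000000000) := T_41 (nat_lit 112) (nat_lit 95) (nat_lit 4) (nat_lit 11) (nat_lit 9) L109120 (by decide +kernel)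
theorem L109122 : W_41 (nat_lit 4) (nat_lit 0x160009000480024000200000000000000000000000) (nat_lit 0x0) (nat_lit 0x840058002800000000000000000000000) := T_41 (nat_lit 114) (nat_lit 97) (nat_lit 6) (nat_lit 11) (nat_lit 9) L109121 (by decide +kernel)
theorem L109123 : W_41 (nat_lit 6) (nat_lit 0x160009000480004000200000000000000000000000) (nat_lit 0x0) (nat_lit 0x7000280000000840078002900008000000000000000000) := Q_41 (nat_lit 113) (C_41 L109111 (C_41 L109119 (C_41 L109122 N_41))) (by decide +kernel)
theorem L109124 : W_41 (nat_lit 2) (nat_lit 0x1e0009000480024000300000000000000000000000) (nat_lit 0x0) (nat_lit 0x18000800000000000000000000000) := D_41 (nat_lit 112) (nat_lit 111) (nat_lit 95) (nat_lit 0) (nat_lit 11) (nat_lit 6) (nat_lit 4) (nat_lit 11) (nat_lit 9) (by decide +kernel)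
theorem L109125 : W_41 (nat_lit 3) (nat_lit 0x1e0009000480004000300000000000000000000000) (nat_lit 0x0) (nat_lit 0x1000000000000000038000800000000000000000000000) := T_41 (nat_lit 113) (nat_lit 180) (nat_lit 5) (nat_lit 11) (nat_lit 6) L109124 (by decide +kernel)
theorem L109126 : W_41 (nat_lit 4) (nat_lit 0x160009000480004000300000000000000000000000) (nat_lit 0x0) (nat_lit 0x1000080010000000038000800000000000000000000000) := T_41 (nat_lit 163) (nat_lit 148) (nat_lit 2) (nat_lit 8) (nat_lit 9) L109125 (by decide +kernel)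
theorem L109127 : W_41 (nat_lit 5) (nat_lit 0x160009000480004000200000000000000000000000) (nat_lit 0x0) (nat_lit 0x1000080010000000038000900008000000000000000000) := T_41 (nat_lit 92) (nat_lit 75) (nat_lit 4) (nat_lit 8) (nat_lit 8) L109126 (by decide +kernel)
theorem L109128 : W_41 (nat_lit 10) (nat_lit 0x60009000480004000200000000000000000000000) (nat_lit 0x0) (nat_lit 0x20001c000e0007000380014000840078003900108000000000000000000) := Q_41 (nat_lit 164) (C_41 L109098 (C_41 L109101 (C_41 L109109 (C_41 L109115 (C_41 L109123 (C_41 L109127 N_41)))))) (by decide +kernel)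
theorem L109129 : W_41 (nat_lit 2) (nat_lit 0x6000d00078002400020001a005800000000000000) (nat_lit 0x0) (nat_lit 0x80000000000000001000080000000000000000000) := D_41 (nat_lit 96) (nat_lit 79) (nat_lit 163) (nat_lit 5) (nat_lit 11) (nat_lit 4) (nat_lit 5) (nat_lit 11) (nat_lit 5) (by decide +kernel)
theorem L109130 : W_41 (nat_lit 3) (nat_lit 0x6000d00078000400020001a005800000000000000) (nat_lit 0x0) (nat_lit 0x80000000000060001000080000000000000000000) := T_41 (nat_lit 113) (nat_lit 114) (nat_lit 2) (nat_lit 8) (nat_lit 7) L109129 (by decide +kernel)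
theorem L109131 : W_41 (nat_lit 4) (nat_lit 0x6000900078000400020001a005800000000000000) (nat_lit 0x0) (nat_lit 0x80004000040060001000080000000000000000000) := T_41 (nat_lit 146) (nat_lit 126) (nat_lit 3) (nat_lit 7) (nat_lit 7) L109130 (by decide +kernel)
theorem L109132 : W_41 (nat_lit 5) (nat_lit 0x6000900058000400020001a005800000000000000) (nat_lit 0x0) (nat_lit 0x80014000240060001000080000000000000000000) := T_41 (nat_lit 129) (nat_lit 148) (nat_lit 3) (nat_lit 8) (nat_lit 7) L109131 (by decide +kernel)
theorem L109133 : W_41 (nat_lit 6) (nat_lit 0x6000900058000400020001a001800000000000000) (nat_lit 0x0) (nat_lit 0x80014000240060001000080006000000000000000) := T_41 (nat_lit 62) (nat_lit 61) (nat_lit 1) (nat_lit 11) (nat_lit 3) L109132 (by decide +kernel)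
theorem L109134 : W_41 (nat_lit 7) (nat_lit 0x6000900048000400020001a001800000000000000) (nat_lit 0x0) (nat_lit 0x80014000340068001000080006000000000000000) := T_41 (nat_lit 128) (nat_lit 111) (nat_lit 7) (nat_lit 8) (nat_lit 3) L109133 (by decide +kernel)
theorem L109135 : W_41 (nat_lit 8) (nat_lit 0x60009000480004000200018001800000000000000) (nat_lit 0x0) (nat_lit 0x80014000340068001000086006000000000000000) := T_41 (nat_lit 73) (nat_lit 74) (nat_lit 2) (nat_lit 5) (nat_lit 4) L109134 (by decide +kernel)
theorem L109136 : W_41 (nat_lit 9) (nat_lit 0x60009000480004000200018001000000000000000) (nat_lit 0x0) (nat_lit 0x80014000340068001000086006800080000000000) := T_41 (nat_lit 59) (nat_lit 43) (nat_lit 6) (nat_lit 8) (nat_lit 6) L109135 (by decide +kernel)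
theorem L109137 : W_41 (nat_lit 10) (nat_lit 0x60009000480004000200018000000000000000000) (nat_lit 0x0) (nat_lit 0x800140003400680010000a6007800080000000000) := T_41 (nat_lit 60) (nat_lit 77) (nat_lit 6) (nat_lit 8) (nat_lit 7) L109136 (by decide +kernel)
theorem L109138 : W_41 (nat_lit 11) (nat_lit 0x60009000480004000200008000000000000000000) (nat_lit 0x0) (nat_lit 0x800140003400680010000b6007c00080000000000) := T_41 (nat_lit 76) (nat_lit 58) (nat_lit 4) (nat_lit 8) (nat_lit 7) L109137 (by decide +kernel)
theorem L109139 : W_41 (nat_lit 12) (nat_lit 0x60009000480004000200000000000000000000000) (nat_lit 0x0) (nat_lit 0x800140003400680011000be007c00080000000000) := T_41 (nat_lit 75) (nat_lit 92) (nat_lit 4) (nat_lit 8) (nat_lit 8) L109138 (by decide +kernel)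
theorem L109140 : W_41 (nat_lit 2) (nat_lit 0x60019000580004000200018001000000000000000) (nat_lit 0x0) (nat_lit 0x8000000000000800080000000000) := D_41 (nat_lit 59) (nat_lit 111) (nat_lit 43) (nat_lit 7) (nat_lit 8) (nat_lit 3) (nat_lit 6) (nat_lit 8) (nat_lit 6) (by decide +kernel)
theorem L109141 : W_41 (nat_lit 3) (nat_lit 0x60019000580004000200018000000000000000000) (nat_lit 0x0) (nat_lit 0x8000000020001800080000000000) := T_41 (nat_lit 60) (nat_lit 77) (nat_lit 6) (nat_lit 8) (nat_lit 7) L109140 (by decide +kernel)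
theorem L109142 : W_41 (nat_lit 4) (nat_lit 0x60019000580004000200008000000000000000000) (nat_lit 0x0) (nat_lit 0x8000000030001c00080000000000) := T_41 (nat_lit 76) (nat_lit 58) (nat_lit 4) (nat_lit 8) (nat_lit 7) L109141 (by decide +kernel)
theorem L109143 : W_41 (nat_lit 5) (nat_lit 0x60019000480004000200008000000000000000000) (nat_lit 0x0) (nat_lit 0x300008000000030001c00080000000000) := T_41 (nat_lit 128) (nat_lit 129) (nat_lit 3) (nat_lit 8) (nat_lit 7) L109142 (by decide +kernel)
theorem L109144 : W_41 (nat_lit 6) (nat_lit 0x60019000480004000200000000000000000000000) (nat_lit 0x0) (nat_lit 0x300008000100038001c00080000000000) := T_41 (nat_lit 75) (nat_lit 92) (nat_lit 4) (nat_lit 8) (nat_lit 8) L109143 (by decide +kernel)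
theorem L109145 : W_41 (nat_lit 12) (nat_lit 0x60009000480004000200000000000000000000000) (nat_lit 0x0) (nat_lit 0x1e000f001f80074003b003f8007100038001c00080000000000) := Q_41 (nat_lit 148) (C_41 L109003 (C_41 L109144 (C_41 L109035 (C_41 L108981 N_41)))) (by decide +kernel)
theorem L109146 : W_41 (nat_lit 2) (nat_lit 0x2000160059000680004000200000000000000000000000) (nat_lit 0x0) (nat_lit 0x40000000000000000800040000000000000000000000000000) := D_41 (nat_lit 131) (nat_lit 114) (nat_lit 198) (nat_lit 6) (nat_lit 11) (nat_lit 10) (nat_lit 6) (nat_lit 11) (nat_lit 11) (by decide +kernel)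
theorem L109147 : W_41 (nat_lit 3) (nat_lit 0x160059000680004000200000000000000000000000) (nat_lit 0x0) (nat_lit 0x40002000000000000800050000000000000000000000000000) := T_41 (nat_lit 181) (nat_lit 112) (nat_lit 4) (nat_lit 11) (nat_lit 10) L109146 (by decide +kernel)
theorem L109148 : W_41 (nat_lit 4) (nat_lit 0x160019000680004000200000000000000000000000) (nat_lit 0x0) (nat_lit 0x40002000000060000800050000000000000000000000000000) := T_41 (nat_lit 150) (nat_lit 149) (nat_lit 0) (nat_lit 14) (nat_lit 8) L109147 (by decide +kernel)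
theorem L109149 : W_41 (nat_lit 5) (nat_lit 0x160019000480004000200000000000000000000000) (nat_lit 0x0) (nat_lit 0x40002000000060000b00050000000000000000000000000000) := T_41 (nat_lit 129) (nat_lit 128) (nat_lit 3) (nat_lit 8) (nat_lit 7) L109148 (by decide +kernel)
theorem L109150 : W_41 (nat_lit 6) (nat_lit 0x60019000480004000200000000000000000000000) (nat_lit 0x0) (nat_lit 0x40002000180060000b00050000000000000000000000000000) := T_41 (nat_lit 164) (nat_lit 163) (nat_lit 2) (nat_lit 8) (nat_lit 9) L109149 (by decide +kernel)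
theorem L109151 : W_41 (nat_lit 2) (nat_lit 0xe000260019000d80044000200000000000000000000000) (nat_lit 0x0) (nat_lit 0x1000080004000000000000000000000000) := D_41 (nat_lit 115) (nat_lit 98) (nat_lit 132) (nat_lit 6) (nat_lit 12) (nat_lit 9) (nat_lit 6) (nat_lit 12) (nat_lit 10) (by decide +kernel)
theorem L109152 : W_41 (nat_lit 3) (nat_lit 0xe000260019000d80004000200000000000000000000000) (nat_lit 0x0) (nat_lit 0x4000000010000c0004000000000000000000000000) := T_41 (nat_lit 114) (nat_lit 166) (nat_lit 7) (nat_lit 12) (nat_lit 6) L109151 (by decide +kernel)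
theorem L109153 : W_41 (nat_lit 4) (nat_lit 0x6000260019000d80004000200000000000000000000000) (nat_lit 0x0) (nat_lit 0x1000080004000000010000c0004000000000000000000000000) := T_41 (nat_lit 183) (nat_lit 200) (nat_lit 7) (nat_lit 12) (nat_lit 7) L109152 (by decide +kernel)
theorem L109154 : W_41 (nat_lit 5) (nat_lit 0x4000260019000d80004000200000000000000000000000) (nat_lit 0x0) (nat_lit 0x14000a0004000000010000c0004000000000000000000000000) := T_41 (nat_lit 181) (nat_lit 198) (nat_lit 5) (nat_lit 12) (nat_lit 7) L109153 (by decide +kernel)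
theorem L109155 : W_41 (nat_lit 6) (nat_lit 0x4000260019000580004000200000000000000000000000) (nat_lit 0x0) (nat_lit 0x14000a0004000000018000e0004000000000000000000000000) := T_41 (nat_lit 131) (nat_lit 113) (nat_lit 4) (nat_lit 12) (nat_lit 10) L109154 (by decide +kernel)
theorem L109156 : W_41 (nat_lit 7) (nat_lit 0x260019000580004000200000000000000000000000) (nat_lit 0x0) (nat_lit 0x1c000e0004000000018000e0004000000000000000000000000) := T_41 (nat_lit 182) (nat_lit 199) (nat_lit 4) (nat_lit 12) (nat_lit 11) L109155 (by decide +kernel)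
theorem L109157 : W_41 (nat_lit 8) (nat_lit 0x260019000480004000200000000000000000000000) (nat_lit 0x0) (nat_lit 0x1c000e000400000001b000e0004000000000000000000000000) := T_41 (nat_lit 128) (nat_lit 129) (nat_lit 3) (nat_lit 8) (nat_lit 7) L109156 (by decide +kernel)
theorem L109158 : W_41 (nat_lit 2) (nat_lit 0x4000260019000480004000200000000000000000000000) (nat_lit 0x0) (nat_lit 0x800020001000000000000000000000000) := D_41 (nat_lit 113) (nat_lit 96) (nat_lit 131) (nat_lit 7) (nat_lit 11) (nat_lit 5) (nat_lit 4) (nat_lit 12) (nat_lit 10) (by decide +kernel)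
theorem L109159 : W_41 (nat_lit 3) (nat_lit 0x260019000480004000200000000000000000000000) (nat_lit 0x0) (nat_lit 0x80004000000000000800020001000000000000000000000000) := T_41 (nat_lit 182) (nat_lit 199) (nat_lit 4) (nat_lit 12) (nat_lit 11) L109158 (by decide +kernel)
theorem L109160 : W_41 (nat_lit 2) (nat_lit 0x8000000066003d001680084000200000000000000000000000) (nat_lit 0x0) (nat_lit 0x800100008000000000000000000000000) := D_41 (nat_lit 116) (nat_lit 99) (nat_lit 131) (nat_lit 6) (nat_lit 13) (nat_lit 9) (nat_lit 2) (nat_lit 10) (nat_lit 7) (by decide +kernel)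
theorem L109161 : W_41 (nat_lit 3) (nat_lit 0x8000000026003d001680084000200000000000000000000000) (nat_lit 0x0) (nat_lit 0xc00000000800100008000000000000000000000000) := T_41 (nat_lit 166) (nat_lit 167) (nat_lit 3) (nat_lit 10) (nat_lit 8) L109160 (by decide +kernel)
theorem L109162 : W_41 (nat_lit 4) (nat_lit 0x8000000026003d001680004000200000000000000000000000) (nat_lit 0x0) (nat_lit 0xc0000000080018000c000000000000000000000000) := T_41 (nat_lit 115) (nat_lit 98) (nat_lit 5) (nat_lit 13) (nat_lit 5) L109161 (by decide +kernel)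
theorem L109163 : W_41 (nat_lit 5) (nat_lit 0x8000000026003d000680004000200000000000000000000000) (nat_lit 0x0) (nat_lit 0xc0000000380018000c000000000000000000000000) := T_41 (nat_lit 132) (nat_lit 133) (nat_lit 2) (nat_lit 10) (nat_lit 8) L109162 (by decide +kernel)
theorem L109164 : W_41 (nat_lit 6) (nat_lit 0x80000000260039000680004000200000000000000000000000) (nat_lit 0x0) (nat_lit 0xc8000400380018000c000000000000000000000000) := T_41 (nat_lit 146) (nat_lit 163) (nat_lit 1) (nat_lit 13) (nat_lit 8) L109163 (by decide +kernel)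
theorem L109165 : W_41 (nat_lit 7) (nat_lit 0x80000000260019000680004000200000000000000000000000) (nat_lit 0x0) (nat_lit 0xc8006400380018000c000000000000000000000000) := T_41 (nat_lit 149) (nat_lit 150) (nat_lit 0) (nat_lit 14) (nat_lit 8) L109164 (by decide +kernel)
theorem L109166 : W_41 (nat_lit 8) (nat_lit 0x260019000680004000200000000000000000000000) (nat_lit 0x0) (nat_lit 0x80004000c8006400380018000c000000000000000000000000) := T_41 (nat_lit 199) (nat_lit 182) (nat_lit 4) (nat_lit 12) (nat_lit 11) L109165 (by decide +kernel)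
theorem L109167 : W_41 (nat_lit 9) (nat_lit 0x260019000480004000200000000000000000000000) (nat_lit 0x0) (nat_lit 0x80004000c80064003b0018000c000000000000000000000000) := T_41 (nat_lit 129) (nat_lit 128) (nat_lit 3) (nat_lit 8) (nat_lit 7) L109166 (by decide +kernel)
theorem L109168 : W_41 (nat_lit 2) (nat_lit 0x66003d001680084001200000000000000000000000) (nat_lit 0x0) (nat_lit 0x800100008000000000000000000000000) := D_41 (nat_lit 116) (nat_lit 99) (nat_lit 131) (nat_lit 6) (nat_lit 13) (nat_lit 9) (nat_lit 2) (nat_lit 10) (nat_lit 7) (by decide +kernel)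
theorem L109169 : W_41 (nat_lit 3) (nat_lit 0x26003d001680084001200000000000000000000000) (nat_lit 0x0) (nat_lit 0xc00000000800100008000000000000000000000000) := T_41 (nat_lit 166) (nat_lit 167) (nat_lit 3) (nat_lit 10) (nat_lit 8) L109168 (by decide +kernel)
theorem L109170 : W_41 (nat_lit 4) (nat_lit 0x26003d001680004001200000000000000000000000) (nat_lit 0x0) (nat_lit 0xc0000000080018000c000000000000000000000000) := T_41 (nat_lit 115) (nat_lit 98) (nat_lit 5) (nat_lit 13) (nat_lit 5) L109169 (by decide +kernel)
theorem L109171 : W_41 (nat_lit 5) (nat_lit 0x26003d000680004001200000000000000000000000) (nat_lit 0x0) (nat_lit 0xc0000000380018000c000000000000000000000000) := T_41 (nat_lit 132) (nat_lit 133) (nat_lit 2) (nat_lit 10) (nat_lit 8) L109170 (by decide +kernel)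
theorem L109172 : W_41 (nat_lit 6) (nat_lit 0x260039000680004001200000000000000000000000) (nat_lit 0x0) (nat_lit 0xc8000400380018000c000000000000000000000000) := T_41 (nat_lit 146) (nat_lit 163) (nat_lit 1) (nat_lit 13) (nat_lit 8) L109171 (by decide +kernel)
theorem L109173 : W_41 (nat_lit 7) (nat_lit 0x260019000680004001200000000000000000000000) (nat_lit 0x0) (nat_lit 0xc8006400380018000c000000000000000000000000) := T_41 (nat_lit 149) (nat_lit 150) (nat_lit 0) (nat_lit 14) (nat_lit 8) L109172 (by decide +kernel)
theorem L109174 : W_41 (nat_lit 8) (nat_lit 0x260019000480004001200000000000000000000000) (nat_lit 0x0) (nat_lit 0xc80064003b0018000c000000000000000000000000) := T_41 (nat_lit 129) (nat_lit 128) (nat_lit 3) (nat_lit 8) (nat_lit 7) L109173 (by decide +kernel)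
theorem L109175 : W_41 (nat_lit 9) (nat_lit 0x260019000480004000200000000000000000000000) (nat_lit 0x0) (nat_lit 0xc80064003b001a000d000000000000000000000000) := T_41 (nat_lit 96) (nat_lit 113) (nat_lit 7) (nat_lit 11) (nat_lit 5) L109174 (by decide +kernel)
theorem L109176 : W_41 (nat_lit 2) (nat_lit 0x8000000066003d0016800a4000200000000000000000000000) (nat_lit 0x0) (nat_lit 0x140002000000000000000000000000) := D_41 (nat_lit 114) (nat_lit 97) (nat_lit 116) (nat_lit 4) (nat_lit 13) (nat_lit 9) (nat_lit 1) (nat_lit 14) (nat_lit 6) (by decide +kernel)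
theorem L109177 : W_41 (nat_lit 3) (nat_lit 0x8000000066003d001680024000200000000000000000000000) (nat_lit 0x0) (nat_lit 0x1c0006000000000000000000000000) := T_41 (nat_lit 115) (nat_lit 98) (nat_lit 5) (nat_lit 13) (nat_lit 5) L109176 (by decide +kernel)
theorem L109178 : W_41 (nat_lit 4) (nat_lit 0x8000000026003d001680024000200000000000000000000000) (nat_lit 0x0) (nat_lit 0xc000000000001c0006000000000000000000000000) := T_41 (nat_lit 166) (nat_lit 167) (nat_lit 3) (nat_lit 10) (nat_lit 8) L109177 (by decide +kernel)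
theorem L109179 : W_41 (nat_lit 5) (nat_lit 0x8000000026003d000680024000200000000000000000000000) (nat_lit 0x0) (nat_lit 0xc000000030001c0006000000000000000000000000) := T_41 (nat_lit 132) (nat_lit 133) (nat_lit 2) (nat_lit 10) (nat_lit 8) L109178 (by decide +kernel)
theorem L109180 : W_41 (nat_lit 6) (nat_lit 0x80000000260039000680024000200000000000000000000000) (nat_lit 0x0) (nat_lit 0xc800040030001c0006000000000000000000000000) := T_41 (nat_lit 146) (nat_lit 163) (nat_lit 1) (nat_lit 13) (nat_lit 8) L109179 (by decide +kernel)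
theorem L109181 : W_41 (nat_lit 7) (nat_lit 0x80000000260039000680004000200000000000000000000000) (nat_lit 0x0) (nat_lit 0xc800040030001e0007000000000000000000000000) := T_41 (nat_lit 113) (nat_lit 96) (nat_lit 7) (nat_lit 11) (nat_lit 5) L109180 (by decide +kernel)
theorem L109182 : W_41 (nat_lit 8) (nat_lit 0x80000000260019000680004000200000000000000000000000) (nat_lit 0x0) (nat_lit 0xc800640030001e0007000000000000000000000000) := T_41 (nat_lit 149) (nat_lit 150) (nat_lit 0) (nat_lit 14) (nat_lit 8) L109181 (by decide +kernel)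
theorem L109183 : W_41 (nat_lit 9) (nat_lit 0x260019000680004000200000000000000000000000) (nat_lit 0x0) (nat_lit 0x80004000c800640030001e0007000000000000000000000000) := T_41 (nat_lit 199) (nat_lit 182) (nat_lit 4) (nat_lit 12) (nat_lit 11) L109182 (by decide +kernel)
theorem L109184 : W_41 (nat_lit 10) (nat_lit 0x260019000480004000200000000000000000000000) (nat_lit 0x0) (nat_lit 0x80004000c800640033001e0007000000000000000000000000) := T_41 (nat_lit 129) (nat_lit 128) (nat_lit 3) (nat_lit 8) (nat_lit 7) L109183 (by decide +kernel)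
theorem L109185 : W_41 (nat_lit 11) (nat_lit 0x60019000480004000200000000000000000000000) (nat_lit 0x0) (nat_lit 0x1c000e000e80064003b001e000f000000000000000000000000) := Q_41 (nat_lit 165) (C_41 L109015 (C_41 L109157 (C_41 L109159 (C_41 L109167 (C_41 L109175 (C_41 L109184 N_41)))))) (by decide +kernel)
theorem L109186 : W_41 (nat_lit 2) (nat_lit 0x160019000480034000200000000000000000000000) (nat_lit 0x0) (nat_lit 0x840008000000000000000000000000000) := D_41 (nat_lit 111) (nat_lit 131) (nat_lit 126) (nat_lit 3) (nat_lit 8) (nat_lit 6) (nat_lit 1) (nat_lit 11) (nat_lit 6) (by decide +kernel)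
theorem L109187 : W_41 (nat_lit 3) (nat_lit 0x160019000480024000200000000000000000000000) (nat_lit 0x0) (nat_lit 0x840018000800000000000000000000000) := T_41 (nat_lit 112) (nat_lit 95) (nat_lit 4) (nat_lit 11) (nat_lit 9) L109186 (by decide +kernel)
theorem L109188 : W_41 (nat_lit 4) (nat_lit 0x60019000480024000200000000000000000000000) (nat_lit 0x0) (nat_lit 0x180000000840018000800000000000000000000000) := T_41 (nat_lit 164) (nat_lit 163) (nat_lit 2) (nat_lit 8) (nat_lit 9) L109187 (by decide +kernel)
theorem L109189 : W_41 (nat_lit 2) (nat_lit 0xe0019000480024000200000000000000000000000) (nat_lit 0x0) (nat_lit 0x24000000000001000000000000000000000000) := D_41 (nat_lit 146) (nat_lit 149) (nat_lit 96) (nat_lit 1) (nat_lit 13) (nat_lit 8) (nat_lit 5) (nat_lit 11) (nat_lit 5) (by decide +kernel)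
theorem L109190 : W_41 (nat_lit 3) (nat_lit 0x60019000480024000200000000000000000000000) (nat_lit 0x0) (nat_lit 0x180024000000000001000000000000000000000000) := T_41 (nat_lit 163) (nat_lit 164) (nat_lit 2) (nat_lit 8) (nat_lit 9) L109189 (by decide +kernel)
theorem L109191 : W_41 (nat_lit 5) (nat_lit 0x60019000480004000200000000000000000000000) (nat_lit 0x0) (nat_lit 0x380024000840038003800180008000000000000000) := Q_41 (nat_lit 113) (C_41 L108992 (C_41 L109188 (C_41 L109190 N_41))) (by decide +kernel)
theorem L109192 : W_41 (nat_lit 2) (nat_lit 0x6000160009000480024000200000000000000000000000) (nat_lit 0x0) (nat_lit 0x800040002000000000000000000000000) := D_41 (nat_lit 114) (nat_lit 97) (nat_lit 131) (nat_lit 6) (nat_lit 11) (nat_lit 9) (nat_lit 6) (nat_lit 11) (nat_lit 10) (by decide +kernel)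
theorem L109193 : W_41 (nat_lit 3) (nat_lit 0x6000160009000480004000200000000000000000000000) (nat_lit 0x0) (nat_lit 0x200000000800060002000000000000000000000000) := T_41 (nat_lit 113) (nat_lit 165) (nat_lit 7) (nat_lit 11) (nat_lit 6) L109192 (by decide +kernel)
theorem L109194 : W_41 (nat_lit 4) (nat_lit 0x2000160009000480004000200000000000000000000000) (nat_lit 0x0) (nat_lit 0x80004000200000000800060002000000000000000000000000) := T_41 (nat_lit 182) (nat_lit 199) (nat_lit 7) (nat_lit 11) (nat_lit 7) L109193 (by decide +kernel)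
theorem L109195 : W_41 (nat_lit 2) (nat_lit 0x2000160009000e80004000200000000000000000000000) (nat_lit 0x0) (nat_lit 0x10000100008000000000000000000000000000) := D_41 (nat_lit 128) (nat_lit 148) (nat_lit 111) (nat_lit 3) (nat_lit 8) (nat_lit 7) (nat_lit 0) (nat_lit 12) (nat_lit 7) (by decide +kernel)
theorem L109196 : W_41 (nat_lit 3) (nat_lit 0x2000160009000c80004000200000000000000000000000) (nat_lit 0x0) (nat_lit 0x10000300018000000000000000000000000000) := T_41 (nat_lit 129) (nat_lit 112) (nat_lit 4) (nat_lit 11) (nat_lit 10) L109195 (by decide +kernel)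
theorem L109197 : W_41 (nat_lit 4) (nat_lit 0x2000160009000480004000200000000000000000000000) (nat_lit 0x0) (nat_lit 0x10000b00058000000000000000000000000000) := T_41 (nat_lit 131) (nat_lit 114) (nat_lit 6) (nat_lit 11) (nat_lit 10) L109196 (by decide +kernel)
theorem L109198 : W_41 (nat_lit 2) (nat_lit 0x2000160009000780004000200000000000000000000000) (nat_lit 0x0) (nat_lit 0x40000000000004000040000000000000000000000000000000) := D_41 (nat_lit 146) (nat_lit 126) (nat_lit 198) (nat_lit 3) (nat_lit 7) (nat_lit 7) (nat_lit 4) (nat_lit 11) (nat_lit 11) (by decide +kernel)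
theorem L109199 : W_41 (nat_lit 3) (nat_lit 0x2000160009000680004000200000000000000000000000) (nat_lit 0x0) (nat_lit 0x40000000000014000140000000000000000000000000000000) := T_41 (nat_lit 128) (nat_lit 148) (nat_lit 3) (nat_lit 8) (nat_lit 7) L109198 (by decide +kernel)
theorem L109200 : W_41 (nat_lit 4) (nat_lit 0x2000160009000480004000200000000000000000000000) (nat_lit 0x0) (nat_lit 0x40000000000014000340010000000000000000000000000000) := T_41 (nat_lit 129) (nat_lit 112) (nat_lit 4) (nat_lit 11) (nat_lit 10) L109199 (by decide +kernel)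
theorem L109201 : W_41 (nat_lit 5) (nat_lit 0x160009000480004000200000000000000000000000) (nat_lit 0x0) (nat_lit 0xc0006000200014000b40078002000000000000000000000000) := Q_41 (nat_lit 181) (C_41 L109194 (C_41 L109197 (C_41 L109200 N_41))) (by decide +kernel)
theorem L109202 : W_41 (nat_lit 2) (nat_lit 0x20001e0009000f80004000200000000000000000000000) (nat_lit 0x0) (nat_lit 0x40000000000004000040000000000000000000000000000000) := D_41 (nat_lit 146) (nat_lit 198) (nat_lit 126) (nat_lit 4) (nat_lit 11) (nat_lit 11) (nat_lit 3) (nat_lit 7) (nat_lit 7) (by decide +kernel)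
theorem L109203 : W_41 (nat_lit 3) (nat_lit 0x20001e0009000e80004000200000000000000000000000) (nat_lit 0x0) (nat_lit 0x40000000000004000140008000000000000000000000000000) := T_41 (nat_lit 128) (nat_lit 111) (nat_lit 0) (nat_lit 12) (nat_lit 7) L109202 (by decide +kernel)
theorem L109204 : W_41 (nat_lit 4) (nat_lit 0x20001e0009000680004000200000000000000000000000) (nat_lit 0x0) (nat_lit 0x40000000000004000940048000000000000000000000000000) := T_41 (nat_lit 131) (nat_lit 114) (nat_lit 6) (nat_lit 11) (nat_lit 10) L109203 (by decide +kernel)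
theorem L109205 : W_41 (nat_lit 5) (nat_lit 0x20001e0009000480004000200000000000000000000000) (nat_lit 0x0) (nat_lit 0x40000000000004000b40058000000000000000000000000000) := T_41 (nat_lit 129) (nat_lit 112) (nat_lit 4) (nat_lit 11) (nat_lit 10) L109204 (by decide +kernel)
theorem L109206 : W_41 (nat_lit 6) (nat_lit 0x1e0009000480004000200000000000000000000000) (nat_lit 0x0) (nat_lit 0x40006000000004000b40058000000000000000000000000000) := T_41 (nat_lit 181) (nat_lit 182) (nat_lit 3) (nat_lit 8) (nat_lit 9) L109205 (by decide +kernel)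
theorem L109207 : W_41 (nat_lit 7) (nat_lit 0x160009000480004000200000000000000000000000) (nat_lit 0x0) (nat_lit 0x40006000080014000b40058000000000000000000000000000) := T_41 (nat_lit 163) (nat_lit 148) (nat_lit 2) (nat_lit 8) (nat_lit 9) L109206 (by decide +kernel)
theorem L109208 : W_41 (nat_lit 2) (nat_lit 0x2000160009000480004000200000000000000000000000) (nat_lit 0x0) (nat_lit 0x80004000080000000000000000000000000000000000000000) := D_41 (nat_lit 182) (nat_lit 163) (nat_lit 199) (nat_lit 3) (nat_lit 8) (nat_lit 9) (nat_lit 7) (nat_lit 11) (nat_lit 7) (by decide +kernel)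
theorem L109209 : W_41 (nat_lit 2) (nat_lit 0x3000160009000680024000200000000000000000000000) (nat_lit 0x0) (nat_lit 0x900040000000000000000000000000000) := D_41 (nat_lit 114) (nat_lit 128) (nat_lit 131) (nat_lit 2) (nat_lit 8) (nat_lit 7) (nat_lit 6) (nat_lit 11) (nat_lit 10) (by decide +kernel)
theorem L109210 : W_41 (nat_lit 3) (nat_lit 0x3000160009000680004000200000000000000000000000) (nat_lit 0x0) (nat_lit 0x80000000900060000000000000000000000000000) := T_41 (nat_lit 113) (nat_lit 163) (nat_lit 5) (nat_lit 11) (nat_lit 6) L109209 (by decide +kernel)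
theorem L109211 : W_41 (nat_lit 4) (nat_lit 0x2000160009000680004000200000000000000000000000) (nat_lit 0x0) (nat_lit 0x20001000080000000900060000000000000000000000000000) := T_41 (nat_lit 180) (nat_lit 197) (nat_lit 5) (nat_lit 11) (nat_lit 7) L109210 (by decide +kernel)
theorem L109212 : W_41 (nat_lit 5) (nat_lit 0x2000160009000480004000200000000000000000000000) (nat_lit 0x0) (nat_lit 0x20001000080000000b00070000000000000000000000000000) := T_41 (nat_lit 129) (nat_lit 112) (nat_lit 4) (nat_lit 11) (nat_lit 10) L109211 (by decide +kernel)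
theorem L109213 : W_41 (nat_lit 6) (nat_lit 0x160009000480004000200000000000000000000000) (nat_lit 0x0) (nat_lit 0xa0007000280000000b00070002000000000000000000000000) := Q_41 (nat_lit 181) (C_41 L109194 (C_41 L109208 (C_41 L109212 N_41))) (by decide +kernel)
theorem L109214 : W_41 (nat_lit 2) (nat_lit 0x1e0009000480024001200000000000000000000000) (nat_lit 0x0) (nat_lit 0x10000800040000000000000000000) := D_41 (nat_lit 95) (nat_lit 78) (nat_lit 112) (nat_lit 4) (nat_lit 11) (nat_lit 8) (nat_lit 4) (nat_lit 11) (nat_lit 9) (by decide +kernel)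
theorem L109215 : W_41 (nat_lit 3) (nat_lit 0x1e0009000480024000200000000000000000000000) (nat_lit 0x0) (nat_lit 0x4000000010001800040000000000000000000) := T_41 (nat_lit 96) (nat_lit 146) (nat_lit 5) (nat_lit 11) (nat_lit 5) L109214 (by decide +kernel)
theorem L109216 : W_41 (nat_lit 4) (nat_lit 0x1e0009000480004000200000000000000000000000) (nat_lit 0x0) (nat_lit 0x1000000004000000030001800040000000000000000000) := T_41 (nat_lit 113) (nat_lit 180) (nat_lit 5) (nat_lit 11) (nat_lit 6) L109215 (by decide +kernel)
theorem L109217 : W_41 (nat_lit 5) (nat_lit 0x160009000480004000200000000000000000000000) (nat_lit 0x0) (nat_lit 0x1000080014000000030001800040000000000000000000) := T_41 (nat_lit 163) (nat_lit 148) (nat_lit 2) (nat_lit 8) (nat_lit 9) L109216 (by decide +kernel)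
theorem L109218 : W_41 (nat_lit 8) (nat_lit 0x60009000480004000200000000000000000000000) (nat_lit 0x0) (nat_lit 0xe0007000380014000b40078003800040000000000000000000) := Q_41 (nat_lit 164) (C_41 L109201 (C_41 L109101 (C_41 L109207 (C_41 L109213 (C_41 L109217 N_41))))) (by decide +kernel)
theorem L109219 : W_41 (nat_lit 2) (nat_lit 0x60019000580004001200078004000000000000000) (nat_lit 0x0) (nat_lit 0x2000080008000000000000000) := D_41 (nat_lit 79) (nat_lit 97) (nat_lit 63) (nat_lit 3) (nat_lit 8) (nat_lit 4) (nat_lit 2) (nat_lit 8) (nat_lit 4) (by decide +kernel)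
theorem L109220 : W_41 (nat_lit 3) (nat_lit 0x60019000580004001200078000000000000000000) (nat_lit 0x0) (nat_lit 0x200008000e000000000000000) := T_41 (nat_lit 62) (nat_lit 61) (nat_lit 2) (nat_lit 7) (nat_lit 4) L109219 (by decide +kernel)
theorem L109221 : W_41 (nat_lit 4) (nat_lit 0x60019000580004001200038000000000000000000) (nat_lit 0x0) (nat_lit 0x28000c000e000000000000000) := T_41 (nat_lit 78) (nat_lit 95) (nat_lit 3) (nat_lit 7) (nat_lit 4) L109220 (by decide +kernel)
theorem L109222 : W_41 (nat_lit 5) (nat_lit 0x60019000580004001200018000000000000000000) (nat_lit 0x0) (nat_lit 0x28000e000f000000000000000) := T_41 (nat_lit 77) (nat_lit 60) (nat_lit 6) (nat_lit 8) (nat_lit 7) L109221 (by decide +kernel)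
theorem L109223 : W_41 (nat_lit 6) (nat_lit 0x60019000580004001200008000000000000000000) (nat_lit 0x0) (nat_lit 0x28000f000f400000000000000) := T_41 (nat_lit 76) (nat_lit 58) (nat_lit 4) (nat_lit 8) (nat_lit 7) L109222 (by decide +kernel)
theorem L109224 : W_41 (nat_lit 7) (nat_lit 0x60019000480004001200008000000000000000000) (nat_lit 0x0) (nat_lit 0x3000000028000f000f400000000000000) := T_41 (nat_lit 128) (nat_lit 129) (nat_lit 3) (nat_lit 8) (nat_lit 7) L109223 (by decide +kernel)
theorem L109225 : W_41 (nat_lit 8) (nat_lit 0x60019000480004001200000000000000000000000) (nat_lit 0x0) (nat_lit 0x3000000029000f800f400000000000000) := T_41 (nat_lit 75) (nat_lit 92) (nat_lit 4) (nat_lit 8) (nat_lit 8) L109224 (by decide +kernel)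
theorem L109226 : W_41 (nat_lit 2) (nat_lit 0x60019000580024003a00000000000000000000000) (nat_lit 0x0) (nat_lit 0x100000000000050000000000000000000000000000) := D_41 (nat_lit 164) (nat_lit 114) (nat_lit 112) (nat_lit 6) (nat_lit 11) (nat_lit 9) (nat_lit 4) (nat_lit 11) (nat_lit 9) (by decide +kernel)
theorem L109227 : W_41 (nat_lit 3) (nat_lit 0x60019000580024003200000000000000000000000) (nat_lit 0x0) (nat_lit 0x100000000000050000800040000000000000000000) := T_41 (nat_lit 95) (nat_lit 78) (nat_lit 4) (nat_lit 11) (nat_lit 8) L109226 (by decide +kernel)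
theorem L109228 : W_41 (nat_lit 4) (nat_lit 0x60019000580024001200000000000000000000000) (nat_lit 0x0) (nat_lit 0x100000000000050002800140000000000000000000) := T_41 (nat_lit 97) (nat_lit 80) (nat_lit 6) (nat_lit 11) (nat_lit 8) L109227 (by decide +kernel)
theorem L109229 : W_41 (nat_lit 5) (nat_lit 0x60019000580004001200000000000000000000000) (nat_lit 0x0) (nat_lit 0x300000000000070002800140000000000000000000) := T_41 (nat_lit 113) (nat_lit 165) (nat_lit 7) (nat_lit 11) (nat_lit 5) L109228 (by decide +kernel)
theorem L109230 : W_41 (nat_lit 6) (nat_lit 0x60019000480004001200000000000000000000000) (nat_lit 0x0) (nat_lit 0x300000000300070002800140000000000000000000) := T_41 (nat_lit 128) (nat_lit 129) (nat_lit 3) (nat_lit 8) (nat_lit 7) L109229 (by decide +kernel)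
theorem L109231 : W_41 (nat_lit 2) (nat_lit 0x60019000580024001300080000000000000000000) (nat_lit 0x0) (nat_lit 0x800040002000000000000000) := D_41 (nat_lit 78) (nat_lit 95) (nat_lit 61) (nat_lit 4) (nat_lit 11) (nat_lit 8) (nat_lit 4) (nat_lit 11) (nat_lit 7) (by decide +kernel)
theorem L109232 : W_41 (nat_lit 3) (nat_lit 0x60019000580024001300000000000000000000000) (nat_lit 0x0) (nat_lit 0x8000000008000c0002000000000000000) := T_41 (nat_lit 79) (nat_lit 131) (nat_lit 7) (nat_lit 11) (nat_lit 4) L109231 (by decide +kernel)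
theorem L109233 : W_41 (nat_lit 4) (nat_lit 0x60019000580004001300000000000000000000000) (nat_lit 0x0) (nat_lit 0x2000000008000200008000c0002000000000000000) := T_41 (nat_lit 113) (nat_lit 165) (nat_lit 7) (nat_lit 11) (nat_lit 5) L109232 (by decide +kernel)
theorem L109234 : W_41 (nat_lit 5) (nat_lit 0x60019000480004001300000000000000000000000) (nat_lit 0x0) (nat_lit 0x200000000b000200008000c0002000000000000000) := T_41 (nat_lit 128) (nat_lit 129) (nat_lit 3) (nat_lit 8) (nat_lit 7) L109233 (by decide +kernel)
theorem L109235 : W_41 (nat_lit 6) (nat_lit 0x60019000480004001200000000000000000000000) (nat_lit 0x0) (nat_lit 0x200000000b000200009000c8002000000000000000) := T_41 (nat_lit 92) (nat_lit 75) (nat_lit 4) (nat_lit 8) (nat_lit 8) L109234 (by decide +kernel)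
theorem L109236 : W_41 (nat_lit 9) (nat_lit 0x60019000480004000200000000000000000000000) (nat_lit 0x0) (nat_lit 0x300000000b000700039001f800f400000000000000) := Q_41 (nat_lit 96) (C_41 L109038 (C_41 L109225 (C_41 L109230 (C_41 L109235 N_41)))) (by decide +kernel)
theorem L109237 : W_41 (nat_lit 12) (nat_lit 0x60009000480004000200000000000000000000000) (nat_lit 0x0) (nat_lit 0x1e000f001f80074003b003f000f9001f800f400000000000000) := Q_41 (nat_lit 148) (C_41 L109236 (C_41 L109185 (C_41 L109035 (C_41 L109150 (C_41 L109057 (C_41 L108981 N_41)))))) (by decide +kernel)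
theorem L109238 : W_41 (nat_lit 2) (nat_lit 0x6000900078003400020001a005800000000000000) (nat_lit 0x0) (nat_lit 0x2000100000000000000000800000000000000000000000) := D_41 (nat_lit 164) (nat_lit 95) (nat_lit 181) (nat_lit 4) (nat_lit 11) (nat_lit 9) (nat_lit 4) (nat_lit 11) (nat_lit 10) (by decide +kernel)
theorem L109239 : W_41 (nat_lit 3) (nat_lit 0x6000900078002400020001a005800000000000000) (nat_lit 0x0) (nat_lit 0x2000100000000040010000800000000000000000000000) := T_41 (nat_lit 112) (nat_lit 126) (nat_lit 2) (nat_lit 7) (nat_lit 7) L109238 (by decide +kernel)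
theorem L109240 : W_41 (nat_lit 4) (nat_lit 0x6000900078000400020001a005800000000000000) (nat_lit 0x0) (nat_lit 0x2000100000000040070000800000000000000000000000) := T_41 (nat_lit 113) (nat_lit 114) (nat_lit 2) (nat_lit 8) (nat_lit 7) L109239 (by decide +kernel)
theorem L109241 : W_41 (nat_lit 5) (nat_lit 0x6000900058000400020001a005800000000000000) (nat_lit 0x0) (nat_lit 0x2000100010000240070000800000000000000000000000) := T_41 (nat_lit 129) (nat_lit 148) (nat_lit 3) (nat_lit 8) (nat_lit 7) L109240 (by decide +kernel)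
theorem L109242 : W_41 (nat_lit 6) (nat_lit 0x6000900058000400020001a001800000000000000) (nat_lit 0x0) (nat_lit 0x2000100010000240070000800000006000000000000000) := T_41 (nat_lit 62) (nat_lit 61) (nat_lit 1) (nat_lit 11) (nat_lit 3) L109241 (by decide +kernel)
theorem L109243 : W_41 (nat_lit 7) (nat_lit 0x6000900048000400020001a001800000000000000) (nat_lit 0x0) (nat_lit 0x2000100010000340078000800000006000000000000000) := T_41 (nat_lit 128) (nat_lit 111) (nat_lit 7) (nat_lit 8) (nat_lit 3) L109242 (by decide +kernel)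
theorem L109244 : W_41 (nat_lit 8) (nat_lit 0x60009000480004000200018001800000000000000) (nat_lit 0x0) (nat_lit 0x2000100010000340078000800006006000000000000000) := T_41 (nat_lit 73) (nat_lit 74) (nat_lit 2) (nat_lit 5) (nat_lit 4) L109243 (by decide +kernel)
theorem L109245 : W_41 (nat_lit 9) (nat_lit 0x60009000480004000200018001000000000000000) (nat_lit 0x0) (nat_lit 0x2000100010000340078000800006006800080000000000) := T_41 (nat_lit 59) (nat_lit 43) (nat_lit 6) (nat_lit 8) (nat_lit 6) L109244 (by decide +kernel)
theorem L109246 : W_41 (nat_lit 10) (nat_lit 0x60009000480004000200018000000000000000000) (nat_lit 0x0) (nat_lit 0x2000100010000340078000800026007800080000000000) := T_41 (nat_lit 60) (nat_lit 77) (nat_lit 6) (nat_lit 8) (nat_lit 7) L109245 (by decide +kernel)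
theorem L109247 : W_41 (nat_lit 11) (nat_lit 0x60009000480004000200008000000000000000000) (nat_lit 0x0) (nat_lit 0x2000100010000340078000800036007c00080000000000) := T_41 (nat_lit 76) (nat_lit 58) (nat_lit 4) (nat_lit 8) (nat_lit 7) L109246 (by decide +kernel)
theorem L109248 : W_41 (nat_lit 12) (nat_lit 0x60009000480004000200000000000000000000000) (nat_lit 0x0) (nat_lit 0x200010001000034007800090003e007c00080000000000) := T_41 (nat_lit 75) (nat_lit 92) (nat_lit 4) (nat_lit 8) (nat_lit 8) L109247 (by decide +kernel)
theorem L109249 : W_41 (nat_lit 6) (nat_lit 0x160009000480004000200000000000000000000000) (nat_lit 0x0) (nat_lit 0x40002000080070000b00050000000000000000000000000000) := T_41 (nat_lit 148) (nat_lit 163) (nat_lit 2) (nat_lit 8) (nat_lit 9) L109149 (by decide +kernel)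
theorem L109250 : W_41 (nat_lit 2) (nat_lit 0x16000d00078000400020001a005800000000000000) (nat_lit 0x0) (nat_lit 0x40002000000000000000010000000000000000000000000000) := D_41 (nat_lit 181) (nat_lit 112) (nat_lit 198) (nat_lit 4) (nat_lit 11) (nat_lit 10) (nat_lit 4) (nat_lit 11) (nat_lit 11) (by decide +kernel)
theorem L109251 : W_41 (nat_lit 3) (nat_lit 0x16000900078000400020001a005800000000000000) (nat_lit 0x0) (nat_lit 0x40002000000004000040010000000000000000000000000000) := T_41 (nat_lit 146) (nat_lit 126) (nat_lit 3) (nat_lit 7) (nat_lit 7) L109250 (by decide +kernel)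
theorem L109252 : W_41 (nat_lit 4) (nat_lit 0x16000900058000400020001a005800000000000000) (nat_lit 0x0) (nat_lit 0x40002000000014000240010000000000000000000000000000) := T_41 (nat_lit 129) (nat_lit 148) (nat_lit 3) (nat_lit 8) (nat_lit 7) L109251 (by decide +kernel)
theorem L109253 : W_41 (nat_lit 5) (nat_lit 0x16000900058000400020001a001800000000000000) (nat_lit 0x0) (nat_lit 0x40002000000014000240010000000000006000000000000000) := T_41 (nat_lit 62) (nat_lit 61) (nat_lit 1) (nat_lit 11) (nat_lit 3) L109252 (by decide +kernel)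
theorem L109254 : W_41 (nat_lit 6) (nat_lit 0x16000900048000400020001a001800000000000000) (nat_lit 0x0) (nat_lit 0x40002000000014000340018000000000006000000000000000) := T_41 (nat_lit 128) (nat_lit 111) (nat_lit 7) (nat_lit 8) (nat_lit 3) L109253 (by decide +kernel)
theorem L109255 : W_41 (nat_lit 7) (nat_lit 0x160009000480004000200018001800000000000000) (nat_lit 0x0) (nat_lit 0x40002000000014000340018000000006006000000000000000) := T_41 (nat_lit 73) (nat_lit 74) (nat_lit 2) (nat_lit 5) (nat_lit 4) L109254 (by decide +kernel)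
theorem L109256 : W_41 (nat_lit 8) (nat_lit 0x160009000480004000200018001000000000000000) (nat_lit 0x0) (nat_lit 0x40002000000014000340018000000006006800080000000000) := T_41 (nat_lit 59) (nat_lit 43) (nat_lit 6) (nat_lit 8) (nat_lit 6) L109255 (by decide +kernel)
theorem L109257 : W_41 (nat_lit 9) (nat_lit 0x160009000480004000200018000000000000000000) (nat_lit 0x0) (nat_lit 0x40002000000014000340018000000026007800080000000000) := T_41 (nat_lit 60) (nat_lit 77) (nat_lit 6) (nat_lit 8) (nat_lit 7) L109256 (by decide +kernel)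
theorem L109258 : W_41 (nat_lit 10) (nat_lit 0x160009000480004000200008000000000000000000) (nat_lit 0x0) (nat_lit 0x40002000000014000340018000000036007c00080000000000) := T_41 (nat_lit 76) (nat_lit 58) (nat_lit 4) (nat_lit 8) (nat_lit 7) L109257 (by decide +kernel)
theorem L109259 : W_41 (nat_lit 11) (nat_lit 0x160009000480004000200000000000000000000000) (nat_lit 0x0) (nat_lit 0x4000200000001400034001800010003e007c00080000000000) := T_41 (nat_lit 75) (nat_lit 92) (nat_lit 4) (nat_lit 8) (nat_lit 8) L109258 (by decide +kernel)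
theorem L109260 : W_41 (nat_lit 2) (nat_lit 0x3000160009000f80004000300000000000000000000000) (nat_lit 0x0) (nat_lit 0x40000000000004000040000000000000000000000000000000) := D_41 (nat_lit 146) (nat_lit 198) (nat_lit 126) (nat_lit 4) (nat_lit 11) (nat_lit 11) (nat_lit 3) (nat_lit 7) (nat_lit 7) (by decide +kernel)
theorem L109261 : W_41 (nat_lit 3) (nat_lit 0x3000160009000e80004000300000000000000000000000) (nat_lit 0x0) (nat_lit 0x40000000000004000140008000000000000000000000000000) := T_41 (nat_lit 128) (nat_lit 111) (nat_lit 0) (nat_lit 12) (nat_lit 7) L109260 (by decide +kernel)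
theorem L109262 : W_41 (nat_lit 4) (nat_lit 0x3000160009000c80004000300000000000000000000000) (nat_lit 0x0) (nat_lit 0x40000000000004000340018000000000000000000000000000) := T_41 (nat_lit 129) (nat_lit 112) (nat_lit 4) (nat_lit 11) (nat_lit 10) L109261 (by decide +kernel)
theorem L109263 : W_41 (nat_lit 5) (nat_lit 0x2000160009000c80004000300000000000000000000000) (nat_lit 0x0) (nat_lit 0x60001000000004000340018000000000000000000000000000) := T_41 (nat_lit 180) (nat_lit 197) (nat_lit 5) (nat_lit 11) (nat_lit 7) L109262 (by decide +kernel)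
theorem L109264 : W_41 (nat_lit 6) (nat_lit 0x2000160009000480004000300000000000000000000000) (nat_lit 0x0) (nat_lit 0x60001000000004000b40058000000000000000000000000000) := T_41 (nat_lit 131) (nat_lit 114) (nat_lit 6) (nat_lit 11) (nat_lit 10) L109263 (by decide +kernel)
theorem L109265 : W_41 (nat_lit 7) (nat_lit 0x2000160009000480004000200000000000000000000000) (nat_lit 0x0) (nat_lit 0x60001000000004000b40058000100008000000000000000000) := T_41 (nat_lit 92) (nat_lit 75) (nat_lit 4) (nat_lit 8) (nat_lit 8) L109264 (by decide +kernel)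
theorem L109266 : W_41 (nat_lit 8) (nat_lit 0x160009000480004000200000000000000000000000) (nat_lit 0x0) (nat_lit 0xe0007000080004000b40058000100008000000000000000000) := Q_41 (nat_lit 181) (C_41 L109208 (C_41 L109265 N_41)) (by decide +kernel)
theorem L109267 : W_41 (nat_lit 2) (nat_lit 0x160019000580004000200018001000000000000000) (nat_lit 0x0) (nat_lit 0x8000000000000800080000000000) := D_41 (nat_lit 59) (nat_lit 111) (nat_lit 43) (nat_lit 7) (nat_lit 8) (nat_lit 3) (nat_lit 6) (nat_lit 8) (nat_lit 6) (by decide +kernel)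
theorem L109268 : W_41 (nat_lit 3) (nat_lit 0x160019000580004000200018000000000000000000) (nat_lit 0x0) (nat_lit 0x8000000020001800080000000000) := T_41 (nat_lit 60) (nat_lit 77) (nat_lit 6) (nat_lit 8) (nat_lit 7) L109267 (by decide +kernel)
theorem L109269 : W_41 (nat_lit 4) (nat_lit 0x160019000480004000200018000000000000000000) (nat_lit 0x0) (nat_lit 0x300008000000020001800080000000000) := T_41 (nat_lit 128) (nat_lit 129) (nat_lit 3) (nat_lit 8) (nat_lit 7) L109268 (by decide +kernel)
theorem L109270 : W_41 (nat_lit 5) (nat_lit 0x160019000480004000200008000000000000000000) (nat_lit 0x0) (nat_lit 0x300008000000030001c00080000000000) := T_41 (nat_lit 76) (nat_lit 58) (nat_lit 4) (nat_lit 8) (nat_lit 7) L109269 (by decide +kernel)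
theorem L109271 : W_41 (nat_lit 6) (nat_lit 0x160009000480004000200008000000000000000000) (nat_lit 0x0) (nat_lit 0x80010000300008000000030001c00080000000000) := T_41 (nat_lit 148) (nat_lit 163) (nat_lit 2) (nat_lit 8) (nat_lit 9) L109270 (by decide +kernel)
theorem L109272 : W_41 (nat_lit 7) (nat_lit 0x160009000480004000200000000000000000000000) (nat_lit 0x0) (nat_lit 0x80010000300008000100038001c00080000000000) := T_41 (nat_lit 75) (nat_lit 92) (nat_lit 4) (nat_lit 8) (nat_lit 8) L109271 (by decide +kernel)
theorem L109273 : W_41 (nat_lit 12) (nat_lit 0x60009000480004000200000000000000000000000) (nat_lit 0x0) (nat_lit 0x20001c000e0007000180074000b4005800010003e007c00080000000000) := Q_41 (nat_lit 164) (C_41 L109207 (C_41 L109109 (C_41 L109249 (C_41 L109259 (C_41 L109266 (C_41 L109272 N_41)))))) (by decide +kernel)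
theorem L109274 : W_41 (nat_lit 7) (nat_lit 0x60009000480004000200000000000000000000000) (nat_lit 0x0) (nat_lit 0x40002000380034000b400380039001b8009c00080000000000) := Q_41 (nat_lit 148) (C_41 L109191 (C_41 L109144 (C_41 L109057 N_41))) (by decide +kernel)
theorem L109275 : W_41 (nat_lit 2) (nat_lit 0x60009000480034000200000000000000000000000) (nat_lit 0x0) (nat_lit 0x40008000100000000000000000000000) := D_41 (nat_lit 111) (nat_lit 92) (nat_lit 126) (nat_lit 0) (nat_lit 11) (nat_lit 6) (nat_lit 1) (nat_lit 11) (nat_lit 6) (by decide +kernel)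
theorem L109276 : W_41 (nat_lit 2) (nat_lit 0x60009000480034000200000000000000000000000) (nat_lit 0x0) (nat_lit 0x800008000100000000000000000000000) := D_41 (nat_lit 111) (nat_lit 92) (nat_lit 131) (nat_lit 0) (nat_lit 11) (nat_lit 6) (nat_lit 3) (nat_lit 8) (nat_lit 6) (by decide +kernel)
theorem L109277 : W_41 (nat_lit 2) (nat_lit 0x60009000480034000200000000000000000000000) (nat_lit 0x0) (nat_lit 0x840008000000000000000000000000000) := D_41 (nat_lit 111) (nat_lit 126) (nat_lit 131) (nat_lit 1) (nat_lit 11) (nat_lit 6) (nat_lit 3) (nat_lit 8) (nat_lit 6) (by decide +kernel)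
theorem L109278 : W_41 (nat_lit 2) (nat_lit 0x2000160009000480034000200000000000000000000000) (nat_lit 0x0) (nat_lit 0x5000080000000000000000000000000000000000000000) := D_41 (nat_lit 163) (nat_lit 182) (nat_lit 180) (nat_lit 3) (nat_lit 8) (nat_lit 9) (nat_lit 5) (nat_lit 11) (nat_lit 6) (by decide +kernel)
theorem L109279 : W_41 (nat_lit 3) (nat_lit 0x160009000480034000200000000000000000000000) (nat_lit 0x0) (nat_lit 0x7000080000000200000000000000000000000000000000) := T_41 (nat_lit 181) (nat_lit 129) (nat_lit 4) (nat_lit 11) (nat_lit 10) L109278 (by decide +kernel)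
theorem L109280 : W_41 (nat_lit 4) (nat_lit 0x60009000480034000200000000000000000000000) (nat_lit 0x0) (nat_lit 0x7000180000000200000000800000000000000000000000) := T_41 (nat_lit 164) (nat_lit 95) (nat_lit 4) (nat_lit 11) (nat_lit 9) L109279 (by decide +kernel)
theorem L109281 : W_41 (nat_lit 5) (nat_lit 0x60009000480024000200000000000000000000000) (nat_lit 0x0) (nat_lit 0x7000180000000a40018000900000000000000000000000) := Q_41 (nat_lit 112) (C_41 L109275 (C_41 L109276 (C_41 L109277 (C_41 L109280 N_41)))) (by decide +kernel)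
theorem L109282 : W_41 (nat_lit 2) (nat_lit 0x1e0009000480034000300000000000000000000000) (nat_lit 0x0) (nat_lit 0x6000200000000000000000000000000000000000000000) := D_41 (nat_lit 182) (nat_lit 165) (nat_lit 181) (nat_lit 7) (nat_lit 11) (nat_lit 6) (nat_lit 3) (nat_lit 8) (nat_lit 9) (by decide +kernel)
theorem L109283 : W_41 (nat_lit 3) (nat_lit 0x160009000480034000300000000000000000000000) (nat_lit 0x0) (nat_lit 0x7000280000000000000000000000000000000000000000) := T_41 (nat_lit 163) (nat_lit 180) (nat_lit 5) (nat_lit 11) (nat_lit 6) L109282 (by decide +kernel)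
theorem L109284 : W_41 (nat_lit 4) (nat_lit 0x60009000480034000300000000000000000000000) (nat_lit 0x0) (nat_lit 0x7000380000000000000000800000000000000000000000) := T_41 (nat_lit 164) (nat_lit 95) (nat_lit 4) (nat_lit 11) (nat_lit 9) L109283 (by decide +kernel)
theorem L109285 : W_41 (nat_lit 5) (nat_lit 0x60009000480024000300000000000000000000000) (nat_lit 0x0) (nat_lit 0x7000380000000000018000800000000000000000000000) := T_41 (nat_lit 112) (nat_lit 111) (nat_lit 0) (nat_lit 11) (nat_lit 6) L109284 (by decide +kernel)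
theorem L109286 : W_41 (nat_lit 6) (nat_lit 0x60009000480024000200000000000000000000000) (nat_lit 0x0) (nat_lit 0x7000380000000000018000900008000000000000000000) := T_41 (nat_lit 92) (nat_lit 75) (nat_lit 4) (nat_lit 8) (nat_lit 8) L109285 (by decide +kernel)
theorem L109287 : W_41 (nat_lit 3) (nat_lit 0x6000900078002400020001a005800000000000000) (nat_lit 0x0) (nat_lit 0x80004000040000001000080000000000000000000) := T_41 (nat_lit 146) (nat_lit 126) (nat_lit 3) (nat_lit 7) (nat_lit 7) L109129 (by decide +kernel)
theorem L109288 : W_41 (nat_lit 4) (nat_lit 0x6000900058002400020001a005800000000000000) (nat_lit 0x0) (nat_lit 0x80004000240040001000080000000000000000000) := T_41 (nat_lit 129) (nat_lit 114) (nat_lit 2) (nat_lit 8) (nat_lit 7) L109287 (by decide +kernel)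
theorem L109289 : W_41 (nat_lit 5) (nat_lit 0x6000900058002400020001a001800000000000000) (nat_lit 0x0) (nat_lit 0x80004000240040001000080006000000000000000) := T_41 (nat_lit 62) (nat_lit 61) (nat_lit 1) (nat_lit 11) (nat_lit 3) L109288 (by decide +kernel)
theorem L109290 : W_41 (nat_lit 6) (nat_lit 0x6000900048002400020001a001800000000000000) (nat_lit 0x0) (nat_lit 0x80004000340048001000080006000000000000000) := T_41 (nat_lit 128) (nat_lit 111) (nat_lit 7) (nat_lit 8) (nat_lit 3) L109289 (by decide +kernel)
theorem L109291 : W_41 (nat_lit 7) (nat_lit 0x60009000480024000200018001800000000000000) (nat_lit 0x0) (nat_lit 0x80004000340048001000086006000000000000000) := T_41 (nat_lit 73) (nat_lit 74) (nat_lit 2) (nat_lit 5) (nat_lit 4) L109290 (by decide +kernel)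
theorem L109292 : W_41 (nat_lit 8) (nat_lit 0x60009000480024000200018001000000000000000) (nat_lit 0x0) (nat_lit 0x80004000340048001000086006800080000000000) := T_41 (nat_lit 59) (nat_lit 43) (nat_lit 6) (nat_lit 8) (nat_lit 6) L109291 (by decide +kernel)
theorem L109293 : W_41 (nat_lit 9) (nat_lit 0x60009000480024000200018000000000000000000) (nat_lit 0x0) (nat_lit 0x800040003400480010000a6007800080000000000) := T_41 (nat_lit 60) (nat_lit 77) (nat_lit 6) (nat_lit 8) (nat_lit 7) L109292 (by decide +kernel)
theorem L109294 : W_41 (nat_lit 10) (nat_lit 0x60009000480024000200008000000000000000000) (nat_lit 0x0) (nat_lit 0x800040003400480010000b6007c00080000000000) := T_41 (nat_lit 76) (nat_lit 58) (nat_lit 4) (nat_lit 8) (nat_lit 7) L109293 (by decide +kernel)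
theorem L109295 : W_41 (nat_lit 11) (nat_lit 0x60009000480024000200000000000000000000000) (nat_lit 0x0) (nat_lit 0x800040003400480011000be007c00080000000000) := T_41 (nat_lit 75) (nat_lit 92) (nat_lit 4) (nat_lit 8) (nat_lit 8) L109294 (by decide +kernel)
theorem L109296 : W_41 (nat_lit 2) (nat_lit 0x2000360009000580064000200000000000000000000000) (nat_lit 0x0) (nat_lit 0x20001000080000000000000000000000000000000000000000) := D_41 (nat_lit 180) (nat_lit 197) (nat_lit 163) (nat_lit 5) (nat_lit 11) (nat_lit 7) (nat_lit 5) (nat_lit 11) (nat_lit 6) (by decide +kernel)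
theorem L109297 : W_41 (nat_lit 3) (nat_lit 0x360009000580064000200000000000000000000000) (nat_lit 0x0) (nat_lit 0x20003000080000000800000000000000000000000000000000) := T_41 (nat_lit 181) (nat_lit 131) (nat_lit 6) (nat_lit 11) (nat_lit 10) L109296 (by decide +kernel)
theorem L109298 : W_41 (nat_lit 4) (nat_lit 0x360009000480064000200000000000000000000000) (nat_lit 0x0) (nat_lit 0x20003000080000000b00000000000000000000000000000000) := T_41 (nat_lit 128) (nat_lit 129) (nat_lit 2) (nat_lit 8) (nat_lit 7) L109297 (by decide +kernel)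
theorem L109299 : W_41 (nat_lit 5) (nat_lit 0x360009000480024000200000000000000000000000) (nat_lit 0x0) (nat_lit 0x20003000080000000b00040002000000000000000000000000) := T_41 (nat_lit 114) (nat_lit 97) (nat_lit 6) (nat_lit 11) (nat_lit 9) L109298 (by decide +kernel)
theorem L109300 : W_41 (nat_lit 6) (nat_lit 0x160009000480024000200000000000000000000000) (nat_lit 0x0) (nat_lit 0x20007000280000000b00040002000000000000000000000000) := T_41 (nat_lit 165) (nat_lit 182) (nat_lit 7) (nat_lit 11) (nat_lit 6) L109299 (by decide +kernel)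
theorem L109301 : W_41 (nat_lit 4) (nat_lit 0x160009000480024000200000000000000000000000) (nat_lit 0x0) (nat_lit 0x1000080004000000010001800040000000000000000000) := T_41 (nat_lit 163) (nat_lit 180) (nat_lit 5) (nat_lit 11) (nat_lit 6) L109215 (by decide +kernel)
theorem L109302 : W_41 (nat_lit 7) (nat_lit 0x60009000480024000200000000000000000000000) (nat_lit 0x0) (nat_lit 0x20007000380004000b40058003800040000000000000000000) := Q_41 (nat_lit 164) (C_41 L109122 (C_41 L109300 (C_41 L109301 N_41))) (by decide +kernel)
theorem L109303 : W_41 (nat_lit 2) (nat_lit 0x2000160009000580064000300000000000000000000000) (nat_lit 0x0) (nat_lit 0x80004000200000000000000000000000000000000000000000) := D_41 (nat_lit 182) (nat_lit 165) (nat_lit 199) (nat_lit 7) (nat_lit 11) (nat_lit 6) (nat_lit 7) (nat_lit 11) (nat_lit 7) (by decide +kernel)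
theorem L109304 : W_41 (nat_lit 3) (nat_lit 0x160009000580064000300000000000000000000000) (nat_lit 0x0) (nat_lit 0x80006000200000000800000000000000000000000000000000) := T_41 (nat_lit 181) (nat_lit 131) (nat_lit 6) (nat_lit 11) (nat_lit 10) L109303 (by decide +kernel)
theorem L109305 : W_41 (nat_lit 4) (nat_lit 0x160009000480064000300000000000000000000000) (nat_lit 0x0) (nat_lit 0x80006000200000000b00000000000000000000000000000000) := T_41 (nat_lit 128) (nat_lit 129) (nat_lit 2) (nat_lit 8) (nat_lit 7) L109304 (by decide +kernel)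
theorem L109306 : W_41 (nat_lit 5) (nat_lit 0x160009000480024000300000000000000000000000) (nat_lit 0x0) (nat_lit 0x80006000200000000b00040002000000000000000000000000) := T_41 (nat_lit 114) (nat_lit 97) (nat_lit 6) (nat_lit 11) (nat_lit 9) L109305 (by decide +kernel)
theorem L109307 : W_41 (nat_lit 6) (nat_lit 0x160009000480024000200000000000000000000000) (nat_lit 0x0) (nat_lit 0x80006000200000000b00040002100008000000000000000000) := T_41 (nat_lit 92) (nat_lit 75) (nat_lit 4) (nat_lit 8) (nat_lit 8) L109306 (by decide +kernel)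
theorem L109308 : W_41 (nat_lit 7) (nat_lit 0x60009000480024000200000000000000000000000) (nat_lit 0x0) (nat_lit 0xa0007000380004000b00050003900048000000000000000000) := Q_41 (nat_lit 164) (C_41 L109301 (C_41 L109300 (C_41 L109307 N_41))) (by decide +kernel)
theorem L109309 : W_41 (nat_lit 2) (nat_lit 0x2000160009000480034000300000000000000000000000) (nat_lit 0x0) (nat_lit 0x80004000200000000000000000000000000000000000000000) := D_41 (nat_lit 182) (nat_lit 165) (nat_lit 199) (nat_lit 7) (nat_lit 11) (nat_lit 6) (nat_lit 7) (nat_lit 11) (nat_lit 7) (by decide +kernel)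
theorem L109310 : W_41 (nat_lit 3) (nat_lit 0x160009000480034000300000000000000000000000) (nat_lit 0x0) (nat_lit 0x80006000200000000200000000000000000000000000000000) := T_41 (nat_lit 181) (nat_lit 129) (nat_lit 4) (nat_lit 11) (nat_lit 10) L109309 (by decide +kernel)
theorem L109311 : W_41 (nat_lit 4) (nat_lit 0x60009000480034000300000000000000000000000) (nat_lit 0x0) (nat_lit 0x80006000300000000200000000800000000000000000000000) := T_41 (nat_lit 164) (nat_lit 95) (nat_lit 4) (nat_lit 11) (nat_lit 9) L109310 (by decide +kernel)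
theorem L109312 : W_41 (nat_lit 5) (nat_lit 0x60009000480024000300000000000000000000000) (nat_lit 0x0) (nat_lit 0x80006000300000000200018000800000000000000000000000) := T_41 (nat_lit 112) (nat_lit 111) (nat_lit 0) (nat_lit 11) (nat_lit 6) L109311 (by decide +kernel)
theorem L109313 : W_41 (nat_lit 6) (nat_lit 0x60009000480024000200000000000000000000000) (nat_lit 0x0) (nat_lit 0x80006000300000000200018000900008000000000000000000) := T_41 (nat_lit 92) (nat_lit 75) (nat_lit 4) (nat_lit 8) (nat_lit 8) L109312 (by decide +kernel)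
theorem L109314 : W_41 (nat_lit 12) (nat_lit 0x60009000480004000200000000000000000000000) (nat_lit 0x0) (nat_lit 0xa0007000380004000b400780039000fe007c00080000000000) := Q_41 (nat_lit 113) (C_41 L109281 (C_41 L109286 (C_41 L109295 (C_41 L109302 (C_41 L109308 (C_41 L109313 N_41)))))) (by decide +kernel)
theorem L109315 : W_41 (nat_lit 13) (nat_lit 0x60009000080004000200000000000000000000000) (nat_lit 0x0) (nat_lit 0x20001c001e000f001f80074003f403f800f9001fe00fc00080000000000) := Q_41 (nat_lit 130) (C_41 L109128 (C_41 L109139 (C_41 L109145 (C_41 L109218 (C_41 L109237 (C_41 L109248 (C_41 L109273 (C_41 L109274 (C_41 L109314 N_41))))))))) (by decide +kernel)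
theorem L109316 : W_41 (nat_lit 14) (nat_lit 0x60009000080004000000000000000000000000000) (nat_lit 0x0) (nat_lit 0x20001c001e000f001f80074003f403f800ffc01fe00fc00080000000000) := Q_41 (nat_lit 93) (C_41 L108895 (C_41 L109091 (C_41 L109094 (C_41 L109315 N_41)))) (by decide +kernel)
theorem L109317 : W_41 (nat_lit 2) (nat_lit 0x1f000900008000c000000000000000000000000000) (nat_lit 0x0) (nat_lit 0x7000000000000000000000000000000000000000000000) := D_41 (nat_lit 181) (nat_lit 180) (nat_lit 182) (nat_lit 3) (nat_lit 7) (nat_lit 9) (nat_lit 3) (nat_lit 8) (nat_lit 9) (by decide +kernel)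
theorem L109318 : W_41 (nat_lit 3) (nat_lit 0xf000900008000c000000000000000000000000000) (nat_lit 0x0) (nat_lit 0x7000100010000000000000000000000000000000000000) := T_41 (nat_lit 164) (nat_lit 148) (nat_lit 2) (nat_lit 8) (nat_lit 9) L109317 (by decide +kernel)
theorem L109319 : W_41 (nat_lit 4) (nat_lit 0x7000900008000c000000000000000000000000000) (nat_lit 0x0) (nat_lit 0x7000180014000000000000000000000000000000000000) := T_41 (nat_lit 163) (nat_lit 146) (nat_lit 2) (nat_lit 7) (nat_lit 9) L109318 (by decide +kernel)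
theorem L109320 : W_41 (nat_lit 5) (nat_lit 0x6000900008000c000000000000000000000000000) (nat_lit 0x0) (nat_lit 0x7200190014000000000000000000000000000000000000) := T_41 (nat_lit 160) (nat_lit 177) (nat_lit 5) (nat_lit 8) (nat_lit 6) L109319 (by decide +kernel)
theorem L109321 : W_41 (nat_lit 6) (nat_lit 0x60009000080004000000000000000000000000000) (nat_lit 0x0) (nat_lit 0x7200190014000000008000400000000000000000000000) := T_41 (nat_lit 111) (nat_lit 94) (nat_lit 6) (nat_lit 8) (nat_lit 9) L109320 (by decide +kernel)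
theorem L109322 : W_41 (nat_lit 2) (nat_lit 0x1f0009000080004000000000000000000000000000) (nat_lit 0x0) (nat_lit 0x7000000000000000000000000000000000000000000000) := D_41 (nat_lit 181) (nat_lit 180) (nat_lit 182) (nat_lit 3) (nat_lit 7) (nat_lit 9) (nat_lit 3) (nat_lit 8) (nat_lit 9) (by decide +kernel)
theorem L109323 : W_41 (nat_lit 3) (nat_lit 0xf0009000080004000000000000000000000000000) (nat_lit 0x0) (nat_lit 0x7000100010000000000000000000000000000000000000) := T_41 (nat_lit 164) (nat_lit 148) (nat_lit 2) (nat_lit 8) (nat_lit 9) L109322 (by decide +kernel)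
theorem L109324 : W_41 (nat_lit 4) (nat_lit 0x70009000080004000000000000000000000000000) (nat_lit 0x0) (nat_lit 0x7000180014000000000000000000000000000000000000) := T_41 (nat_lit 163) (nat_lit 146) (nat_lit 2) (nat_lit 7) (nat_lit 9) L109323 (by decide +kernel)
theorem L109325 : W_41 (nat_lit 5) (nat_lit 0x60009000080004000000000000000000000000000) (nat_lit 0x0) (nat_lit 0x7200190014000000000000000000000000000000000000) := T_41 (nat_lit 160) (nat_lit 177) (nat_lit 5) (nat_lit 8) (nat_lit 6) L109324 (by decide +kernel)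
theorem L109326 : W_41 (nat_lit 3) (nat_lit 0x170009000080004000000000000000000000000000) (nat_lit 0x0) (nat_lit 0x7000080010000000000000000000000000000000000000) := T_41 (nat_lit 163) (nat_lit 148) (nat_lit 2) (nat_lit 8) (nat_lit 9) L109322 (by decide +kernel)
theorem L109327 : W_41 (nat_lit 4) (nat_lit 0x160009000080004000000000000000000000000000) (nat_lit 0x0) (nat_lit 0x7200090010000000000000000000000000000000000000) := T_41 (nat_lit 160) (nat_lit 177) (nat_lit 5) (nat_lit 8) (nat_lit 6) L109326 (by decide +kernel)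
theorem L109328 : W_41 (nat_lit 2) (nat_lit 0x10000000040003e000900008003c002200000000000000000000000) (nat_lit 0x0) (nat_lit 0x100040004000000000000000000000000) := D_41 (nat_lit 114) (nat_lit 128) (nat_lit 98) (nat_lit 1) (nat_lit 12) (nat_lit 6) (nat_lit 2) (nat_lit 9) (nat_lit 6) (by decide +kernel)
theorem L109329 : W_41 (nat_lit 3) (nat_lit 0x10000000040003e000900008003c000200000000000000000000000) (nat_lit 0x0) (nat_lit 0x100040007000000000000000000000000) := T_41 (nat_lit 97) (nat_lit 96) (nat_lit 2) (nat_lit 8) (nat_lit 6) L109328 (by decide +kernel)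
theorem L109330 : W_41 (nat_lit 4) (nat_lit 0x10000000040003e000900008003c000000000000000000000000000) (nat_lit 0x0) (nat_lit 0x100040007300000000000000000000000) := T_41 (nat_lit 93) (nat_lit 92) (nat_lit 0) (nat_lit 11) (nat_lit 6) L109329 (by decide +kernel)
theorem L109331 : W_41 (nat_lit 5) (nat_lit 0x10000000040003e000900008002c000000000000000000000000000) (nat_lit 0x0) (nat_lit 0x140050007300000000000000000000000) := T_41 (nat_lit 112) (nat_lit 126) (nat_lit 1) (nat_lit 11) (nat_lit 6) L109330 (by decide +kernel)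
theorem L109332 : W_41 (nat_lit 6) (nat_lit 0x10000000040003e000900008000c000000000000000000000000000) (nat_lit 0x0) (nat_lit 0x540070007300000000000000000000000) := T_41 (nat_lit 113) (nat_lit 130) (nat_lit 7) (nat_lit 11) (nat_lit 6) L109331 (by decide +kernel)
theorem L109333 : W_41 (nat_lit 7) (nat_lit 0x40003e000900008000c000000000000000000000000000) (nat_lit 0x0) (nat_lit 0x1000080000000000000000540070007300000000000000000000000) := T_41 (nat_lit 216) (nat_lit 199) (nat_lit 4) (nat_lit 12) (nat_lit 12) L109332 (by decide +kernel)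
theorem L109334 : W_41 (nat_lit 8) (nat_lit 0x40001e000900008000c000000000000000000000000000) (nat_lit 0x0) (nat_lit 0x1000080008000200000000540070007300000000000000000000000) := T_41 (nat_lit 165) (nat_lit 183) (nat_lit 3) (nat_lit 9) (nat_lit 9) L109333 (by decide +kernel)
theorem L109335 : W_41 (nat_lit 9) (nat_lit 0x1e000900008000c000000000000000000000000000) (nat_lit 0x0) (nat_lit 0x100008000e000200000000540070007300000000000000000000000) := T_41 (nat_lit 182) (nat_lit 181) (nat_lit 3) (nat_lit 8) (nat_lit 9) L109334 (by decide +kernel)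
theorem L109336 : W_41 (nat_lit 10) (nat_lit 0x16000900008000c000000000000000000000000000) (nat_lit 0x0) (nat_lit 0x100008000e000280010000540070007300000000000000000000000) := T_41 (nat_lit 163) (nat_lit 148) (nat_lit 2) (nat_lit 8) (nat_lit 9) L109335 (by decide +kernel)
theorem L109337 : W_41 (nat_lit 11) (nat_lit 0x160009000080004000000000000000000000000000) (nat_lit 0x0) (nat_lit 0x100008000e000280010000540078007700000000000000000000000) := T_41 (nat_lit 111) (nat_lit 94) (nat_lit 6) (nat_lit 8) (nat_lit 9) L109336 (by decide +kernel)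
theorem L109338 : W_41 (nat_lit 2) (nat_lit 0x160009000080004000200000000000000000000000) (nat_lit 0x0) (nat_lit 0x8000400020000000000000000000) := D_41 (nat_lit 94) (nat_lit 111) (nat_lit 77) (nat_lit 6) (nat_lit 8) (nat_lit 9) (nat_lit 6) (nat_lit 8) (nat_lit 8) (by decide +kernel)
theorem L109339 : W_41 (nat_lit 2) (nat_lit 0x170009000480034000200000000000000000000000) (nat_lit 0x0) (nat_lit 0x800008000400000000000000000000000) := D_41 (nat_lit 111) (nat_lit 131) (nat_lit 94) (nat_lit 3) (nat_lit 8) (nat_lit 6) (nat_lit 6) (nat_lit 8) (nat_lit 9) (by decide +kernel)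
theorem L109340 : W_41 (nat_lit 3) (nat_lit 0x170009000480024000200000000000000000000000) (nat_lit 0x0) (nat_lit 0x800018000c00000000000000000000000) := T_41 (nat_lit 112) (nat_lit 95) (nat_lit 4) (nat_lit 11) (nat_lit 9) L109339 (by decide +kernel)
theorem L109341 : W_41 (nat_lit 4) (nat_lit 0x160009000480024000200000000000000000000000) (nat_lit 0x0) (nat_lit 0x200010000000800018000c00000000000000000000000) := T_41 (nat_lit 160) (nat_lit 177) (nat_lit 5) (nat_lit 8) (nat_lit 6) L109340 (by decide +kernel)
theorem L109342 : W_41 (nat_lit 5) (nat_lit 0x160009000480004000200000000000000000000000) (nat_lit 0x0) (nat_lit 0x4200210010000840078003c00100000000000000000000) := Q_41 (nat_lit 113) (C_41 L109122 (C_41 L109114 (C_41 L109341 N_41))) (by decide +kernel)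
theorem L109343 : W_41 (nat_lit 2) (nat_lit 0x17000900058000c000200018000000000000000000) (nat_lit 0x0) (nat_lit 0x10000a00000000000000000000000000000000) := D_41 (nat_lit 129) (nat_lit 148) (nat_lit 131) (nat_lit 3) (nat_lit 8) (nat_lit 7) (nat_lit 0) (nat_lit 12) (nat_lit 7) (by decide +kernel)
theorem L109344 : W_41 (nat_lit 3) (nat_lit 0x17000900048000c000200018000000000000000000) (nat_lit 0x0) (nat_lit 0x10000b00000000000000000800000000000000) := T_41 (nat_lit 128) (nat_lit 59) (nat_lit 7) (nat_lit 8) (nat_lit 3) L109343 (by decide +kernel)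
theorem L109345 : W_41 (nat_lit 4) (nat_lit 0x170009000480004000200018000000000000000000) (nat_lit 0x0) (nat_lit 0x10000b00008000400000000800000000000000) := T_41 (nat_lit 111) (nat_lit 94) (nat_lit 6) (nat_lit 8) (nat_lit 9) L109344 (by decide +kernel)
theorem L109346 : W_41 (nat_lit 5) (nat_lit 0x170009000480004000200008000000000000000000) (nat_lit 0x0) (nat_lit 0x10000b00008000400010000c00000000000000) := T_41 (nat_lit 76) (nat_lit 58) (nat_lit 4) (nat_lit 8) (nat_lit 7) L109345 (by decide +kernel)
theorem L109347 : W_41 (nat_lit 6) (nat_lit 0x160009000480004000200008000000000000000000) (nat_lit 0x0) (nat_lit 0x200010010000b00008000400010000c00000000000000) := T_41 (nat_lit 160) (nat_lit 177) (nat_lit 5) (nat_lit 8) (nat_lit 6) L109346 (by decide +kernel)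
theorem L109348 : W_41 (nat_lit 7) (nat_lit 0x160009000480004000200000000000000000000000) (nat_lit 0x0) (nat_lit 0x200010010000b00008000500018000c00000000000000) := T_41 (nat_lit 75) (nat_lit 92) (nat_lit 4) (nat_lit 8) (nat_lit 8) L109347 (by decide +kernel)
theorem L109349 : W_41 (nat_lit 2) (nat_lit 0x7000160019000c80004000300000000000000000000000) (nat_lit 0x0) (nat_lit 0x300010000000000000000000000000000) := D_41 (nat_lit 129) (nat_lit 112) (nat_lit 128) (nat_lit 4) (nat_lit 11) (nat_lit 10) (nat_lit 3) (nat_lit 8) (nat_lit 7) (by decide +kernel)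
theorem L109350 : W_41 (nat_lit 3) (nat_lit 0x7000160009000c80004000300000000000000000000000) (nat_lit 0x0) (nat_lit 0x40000000000010000300010000000000000000000000000000) := T_41 (nat_lit 148) (nat_lit 198) (nat_lit 6) (nat_lit 11) (nat_lit 11) L109349 (by decide +kernel)
theorem L109351 : W_41 (nat_lit 4) (nat_lit 0x6000160009000c80004000300000000000000000000000) (nat_lit 0x0) (nat_lit 0x60001000000010000300010000000000000000000000000000) := T_41 (nat_lit 180) (nat_lit 197) (nat_lit 5) (nat_lit 11) (nat_lit 7) L109350 (by decide +kernel)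
theorem L109352 : W_41 (nat_lit 5) (nat_lit 0x6000160009000480004000300000000000000000000000) (nat_lit 0x0) (nat_lit 0x60001000000010000b00050000000000000000000000000000) := T_41 (nat_lit 131) (nat_lit 114) (nat_lit 6) (nat_lit 11) (nat_lit 10) L109351 (by decide +kernel)
theorem L109353 : W_41 (nat_lit 6) (nat_lit 0x2000160009000480004000300000000000000000000000) (nat_lit 0x0) (nat_lit 0xe0005000000010000b00050000000000000000000000000000) := T_41 (nat_lit 182) (nat_lit 199) (nat_lit 7) (nat_lit 11) (nat_lit 7) L109352 (by decide +kernel)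
theorem L109354 : W_41 (nat_lit 7) (nat_lit 0x2000160009000480004000200000000000000000000000) (nat_lit 0x0) (nat_lit 0xe0005000000010000b00050000100008000000000000000000) := T_41 (nat_lit 92) (nat_lit 75) (nat_lit 4) (nat_lit 8) (nat_lit 8) L109353 (by decide +kernel)
theorem L109355 : W_41 (nat_lit 2) (nat_lit 0xc0002000160009000780004000300000000000000000000000) (nat_lit 0x0) (nat_lit 0x400020001000000000000000000000000000000000000000000000) := D_41 (nat_lit 197) (nat_lit 214) (nat_lit 180) (nat_lit 5) (nat_lit 11) (nat_lit 8) (nat_lit 5) (nat_lit 11) (nat_lit 7) (by decide +kernel)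
theorem L109356 : W_41 (nat_lit 3) (nat_lit 0x80002000160009000780004000300000000000000000000000) (nat_lit 0x0) (nat_lit 0x1400060001000000000000000000000000000000000000000000000) := T_41 (nat_lit 198) (nat_lit 216) (nat_lit 7) (nat_lit 11) (nat_lit 8) L109355 (by decide +kernel)
theorem L109357 : W_41 (nat_lit 4) (nat_lit 0x80002000160009000780004000200000000000000000000000) (nat_lit 0x0) (nat_lit 0x1400060001000000000000000000000100008000000000000000000) := T_41 (nat_lit 92) (nat_lit 75) (nat_lit 4) (nat_lit 8) (nat_lit 8) L109356 (by decide +kernel)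
theorem L109358 : W_41 (nat_lit 5) (nat_lit 0x2000160009000780004000200000000000000000000000) (nat_lit 0x0) (nat_lit 0x14000e0005000000000000000000000100008000000000000000000) := T_41 (nat_lit 199) (nat_lit 182) (nat_lit 7) (nat_lit 11) (nat_lit 7) L109357 (by decide +kernel)
theorem L109359 : W_41 (nat_lit 6) (nat_lit 0x2000160009000680004000200000000000000000000000) (nat_lit 0x0) (nat_lit 0x14000e0005000000010000100000000100008000000000000000000) := T_41 (nat_lit 128) (nat_lit 148) (nat_lit 3) (nat_lit 8) (nat_lit 7) L109358 (by decide +kernel)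
theorem L109360 : W_41 (nat_lit 7) (nat_lit 0x2000160009000480004000200000000000000000000000) (nat_lit 0x0) (nat_lit 0x14000e0005000000010000300010000100008000000000000000000) := T_41 (nat_lit 129) (nat_lit 112) (nat_lit 4) (nat_lit 11) (nat_lit 10) L109359 (by decide +kernel)
theorem L109361 : W_41 (nat_lit 2) (nat_lit 0x3000160009000780004000200000000000000000000000) (nat_lit 0x0) (nat_lit 0x800060000000000000000000000000000) := D_41 (nat_lit 114) (nat_lit 113) (nat_lit 131) (nat_lit 2) (nat_lit 8) (nat_lit 7) (nat_lit 6) (nat_lit 11) (nat_lit 10) (by decide +kernel)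
theorem L109362 : W_41 (nat_lit 3) (nat_lit 0x3000160009000680004000200000000000000000000000) (nat_lit 0x0) (nat_lit 0x10000900060000000000000000000000000000) := T_41 (nat_lit 128) (nat_lit 148) (nat_lit 3) (nat_lit 8) (nat_lit 7) L109361 (by decide +kernel)
theorem L109363 : W_41 (nat_lit 4) (nat_lit 0x3000160009000480004000200000000000000000000000) (nat_lit 0x0) (nat_lit 0x10000b00070000000000000000000000000000) := T_41 (nat_lit 129) (nat_lit 112) (nat_lit 4) (nat_lit 11) (nat_lit 10) L109362 (by decide +kernel)
theorem L109364 : W_41 (nat_lit 5) (nat_lit 0x2000160009000480004000200000000000000000000000) (nat_lit 0x0) (nat_lit 0x20001000000010000b00070000000000000000000000000000) := T_41 (nat_lit 180) (nat_lit 197) (nat_lit 5) (nat_lit 11) (nat_lit 7) L109363 (by decide +kernel)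
theorem L109365 : W_41 (nat_lit 8) (nat_lit 0x160009000480004000200000000000000000000000) (nat_lit 0x0) (nat_lit 0x14000e0007000200010000b00070002100008000000000000000000) := Q_41 (nat_lit 181) (C_41 L109194 (C_41 L109354 (C_41 L109360 (C_41 L109364 N_41)))) (by decide +kernel)
theorem L109366 : W_41 (nat_lit 2) (nat_lit 0x200017000900058006c000340000000800000000000000) (nat_lit 0x0) (nat_lit 0x80004000200000000000000000000000000000000000000000) := D_41 (nat_lit 182) (nat_lit 165) (nat_lit 199) (nat_lit 7) (nat_lit 11) (nat_lit 6) (nat_lit 7) (nat_lit 11) (nat_lit 7) (by decide +kernel)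
theorem L109367 : W_41 (nat_lit 3) (nat_lit 0x17000900058006c000340000000800000000000000) (nat_lit 0x0) (nat_lit 0x80006000200000000800000000000000000000000000000000) := T_41 (nat_lit 181) (nat_lit 131) (nat_lit 6) (nat_lit 11) (nat_lit 10) L109366 (by decide +kernel)
theorem L109368 : W_41 (nat_lit 4) (nat_lit 0x17000900058006c000340000000000000000000000) (nat_lit 0x0) (nat_lit 0x80006000200000000800000000000010000800000000000000) := T_41 (nat_lit 59) (nat_lit 76) (nat_lit 7) (nat_lit 8) (nat_lit 3) L109367 (by decide +kernel)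
theorem L109369 : W_41 (nat_lit 5) (nat_lit 0x17000900048006c000340000000000000000000000) (nat_lit 0x0) (nat_lit 0x80006000200000000b00000000000010000800000000000000) := T_41 (nat_lit 128) (nat_lit 129) (nat_lit 2) (nat_lit 8) (nat_lit 7) L109368 (by decide +kernel)
theorem L109370 : W_41 (nat_lit 6) (nat_lit 0x17000900048002c000340000000000000000000000) (nat_lit 0x0) (nat_lit 0x80006000200000000b00040002000010000800000000000000) := T_41 (nat_lit 114) (nat_lit 97) (nat_lit 6) (nat_lit 11) (nat_lit 9) L109369 (by decide +kernel)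
theorem L109371 : W_41 (nat_lit 7) (nat_lit 0x16000900048002c000340000000000000000000000) (nat_lit 0x0) (nat_lit 0x80006200210000000b00040002000010000800000000000000) := T_41 (nat_lit 160) (nat_lit 177) (nat_lit 5) (nat_lit 8) (nat_lit 6) L109370 (by decide +kernel)
theorem L109372 : W_41 (nat_lit 8) (nat_lit 0x16000900048000c000340000000000000000000000) (nat_lit 0x0) (nat_lit 0x80006200210000000b00070002000010000800000000000000) := T_41 (nat_lit 113) (nat_lit 112) (nat_lit 0) (nat_lit 11) (nat_lit 6) L109371 (by decide +kernel)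
theorem L109373 : W_41 (nat_lit 9) (nat_lit 0x16000900048000c000300000000000000000000000) (nat_lit 0x0) (nat_lit 0x80006200210000000b000700020c0010000800000000000000) := T_41 (nat_lit 90) (nat_lit 91) (nat_lit 3) (nat_lit 5) (nat_lit 5) L109372 (by decide +kernel)
theorem L109374 : W_41 (nat_lit 10) (nat_lit 0x160009000480004000300000000000000000000000) (nat_lit 0x0) (nat_lit 0x80006200210000000b000780024c0010000800000000000000) := T_41 (nat_lit 111) (nat_lit 94) (nat_lit 6) (nat_lit 8) (nat_lit 9) L109373 (by decide +kernel)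
theorem L109375 : W_41 (nat_lit 11) (nat_lit 0x160009000480004000200000000000000000000000) (nat_lit 0x0) (nat_lit 0x80006200210000000b000780025c0018000800000000000000) := T_41 (nat_lit 92) (nat_lit 75) (nat_lit 4) (nat_lit 8) (nat_lit 8) L109374 (by decide +kernel)
theorem L109376 : W_41 (nat_lit 12) (nat_lit 0x160009000080004000200000000000000000000000) (nat_lit 0x0) (nat_lit 0x14000e0007200210010000f40078003dc0118000c00000000000000) := Q_41 (nat_lit 130) (C_41 L109342 (C_41 L109115 (C_41 L109348 (C_41 L109365 (C_41 L109375 N_41))))) (by decide +kernel)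
theorem L109377 : W_41 (nat_lit 2) (nat_lit 0x170009000080004000200028000000000000000000) (nat_lit 0x0) (nat_lit 0x10001400000000000000) := D_41 (nat_lit 76) (nat_lit 58) (nat_lit 60) (nat_lit 4) (nat_lit 8) (nat_lit 7) (nat_lit 6) (nat_lit 8) (nat_lit 7) (by decide +kernel)
theorem L109378 : W_41 (nat_lit 3) (nat_lit 0x170009000080004000200008000000000000000000) (nat_lit 0x0) (nat_lit 0x400030001400000000000000) := T_41 (nat_lit 77) (nat_lit 94) (nat_lit 6) (nat_lit 8) (nat_lit 8) L109377 (by decide +kernel)
theorem L109379 : W_41 (nat_lit 4) (nat_lit 0x170009000080004000200000000000000000000000) (nat_lit 0x0) (nat_lit 0x500038001400000000000000) := T_41 (nat_lit 75) (nat_lit 92) (nat_lit 4) (nat_lit 8) (nat_lit 8) L109378 (by decide +kernel)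
theorem L109380 : W_41 (nat_lit 5) (nat_lit 0x160009000080004000200000000000000000000000) (nat_lit 0x0) (nat_lit 0x200010000000000000000500038001400000000000000) := T_41 (nat_lit 160) (nat_lit 177) (nat_lit 5) (nat_lit 8) (nat_lit 6) L109379 (by decide +kernel)
theorem L109381 : W_41 (nat_lit 2) (nat_lit 0x170009000480034000200000000000000000000000) (nat_lit 0x0) (nat_lit 0x800008000100000000000000000000000) := D_41 (nat_lit 111) (nat_lit 131) (nat_lit 92) (nat_lit 3) (nat_lit 8) (nat_lit 6) (nat_lit 0) (nat_lit 11) (nat_lit 6) (by decide +kernel)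
theorem L109382 : W_41 (nat_lit 3) (nat_lit 0x170009000480024000200000000000000000000000) (nat_lit 0x0) (nat_lit 0x800018000900000000000000000000000) := T_41 (nat_lit 112) (nat_lit 95) (nat_lit 4) (nat_lit 11) (nat_lit 9) L109381 (by decide +kernel)
theorem L109383 : W_41 (nat_lit 4) (nat_lit 0x160009000480024000200000000000000000000000) (nat_lit 0x0) (nat_lit 0x200010000000800018000900000000000000000000000) := T_41 (nat_lit 160) (nat_lit 177) (nat_lit 5) (nat_lit 8) (nat_lit 6) L109382 (by decide +kernel)
theorem L109384 : W_41 (nat_lit 5) (nat_lit 0x160009000480004000200000000000000000000000) (nat_lit 0x0) (nat_lit 0x4200210010000840078003900100000000000000000000) := Q_41 (nat_lit 113) (C_41 L109122 (C_41 L109114 (C_41 L109383 N_41))) (by decide +kernel)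
theorem L109385 : W_41 (nat_lit 2) (nat_lit 0x17000900078004400020001a005800000000000000) (nat_lit 0x0) (nat_lit 0x2000000000000800080000000000000000000000000000) := D_41 (nat_lit 131) (nat_lit 115) (nat_lit 181) (nat_lit 2) (nat_lit 9) (nat_lit 7) (nat_lit 6) (nat_lit 11) (nat_lit 10) (by decide +kernel)
theorem L109386 : W_41 (nat_lit 3) (nat_lit 0x17000900078000400020001a005800000000000000) (nat_lit 0x0) (nat_lit 0x20000000000008000e0000000000000000000000000000) := T_41 (nat_lit 114) (nat_lit 113) (nat_lit 2) (nat_lit 8) (nat_lit 7) L109385 (by decide +kernel)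
theorem L109387 : W_41 (nat_lit 4) (nat_lit 0x17000900058000400020001a005800000000000000) (nat_lit 0x0) (nat_lit 0x2000000010000a000e0000000000000000000000000000) := T_41 (nat_lit 129) (nat_lit 148) (nat_lit 3) (nat_lit 8) (nat_lit 7) L109386 (by decide +kernel)
theorem L109388 : W_41 (nat_lit 5) (nat_lit 0x17000900058000400020001a001800000000000000) (nat_lit 0x0) (nat_lit 0x2000000010000a000e0000000000006000000000000000) := T_41 (nat_lit 62) (nat_lit 61) (nat_lit 1) (nat_lit 11) (nat_lit 3) L109387 (by decide +kernel)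
theorem L109389 : W_41 (nat_lit 6) (nat_lit 0x17000900048000400020001a001800000000000000) (nat_lit 0x0) (nat_lit 0x2000000010000b000e8000000000006000000000000000) := T_41 (nat_lit 128) (nat_lit 111) (nat_lit 7) (nat_lit 8) (nat_lit 3) L109388 (by decide +kernel)
theorem L109390 : W_41 (nat_lit 7) (nat_lit 0x170009000480004000200018001800000000000000) (nat_lit 0x0) (nat_lit 0x2000000010000b000e8000000006006000000000000000) := T_41 (nat_lit 73) (nat_lit 74) (nat_lit 2) (nat_lit 5) (nat_lit 4) L109389 (by decide +kernel)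
theorem L109391 : W_41 (nat_lit 8) (nat_lit 0x170009000480004000200018001000000000000000) (nat_lit 0x0) (nat_lit 0x2000000010000b000e8000000006006800080000000000) := T_41 (nat_lit 59) (nat_lit 43) (nat_lit 6) (nat_lit 8) (nat_lit 6) L109390 (by decide +kernel)
theorem L109392 : W_41 (nat_lit 9) (nat_lit 0x170009000480004000200018000000000000000000) (nat_lit 0x0) (nat_lit 0x2000000010000b000e8000000026007800080000000000) := T_41 (nat_lit 60) (nat_lit 77) (nat_lit 6) (nat_lit 8) (nat_lit 7) L109391 (by decide +kernel)
theorem L109393 : W_41 (nat_lit 10) (nat_lit 0x170009000480004000200008000000000000000000) (nat_lit 0x0) (nat_lit 0x2000000010000b000e8000000036007c00080000000000) := T_41 (nat_lit 76) (nat_lit 58) (nat_lit 4) (nat_lit 8) (nat_lit 7) L109392 (by decide +kernel)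
theorem L109394 : W_41 (nat_lit 11) (nat_lit 0x160009000480004000200008000000000000000000) (nat_lit 0x0) (nat_lit 0x2200010010000b000e8000000036007c00080000000000) := T_41 (nat_lit 160) (nat_lit 177) (nat_lit 5) (nat_lit 8) (nat_lit 6) L109393 (by decide +kernel)
theorem L109395 : W_41 (nat_lit 12) (nat_lit 0x160009000480004000200000000000000000000000) (nat_lit 0x0) (nat_lit 0x2200010010000b000e800010003e007c00080000000000) := T_41 (nat_lit 75) (nat_lit 92) (nat_lit 4) (nat_lit 8) (nat_lit 8) L109394 (by decide +kernel)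
theorem L109396 : W_41 (nat_lit 2) (nat_lit 0x170009000480034000200000000000000000000000) (nat_lit 0x0) (nat_lit 0x840008000000000000000000000000000) := D_41 (nat_lit 111) (nat_lit 131) (nat_lit 126) (nat_lit 3) (nat_lit 8) (nat_lit 6) (nat_lit 1) (nat_lit 11) (nat_lit 6) (by decide +kernel)
theorem L109397 : W_41 (nat_lit 3) (nat_lit 0x170009000480024000200000000000000000000000) (nat_lit 0x0) (nat_lit 0x840018000800000000000000000000000) := T_41 (nat_lit 112) (nat_lit 95) (nat_lit 4) (nat_lit 11) (nat_lit 9) L109396 (by decide +kernel)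
theorem L109398 : W_41 (nat_lit 4) (nat_lit 0x160009000480024000200000000000000000000000) (nat_lit 0x0) (nat_lit 0x200010000000840018000800000000000000000000000) := T_41 (nat_lit 160) (nat_lit 177) (nat_lit 5) (nat_lit 8) (nat_lit 6) L109397 (by decide +kernel)
theorem L109399 : W_41 (nat_lit 5) (nat_lit 0x160009000480004000200000000000000000000000) (nat_lit 0x0) (nat_lit 0x4200210010000840078003800100000000000000000000) := Q_41 (nat_lit 113) (C_41 L109122 (C_41 L109114 (C_41 L109398 N_41))) (by decide +kernel)
theorem L109400 : W_41 (nat_lit 2) (nat_lit 0xa0002000170009000780004000200018001800000000000000) (nat_lit 0x0) (nat_lit 0x1400040000000000000000000000000000000000000000000000000) := D_41 (nat_lit 198) (nat_lit 214) (nat_lit 216) (nat_lit 5) (nat_lit 11) (nat_lit 8) (nat_lit 7) (nat_lit 11) (nat_lit 8) (by decide +kernel)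
theorem L109401 : W_41 (nat_lit 3) (nat_lit 0x20002000170009000780004000200018001800000000000000) (nat_lit 0x0) (nat_lit 0x14000c0004000000000000000000000000000000000000000000000) := T_41 (nat_lit 199) (nat_lit 182) (nat_lit 7) (nat_lit 11) (nat_lit 7) L109400 (by decide +kernel)
theorem L109402 : W_41 (nat_lit 4) (nat_lit 0x2000170009000780004000200018001800000000000000) (nat_lit 0x0) (nat_lit 0x14000e0005000000000000000000000000000000000000000000000) := T_41 (nat_lit 197) (nat_lit 180) (nat_lit 5) (nat_lit 11) (nat_lit 7) L109401 (by decide +kernel)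
theorem L109403 : W_41 (nat_lit 5) (nat_lit 0x170009000780004000200018001800000000000000) (nat_lit 0x0) (nat_lit 0x14000e0007000000000000000010000000000000000000000000000) := T_41 (nat_lit 181) (nat_lit 112) (nat_lit 4) (nat_lit 11) (nat_lit 10) L109402 (by decide +kernel)
theorem L109404 : W_41 (nat_lit 6) (nat_lit 0x170009000580004000200018001800000000000000) (nat_lit 0x0) (nat_lit 0x14000e0007000000010000200010000000000000000000000000000) := T_41 (nat_lit 129) (nat_lit 148) (nat_lit 3) (nat_lit 8) (nat_lit 7) L109403 (by decide +kernel)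
theorem L109405 : W_41 (nat_lit 7) (nat_lit 0x170009000480004000200018001800000000000000) (nat_lit 0x0) (nat_lit 0x14000e0007000000010000300018000000000000000000000000000) := T_41 (nat_lit 128) (nat_lit 111) (nat_lit 7) (nat_lit 8) (nat_lit 3) L109404 (by decide +kernel)
theorem L109406 : W_41 (nat_lit 8) (nat_lit 0x170009000480004000200018001000000000000000) (nat_lit 0x0) (nat_lit 0x14000e0007000000010000300018000000000000800080000000000) := T_41 (nat_lit 59) (nat_lit 43) (nat_lit 6) (nat_lit 8) (nat_lit 6) L109405 (by decide +kernel)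
theorem L109407 : W_41 (nat_lit 9) (nat_lit 0x170009000480004000200018000000000000000000) (nat_lit 0x0) (nat_lit 0x14000e0007000000010000300018000000020001800080000000000) := T_41 (nat_lit 60) (nat_lit 77) (nat_lit 6) (nat_lit 8) (nat_lit 7) L109406 (by decide +kernel)
theorem L109408 : W_41 (nat_lit 10) (nat_lit 0x170009000480004000200008000000000000000000) (nat_lit 0x0) (nat_lit 0x14000e0007000000010000300018000000030001c00080000000000) := T_41 (nat_lit 76) (nat_lit 58) (nat_lit 4) (nat_lit 8) (nat_lit 7) L109407 (by decide +kernel)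
theorem L109409 : W_41 (nat_lit 11) (nat_lit 0x170009000480004000200000000000000000000000) (nat_lit 0x0) (nat_lit 0x14000e0007000000010000300018000100038001c00080000000000) := T_41 (nat_lit 75) (nat_lit 92) (nat_lit 4) (nat_lit 8) (nat_lit 8) L109408 (by decide +kernel)
theorem L109410 : W_41 (nat_lit 12) (nat_lit 0x160009000480004000200000000000000000000000) (nat_lit 0x0) (nat_lit 0x14000e0007200010010000300018000100038001c00080000000000) := T_41 (nat_lit 160) (nat_lit 177) (nat_lit 5) (nat_lit 8) (nat_lit 6) L109409 (by decide +kernel)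
theorem L109411 : W_41 (nat_lit 7) (nat_lit 0x160009000480004000200000000000000000000000) (nat_lit 0x0) (nat_lit 0x80006200210000000b40078002900008000000000000000000) := Q_41 (nat_lit 113) (C_41 L109398 (C_41 L109307 (C_41 L109111 N_41))) (by decide +kernel)
theorem L109412 : W_41 (nat_lit 13) (nat_lit 0x160009000080004000200000000000000000000000) (nat_lit 0x0) (nat_lit 0x14000e0007200210010000f400f800390013e007c00080000000000) := Q_41 (nat_lit 130) (C_41 L109384 (C_41 L109365 (C_41 L109395 (C_41 L109399 (C_41 L109410 (C_41 L109411 N_41)))))) (by decide +kernel)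
theorem L109413 : W_41 (nat_lit 14) (nat_lit 0x160009000080004000000000000000000000000000) (nat_lit 0x0) (nat_lit 0x14000e0007200210010000f400f8003fc013e007c00080000000000) := Q_41 (nat_lit 93) (C_41 L109338 (C_41 L109376 (C_41 L109380 (C_41 L109412 N_41)))) (by decide +kernel)
theorem L109414 : W_41 (nat_lit 2) (nat_lit 0x20001e000900008000c000000000000000000000000000) (nat_lit 0x0) (nat_lit 0x1200010000000000000000000000000000000000000000) := D_41 (nat_lit 160) (nat_lit 180) (nat_lit 177) (nat_lit 3) (nat_lit 7) (nat_lit 9) (nat_lit 5) (nat_lit 8) (nat_lit 6) (by decide +kernel)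
theorem L109415 : W_41 (nat_lit 3) (nat_lit 0x200016000900008000c000000000000000000000000000) (nat_lit 0x0) (nat_lit 0x5200090000000000000000000000000000000000000000) := T_41 (nat_lit 163) (nat_lit 182) (nat_lit 3) (nat_lit 8) (nat_lit 9) L109414 (by decide +kernel)
theorem L109416 : W_41 (nat_lit 4) (nat_lit 0x2000160009000080004000000000000000000000000000) (nat_lit 0x0) (nat_lit 0x5200090000000000008000400000000000000000000000) := T_41 (nat_lit 111) (nat_lit 94) (nat_lit 6) (nat_lit 8) (nat_lit 9) L109415 (by decide +kernel)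
theorem L109417 : W_41 (nat_lit 2) (nat_lit 0x600016000900048002c000000000000000000000000000) (nat_lit 0x0) (nat_lit 0x800040002000000000000000000000000) := D_41 (nat_lit 114) (nat_lit 97) (nat_lit 131) (nat_lit 6) (nat_lit 11) (nat_lit 9) (nat_lit 6) (nat_lit 11) (nat_lit 10) (by decide +kernel)
theorem L109418 : W_41 (nat_lit 3) (nat_lit 0x600016000900048000c000000000000000000000000000) (nat_lit 0x0) (nat_lit 0x200000000800060002000000000000000000000000) := T_41 (nat_lit 113) (nat_lit 165) (nat_lit 7) (nat_lit 11) (nat_lit 6) L109417 (by decide +kernel)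
theorem L109419 : W_41 (nat_lit 4) (nat_lit 0x600016000900008000c000000000000000000000000000) (nat_lit 0x0) (nat_lit 0x80000000200000000c00060002000000000000000000000000) := T_41 (nat_lit 130) (nat_lit 199) (nat_lit 7) (nat_lit 11) (nat_lit 7) L109418 (by decide +kernel)
theorem L109420 : W_41 (nat_lit 5) (nat_lit 0x200016000900008000c000000000000000000000000000) (nat_lit 0x0) (nat_lit 0x80004000280000000c00060002000000000000000000000000) := T_41 (nat_lit 182) (nat_lit 163) (nat_lit 3) (nat_lit 8) (nat_lit 9) L109419 (by decide +kernel)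
theorem L109421 : W_41 (nat_lit 6) (nat_lit 0x2000160009000080004000000000000000000000000000) (nat_lit 0x0) (nat_lit 0x80004000280000000c00068002400000000000000000000000) := T_41 (nat_lit 111) (nat_lit 94) (nat_lit 6) (nat_lit 8) (nat_lit 9) L109420 (by decide +kernel)
theorem L109422 : W_41 (nat_lit 2) (nat_lit 0x20001e0009000080004000000000000000000000000000) (nat_lit 0x0) (nat_lit 0x1200010000000000000000000000000000000000000000) := D_41 (nat_lit 160) (nat_lit 180) (nat_lit 177) (nat_lit 3) (nat_lit 7) (nat_lit 9) (nat_lit 5) (nat_lit 8) (nat_lit 6) (by decide +kernel)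
theorem L109423 : W_41 (nat_lit 3) (nat_lit 0x2000160009000080004000000000000000000000000000) (nat_lit 0x0) (nat_lit 0x5200090000000000000000000000000000000000000000) := T_41 (nat_lit 163) (nat_lit 182) (nat_lit 3) (nat_lit 8) (nat_lit 9) L109422 (by decide +kernel)
theorem L109424 : W_41 (nat_lit 2) (nat_lit 0x6000170009000480024000000000000000000000000000) (nat_lit 0x0) (nat_lit 0x800040002000000000000000000000000) := D_41 (nat_lit 114) (nat_lit 97) (nat_lit 131) (nat_lit 6) (nat_lit 11) (nat_lit 9) (nat_lit 6) (nat_lit 11) (nat_lit 10) (by decide +kernel)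
theorem L109425 : W_41 (nat_lit 3) (nat_lit 0x6000170009000480004000000000000000000000000000) (nat_lit 0x0) (nat_lit 0x200000000800060002000000000000000000000000) := T_41 (nat_lit 113) (nat_lit 165) (nat_lit 7) (nat_lit 11) (nat_lit 6) L109424 (by decide +kernel)
theorem L109426 : W_41 (nat_lit 4) (nat_lit 0x2000170009000480004000000000000000000000000000) (nat_lit 0x0) (nat_lit 0x80004000200000000800060002000000000000000000000000) := T_41 (nat_lit 182) (nat_lit 199) (nat_lit 7) (nat_lit 11) (nat_lit 7) L109425 (by decide +kernel)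
theorem L109427 : W_41 (nat_lit 5) (nat_lit 0x2000160009000480004000000000000000000000000000) (nat_lit 0x0) (nat_lit 0x80004200210000000800060002000000000000000000000000) := T_41 (nat_lit 160) (nat_lit 177) (nat_lit 5) (nat_lit 8) (nat_lit 6) L109426 (by decide +kernel)
theorem L109428 : W_41 (nat_lit 2) (nat_lit 0x6000160009000c80024000000000000000000000000000) (nat_lit 0x0) (nat_lit 0x200010000800000000000000000000000) := D_41 (nat_lit 112) (nat_lit 95) (nat_lit 129) (nat_lit 4) (nat_lit 11) (nat_lit 9) (nat_lit 4) (nat_lit 11) (nat_lit 10) (by decide +kernel)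
theorem L109429 : W_41 (nat_lit 3) (nat_lit 0x6000160009000c80004000000000000000000000000000) (nat_lit 0x0) (nat_lit 0x200000000200030000800000000000000000000000) := T_41 (nat_lit 113) (nat_lit 165) (nat_lit 7) (nat_lit 11) (nat_lit 6) L109428 (by decide +kernel)
theorem L109430 : W_41 (nat_lit 4) (nat_lit 0x2000160009000c80004000000000000000000000000000) (nat_lit 0x0) (nat_lit 0x80004000200000000200030000800000000000000000000000) := T_41 (nat_lit 182) (nat_lit 199) (nat_lit 7) (nat_lit 11) (nat_lit 7) L109429 (by decide +kernel)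
theorem L109431 : W_41 (nat_lit 5) (nat_lit 0x2000160009000480004000000000000000000000000000) (nat_lit 0x0) (nat_lit 0x80004000200000000a00070000800000000000000000000000) := T_41 (nat_lit 131) (nat_lit 114) (nat_lit 6) (nat_lit 11) (nat_lit 10) L109430 (by decide +kernel)
theorem L109432 : W_41 (nat_lit 2) (nat_lit 0x7000170009000e80004000000000000000000000000000) (nat_lit 0x0) (nat_lit 0x100008000400000000000000000000000) := D_41 (nat_lit 111) (nat_lit 128) (nat_lit 94) (nat_lit 0) (nat_lit 12) (nat_lit 7) (nat_lit 6) (nat_lit 8) (nat_lit 9) (by decide +kernel)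
theorem L109433 : W_41 (nat_lit 3) (nat_lit 0x7000170009000c80004000000000000000000000000000) (nat_lit 0x0) (nat_lit 0x300018000400000000000000000000000) := T_41 (nat_lit 129) (nat_lit 112) (nat_lit 4) (nat_lit 11) (nat_lit 10) L109432 (by decide +kernel)
theorem L109434 : W_41 (nat_lit 4) (nat_lit 0x3000170009000c80004000000000000000000000000000) (nat_lit 0x0) (nat_lit 0x80004000000000000300018000400000000000000000000000) := T_41 (nat_lit 182) (nat_lit 199) (nat_lit 7) (nat_lit 11) (nat_lit 7) L109433 (by decide +kernel)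
theorem L109435 : W_41 (nat_lit 5) (nat_lit 0x3000170009000480004000000000000000000000000000) (nat_lit 0x0) (nat_lit 0x80004000000000000b00058000400000000000000000000000) := T_41 (nat_lit 131) (nat_lit 114) (nat_lit 6) (nat_lit 11) (nat_lit 10) L109434 (by decide +kernel)
theorem L109436 : W_41 (nat_lit 6) (nat_lit 0x3000160009000480004000000000000000000000000000) (nat_lit 0x0) (nat_lit 0x80004200010000000b00058000400000000000000000000000) := T_41 (nat_lit 160) (nat_lit 177) (nat_lit 5) (nat_lit 8) (nat_lit 6) L109435 (by decide +kernel)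
theorem L109437 : W_41 (nat_lit 7) (nat_lit 0x2000160009000480004000000000000000000000000000) (nat_lit 0x0) (nat_lit 0xa0005200010000000b00058000400000000000000000000000) := T_41 (nat_lit 180) (nat_lit 197) (nat_lit 5) (nat_lit 11) (nat_lit 7) L109436 (by decide +kernel)
theorem L109438 : W_41 (nat_lit 2) (nat_lit 0x700017000900048002c000000000000000000000000000) (nat_lit 0x0) (nat_lit 0x200010000800000000000000000000000) := D_41 (nat_lit 112) (nat_lit 95) (nat_lit 129) (nat_lit 4) (nat_lit 11) (nat_lit 9) (nat_lit 4) (nat_lit 11) (nat_lit 10) (by decide +kernel)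
theorem L109439 : W_41 (nat_lit 3) (nat_lit 0x700017000900048000c000000000000000000000000000) (nat_lit 0x0) (nat_lit 0x200000000200030000800000000000000000000000) := T_41 (nat_lit 113) (nat_lit 165) (nat_lit 7) (nat_lit 11) (nat_lit 6) L109438 (by decide +kernel)
theorem L109440 : W_41 (nat_lit 4) (nat_lit 0x300017000900048000c000000000000000000000000000) (nat_lit 0x0) (nat_lit 0x80004000200000000200030000800000000000000000000000) := T_41 (nat_lit 182) (nat_lit 199) (nat_lit 7) (nat_lit 11) (nat_lit 7) L109439 (by decide +kernel)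
theorem L109441 : W_41 (nat_lit 5) (nat_lit 0x200017000900048000c000000000000000000000000000) (nat_lit 0x0) (nat_lit 0xa0005000200000000200030000800000000000000000000000) := T_41 (nat_lit 180) (nat_lit 197) (nat_lit 5) (nat_lit 11) (nat_lit 7) L109440 (by decide +kernel)
theorem L109442 : W_41 (nat_lit 6) (nat_lit 0x200016000900048000c000000000000000000000000000) (nat_lit 0x0) (nat_lit 0xa0005200210000000200030000800000000000000000000000) := T_41 (nat_lit 160) (nat_lit 177) (nat_lit 5) (nat_lit 8) (nat_lit 6) L109441 (by decide +kernel)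
theorem L109443 : W_41 (nat_lit 7) (nat_lit 0x2000160009000480004000000000000000000000000000) (nat_lit 0x0) (nat_lit 0xa0005200210000000200038000c00000000000000000000000) := T_41 (nat_lit 111) (nat_lit 94) (nat_lit 6) (nat_lit 8) (nat_lit 9) L109442 (by decide +kernel)
theorem L109444 : W_41 (nat_lit 2) (nat_lit 0x200016000900068000c000000000000000000000000000) (nat_lit 0x0) (nat_lit 0x900040000000000000000000000000000) := D_41 (nat_lit 131) (nat_lit 128) (nat_lit 114) (nat_lit 0) (nat_lit 12) (nat_lit 7) (nat_lit 6) (nat_lit 11) (nat_lit 10) (by decide +kernel)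
theorem L109445 : W_41 (nat_lit 3) (nat_lit 0x2000160009000680004000000000000000000000000000) (nat_lit 0x0) (nat_lit 0x900048000400000000000000000000000) := T_41 (nat_lit 111) (nat_lit 94) (nat_lit 6) (nat_lit 8) (nat_lit 9) L109444 (by decide +kernel)
theorem L109446 : W_41 (nat_lit 4) (nat_lit 0x2000160009000480004000000000000000000000000000) (nat_lit 0x0) (nat_lit 0xb00058000400000000000000000000000) := T_41 (nat_lit 129) (nat_lit 112) (nat_lit 4) (nat_lit 11) (nat_lit 10) L109445 (by decide +kernel)
theorem L109447 : W_41 (nat_lit 8) (nat_lit 0x2000160009000080004000000000000000000000000000) (nat_lit 0x0) (nat_lit 0xa0005200210000000f00078002c00000000000000000000000) := Q_41 (nat_lit 130) (C_41 L109427 (C_41 L109431 (C_41 L109437 (C_41 L109443 (C_41 L109446 N_41))))) (by decide +kernel)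
theorem L109448 : W_41 (nat_lit 2) (nat_lit 0x300017000900068000c000000000000000000000000000) (nat_lit 0x0) (nat_lit 0x900040000000000000000000000000000) := D_41 (nat_lit 131) (nat_lit 128) (nat_lit 114) (nat_lit 0) (nat_lit 12) (nat_lit 7) (nat_lit 6) (nat_lit 11) (nat_lit 10) (by decide +kernel)
theorem L109449 : W_41 (nat_lit 3) (nat_lit 0x300017000900048000c000000000000000000000000000) (nat_lit 0x0) (nat_lit 0xb00050000000000000000000000000000) := T_41 (nat_lit 129) (nat_lit 112) (nat_lit 4) (nat_lit 11) (nat_lit 10) L109448 (by decide +kernel)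
theorem L109450 : W_41 (nat_lit 4) (nat_lit 0x300017000900008000c000000000000000000000000000) (nat_lit 0x0) (nat_lit 0x20000000000000000f00050000000000000000000000000000) := T_41 (nat_lit 130) (nat_lit 197) (nat_lit 5) (nat_lit 11) (nat_lit 7) L109449 (by decide +kernel)
theorem L109451 : W_41 (nat_lit 5) (nat_lit 0x3000170009000080004000000000000000000000000000) (nat_lit 0x0) (nat_lit 0x20000000000000000f00058000400000000000000000000000) := T_41 (nat_lit 111) (nat_lit 94) (nat_lit 6) (nat_lit 8) (nat_lit 9) L109450 (by decide +kernel)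
theorem L109452 : W_41 (nat_lit 6) (nat_lit 0x2000170009000080004000000000000000000000000000) (nat_lit 0x0) (nat_lit 0x20001000080000000f00058000400000000000000000000000) := T_41 (nat_lit 180) (nat_lit 163) (nat_lit 3) (nat_lit 7) (nat_lit 9) L109451 (by decide +kernel)
theorem L109453 : W_41 (nat_lit 7) (nat_lit 0x2000160009000080004000000000000000000000000000) (nat_lit 0x0) (nat_lit 0x20001200090000000f00058000400000000000000000000000) := T_41 (nat_lit 160) (nat_lit 177) (nat_lit 5) (nat_lit 8) (nat_lit 6) L109452 (by decide +kernel)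
theorem L109454 : W_41 (nat_lit 9) (nat_lit 0x160009000080004000000000000000000000000000) (nat_lit 0x0) (nat_lit 0xa0007200290000000f00078002c00000000000000000000000) := Q_41 (nat_lit 181) (C_41 L109416 (C_41 L109421 (C_41 L109423 (C_41 L109447 (C_41 L109453 N_41))))) (by decide +kernel)
theorem L109455 : W_41 (nat_lit 2) (nat_lit 0x17000900008002c000200000000000000000000000) (nat_lit 0x0) (nat_lit 0x40010000100000000000000000000000) := D_41 (nat_lit 112) (nat_lit 126) (nat_lit 92) (nat_lit 1) (nat_lit 11) (nat_lit 6) (nat_lit 0) (nat_lit 11) (nat_lit 6) (by decide +kernel)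
theorem L109456 : W_41 (nat_lit 3) (nat_lit 0x170009000080024000200000000000000000000000) (nat_lit 0x0) (nat_lit 0x40018000500000000000000000000000) := T_41 (nat_lit 111) (nat_lit 94) (nat_lit 6) (nat_lit 8) (nat_lit 9) L109455 (by decide +kernel)
theorem L109457 : W_41 (nat_lit 4) (nat_lit 0x160009000080024000200000000000000000000000) (nat_lit 0x0) (nat_lit 0x200010000000040018000500000000000000000000000) := T_41 (nat_lit 160) (nat_lit 177) (nat_lit 5) (nat_lit 8) (nat_lit 6) L109456 (by decide +kernel)
theorem L109458 : W_41 (nat_lit 2) (nat_lit 0x1e0009000080024000300000000000000000000000) (nat_lit 0x0) (nat_lit 0x18000400000000000000000000000) := D_41 (nat_lit 111) (nat_lit 112) (nat_lit 94) (nat_lit 0) (nat_lit 11) (nat_lit 6) (nat_lit 6) (nat_lit 8) (nat_lit 9) (by decide +kernel)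
theorem L109459 : W_41 (nat_lit 3) (nat_lit 0x1e0009000080024000200000000000000000000000) (nat_lit 0x0) (nat_lit 0x18000500008000000000000000000) := T_41 (nat_lit 92) (nat_lit 75) (nat_lit 4) (nat_lit 8) (nat_lit 8) L109458 (by decide +kernel)
theorem L109460 : W_41 (nat_lit 4) (nat_lit 0x160009000080024000200000000000000000000000) (nat_lit 0x0) (nat_lit 0x80010000000018000500008000000000000000000) := T_41 (nat_lit 163) (nat_lit 148) (nat_lit 2) (nat_lit 8) (nat_lit 9) L109459 (by decide +kernel)
theorem L109461 : W_41 (nat_lit 2) (nat_lit 0x3f0009000580064000200018000000000000000000) (nat_lit 0x0) (nat_lit 0x8000400000000800000000000000) := D_41 (nat_lit 111) (nat_lit 94) (nat_lit 59) (nat_lit 6) (nat_lit 8) (nat_lit 9) (nat_lit 7) (nat_lit 8) (nat_lit 3) (by decide +kernel)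
theorem L109462 : W_41 (nat_lit 3) (nat_lit 0x3f0009000480064000200018000000000000000000) (nat_lit 0x0) (nat_lit 0x300008000400000000800000000000000) := T_41 (nat_lit 128) (nat_lit 129) (nat_lit 2) (nat_lit 8) (nat_lit 7) L109461 (by decide +kernel)
theorem L109463 : W_41 (nat_lit 4) (nat_lit 0x3f0009000480024000200018000000000000000000) (nat_lit 0x0) (nat_lit 0x300048002400000000800000000000000) := T_41 (nat_lit 114) (nat_lit 97) (nat_lit 6) (nat_lit 11) (nat_lit 9) L109462 (by decide +kernel)
theorem L109464 : W_41 (nat_lit 5) (nat_lit 0x3f0009000480024000200008000000000000000000) (nat_lit 0x0) (nat_lit 0x300048002400010000c00000000000000) := T_41 (nat_lit 76) (nat_lit 58) (nat_lit 4) (nat_lit 8) (nat_lit 7) L109463 (by decide +kernel)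
theorem L109465 : W_41 (nat_lit 6) (nat_lit 0x1f0009000480024000200008000000000000000000) (nat_lit 0x0) (nat_lit 0x4000200000000300048002400010000c00000000000000) := T_41 (nat_lit 165) (nat_lit 182) (nat_lit 7) (nat_lit 11) (nat_lit 6) L109464 (by decide +kernel)
theorem L109466 : W_41 (nat_lit 7) (nat_lit 0x1f0009000480024000200000000000000000000000) (nat_lit 0x0) (nat_lit 0x4000200000000300048002500018000c00000000000000) := T_41 (nat_lit 75) (nat_lit 92) (nat_lit 4) (nat_lit 8) (nat_lit 8) L109465 (by decide +kernel)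
theorem L109467 : W_41 (nat_lit 8) (nat_lit 0x1f0009000080024000200000000000000000000000) (nat_lit 0x0) (nat_lit 0x5000200000000700048002500018000c00000000000000) := T_41 (nat_lit 130) (nat_lit 180) (nat_lit 5) (nat_lit 11) (nat_lit 6) L109466 (by decide +kernel)
theorem L109468 : W_41 (nat_lit 9) (nat_lit 0x1e0009000080024000200000000000000000000000) (nat_lit 0x0) (nat_lit 0x5200210000000700048002500018000c00000000000000) := T_41 (nat_lit 160) (nat_lit 177) (nat_lit 5) (nat_lit 8) (nat_lit 6) L109467 (by decide +kernel)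
theorem L109469 : W_41 (nat_lit 10) (nat_lit 0x160009000080024000200000000000000000000000) (nat_lit 0x0) (nat_lit 0x5200290010000700048002500018000c00000000000000) := T_41 (nat_lit 163) (nat_lit 148) (nat_lit 2) (nat_lit 8) (nat_lit 9) L109468 (by decide +kernel)
theorem L109470 : W_41 (nat_lit 2) (nat_lit 0x16000900008003c000200000000000000000000000) (nat_lit 0x0) (nat_lit 0xc00000000800000000000000000000000) := D_41 (nat_lit 130) (nat_lit 131) (nat_lit 95) (nat_lit 3) (nat_lit 8) (nat_lit 6) (nat_lit 4) (nat_lit 11) (nat_lit 9) (by decide +kernel)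
theorem L109471 : W_41 (nat_lit 3) (nat_lit 0x16000900008002c000200000000000000000000000) (nat_lit 0x0) (nat_lit 0xc40010000800000000000000000000000) := T_41 (nat_lit 112) (nat_lit 126) (nat_lit 1) (nat_lit 11) (nat_lit 6) L109470 (by decide +kernel)
theorem L109472 : W_41 (nat_lit 4) (nat_lit 0x160009000080024000200000000000000000000000) (nat_lit 0x0) (nat_lit 0xc40018000c00000000000000000000000) := T_41 (nat_lit 111) (nat_lit 94) (nat_lit 6) (nat_lit 8) (nat_lit 9) L109471 (by decide +kernel)
theorem L109473 : W_41 (nat_lit 2) (nat_lit 0x3f0009000480024001b00000000000000000000000) (nat_lit 0x0) (nat_lit 0x40002400000000000000000000000) := D_41 (nat_lit 114) (nat_lit 94) (nat_lit 97) (nat_lit 3) (nat_lit 8) (nat_lit 5) (nat_lit 6) (nat_lit 11) (nat_lit 9) (by decide +kernel)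
theorem L109474 : W_41 (nat_lit 3) (nat_lit 0x3f0009000480024000b00000000000000000000000) (nat_lit 0x0) (nat_lit 0x40003400040000000000000000000) := T_41 (nat_lit 96) (nat_lit 78) (nat_lit 4) (nat_lit 11) (nat_lit 8) L109473 (by decide +kernel)
theorem L109475 : W_41 (nat_lit 4) (nat_lit 0x1f0009000480024000b00000000000000000000000) (nat_lit 0x0) (nat_lit 0x4000200000000000040003400040000000000000000000) := T_41 (nat_lit 165) (nat_lit 182) (nat_lit 7) (nat_lit 11) (nat_lit 6) L109474 (by decide +kernel)
theorem L109476 : W_41 (nat_lit 5) (nat_lit 0x1f0009000480024000300000000000000000000000) (nat_lit 0x0) (nat_lit 0x4000200000000000050003c00040000000000000000000) := T_41 (nat_lit 95) (nat_lit 112) (nat_lit 4) (nat_lit 11) (nat_lit 9) L109475 (by decide +kernel)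
theorem L109477 : W_41 (nat_lit 6) (nat_lit 0x1f0009000080024000300000000000000000000000) (nat_lit 0x0) (nat_lit 0x5000200000000400050003c00040000000000000000000) := T_41 (nat_lit 130) (nat_lit 180) (nat_lit 5) (nat_lit 11) (nat_lit 6) L109476 (by decide +kernel)
theorem L109478 : W_41 (nat_lit 7) (nat_lit 0x170009000080024000300000000000000000000000) (nat_lit 0x0) (nat_lit 0x5000280010000400050003c00040000000000000000000) := T_41 (nat_lit 163) (nat_lit 148) (nat_lit 2) (nat_lit 8) (nat_lit 9) L109477 (by decide +kernel)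
theorem L109479 : W_41 (nat_lit 8) (nat_lit 0x170009000080024000200000000000000000000000) (nat_lit 0x0) (nat_lit 0x5000280010000400050003d00048000000000000000000) := T_41 (nat_lit 92) (nat_lit 75) (nat_lit 4) (nat_lit 8) (nat_lit 8) L109478 (by decide +kernel)
theorem L109480 : W_41 (nat_lit 9) (nat_lit 0x160009000080024000200000000000000000000000) (nat_lit 0x0) (nat_lit 0x5200290010000400050003d00048000000000000000000) := T_41 (nat_lit 160) (nat_lit 177) (nat_lit 5) (nat_lit 8) (nat_lit 6) L109479 (by decide +kernel)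
theorem L109481 : W_41 (nat_lit 2) (nat_lit 0x1f0009000480034000200000000000000000000000) (nat_lit 0x0) (nat_lit 0x800008000100000000000000000000000) := D_41 (nat_lit 111) (nat_lit 131) (nat_lit 92) (nat_lit 3) (nat_lit 8) (nat_lit 6) (nat_lit 0) (nat_lit 11) (nat_lit 6) (by decide +kernel)
theorem L109482 : W_41 (nat_lit 3) (nat_lit 0x1f0009000480024000200000000000000000000000) (nat_lit 0x0) (nat_lit 0x800018000900000000000000000000000) := T_41 (nat_lit 112) (nat_lit 95) (nat_lit 4) (nat_lit 11) (nat_lit 9) L109481 (by decide +kernel)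
theorem L109483 : W_41 (nat_lit 4) (nat_lit 0x1f0009000080024000200000000000000000000000) (nat_lit 0x0) (nat_lit 0x1000000000000c00018000900000000000000000000000) := T_41 (nat_lit 130) (nat_lit 180) (nat_lit 5) (nat_lit 11) (nat_lit 6) L109482 (by decide +kernel)
theorem L109484 : W_41 (nat_lit 5) (nat_lit 0x1e0009000080024000200000000000000000000000) (nat_lit 0x0) (nat_lit 0x1200010000000c00018000900000000000000000000000) := T_41 (nat_lit 160) (nat_lit 177) (nat_lit 5) (nat_lit 8) (nat_lit 6) L109483 (by decide +kernel)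
theorem L109485 : W_41 (nat_lit 6) (nat_lit 0x160009000080024000200000000000000000000000) (nat_lit 0x0) (nat_lit 0x1200090010000c00018000900000000000000000000000) := T_41 (nat_lit 163) (nat_lit 148) (nat_lit 2) (nat_lit 8) (nat_lit 9) L109484 (by decide +kernel)
theorem L109486 : W_41 (nat_lit 11) (nat_lit 0x160009000080004000200000000000000000000000) (nat_lit 0x0) (nat_lit 0x5200290010000f40078003d00058000c00000000000000) := Q_41 (nat_lit 113) (C_41 L109457 (C_41 L109460 (C_41 L109469 (C_41 L109472 (C_41 L109480 (C_41 L109485 N_41)))))) (by decide +kernel)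
theorem L109487 : W_41 (nat_lit 2) (nat_lit 0x1f0009000480034000200010000000000000000000) (nat_lit 0x0) (nat_lit 0x800008000100000000000000000000000) := D_41 (nat_lit 111) (nat_lit 131) (nat_lit 92) (nat_lit 3) (nat_lit 8) (nat_lit 6) (nat_lit 0) (nat_lit 11) (nat_lit 6) (by decide +kernel)
theorem L109488 : W_41 (nat_lit 3) (nat_lit 0x1f0009000480024000200010000000000000000000) (nat_lit 0x0) (nat_lit 0x800018000900000000000000000000000) := T_41 (nat_lit 112) (nat_lit 95) (nat_lit 4) (nat_lit 11) (nat_lit 9) L109487 (by decide +kernel)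
theorem L109489 : W_41 (nat_lit 4) (nat_lit 0x1f0009000080024000200010000000000000000000) (nat_lit 0x0) (nat_lit 0x1000000000000c00018000900000000000000000000000) := T_41 (nat_lit 130) (nat_lit 180) (nat_lit 5) (nat_lit 11) (nat_lit 6) L109488 (by decide +kernel)
theorem L109490 : W_41 (nat_lit 5) (nat_lit 0x1e0009000080024000200010000000000000000000) (nat_lit 0x0) (nat_lit 0x1200010000000c00018000900000000000000000000000) := T_41 (nat_lit 160) (nat_lit 177) (nat_lit 5) (nat_lit 8) (nat_lit 6) L109489 (by decide +kernel)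
theorem L109491 : W_41 (nat_lit 6) (nat_lit 0x160009000080024000200010000000000000000000) (nat_lit 0x0) (nat_lit 0x1200090010000c00018000900000000000000000000000) := T_41 (nat_lit 163) (nat_lit 148) (nat_lit 2) (nat_lit 8) (nat_lit 9) L109490 (by decide +kernel)
theorem L109492 : W_41 (nat_lit 2) (nat_lit 0x1e0009000480034000200030000000000000000000) (nat_lit 0x0) (nat_lit 0x800008000100000000000000000000000) := D_41 (nat_lit 111) (nat_lit 131) (nat_lit 92) (nat_lit 3) (nat_lit 8) (nat_lit 6) (nat_lit 0) (nat_lit 11) (nat_lit 6) (by decide +kernel)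
theorem L109493 : W_41 (nat_lit 3) (nat_lit 0x1e0009000480024000200030000000000000000000) (nat_lit 0x0) (nat_lit 0x800018000900000000000000000000000) := T_41 (nat_lit 112) (nat_lit 95) (nat_lit 4) (nat_lit 11) (nat_lit 9) L109492 (by decide +kernel)
theorem L109494 : W_41 (nat_lit 4) (nat_lit 0x1e0009000080024000200030000000000000000000) (nat_lit 0x0) (nat_lit 0x1000000000000c00018000900000000000000000000000) := T_41 (nat_lit 130) (nat_lit 180) (nat_lit 5) (nat_lit 11) (nat_lit 6) L109493 (by decide +kernel)
theorem L109495 : W_41 (nat_lit 5) (nat_lit 0x1e0009000080024000200010000000000000000000) (nat_lit 0x0) (nat_lit 0x1000000000000c00018000900020001000000000000000) := T_41 (nat_lit 77) (nat_lit 60) (nat_lit 6) (nat_lit 8) (nat_lit 7) L109494 (by decide +kernel)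
theorem L109496 : W_41 (nat_lit 6) (nat_lit 0x160009000080024000200010000000000000000000) (nat_lit 0x0) (nat_lit 0x1000080010000c00018000900020001000000000000000) := T_41 (nat_lit 163) (nat_lit 148) (nat_lit 2) (nat_lit 8) (nat_lit 9) L109495 (by decide +kernel)
theorem L109497 : W_41 (nat_lit 2) (nat_lit 0x3f0009000480024003200030000000000000000000) (nat_lit 0x0) (nat_lit 0x8000c0000000000000000000) := D_41 (nat_lit 78) (nat_lit 95) (nat_lit 79) (nat_lit 4) (nat_lit 11) (nat_lit 8) (nat_lit 3) (nat_lit 8) (nat_lit 4) (by decide +kernel)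
theorem L109498 : W_41 (nat_lit 3) (nat_lit 0x3f0009000480024002200030000000000000000000) (nat_lit 0x0) (nat_lit 0x18001c0000000000000000000) := T_41 (nat_lit 96) (nat_lit 80) (nat_lit 6) (nat_lit 11) (nat_lit 8) L109497 (by decide +kernel)
theorem L109499 : W_41 (nat_lit 4) (nat_lit 0x3f0009000480024000200030000000000000000000) (nat_lit 0x0) (nat_lit 0x400038001c0000000000000000000) := T_41 (nat_lit 97) (nat_lit 114) (nat_lit 6) (nat_lit 11) (nat_lit 9) L109498 (by decide +kernel)
theorem L109500 : W_41 (nat_lit 5) (nat_lit 0x1f0009000480024000200030000000000000000000) (nat_lit 0x0) (nat_lit 0x40002000000000000400038001c0000000000000000000) := T_41 (nat_lit 165) (nat_lit 182) (nat_lit 7) (nat_lit 11) (nat_lit 6) L109499 (by decide +kernel)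
theorem L109501 : W_41 (nat_lit 6) (nat_lit 0x1f0009000480024000200010000000000000000000) (nat_lit 0x0) (nat_lit 0x40002000000000000400038001e0001000000000000000) := T_41 (nat_lit 77) (nat_lit 60) (nat_lit 6) (nat_lit 8) (nat_lit 7) L109500 (by decide +kernel)
theorem L109502 : W_41 (nat_lit 7) (nat_lit 0x1f0009000080024000200010000000000000000000) (nat_lit 0x0) (nat_lit 0x50002000000004000400038001e0001000000000000000) := T_41 (nat_lit 130) (nat_lit 180) (nat_lit 5) (nat_lit 11) (nat_lit 6) L109501 (by decide +kernel)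
theorem L109503 : W_41 (nat_lit 8) (nat_lit 0x1e0009000080024000200010000000000000000000) (nat_lit 0x0) (nat_lit 0x52002100000004000400038001e0001000000000000000) := T_41 (nat_lit 160) (nat_lit 177) (nat_lit 5) (nat_lit 8) (nat_lit 6) L109502 (by decide +kernel)
theorem L109504 : W_41 (nat_lit 9) (nat_lit 0x160009000080024000200010000000000000000000) (nat_lit 0x0) (nat_lit 0x52002900100004000400038001e0001000000000000000) := T_41 (nat_lit 163) (nat_lit 148) (nat_lit 2) (nat_lit 8) (nat_lit 9) L109503 (by decide +kernel)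
theorem L109505 : W_41 (nat_lit 2) (nat_lit 0x3f0009000580064000200030000000000000000000) (nat_lit 0x0) (nat_lit 0x18000000000000800000000000000) := D_41 (nat_lit 111) (nat_lit 112) (nat_lit 59) (nat_lit 1) (nat_lit 12) (nat_lit 6) (nat_lit 7) (nat_lit 8) (nat_lit 3) (by decide +kernel)
theorem L109506 : W_41 (nat_lit 3) (nat_lit 0x3f0009000480064000200030000000000000000000) (nat_lit 0x0) (nat_lit 0x300018000000000000800000000000000) := T_41 (nat_lit 128) (nat_lit 129) (nat_lit 2) (nat_lit 8) (nat_lit 7) L109505 (by decide +kernel)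
theorem L109507 : W_41 (nat_lit 4) (nat_lit 0x3f0009000480024000200030000000000000000000) (nat_lit 0x0) (nat_lit 0x300058002000000000800000000000000) := T_41 (nat_lit 114) (nat_lit 97) (nat_lit 6) (nat_lit 11) (nat_lit 9) L109506 (by decide +kernel)
theorem L109508 : W_41 (nat_lit 5) (nat_lit 0x1f0009000480024000200030000000000000000000) (nat_lit 0x0) (nat_lit 0x4000200000000300058002000000000800000000000000) := T_41 (nat_lit 165) (nat_lit 182) (nat_lit 7) (nat_lit 11) (nat_lit 6) L109507 (by decide +kernel)
theorem L109509 : W_41 (nat_lit 6) (nat_lit 0x1f0009000480024000200010000000000000000000) (nat_lit 0x0) (nat_lit 0x4000200000000300058002000020001800000000000000) := T_41 (nat_lit 77) (nat_lit 60) (nat_lit 6) (nat_lit 8) (nat_lit 7) L109508 (by decide +kernel)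
theorem L109510 : W_41 (nat_lit 7) (nat_lit 0x1f0009000080024000200010000000000000000000) (nat_lit 0x0) (nat_lit 0x5000200000000700058002000020001800000000000000) := T_41 (nat_lit 130) (nat_lit 180) (nat_lit 5) (nat_lit 11) (nat_lit 6) L109509 (by decide +kernel)
theorem L109511 : W_41 (nat_lit 8) (nat_lit 0x1e0009000080024000200010000000000000000000) (nat_lit 0x0) (nat_lit 0x5200210000000700058002000020001800000000000000) := T_41 (nat_lit 160) (nat_lit 177) (nat_lit 5) (nat_lit 8) (nat_lit 6) L109510 (by decide +kernel)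
theorem L109512 : W_41 (nat_lit 9) (nat_lit 0x160009000080024000200010000000000000000000) (nat_lit 0x0) (nat_lit 0x5200290010000700058002000020001800000000000000) := T_41 (nat_lit 163) (nat_lit 148) (nat_lit 2) (nat_lit 8) (nat_lit 9) L109511 (by decide +kernel)
theorem L109513 : W_41 (nat_lit 2) (nat_lit 0x1f000900008002c000200010001c00000000000000) (nat_lit 0x0) (nat_lit 0x40010000100000000000000000000000) := D_41 (nat_lit 112) (nat_lit 126) (nat_lit 92) (nat_lit 1) (nat_lit 11) (nat_lit 6) (nat_lit 0) (nat_lit 11) (nat_lit 6) (by decide +kernel)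
theorem L109514 : W_41 (nat_lit 3) (nat_lit 0x1f0009000080024000200010001c00000000000000) (nat_lit 0x0) (nat_lit 0x140018000100000000000000000000000) := T_41 (nat_lit 111) (nat_lit 128) (nat_lit 7) (nat_lit 8) (nat_lit 3) L109513 (by decide +kernel)
theorem L109515 : W_41 (nat_lit 4) (nat_lit 0x1f0009000080024000200010001800000000000000) (nat_lit 0x0) (nat_lit 0x140018000100000000400020000000000) := T_41 (nat_lit 58) (nat_lit 41) (nat_lit 4) (nat_lit 8) (nat_lit 6) L109514 (by decide +kernel)
theorem L109516 : W_41 (nat_lit 5) (nat_lit 0x1f0009000080024000200010001000000000000000) (nat_lit 0x0) (nat_lit 0x140018000100000000c000a0000000000) := T_41 (nat_lit 59) (nat_lit 43) (nat_lit 6) (nat_lit 8) (nat_lit 6) L109515 (by decide +kernel)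
theorem L109517 : W_41 (nat_lit 6) (nat_lit 0x1f0009000080024000200010000000000000000000) (nat_lit 0x0) (nat_lit 0x140018000100020001c000a0000000000) := T_41 (nat_lit 60) (nat_lit 77) (nat_lit 6) (nat_lit 8) (nat_lit 7) L109516 (by decide +kernel)
theorem L109518 : W_41 (nat_lit 7) (nat_lit 0x1e0009000080024000200010000000000000000000) (nat_lit 0x0) (nat_lit 0x200010000000140018000100020001c000a0000000000) := T_41 (nat_lit 160) (nat_lit 177) (nat_lit 5) (nat_lit 8) (nat_lit 6) L109517 (by decide +kernel)
theorem L109519 : W_41 (nat_lit 8) (nat_lit 0x160009000080024000200010000000000000000000) (nat_lit 0x0) (nat_lit 0x200090010000140018000100020001c000a0000000000) := T_41 (nat_lit 163) (nat_lit 148) (nat_lit 2) (nat_lit 8) (nat_lit 9) L109518 (by decide +kernel)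
theorem L109520 : W_41 (nat_lit 2) (nat_lit 0x17000900008002c000200010001c00000000000000) (nat_lit 0x0) (nat_lit 0x40010000100000000000000000000000) := D_41 (nat_lit 112) (nat_lit 126) (nat_lit 92) (nat_lit 1) (nat_lit 11) (nat_lit 6) (nat_lit 0) (nat_lit 11) (nat_lit 6) (by decide +kernel)
theorem L109521 : W_41 (nat_lit 3) (nat_lit 0x170009000080024000200010001c00000000000000) (nat_lit 0x0) (nat_lit 0x140018000100000000000000000000000) := T_41 (nat_lit 111) (nat_lit 128) (nat_lit 7) (nat_lit 8) (nat_lit 3) L109520 (by decide +kernel)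
theorem L109522 : W_41 (nat_lit 4) (nat_lit 0x170009000080024000200010001800000000000000) (nat_lit 0x0) (nat_lit 0x140018000100000000400020000000000) := T_41 (nat_lit 58) (nat_lit 41) (nat_lit 4) (nat_lit 8) (nat_lit 6) L109521 (by decide +kernel)
theorem L109523 : W_41 (nat_lit 5) (nat_lit 0x170009000080024000200010001000000000000000) (nat_lit 0x0) (nat_lit 0x140018000100000000c000a0000000000) := T_41 (nat_lit 59) (nat_lit 43) (nat_lit 6) (nat_lit 8) (nat_lit 6) L109522 (by decide +kernel)
theorem L109524 : W_41 (nat_lit 6) (nat_lit 0x160009000080024000200010001000000000000000) (nat_lit 0x0) (nat_lit 0x200010000000140018000100000000c000a0000000000) := T_41 (nat_lit 160) (nat_lit 177) (nat_lit 5) (nat_lit 8) (nat_lit 6) L109523 (by decide +kernel)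
theorem L109525 : W_41 (nat_lit 7) (nat_lit 0x160009000080024000200010000000000000000000) (nat_lit 0x0) (nat_lit 0x200010000000140018000100020001c000a0000000000) := T_41 (nat_lit 60) (nat_lit 77) (nat_lit 6) (nat_lit 8) (nat_lit 7) L109524 (by decide +kernel)
theorem L109526 : W_41 (nat_lit 10) (nat_lit 0x160009000080004000200010000000000000000000) (nat_lit 0x0) (nat_lit 0x5200290010000f400780039001e0001c000a0000000000) := Q_41 (nat_lit 113) (C_41 L109491 (C_41 L109496 (C_41 L109504 (C_41 L109512 (C_41 L109519 (C_41 L109525 N_41)))))) (by decide +kernel)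
theorem L109527 : W_41 (nat_lit 2) (nat_lit 0x160009000080004000200010000000000000000000) (nat_lit 0x0) (nat_lit 0x100008000400000000000000) := D_41 (nat_lit 75) (nat_lit 58) (nat_lit 92) (nat_lit 4) (nat_lit 8) (nat_lit 7) (nat_lit 4) (nat_lit 8) (nat_lit 8) (by decide +kernel)
theorem L109528 : W_41 (nat_lit 2) (nat_lit 0x1f0009000080004000200010000c00000000000000) (nat_lit 0x0) (nat_lit 0x20001000080000000000) := D_41 (nat_lit 60) (nat_lit 77) (nat_lit 43) (nat_lit 6) (nat_lit 8) (nat_lit 7) (nat_lit 6) (nat_lit 8) (nat_lit 6) (by decide +kernel)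
theorem L109529 : W_41 (nat_lit 3) (nat_lit 0x1f0009000080004000200010000400000000000000) (nat_lit 0x0) (nat_lit 0x200018000a0000000000) := T_41 (nat_lit 59) (nat_lit 41) (nat_lit 4) (nat_lit 8) (nat_lit 6) L109528 (by decide +kernel)
theorem L109530 : W_41 (nat_lit 4) (nat_lit 0x170009000080004000200010000400000000000000) (nat_lit 0x0) (nat_lit 0x800100000000000000000200018000a0000000000) := T_41 (nat_lit 163) (nat_lit 148) (nat_lit 2) (nat_lit 8) (nat_lit 9) L109529 (by decide +kernel)
theorem L109531 : W_41 (nat_lit 5) (nat_lit 0x170009000080004000200010000000000000000000) (nat_lit 0x0) (nat_lit 0x80010000000000000000028001c000a0000000000) := T_41 (nat_lit 58) (nat_lit 75) (nat_lit 4) (nat_lit 8) (nat_lit 7) L109530 (by decide +kernel)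
theorem L109532 : W_41 (nat_lit 6) (nat_lit 0x160009000080004000200010000000000000000000) (nat_lit 0x0) (nat_lit 0x200090010000000000000000028001c000a0000000000) := T_41 (nat_lit 160) (nat_lit 177) (nat_lit 5) (nat_lit 8) (nat_lit 6) L109531 (by decide +kernel)
theorem L109533 : W_41 (nat_lit 2) (nat_lit 0x16000900008002c000300010001000000000000000) (nat_lit 0x0) (nat_lit 0x100000000000000000800080000000000) := D_41 (nat_lit 59) (nat_lit 128) (nat_lit 43) (nat_lit 7) (nat_lit 8) (nat_lit 3) (nat_lit 6) (nat_lit 8) (nat_lit 6) (by decide +kernel)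
theorem L109534 : W_41 (nat_lit 3) (nat_lit 0x16000900008002c000300010000000000000000000) (nat_lit 0x0) (nat_lit 0x100000000000020001800080000000000) := T_41 (nat_lit 60) (nat_lit 77) (nat_lit 6) (nat_lit 8) (nat_lit 7) L109533 (by decide +kernel)
theorem L109535 : W_41 (nat_lit 4) (nat_lit 0x160009000080024000300010000000000000000000) (nat_lit 0x0) (nat_lit 0x100018000000020001800080000000000) := T_41 (nat_lit 111) (nat_lit 112) (nat_lit 0) (nat_lit 11) (nat_lit 6) L109534 (by decide +kernel)
theorem L109536 : W_41 (nat_lit 5) (nat_lit 0x160009000080024000200010000000000000000000) (nat_lit 0x0) (nat_lit 0x100018000100028001800080000000000) := T_41 (nat_lit 92) (nat_lit 75) (nat_lit 4) (nat_lit 8) (nat_lit 8) L109535 (by decide +kernel)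
theorem L109537 : W_41 (nat_lit 10) (nat_lit 0x160009000080004000200010000000000000000000) (nat_lit 0x0) (nat_lit 0x5200290010000f000780039001e8001800080000000000) := Q_41 (nat_lit 113) (C_41 L109491 (C_41 L109512 (C_41 L109496 (C_41 L109504 (C_41 L109536 N_41))))) (by decide +kernel)
theorem L109538 : W_41 (nat_lit 11) (nat_lit 0x160009000080004000200000000000000000000000) (nat_lit 0x0) (nat_lit 0x5200290010000f400780039001f8001c000a0000000000) := Q_41 (nat_lit 76) (C_41 L109526 (C_41 L109527 (C_41 L109532 (C_41 L109537 N_41)))) (by decide +kernel)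
theorem L109539 : W_41 (nat_lit 12) (nat_lit 0x160009000080004000000000000000000000000000) (nat_lit 0x0) (nat_lit 0x5200290010000f40078003f001f8001c000a0000000000) := Q_41 (nat_lit 93) (C_41 L109380 (C_41 L109338 (C_41 L109486 (C_41 L109538 N_41)))) (by decide +kernel)
theorem L109540 : W_41 (nat_lit 2) (nat_lit 0x10001f00090010800fc009200000000000000000000000) (nat_lit 0x0) (nat_lit 0x100010800000000000000000000000) := D_41 (nat_lit 116) (nat_lit 95) (nat_lit 100) (nat_lit 0) (nat_lit 14) (nat_lit 6) (nat_lit 2) (nat_lit 11) (nat_lit 6) (by decide +kernel)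
theorem L109541 : W_41 (nat_lit 3) (nat_lit 0x10001f00090010800fc001200000000000000000000000) (nat_lit 0x0) (nat_lit 0x10001c800000000000000000000000) := T_41 (nat_lit 99) (nat_lit 98) (nat_lit 2) (nat_lit 10) (nat_lit 6) L109540 (by decide +kernel)
theorem L109542 : W_41 (nat_lit 4) (nat_lit 0x10001f000900108007c001200000000000000000000000) (nat_lit 0x0) (nat_lit 0x200018001c800000000000000000000000) := T_41 (nat_lit 115) (nat_lit 133) (nat_lit 3) (nat_lit 10) (nat_lit 6) L109541 (by decide +kernel)
theorem L109543 : W_41 (nat_lit 5) (nat_lit 0x10001f000900008007c001200000000000000000000000) (nat_lit 0x0) (nat_lit 0x380018001c800000000000000000000000) := T_41 (nat_lit 132) (nat_lit 131) (nat_lit 3) (nat_lit 9) (nat_lit 6) L109542 (by decide +kernel)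
theorem L109544 : W_41 (nat_lit 6) (nat_lit 0x10001f000900008003c001200000000000000000000000) (nat_lit 0x0) (nat_lit 0x39001c001c800000000000000000000000) := T_41 (nat_lit 114) (nat_lit 128) (nat_lit 1) (nat_lit 12) (nat_lit 6) L109543 (by decide +kernel)
theorem L109545 : W_41 (nat_lit 7) (nat_lit 0x10001f000900008003c000200000000000000000000000) (nat_lit 0x0) (nat_lit 0x39001c001f800000000000000000000000) := T_41 (nat_lit 96) (nat_lit 97) (nat_lit 2) (nat_lit 8) (nat_lit 6) L109544 (by decide +kernel)
theorem L109546 : W_41 (nat_lit 8) (nat_lit 0x10001f000900008003c000000000000000000000000000) (nat_lit 0x0) (nat_lit 0x39001c001fb00000000000000000000000) := T_41 (nat_lit 93) (nat_lit 92) (nat_lit 0) (nat_lit 11) (nat_lit 6) L109545 (by decide +kernel)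
theorem L109547 : W_41 (nat_lit 9) (nat_lit 0x10001f000900008002c000000000000000000000000000) (nat_lit 0x0) (nat_lit 0x39401d001fb00000000000000000000000) := T_41 (nat_lit 112) (nat_lit 126) (nat_lit 1) (nat_lit 11) (nat_lit 6) L109546 (by decide +kernel)
theorem L109548 : W_41 (nat_lit 10) (nat_lit 0x10001f000900008000c000000000000000000000000000) (nat_lit 0x0) (nat_lit 0x3d401f001fb00000000000000000000000) := T_41 (nat_lit 113) (nat_lit 130) (nat_lit 5) (nat_lit 11) (nat_lit 6) L109547 (by decide +kernel)
theorem L109549 : W_41 (nat_lit 11) (nat_lit 0x1f000900008000c000000000000000000000000000) (nat_lit 0x0) (nat_lit 0x3000000000003d401f001fb00000000000000000000000) := T_41 (nat_lit 180) (nat_lit 181) (nat_lit 3) (nat_lit 7) (nat_lit 9) L109548 (by decide +kernel)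
theorem L109550 : W_41 (nat_lit 12) (nat_lit 0x1e000900008000c000000000000000000000000000) (nat_lit 0x0) (nat_lit 0x3200010000003d401f001fb00000000000000000000000) := T_41 (nat_lit 160) (nat_lit 177) (nat_lit 5) (nat_lit 8) (nat_lit 6) L109549 (by decide +kernel)
theorem L109551 : W_41 (nat_lit 13) (nat_lit 0x16000900008000c000000000000000000000000000) (nat_lit 0x0) (nat_lit 0x3200090010003d401f001fb00000000000000000000000) := T_41 (nat_lit 163) (nat_lit 148) (nat_lit 2) (nat_lit 8) (nat_lit 9) L109550 (by decide +kernel)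
theorem L109552 : W_41 (nat_lit 14) (nat_lit 0x160009000080004000000000000000000000000000) (nat_lit 0x0) (nat_lit 0x3200090010003d401f801ff00000000000000000000000) := T_41 (nat_lit 111) (nat_lit 94) (nat_lit 6) (nat_lit 8) (nat_lit 9) L109551 (by decide +kernel)
theorem L109553 : W_41 (nat_lit 15) (nat_lit 0x60009000080004000000000000000000000000000) (nat_lit 0x0) (nat_lit 0x14000e000f200390010003f401f801ffc01fe007c000a0000000000) := Q_41 (nat_lit 164) (C_41 L109327 (C_41 L109337 (C_41 L109413 (C_41 L109454 (C_41 L109539 (C_41 L109552 N_41)))))) (by decide +kernel)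
theorem L109554 : W_41 (nat_lit 2) (nat_lit 0x7000d0001c000c000200018000000000000000000) (nat_lit 0x0) (nat_lit 0x30010000000000000000000000000000) := D_41 (nat_lit 125) (nat_lit 112) (nat_lit 124) (nat_lit 2) (nat_lit 6) (nat_lit 7) (nat_lit 2) (nat_lit 5) (nat_lit 7) (by decide +kernel)
theorem L109555 : W_41 (nat_lit 3) (nat_lit 0x7000d00018000c000200018000000000000000000) (nat_lit 0x0) (nat_lit 0x270010000000000000000000000000000) := T_41 (nat_lit 126) (nat_lit 129) (nat_lit 3) (nat_lit 7) (nat_lit 7) L109554 (by decide +kernel)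
theorem L109556 : W_41 (nat_lit 4) (nat_lit 0x7000d00008000c000200018000000000000000000) (nat_lit 0x0) (nat_lit 0x370010000000000000800000000000000) := T_41 (nat_lit 128) (nat_lit 59) (nat_lit 7) (nat_lit 8) (nat_lit 3) L109555 (by decide +kernel)
theorem L109557 : W_41 (nat_lit 5) (nat_lit 0x7000d00008000c000200008000000000000000000) (nat_lit 0x0) (nat_lit 0x370010000000010000c00000000000000) := T_41 (nat_lit 76) (nat_lit 58) (nat_lit 4) (nat_lit 8) (nat_lit 7) L109556 (by decide +kernel)
theorem L109558 : W_41 (nat_lit 6) (nat_lit 0x7000d000080004000200008000000000000000000) (nat_lit 0x0) (nat_lit 0x370018000400010000c00000000000000) := T_41 (nat_lit 111) (nat_lit 94) (nat_lit 6) (nat_lit 8) (nat_lit 9) L109557 (by decide +kernel)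
theorem L109559 : W_41 (nat_lit 7) (nat_lit 0x7000d000080004000200000000000000000000000) (nat_lit 0x0) (nat_lit 0x370018000500018000c00000000000000) := T_41 (nat_lit 75) (nat_lit 92) (nat_lit 4) (nat_lit 8) (nat_lit 8) L109558 (by decide +kernel)
theorem L109560 : W_41 (nat_lit 8) (nat_lit 0x70009000080004000200000000000000000000000) (nat_lit 0x0) (nat_lit 0x80004000370018000500018000c00000000000000) := T_41 (nat_lit 146) (nat_lit 163) (nat_lit 2) (nat_lit 7) (nat_lit 9) L109559 (by decide +kernel)
theorem L109561 : W_41 (nat_lit 9) (nat_lit 0x60009000080004000200000000000000000000000) (nat_lit 0x0) (nat_lit 0x200090004000370018000500018000c00000000000000) := T_41 (nat_lit 160) (nat_lit 177) (nat_lit 5) (nat_lit 8) (nat_lit 6) L109560 (by decide +kernel)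
theorem L109562 : W_41 (nat_lit 2) (nat_lit 0x7000d00038000400020001a005800000000000000) (nat_lit 0x0) (nat_lit 0x30000400000000000000000000000000000000) := D_41 (nat_lit 148) (nat_lit 149) (nat_lit 130) (nat_lit 0) (nat_lit 13) (nat_lit 8) (nat_lit 3) (nat_lit 8) (nat_lit 7) (by decide +kernel)
theorem L109563 : W_41 (nat_lit 3) (nat_lit 0x7000d00018000400020001a005800000000000000) (nat_lit 0x0) (nat_lit 0x30000640000000000000000000000000000000) := T_41 (nat_lit 129) (nat_lit 126) (nat_lit 3) (nat_lit 7) (nat_lit 7) L109562 (by decide +kernel)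
theorem L109564 : W_41 (nat_lit 4) (nat_lit 0x7000d00018000400020001a001800000000000000) (nat_lit 0x0) (nat_lit 0x30000640000000000000006000000000000000) := T_41 (nat_lit 62) (nat_lit 61) (nat_lit 1) (nat_lit 11) (nat_lit 3) L109563 (by decide +kernel)
theorem L109565 : W_41 (nat_lit 5) (nat_lit 0x7000d00008000400020001a001800000000000000) (nat_lit 0x0) (nat_lit 0x30000740008000000000006000000000000000) := T_41 (nat_lit 128) (nat_lit 111) (nat_lit 7) (nat_lit 8) (nat_lit 3) L109564 (by decide +kernel)
theorem L109566 : W_41 (nat_lit 6) (nat_lit 0x7000d000080004000200018001800000000000000) (nat_lit 0x0) (nat_lit 0x30000740008000000006006000000000000000) := T_41 (nat_lit 73) (nat_lit 74) (nat_lit 2) (nat_lit 5) (nat_lit 4) L109565 (by decide +kernel)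
theorem L109567 : W_41 (nat_lit 7) (nat_lit 0x7000d000080004000200018001000000000000000) (nat_lit 0x0) (nat_lit 0x30000740008000000006006800080000000000) := T_41 (nat_lit 59) (nat_lit 43) (nat_lit 6) (nat_lit 8) (nat_lit 6) L109566 (by decide +kernel)
theorem L109568 : W_41 (nat_lit 8) (nat_lit 0x7000d000080004000200018000000000000000000) (nat_lit 0x0) (nat_lit 0x30000740008000000026007800080000000000) := T_41 (nat_lit 60) (nat_lit 77) (nat_lit 6) (nat_lit 8) (nat_lit 7) L109567 (by decide +kernel)
theorem L109569 : W_41 (nat_lit 9) (nat_lit 0x7000d000080004000200008000000000000000000) (nat_lit 0x0) (nat_lit 0x30000740008000000036007c00080000000000) := T_41 (nat_lit 76) (nat_lit 58) (nat_lit 4) (nat_lit 8) (nat_lit 7) L109568 (by decide +kernel)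
theorem L109570 : W_41 (nat_lit 10) (nat_lit 0x7000d000080004000200000000000000000000000) (nat_lit 0x0) (nat_lit 0x3000074000800010003e007c00080000000000) := T_41 (nat_lit 75) (nat_lit 92) (nat_lit 4) (nat_lit 8) (nat_lit 8) L109569 (by decide +kernel)
theorem L109571 : W_41 (nat_lit 11) (nat_lit 0x70009000080004000200000000000000000000000) (nat_lit 0x0) (nat_lit 0x8003400074000800010003e007c00080000000000) := T_41 (nat_lit 146) (nat_lit 163) (nat_lit 2) (nat_lit 7) (nat_lit 9) L109570 (by decide +kernel)
theorem L109572 : W_41 (nat_lit 12) (nat_lit 0x60009000080004000200000000000000000000000) (nat_lit 0x0) (nat_lit 0x20009003400074000800010003e007c00080000000000) := T_41 (nat_lit 160) (nat_lit 177) (nat_lit 5) (nat_lit 8) (nat_lit 6) L109571 (by decide +kernel)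
theorem L109573 : W_41 (nat_lit 13) (nat_lit 0x60009000080004000000000000000000000000000) (nat_lit 0x0) (nat_lit 0x20009003400077001800070003e007c00080000000000) := Q_41 (nat_lit 93) (C_41 L109094 (C_41 L108895 (C_41 L109561 (C_41 L109572 N_41)))) (by decide +kernel)
theorem L109574 : W_41 (nat_lit 2) (nat_lit 0x7000900048003c001000000000000000000000000) (nat_lit 0x0) (nat_lit 0x100000000000000000800040000000000000000000) := D_41 (nat_lit 95) (nat_lit 164) (nat_lit 78) (nat_lit 4) (nat_lit 11) (nat_lit 9) (nat_lit 4) (nat_lit 11) (nat_lit 8) (by decide +kernel)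
theorem L109575 : W_41 (nat_lit 3) (nat_lit 0x7000900048003c000000000000000000000000000) (nat_lit 0x0) (nat_lit 0x100000000000000003800040000000000000000000) := T_41 (nat_lit 96) (nat_lit 97) (nat_lit 2) (nat_lit 8) (nat_lit 6) L109574 (by decide +kernel)
theorem L109576 : W_41 (nat_lit 4) (nat_lit 0x7000900008003c000000000000000000000000000) (nat_lit 0x0) (nat_lit 0x100000000c00000003800040000000000000000000) := T_41 (nat_lit 130) (nat_lit 131) (nat_lit 3) (nat_lit 8) (nat_lit 6) L109575 (by decide +kernel)
theorem L109577 : W_41 (nat_lit 5) (nat_lit 0x6000900008003c000000000000000000000000000) (nat_lit 0x0) (nat_lit 0x200110000000c00000003800040000000000000000000) := T_41 (nat_lit 160) (nat_lit 177) (nat_lit 5) (nat_lit 8) (nat_lit 6) L109576 (by decide +kernel)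
theorem L109578 : W_41 (nat_lit 6) (nat_lit 0x6000900008002c000000000000000000000000000) (nat_lit 0x0) (nat_lit 0x200110000000c40010003800040000000000000000000) := T_41 (nat_lit 112) (nat_lit 126) (nat_lit 1) (nat_lit 11) (nat_lit 6) L109577 (by decide +kernel)
theorem L109579 : W_41 (nat_lit 7) (nat_lit 0x60009000080024000000000000000000000000000) (nat_lit 0x0) (nat_lit 0x200110000000c40018003c00040000000000000000000) := T_41 (nat_lit 111) (nat_lit 94) (nat_lit 6) (nat_lit 8) (nat_lit 9) L109578 (by decide +kernel)
theorem L109580 : W_41 (nat_lit 2) (nat_lit 0x6000900048003c001200000000000000000000000) (nat_lit 0x0) (nat_lit 0x100000000000000000800040000000000000000000) := D_41 (nat_lit 95) (nat_lit 164) (nat_lit 78) (nat_lit 4) (nat_lit 11) (nat_lit 9) (nat_lit 4) (nat_lit 11) (nat_lit 8) (by decide +kernel)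
theorem L109581 : W_41 (nat_lit 3) (nat_lit 0x6000900048003c000200000000000000000000000) (nat_lit 0x0) (nat_lit 0x100000000000000003800040000000000000000000) := T_41 (nat_lit 96) (nat_lit 97) (nat_lit 2) (nat_lit 8) (nat_lit 6) L109580 (by decide +kernel)
theorem L109582 : W_41 (nat_lit 4) (nat_lit 0x6000900008003c000200000000000000000000000) (nat_lit 0x0) (nat_lit 0x100000000c00000003800040000000000000000000) := T_41 (nat_lit 130) (nat_lit 131) (nat_lit 3) (nat_lit 8) (nat_lit 6) L109581 (by decide +kernel)
theorem L109583 : W_41 (nat_lit 5) (nat_lit 0x6000900008003c000000000000000000000000000) (nat_lit 0x0) (nat_lit 0x100000000c00000003b00040000000000000000000) := T_41 (nat_lit 93) (nat_lit 92) (nat_lit 0) (nat_lit 11) (nat_lit 6) L109582 (by decide +kernel)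
theorem L109584 : W_41 (nat_lit 6) (nat_lit 0x6000900008002c000000000000000000000000000) (nat_lit 0x0) (nat_lit 0x100000000c40010003b00040000000000000000000) := T_41 (nat_lit 112) (nat_lit 126) (nat_lit 1) (nat_lit 11) (nat_lit 6) L109583 (by decide +kernel)
theorem L109585 : W_41 (nat_lit 7) (nat_lit 0x60009000080024000000000000000000000000000) (nat_lit 0x0) (nat_lit 0x100000000c40018003f00040000000000000000000) := T_41 (nat_lit 111) (nat_lit 94) (nat_lit 6) (nat_lit 8) (nat_lit 9) L109584 (by decide +kernel)
theorem L109586 : W_41 (nat_lit 2) (nat_lit 0x60009000080024000200000000000000000000000) (nat_lit 0x0) (nat_lit 0x8000400020000000000000000000) := D_41 (nat_lit 94) (nat_lit 111) (nat_lit 77) (nat_lit 6) (nat_lit 8) (nat_lit 9) (nat_lit 6) (nat_lit 8) (nat_lit 8) (by decide +kernel)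
theorem L109587 : W_41 (nat_lit 2) (nat_lit 0x6001900048002c001200080000000000000000000) (nat_lit 0x0) (nat_lit 0x2000100008000000000000000) := D_41 (nat_lit 80) (nat_lit 63) (nat_lit 97) (nat_lit 6) (nat_lit 11) (nat_lit 7) (nat_lit 6) (nat_lit 11) (nat_lit 8) (by decide +kernel)
theorem L109588 : W_41 (nat_lit 3) (nat_lit 0x6001900048002c001200000000000000000000000) (nat_lit 0x0) (nat_lit 0x800000002000180008000000000000000) := T_41 (nat_lit 79) (nat_lit 131) (nat_lit 7) (nat_lit 11) (nat_lit 4) L109587 (by decide +kernel)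
theorem L109589 : W_41 (nat_lit 4) (nat_lit 0x6000900048002c001200000000000000000000000) (nat_lit 0x0) (nat_lit 0x200010000800000002000180008000000000000000) := T_41 (nat_lit 148) (nat_lit 165) (nat_lit 7) (nat_lit 11) (nat_lit 5) L109588 (by decide +kernel)
theorem L109590 : W_41 (nat_lit 5) (nat_lit 0x60009000480024001200000000000000000000000) (nat_lit 0x0) (nat_lit 0x200010000800008002400180008000000000000000) := T_41 (nat_lit 111) (nat_lit 94) (nat_lit 6) (nat_lit 8) (nat_lit 9) L109589 (by decide +kernel)
theorem L109591 : W_41 (nat_lit 2) (nat_lit 0x60019000480024003200080000000000000000000) (nat_lit 0x0) (nat_lit 0x4000300000000000000000000000000000000) := D_41 (nat_lit 129) (nat_lit 146) (nat_lit 128) (nat_lit 5) (nat_lit 11) (nat_lit 4) (nat_lit 3) (nat_lit 8) (nat_lit 7) (by decide +kernel)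
theorem L109592 : W_41 (nat_lit 3) (nat_lit 0x60019000480024003200000000000000000000000) (nat_lit 0x0) (nat_lit 0x4000b00000000000080000000000000000000) := T_41 (nat_lit 79) (nat_lit 131) (nat_lit 7) (nat_lit 11) (nat_lit 4) L109591 (by decide +kernel)
theorem L109593 : W_41 (nat_lit 4) (nat_lit 0x60009000480024003200000000000000000000000) (nat_lit 0x0) (nat_lit 0x200014000b00000000000080000000000000000000) := T_41 (nat_lit 148) (nat_lit 165) (nat_lit 7) (nat_lit 11) (nat_lit 5) L109592 (by decide +kernel)
theorem L109594 : W_41 (nat_lit 5) (nat_lit 0x60009000480024001200000000000000000000000) (nat_lit 0x0) (nat_lit 0x200014000b00000002000180000000000000000000) := T_41 (nat_lit 97) (nat_lit 80) (nat_lit 6) (nat_lit 11) (nat_lit 8) L109593 (by decide +kernel)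
theorem L109595 : W_41 (nat_lit 2) (nat_lit 0x16000900048002c003200000000000000000000000) (nat_lit 0x0) (nat_lit 0x4000200010000000000000000000000000000000000000) := D_41 (nat_lit 165) (nat_lit 148) (nat_lit 182) (nat_lit 7) (nat_lit 11) (nat_lit 5) (nat_lit 7) (nat_lit 11) (nat_lit 6) (by decide +kernel)
theorem L109596 : W_41 (nat_lit 3) (nat_lit 0x6000900048002c003200000000000000000000000) (nat_lit 0x0) (nat_lit 0x4000300010000000040000000000000000000000000000) := T_41 (nat_lit 164) (nat_lit 114) (nat_lit 6) (nat_lit 11) (nat_lit 9) L109595 (by decide +kernel)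
theorem L109597 : W_41 (nat_lit 4) (nat_lit 0x60009000480024003200000000000000000000000) (nat_lit 0x0) (nat_lit 0x4000300010000000048000400000000000000000000000) := T_41 (nat_lit 111) (nat_lit 94) (nat_lit 6) (nat_lit 8) (nat_lit 9) L109596 (by decide +kernel)
theorem L109598 : W_41 (nat_lit 5) (nat_lit 0x60009000480024001200000000000000000000000) (nat_lit 0x0) (nat_lit 0x4000300010000000048002400100000000000000000000) := T_41 (nat_lit 97) (nat_lit 80) (nat_lit 6) (nat_lit 11) (nat_lit 8) L109597 (by decide +kernel)
theorem L109599 : W_41 (nat_lit 2) (nat_lit 0x60019000480024001200080000000000000000000) (nat_lit 0x0) (nat_lit 0x4000300000000000000000000000000000000) := D_41 (nat_lit 129) (nat_lit 146) (nat_lit 128) (nat_lit 5) (nat_lit 11) (nat_lit 4) (nat_lit 3) (nat_lit 8) (nat_lit 7) (by decide +kernel)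
theorem L109600 : W_41 (nat_lit 3) (nat_lit 0x60019000480024001200000000000000000000000) (nat_lit 0x0) (nat_lit 0x4000b00000000000080000000000000000000) := T_41 (nat_lit 79) (nat_lit 131) (nat_lit 7) (nat_lit 11) (nat_lit 4) L109599 (by decide +kernel)
theorem L109601 : W_41 (nat_lit 4) (nat_lit 0x60009000480024001200000000000000000000000) (nat_lit 0x0) (nat_lit 0x200014000b00000000000080000000000000000000) := T_41 (nat_lit 148) (nat_lit 165) (nat_lit 7) (nat_lit 11) (nat_lit 5) L109600 (by decide +kernel)
theorem L109602 : W_41 (nat_lit 2) (nat_lit 0x7000900068016c003a00080000000000000000000) (nat_lit 0x0) (nat_lit 0x800000000000000004000200000000000) := D_41 (nat_lit 62) (nat_lit 45) (nat_lit 131) (nat_lit 7) (nat_lit 11) (nat_lit 2) (nat_lit 7) (nat_lit 11) (nat_lit 3) (by decide +kernel)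
theorem L109603 : W_41 (nat_lit 3) (nat_lit 0x7000900068016c003a00000000000000000000000) (nat_lit 0x0) (nat_lit 0x4000800000000000080004000200000000000) := T_41 (nat_lit 79) (nat_lit 146) (nat_lit 5) (nat_lit 11) (nat_lit 4) L109602 (by decide +kernel)
theorem L109604 : W_41 (nat_lit 4) (nat_lit 0x7000900048016c003a00000000000000000000000) (nat_lit 0x0) (nat_lit 0x4000b00000000000080004000200000000000) := T_41 (nat_lit 129) (nat_lit 128) (nat_lit 2) (nat_lit 8) (nat_lit 7) L109603 (by decide +kernel)
theorem L109605 : W_41 (nat_lit 5) (nat_lit 0x7000900048006c003a00000000000000000000000) (nat_lit 0x0) (nat_lit 0x4000b00180000000080004000200000000000) := T_41 (nat_lit 116) (nat_lit 115) (nat_lit 0) (nat_lit 14) (nat_lit 6) L109604 (by decide +kernel)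
theorem L109606 : W_41 (nat_lit 6) (nat_lit 0x6000900048006c003a00000000000000000000000) (nat_lit 0x0) (nat_lit 0x200010004000b00180000000080004000200000000000) := T_41 (nat_lit 160) (nat_lit 177) (nat_lit 5) (nat_lit 8) (nat_lit 6) L109605 (by decide +kernel)
theorem L109607 : W_41 (nat_lit 7) (nat_lit 0x6000900048002c003a00000000000000000000000) (nat_lit 0x0) (nat_lit 0x200110004000b001c0000000080004000200000000000) := T_41 (nat_lit 114) (nat_lit 164) (nat_lit 6) (nat_lit 11) (nat_lit 9) L109606 (by decide +kernel)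
theorem L109608 : W_41 (nat_lit 8) (nat_lit 0x6000900048002c003200000000000000000000000) (nat_lit 0x0) (nat_lit 0x200110004000b001c00008000c0004000200000000000) := T_41 (nat_lit 95) (nat_lit 78) (nat_lit 4) (nat_lit 11) (nat_lit 8) L109607 (by decide +kernel)
theorem L109609 : W_41 (nat_lit 9) (nat_lit 0x6000900048002c001200000000000000000000000) (nat_lit 0x0) (nat_lit 0x200110004000b001c00028001c0004000200000000000) := T_41 (nat_lit 97) (nat_lit 80) (nat_lit 6) (nat_lit 11) (nat_lit 8) L109608 (by decide +kernel)
theorem L109610 : W_41 (nat_lit 10) (nat_lit 0x60009000480024001200000000000000000000000) (nat_lit 0x0) (nat_lit 0x200110004000b001c8002c001c0004000200000000000) := T_41 (nat_lit 111) (nat_lit 94) (nat_lit 6) (nat_lit 8) (nat_lit 9) L109609 (by decide +kernel)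
theorem L109611 : W_41 (nat_lit 11) (nat_lit 0x60009000480024000200000000000000000000000) (nat_lit 0x0) (nat_lit 0x4200310014000b001c8003c001c000c000200000000000) := Q_41 (nat_lit 96) (C_41 L109590 (C_41 L109594 (C_41 L109598 (C_41 L109601 (C_41 L109610 N_41))))) (by decide +kernel)
theorem L109612 : W_41 (nat_lit 2) (nat_lit 0x7001900048002400160009a000000000000000000) (nat_lit 0x0) (nat_lit 0x2000100008000000000000000) := D_41 (nat_lit 80) (nat_lit 63) (nat_lit 97) (nat_lit 6) (nat_lit 11) (nat_lit 7) (nat_lit 6) (nat_lit 11) (nat_lit 8) (by decide +kernel)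
theorem L109613 : W_41 (nat_lit 3) (nat_lit 0x7001900048002400160001a000000000000000000) (nat_lit 0x0) (nat_lit 0x800000002000180008000000000000000) := T_41 (nat_lit 79) (nat_lit 131) (nat_lit 7) (nat_lit 11) (nat_lit 4) L109612 (by decide +kernel)
theorem L109614 : W_41 (nat_lit 4) (nat_lit 0x7000900048002400160001a000000000000000000) (nat_lit 0x0) (nat_lit 0x200010000800000002000180008000000000000000) := T_41 (nat_lit 148) (nat_lit 165) (nat_lit 7) (nat_lit 11) (nat_lit 5) L109613 (by decide +kernel)
theorem L109615 : W_41 (nat_lit 5) (nat_lit 0x7000900048002400060001a000000000000000000) (nat_lit 0x0) (nat_lit 0x200010000800000003800180008000000000000000) := T_41 (nat_lit 96) (nat_lit 95) (nat_lit 0) (nat_lit 11) (nat_lit 5) L109614 (by decide +kernel)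
theorem L109616 : W_41 (nat_lit 6) (nat_lit 0x70009000480024000600018000000000000000000) (nat_lit 0x0) (nat_lit 0x200010000800000003800186008000000000000000) := T_41 (nat_lit 73) (nat_lit 74) (nat_lit 3) (nat_lit 5) (nat_lit 4) L109615 (by decide +kernel)
theorem L109617 : W_41 (nat_lit 7) (nat_lit 0x70009000480024000600008000000000000000000) (nat_lit 0x0) (nat_lit 0x200010000800000003800196008400000000000000) := T_41 (nat_lit 76) (nat_lit 58) (nat_lit 4) (nat_lit 8) (nat_lit 7) L109616 (by decide +kernel)
theorem L109618 : W_41 (nat_lit 8) (nat_lit 0x70009000480024000200008000000000000000000) (nat_lit 0x0) (nat_lit 0x200010000800008003c00196008400000000000000) := T_41 (nat_lit 94) (nat_lit 111) (nat_lit 6) (nat_lit 8) (nat_lit 9) L109617 (by decide +kernel)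
theorem L109619 : W_41 (nat_lit 9) (nat_lit 0x70009000480024000200000000000000000000000) (nat_lit 0x0) (nat_lit 0x200010000800008003d0019e008400000000000000) := T_41 (nat_lit 75) (nat_lit 92) (nat_lit 4) (nat_lit 8) (nat_lit 8) L109618 (by decide +kernel)
theorem L109620 : W_41 (nat_lit 10) (nat_lit 0x60009000480024000200000000000000000000000) (nat_lit 0x0) (nat_lit 0x200210010000800008003d0019e008400000000000000) := T_41 (nat_lit 160) (nat_lit 177) (nat_lit 5) (nat_lit 8) (nat_lit 6) L109619 (by decide +kernel)
theorem L109621 : W_41 (nat_lit 2) (nat_lit 0x6000900058002c000200018000000000000000000) (nat_lit 0x0) (nat_lit 0x10000a00000000000000000000000000000000) := D_41 (nat_lit 129) (nat_lit 148) (nat_lit 131) (nat_lit 3) (nat_lit 8) (nat_lit 7) (nat_lit 0) (nat_lit 12) (nat_lit 7) (by decide +kernel)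
theorem L109622 : W_41 (nat_lit 3) (nat_lit 0x6000900048002c000200018000000000000000000) (nat_lit 0x0) (nat_lit 0x10000b00000000000000000800000000000000) := T_41 (nat_lit 128) (nat_lit 59) (nat_lit 7) (nat_lit 8) (nat_lit 3) L109621 (by decide +kernel)
theorem L109623 : W_41 (nat_lit 4) (nat_lit 0x6000900048002c000200008000000000000000000) (nat_lit 0x0) (nat_lit 0x10000b00000000000010000c00000000000000) := T_41 (nat_lit 76) (nat_lit 58) (nat_lit 4) (nat_lit 8) (nat_lit 7) L109622 (by decide +kernel)
theorem L109624 : W_41 (nat_lit 5) (nat_lit 0x6000900048002c000200000000000000000000000) (nat_lit 0x0) (nat_lit 0x10000b00000000100018000c00000000000000) := T_41 (nat_lit 75) (nat_lit 92) (nat_lit 4) (nat_lit 8) (nat_lit 8) L109623 (by decide +kernel)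
theorem L109625 : W_41 (nat_lit 6) (nat_lit 0x60009000480024000200000000000000000000000) (nat_lit 0x0) (nat_lit 0x10000b00008000500018000c00000000000000) := T_41 (nat_lit 111) (nat_lit 94) (nat_lit 6) (nat_lit 8) (nat_lit 9) L109624 (by decide +kernel)
theorem L109626 : W_41 (nat_lit 4) (nat_lit 0x60009000480024001300000000000000000000000) (nat_lit 0x0) (nat_lit 0x200010000800000002000180008000000000000000) := T_41 (nat_lit 148) (nat_lit 165) (nat_lit 7) (nat_lit 11) (nat_lit 5) L108946 (by decide +kernel)
theorem L109627 : W_41 (nat_lit 5) (nat_lit 0x60009000480024001200000000000000000000000) (nat_lit 0x0) (nat_lit 0x200010000800000002100188008000000000000000) := T_41 (nat_lit 92) (nat_lit 75) (nat_lit 4) (nat_lit 8) (nat_lit 8) L109626 (by decide +kernel)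
theorem L109628 : W_41 (nat_lit 2) (nat_lit 0x160009000480024003300000000000000000000000) (nat_lit 0x0) (nat_lit 0x4000200010000000000000000000000000000000000000) := D_41 (nat_lit 165) (nat_lit 148) (nat_lit 182) (nat_lit 7) (nat_lit 11) (nat_lit 5) (nat_lit 7) (nat_lit 11) (nat_lit 6) (by decide +kernel)
theorem L109629 : W_41 (nat_lit 3) (nat_lit 0x60009000480024003300000000000000000000000) (nat_lit 0x0) (nat_lit 0x4000300010000000040000000000000000000000000000) := T_41 (nat_lit 164) (nat_lit 114) (nat_lit 6) (nat_lit 11) (nat_lit 9) L109628 (by decide +kernel)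
theorem L109630 : W_41 (nat_lit 4) (nat_lit 0x60009000480024003200000000000000000000000) (nat_lit 0x0) (nat_lit 0x4000300010000000040000100008000000000000000000) := T_41 (nat_lit 92) (nat_lit 75) (nat_lit 4) (nat_lit 8) (nat_lit 8) L109629 (by decide +kernel)
theorem L109631 : W_41 (nat_lit 5) (nat_lit 0x60009000480024001200000000000000000000000) (nat_lit 0x0) (nat_lit 0x4000300010000000040002100108000000000000000000) := T_41 (nat_lit 97) (nat_lit 80) (nat_lit 6) (nat_lit 11) (nat_lit 8) L109630 (by decide +kernel)
theorem L109632 : W_41 (nat_lit 2) (nat_lit 0x60009000480024003b00000000000000000000000) (nat_lit 0x0) (nat_lit 0x100000000000040000400000000000000000000000) := D_41 (nat_lit 114) (nat_lit 94) (nat_lit 164) (nat_lit 3) (nat_lit 8) (nat_lit 5) (nat_lit 6) (nat_lit 11) (nat_lit 9) (by decide +kernel)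
theorem L109633 : W_41 (nat_lit 3) (nat_lit 0x60009000480024003300000000000000000000000) (nat_lit 0x0) (nat_lit 0x100000000000040000c00040000000000000000000) := T_41 (nat_lit 95) (nat_lit 78) (nat_lit 4) (nat_lit 11) (nat_lit 8) L109632 (by decide +kernel)
theorem L109634 : W_41 (nat_lit 4) (nat_lit 0x60009000480024001300000000000000000000000) (nat_lit 0x0) (nat_lit 0x100000000000040002c00140000000000000000000) := T_41 (nat_lit 97) (nat_lit 80) (nat_lit 6) (nat_lit 11) (nat_lit 8) L109633 (by decide +kernel)
theorem L109635 : W_41 (nat_lit 5) (nat_lit 0x60009000480024001200000000000000000000000) (nat_lit 0x0) (nat_lit 0x100000000000040002d00148000000000000000000) := T_41 (nat_lit 92) (nat_lit 75) (nat_lit 4) (nat_lit 8) (nat_lit 8) L109634 (by decide +kernel)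
theorem L109636 : W_41 (nat_lit 6) (nat_lit 0x60009000480024000200000000000000000000000) (nat_lit 0x0) (nat_lit 0x4000300014000b00040003d001c8008000000000000000) := Q_41 (nat_lit 96) (C_41 L109601 (C_41 L109627 (C_41 L109631 (C_41 L109635 N_41)))) (by decide +kernel)
theorem L109637 : W_41 (nat_lit 2) (nat_lit 0x70009000680164003b00080000000000000000000) (nat_lit 0x0) (nat_lit 0x800000000000000004000200000000000) := D_41 (nat_lit 62) (nat_lit 45) (nat_lit 131) (nat_lit 7) (nat_lit 11) (nat_lit 2) (nat_lit 7) (nat_lit 11) (nat_lit 3) (by decide +kernel)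
theorem L109638 : W_41 (nat_lit 3) (nat_lit 0x70009000680164003b00000000000000000000000) (nat_lit 0x0) (nat_lit 0x4000800000000000080004000200000000000) := T_41 (nat_lit 79) (nat_lit 146) (nat_lit 5) (nat_lit 11) (nat_lit 4) L109637 (by decide +kernel)
theorem L109639 : W_41 (nat_lit 4) (nat_lit 0x70009000480164003b00000000000000000000000) (nat_lit 0x0) (nat_lit 0x4000b00000000000080004000200000000000) := T_41 (nat_lit 129) (nat_lit 128) (nat_lit 2) (nat_lit 8) (nat_lit 7) L109638 (by decide +kernel)
theorem L109640 : W_41 (nat_lit 5) (nat_lit 0x70009000480064003b00000000000000000000000) (nat_lit 0x0) (nat_lit 0x4000b00180000000080004000200000000000) := T_41 (nat_lit 116) (nat_lit 115) (nat_lit 0) (nat_lit 14) (nat_lit 6) L109639 (by decide +kernel)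
theorem L109641 : W_41 (nat_lit 6) (nat_lit 0x60009000480064003b00000000000000000000000) (nat_lit 0x0) (nat_lit 0x200010004000b00180000000080004000200000000000) := T_41 (nat_lit 160) (nat_lit 177) (nat_lit 5) (nat_lit 8) (nat_lit 6) L109640 (by decide +kernel)
theorem L109642 : W_41 (nat_lit 7) (nat_lit 0x60009000480024003b00000000000000000000000) (nat_lit 0x0) (nat_lit 0x200110004000b001c0000000080004000200000000000) := T_41 (nat_lit 114) (nat_lit 164) (nat_lit 6) (nat_lit 11) (nat_lit 9) L109641 (by decide +kernel)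
theorem L109643 : W_41 (nat_lit 8) (nat_lit 0x60009000480024003300000000000000000000000) (nat_lit 0x0) (nat_lit 0x200110004000b001c00008000c0004000200000000000) := T_41 (nat_lit 95) (nat_lit 78) (nat_lit 4) (nat_lit 11) (nat_lit 8) L109642 (by decide +kernel)
theorem L109644 : W_41 (nat_lit 9) (nat_lit 0x60009000480024001300000000000000000000000) (nat_lit 0x0) (nat_lit 0x200110004000b001c00028001c0004000200000000000) := T_41 (nat_lit 97) (nat_lit 80) (nat_lit 6) (nat_lit 11) (nat_lit 8) L109643 (by decide +kernel)
theorem L109645 : W_41 (nat_lit 10) (nat_lit 0x60009000480024001200000000000000000000000) (nat_lit 0x0) (nat_lit 0x200110004000b001c00029001c8004000200000000000) := T_41 (nat_lit 92) (nat_lit 75) (nat_lit 4) (nat_lit 8) (nat_lit 8) L109644 (by decide +kernel)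
theorem L109646 : W_41 (nat_lit 11) (nat_lit 0x60009000480024000200000000000000000000000) (nat_lit 0x0) (nat_lit 0x4200310014000b001c00039001c8004000200000000000) := Q_41 (nat_lit 96) (C_41 L109631 (C_41 L109601 (C_41 L109645 N_41))) (by decide +kernel)
theorem L109647 : W_41 (nat_lit 2) (nat_lit 0x7000900058002c000200018000000000000000000) (nat_lit 0x0) (nat_lit 0xa00040000000000000000000000000000) := D_41 (nat_lit 129) (nat_lit 114) (nat_lit 131) (nat_lit 2) (nat_lit 8) (nat_lit 7) (nat_lit 0) (nat_lit 12) (nat_lit 7) (by decide +kernel)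
theorem L109648 : W_41 (nat_lit 3) (nat_lit 0x7000900048002c000200018000000000000000000) (nat_lit 0x0) (nat_lit 0xb00040000000000000800000000000000) := T_41 (nat_lit 128) (nat_lit 59) (nat_lit 7) (nat_lit 8) (nat_lit 3) L109647 (by decide +kernel)
theorem L109649 : W_41 (nat_lit 4) (nat_lit 0x7000900048002c000200008000000000000000000) (nat_lit 0x0) (nat_lit 0xb00040000000010000c00000000000000) := T_41 (nat_lit 76) (nat_lit 58) (nat_lit 4) (nat_lit 8) (nat_lit 7) L109648 (by decide +kernel)
theorem L109650 : W_41 (nat_lit 5) (nat_lit 0x7000900048002c000200000000000000000000000) (nat_lit 0x0) (nat_lit 0xb00040000100018000c00000000000000) := T_41 (nat_lit 75) (nat_lit 92) (nat_lit 4) (nat_lit 8) (nat_lit 8) L109649 (by decide +kernel)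
theorem L109651 : W_41 (nat_lit 6) (nat_lit 0x70009000480024000200000000000000000000000) (nat_lit 0x0) (nat_lit 0xb00048000500018000c00000000000000) := T_41 (nat_lit 111) (nat_lit 94) (nat_lit 6) (nat_lit 8) (nat_lit 9) L109650 (by decide +kernel)
theorem L109652 : W_41 (nat_lit 7) (nat_lit 0x60009000480024000200000000000000000000000) (nat_lit 0x0) (nat_lit 0x200010000000b00048000500018000c00000000000000) := T_41 (nat_lit 160) (nat_lit 177) (nat_lit 5) (nat_lit 8) (nat_lit 6) L109651 (by decide +kernel)
theorem L109653 : W_41 (nat_lit 2) (nat_lit 0x7000900058002c000200018000000000000000000) (nat_lit 0x0) (nat_lit 0x10000200040000000000000000000000000000) := D_41 (nat_lit 129) (nat_lit 148) (nat_lit 114) (nat_lit 3) (nat_lit 8) (nat_lit 7) (nat_lit 2) (nat_lit 8) (nat_lit 7) (by decide +kernel)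
theorem L109654 : W_41 (nat_lit 3) (nat_lit 0x7000900048002c000200018000000000000000000) (nat_lit 0x0) (nat_lit 0x10000300040000000000000800000000000000) := T_41 (nat_lit 128) (nat_lit 59) (nat_lit 7) (nat_lit 8) (nat_lit 3) L109653 (by decide +kernel)
theorem L109655 : W_41 (nat_lit 4) (nat_lit 0x70009000480024000200018000000000000000000) (nat_lit 0x0) (nat_lit 0x10000300048000400000000800000000000000) := T_41 (nat_lit 111) (nat_lit 94) (nat_lit 6) (nat_lit 8) (nat_lit 9) L109654 (by decide +kernel)
theorem L109656 : W_41 (nat_lit 5) (nat_lit 0x70009000480024000200008000000000000000000) (nat_lit 0x0) (nat_lit 0x10000300048000400010000c00000000000000) := T_41 (nat_lit 76) (nat_lit 58) (nat_lit 4) (nat_lit 8) (nat_lit 7) L109655 (by decide +kernel)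
theorem L109657 : W_41 (nat_lit 6) (nat_lit 0x60009000480024000200008000000000000000000) (nat_lit 0x0) (nat_lit 0x200010010000300048000400010000c00000000000000) := T_41 (nat_lit 160) (nat_lit 177) (nat_lit 5) (nat_lit 8) (nat_lit 6) L109656 (by decide +kernel)
theorem L109658 : W_41 (nat_lit 7) (nat_lit 0x60009000480024000200000000000000000000000) (nat_lit 0x0) (nat_lit 0x200010010000300048000500018000c00000000000000) := T_41 (nat_lit 75) (nat_lit 92) (nat_lit 4) (nat_lit 8) (nat_lit 8) L109657 (by decide +kernel)
theorem L109659 : W_41 (nat_lit 12) (nat_lit 0x60009000080024000200000000000000000000000) (nat_lit 0x0) (nat_lit 0x4200310014000f001c8003d001de00cc00200000000000) := Q_41 (nat_lit 130) (C_41 L109611 (C_41 L109620 (C_41 L109625 (C_41 L109636 (C_41 L109646 (C_41 L109652 (C_41 L109658 N_41))))))) (by decide +kernel)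
theorem L109660 : W_41 (nat_lit 2) (nat_lit 0x60009000080024000200028000000000000000000) (nat_lit 0x0) (nat_lit 0x10001400000000000000) := D_41 (nat_lit 76) (nat_lit 60) (nat_lit 58) (nat_lit 6) (nat_lit 8) (nat_lit 7) (nat_lit 4) (nat_lit 8) (nat_lit 7) (by decide +kernel)
theorem L109661 : W_41 (nat_lit 3) (nat_lit 0x60009000080024000200020000000000000000000) (nat_lit 0x0) (nat_lit 0x100018001400000000000000) := T_41 (nat_lit 75) (nat_lit 92) (nat_lit 4) (nat_lit 8) (nat_lit 8) L109660 (by decide +kernel)
theorem L109662 : W_41 (nat_lit 4) (nat_lit 0x60009000080024000200000000000000000000000) (nat_lit 0x0) (nat_lit 0x500038001400000000000000) := T_41 (nat_lit 77) (nat_lit 94) (nat_lit 6) (nat_lit 8) (nat_lit 8) L109661 (by decide +kernel)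
theorem L109663 : W_41 (nat_lit 2) (nat_lit 0x70019000480024001200080000000000000000000) (nat_lit 0x0) (nat_lit 0x2000100008000000000000000) := D_41 (nat_lit 80) (nat_lit 63) (nat_lit 97) (nat_lit 6) (nat_lit 11) (nat_lit 7) (nat_lit 6) (nat_lit 11) (nat_lit 8) (by decide +kernel)
theorem L109664 : W_41 (nat_lit 3) (nat_lit 0x70019000480024001200000000000000000000000) (nat_lit 0x0) (nat_lit 0x800000002000180008000000000000000) := T_41 (nat_lit 79) (nat_lit 131) (nat_lit 7) (nat_lit 11) (nat_lit 4) L109663 (by decide +kernel)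
theorem L109665 : W_41 (nat_lit 4) (nat_lit 0x70009000480024001200000000000000000000000) (nat_lit 0x0) (nat_lit 0x200010000800000002000180008000000000000000) := T_41 (nat_lit 148) (nat_lit 165) (nat_lit 7) (nat_lit 11) (nat_lit 5) L109664 (by decide +kernel)
theorem L109666 : W_41 (nat_lit 5) (nat_lit 0x60009000480024001200000000000000000000000) (nat_lit 0x0) (nat_lit 0x200210010000800000002000180008000000000000000) := T_41 (nat_lit 160) (nat_lit 177) (nat_lit 5) (nat_lit 8) (nat_lit 6) L109665 (by decide +kernel)
theorem L109667 : W_41 (nat_lit 2) (nat_lit 0x170009000480024003200000000000000000000000) (nat_lit 0x0) (nat_lit 0x4000200010000000000000000000000000000000000000) := D_41 (nat_lit 165) (nat_lit 148) (nat_lit 182) (nat_lit 7) (nat_lit 11) (nat_lit 5) (nat_lit 7) (nat_lit 11) (nat_lit 6) (by decide +kernel)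
theorem L109668 : W_41 (nat_lit 3) (nat_lit 0x70009000480024003200000000000000000000000) (nat_lit 0x0) (nat_lit 0x4000300010000000040000000000000000000000000000) := T_41 (nat_lit 164) (nat_lit 114) (nat_lit 6) (nat_lit 11) (nat_lit 9) L109667 (by decide +kernel)
theorem L109669 : W_41 (nat_lit 4) (nat_lit 0x60009000480024003200000000000000000000000) (nat_lit 0x0) (nat_lit 0x4200310010000000040000000000000000000000000000) := T_41 (nat_lit 160) (nat_lit 177) (nat_lit 5) (nat_lit 8) (nat_lit 6) L109668 (by decide +kernel)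
theorem L109670 : W_41 (nat_lit 5) (nat_lit 0x60009000480024001200000000000000000000000) (nat_lit 0x0) (nat_lit 0x4200310010000000040002000100000000000000000000) := T_41 (nat_lit 97) (nat_lit 80) (nat_lit 6) (nat_lit 11) (nat_lit 8) L109669 (by decide +kernel)
theorem L109671 : W_41 (nat_lit 2) (nat_lit 0x70009000680164003a00080000000000000000000) (nat_lit 0x0) (nat_lit 0x800000000000000004000200000000000) := D_41 (nat_lit 62) (nat_lit 45) (nat_lit 131) (nat_lit 7) (nat_lit 11) (nat_lit 2) (nat_lit 7) (nat_lit 11) (nat_lit 3) (by decide +kernel)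
theorem L109672 : W_41 (nat_lit 3) (nat_lit 0x70009000680164003a00000000000000000000000) (nat_lit 0x0) (nat_lit 0x4000800000000000080004000200000000000) := T_41 (nat_lit 79) (nat_lit 146) (nat_lit 5) (nat_lit 11) (nat_lit 4) L109671 (by decide +kernel)
theorem L109673 : W_41 (nat_lit 4) (nat_lit 0x70009000680064003a00000000000000000000000) (nat_lit 0x0) (nat_lit 0x4000800180000000080004000200000000000) := T_41 (nat_lit 116) (nat_lit 115) (nat_lit 1) (nat_lit 14) (nat_lit 6) L109672 (by decide +kernel)
theorem L109674 : W_41 (nat_lit 5) (nat_lit 0x70009000480064003a00000000000000000000000) (nat_lit 0x0) (nat_lit 0x4000b00180000000080004000200000000000) := T_41 (nat_lit 129) (nat_lit 128) (nat_lit 2) (nat_lit 8) (nat_lit 7) L109673 (by decide +kernel)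
theorem L109675 : W_41 (nat_lit 6) (nat_lit 0x70009000480024003a00000000000000000000000) (nat_lit 0x0) (nat_lit 0x100004000b001c0000000080004000200000000000) := T_41 (nat_lit 114) (nat_lit 164) (nat_lit 6) (nat_lit 11) (nat_lit 9) L109674 (by decide +kernel)
theorem L109676 : W_41 (nat_lit 7) (nat_lit 0x70009000480024003200000000000000000000000) (nat_lit 0x0) (nat_lit 0x100004000b001c00008000c0004000200000000000) := T_41 (nat_lit 95) (nat_lit 78) (nat_lit 4) (nat_lit 11) (nat_lit 8) L109675 (by decide +kernel)
theorem L109677 : W_41 (nat_lit 8) (nat_lit 0x70009000480024001200000000000000000000000) (nat_lit 0x0) (nat_lit 0x100004000b001c00028001c0004000200000000000) := T_41 (nat_lit 97) (nat_lit 80) (nat_lit 6) (nat_lit 11) (nat_lit 8) L109676 (by decide +kernel)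
theorem L109678 : W_41 (nat_lit 9) (nat_lit 0x60009000480024001200000000000000000000000) (nat_lit 0x0) (nat_lit 0x200110004000b001c00028001c0004000200000000000) := T_41 (nat_lit 160) (nat_lit 177) (nat_lit 5) (nat_lit 8) (nat_lit 6) L109677 (by decide +kernel)
theorem L109679 : W_41 (nat_lit 10) (nat_lit 0x60009000480024000200000000000000000000000) (nat_lit 0x0) (nat_lit 0x4200310014000b001c00038001c000c000200000000000) := Q_41 (nat_lit 96) (C_41 L109601 (C_41 L109666 (C_41 L109670 (C_41 L109678 N_41)))) (by decide +kernel)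
theorem L109680 : W_41 (nat_lit 2) (nat_lit 0x60019000480024001200080000000000000000000) (nat_lit 0x0) (nat_lit 0x800040002000000000000000) := D_41 (nat_lit 78) (nat_lit 61) (nat_lit 95) (nat_lit 4) (nat_lit 11) (nat_lit 7) (nat_lit 4) (nat_lit 11) (nat_lit 8) (by decide +kernel)
theorem L109681 : W_41 (nat_lit 3) (nat_lit 0x60019000480024001200000000000000000000000) (nat_lit 0x0) (nat_lit 0x8000000008000c0002000000000000000) := T_41 (nat_lit 79) (nat_lit 131) (nat_lit 7) (nat_lit 11) (nat_lit 4) L109680 (by decide +kernel)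
theorem L109682 : W_41 (nat_lit 4) (nat_lit 0x60009000480024001200000000000000000000000) (nat_lit 0x0) (nat_lit 0x2000100008000000008000c0002000000000000000) := T_41 (nat_lit 148) (nat_lit 165) (nat_lit 7) (nat_lit 11) (nat_lit 5) L109681 (by decide +kernel)
theorem L109683 : W_41 (nat_lit 2) (nat_lit 0x70009000480064003a00018005800000000000000) (nat_lit 0x0) (nat_lit 0x800000000000080000000200000000000) := D_41 (nat_lit 79) (nat_lit 45) (nat_lit 131) (nat_lit 7) (nat_lit 11) (nat_lit 2) (nat_lit 7) (nat_lit 11) (nat_lit 3) (by decide +kernel)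
theorem L109684 : W_41 (nat_lit 3) (nat_lit 0x70009000480064003a00018001800000000000000) (nat_lit 0x0) (nat_lit 0x800000000000080006000200000000000) := T_41 (nat_lit 62) (nat_lit 61) (nat_lit 1) (nat_lit 11) (nat_lit 3) L109683 (by decide +kernel)
theorem L109685 : W_41 (nat_lit 4) (nat_lit 0x70009000480064003a00018001000000000000000) (nat_lit 0x0) (nat_lit 0x800000000000080006800280000000000) := T_41 (nat_lit 59) (nat_lit 43) (nat_lit 6) (nat_lit 8) (nat_lit 6) L109684 (by decide +kernel)
theorem L109686 : W_41 (nat_lit 5) (nat_lit 0x70009000480064003a00018000000000000000000) (nat_lit 0x0) (nat_lit 0x8000000000000a0007800280000000000) := T_41 (nat_lit 60) (nat_lit 77) (nat_lit 6) (nat_lit 8) (nat_lit 7) L109685 (by decide +kernel)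
theorem L109687 : W_41 (nat_lit 6) (nat_lit 0x70009000480064003a00008000000000000000000) (nat_lit 0x0) (nat_lit 0x8000000000000b0007c00280000000000) := T_41 (nat_lit 76) (nat_lit 58) (nat_lit 4) (nat_lit 8) (nat_lit 7) L109686 (by decide +kernel)
theorem L109688 : W_41 (nat_lit 7) (nat_lit 0x70009000480064003a00000000000000000000000) (nat_lit 0x0) (nat_lit 0x8000000001000b8007c00280000000000) := T_41 (nat_lit 75) (nat_lit 92) (nat_lit 4) (nat_lit 8) (nat_lit 8) L109687 (by decide +kernel)
theorem L109689 : W_41 (nat_lit 8) (nat_lit 0x70009000480024003a00000000000000000000000) (nat_lit 0x0) (nat_lit 0x1000000008000400001000b8007c00280000000000) := T_41 (nat_lit 114) (nat_lit 164) (nat_lit 6) (nat_lit 11) (nat_lit 9) L109688 (by decide +kernel)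
theorem L109690 : W_41 (nat_lit 9) (nat_lit 0x70009000480024003200000000000000000000000) (nat_lit 0x0) (nat_lit 0x1000000008000400009000f8007c00280000000000) := T_41 (nat_lit 95) (nat_lit 78) (nat_lit 4) (nat_lit 11) (nat_lit 8) L109689 (by decide +kernel)
theorem L109691 : W_41 (nat_lit 10) (nat_lit 0x70009000480024001200000000000000000000000) (nat_lit 0x0) (nat_lit 0x1000000008000400029001f8007c00280000000000) := T_41 (nat_lit 97) (nat_lit 80) (nat_lit 6) (nat_lit 11) (nat_lit 8) L109690 (by decide +kernel)
theorem L109692 : W_41 (nat_lit 11) (nat_lit 0x60009000480024001200000000000000000000000) (nat_lit 0x0) (nat_lit 0x2001100000008000400029001f8007c00280000000000) := T_41 (nat_lit 160) (nat_lit 177) (nat_lit 5) (nat_lit 8) (nat_lit 6) L109691 (by decide +kernel)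
theorem L109693 : W_41 (nat_lit 12) (nat_lit 0x60009000480024000200000000000000000000000) (nat_lit 0x0) (nat_lit 0x42003100100008000400039001f800fc00280000000000) := Q_41 (nat_lit 96) (C_41 L109670 (C_41 L109631 (C_41 L109666 (C_41 L109682 (C_41 L109692 N_41))))) (by decide +kernel)
theorem L109694 : W_41 (nat_lit 2) (nat_lit 0x6000900058002400020001a001800000000000000) (nat_lit 0x0) (nat_lit 0x10000200040000000000000000000000000000) := D_41 (nat_lit 129) (nat_lit 148) (nat_lit 114) (nat_lit 3) (nat_lit 8) (nat_lit 7) (nat_lit 2) (nat_lit 8) (nat_lit 7) (by decide +kernel)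
theorem L109695 : W_41 (nat_lit 3) (nat_lit 0x6000900048002400020001a001800000000000000) (nat_lit 0x0) (nat_lit 0x10000300048000000000000000000000000000) := T_41 (nat_lit 128) (nat_lit 111) (nat_lit 7) (nat_lit 8) (nat_lit 3) L109694 (by decide +kernel)
theorem L109696 : W_41 (nat_lit 4) (nat_lit 0x60009000480024000200018001800000000000000) (nat_lit 0x0) (nat_lit 0x10000300048000000006000000000000000000) := T_41 (nat_lit 73) (nat_lit 74) (nat_lit 2) (nat_lit 5) (nat_lit 4) L109695 (by decide +kernel)
theorem L109697 : W_41 (nat_lit 5) (nat_lit 0x60009000480024000200018001000000000000000) (nat_lit 0x0) (nat_lit 0x10000300048000000006000800080000000000) := T_41 (nat_lit 59) (nat_lit 43) (nat_lit 6) (nat_lit 8) (nat_lit 6) L109696 (by decide +kernel)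
theorem L109698 : W_41 (nat_lit 6) (nat_lit 0x60009000480024000200018000000000000000000) (nat_lit 0x0) (nat_lit 0x10000300048000000026001800080000000000) := T_41 (nat_lit 60) (nat_lit 77) (nat_lit 6) (nat_lit 8) (nat_lit 7) L109697 (by decide +kernel)
theorem L109699 : W_41 (nat_lit 7) (nat_lit 0x60009000480024000200008000000000000000000) (nat_lit 0x0) (nat_lit 0x10000300048000000036001c00080000000000) := T_41 (nat_lit 76) (nat_lit 58) (nat_lit 4) (nat_lit 8) (nat_lit 7) L109698 (by decide +kernel)
theorem L109700 : W_41 (nat_lit 8) (nat_lit 0x60009000480024000200000000000000000000000) (nat_lit 0x0) (nat_lit 0x1000030004800010003e001c00080000000000) := T_41 (nat_lit 75) (nat_lit 92) (nat_lit 4) (nat_lit 8) (nat_lit 8) L109699 (by decide +kernel)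
theorem L109701 : W_41 (nat_lit 2) (nat_lit 0x27001900058002400020001a005800000000000000) (nat_lit 0x0) (nat_lit 0x80004000000000000800000000000000000000000000000000) := D_41 (nat_lit 182) (nat_lit 199) (nat_lit 131) (nat_lit 4) (nat_lit 12) (nat_lit 11) (nat_lit 4) (nat_lit 12) (nat_lit 10) (by decide +kernel)
theorem L109702 : W_41 (nat_lit 3) (nat_lit 0x7001900058002400020001a005800000000000000) (nat_lit 0x0) (nat_lit 0x80004000200000000800000001000000000000000000000000) := T_41 (nat_lit 165) (nat_lit 96) (nat_lit 7) (nat_lit 11) (nat_lit 5) L109701 (by decide +kernel)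
theorem L109703 : W_41 (nat_lit 4) (nat_lit 0x7000900058002400020001a005800000000000000) (nat_lit 0x0) (nat_lit 0x80004000200010000a00000001000000000000000000000000) := T_41 (nat_lit 148) (nat_lit 129) (nat_lit 3) (nat_lit 8) (nat_lit 7) L109702 (by decide +kernel)
theorem L109704 : W_41 (nat_lit 5) (nat_lit 0x7000900058002400020001a001800000000000000) (nat_lit 0x0) (nat_lit 0x80004000200010000a00000001000000006000000000000000) := T_41 (nat_lit 62) (nat_lit 61) (nat_lit 1) (nat_lit 11) (nat_lit 3) L109703 (by decide +kernel)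
theorem L109705 : W_41 (nat_lit 6) (nat_lit 0x7000900048002400020001a001800000000000000) (nat_lit 0x0) (nat_lit 0x80004000200010000b00008001000000006000000000000000) := T_41 (nat_lit 128) (nat_lit 111) (nat_lit 7) (nat_lit 8) (nat_lit 3) L109704 (by decide +kernel)
theorem L109706 : W_41 (nat_lit 7) (nat_lit 0x70009000480024000200018001800000000000000) (nat_lit 0x0) (nat_lit 0x80004000200010000b00008001000006006000000000000000) := T_41 (nat_lit 73) (nat_lit 74) (nat_lit 2) (nat_lit 5) (nat_lit 4) L109705 (by decide +kernel)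
theorem L109707 : W_41 (nat_lit 8) (nat_lit 0x70009000480024000200018001000000000000000) (nat_lit 0x0) (nat_lit 0x80004000200010000b00008001000006006800080000000000) := T_41 (nat_lit 59) (nat_lit 43) (nat_lit 6) (nat_lit 8) (nat_lit 6) L109706 (by decide +kernel)
theorem L109708 : W_41 (nat_lit 9) (nat_lit 0x70009000480024000200018000000000000000000) (nat_lit 0x0) (nat_lit 0x80004000200010000b00008001000026007800080000000000) := T_41 (nat_lit 60) (nat_lit 77) (nat_lit 6) (nat_lit 8) (nat_lit 7) L109707 (by decide +kernel)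
theorem L109709 : W_41 (nat_lit 10) (nat_lit 0x70009000480024000200008000000000000000000) (nat_lit 0x0) (nat_lit 0x80004000200010000b00008001000036007c00080000000000) := T_41 (nat_lit 76) (nat_lit 58) (nat_lit 4) (nat_lit 8) (nat_lit 7) L109708 (by decide +kernel)
theorem L109710 : W_41 (nat_lit 11) (nat_lit 0x60009000480024000200008000000000000000000) (nat_lit 0x0) (nat_lit 0x80004200210010000b00008001000036007c00080000000000) := T_41 (nat_lit 160) (nat_lit 177) (nat_lit 5) (nat_lit 8) (nat_lit 6) L109709 (by decide +kernel)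
theorem L109711 : W_41 (nat_lit 12) (nat_lit 0x60009000480024000200000000000000000000000) (nat_lit 0x0) (nat_lit 0x80004200210010000b0000800110003e007c00080000000000) := T_41 (nat_lit 75) (nat_lit 92) (nat_lit 4) (nat_lit 8) (nat_lit 8) L109710 (by decide +kernel)
theorem L109712 : W_41 (nat_lit 2) (nat_lit 0x7000900058006400220001a005800000000000000) (nat_lit 0x0) (nat_lit 0x1000100008000000000000000) := D_41 (nat_lit 80) (nat_lit 96) (nat_lit 63) (nat_lit 6) (nat_lit 11) (nat_lit 8) (nat_lit 5) (nat_lit 12) (nat_lit 3) (by decide +kernel)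
theorem L109713 : W_41 (nat_lit 3) (nat_lit 0x7000900058006400020001a005800000000000000) (nat_lit 0x0) (nat_lit 0x100000000000000003000100008000000000000000) := T_41 (nat_lit 97) (nat_lit 164) (nat_lit 6) (nat_lit 11) (nat_lit 9) L109712 (by decide +kernel)
theorem L109714 : W_41 (nat_lit 4) (nat_lit 0x7000900058002400020001a005800000000000000) (nat_lit 0x0) (nat_lit 0x100000000200040003000100008000000000000000) := T_41 (nat_lit 114) (nat_lit 129) (nat_lit 2) (nat_lit 8) (nat_lit 7) L109713 (by decide +kernel)
theorem L109715 : W_41 (nat_lit 5) (nat_lit 0x7000900058002400020001a001800000000000000) (nat_lit 0x0) (nat_lit 0x10000000020004000300010000e000000000000000) := T_41 (nat_lit 62) (nat_lit 61) (nat_lit 1) (nat_lit 11) (nat_lit 3) L109714 (by decide +kernel)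
theorem L109716 : W_41 (nat_lit 6) (nat_lit 0x7000900048002400020001a001800000000000000) (nat_lit 0x0) (nat_lit 0x10000000030004800300010000e000000000000000) := T_41 (nat_lit 128) (nat_lit 111) (nat_lit 7) (nat_lit 8) (nat_lit 3) L109715 (by decide +kernel)
theorem L109717 : W_41 (nat_lit 7) (nat_lit 0x70009000480024000200018001800000000000000) (nat_lit 0x0) (nat_lit 0x10000000030004800300010600e000000000000000) := T_41 (nat_lit 73) (nat_lit 74) (nat_lit 2) (nat_lit 5) (nat_lit 4) L109716 (by decide +kernel)
theorem L109718 : W_41 (nat_lit 8) (nat_lit 0x70009000480024000200018001000000000000000) (nat_lit 0x0) (nat_lit 0x10000000030004800300010600e800080000000000) := T_41 (nat_lit 59) (nat_lit 43) (nat_lit 6) (nat_lit 8) (nat_lit 6) L109717 (by decide +kernel)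
theorem L109719 : W_41 (nat_lit 9) (nat_lit 0x70009000480024000200018000000000000000000) (nat_lit 0x0) (nat_lit 0x10000000030004800300012600f800080000000000) := T_41 (nat_lit 60) (nat_lit 77) (nat_lit 6) (nat_lit 8) (nat_lit 7) L109718 (by decide +kernel)
theorem L109720 : W_41 (nat_lit 10) (nat_lit 0x70009000480024000200008000000000000000000) (nat_lit 0x0) (nat_lit 0x10000000030004800300013600fc00080000000000) := T_41 (nat_lit 76) (nat_lit 58) (nat_lit 4) (nat_lit 8) (nat_lit 7) L109719 (by decide +kernel)
theorem L109721 : W_41 (nat_lit 11) (nat_lit 0x70009000480024000200000000000000000000000) (nat_lit 0x0) (nat_lit 0x10000000030004800310013e00fc00080000000000) := T_41 (nat_lit 75) (nat_lit 92) (nat_lit 4) (nat_lit 8) (nat_lit 8) L109720 (by decide +kernel)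
theorem L109722 : W_41 (nat_lit 12) (nat_lit 0x60009000480024000200000000000000000000000) (nat_lit 0x0) (nat_lit 0x20011000000030004800310013e00fc00080000000000) := T_41 (nat_lit 160) (nat_lit 177) (nat_lit 5) (nat_lit 8) (nat_lit 6) L109721 (by decide +kernel)
theorem L109723 : W_41 (nat_lit 13) (nat_lit 0x60009000080024000200000000000000000000000) (nat_lit 0x0) (nat_lit 0x80004200310014000f001c80039001fe00fc00280000000000) := Q_41 (nat_lit 130) (C_41 L109679 (C_41 L109693 (C_41 L109700 (C_41 L109711 (C_41 L109722 N_41))))) (by decide +kernel)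
theorem L109724 : W_41 (nat_lit 14) (nat_lit 0x60009000080024000000000000000000000000000) (nat_lit 0x0) (nat_lit 0x80004200310014000f001c8003f001fe00fc00280000000000) := Q_41 (nat_lit 93) (C_41 L109586 (C_41 L109659 (C_41 L109662 (C_41 L109723 N_41)))) (by decide +kernel)
theorem L109725 : W_41 (nat_lit 2) (nat_lit 0x70019000480024001000080000000000000000000) (nat_lit 0x0) (nat_lit 0x2000100008000000000000000) := D_41 (nat_lit 80) (nat_lit 63) (nat_lit 97) (nat_lit 6) (nat_lit 11) (nat_lit 7) (nat_lit 6) (nat_lit 11) (nat_lit 8) (by decide +kernel)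
theorem L109726 : W_41 (nat_lit 3) (nat_lit 0x70019000480024001000000000000000000000000) (nat_lit 0x0) (nat_lit 0x800000002000180008000000000000000) := T_41 (nat_lit 79) (nat_lit 131) (nat_lit 7) (nat_lit 11) (nat_lit 4) L109725 (by decide +kernel)
theorem L109727 : W_41 (nat_lit 4) (nat_lit 0x70009000480024001000000000000000000000000) (nat_lit 0x0) (nat_lit 0x200010000800000002000180008000000000000000) := T_41 (nat_lit 148) (nat_lit 165) (nat_lit 7) (nat_lit 11) (nat_lit 5) L109726 (by decide +kernel)
theorem L109728 : W_41 (nat_lit 5) (nat_lit 0x60009000480024001000000000000000000000000) (nat_lit 0x0) (nat_lit 0x200210010000800000002000180008000000000000000) := T_41 (nat_lit 160) (nat_lit 177) (nat_lit 5) (nat_lit 8) (nat_lit 6) L109727 (by decide +kernel)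
theorem L109729 : W_41 (nat_lit 2) (nat_lit 0x60019000480024003000080000000000000000000) (nat_lit 0x0) (nat_lit 0x4000300000000000000000000000000000000) := D_41 (nat_lit 129) (nat_lit 146) (nat_lit 128) (nat_lit 5) (nat_lit 11) (nat_lit 4) (nat_lit 3) (nat_lit 8) (nat_lit 7) (by decide +kernel)
theorem L109730 : W_41 (nat_lit 3) (nat_lit 0x60019000480024003000000000000000000000000) (nat_lit 0x0) (nat_lit 0x4000b00000000000080000000000000000000) := T_41 (nat_lit 79) (nat_lit 131) (nat_lit 7) (nat_lit 11) (nat_lit 4) L109729 (by decide +kernel)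
theorem L109731 : W_41 (nat_lit 4) (nat_lit 0x60009000480024003000000000000000000000000) (nat_lit 0x0) (nat_lit 0x200014000b00000000000080000000000000000000) := T_41 (nat_lit 148) (nat_lit 165) (nat_lit 7) (nat_lit 11) (nat_lit 5) L109730 (by decide +kernel)
theorem L109732 : W_41 (nat_lit 5) (nat_lit 0x60009000480024001000000000000000000000000) (nat_lit 0x0) (nat_lit 0x200014000b00000002000180000000000000000000) := T_41 (nat_lit 97) (nat_lit 80) (nat_lit 6) (nat_lit 11) (nat_lit 8) L109731 (by decide +kernel)
theorem L109733 : W_41 (nat_lit 2) (nat_lit 0x170009000480024003000000000000000000000000) (nat_lit 0x0) (nat_lit 0x10000800040000000000000000000) := D_41 (nat_lit 95) (nat_lit 112) (nat_lit 78) (nat_lit 4) (nat_lit 11) (nat_lit 9) (nat_lit 4) (nat_lit 11) (nat_lit 8) (by decide +kernel)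
theorem L109734 : W_41 (nat_lit 3) (nat_lit 0x70009000480024003000000000000000000000000) (nat_lit 0x0) (nat_lit 0x100000000000050000800040000000000000000000) := T_41 (nat_lit 164) (nat_lit 114) (nat_lit 6) (nat_lit 11) (nat_lit 9) L109733 (by decide +kernel)
theorem L109735 : W_41 (nat_lit 4) (nat_lit 0x60009000480024003000000000000000000000000) (nat_lit 0x0) (nat_lit 0x200110000000000050000800040000000000000000000) := T_41 (nat_lit 160) (nat_lit 177) (nat_lit 5) (nat_lit 8) (nat_lit 6) L109734 (by decide +kernel)
theorem L109736 : W_41 (nat_lit 5) (nat_lit 0x60009000480024001000000000000000000000000) (nat_lit 0x0) (nat_lit 0x200110000000000050002800140000000000000000000) := T_41 (nat_lit 97) (nat_lit 80) (nat_lit 6) (nat_lit 11) (nat_lit 8) L109735 (by decide +kernel)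
theorem L109737 : W_41 (nat_lit 2) (nat_lit 0x70019000480024001000080000000000000000000) (nat_lit 0x0) (nat_lit 0x4000300000000000000000000000000000000) := D_41 (nat_lit 129) (nat_lit 146) (nat_lit 128) (nat_lit 5) (nat_lit 11) (nat_lit 4) (nat_lit 3) (nat_lit 8) (nat_lit 7) (by decide +kernel)
theorem L109738 : W_41 (nat_lit 3) (nat_lit 0x70019000480024001000000000000000000000000) (nat_lit 0x0) (nat_lit 0x4000b00000000000080000000000000000000) := T_41 (nat_lit 79) (nat_lit 131) (nat_lit 7) (nat_lit 11) (nat_lit 4) L109737 (by decide +kernel)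
theorem L109739 : W_41 (nat_lit 4) (nat_lit 0x70009000480024001000000000000000000000000) (nat_lit 0x0) (nat_lit 0x200014000b00000000000080000000000000000000) := T_41 (nat_lit 148) (nat_lit 165) (nat_lit 7) (nat_lit 11) (nat_lit 5) L109738 (by decide +kernel)
theorem L109740 : W_41 (nat_lit 5) (nat_lit 0x60009000480024001000000000000000000000000) (nat_lit 0x0) (nat_lit 0x200210014000b00000000000080000000000000000000) := T_41 (nat_lit 160) (nat_lit 177) (nat_lit 5) (nat_lit 8) (nat_lit 6) L109739 (by decide +kernel)
theorem L109741 : W_41 (nat_lit 6) (nat_lit 0x60009000480024000000000000000000000000000) (nat_lit 0x0) (nat_lit 0x200310014000b000500038001c0008000000000000000) := Q_41 (nat_lit 96) (C_41 L109728 (C_41 L109732 (C_41 L109736 (C_41 L109740 N_41)))) (by decide +kernel)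
theorem L109742 : W_41 (nat_lit 2) (nat_lit 0x60019000480024001000080000000000000000000) (nat_lit 0x0) (nat_lit 0x2000100008000000000000000) := D_41 (nat_lit 80) (nat_lit 63) (nat_lit 97) (nat_lit 6) (nat_lit 11) (nat_lit 7) (nat_lit 6) (nat_lit 11) (nat_lit 8) (by decide +kernel)
theorem L109743 : W_41 (nat_lit 3) (nat_lit 0x60019000480024001000000000000000000000000) (nat_lit 0x0) (nat_lit 0x800000002000180008000000000000000) := T_41 (nat_lit 79) (nat_lit 131) (nat_lit 7) (nat_lit 11) (nat_lit 4) L109742 (by decide +kernel)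
theorem L109744 : W_41 (nat_lit 4) (nat_lit 0x60009000480024001000000000000000000000000) (nat_lit 0x0) (nat_lit 0x200010000800000002000180008000000000000000) := T_41 (nat_lit 148) (nat_lit 165) (nat_lit 7) (nat_lit 11) (nat_lit 5) L109743 (by decide +kernel)
theorem L109745 : W_41 (nat_lit 2) (nat_lit 0x70019000480024001000080000000000000000000) (nat_lit 0x0) (nat_lit 0x800040002000000000000000) := D_41 (nat_lit 78) (nat_lit 61) (nat_lit 95) (nat_lit 4) (nat_lit 11) (nat_lit 7) (nat_lit 4) (nat_lit 11) (nat_lit 8) (by decide +kernel)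
theorem L109746 : W_41 (nat_lit 3) (nat_lit 0x70019000480024001000000000000000000000000) (nat_lit 0x0) (nat_lit 0x8000000008000c0002000000000000000) := T_41 (nat_lit 79) (nat_lit 131) (nat_lit 7) (nat_lit 11) (nat_lit 4) L109745 (by decide +kernel)
theorem L109747 : W_41 (nat_lit 4) (nat_lit 0x70009000480024001000000000000000000000000) (nat_lit 0x0) (nat_lit 0x2000100008000000008000c0002000000000000000) := T_41 (nat_lit 148) (nat_lit 165) (nat_lit 7) (nat_lit 11) (nat_lit 5) L109746 (by decide +kernel)
theorem L109748 : W_41 (nat_lit 5) (nat_lit 0x60009000480024001000000000000000000000000) (nat_lit 0x0) (nat_lit 0x2002100100008000000008000c0002000000000000000) := T_41 (nat_lit 160) (nat_lit 177) (nat_lit 5) (nat_lit 8) (nat_lit 6) L109747 (by decide +kernel)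
theorem L109749 : W_41 (nat_lit 6) (nat_lit 0x60009000480024000000000000000000000000000) (nat_lit 0x0) (nat_lit 0x2003100100008000500038001c000a000000000000000) := Q_41 (nat_lit 96) (C_41 L109736 (C_41 L109744 (C_41 L109748 N_41))) (by decide +kernel)
theorem L109750 : W_41 (nat_lit 2) (nat_lit 0x160019000580024001800000000000000000000000) (nat_lit 0x0) (nat_lit 0x40002000100000000000000000000) := D_41 (nat_lit 97) (nat_lit 80) (nat_lit 114) (nat_lit 6) (nat_lit 11) (nat_lit 8) (nat_lit 6) (nat_lit 11) (nat_lit 9) (by decide +kernel)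
theorem L109751 : W_41 (nat_lit 3) (nat_lit 0x60019000580024001800000000000000000000000) (nat_lit 0x0) (nat_lit 0x100000000000050002000100000000000000000000) := T_41 (nat_lit 164) (nat_lit 112) (nat_lit 4) (nat_lit 11) (nat_lit 9) L109750 (by decide +kernel)
theorem L109752 : W_41 (nat_lit 4) (nat_lit 0x60019000480024001800000000000000000000000) (nat_lit 0x0) (nat_lit 0x100000000300050002000100000000000000000000) := T_41 (nat_lit 128) (nat_lit 129) (nat_lit 3) (nat_lit 8) (nat_lit 7) L109751 (by decide +kernel)
theorem L109753 : W_41 (nat_lit 5) (nat_lit 0x60009000480024001800000000000000000000000) (nat_lit 0x0) (nat_lit 0x300010000300050002000100000000000000000000) := T_41 (nat_lit 148) (nat_lit 165) (nat_lit 7) (nat_lit 11) (nat_lit 5) L109752 (by decide +kernel)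
theorem L109754 : W_41 (nat_lit 6) (nat_lit 0x60009000480024001000000000000000000000000) (nat_lit 0x0) (nat_lit 0x300010000300050002800140000000000000000000) := T_41 (nat_lit 95) (nat_lit 78) (nat_lit 4) (nat_lit 11) (nat_lit 8) L109753 (by decide +kernel)
theorem L109755 : W_41 (nat_lit 2) (nat_lit 0x60019000480024001000080000000000000000000) (nat_lit 0x0) (nat_lit 0x4000300000000000000000000000000000000) := D_41 (nat_lit 129) (nat_lit 146) (nat_lit 128) (nat_lit 5) (nat_lit 11) (nat_lit 4) (nat_lit 3) (nat_lit 8) (nat_lit 7) (by decide +kernel)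
theorem L109756 : W_41 (nat_lit 3) (nat_lit 0x60019000480024001000000000000000000000000) (nat_lit 0x0) (nat_lit 0x4000b00000000000080000000000000000000) := T_41 (nat_lit 79) (nat_lit 131) (nat_lit 7) (nat_lit 11) (nat_lit 4) L109755 (by decide +kernel)
theorem L109757 : W_41 (nat_lit 4) (nat_lit 0x60009000480024001000000000000000000000000) (nat_lit 0x0) (nat_lit 0x200014000b00000000000080000000000000000000) := T_41 (nat_lit 148) (nat_lit 165) (nat_lit 7) (nat_lit 11) (nat_lit 5) L109756 (by decide +kernel)
theorem L109758 : W_41 (nat_lit 2) (nat_lit 0x60009000480024003800000000000000000000000) (nat_lit 0x0) (nat_lit 0x100000000000050000000000000000000000000000) := D_41 (nat_lit 164) (nat_lit 112) (nat_lit 114) (nat_lit 4) (nat_lit 11) (nat_lit 9) (nat_lit 6) (nat_lit 11) (nat_lit 9) (by decide +kernel)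
theorem L109759 : W_41 (nat_lit 3) (nat_lit 0x60009000480024001800000000000000000000000) (nat_lit 0x0) (nat_lit 0x100000000000050002000100000000000000000000) := T_41 (nat_lit 97) (nat_lit 80) (nat_lit 6) (nat_lit 11) (nat_lit 8) L109758 (by decide +kernel)
theorem L109760 : W_41 (nat_lit 4) (nat_lit 0x60009000480024001000000000000000000000000) (nat_lit 0x0) (nat_lit 0x100000000000050002800140000000000000000000) := T_41 (nat_lit 95) (nat_lit 78) (nat_lit 4) (nat_lit 11) (nat_lit 8) L109759 (by decide +kernel)
theorem L109761 : W_41 (nat_lit 7) (nat_lit 0x60009000480024000000000000000000000000000) (nat_lit 0x0) (nat_lit 0x300014000b000500038001c0008000000000000000) := Q_41 (nat_lit 96) (C_41 L109744 (C_41 L109754 (C_41 L109757 (C_41 L109760 N_41)))) (by decide +kernel)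
theorem L109762 : W_41 (nat_lit 2) (nat_lit 0x70019000580064003800000000000000000000000) (nat_lit 0x0) (nat_lit 0x80000600000000000000000000000) := D_41 (nat_lit 94) (nat_lit 115) (nat_lit 93) (nat_lit 3) (nat_lit 9) (nat_lit 5) (nat_lit 3) (nat_lit 8) (nat_lit 5) (by decide +kernel)
theorem L109763 : W_41 (nat_lit 3) (nat_lit 0x70019000580024003800000000000000000000000) (nat_lit 0x0) (nat_lit 0x1000000000000c0000600000000000000000000000) := T_41 (nat_lit 114) (nat_lit 164) (nat_lit 6) (nat_lit 11) (nat_lit 9) L109762 (by decide +kernel)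
theorem L109764 : W_41 (nat_lit 4) (nat_lit 0x70019000580024003000000000000000000000000) (nat_lit 0x0) (nat_lit 0x1000000000000c0000e00040000000000000000000) := T_41 (nat_lit 95) (nat_lit 78) (nat_lit 4) (nat_lit 11) (nat_lit 8) L109763 (by decide +kernel)
theorem L109765 : W_41 (nat_lit 5) (nat_lit 0x70019000580024001000000000000000000000000) (nat_lit 0x0) (nat_lit 0x1000000000000c0002e00140000000000000000000) := T_41 (nat_lit 97) (nat_lit 80) (nat_lit 6) (nat_lit 11) (nat_lit 8) L109764 (by decide +kernel)
theorem L109766 : W_41 (nat_lit 6) (nat_lit 0x70019000480024001000000000000000000000000) (nat_lit 0x0) (nat_lit 0x1000000003000c0002e00140000000000000000000) := T_41 (nat_lit 128) (nat_lit 129) (nat_lit 3) (nat_lit 8) (nat_lit 7) L109765 (by decide +kernel)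
theorem L109767 : W_41 (nat_lit 7) (nat_lit 0x70009000480024001000000000000000000000000) (nat_lit 0x0) (nat_lit 0x3000100003000c0002e00140000000000000000000) := T_41 (nat_lit 148) (nat_lit 165) (nat_lit 7) (nat_lit 11) (nat_lit 5) L109766 (by decide +kernel)
theorem L109768 : W_41 (nat_lit 8) (nat_lit 0x60009000480024001000000000000000000000000) (nat_lit 0x0) (nat_lit 0x2003100100003000c0002e00140000000000000000000) := T_41 (nat_lit 160) (nat_lit 177) (nat_lit 5) (nat_lit 8) (nat_lit 6) L109767 (by decide +kernel)
theorem L109769 : W_41 (nat_lit 2) (nat_lit 0x70009000480064003800000000000000000000000) (nat_lit 0x0) (nat_lit 0x80000600000000000000000000000) := D_41 (nat_lit 94) (nat_lit 115) (nat_lit 93) (nat_lit 3) (nat_lit 9) (nat_lit 5) (nat_lit 3) (nat_lit 8) (nat_lit 5) (by decide +kernel)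
theorem L109770 : W_41 (nat_lit 3) (nat_lit 0x70009000480064003000000000000000000000000) (nat_lit 0x0) (nat_lit 0x80000e00040000000000000000000) := T_41 (nat_lit 95) (nat_lit 78) (nat_lit 4) (nat_lit 11) (nat_lit 8) L109769 (by decide +kernel)
theorem L109771 : W_41 (nat_lit 4) (nat_lit 0x70009000480024003000000000000000000000000) (nat_lit 0x0) (nat_lit 0x1000000000000c0000e00040000000000000000000) := T_41 (nat_lit 114) (nat_lit 164) (nat_lit 6) (nat_lit 11) (nat_lit 9) L109770 (by decide +kernel)
theorem L109772 : W_41 (nat_lit 5) (nat_lit 0x60009000480024003000000000000000000000000) (nat_lit 0x0) (nat_lit 0x2001100000000000c0000e00040000000000000000000) := T_41 (nat_lit 160) (nat_lit 177) (nat_lit 5) (nat_lit 8) (nat_lit 6) L109771 (by decide +kernel)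
theorem L109773 : W_41 (nat_lit 6) (nat_lit 0x60009000480024001000000000000000000000000) (nat_lit 0x0) (nat_lit 0x2001100000000000c0002e00140000000000000000000) := T_41 (nat_lit 97) (nat_lit 80) (nat_lit 6) (nat_lit 11) (nat_lit 8) L109772 (by decide +kernel)
theorem L109774 : W_41 (nat_lit 9) (nat_lit 0x60009000480024000000000000000000000000000) (nat_lit 0x0) (nat_lit 0x200310014000b000c0003e001c0002000000000000000) := Q_41 (nat_lit 96) (C_41 L109757 (C_41 L109748 (C_41 L109768 (C_41 L109773 N_41)))) (by decide +kernel)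
theorem L109775 : W_41 (nat_lit 2) (nat_lit 0x20002000370019000580064000000000000000000000000000) (nat_lit 0x0) (nat_lit 0xc00040000000000000000000000000000000000000000000000000) := D_41 (nat_lit 198) (nat_lit 215) (nat_lit 214) (nat_lit 6) (nat_lit 11) (nat_lit 12) (nat_lit 5) (nat_lit 11) (nat_lit 8) (by decide +kernel)
theorem L109776 : W_41 (nat_lit 3) (nat_lit 0x2000370019000580064000000000000000000000000000) (nat_lit 0x0) (nat_lit 0xc00060001000000000000000000000000000000000000000000000) := T_41 (nat_lit 197) (nat_lit 180) (nat_lit 5) (nat_lit 11) (nat_lit 7) L109775 (by decide +kernel)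
theorem L109777 : W_41 (nat_lit 4) (nat_lit 0x370019000580064000000000000000000000000000) (nat_lit 0x0) (nat_lit 0xc00060003000000000000800000000000000000000000000000000) := T_41 (nat_lit 181) (nat_lit 131) (nat_lit 6) (nat_lit 11) (nat_lit 10) L109776 (by decide +kernel)
theorem L109778 : W_41 (nat_lit 5) (nat_lit 0x370009000580064000000000000000000000000000) (nat_lit 0x0) (nat_lit 0xc00060003000000010000800000001000000000000000000000000) := T_41 (nat_lit 148) (nat_lit 96) (nat_lit 7) (nat_lit 11) (nat_lit 5) L109777 (by decide +kernel)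
theorem L109779 : W_41 (nat_lit 6) (nat_lit 0x170009000580064000000000000000000000000000) (nat_lit 0x0) (nat_lit 0xc00060007000200010000800000001000000000000000000000000) := T_41 (nat_lit 165) (nat_lit 182) (nat_lit 7) (nat_lit 11) (nat_lit 6) L109778 (by decide +kernel)
theorem L109780 : W_41 (nat_lit 7) (nat_lit 0x170009000480064000000000000000000000000000) (nat_lit 0x0) (nat_lit 0xc00060007000200010000b00000001000000000000000000000000) := T_41 (nat_lit 128) (nat_lit 129) (nat_lit 2) (nat_lit 8) (nat_lit 7) L109779 (by decide +kernel)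
theorem L109781 : W_41 (nat_lit 8) (nat_lit 0x70009000480064000000000000000000000000000) (nat_lit 0x0) (nat_lit 0xc00060007000300010000b00000003000000000000000000000000) := T_41 (nat_lit 164) (nat_lit 97) (nat_lit 6) (nat_lit 11) (nat_lit 9) L109780 (by decide +kernel)
theorem L109782 : W_41 (nat_lit 9) (nat_lit 0x60009000480064000000000000000000000000000) (nat_lit 0x0) (nat_lit 0xc00060007200310010000b00000003000000000000000000000000) := T_41 (nat_lit 160) (nat_lit 177) (nat_lit 5) (nat_lit 8) (nat_lit 6) L109781 (by decide +kernel)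
theorem L109783 : W_41 (nat_lit 2) (nat_lit 0x20002000370019000480064000000000000000000000000000) (nat_lit 0x0) (nat_lit 0xc00040000000000000000000000000000000000000000000000000) := D_41 (nat_lit 198) (nat_lit 215) (nat_lit 214) (nat_lit 6) (nat_lit 11) (nat_lit 12) (nat_lit 5) (nat_lit 11) (nat_lit 8) (by decide +kernel)
theorem L109784 : W_41 (nat_lit 3) (nat_lit 0x2000370019000480064000000000000000000000000000) (nat_lit 0x0) (nat_lit 0xc00060001000000000000000000000000000000000000000000000) := T_41 (nat_lit 197) (nat_lit 180) (nat_lit 5) (nat_lit 11) (nat_lit 7) L109783 (by decide +kernel)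
theorem L109785 : W_41 (nat_lit 4) (nat_lit 0x370019000480064000000000000000000000000000) (nat_lit 0x0) (nat_lit 0xc00060003000000000000800000000000000000000000000000000) := T_41 (nat_lit 181) (nat_lit 131) (nat_lit 6) (nat_lit 11) (nat_lit 10) L109784 (by decide +kernel)
theorem L109786 : W_41 (nat_lit 5) (nat_lit 0x370009000480064000000000000000000000000000) (nat_lit 0x0) (nat_lit 0xc00060003000000010000800000001000000000000000000000000) := T_41 (nat_lit 148) (nat_lit 96) (nat_lit 7) (nat_lit 11) (nat_lit 5) L109785 (by decide +kernel)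
theorem L109787 : W_41 (nat_lit 6) (nat_lit 0x170009000480064000000000000000000000000000) (nat_lit 0x0) (nat_lit 0xc00060007000200010000800000001000000000000000000000000) := T_41 (nat_lit 165) (nat_lit 182) (nat_lit 7) (nat_lit 11) (nat_lit 6) L109786 (by decide +kernel)
theorem L109788 : W_41 (nat_lit 7) (nat_lit 0x160009000480064000000000000000000000000000) (nat_lit 0x0) (nat_lit 0xc00060007200210010000800000001000000000000000000000000) := T_41 (nat_lit 160) (nat_lit 177) (nat_lit 5) (nat_lit 8) (nat_lit 6) L109787 (by decide +kernel)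
theorem L109789 : W_41 (nat_lit 8) (nat_lit 0x60009000480064000000000000000000000000000) (nat_lit 0x0) (nat_lit 0xc00060007200310010000800000003000000000000000000000000) := T_41 (nat_lit 164) (nat_lit 97) (nat_lit 6) (nat_lit 11) (nat_lit 9) L109788 (by decide +kernel)
theorem L109790 : W_41 (nat_lit 2) (nat_lit 0x20002000360019000580064000000000000000000000000000) (nat_lit 0x0) (nat_lit 0xc00040000000000000000000000000000000000000000000000000) := D_41 (nat_lit 198) (nat_lit 215) (nat_lit 214) (nat_lit 6) (nat_lit 11) (nat_lit 12) (nat_lit 5) (nat_lit 11) (nat_lit 8) (by decide +kernel)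
theorem L109791 : W_41 (nat_lit 3) (nat_lit 0x2000360019000580064000000000000000000000000000) (nat_lit 0x0) (nat_lit 0xc00060001000000000000000000000000000000000000000000000) := T_41 (nat_lit 197) (nat_lit 180) (nat_lit 5) (nat_lit 11) (nat_lit 7) L109790 (by decide +kernel)
theorem L109792 : W_41 (nat_lit 4) (nat_lit 0x360019000580064000000000000000000000000000) (nat_lit 0x0) (nat_lit 0xc00060003000000000000800000000000000000000000000000000) := T_41 (nat_lit 181) (nat_lit 131) (nat_lit 6) (nat_lit 11) (nat_lit 10) L109791 (by decide +kernel)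
theorem L109793 : W_41 (nat_lit 5) (nat_lit 0x360009000580064000000000000000000000000000) (nat_lit 0x0) (nat_lit 0xc00060003000000010000800000001000000000000000000000000) := T_41 (nat_lit 148) (nat_lit 96) (nat_lit 7) (nat_lit 11) (nat_lit 5) L109792 (by decide +kernel)
theorem L109794 : W_41 (nat_lit 6) (nat_lit 0x160009000580064000000000000000000000000000) (nat_lit 0x0) (nat_lit 0xc00060007000200010000800000001000000000000000000000000) := T_41 (nat_lit 165) (nat_lit 182) (nat_lit 7) (nat_lit 11) (nat_lit 6) L109793 (by decide +kernel)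
theorem L109795 : W_41 (nat_lit 7) (nat_lit 0x160009000480064000000000000000000000000000) (nat_lit 0x0) (nat_lit 0xc00060007000200010000b00000001000000000000000000000000) := T_41 (nat_lit 128) (nat_lit 129) (nat_lit 2) (nat_lit 8) (nat_lit 7) L109794 (by decide +kernel)
theorem L109796 : W_41 (nat_lit 8) (nat_lit 0x60009000480064000000000000000000000000000) (nat_lit 0x0) (nat_lit 0xc00060007000300010000b00000003000000000000000000000000) := T_41 (nat_lit 164) (nat_lit 97) (nat_lit 6) (nat_lit 11) (nat_lit 9) L109795 (by decide +kernel)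
theorem L109797 : W_41 (nat_lit 2) (nat_lit 0x2000370009000480064000000000000000000000000000) (nat_lit 0x0) (nat_lit 0x300010000000000000000000000000000) := D_41 (nat_lit 129) (nat_lit 128) (nat_lit 112) (nat_lit 2) (nat_lit 8) (nat_lit 7) (nat_lit 4) (nat_lit 11) (nat_lit 10) (by decide +kernel)
theorem L109798 : W_41 (nat_lit 3) (nat_lit 0x370009000480064000000000000000000000000000) (nat_lit 0x0) (nat_lit 0x2000000000000b00010000000000000000000000000000) := T_41 (nat_lit 181) (nat_lit 131) (nat_lit 6) (nat_lit 11) (nat_lit 10) L109797 (by decide +kernel)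
theorem L109799 : W_41 (nat_lit 4) (nat_lit 0x170009000480064000000000000000000000000000) (nat_lit 0x0) (nat_lit 0x6000200000000b00010000000000000000000000000000) := T_41 (nat_lit 165) (nat_lit 182) (nat_lit 7) (nat_lit 11) (nat_lit 6) L109798 (by decide +kernel)
theorem L109800 : W_41 (nat_lit 5) (nat_lit 0x160009000480064000000000000000000000000000) (nat_lit 0x0) (nat_lit 0x6200210000000b00010000000000000000000000000000) := T_41 (nat_lit 160) (nat_lit 177) (nat_lit 5) (nat_lit 8) (nat_lit 6) L109799 (by decide +kernel)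
theorem L109801 : W_41 (nat_lit 6) (nat_lit 0x60009000480064000000000000000000000000000) (nat_lit 0x0) (nat_lit 0x6200310000000b00010002000000000000000000000000) := T_41 (nat_lit 164) (nat_lit 97) (nat_lit 6) (nat_lit 11) (nat_lit 9) L109800 (by decide +kernel)
theorem L109802 : W_41 (nat_lit 2) (nat_lit 0x60019000580064001000080000000000000000000) (nat_lit 0x0) (nat_lit 0x2000100008000000000000000) := D_41 (nat_lit 80) (nat_lit 63) (nat_lit 97) (nat_lit 6) (nat_lit 11) (nat_lit 7) (nat_lit 6) (nat_lit 11) (nat_lit 8) (by decide +kernel)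
theorem L109803 : W_41 (nat_lit 3) (nat_lit 0x60019000580064001000000000000000000000000) (nat_lit 0x0) (nat_lit 0x800000002000180008000000000000000) := T_41 (nat_lit 79) (nat_lit 131) (nat_lit 7) (nat_lit 11) (nat_lit 4) L109802 (by decide +kernel)
theorem L109804 : W_41 (nat_lit 4) (nat_lit 0x60009000580064001000000000000000000000000) (nat_lit 0x0) (nat_lit 0x200010000800000002000180008000000000000000) := T_41 (nat_lit 148) (nat_lit 165) (nat_lit 7) (nat_lit 11) (nat_lit 5) L109803 (by decide +kernel)
theorem L109805 : W_41 (nat_lit 5) (nat_lit 0x60009000480064001000000000000000000000000) (nat_lit 0x0) (nat_lit 0x200010000b00000002000180008000000000000000) := T_41 (nat_lit 128) (nat_lit 129) (nat_lit 2) (nat_lit 8) (nat_lit 7) L109804 (by decide +kernel)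
theorem L109806 : W_41 (nat_lit 2) (nat_lit 0x60019000480064003000080004000000000000000) (nat_lit 0x0) (nat_lit 0x40002000100000000000) := D_41 (nat_lit 61) (nat_lit 78) (nat_lit 44) (nat_lit 4) (nat_lit 11) (nat_lit 7) (nat_lit 4) (nat_lit 11) (nat_lit 6) (by decide +kernel)
theorem L109807 : W_41 (nat_lit 3) (nat_lit 0x60019000480064003000080000000000000000000) (nat_lit 0x0) (nat_lit 0x40006000300000000000) := T_41 (nat_lit 62) (nat_lit 45) (nat_lit 7) (nat_lit 11) (nat_lit 2) L109806 (by decide +kernel)
theorem L109808 : W_41 (nat_lit 4) (nat_lit 0x60019000480064003000000000000000000000000) (nat_lit 0x0) (nat_lit 0x8000000000000c0006000300000000000) := T_41 (nat_lit 79) (nat_lit 131) (nat_lit 7) (nat_lit 11) (nat_lit 4) L109807 (by decide +kernel)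
theorem L109809 : W_41 (nat_lit 5) (nat_lit 0x60009000480064003000000000000000000000000) (nat_lit 0x0) (nat_lit 0x2000100008000000000000c0006000300000000000) := T_41 (nat_lit 148) (nat_lit 165) (nat_lit 7) (nat_lit 11) (nat_lit 5) L109808 (by decide +kernel)
theorem L109810 : W_41 (nat_lit 6) (nat_lit 0x60009000480064001000000000000000000000000) (nat_lit 0x0) (nat_lit 0x2000100008000000020001c0006000300000000000) := T_41 (nat_lit 97) (nat_lit 80) (nat_lit 6) (nat_lit 11) (nat_lit 8) L109809 (by decide +kernel)
theorem L109811 : W_41 (nat_lit 2) (nat_lit 0x70039000e80164007000000000000000000000000) (nat_lit 0x0) (nat_lit 0x210008000000000000000000000000) := D_41 (nat_lit 99) (nat_lit 117) (nat_lit 112) (nat_lit 3) (nat_lit 11) (nat_lit 5) (nat_lit 1) (nat_lit 14) (nat_lit 5) (by decide +kernel)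
theorem L109812 : W_41 (nat_lit 3) (nat_lit 0x70039000e80164003000000000000000000000000) (nat_lit 0x0) (nat_lit 0x21000c000200000000000000000000) := T_41 (nat_lit 98) (nat_lit 81) (nat_lit 6) (nat_lit 12) (nat_lit 8) L109811 (by decide +kernel)
theorem L109813 : W_41 (nat_lit 4) (nat_lit 0x70039000680164003000000000000000000000000) (nat_lit 0x0) (nat_lit 0x40000000080021000c000200000000000000000000) := T_41 (nat_lit 131) (nat_lit 166) (nat_lit 7) (nat_lit 12) (nat_lit 5) L109812 (by decide +kernel)
theorem L109814 : W_41 (nat_lit 5) (nat_lit 0x70019000680164003000000000000000000000000) (nat_lit 0x0) (nat_lit 0x40006000080021000c000200000000000000000000) := T_41 (nat_lit 149) (nat_lit 150) (nat_lit 0) (nat_lit 14) (nat_lit 8) L109813 (by decide +kernel)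
theorem L109815 : W_41 (nat_lit 6) (nat_lit 0x70009000680164003000000000000000000000000) (nat_lit 0x0) (nat_lit 0x60007000080021000c000200000000000000000000) := T_41 (nat_lit 148) (nat_lit 165) (nat_lit 7) (nat_lit 11) (nat_lit 5) L109814 (by decide +kernel)
theorem L109816 : W_41 (nat_lit 7) (nat_lit 0x70009000680064003000000000000000000000000) (nat_lit 0x0) (nat_lit 0x60007000080039000c000200000000000000000000) := T_41 (nat_lit 116) (nat_lit 115) (nat_lit 1) (nat_lit 14) (nat_lit 6) L109815 (by decide +kernel)
theorem L109817 : W_41 (nat_lit 8) (nat_lit 0x70009000680064001000000000000000000000000) (nat_lit 0x0) (nat_lit 0x60007000080039000e000300000000000000000000) := T_41 (nat_lit 97) (nat_lit 80) (nat_lit 6) (nat_lit 11) (nat_lit 8) L109816 (by decide +kernel)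
theorem L109818 : W_41 (nat_lit 9) (nat_lit 0x70009000480064001000000000000000000000000) (nat_lit 0x0) (nat_lit 0x600070000b0039000e000300000000000000000000) := T_41 (nat_lit 129) (nat_lit 128) (nat_lit 2) (nat_lit 8) (nat_lit 7) L109817 (by decide +kernel)
theorem L109819 : W_41 (nat_lit 10) (nat_lit 0x60009000480064001000000000000000000000000) (nat_lit 0x0) (nat_lit 0x200610070000b0039000e000300000000000000000000) := T_41 (nat_lit 160) (nat_lit 177) (nat_lit 5) (nat_lit 8) (nat_lit 6) L109818 (by decide +kernel)
theorem L109820 : W_41 (nat_lit 2) (nat_lit 0x60019000480064001000080000000000000000000) (nat_lit 0x0) (nat_lit 0x4000300000000000000000000000000000000) := D_41 (nat_lit 129) (nat_lit 146) (nat_lit 128) (nat_lit 5) (nat_lit 11) (nat_lit 4) (nat_lit 3) (nat_lit 8) (nat_lit 7) (by decide +kernel)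
theorem L109821 : W_41 (nat_lit 3) (nat_lit 0x60019000480064001000000000000000000000000) (nat_lit 0x0) (nat_lit 0x4000b00000000000080000000000000000000) := T_41 (nat_lit 79) (nat_lit 131) (nat_lit 7) (nat_lit 11) (nat_lit 4) L109820 (by decide +kernel)
theorem L109822 : W_41 (nat_lit 4) (nat_lit 0x60009000480064001000000000000000000000000) (nat_lit 0x0) (nat_lit 0x200014000b00000000000080000000000000000000) := T_41 (nat_lit 148) (nat_lit 165) (nat_lit 7) (nat_lit 11) (nat_lit 5) L109821 (by decide +kernel)
theorem L109823 : W_41 (nat_lit 2) (nat_lit 0x70009000680164003000080000000000000000000) (nat_lit 0x0) (nat_lit 0x10000000000004000200000000000) := D_41 (nat_lit 62) (nat_lit 112) (nat_lit 45) (nat_lit 5) (nat_lit 11) (nat_lit 3) (nat_lit 7) (nat_lit 11) (nat_lit 2) (by decide +kernel)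
theorem L109824 : W_41 (nat_lit 3) (nat_lit 0x70009000680164003000000000000000000000000) (nat_lit 0x0) (nat_lit 0x4000000010000000080004000200000000000) := T_41 (nat_lit 79) (nat_lit 146) (nat_lit 5) (nat_lit 11) (nat_lit 4) L109823 (by decide +kernel)
theorem L109825 : W_41 (nat_lit 4) (nat_lit 0x70009000680064003000000000000000000000000) (nat_lit 0x0) (nat_lit 0x4000000190000000080004000200000000000) := T_41 (nat_lit 116) (nat_lit 115) (nat_lit 1) (nat_lit 14) (nat_lit 6) L109824 (by decide +kernel)
theorem L109826 : W_41 (nat_lit 5) (nat_lit 0x70009000480064003000000000000000000000000) (nat_lit 0x0) (nat_lit 0x4000300190000000080004000200000000000) := T_41 (nat_lit 129) (nat_lit 128) (nat_lit 2) (nat_lit 8) (nat_lit 7) L109825 (by decide +kernel)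
theorem L109827 : W_41 (nat_lit 6) (nat_lit 0x70009000480064001000000000000000000000000) (nat_lit 0x0) (nat_lit 0x4000300190002000180004000200000000000) := T_41 (nat_lit 97) (nat_lit 80) (nat_lit 6) (nat_lit 11) (nat_lit 8) L109826 (by decide +kernel)
theorem L109828 : W_41 (nat_lit 7) (nat_lit 0x60009000480064001000000000000000000000000) (nat_lit 0x0) (nat_lit 0x200010004000300190002000180004000200000000000) := T_41 (nat_lit 160) (nat_lit 177) (nat_lit 5) (nat_lit 8) (nat_lit 6) L109827 (by decide +kernel)
theorem L109829 : W_41 (nat_lit 11) (nat_lit 0x60009000480064000000000000000000000000000) (nat_lit 0x0) (nat_lit 0x200610074000b0039000f0003c000e000300000000000) := Q_41 (nat_lit 96) (C_41 L109805 (C_41 L109810 (C_41 L109819 (C_41 L109822 (C_41 L109828 N_41))))) (by decide +kernel)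
theorem L109830 : W_41 (nat_lit 6) (nat_lit 0x260009000580064000000000000000000000000000) (nat_lit 0x0) (nat_lit 0xc00060007000100010000800000001000000000000000000000000) := T_41 (nat_lit 164) (nat_lit 182) (nat_lit 7) (nat_lit 11) (nat_lit 6) L109793 (by decide +kernel)
theorem L109831 : W_41 (nat_lit 7) (nat_lit 0x260009000480064000000000000000000000000000) (nat_lit 0x0) (nat_lit 0xc00060007000100010000b00000001000000000000000000000000) := T_41 (nat_lit 128) (nat_lit 129) (nat_lit 2) (nat_lit 8) (nat_lit 7) L109830 (by decide +kernel)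
theorem L109832 : W_41 (nat_lit 2) (nat_lit 0x260019000480064000000000000000000000000000) (nat_lit 0x0) (nat_lit 0x80004000100000000000000000000000000000000000000000) := D_41 (nat_lit 182) (nat_lit 164) (nat_lit 199) (nat_lit 7) (nat_lit 11) (nat_lit 6) (nat_lit 4) (nat_lit 12) (nat_lit 11) (by decide +kernel)
theorem L109833 : W_41 (nat_lit 3) (nat_lit 0x260009000480064000000000000000000000000000) (nat_lit 0x0) (nat_lit 0x80004000100010000000000001000000000000000000000000) := T_41 (nat_lit 148) (nat_lit 96) (nat_lit 7) (nat_lit 11) (nat_lit 5) L109832 (by decide +kernel)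
theorem L109834 : W_41 (nat_lit 2) (nat_lit 0x2000360009000480064000000000000000000000000000) (nat_lit 0x0) (nat_lit 0x300010000000000000000000000000000) := D_41 (nat_lit 129) (nat_lit 128) (nat_lit 112) (nat_lit 2) (nat_lit 8) (nat_lit 7) (nat_lit 4) (nat_lit 11) (nat_lit 10) (by decide +kernel)
theorem L109835 : W_41 (nat_lit 3) (nat_lit 0x360009000480064000000000000000000000000000) (nat_lit 0x0) (nat_lit 0x2000000000000b00010000000000000000000000000000) := T_41 (nat_lit 181) (nat_lit 131) (nat_lit 6) (nat_lit 11) (nat_lit 10) L109834 (by decide +kernel)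
theorem L109836 : W_41 (nat_lit 4) (nat_lit 0x260009000480064000000000000000000000000000) (nat_lit 0x0) (nat_lit 0x6000100000000b00010000000000000000000000000000) := T_41 (nat_lit 164) (nat_lit 182) (nat_lit 7) (nat_lit 11) (nat_lit 6) L109835 (by decide +kernel)
theorem L109837 : W_41 (nat_lit 2) (nat_lit 0x260019000580064000000000000000000000000000) (nat_lit 0x0) (nat_lit 0x80004000000000000800000000000000000000000000000000) := D_41 (nat_lit 182) (nat_lit 199) (nat_lit 131) (nat_lit 4) (nat_lit 12) (nat_lit 11) (nat_lit 4) (nat_lit 12) (nat_lit 10) (by decide +kernel)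
theorem L109838 : W_41 (nat_lit 3) (nat_lit 0x260009000580064000000000000000000000000000) (nat_lit 0x0) (nat_lit 0x80004000000010000800000001000000000000000000000000) := T_41 (nat_lit 148) (nat_lit 96) (nat_lit 7) (nat_lit 11) (nat_lit 5) L109837 (by decide +kernel)
theorem L109839 : W_41 (nat_lit 4) (nat_lit 0x260009000480064000000000000000000000000000) (nat_lit 0x0) (nat_lit 0x80004000000010000b00000001000000000000000000000000) := T_41 (nat_lit 128) (nat_lit 129) (nat_lit 2) (nat_lit 8) (nat_lit 7) L109838 (by decide +kernel)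
theorem L109840 : W_41 (nat_lit 2) (nat_lit 0x270009000680064001000080000000000000000000) (nat_lit 0x0) (nat_lit 0x800010000000000004000000000000000) := D_41 (nat_lit 62) (nat_lit 112) (nat_lit 131) (nat_lit 5) (nat_lit 11) (nat_lit 3) (nat_lit 7) (nat_lit 11) (nat_lit 3) (by decide +kernel)
theorem L109841 : W_41 (nat_lit 3) (nat_lit 0x270009000680064001000000000000000000000000) (nat_lit 0x0) (nat_lit 0x4000800010000000080004000000000000000) := T_41 (nat_lit 79) (nat_lit 146) (nat_lit 5) (nat_lit 11) (nat_lit 4) L109840 (by decide +kernel)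
theorem L109842 : W_41 (nat_lit 4) (nat_lit 0x270009000680064000000000000000000000000000) (nat_lit 0x0) (nat_lit 0x14000800010001000080004000000000000000) := T_41 (nat_lit 96) (nat_lit 148) (nat_lit 7) (nat_lit 11) (nat_lit 5) L109841 (by decide +kernel)
theorem L109843 : W_41 (nat_lit 5) (nat_lit 0x270009000480064000000000000000000000000000) (nat_lit 0x0) (nat_lit 0x14000b00010001000080004000000000000000) := T_41 (nat_lit 129) (nat_lit 128) (nat_lit 2) (nat_lit 8) (nat_lit 7) L109842 (by decide +kernel)
theorem L109844 : W_41 (nat_lit 6) (nat_lit 0x260009000480064000000000000000000000000000) (nat_lit 0x0) (nat_lit 0x200010014000b00010001000080004000000000000000) := T_41 (nat_lit 160) (nat_lit 177) (nat_lit 5) (nat_lit 8) (nat_lit 6) L109843 (by decide +kernel)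
theorem L109845 : W_41 (nat_lit 8) (nat_lit 0x60009000480064000000000000000000000000000) (nat_lit 0x0) (nat_lit 0xc000e0007200310014000b00010001000080004000000000000000) := Q_41 (nat_lit 165) (C_41 L109831 (C_41 L109833 (C_41 L109836 (C_41 L109839 (C_41 L109844 N_41))))) (by decide +kernel)
theorem L109846 : W_41 (nat_lit 2) (nat_lit 0xa0002000170009000580064000000000000000000000000000) (nat_lit 0x0) (nat_lit 0x1400040000000000000000000000000000000000000000000000000) := D_41 (nat_lit 198) (nat_lit 214) (nat_lit 216) (nat_lit 5) (nat_lit 11) (nat_lit 8) (nat_lit 7) (nat_lit 11) (nat_lit 8) (by decide +kernel)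
theorem L109847 : W_41 (nat_lit 3) (nat_lit 0x20002000170009000580064000000000000000000000000000) (nat_lit 0x0) (nat_lit 0x14000c0004000000000000000000000000000000000000000000000) := T_41 (nat_lit 199) (nat_lit 182) (nat_lit 7) (nat_lit 11) (nat_lit 7) L109846 (by decide +kernel)
theorem L109848 : W_41 (nat_lit 4) (nat_lit 0x2000170009000580064000000000000000000000000000) (nat_lit 0x0) (nat_lit 0x14000e0005000000000000000000000000000000000000000000000) := T_41 (nat_lit 197) (nat_lit 180) (nat_lit 5) (nat_lit 11) (nat_lit 7) L109847 (by decide +kernel)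
theorem L109849 : W_41 (nat_lit 5) (nat_lit 0x170009000580064000000000000000000000000000) (nat_lit 0x0) (nat_lit 0x14000e0007000000000000800000000000000000000000000000000) := T_41 (nat_lit 181) (nat_lit 131) (nat_lit 6) (nat_lit 11) (nat_lit 10) L109848 (by decide +kernel)
theorem L109850 : W_41 (nat_lit 6) (nat_lit 0x160009000580064000000000000000000000000000) (nat_lit 0x0) (nat_lit 0x14000e0007200010000000800000000000000000000000000000000) := T_41 (nat_lit 160) (nat_lit 177) (nat_lit 5) (nat_lit 8) (nat_lit 6) L109849 (by decide +kernel)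
theorem L109851 : W_41 (nat_lit 7) (nat_lit 0x60009000580064000000000000000000000000000) (nat_lit 0x0) (nat_lit 0x14000e0007200110000000800000002000000000000000000000000) := T_41 (nat_lit 164) (nat_lit 97) (nat_lit 6) (nat_lit 11) (nat_lit 9) L109850 (by decide +kernel)
theorem L109852 : W_41 (nat_lit 8) (nat_lit 0x60009000480064000000000000000000000000000) (nat_lit 0x0) (nat_lit 0x14000e0007200110000000b00000002000000000000000000000000) := T_41 (nat_lit 128) (nat_lit 129) (nat_lit 2) (nat_lit 8) (nat_lit 7) L109851 (by decide +kernel)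
theorem L109853 : W_41 (nat_lit 2) (nat_lit 0x360009000680064001000080000000000000000000) (nat_lit 0x0) (nat_lit 0x2000000000000000010000000000004000000000000000) := D_41 (nat_lit 112) (nat_lit 62) (nat_lit 181) (nat_lit 5) (nat_lit 11) (nat_lit 3) (nat_lit 4) (nat_lit 11) (nat_lit 10) (by decide +kernel)
theorem L109854 : W_41 (nat_lit 3) (nat_lit 0x360009000680064001000000000000000000000000) (nat_lit 0x0) (nat_lit 0x2000000004000000010000000080004000000000000000) := T_41 (nat_lit 79) (nat_lit 146) (nat_lit 5) (nat_lit 11) (nat_lit 4) L109853 (by decide +kernel)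
theorem L109855 : W_41 (nat_lit 4) (nat_lit 0x360009000680064000000000000000000000000000) (nat_lit 0x0) (nat_lit 0x2000000014000000010001000080004000000000000000) := T_41 (nat_lit 96) (nat_lit 148) (nat_lit 7) (nat_lit 11) (nat_lit 5) L109854 (by decide +kernel)
theorem L109856 : W_41 (nat_lit 5) (nat_lit 0x160009000680064000000000000000000000000000) (nat_lit 0x0) (nat_lit 0x6000200014000000010001000080004000000000000000) := T_41 (nat_lit 165) (nat_lit 182) (nat_lit 7) (nat_lit 11) (nat_lit 6) L109855 (by decide +kernel)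
theorem L109857 : W_41 (nat_lit 6) (nat_lit 0x160009000480064000000000000000000000000000) (nat_lit 0x0) (nat_lit 0x6000200014000300010001000080004000000000000000) := T_41 (nat_lit 129) (nat_lit 128) (nat_lit 2) (nat_lit 8) (nat_lit 7) L109856 (by decide +kernel)
theorem L109858 : W_41 (nat_lit 7) (nat_lit 0x60009000480064000000000000000000000000000) (nat_lit 0x0) (nat_lit 0x6000300014000300010003000080004000000000000000) := T_41 (nat_lit 164) (nat_lit 97) (nat_lit 6) (nat_lit 11) (nat_lit 9) L109857 (by decide +kernel)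
theorem L109859 : W_41 (nat_lit 12) (nat_lit 0x60009000480024000000000000000000000000000) (nat_lit 0x0) (nat_lit 0x1c000e0007200710074000b003d000f0003c000e000300000000000) := Q_41 (nat_lit 114) (C_41 L109782 (C_41 L109789 (C_41 L109796 (C_41 L109801 (C_41 L109829 (C_41 L109845 (C_41 L109852 (C_41 L109858 N_41)))))))) (by decide +kernel)
theorem L109860 : W_41 (nat_lit 2) (nat_lit 0x370009000480024001000000000000000000000000) (nat_lit 0x0) (nat_lit 0x40002000100000000000000000000) := D_41 (nat_lit 97) (nat_lit 80) (nat_lit 114) (nat_lit 6) (nat_lit 11) (nat_lit 8) (nat_lit 6) (nat_lit 11) (nat_lit 9) (by decide +kernel)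
theorem L109861 : W_41 (nat_lit 3) (nat_lit 0x370009000480024000000000000000000000000000) (nat_lit 0x0) (nat_lit 0x10000000040003000100000000000000000000) := T_41 (nat_lit 96) (nat_lit 148) (nat_lit 7) (nat_lit 11) (nat_lit 5) L109860 (by decide +kernel)
theorem L109862 : W_41 (nat_lit 4) (nat_lit 0x170009000480024000000000000000000000000000) (nat_lit 0x0) (nat_lit 0x4000200010000000040003000100000000000000000000) := T_41 (nat_lit 165) (nat_lit 182) (nat_lit 7) (nat_lit 11) (nat_lit 6) L109861 (by decide +kernel)
theorem L109863 : W_41 (nat_lit 5) (nat_lit 0x160009000480024000000000000000000000000000) (nat_lit 0x0) (nat_lit 0x4200210010000000040003000100000000000000000000) := T_41 (nat_lit 160) (nat_lit 177) (nat_lit 5) (nat_lit 8) (nat_lit 6) L109862 (by decide +kernel)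
theorem L109864 : W_41 (nat_lit 8) (nat_lit 0x160009000480024000000000000000000000000000) (nat_lit 0x0) (nat_lit 0xc00060007000200010000b00040003000000000000000000000000) := T_41 (nat_lit 114) (nat_lit 97) (nat_lit 6) (nat_lit 11) (nat_lit 9) L109795 (by decide +kernel)
theorem L109865 : W_41 (nat_lit 6) (nat_lit 0x160009000480024000000000000000000000000000) (nat_lit 0x0) (nat_lit 0x6200210000000b00050002000000000000000000000000) := T_41 (nat_lit 114) (nat_lit 97) (nat_lit 6) (nat_lit 11) (nat_lit 9) L109800 (by decide +kernel)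
theorem L109866 : W_41 (nat_lit 2) (nat_lit 0x370009000480024001000000000000000000000000) (nat_lit 0x0) (nat_lit 0x10000800040000000000000000000) := D_41 (nat_lit 95) (nat_lit 112) (nat_lit 78) (nat_lit 4) (nat_lit 11) (nat_lit 9) (nat_lit 4) (nat_lit 11) (nat_lit 8) (by decide +kernel)
theorem L109867 : W_41 (nat_lit 3) (nat_lit 0x370009000480024000000000000000000000000000) (nat_lit 0x0) (nat_lit 0x10000000010001800040000000000000000000) := T_41 (nat_lit 96) (nat_lit 148) (nat_lit 7) (nat_lit 11) (nat_lit 5) L109866 (by decide +kernel)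
theorem L109868 : W_41 (nat_lit 4) (nat_lit 0x170009000480024000000000000000000000000000) (nat_lit 0x0) (nat_lit 0x4000200010000000010001800040000000000000000000) := T_41 (nat_lit 165) (nat_lit 182) (nat_lit 7) (nat_lit 11) (nat_lit 6) L109867 (by decide +kernel)
theorem L109869 : W_41 (nat_lit 5) (nat_lit 0x160009000480024000000000000000000000000000) (nat_lit 0x0) (nat_lit 0x4200210010000000010001800040000000000000000000) := T_41 (nat_lit 160) (nat_lit 177) (nat_lit 5) (nat_lit 8) (nat_lit 6) L109868 (by decide +kernel)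
theorem L109870 : W_41 (nat_lit 2) (nat_lit 0x2000170009000480034000000000000000000000000000) (nat_lit 0x0) (nat_lit 0x800040002000000000000000000000000) := D_41 (nat_lit 114) (nat_lit 97) (nat_lit 131) (nat_lit 6) (nat_lit 11) (nat_lit 9) (nat_lit 6) (nat_lit 11) (nat_lit 10) (by decide +kernel)
theorem L109871 : W_41 (nat_lit 3) (nat_lit 0x170009000480034000000000000000000000000000) (nat_lit 0x0) (nat_lit 0x2000000000000a00040002000000000000000000000000) := T_41 (nat_lit 181) (nat_lit 129) (nat_lit 4) (nat_lit 11) (nat_lit 10) L109870 (by decide +kernel)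
theorem L109872 : W_41 (nat_lit 4) (nat_lit 0x160009000480034000000000000000000000000000) (nat_lit 0x0) (nat_lit 0x2200010000000a00040002000000000000000000000000) := T_41 (nat_lit 160) (nat_lit 177) (nat_lit 5) (nat_lit 8) (nat_lit 6) L109871 (by decide +kernel)
theorem L109873 : W_41 (nat_lit 5) (nat_lit 0x160009000480024000000000000000000000000000) (nat_lit 0x0) (nat_lit 0x2200010000000a00050002800000000000000000000000) := T_41 (nat_lit 112) (nat_lit 95) (nat_lit 4) (nat_lit 11) (nat_lit 9) L109872 (by decide +kernel)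
theorem L109874 : W_41 (nat_lit 9) (nat_lit 0x60009000480024000000000000000000000000000) (nat_lit 0x0) (nat_lit 0xc00060007200310010000b00050003800140000000000000000000) := Q_41 (nat_lit 164) (C_41 L109863 (C_41 L109864 (C_41 L109865 (C_41 L109869 (C_41 L109873 N_41))))) (by decide +kernel)
theorem L109875 : W_41 (nat_lit 2) (nat_lit 0x37000900068003400b000000000000000000000000) (nat_lit 0x0) (nat_lit 0x4000000000000000080004000000000000000) := D_41 (nat_lit 79) (nat_lit 62) (nat_lit 146) (nat_lit 5) (nat_lit 11) (nat_lit 3) (nat_lit 5) (nat_lit 11) (nat_lit 4) (by decide +kernel)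
theorem L109876 : W_41 (nat_lit 3) (nat_lit 0x37000900048003400b000000000000000000000000) (nat_lit 0x0) (nat_lit 0x2000000004000200000000000080004000000000000000) := T_41 (nat_lit 129) (nat_lit 181) (nat_lit 4) (nat_lit 11) (nat_lit 10) L109875 (by decide +kernel)
theorem L109877 : W_41 (nat_lit 4) (nat_lit 0x370009000480034003000000000000000000000000) (nat_lit 0x0) (nat_lit 0x200000000400020000000c000080004000000000000000) := T_41 (nat_lit 99) (nat_lit 98) (nat_lit 1) (nat_lit 14) (nat_lit 5) L109876 (by decide +kernel)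
theorem L109878 : W_41 (nat_lit 5) (nat_lit 0x370009000480024003000000000000000000000000) (nat_lit 0x0) (nat_lit 0x200000000400020001000c800080004000000000000000) := T_41 (nat_lit 112) (nat_lit 95) (nat_lit 4) (nat_lit 11) (nat_lit 9) L109877 (by decide +kernel)
theorem L109879 : W_41 (nat_lit 6) (nat_lit 0x360009000480024003000000000000000000000000) (nat_lit 0x0) (nat_lit 0x220001000400020001000c800080004000000000000000) := T_41 (nat_lit 160) (nat_lit 177) (nat_lit 5) (nat_lit 8) (nat_lit 6) L109878 (by decide +kernel)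
theorem L109880 : W_41 (nat_lit 7) (nat_lit 0x360009000480024001000000000000000000000000) (nat_lit 0x0) (nat_lit 0x220001000400020001000e800180004000000000000000) := T_41 (nat_lit 97) (nat_lit 80) (nat_lit 6) (nat_lit 11) (nat_lit 8) L109879 (by decide +kernel)
theorem L109881 : W_41 (nat_lit 8) (nat_lit 0x360009000480024000000000000000000000000000) (nat_lit 0x0) (nat_lit 0x220001001400020001000f800180004000000000000000) := T_41 (nat_lit 96) (nat_lit 148) (nat_lit 7) (nat_lit 11) (nat_lit 5) L109880 (by decide +kernel)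
theorem L109882 : W_41 (nat_lit 9) (nat_lit 0x160009000480024000000000000000000000000000) (nat_lit 0x0) (nat_lit 0x620021001400020001000f800180004000000000000000) := T_41 (nat_lit 165) (nat_lit 182) (nat_lit 7) (nat_lit 11) (nat_lit 6) L109881 (by decide +kernel)
theorem L109883 : W_41 (nat_lit 2) (nat_lit 0x360009000680034001000000000000000000000000) (nat_lit 0x0) (nat_lit 0x140040000000000000000000000000000) := D_41 (nat_lit 128) (nat_lit 114) (nat_lit 126) (nat_lit 2) (nat_lit 8) (nat_lit 7) (nat_lit 2) (nat_lit 7) (nat_lit 7) (by decide +kernel)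
theorem L109884 : W_41 (nat_lit 3) (nat_lit 0x360009000480034001000000000000000000000000) (nat_lit 0x0) (nat_lit 0x2000000000000340040000000000000000000000000000) := T_41 (nat_lit 129) (nat_lit 181) (nat_lit 4) (nat_lit 11) (nat_lit 10) L109883 (by decide +kernel)
theorem L109885 : W_41 (nat_lit 4) (nat_lit 0x360009000480034000000000000000000000000000) (nat_lit 0x0) (nat_lit 0x2000000010000340040001000000000000000000000000) := T_41 (nat_lit 96) (nat_lit 148) (nat_lit 7) (nat_lit 11) (nat_lit 5) L109884 (by decide +kernel)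
theorem L109886 : W_41 (nat_lit 5) (nat_lit 0x160009000480034000000000000000000000000000) (nat_lit 0x0) (nat_lit 0x6000200010000340040001000000000000000000000000) := T_41 (nat_lit 165) (nat_lit 182) (nat_lit 7) (nat_lit 11) (nat_lit 6) L109885 (by decide +kernel)
theorem L109887 : W_41 (nat_lit 6) (nat_lit 0x160009000480024000000000000000000000000000) (nat_lit 0x0) (nat_lit 0x6000200010000340050001800000000000000000000000) := T_41 (nat_lit 112) (nat_lit 95) (nat_lit 4) (nat_lit 11) (nat_lit 9) L109886 (by decide +kernel)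
theorem L109888 : W_41 (nat_lit 10) (nat_lit 0x60009000480024000000000000000000000000000) (nat_lit 0x0) (nat_lit 0xc00060007200310014000b4005000f800180004000000000000000) := Q_41 (nat_lit 164) (C_41 L109873 (C_41 L109863 (C_41 L109864 (C_41 L109882 (C_41 L109887 N_41))))) (by decide +kernel)
theorem L109889 : W_41 (nat_lit 2) (nat_lit 0x800060002000370009000480074000000000000000000000000000) (nat_lit 0x0) (nat_lit 0x20001000080000000000000000000000000000000000000000000000000) := D_41 (nat_lit 216) (nat_lit 199) (nat_lit 233) (nat_lit 7) (nat_lit 11) (nat_lit 8) (nat_lit 7) (nat_lit 11) (nat_lit 9) (by decide +kernel)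
theorem L109890 : W_41 (nat_lit 3) (nat_lit 0x60002000370009000480074000000000000000000000000000) (nat_lit 0x0) (nat_lit 0x20001800080000000000010000000000000000000000000000000000000) := T_41 (nat_lit 215) (nat_lit 148) (nat_lit 6) (nat_lit 11) (nat_lit 12) L109889 (by decide +kernel)
theorem L109891 : W_41 (nat_lit 4) (nat_lit 0x20002000370009000480074000000000000000000000000000) (nat_lit 0x0) (nat_lit 0x20001c000c0000000000010000000000000000000000000000000000000) := T_41 (nat_lit 198) (nat_lit 214) (nat_lit 5) (nat_lit 11) (nat_lit 8) L109890 (by decide +kernel)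
theorem L109892 : W_41 (nat_lit 5) (nat_lit 0x2000370009000480074000000000000000000000000000) (nat_lit 0x0) (nat_lit 0x20001c000e0001000000010000000000000000000000000000000000000) := T_41 (nat_lit 197) (nat_lit 180) (nat_lit 5) (nat_lit 11) (nat_lit 7) L109891 (by decide +kernel)
theorem L109893 : W_41 (nat_lit 6) (nat_lit 0x370009000480074000000000000000000000000000) (nat_lit 0x0) (nat_lit 0x20001c000e0003000000010000800000000000000000000000000000000) := T_41 (nat_lit 181) (nat_lit 131) (nat_lit 6) (nat_lit 11) (nat_lit 10) L109892 (by decide +kernel)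
theorem L109894 : W_41 (nat_lit 7) (nat_lit 0x370009000480064000000000000000000000000000) (nat_lit 0x0) (nat_lit 0x20001c000e0003000000010000800010000800000000000000000000000) := T_41 (nat_lit 112) (nat_lit 95) (nat_lit 4) (nat_lit 11) (nat_lit 9) L109893 (by decide +kernel)
theorem L109895 : W_41 (nat_lit 8) (nat_lit 0x370009000480024000000000000000000000000000) (nat_lit 0x0) (nat_lit 0x20001c000e0003000000010000800050002800000000000000000000000) := T_41 (nat_lit 114) (nat_lit 97) (nat_lit 6) (nat_lit 11) (nat_lit 9) L109894 (by decide +kernel)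
theorem L109896 : W_41 (nat_lit 9) (nat_lit 0x170009000480024000000000000000000000000000) (nat_lit 0x0) (nat_lit 0x20001c000e0007000200010000800050002800000000000000000000000) := T_41 (nat_lit 165) (nat_lit 182) (nat_lit 7) (nat_lit 11) (nat_lit 6) L109895 (by decide +kernel)
theorem L109897 : W_41 (nat_lit 10) (nat_lit 0x160009000480024000000000000000000000000000) (nat_lit 0x0) (nat_lit 0x20001c000e0007200210010000800050002800000000000000000000000) := T_41 (nat_lit 160) (nat_lit 177) (nat_lit 5) (nat_lit 8) (nat_lit 6) L109896 (by decide +kernel)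
theorem L109898 : W_41 (nat_lit 2) (nat_lit 0x2000160009000580064000000000000000000000000000) (nat_lit 0x0) (nat_lit 0x80004000200000000000000000000000000000000000000000) := D_41 (nat_lit 182) (nat_lit 165) (nat_lit 199) (nat_lit 7) (nat_lit 11) (nat_lit 6) (nat_lit 7) (nat_lit 11) (nat_lit 7) (by decide +kernel)
theorem L109899 : W_41 (nat_lit 3) (nat_lit 0x160009000580064000000000000000000000000000) (nat_lit 0x0) (nat_lit 0x80006000200000000800000000000000000000000000000000) := T_41 (nat_lit 181) (nat_lit 131) (nat_lit 6) (nat_lit 11) (nat_lit 10) L109898 (by decide +kernel)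
theorem L109900 : W_41 (nat_lit 4) (nat_lit 0x160009000480064000000000000000000000000000) (nat_lit 0x0) (nat_lit 0x80006000200000000b00000000000000000000000000000000) := T_41 (nat_lit 128) (nat_lit 129) (nat_lit 2) (nat_lit 8) (nat_lit 7) L109899 (by decide +kernel)
theorem L109901 : W_41 (nat_lit 5) (nat_lit 0x160009000480024000000000000000000000000000) (nat_lit 0x0) (nat_lit 0x80006000200000000b00040002000000000000000000000000) := T_41 (nat_lit 114) (nat_lit 97) (nat_lit 6) (nat_lit 11) (nat_lit 9) L109900 (by decide +kernel)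
theorem L109902 : W_41 (nat_lit 2) (nat_lit 0x60002000370009000480034000000000000000000000000000) (nat_lit 0x0) (nat_lit 0x800000000000000010000800000000000000000000000000000000) := D_41 (nat_lit 148) (nat_lit 131) (nat_lit 215) (nat_lit 6) (nat_lit 11) (nat_lit 11) (nat_lit 6) (nat_lit 11) (nat_lit 12) (by decide +kernel)
theorem L109903 : W_41 (nat_lit 3) (nat_lit 0x20002000370009000480034000000000000000000000000000) (nat_lit 0x0) (nat_lit 0xc00040000000000010000800000000000000000000000000000000) := T_41 (nat_lit 198) (nat_lit 214) (nat_lit 5) (nat_lit 11) (nat_lit 8) L109902 (by decide +kernel)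
theorem L109904 : W_41 (nat_lit 4) (nat_lit 0x2000370009000480034000000000000000000000000000) (nat_lit 0x0) (nat_lit 0xc00060001000000010000800000000000000000000000000000000) := T_41 (nat_lit 197) (nat_lit 180) (nat_lit 5) (nat_lit 11) (nat_lit 7) L109903 (by decide +kernel)
theorem L109905 : W_41 (nat_lit 5) (nat_lit 0x370009000480034000000000000000000000000000) (nat_lit 0x0) (nat_lit 0xc00060003000000010000a00000000000000000000000000000000) := T_41 (nat_lit 181) (nat_lit 129) (nat_lit 4) (nat_lit 11) (nat_lit 10) L109904 (by decide +kernel)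
theorem L109906 : W_41 (nat_lit 6) (nat_lit 0x370009000480024000000000000000000000000000) (nat_lit 0x0) (nat_lit 0xc00060003000000010000a00010000800000000000000000000000) := T_41 (nat_lit 112) (nat_lit 95) (nat_lit 4) (nat_lit 11) (nat_lit 9) L109905 (by decide +kernel)
theorem L109907 : W_41 (nat_lit 7) (nat_lit 0x170009000480024000000000000000000000000000) (nat_lit 0x0) (nat_lit 0xc00060007000200010000a00010000800000000000000000000000) := T_41 (nat_lit 165) (nat_lit 182) (nat_lit 7) (nat_lit 11) (nat_lit 6) L109906 (by decide +kernel)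
theorem L109908 : W_41 (nat_lit 8) (nat_lit 0x160009000480024000000000000000000000000000) (nat_lit 0x0) (nat_lit 0xc00060007200210010000a00010000800000000000000000000000) := T_41 (nat_lit 160) (nat_lit 177) (nat_lit 5) (nat_lit 8) (nat_lit 6) L109907 (by decide +kernel)
theorem L109909 : W_41 (nat_lit 2) (nat_lit 0x3700090016800f4004000000000000000000000000) (nat_lit 0x0) (nat_lit 0x30000800000000000000000000000000000000) := D_41 (nat_lit 148) (nat_lit 149) (nat_lit 131) (nat_lit 5) (nat_lit 13) (nat_lit 5) (nat_lit 6) (nat_lit 12) (nat_lit 9) (by decide +kernel)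
theorem L109910 : W_41 (nat_lit 3) (nat_lit 0x3700090016800f4000000000000000000000000000) (nat_lit 0x0) (nat_lit 0x3000080000000c000000000000000000000000) := T_41 (nat_lit 98) (nat_lit 99) (nat_lit 2) (nat_lit 10) (nat_lit 6) L109909 (by decide +kernel)
theorem L109911 : W_41 (nat_lit 4) (nat_lit 0x3700090006800f4000000000000000000000000000) (nat_lit 0x0) (nat_lit 0x3000380000000c000000000000000000000000) := T_41 (nat_lit 132) (nat_lit 133) (nat_lit 3) (nat_lit 10) (nat_lit 6) L109910 (by decide +kernel)
theorem L109912 : W_41 (nat_lit 5) (nat_lit 0x1700090006800f4000000000000000000000000000) (nat_lit 0x0) (nat_lit 0x400020003000380000000c000000000000000000000000) := T_41 (nat_lit 165) (nat_lit 182) (nat_lit 7) (nat_lit 11) (nat_lit 6) L109911 (by decide +kernel)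
theorem L109913 : W_41 (nat_lit 6) (nat_lit 0x170009000680074000000000000000000000000000) (nat_lit 0x0) (nat_lit 0x400020003000380018000c000000000000000000000000) := T_41 (nat_lit 115) (nat_lit 116) (nat_lit 1) (nat_lit 14) (nat_lit 6) L109912 (by decide +kernel)
theorem L109914 : W_41 (nat_lit 7) (nat_lit 0x160009000680074000000000000000000000000000) (nat_lit 0x0) (nat_lit 0x420021003000380018000c000000000000000000000000) := T_41 (nat_lit 160) (nat_lit 177) (nat_lit 5) (nat_lit 8) (nat_lit 6) L109913 (by decide +kernel)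
theorem L109915 : W_41 (nat_lit 8) (nat_lit 0x160009000480074000000000000000000000000000) (nat_lit 0x0) (nat_lit 0x4200210030003b0018000c000000000000000000000000) := T_41 (nat_lit 129) (nat_lit 128) (nat_lit 2) (nat_lit 8) (nat_lit 7) L109914 (by decide +kernel)
theorem L109916 : W_41 (nat_lit 9) (nat_lit 0x160009000480034000000000000000000000000000) (nat_lit 0x0) (nat_lit 0x4200210030003b001c000e000000000000000000000000) := T_41 (nat_lit 114) (nat_lit 97) (nat_lit 6) (nat_lit 11) (nat_lit 9) L109915 (by decide +kernel)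
theorem L109917 : W_41 (nat_lit 10) (nat_lit 0x160009000480024000000000000000000000000000) (nat_lit 0x0) (nat_lit 0x4200210030003b001d000e800000000000000000000000) := T_41 (nat_lit 112) (nat_lit 95) (nat_lit 4) (nat_lit 11) (nat_lit 9) L109916 (by decide +kernel)
theorem L109918 : W_41 (nat_lit 2) (nat_lit 0x170009000480074000000000000000000000000000) (nat_lit 0x0) (nat_lit 0x2000000000000300000000000000000000000000000000) := D_41 (nat_lit 129) (nat_lit 128) (nat_lit 181) (nat_lit 2) (nat_lit 8) (nat_lit 7) (nat_lit 4) (nat_lit 11) (nat_lit 10) (by decide +kernel)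
theorem L109919 : W_41 (nat_lit 3) (nat_lit 0x170009000480034000000000000000000000000000) (nat_lit 0x0) (nat_lit 0x2000000000000300040002000000000000000000000000) := T_41 (nat_lit 114) (nat_lit 97) (nat_lit 6) (nat_lit 11) (nat_lit 9) L109918 (by decide +kernel)
theorem L109920 : W_41 (nat_lit 4) (nat_lit 0x170009000480024000000000000000000000000000) (nat_lit 0x0) (nat_lit 0x2000000000000300050002800000000000000000000000) := T_41 (nat_lit 112) (nat_lit 95) (nat_lit 4) (nat_lit 11) (nat_lit 9) L109919 (by decide +kernel)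
theorem L109921 : W_41 (nat_lit 5) (nat_lit 0x160009000480024000000000000000000000000000) (nat_lit 0x0) (nat_lit 0x2200010000000300050002800000000000000000000000) := T_41 (nat_lit 160) (nat_lit 177) (nat_lit 5) (nat_lit 8) (nat_lit 6) L109920 (by decide +kernel)
theorem L109922 : W_41 (nat_lit 11) (nat_lit 0x60009000480024000000000000000000000000000) (nat_lit 0x0) (nat_lit 0x20001c000e0007200310030003b001d000e800000000000000000000000) := Q_41 (nat_lit 164) (C_41 L109873 (C_41 L109897 (C_41 L109901 (C_41 L109908 (C_41 L109917 (C_41 L109921 N_41)))))) (by decide +kernel)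
theorem L109923 : W_41 (nat_lit 2) (nat_lit 0x60019000580064003800000000000000000000000) (nat_lit 0x0) (nat_lit 0x80000600000000000000000000000) := D_41 (nat_lit 94) (nat_lit 115) (nat_lit 93) (nat_lit 3) (nat_lit 9) (nat_lit 5) (nat_lit 3) (nat_lit 8) (nat_lit 5) (by decide +kernel)
theorem L109924 : W_41 (nat_lit 3) (nat_lit 0x60019000580064003000000000000000000000000) (nat_lit 0x0) (nat_lit 0x80000e00040000000000000000000) := T_41 (nat_lit 95) (nat_lit 78) (nat_lit 4) (nat_lit 11) (nat_lit 8) L109923 (by decide +kernel)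
theorem L109925 : W_41 (nat_lit 4) (nat_lit 0x60019000480064003000000000000000000000000) (nat_lit 0x0) (nat_lit 0x300080000e00040000000000000000000) := T_41 (nat_lit 128) (nat_lit 129) (nat_lit 3) (nat_lit 8) (nat_lit 7) L109924 (by decide +kernel)
theorem L109926 : W_41 (nat_lit 5) (nat_lit 0x60009000480064003000000000000000000000000) (nat_lit 0x0) (nat_lit 0x200010000300080000e00040000000000000000000) := T_41 (nat_lit 148) (nat_lit 165) (nat_lit 7) (nat_lit 11) (nat_lit 5) L109925 (by decide +kernel)
theorem L109927 : W_41 (nat_lit 6) (nat_lit 0x60009000480064001000000000000000000000000) (nat_lit 0x0) (nat_lit 0x200010000300080002e00140000000000000000000) := T_41 (nat_lit 97) (nat_lit 80) (nat_lit 6) (nat_lit 11) (nat_lit 8) L109926 (by decide +kernel)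
theorem L109928 : W_41 (nat_lit 2) (nat_lit 0x60009000480064001c00000000000000000000000) (nat_lit 0x0) (nat_lit 0x190000000000000000000000000000) := D_41 (nat_lit 115) (nat_lit 116) (nat_lit 112) (nat_lit 0) (nat_lit 14) (nat_lit 6) (nat_lit 0) (nat_lit 13) (nat_lit 6) (by decide +kernel)
theorem L109929 : W_41 (nat_lit 3) (nat_lit 0x60009000480064001800000000000000000000000) (nat_lit 0x0) (nat_lit 0x190000600000000000000000000000) := T_41 (nat_lit 94) (nat_lit 93) (nat_lit 3) (nat_lit 8) (nat_lit 5) L109928 (by decide +kernel)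
theorem L109930 : W_41 (nat_lit 4) (nat_lit 0x60009000480064001000000000000000000000000) (nat_lit 0x0) (nat_lit 0x190000e00040000000000000000000) := T_41 (nat_lit 95) (nat_lit 78) (nat_lit 4) (nat_lit 11) (nat_lit 8) L109929 (by decide +kernel)
theorem L109931 : W_41 (nat_lit 2) (nat_lit 0x60039000e80064007b00000000000000000000000) (nat_lit 0x0) (nat_lit 0x10018000000000000000000000000) := D_41 (nat_lit 99) (nat_lit 100) (nat_lit 112) (nat_lit 1) (nat_lit 15) (nat_lit 5) (nat_lit 1) (nat_lit 14) (nat_lit 5) (by decide +kernel)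
theorem L109932 : W_41 (nat_lit 3) (nat_lit 0x60039000e80064003b00000000000000000000000) (nat_lit 0x0) (nat_lit 0x1001c000200000000000000000000) := T_41 (nat_lit 98) (nat_lit 81) (nat_lit 6) (nat_lit 12) (nat_lit 8) L109931 (by decide +kernel)
theorem L109933 : W_41 (nat_lit 4) (nat_lit 0x60039000680064003b00000000000000000000000) (nat_lit 0x0) (nat_lit 0x40000000080001001c000200000000000000000000) := T_41 (nat_lit 131) (nat_lit 166) (nat_lit 7) (nat_lit 12) (nat_lit 5) L109932 (by decide +kernel)
theorem L109934 : W_41 (nat_lit 5) (nat_lit 0x60039000680064001b00000000000000000000000) (nat_lit 0x0) (nat_lit 0x40000000080001001e000300000000000000000000) := T_41 (nat_lit 97) (nat_lit 80) (nat_lit 6) (nat_lit 11) (nat_lit 8) L109933 (by decide +kernel)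
theorem L109935 : W_41 (nat_lit 6) (nat_lit 0x60039000680064001a00000000000000000000000) (nat_lit 0x0) (nat_lit 0x40000000080001001e100308000000000000000000) := T_41 (nat_lit 92) (nat_lit 75) (nat_lit 4) (nat_lit 8) (nat_lit 8) L109934 (by decide +kernel)
theorem L109936 : W_41 (nat_lit 7) (nat_lit 0x60019000680064001a00000000000000000000000) (nat_lit 0x0) (nat_lit 0x40006000080001001e100308000000000000000000) := T_41 (nat_lit 149) (nat_lit 150) (nat_lit 0) (nat_lit 14) (nat_lit 8) L109935 (by decide +kernel)
theorem L109937 : W_41 (nat_lit 8) (nat_lit 0x60019000680064001800000000000000000000000) (nat_lit 0x0) (nat_lit 0x40006000080001001e700308000000000000000000) := T_41 (nat_lit 93) (nat_lit 94) (nat_lit 3) (nat_lit 8) (nat_lit 5) L109936 (by decide +kernel)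
theorem L109938 : W_41 (nat_lit 9) (nat_lit 0x60019000680064001000000000000000000000000) (nat_lit 0x0) (nat_lit 0x40006000080001001ef00348000000000000000000) := T_41 (nat_lit 95) (nat_lit 78) (nat_lit 4) (nat_lit 11) (nat_lit 8) L109937 (by decide +kernel)
theorem L109939 : W_41 (nat_lit 10) (nat_lit 0x60019000480064001000000000000000000000000) (nat_lit 0x0) (nat_lit 0x400060000b0001001ef00348000000000000000000) := T_41 (nat_lit 129) (nat_lit 128) (nat_lit 3) (nat_lit 8) (nat_lit 7) L109938 (by decide +kernel)
theorem L109940 : W_41 (nat_lit 11) (nat_lit 0x60009000480064001000000000000000000000000) (nat_lit 0x0) (nat_lit 0x600070000b0001001ef00348000000000000000000) := T_41 (nat_lit 148) (nat_lit 165) (nat_lit 7) (nat_lit 11) (nat_lit 5) L109939 (by decide +kernel)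
theorem L109941 : W_41 (nat_lit 12) (nat_lit 0x60009000480024001000000000000000000000000) (nat_lit 0x0) (nat_lit 0x200610070000b003d001ef00348000000000000000000) := Q_41 (nat_lit 114) (C_41 L109819 (C_41 L109927 (C_41 L109930 (C_41 L109940 N_41)))) (by decide +kernel)
theorem L109942 : W_41 (nat_lit 2) (nat_lit 0x70009000680024001800180004000000000000000) (nat_lit 0x0) (nat_lit 0x900040000000000000000000000000000) := D_41 (nat_lit 114) (nat_lit 131) (nat_lit 128) (nat_lit 7) (nat_lit 11) (nat_lit 3) (nat_lit 2) (nat_lit 8) (nat_lit 7) (by decide +kernel)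
theorem L109943 : W_41 (nat_lit 3) (nat_lit 0x70009000680024001800180000000000000000000) (nat_lit 0x0) (nat_lit 0x900050000000000004000000000000000) := T_41 (nat_lit 62) (nat_lit 112) (nat_lit 5) (nat_lit 11) (nat_lit 3) L109942 (by decide +kernel)
theorem L109944 : W_41 (nat_lit 4) (nat_lit 0x70009000480024001800180000000000000000000) (nat_lit 0x0) (nat_lit 0x4000b00050000000000004000000000000000) := T_41 (nat_lit 129) (nat_lit 146) (nat_lit 5) (nat_lit 11) (nat_lit 4) L109943 (by decide +kernel)
theorem L109945 : W_41 (nat_lit 5) (nat_lit 0x70009000480024001800100000000000000000000) (nat_lit 0x0) (nat_lit 0x4000b0005000000008000c000000000000000) := T_41 (nat_lit 79) (nat_lit 63) (nat_lit 6) (nat_lit 11) (nat_lit 7) L109944 (by decide +kernel)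
theorem L109946 : W_41 (nat_lit 6) (nat_lit 0x70009000480024001800000000000000000000000) (nat_lit 0x0) (nat_lit 0x4000b0005000200018000c000000000000000) := T_41 (nat_lit 80) (nat_lit 97) (nat_lit 6) (nat_lit 11) (nat_lit 8) L109945 (by decide +kernel)
theorem L109947 : W_41 (nat_lit 7) (nat_lit 0x70009000480024001000000000000000000000000) (nat_lit 0x0) (nat_lit 0x4000b000500028001c000c000000000000000) := T_41 (nat_lit 95) (nat_lit 78) (nat_lit 4) (nat_lit 11) (nat_lit 8) L109946 (by decide +kernel)
theorem L109948 : W_41 (nat_lit 8) (nat_lit 0x60009000480024001000000000000000000000000) (nat_lit 0x0) (nat_lit 0x200010004000b000500028001c000c000000000000000) := T_41 (nat_lit 160) (nat_lit 177) (nat_lit 5) (nat_lit 8) (nat_lit 6) L109947 (by decide +kernel)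
theorem L109949 : W_41 (nat_lit 2) (nat_lit 0x70059000680024003000080000000000000000000) (nat_lit 0x0) (nat_lit 0x800040002000000000000000) := D_41 (nat_lit 78) (nat_lit 95) (nat_lit 61) (nat_lit 4) (nat_lit 11) (nat_lit 8) (nat_lit 4) (nat_lit 11) (nat_lit 7) (by decide +kernel)
theorem L109950 : W_41 (nat_lit 3) (nat_lit 0x70059000680024003000000000000000000000000) (nat_lit 0x0) (nat_lit 0x40000000000008000c0002000000000000000) := T_41 (nat_lit 79) (nat_lit 146) (nat_lit 5) (nat_lit 11) (nat_lit 4) L109949 (by decide +kernel)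
theorem L109951 : W_41 (nat_lit 4) (nat_lit 0x70019000680024003000000000000000000000000) (nat_lit 0x0) (nat_lit 0x640000000000008000c0002000000000000000) := T_41 (nat_lit 150) (nat_lit 149) (nat_lit 0) (nat_lit 14) (nat_lit 8) L109950 (by decide +kernel)
theorem L109952 : W_41 (nat_lit 5) (nat_lit 0x60019000680024003000000000000000000000000) (nat_lit 0x0) (nat_lit 0x2000100640000000000008000c0002000000000000000) := T_41 (nat_lit 160) (nat_lit 177) (nat_lit 5) (nat_lit 8) (nat_lit 6) L109951 (by decide +kernel)
theorem L109953 : W_41 (nat_lit 6) (nat_lit 0x60019000480024003000000000000000000000000) (nat_lit 0x0) (nat_lit 0x2000100640003000000008000c0002000000000000000) := T_41 (nat_lit 129) (nat_lit 128) (nat_lit 3) (nat_lit 8) (nat_lit 7) L109952 (by decide +kernel)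
theorem L109954 : W_41 (nat_lit 7) (nat_lit 0x60009000480024003000000000000000000000000) (nat_lit 0x0) (nat_lit 0x2002100740003000000008000c0002000000000000000) := T_41 (nat_lit 148) (nat_lit 165) (nat_lit 7) (nat_lit 11) (nat_lit 5) L109953 (by decide +kernel)
theorem L109955 : W_41 (nat_lit 8) (nat_lit 0x60009000480024001000000000000000000000000) (nat_lit 0x0) (nat_lit 0x2002100740003000000028001c0002000000000000000) := T_41 (nat_lit 97) (nat_lit 80) (nat_lit 6) (nat_lit 11) (nat_lit 8) L109954 (by decide +kernel)
theorem L109956 : W_41 (nat_lit 13) (nat_lit 0x60009000480024000000000000000000000000000) (nat_lit 0x0) (nat_lit 0x200610074000b003d001ff003c800e000000000000000) := Q_41 (nat_lit 96) (C_41 L109757 (C_41 L109748 (C_41 L109941 (C_41 L109948 (C_41 L109955 N_41))))) (by decide +kernel)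
theorem L109957 : W_41 (nat_lit 2) (nat_lit 0x700590006800b4007800200000000000000000000) (nat_lit 0x0) (nat_lit 0x3800000000000000000000000000000000) := D_41 (nat_lit 132) (nat_lit 131) (nat_lit 133) (nat_lit 5) (nat_lit 13) (nat_lit 4) (nat_lit 7) (nat_lit 13) (nat_lit 4) (by decide +kernel)
theorem L109958 : W_41 (nat_lit 3) (nat_lit 0x70059000680034007800200000000000000000000) (nat_lit 0x0) (nat_lit 0x3800180000000000000000000000000000) := T_41 (nat_lit 115) (nat_lit 116) (nat_lit 3) (nat_lit 10) (nat_lit 5) L109957 (by decide +kernel)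
theorem L109959 : W_41 (nat_lit 4) (nat_lit 0x70059000680034007800000000000000000000000) (nat_lit 0x0) (nat_lit 0x3800180000000600000000000000000000) := T_41 (nat_lit 81) (nat_lit 82) (nat_lit 2) (nat_lit 10) (nat_lit 5) L109958 (by decide +kernel)
theorem L109960 : W_41 (nat_lit 5) (nat_lit 0x70059000680034003800000000000000000000000) (nat_lit 0x0) (nat_lit 0x380018000c000600000000000000000000) := T_41 (nat_lit 98) (nat_lit 99) (nat_lit 1) (nat_lit 14) (nat_lit 5) L109959 (by decide +kernel)
theorem L109961 : W_41 (nat_lit 6) (nat_lit 0x70059000680024003800000000000000000000000) (nat_lit 0x0) (nat_lit 0x10000000380019000c000600000000000000000000) := T_41 (nat_lit 112) (nat_lit 164) (nat_lit 4) (nat_lit 11) (nat_lit 9) L109960 (by decide +kernel)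
theorem L109962 : W_41 (nat_lit 7) (nat_lit 0x70059000680024003000000000000000000000000) (nat_lit 0x0) (nat_lit 0x10000000380019000c800640000000000000000000) := T_41 (nat_lit 95) (nat_lit 78) (nat_lit 4) (nat_lit 11) (nat_lit 8) L109961 (by decide +kernel)
theorem L109963 : W_41 (nat_lit 8) (nat_lit 0x70059000680024001000000000000000000000000) (nat_lit 0x0) (nat_lit 0x10000000380019000e800740000000000000000000) := T_41 (nat_lit 97) (nat_lit 80) (nat_lit 6) (nat_lit 11) (nat_lit 8) L109962 (by decide +kernel)
theorem L109964 : W_41 (nat_lit 9) (nat_lit 0x70019000680024001000000000000000000000000) (nat_lit 0x0) (nat_lit 0x10006000380019000e800740000000000000000000) := T_41 (nat_lit 150) (nat_lit 149) (nat_lit 0) (nat_lit 14) (nat_lit 8) L109963 (by decide +kernel)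
theorem L109965 : W_41 (nat_lit 10) (nat_lit 0x60019000680024001000000000000000000000000) (nat_lit 0x0) (nat_lit 0x20011006000380019000e800740000000000000000000) := T_41 (nat_lit 160) (nat_lit 177) (nat_lit 5) (nat_lit 8) (nat_lit 6) L109964 (by decide +kernel)
theorem L109966 : W_41 (nat_lit 11) (nat_lit 0x60019000480024001000000000000000000000000) (nat_lit 0x0) (nat_lit 0x200110060003b0019000e800740000000000000000000) := T_41 (nat_lit 129) (nat_lit 128) (nat_lit 3) (nat_lit 8) (nat_lit 7) L109965 (by decide +kernel)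
theorem L109967 : W_41 (nat_lit 12) (nat_lit 0x60009000480024001000000000000000000000000) (nat_lit 0x0) (nat_lit 0x200310070003b0019000e800740000000000000000000) := T_41 (nat_lit 148) (nat_lit 165) (nat_lit 7) (nat_lit 11) (nat_lit 5) L109966 (by decide +kernel)
theorem L109968 : W_41 (nat_lit 2) (nat_lit 0x70009000480034001800180000000000000000000) (nat_lit 0x0) (nat_lit 0x4000200000000000000004000000000000000) := D_41 (nat_lit 129) (nat_lit 146) (nat_lit 62) (nat_lit 6) (nat_lit 10) (nat_lit 8) (nat_lit 5) (nat_lit 11) (nat_lit 3) (by decide +kernel)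
theorem L109969 : W_41 (nat_lit 3) (nat_lit 0x70009000480034001800100000000000000000000) (nat_lit 0x0) (nat_lit 0x400020000000000008000c000000000000000) := T_41 (nat_lit 79) (nat_lit 63) (nat_lit 6) (nat_lit 11) (nat_lit 7) L109968 (by decide +kernel)
theorem L109970 : W_41 (nat_lit 4) (nat_lit 0x70009000480034001800000000000000000000000) (nat_lit 0x0) (nat_lit 0x400020000000200018000c000000000000000) := T_41 (nat_lit 80) (nat_lit 97) (nat_lit 6) (nat_lit 11) (nat_lit 8) L109969 (by decide +kernel)
theorem L109971 : W_41 (nat_lit 5) (nat_lit 0x70009000480024001800000000000000000000000) (nat_lit 0x0) (nat_lit 0x10000400020001000200018000c000000000000000) := T_41 (nat_lit 112) (nat_lit 164) (nat_lit 4) (nat_lit 11) (nat_lit 9) L109970 (by decide +kernel)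
theorem L109972 : W_41 (nat_lit 6) (nat_lit 0x60009000480024001800000000000000000000000) (nat_lit 0x0) (nat_lit 0x20011000400020001000200018000c000000000000000) := T_41 (nat_lit 160) (nat_lit 177) (nat_lit 5) (nat_lit 8) (nat_lit 6) L109971 (by decide +kernel)
theorem L109973 : W_41 (nat_lit 7) (nat_lit 0x60009000480024001000000000000000000000000) (nat_lit 0x0) (nat_lit 0x2001100040002000100028001c000c000000000000000) := T_41 (nat_lit 95) (nat_lit 78) (nat_lit 4) (nat_lit 11) (nat_lit 8) L109972 (by decide +kernel)
theorem L109974 : W_41 (nat_lit 13) (nat_lit 0x60009000480024000000000000000000000000000) (nat_lit 0x0) (nat_lit 0x200310074003b0019000f8007c000e000000000000000) := Q_41 (nat_lit 96) (C_41 L109955 (C_41 L109748 (C_41 L109757 (C_41 L109967 (C_41 L109973 N_41))))) (by decide +kernel)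
theorem L109975 : W_41 (nat_lit 2) (nat_lit 0x370009000480024002800000000000000000000000) (nat_lit 0x0) (nat_lit 0x1000140000000000000000000) := D_41 (nat_lit 96) (nat_lit 80) (nat_lit 78) (nat_lit 6) (nat_lit 11) (nat_lit 8) (nat_lit 4) (nat_lit 11) (nat_lit 8) (by decide +kernel)
theorem L109976 : W_41 (nat_lit 3) (nat_lit 0x370009000480024002000000000000000000000000) (nat_lit 0x0) (nat_lit 0x10001800140000000000000000000) := T_41 (nat_lit 95) (nat_lit 112) (nat_lit 4) (nat_lit 11) (nat_lit 9) L109975 (by decide +kernel)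
theorem L109977 : W_41 (nat_lit 4) (nat_lit 0x370009000480024000000000000000000000000000) (nat_lit 0x0) (nat_lit 0x50003800140000000000000000000) := T_41 (nat_lit 97) (nat_lit 114) (nat_lit 6) (nat_lit 11) (nat_lit 9) L109976 (by decide +kernel)
theorem L109978 : W_41 (nat_lit 5) (nat_lit 0x170009000480024000000000000000000000000000) (nat_lit 0x0) (nat_lit 0x4000200000000000050003800140000000000000000000) := T_41 (nat_lit 165) (nat_lit 182) (nat_lit 7) (nat_lit 11) (nat_lit 6) L109977 (by decide +kernel)
theorem L109979 : W_41 (nat_lit 6) (nat_lit 0x160009000480024000000000000000000000000000) (nat_lit 0x0) (nat_lit 0x4200210000000000050003800140000000000000000000) := T_41 (nat_lit 160) (nat_lit 177) (nat_lit 5) (nat_lit 8) (nat_lit 6) L109978 (by decide +kernel)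
theorem L109980 : W_41 (nat_lit 2) (nat_lit 0x4000160009000480034000000000000000000000000000) (nat_lit 0x0) (nat_lit 0x80002000000000000200000000000000000000000000000000) := D_41 (nat_lit 181) (nat_lit 129) (nat_lit 199) (nat_lit 4) (nat_lit 11) (nat_lit 10) (nat_lit 7) (nat_lit 11) (nat_lit 7) (by decide +kernel)
theorem L109981 : W_41 (nat_lit 3) (nat_lit 0x160009000480034000000000000000000000000000) (nat_lit 0x0) (nat_lit 0x80006000200000000200000000000000000000000000000000) := T_41 (nat_lit 182) (nat_lit 165) (nat_lit 7) (nat_lit 11) (nat_lit 6) L109980 (by decide +kernel)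
theorem L109982 : W_41 (nat_lit 4) (nat_lit 0x160009000480024000000000000000000000000000) (nat_lit 0x0) (nat_lit 0x80006000200000000200010000800000000000000000000000) := T_41 (nat_lit 112) (nat_lit 95) (nat_lit 4) (nat_lit 11) (nat_lit 9) L109981 (by decide +kernel)
theorem L109983 : W_41 (nat_lit 7) (nat_lit 0x60009000480024000000000000000000000000000) (nat_lit 0x0) (nat_lit 0x80006200310000000b00050003800140000000000000000000) := Q_41 (nat_lit 164) (C_41 L109921 (C_41 L109979 (C_41 L109901 (C_41 L109982 N_41)))) (by decide +kernel)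
theorem L109984 : W_41 (nat_lit 2) (nat_lit 0x60009000680024000000000000000000000000000) (nat_lit 0x0) (nat_lit 0x10000100040000000000000000000000000000) := D_41 (nat_lit 128) (nat_lit 114) (nat_lit 148) (nat_lit 2) (nat_lit 8) (nat_lit 7) (nat_lit 3) (nat_lit 8) (nat_lit 7) (by decide +kernel)
theorem L109985 : W_41 (nat_lit 2) (nat_lit 0x160009000680024000000000000000000000000000) (nat_lit 0x0) (nat_lit 0x2000000000000000010000800000000000000000000000) := D_41 (nat_lit 112) (nat_lit 95) (nat_lit 181) (nat_lit 4) (nat_lit 11) (nat_lit 9) (nat_lit 4) (nat_lit 11) (nat_lit 10) (by decide +kernel)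
theorem L109986 : W_41 (nat_lit 2) (nat_lit 0x370009000680024001000080000000000000000000) (nat_lit 0x0) (nat_lit 0x800040002000000000000000) := D_41 (nat_lit 78) (nat_lit 61) (nat_lit 95) (nat_lit 4) (nat_lit 11) (nat_lit 7) (nat_lit 4) (nat_lit 11) (nat_lit 8) (by decide +kernel)
theorem L109987 : W_41 (nat_lit 3) (nat_lit 0x370009000680024001000000000000000000000000) (nat_lit 0x0) (nat_lit 0x40000000000008000c0002000000000000000) := T_41 (nat_lit 79) (nat_lit 146) (nat_lit 5) (nat_lit 11) (nat_lit 4) L109986 (by decide +kernel)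
theorem L109988 : W_41 (nat_lit 4) (nat_lit 0x370009000680024000000000000000000000000000) (nat_lit 0x0) (nat_lit 0x140000000000018000c0002000000000000000) := T_41 (nat_lit 96) (nat_lit 148) (nat_lit 7) (nat_lit 11) (nat_lit 5) L109987 (by decide +kernel)
theorem L109989 : W_41 (nat_lit 5) (nat_lit 0x170009000680024000000000000000000000000000) (nat_lit 0x0) (nat_lit 0x40002000140000000000018000c0002000000000000000) := T_41 (nat_lit 165) (nat_lit 182) (nat_lit 7) (nat_lit 11) (nat_lit 6) L109988 (by decide +kernel)
theorem L109990 : W_41 (nat_lit 6) (nat_lit 0x160009000680024000000000000000000000000000) (nat_lit 0x0) (nat_lit 0x42002100140000000000018000c0002000000000000000) := T_41 (nat_lit 160) (nat_lit 177) (nat_lit 5) (nat_lit 8) (nat_lit 6) L109989 (by decide +kernel)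
theorem L109991 : W_41 (nat_lit 2) (nat_lit 0x360009000680024001000080000000000000000000) (nat_lit 0x0) (nat_lit 0x2000000000000000010000000000004000000000000000) := D_41 (nat_lit 112) (nat_lit 62) (nat_lit 181) (nat_lit 5) (nat_lit 11) (nat_lit 3) (nat_lit 4) (nat_lit 11) (nat_lit 10) (by decide +kernel)
theorem L109992 : W_41 (nat_lit 3) (nat_lit 0x360009000680024001000000000000000000000000) (nat_lit 0x0) (nat_lit 0x2000000004000000010000000080004000000000000000) := T_41 (nat_lit 79) (nat_lit 146) (nat_lit 5) (nat_lit 11) (nat_lit 4) L109991 (by decide +kernel)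
theorem L109993 : W_41 (nat_lit 4) (nat_lit 0x360009000680024000000000000000000000000000) (nat_lit 0x0) (nat_lit 0x2000000014000000010001000080004000000000000000) := T_41 (nat_lit 96) (nat_lit 148) (nat_lit 7) (nat_lit 11) (nat_lit 5) L109992 (by decide +kernel)
theorem L109994 : W_41 (nat_lit 5) (nat_lit 0x160009000680024000000000000000000000000000) (nat_lit 0x0) (nat_lit 0x6000200014000000010001000080004000000000000000) := T_41 (nat_lit 165) (nat_lit 182) (nat_lit 7) (nat_lit 11) (nat_lit 6) L109993 (by decide +kernel)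
theorem L109995 : W_41 (nat_lit 7) (nat_lit 0x60009000680024000000000000000000000000000) (nat_lit 0x0) (nat_lit 0x62003100140000000100018000c0006000000000000000) := Q_41 (nat_lit 164) (C_41 L109985 (C_41 L109990 (C_41 L109994 N_41))) (by decide +kernel)
theorem L109996 : W_41 (nat_lit 2) (nat_lit 0x70009000780024000000000000000000000000000) (nat_lit 0x0) (nat_lit 0x4000040010000000000000000000000000000) := D_41 (nat_lit 126) (nat_lit 112) (nat_lit 146) (nat_lit 2) (nat_lit 7) (nat_lit 7) (nat_lit 3) (nat_lit 7) (nat_lit 7) (by decide +kernel)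
theorem L109997 : W_41 (nat_lit 3) (nat_lit 0x70009000680024000000000000000000000000000) (nat_lit 0x0) (nat_lit 0x4000140050000000000000000000000000000) := T_41 (nat_lit 128) (nat_lit 114) (nat_lit 2) (nat_lit 8) (nat_lit 7) L109996 (by decide +kernel)
theorem L109998 : W_41 (nat_lit 4) (nat_lit 0x60009000680024000000000000000000000000000) (nat_lit 0x0) (nat_lit 0x200010004000140050000000000000000000000000000) := T_41 (nat_lit 160) (nat_lit 177) (nat_lit 5) (nat_lit 8) (nat_lit 6) L109997 (by decide +kernel)
theorem L109999 : W_41 (nat_lit 8) (nat_lit 0x60009000480024000000000000000000000000000) (nat_lit 0x0) (nat_lit 0x62003100140003400500018000c0006000000000000000) := Q_41 (nat_lit 129) (C_41 L109984 (C_41 L109995 (C_41 L109998 N_41))) (by decide +kernel)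
theorem L110000 : W_41 (nat_lit 2) (nat_lit 0x70009000680024003000080000000000000000000) (nat_lit 0x0) (nat_lit 0x800040002000000000000000) := D_41 (nat_lit 78) (nat_lit 95) (nat_lit 61) (nat_lit 4) (nat_lit 11) (nat_lit 8) (nat_lit 4) (nat_lit 11) (nat_lit 7) (by decide +kernel)
theorem L110001 : W_41 (nat_lit 3) (nat_lit 0x70009000680024003000000000000000000000000) (nat_lit 0x0) (nat_lit 0x40000000000008000c0002000000000000000) := T_41 (nat_lit 79) (nat_lit 146) (nat_lit 5) (nat_lit 11) (nat_lit 4) L110000 (by decide +kernel)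
theorem L110002 : W_41 (nat_lit 4) (nat_lit 0x70009000680024001000000000000000000000000) (nat_lit 0x0) (nat_lit 0x40000000000028001c0002000000000000000) := T_41 (nat_lit 97) (nat_lit 80) (nat_lit 6) (nat_lit 11) (nat_lit 8) L110001 (by decide +kernel)
theorem L110003 : W_41 (nat_lit 5) (nat_lit 0x60009000680024001000000000000000000000000) (nat_lit 0x0) (nat_lit 0x2000100040000000000028001c0002000000000000000) := T_41 (nat_lit 160) (nat_lit 177) (nat_lit 5) (nat_lit 8) (nat_lit 6) L110002 (by decide +kernel)
theorem L110004 : W_41 (nat_lit 2) (nat_lit 0x60009000680024001000080000000000000000000) (nat_lit 0x0) (nat_lit 0x800040002000000000000000) := D_41 (nat_lit 78) (nat_lit 95) (nat_lit 61) (nat_lit 4) (nat_lit 11) (nat_lit 8) (nat_lit 4) (nat_lit 11) (nat_lit 7) (by decide +kernel)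
theorem L110005 : W_41 (nat_lit 3) (nat_lit 0x60009000680024001000000000000000000000000) (nat_lit 0x0) (nat_lit 0x40000000000008000c0002000000000000000) := T_41 (nat_lit 79) (nat_lit 146) (nat_lit 5) (nat_lit 11) (nat_lit 4) L110004 (by decide +kernel)
theorem L110006 : W_41 (nat_lit 2) (nat_lit 0x60009000680024001000080000000000000000000) (nat_lit 0x0) (nat_lit 0x2000100008000000000000000) := D_41 (nat_lit 80) (nat_lit 97) (nat_lit 63) (nat_lit 6) (nat_lit 11) (nat_lit 8) (nat_lit 6) (nat_lit 11) (nat_lit 7) (by decide +kernel)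
theorem L110007 : W_41 (nat_lit 3) (nat_lit 0x60009000680024001000000000000000000000000) (nat_lit 0x0) (nat_lit 0x4000000000002000180008000000000000000) := T_41 (nat_lit 79) (nat_lit 146) (nat_lit 5) (nat_lit 11) (nat_lit 4) L110006 (by decide +kernel)
theorem L110008 : W_41 (nat_lit 2) (nat_lit 0x60009000680024003800000000000000000000000) (nat_lit 0x0) (nat_lit 0x100000000000050000000000000000000000000000) := D_41 (nat_lit 164) (nat_lit 112) (nat_lit 114) (nat_lit 4) (nat_lit 11) (nat_lit 9) (nat_lit 6) (nat_lit 11) (nat_lit 9) (by decide +kernel)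
theorem L110009 : W_41 (nat_lit 3) (nat_lit 0x60009000680024001800000000000000000000000) (nat_lit 0x0) (nat_lit 0x100000000000050002000100000000000000000000) := T_41 (nat_lit 97) (nat_lit 80) (nat_lit 6) (nat_lit 11) (nat_lit 8) L110008 (by decide +kernel)
theorem L110010 : W_41 (nat_lit 4) (nat_lit 0x60009000680024001000000000000000000000000) (nat_lit 0x0) (nat_lit 0x100000000000050002800140000000000000000000) := T_41 (nat_lit 95) (nat_lit 78) (nat_lit 4) (nat_lit 11) (nat_lit 8) L110009 (by decide +kernel)
theorem L110011 : W_41 (nat_lit 6) (nat_lit 0x60009000680024000000000000000000000000000) (nat_lit 0x0) (nat_lit 0x2001100040000000500038001c000a000000000000000) := Q_41 (nat_lit 96) (C_41 L110003 (C_41 L110005 (C_41 L110007 (C_41 L110010 N_41)))) (by decide +kernel)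
theorem L110012 : W_41 (nat_lit 3) (nat_lit 0x70009000680024000000000000000000000000000) (nat_lit 0x0) (nat_lit 0x14000140010000000000000000000000000000) := T_41 (nat_lit 128) (nat_lit 148) (nat_lit 3) (nat_lit 8) (nat_lit 7) L109996 (by decide +kernel)
theorem L110013 : W_41 (nat_lit 4) (nat_lit 0x60009000680024000000000000000000000000000) (nat_lit 0x0) (nat_lit 0x200010014000140010000000000000000000000000000) := T_41 (nat_lit 160) (nat_lit 177) (nat_lit 5) (nat_lit 8) (nat_lit 6) L110012 (by decide +kernel)
theorem L110014 : W_41 (nat_lit 7) (nat_lit 0x60009000480024000000000000000000000000000) (nat_lit 0x0) (nat_lit 0x2001100140003400500038001c000a000000000000000) := Q_41 (nat_lit 129) (C_41 L109998 (C_41 L109984 (C_41 L110011 (C_41 L110013 N_41)))) (by decide +kernel)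
theorem L110015 : W_41 (nat_lit 14) (nat_lit 0x60009000080024000000000000000000000000000) (nat_lit 0x0) (nat_lit 0x20001c000e0007200710074003f403d001ff007c800e000300000000000) := Q_41 (nat_lit 130) (C_41 L109741 (C_41 L109749 (C_41 L109761 (C_41 L109774 (C_41 L109859 (C_41 L109874 (C_41 L109888 (C_41 L109922 (C_41 L109956 (C_41 L109974 (C_41 L109983 (C_41 L109999 (C_41 L110014 N_41))))))))))))) (by decide +kernel)
theorem L110016 : W_41 (nat_lit 2) (nat_lit 0x37000900068007c001200000000000000000000000) (nat_lit 0x0) (nat_lit 0x4000000000000000080004000000000000000) := D_41 (nat_lit 79) (nat_lit 62) (nat_lit 146) (nat_lit 5) (nat_lit 11) (nat_lit 3) (nat_lit 5) (nat_lit 11) (nat_lit 4) (by decide +kernel)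
theorem L110017 : W_41 (nat_lit 3) (nat_lit 0x37000900048007c001200000000000000000000000) (nat_lit 0x0) (nat_lit 0x2000000004000200000000000080004000000000000000) := T_41 (nat_lit 129) (nat_lit 181) (nat_lit 4) (nat_lit 11) (nat_lit 10) L110016 (by decide +kernel)
theorem L110018 : W_41 (nat_lit 4) (nat_lit 0x27000900048007c001200000000000000000000000) (nat_lit 0x0) (nat_lit 0x6000100004000200000000000080004000000000000000) := T_41 (nat_lit 164) (nat_lit 182) (nat_lit 7) (nat_lit 11) (nat_lit 6) L110017 (by decide +kernel)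
theorem L110019 : W_41 (nat_lit 5) (nat_lit 0x7000900048007c001200000000000000000000000) (nat_lit 0x0) (nat_lit 0x6000300014000200000000000080004000000000000000) := T_41 (nat_lit 165) (nat_lit 148) (nat_lit 7) (nat_lit 11) (nat_lit 5) L110018 (by decide +kernel)
theorem L110020 : W_41 (nat_lit 6) (nat_lit 0x7000900048003c001200000000000000000000000) (nat_lit 0x0) (nat_lit 0x6000300014000300040000000080004000000000000000) := T_41 (nat_lit 114) (nat_lit 128) (nat_lit 1) (nat_lit 12) (nat_lit 6) L110019 (by decide +kernel)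
theorem L110021 : W_41 (nat_lit 7) (nat_lit 0x7000900048003c000200000000000000000000000) (nat_lit 0x0) (nat_lit 0x6000300014000300040003000080004000000000000000) := T_41 (nat_lit 96) (nat_lit 97) (nat_lit 2) (nat_lit 8) (nat_lit 6) L110020 (by decide +kernel)
theorem L110022 : W_41 (nat_lit 8) (nat_lit 0x7000900008003c000200000000000000000000000) (nat_lit 0x0) (nat_lit 0x6000300014000f00040003000080004000000000000000) := T_41 (nat_lit 130) (nat_lit 131) (nat_lit 3) (nat_lit 8) (nat_lit 6) L110021 (by decide +kernel)
theorem L110023 : W_41 (nat_lit 9) (nat_lit 0x7000900008003c000000000000000000000000000) (nat_lit 0x0) (nat_lit 0x6000300014000f00040003300080004000000000000000) := T_41 (nat_lit 93) (nat_lit 92) (nat_lit 0) (nat_lit 11) (nat_lit 6) L110022 (by decide +kernel)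
theorem L110024 : W_41 (nat_lit 10) (nat_lit 0x7000900008002c000000000000000000000000000) (nat_lit 0x0) (nat_lit 0x6000300014000f40050003300080004000000000000000) := T_41 (nat_lit 112) (nat_lit 126) (nat_lit 1) (nat_lit 11) (nat_lit 6) L110023 (by decide +kernel)
theorem L110025 : W_41 (nat_lit 11) (nat_lit 0x70009000080024000000000000000000000000000) (nat_lit 0x0) (nat_lit 0x6000300014000f40058003700080004000000000000000) := T_41 (nat_lit 111) (nat_lit 94) (nat_lit 6) (nat_lit 8) (nat_lit 9) L110024 (by decide +kernel)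
theorem L110026 : W_41 (nat_lit 12) (nat_lit 0x60009000080024000000000000000000000000000) (nat_lit 0x0) (nat_lit 0x6200310014000f40058003700080004000000000000000) := T_41 (nat_lit 160) (nat_lit 177) (nat_lit 5) (nat_lit 8) (nat_lit 6) L110025 (by decide +kernel)
theorem L110027 : W_41 (nat_lit 2) (nat_lit 0x700090010800fc009200000000000000000000000) (nat_lit 0x0) (nat_lit 0x100010800000000000000000000000) := D_41 (nat_lit 116) (nat_lit 95) (nat_lit 100) (nat_lit 0) (nat_lit 14) (nat_lit 6) (nat_lit 2) (nat_lit 11) (nat_lit 6) (by decide +kernel)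
theorem L110028 : W_41 (nat_lit 3) (nat_lit 0x700090010800fc001200000000000000000000000) (nat_lit 0x0) (nat_lit 0x10001c800000000000000000000000) := T_41 (nat_lit 99) (nat_lit 98) (nat_lit 2) (nat_lit 10) (nat_lit 6) L110027 (by decide +kernel)
theorem L110029 : W_41 (nat_lit 4) (nat_lit 0x7000900108007c001200000000000000000000000) (nat_lit 0x0) (nat_lit 0x200018001c800000000000000000000000) := T_41 (nat_lit 115) (nat_lit 133) (nat_lit 3) (nat_lit 10) (nat_lit 6) L110028 (by decide +kernel)
theorem L110030 : W_41 (nat_lit 5) (nat_lit 0x7000900008007c001200000000000000000000000) (nat_lit 0x0) (nat_lit 0x380018001c800000000000000000000000) := T_41 (nat_lit 132) (nat_lit 131) (nat_lit 3) (nat_lit 9) (nat_lit 6) L110029 (by decide +kernel)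
theorem L110031 : W_41 (nat_lit 6) (nat_lit 0x6000900008007c001200000000000000000000000) (nat_lit 0x0) (nat_lit 0x20001000000380018001c800000000000000000000000) := T_41 (nat_lit 160) (nat_lit 177) (nat_lit 5) (nat_lit 8) (nat_lit 6) L110030 (by decide +kernel)
theorem L110032 : W_41 (nat_lit 7) (nat_lit 0x6000900008003c001200000000000000000000000) (nat_lit 0x0) (nat_lit 0x2000100000039001c001c800000000000000000000000) := T_41 (nat_lit 114) (nat_lit 128) (nat_lit 1) (nat_lit 12) (nat_lit 6) L110031 (by decide +kernel)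
theorem L110033 : W_41 (nat_lit 8) (nat_lit 0x6000900008003c000200000000000000000000000) (nat_lit 0x0) (nat_lit 0x2000100000039001c001f800000000000000000000000) := T_41 (nat_lit 96) (nat_lit 97) (nat_lit 2) (nat_lit 8) (nat_lit 6) L110032 (by decide +kernel)
theorem L110034 : W_41 (nat_lit 9) (nat_lit 0x6000900008003c000000000000000000000000000) (nat_lit 0x0) (nat_lit 0x2000100000039001c001fb00000000000000000000000) := T_41 (nat_lit 93) (nat_lit 92) (nat_lit 0) (nat_lit 11) (nat_lit 6) L110033 (by decide +kernel)
theorem L110035 : W_41 (nat_lit 10) (nat_lit 0x6000900008002c000000000000000000000000000) (nat_lit 0x0) (nat_lit 0x2000100000039401d001fb00000000000000000000000) := T_41 (nat_lit 112) (nat_lit 126) (nat_lit 1) (nat_lit 11) (nat_lit 6) L110034 (by decide +kernel)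
theorem L110036 : W_41 (nat_lit 11) (nat_lit 0x60009000080024000000000000000000000000000) (nat_lit 0x0) (nat_lit 0x2000100000039401d801ff00000000000000000000000) := T_41 (nat_lit 111) (nat_lit 94) (nat_lit 6) (nat_lit 8) (nat_lit 9) L110035 (by decide +kernel)
theorem L110037 : W_41 (nat_lit 2) (nat_lit 0x7000900048007c000200000000000000000000000) (nat_lit 0x0) (nat_lit 0x100000000000000002800000000000000000000000) := D_41 (nat_lit 164) (nat_lit 95) (nat_lit 97) (nat_lit 4) (nat_lit 11) (nat_lit 9) (nat_lit 6) (nat_lit 11) (nat_lit 9) (by decide +kernel)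
theorem L110038 : W_41 (nat_lit 3) (nat_lit 0x7000900048003c000200000000000000000000000) (nat_lit 0x0) (nat_lit 0x100000000100040002800000000000000000000000) := T_41 (nat_lit 114) (nat_lit 128) (nat_lit 1) (nat_lit 12) (nat_lit 6) L110037 (by decide +kernel)
theorem L110039 : W_41 (nat_lit 4) (nat_lit 0x7000900008003c000200000000000000000000000) (nat_lit 0x0) (nat_lit 0x100000000d00040002800000000000000000000000) := T_41 (nat_lit 130) (nat_lit 131) (nat_lit 3) (nat_lit 8) (nat_lit 6) L110038 (by decide +kernel)
theorem L110040 : W_41 (nat_lit 5) (nat_lit 0x7000900008003c000000000000000000000000000) (nat_lit 0x0) (nat_lit 0x100000000d00040002b00000000000000000000000) := T_41 (nat_lit 93) (nat_lit 92) (nat_lit 0) (nat_lit 11) (nat_lit 6) L110039 (by decide +kernel)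
theorem L110041 : W_41 (nat_lit 6) (nat_lit 0x7000900008002c000000000000000000000000000) (nat_lit 0x0) (nat_lit 0x100000000d40050002b00000000000000000000000) := T_41 (nat_lit 112) (nat_lit 126) (nat_lit 1) (nat_lit 11) (nat_lit 6) L110040 (by decide +kernel)
theorem L110042 : W_41 (nat_lit 7) (nat_lit 0x70009000080024000000000000000000000000000) (nat_lit 0x0) (nat_lit 0x100000000d40058002f00000000000000000000000) := T_41 (nat_lit 111) (nat_lit 94) (nat_lit 6) (nat_lit 8) (nat_lit 9) L110041 (by decide +kernel)
theorem L110043 : W_41 (nat_lit 8) (nat_lit 0x60009000080024000000000000000000000000000) (nat_lit 0x0) (nat_lit 0x200110000000d40058002f00000000000000000000000) := T_41 (nat_lit 160) (nat_lit 177) (nat_lit 5) (nat_lit 8) (nat_lit 6) L110042 (by decide +kernel)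
theorem L110044 : W_41 (nat_lit 2) (nat_lit 0x70039000e80164007800000000000000000000000) (nat_lit 0x0) (nat_lit 0x200018000000000000000000000000) := D_41 (nat_lit 99) (nat_lit 100) (nat_lit 117) (nat_lit 1) (nat_lit 15) (nat_lit 5) (nat_lit 3) (nat_lit 11) (nat_lit 5) (by decide +kernel)
theorem L110045 : W_41 (nat_lit 3) (nat_lit 0x70039000e80064007800000000000000000000000) (nat_lit 0x0) (nat_lit 0x380018000000000000000000000000) := T_41 (nat_lit 116) (nat_lit 115) (nat_lit 3) (nat_lit 10) (nat_lit 5) L110044 (by decide +kernel)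
theorem L110046 : W_41 (nat_lit 4) (nat_lit 0x70039000e80064003800000000000000000000000) (nat_lit 0x0) (nat_lit 0x38001c000200000000000000000000) := T_41 (nat_lit 98) (nat_lit 81) (nat_lit 6) (nat_lit 12) (nat_lit 8) L110045 (by decide +kernel)
theorem L110047 : W_41 (nat_lit 5) (nat_lit 0x70039000680064003800000000000000000000000) (nat_lit 0x0) (nat_lit 0x40000000080038001c000200000000000000000000) := T_41 (nat_lit 131) (nat_lit 166) (nat_lit 7) (nat_lit 12) (nat_lit 5) L110046 (by decide +kernel)
theorem L110048 : W_41 (nat_lit 6) (nat_lit 0x70039000680024003800000000000000000000000) (nat_lit 0x0) (nat_lit 0x5000000008003c001c000200000000000000000000) := T_41 (nat_lit 114) (nat_lit 164) (nat_lit 6) (nat_lit 11) (nat_lit 9) L110047 (by decide +kernel)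
theorem L110049 : W_41 (nat_lit 7) (nat_lit 0x70039000680024003000000000000000000000000) (nat_lit 0x0) (nat_lit 0x5000000008003c001c800240000000000000000000) := T_41 (nat_lit 95) (nat_lit 78) (nat_lit 4) (nat_lit 11) (nat_lit 8) L110048 (by decide +kernel)
theorem L110050 : W_41 (nat_lit 8) (nat_lit 0x70039000680024001000000000000000000000000) (nat_lit 0x0) (nat_lit 0x5000000008003c001e800340000000000000000000) := T_41 (nat_lit 97) (nat_lit 80) (nat_lit 6) (nat_lit 11) (nat_lit 8) L110049 (by decide +kernel)
theorem L110051 : W_41 (nat_lit 9) (nat_lit 0x70019000680024001000000000000000000000000) (nat_lit 0x0) (nat_lit 0x5000600008003c001e800340000000000000000000) := T_41 (nat_lit 149) (nat_lit 150) (nat_lit 0) (nat_lit 14) (nat_lit 8) L110050 (by decide +kernel)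
theorem L110052 : W_41 (nat_lit 10) (nat_lit 0x60019000680024001000000000000000000000000) (nat_lit 0x0) (nat_lit 0x2005100600008003c001e800340000000000000000000) := T_41 (nat_lit 160) (nat_lit 177) (nat_lit 5) (nat_lit 8) (nat_lit 6) L110051 (by decide +kernel)
theorem L110053 : W_41 (nat_lit 11) (nat_lit 0x60019000480024001000000000000000000000000) (nat_lit 0x0) (nat_lit 0x200510060000b003c001e800340000000000000000000) := T_41 (nat_lit 129) (nat_lit 128) (nat_lit 3) (nat_lit 8) (nat_lit 7) L110052 (by decide +kernel)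
theorem L110054 : W_41 (nat_lit 12) (nat_lit 0x60009000480024001000000000000000000000000) (nat_lit 0x0) (nat_lit 0x200710070000b003c001e800340000000000000000000) := T_41 (nat_lit 148) (nat_lit 165) (nat_lit 7) (nat_lit 11) (nat_lit 5) L110053 (by decide +kernel)
theorem L110055 : W_41 (nat_lit 2) (nat_lit 0x70009000680164003800080000000000000000000) (nat_lit 0x0) (nat_lit 0x800000000000000004000200000000000) := D_41 (nat_lit 62) (nat_lit 45) (nat_lit 131) (nat_lit 7) (nat_lit 11) (nat_lit 2) (nat_lit 7) (nat_lit 11) (nat_lit 3) (by decide +kernel)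
theorem L110056 : W_41 (nat_lit 3) (nat_lit 0x70009000680164003800000000000000000000000) (nat_lit 0x0) (nat_lit 0x4000800000000000080004000200000000000) := T_41 (nat_lit 79) (nat_lit 146) (nat_lit 5) (nat_lit 11) (nat_lit 4) L110055 (by decide +kernel)
theorem L110057 : W_41 (nat_lit 4) (nat_lit 0x70009000480164003800000000000000000000000) (nat_lit 0x0) (nat_lit 0x4000b00000000000080004000200000000000) := T_41 (nat_lit 129) (nat_lit 128) (nat_lit 2) (nat_lit 8) (nat_lit 7) L110056 (by decide +kernel)
theorem L110058 : W_41 (nat_lit 5) (nat_lit 0x70009000480064003800000000000000000000000) (nat_lit 0x0) (nat_lit 0x4000b00180000000080004000200000000000) := T_41 (nat_lit 116) (nat_lit 115) (nat_lit 0) (nat_lit 14) (nat_lit 6) L110057 (by decide +kernel)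
theorem L110059 : W_41 (nat_lit 6) (nat_lit 0x70009000480064003000000000000000000000000) (nat_lit 0x0) (nat_lit 0x4000b001800008000c0004000200000000000) := T_41 (nat_lit 95) (nat_lit 78) (nat_lit 4) (nat_lit 11) (nat_lit 8) L110058 (by decide +kernel)
theorem L110060 : W_41 (nat_lit 7) (nat_lit 0x70009000480024003000000000000000000000000) (nat_lit 0x0) (nat_lit 0x100004000b001c00008000c0004000200000000000) := T_41 (nat_lit 114) (nat_lit 164) (nat_lit 6) (nat_lit 11) (nat_lit 9) L110059 (by decide +kernel)
theorem L110061 : W_41 (nat_lit 8) (nat_lit 0x60009000480024003000000000000000000000000) (nat_lit 0x0) (nat_lit 0x200110004000b001c00008000c0004000200000000000) := T_41 (nat_lit 160) (nat_lit 177) (nat_lit 5) (nat_lit 8) (nat_lit 6) L110060 (by decide +kernel)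
theorem L110062 : W_41 (nat_lit 9) (nat_lit 0x60009000480024001000000000000000000000000) (nat_lit 0x0) (nat_lit 0x200110004000b001c00028001c0004000200000000000) := T_41 (nat_lit 97) (nat_lit 80) (nat_lit 6) (nat_lit 11) (nat_lit 8) L110061 (by decide +kernel)
theorem L110063 : W_41 (nat_lit 13) (nat_lit 0x60009000480024000000000000000000000000000) (nat_lit 0x0) (nat_lit 0x200710074000b003c001f8003c0006000200000000000) := Q_41 (nat_lit 96) (C_41 L109955 (C_41 L109748 (C_41 L109757 (C_41 L110054 (C_41 L110062 N_41))))) (by decide +kernel)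
theorem L110064 : W_41 (nat_lit 2) (nat_lit 0x700190005800b4007800200000000000000000000) (nat_lit 0x0) (nat_lit 0x1800040000000000000000000000000000) := D_41 (nat_lit 131) (nat_lit 132) (nat_lit 114) (nat_lit 5) (nat_lit 13) (nat_lit 4) (nat_lit 6) (nat_lit 12) (nat_lit 8) (by decide +kernel)
theorem L110065 : W_41 (nat_lit 3) (nat_lit 0x70019000580034007800200000000000000000000) (nat_lit 0x0) (nat_lit 0x18001c0000000000000000000000000000) := T_41 (nat_lit 115) (nat_lit 116) (nat_lit 3) (nat_lit 10) (nat_lit 5) L110064 (by decide +kernel)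
theorem L110066 : W_41 (nat_lit 4) (nat_lit 0x70019000580034007800000000000000000000000) (nat_lit 0x0) (nat_lit 0x18001c0000000600000000000000000000) := T_41 (nat_lit 81) (nat_lit 82) (nat_lit 2) (nat_lit 10) (nat_lit 5) L110065 (by decide +kernel)
theorem L110067 : W_41 (nat_lit 5) (nat_lit 0x70019000580034003800000000000000000000000) (nat_lit 0x0) (nat_lit 0x18001c000c000600000000000000000000) := T_41 (nat_lit 98) (nat_lit 99) (nat_lit 1) (nat_lit 14) (nat_lit 5) L110066 (by decide +kernel)
theorem L110068 : W_41 (nat_lit 6) (nat_lit 0x70019000580034003000000000000000000000000) (nat_lit 0x0) (nat_lit 0x18001c000c800640000000000000000000) := T_41 (nat_lit 95) (nat_lit 78) (nat_lit 4) (nat_lit 11) (nat_lit 8) L110067 (by decide +kernel)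
theorem L110069 : W_41 (nat_lit 7) (nat_lit 0x70019000580024003000000000000000000000000) (nat_lit 0x0) (nat_lit 0x18001d800c800640000000000000000000) := T_41 (nat_lit 112) (nat_lit 111) (nat_lit 2) (nat_lit 8) (nat_lit 6) L110068 (by decide +kernel)
theorem L110070 : W_41 (nat_lit 8) (nat_lit 0x70019000580024001000000000000000000000000) (nat_lit 0x0) (nat_lit 0x18001d800e800740000000000000000000) := T_41 (nat_lit 97) (nat_lit 80) (nat_lit 6) (nat_lit 11) (nat_lit 8) L110069 (by decide +kernel)
theorem L110071 : W_41 (nat_lit 9) (nat_lit 0x60019000580024001000000000000000000000000) (nat_lit 0x0) (nat_lit 0x2000100000018001d800e800740000000000000000000) := T_41 (nat_lit 160) (nat_lit 177) (nat_lit 5) (nat_lit 8) (nat_lit 6) L110070 (by decide +kernel)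
theorem L110072 : W_41 (nat_lit 10) (nat_lit 0x60019000480024001000000000000000000000000) (nat_lit 0x0) (nat_lit 0x200010000001b001d800e800740000000000000000000) := T_41 (nat_lit 128) (nat_lit 129) (nat_lit 3) (nat_lit 8) (nat_lit 7) L110071 (by decide +kernel)
theorem L110073 : W_41 (nat_lit 11) (nat_lit 0x60009000480024001000000000000000000000000) (nat_lit 0x0) (nat_lit 0x200210010001b001d800e800740000000000000000000) := T_41 (nat_lit 148) (nat_lit 165) (nat_lit 7) (nat_lit 11) (nat_lit 5) L110072 (by decide +kernel)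
theorem L110074 : W_41 (nat_lit 12) (nat_lit 0x60009000480024000000000000000000000000000) (nat_lit 0x0) (nat_lit 0x200210074001b001d800f8007c000e000000000000000) := Q_41 (nat_lit 96) (C_41 L109955 (C_41 L109748 (C_41 L109757 (C_41 L110073 (C_41 L109948 N_41))))) (by decide +kernel)
theorem L110075 : W_41 (nat_lit 14) (nat_lit 0x60009000080024000000000000000000000000000) (nat_lit 0x0) (nat_lit 0x20001c000e0007200710074003f403d801f8007c000e000300000000000) := Q_41 (nat_lit 130) (C_41 L110014 (C_41 L109749 (C_41 L109761 (C_41 L110063 (C_41 L109859 (C_41 L109983 (C_41 L109922 (C_41 L110074 (C_41 L109974 (C_41 L109999 N_41)))))))))) (by decide +kernel)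
theorem L110076 : W_41 (nat_lit 2) (nat_lit 0x200017000900048007c000200000000000000000000000) (nat_lit 0x0) (nat_lit 0x80004000200000000000000000000000000000000000000000) := D_41 (nat_lit 182) (nat_lit 165) (nat_lit 199) (nat_lit 7) (nat_lit 11) (nat_lit 6) (nat_lit 7) (nat_lit 11) (nat_lit 7) (by decide +kernel)
theorem L110077 : W_41 (nat_lit 3) (nat_lit 0x17000900048007c000200000000000000000000000) (nat_lit 0x0) (nat_lit 0x80006000200000000200000000000000000000000000000000) := T_41 (nat_lit 181) (nat_lit 129) (nat_lit 4) (nat_lit 11) (nat_lit 10) L110076 (by decide +kernel)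
theorem L110078 : W_41 (nat_lit 4) (nat_lit 0x7000900048007c000200000000000000000000000) (nat_lit 0x0) (nat_lit 0x80006000300000000200000000800000000000000000000000) := T_41 (nat_lit 164) (nat_lit 95) (nat_lit 4) (nat_lit 11) (nat_lit 9) L110077 (by decide +kernel)
theorem L110079 : W_41 (nat_lit 5) (nat_lit 0x7000900048003c000200000000000000000000000) (nat_lit 0x0) (nat_lit 0x80006000300000000300040000800000000000000000000000) := T_41 (nat_lit 114) (nat_lit 128) (nat_lit 1) (nat_lit 12) (nat_lit 6) L110078 (by decide +kernel)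
theorem L110080 : W_41 (nat_lit 6) (nat_lit 0x7000900008003c000200000000000000000000000) (nat_lit 0x0) (nat_lit 0x80006000300000000f00040000800000000000000000000000) := T_41 (nat_lit 130) (nat_lit 131) (nat_lit 3) (nat_lit 8) (nat_lit 6) L110079 (by decide +kernel)
theorem L110081 : W_41 (nat_lit 7) (nat_lit 0x7000900008003c000000000000000000000000000) (nat_lit 0x0) (nat_lit 0x80006000300000000f00040000b00000000000000000000000) := T_41 (nat_lit 93) (nat_lit 92) (nat_lit 0) (nat_lit 11) (nat_lit 6) L110080 (by decide +kernel)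
theorem L110082 : W_41 (nat_lit 8) (nat_lit 0x7000900008002c000000000000000000000000000) (nat_lit 0x0) (nat_lit 0x80006000300000000f40050000b00000000000000000000000) := T_41 (nat_lit 112) (nat_lit 126) (nat_lit 1) (nat_lit 11) (nat_lit 6) L110081 (by decide +kernel)
theorem L110083 : W_41 (nat_lit 9) (nat_lit 0x70009000080024000000000000000000000000000) (nat_lit 0x0) (nat_lit 0x80006000300000000f40058000f00000000000000000000000) := T_41 (nat_lit 111) (nat_lit 94) (nat_lit 6) (nat_lit 8) (nat_lit 9) L110082 (by decide +kernel)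
theorem L110084 : W_41 (nat_lit 10) (nat_lit 0x60009000080024000000000000000000000000000) (nat_lit 0x0) (nat_lit 0x80006200310000000f40058000f00000000000000000000000) := T_41 (nat_lit 160) (nat_lit 177) (nat_lit 5) (nat_lit 8) (nat_lit 6) L110083 (by decide +kernel)
theorem L110085 : W_41 (nat_lit 2) (nat_lit 0x7000900058003c001200078002000000000000000) (nat_lit 0x0) (nat_lit 0x200010000200000000000000000000000000000000) := D_41 (nat_lit 148) (nat_lit 129) (nat_lit 165) (nat_lit 3) (nat_lit 8) (nat_lit 7) (nat_lit 7) (nat_lit 11) (nat_lit 5) (by decide +kernel)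
theorem L110086 : W_41 (nat_lit 3) (nat_lit 0x7000900018003c001200078002000000000000000) (nat_lit 0x0) (nat_lit 0x200010000600000000000080000000000000000000) := T_41 (nat_lit 130) (nat_lit 79) (nat_lit 4) (nat_lit 11) (nat_lit 7) L110085 (by decide +kernel)
theorem L110087 : W_41 (nat_lit 4) (nat_lit 0x7000900018003c001200078000000000000000000) (nat_lit 0x0) (nat_lit 0x200010000600000000000080006000000000000000) := T_41 (nat_lit 61) (nat_lit 62) (nat_lit 2) (nat_lit 7) (nat_lit 4) L110086 (by decide +kernel)
theorem L110088 : W_41 (nat_lit 5) (nat_lit 0x7000900018003c001200038000000000000000000) (nat_lit 0x0) (nat_lit 0x2000100006000000008000c0006000000000000000) := T_41 (nat_lit 78) (nat_lit 95) (nat_lit 3) (nat_lit 7) (nat_lit 4) L110087 (by decide +kernel)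
theorem L110089 : W_41 (nat_lit 6) (nat_lit 0x7000900018003c001200030000000000000000000) (nat_lit 0x0) (nat_lit 0x2000100006000000008000c8006400000000000000) := T_41 (nat_lit 75) (nat_lit 58) (nat_lit 4) (nat_lit 8) (nat_lit 7) L110088 (by decide +kernel)
theorem L110090 : W_41 (nat_lit 7) (nat_lit 0x7000900018003c001200010000000000000000000) (nat_lit 0x0) (nat_lit 0x2000100006000000008000e8007400000000000000) := T_41 (nat_lit 77) (nat_lit 60) (nat_lit 6) (nat_lit 8) (nat_lit 7) L110089 (by decide +kernel)
theorem L110091 : W_41 (nat_lit 8) (nat_lit 0x7000900018003c001200000000000000000000000) (nat_lit 0x0) (nat_lit 0x2000100006000000008000f8007c00000000000000) := T_41 (nat_lit 76) (nat_lit 59) (nat_lit 7) (nat_lit 8) (nat_lit 3) L110090 (by decide +kernel)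
theorem L110092 : W_41 (nat_lit 9) (nat_lit 0x6000900018003c001200000000000000000000000) (nat_lit 0x0) (nat_lit 0x2002100100006000000008000f8007c00000000000000) := T_41 (nat_lit 160) (nat_lit 177) (nat_lit 5) (nat_lit 8) (nat_lit 6) L110091 (by decide +kernel)
theorem L110093 : W_41 (nat_lit 10) (nat_lit 0x6000900008003c001200000000000000000000000) (nat_lit 0x0) (nat_lit 0x2002100100007000400008000f8007c00000000000000) := T_41 (nat_lit 128) (nat_lit 114) (nat_lit 1) (nat_lit 12) (nat_lit 6) L110092 (by decide +kernel)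
theorem L110094 : W_41 (nat_lit 11) (nat_lit 0x6000900008003c000200000000000000000000000) (nat_lit 0x0) (nat_lit 0x2002100100007000400038000f8007c00000000000000) := T_41 (nat_lit 96) (nat_lit 97) (nat_lit 2) (nat_lit 8) (nat_lit 6) L110093 (by decide +kernel)
theorem L110095 : W_41 (nat_lit 12) (nat_lit 0x6000900008003c000000000000000000000000000) (nat_lit 0x0) (nat_lit 0x200210010000700040003b000f8007c00000000000000) := T_41 (nat_lit 93) (nat_lit 92) (nat_lit 0) (nat_lit 11) (nat_lit 6) L110094 (by decide +kernel)
theorem L110096 : W_41 (nat_lit 13) (nat_lit 0x6000900008002c000000000000000000000000000) (nat_lit 0x0) (nat_lit 0x200210010000740050003b000f8007c00000000000000) := T_41 (nat_lit 112) (nat_lit 126) (nat_lit 1) (nat_lit 11) (nat_lit 6) L110095 (by decide +kernel)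
theorem L110097 : W_41 (nat_lit 14) (nat_lit 0x60009000080024000000000000000000000000000) (nat_lit 0x0) (nat_lit 0x200210010000740058003f000f8007c00000000000000) := T_41 (nat_lit 111) (nat_lit 94) (nat_lit 6) (nat_lit 8) (nat_lit 9) L110096 (by decide +kernel)
theorem L110098 : W_41 (nat_lit 15) (nat_lit 0x60009000080004000000000000000000000000000) (nat_lit 0x0) (nat_lit 0x20001c000e0007200710074003f403f801ff007fe00fc00380000000000) := Q_41 (nat_lit 113) (C_41 L109579 (C_41 L109585 (C_41 L109724 (C_41 L110015 (C_41 L110026 (C_41 L110036 (C_41 L110043 (C_41 L110075 (C_41 L110084 (C_41 L110097 N_41)))))))))) (by decide +kernel)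
theorem L110099 : W_41 (nat_lit 2) (nat_lit 0x60009000080004000200010000000000000000000) (nat_lit 0x0) (nat_lit 0x100008000400000000000000) := D_41 (nat_lit 75) (nat_lit 92) (nat_lit 58) (nat_lit 4) (nat_lit 8) (nat_lit 8) (nat_lit 4) (nat_lit 8) (nat_lit 7) (by decide +kernel)
theorem L110100 : W_41 (nat_lit 2) (nat_lit 0x10000f0009000080004000200010000c00000000000000) (nat_lit 0x0) (nat_lit 0x20001000080000000000) := D_41 (nat_lit 60) (nat_lit 77) (nat_lit 43) (nat_lit 6) (nat_lit 8) (nat_lit 7) (nat_lit 6) (nat_lit 8) (nat_lit 6) (by decide +kernel)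
theorem L110101 : W_41 (nat_lit 3) (nat_lit 0x10000f0009000080004000200010000400000000000000) (nat_lit 0x0) (nat_lit 0x200018000a0000000000) := T_41 (nat_lit 59) (nat_lit 41) (nat_lit 4) (nat_lit 8) (nat_lit 6) L110100 (by decide +kernel)
theorem L110102 : W_41 (nat_lit 4) (nat_lit 0xf0009000080004000200010000400000000000000) (nat_lit 0x0) (nat_lit 0x30000000000000000000000000200018000a0000000000) := T_41 (nat_lit 180) (nat_lit 181) (nat_lit 3) (nat_lit 7) (nat_lit 9) L110101 (by decide +kernel)
theorem L110103 : W_41 (nat_lit 5) (nat_lit 0xf0009000080004000200010000000000000000000) (nat_lit 0x0) (nat_lit 0x3000000000000000000000000028001c000a0000000000) := T_41 (nat_lit 58) (nat_lit 75) (nat_lit 4) (nat_lit 8) (nat_lit 7) L110102 (by decide +kernel)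
theorem L110104 : W_41 (nat_lit 6) (nat_lit 0x70009000080004000200010000000000000000000) (nat_lit 0x0) (nat_lit 0x3000080004000000000000000028001c000a0000000000) := T_41 (nat_lit 163) (nat_lit 146) (nat_lit 2) (nat_lit 7) (nat_lit 9) L110103 (by decide +kernel)
theorem L110105 : W_41 (nat_lit 7) (nat_lit 0x60009000080004000200010000000000000000000) (nat_lit 0x0) (nat_lit 0x3200090004000000000000000028001c000a0000000000) := T_41 (nat_lit 160) (nat_lit 177) (nat_lit 5) (nat_lit 8) (nat_lit 6) L110104 (by decide +kernel)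
theorem L110106 : W_41 (nat_lit 2) (nat_lit 0x20001f0009000480034000200010001000000000000000) (nat_lit 0x0) (nat_lit 0x800008000100000000000000000000000) := D_41 (nat_lit 111) (nat_lit 131) (nat_lit 92) (nat_lit 3) (nat_lit 8) (nat_lit 6) (nat_lit 0) (nat_lit 11) (nat_lit 6) (by decide +kernel)
theorem L110107 : W_41 (nat_lit 3) (nat_lit 0x20001f0009000480014000200010001000000000000000) (nat_lit 0x0) (nat_lit 0x800028000900000000000000000000000) := T_41 (nat_lit 113) (nat_lit 95) (nat_lit 4) (nat_lit 11) (nat_lit 9) L110106 (by decide +kernel)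
theorem L110108 : W_41 (nat_lit 4) (nat_lit 0x20001f0009000080014000200010001000000000000000) (nat_lit 0x0) (nat_lit 0xe00028000900000000000000000000000) := T_41 (nat_lit 130) (nat_lit 129) (nat_lit 4) (nat_lit 11) (nat_lit 10) L110107 (by decide +kernel)
theorem L110109 : W_41 (nat_lit 5) (nat_lit 0x20000f0009000080014000200010001000000000000000) (nat_lit 0x0) (nat_lit 0x4000100000000e00028000900000000000000000000000) := T_41 (nat_lit 164) (nat_lit 182) (nat_lit 3) (nat_lit 8) (nat_lit 9) L110108 (by decide +kernel)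
theorem L110110 : W_41 (nat_lit 6) (nat_lit 0xf0009000080014000200010001000000000000000) (nat_lit 0x0) (nat_lit 0x7000100000000e00028000900000000000000000000000) := T_41 (nat_lit 181) (nat_lit 180) (nat_lit 3) (nat_lit 7) (nat_lit 9) L110109 (by decide +kernel)
theorem L110111 : W_41 (nat_lit 7) (nat_lit 0x70009000080014000200010001000000000000000) (nat_lit 0x0) (nat_lit 0x7000180004000e00028000900000000000000000000000) := T_41 (nat_lit 163) (nat_lit 146) (nat_lit 2) (nat_lit 7) (nat_lit 9) L110110 (by decide +kernel)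
theorem L110112 : W_41 (nat_lit 8) (nat_lit 0x60009000080014000200010001000000000000000) (nat_lit 0x0) (nat_lit 0x7200190004000e00028000900000000000000000000000) := T_41 (nat_lit 160) (nat_lit 177) (nat_lit 5) (nat_lit 8) (nat_lit 6) L110111 (by decide +kernel)
theorem L110113 : W_41 (nat_lit 2) (nat_lit 0x6000900008001c000200010001c00000000000000) (nat_lit 0x0) (nat_lit 0x40020000100000000000000000000000) := D_41 (nat_lit 113) (nat_lit 126) (nat_lit 92) (nat_lit 1) (nat_lit 11) (nat_lit 6) (nat_lit 0) (nat_lit 11) (nat_lit 6) (by decide +kernel)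
theorem L110114 : W_41 (nat_lit 3) (nat_lit 0x60009000080014000200010001c00000000000000) (nat_lit 0x0) (nat_lit 0x140028000100000000000000000000000) := T_41 (nat_lit 111) (nat_lit 128) (nat_lit 7) (nat_lit 8) (nat_lit 3) L110113 (by decide +kernel)
theorem L110115 : W_41 (nat_lit 4) (nat_lit 0x60009000080014000200010001800000000000000) (nat_lit 0x0) (nat_lit 0x140028000100000000400020000000000) := T_41 (nat_lit 58) (nat_lit 41) (nat_lit 4) (nat_lit 8) (nat_lit 6) L110114 (by decide +kernel)
theorem L110116 : W_41 (nat_lit 5) (nat_lit 0x60009000080014000200010001000000000000000) (nat_lit 0x0) (nat_lit 0x140028000100000000c000a0000000000) := T_41 (nat_lit 59) (nat_lit 43) (nat_lit 6) (nat_lit 8) (nat_lit 6) L110115 (by decide +kernel)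
theorem L110117 : W_41 (nat_lit 2) (nat_lit 0xf000900048003c000200010001c00000000000000) (nat_lit 0x0) (nat_lit 0x3000100000000000000000000000000000000000000000) := D_41 (nat_lit 180) (nat_lit 181) (nat_lit 164) (nat_lit 3) (nat_lit 7) (nat_lit 9) (nat_lit 5) (nat_lit 11) (nat_lit 6) (by decide +kernel)
theorem L110118 : W_41 (nat_lit 3) (nat_lit 0xf000900008003c000200010001c00000000000000) (nat_lit 0x0) (nat_lit 0x3000100000000c00000000000000000000000000000000) := T_41 (nat_lit 130) (nat_lit 131) (nat_lit 3) (nat_lit 8) (nat_lit 6) L110117 (by decide +kernel)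
theorem L110119 : W_41 (nat_lit 4) (nat_lit 0x7000900008003c000200010001c00000000000000) (nat_lit 0x0) (nat_lit 0x3000180004000c00000000000000000000000000000000) := T_41 (nat_lit 163) (nat_lit 146) (nat_lit 2) (nat_lit 7) (nat_lit 9) L110118 (by decide +kernel)
theorem L110120 : W_41 (nat_lit 5) (nat_lit 0x6000900008003c000200010001c00000000000000) (nat_lit 0x0) (nat_lit 0x3200190004000c00000000000000000000000000000000) := T_41 (nat_lit 160) (nat_lit 177) (nat_lit 5) (nat_lit 8) (nat_lit 6) L110119 (by decide +kernel)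
theorem L110121 : W_41 (nat_lit 6) (nat_lit 0x6000900008001c000200010001c00000000000000) (nat_lit 0x0) (nat_lit 0x3200190004000c40020000000000000000000000000000) := T_41 (nat_lit 113) (nat_lit 126) (nat_lit 1) (nat_lit 11) (nat_lit 6) L110120 (by decide +kernel)
theorem L110122 : W_41 (nat_lit 7) (nat_lit 0x60009000080014000200010001c00000000000000) (nat_lit 0x0) (nat_lit 0x3200190004000d40028000000000000000000000000000) := T_41 (nat_lit 111) (nat_lit 128) (nat_lit 7) (nat_lit 8) (nat_lit 3) L110121 (by decide +kernel)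
theorem L110123 : W_41 (nat_lit 8) (nat_lit 0x60009000080014000200010001800000000000000) (nat_lit 0x0) (nat_lit 0x3200190004000d40028000000000000400020000000000) := T_41 (nat_lit 58) (nat_lit 41) (nat_lit 4) (nat_lit 8) (nat_lit 6) L110122 (by decide +kernel)
theorem L110124 : W_41 (nat_lit 9) (nat_lit 0x60009000080014000200010001000000000000000) (nat_lit 0x0) (nat_lit 0x3200190004000d40028000000000000c000a0000000000) := T_41 (nat_lit 59) (nat_lit 43) (nat_lit 6) (nat_lit 8) (nat_lit 6) L110123 (by decide +kernel)
theorem L110125 : W_41 (nat_lit 2) (nat_lit 0x20001f0009000480034000200010001c00000000000000) (nat_lit 0x0) (nat_lit 0x800040002000000000000000000000000) := D_41 (nat_lit 114) (nat_lit 131) (nat_lit 97) (nat_lit 6) (nat_lit 11) (nat_lit 10) (nat_lit 6) (nat_lit 11) (nat_lit 9) (by decide +kernel)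
theorem L110126 : W_41 (nat_lit 3) (nat_lit 0x20001f0009000480014000200010001c00000000000000) (nat_lit 0x0) (nat_lit 0x800060002800000000000000000000000) := T_41 (nat_lit 113) (nat_lit 95) (nat_lit 4) (nat_lit 11) (nat_lit 9) L110125 (by decide +kernel)
theorem L110127 : W_41 (nat_lit 4) (nat_lit 0x20001f0009000080014000200010001c00000000000000) (nat_lit 0x0) (nat_lit 0xe00060002800000000000000000000000) := T_41 (nat_lit 130) (nat_lit 129) (nat_lit 4) (nat_lit 11) (nat_lit 10) L110126 (by decide +kernel)
theorem L110128 : W_41 (nat_lit 5) (nat_lit 0x20000f0009000080014000200010001c00000000000000) (nat_lit 0x0) (nat_lit 0x4000100000000e00060002800000000000000000000000) := T_41 (nat_lit 164) (nat_lit 182) (nat_lit 3) (nat_lit 8) (nat_lit 9) L110127 (by decide +kernel)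
theorem L110129 : W_41 (nat_lit 6) (nat_lit 0xf0009000080014000200010001c00000000000000) (nat_lit 0x0) (nat_lit 0x7000100000000e00060002800000000000000000000000) := T_41 (nat_lit 181) (nat_lit 180) (nat_lit 3) (nat_lit 7) (nat_lit 9) L110128 (by decide +kernel)
theorem L110130 : W_41 (nat_lit 7) (nat_lit 0xf0009000080014000200010001800000000000000) (nat_lit 0x0) (nat_lit 0x7000100000000e00060002800000000400020000000000) := T_41 (nat_lit 58) (nat_lit 41) (nat_lit 4) (nat_lit 8) (nat_lit 6) L110129 (by decide +kernel)
theorem L110131 : W_41 (nat_lit 8) (nat_lit 0xf0009000080014000200010001000000000000000) (nat_lit 0x0) (nat_lit 0x7000100000000e00060002800000000c000a0000000000) := T_41 (nat_lit 59) (nat_lit 43) (nat_lit 6) (nat_lit 8) (nat_lit 6) L110130 (by decide +kernel)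
theorem L110132 : W_41 (nat_lit 9) (nat_lit 0x70009000080014000200010001000000000000000) (nat_lit 0x0) (nat_lit 0x7000180004000e00060002800000000c000a0000000000) := T_41 (nat_lit 163) (nat_lit 146) (nat_lit 2) (nat_lit 7) (nat_lit 9) L110131 (by decide +kernel)
theorem L110133 : W_41 (nat_lit 10) (nat_lit 0x60009000080014000200010001000000000000000) (nat_lit 0x0) (nat_lit 0x7200190004000e00060002800000000c000a0000000000) := T_41 (nat_lit 160) (nat_lit 177) (nat_lit 5) (nat_lit 8) (nat_lit 6) L110132 (by decide +kernel)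
theorem L110134 : W_41 (nat_lit 2) (nat_lit 0x7000d000380014000a00050001c00000000000000) (nat_lit 0x0) (nat_lit 0x1000080004000000000000000) := D_41 (nat_lit 79) (nat_lit 62) (nat_lit 96) (nat_lit 6) (nat_lit 10) (nat_lit 7) (nat_lit 6) (nat_lit 10) (nat_lit 8) (by decide +kernel)
theorem L110135 : W_41 (nat_lit 3) (nat_lit 0x7000d000380014000a00010001c00000000000000) (nat_lit 0x0) (nat_lit 0x4000000010000c0004000000000000000) := T_41 (nat_lit 78) (nat_lit 130) (nat_lit 7) (nat_lit 10) (nat_lit 4) L110134 (by decide +kernel)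
theorem L110136 : W_41 (nat_lit 4) (nat_lit 0x7000d000380014000200010001c00000000000000) (nat_lit 0x0) (nat_lit 0x1000000004000000018000c0004000000000000000) := T_41 (nat_lit 95) (nat_lit 164) (nat_lit 7) (nat_lit 10) (nat_lit 5) L110135 (by decide +kernel)
theorem L110137 : W_41 (nat_lit 5) (nat_lit 0x7000d000180014000200010001c00000000000000) (nat_lit 0x0) (nat_lit 0x1000000006400000018000c0004000000000000000) := T_41 (nat_lit 129) (nat_lit 126) (nat_lit 3) (nat_lit 7) (nat_lit 7) L110136 (by decide +kernel)
theorem L110138 : W_41 (nat_lit 6) (nat_lit 0x70009000180014000200010001c00000000000000) (nat_lit 0x0) (nat_lit 0x1800040006400000018000c0004000000000000000) := T_41 (nat_lit 146) (nat_lit 163) (nat_lit 2) (nat_lit 7) (nat_lit 9) L110137 (by decide +kernel)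
theorem L110139 : W_41 (nat_lit 7) (nat_lit 0x60009000180014000200010001c00000000000000) (nat_lit 0x0) (nat_lit 0x2001900040006400000018000c0004000000000000000) := T_41 (nat_lit 160) (nat_lit 177) (nat_lit 5) (nat_lit 8) (nat_lit 6) L110138 (by decide +kernel)
theorem L110140 : W_41 (nat_lit 8) (nat_lit 0x60009000080014000200010001c00000000000000) (nat_lit 0x0) (nat_lit 0x2001900040007400080018000c0004000000000000000) := T_41 (nat_lit 128) (nat_lit 111) (nat_lit 7) (nat_lit 8) (nat_lit 3) L110139 (by decide +kernel)
theorem L110141 : W_41 (nat_lit 9) (nat_lit 0x60009000080014000200010001800000000000000) (nat_lit 0x0) (nat_lit 0x2001900040007400080018000c0004400020000000000) := T_41 (nat_lit 58) (nat_lit 41) (nat_lit 4) (nat_lit 8) (nat_lit 6) L110140 (by decide +kernel)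
theorem L110142 : W_41 (nat_lit 10) (nat_lit 0x60009000080014000200010001000000000000000) (nat_lit 0x0) (nat_lit 0x2001900040007400080018000c0004c000a0000000000) := T_41 (nat_lit 59) (nat_lit 43) (nat_lit 6) (nat_lit 8) (nat_lit 6) L110141 (by decide +kernel)
theorem L110143 : W_41 (nat_lit 11) (nat_lit 0x60009000080004000200010001000000000000000) (nat_lit 0x0) (nat_lit 0x7200190004000f400780039000c0004c000a0000000000) := Q_41 (nat_lit 112) (C_41 L110112 (C_41 L110116 (C_41 L110124 (C_41 L110133 (C_41 L110142 N_41))))) (by decide +kernel)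
theorem L110144 : W_41 (nat_lit 12) (nat_lit 0x60009000080004000200010000000000000000000) (nat_lit 0x0) (nat_lit 0x7200190004000f400780039000e0005c000a0000000000) := T_41 (nat_lit 60) (nat_lit 77) (nat_lit 6) (nat_lit 8) (nat_lit 7) L110143 (by decide +kernel)
theorem L110145 : W_41 (nat_lit 2) (nat_lit 0x10000f000900048002c000200010001800000000000000) (nat_lit 0x0) (nat_lit 0x800010000100000000000000000000000) := D_41 (nat_lit 112) (nat_lit 131) (nat_lit 92) (nat_lit 3) (nat_lit 8) (nat_lit 6) (nat_lit 0) (nat_lit 11) (nat_lit 6) (by decide +kernel)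
theorem L110146 : W_41 (nat_lit 3) (nat_lit 0x10000f0009000480024000200010001800000000000000) (nat_lit 0x0) (nat_lit 0x900018000100000000000000000000000) := T_41 (nat_lit 111) (nat_lit 128) (nat_lit 7) (nat_lit 8) (nat_lit 3) L110145 (by decide +kernel)
theorem L110147 : W_41 (nat_lit 4) (nat_lit 0x10000f0009000080024000200010001800000000000000) (nat_lit 0x0) (nat_lit 0x100000000d00018000100000000000000000000000) := T_41 (nat_lit 130) (nat_lit 164) (nat_lit 5) (nat_lit 11) (nat_lit 6) L110146 (by decide +kernel)
theorem L110148 : W_41 (nat_lit 5) (nat_lit 0x10000f0009000080024000200010001000000000000000) (nat_lit 0x0) (nat_lit 0x100000000d00018000100000000800080000000000) := T_41 (nat_lit 59) (nat_lit 43) (nat_lit 6) (nat_lit 8) (nat_lit 6) L110147 (by decide +kernel)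
theorem L110149 : W_41 (nat_lit 6) (nat_lit 0xf0009000080024000200010001000000000000000) (nat_lit 0x0) (nat_lit 0x3000100000000d00018000100000000800080000000000) := T_41 (nat_lit 180) (nat_lit 181) (nat_lit 3) (nat_lit 7) (nat_lit 9) L110148 (by decide +kernel)
theorem L110150 : W_41 (nat_lit 7) (nat_lit 0xf0009000080024000200010000000000000000000) (nat_lit 0x0) (nat_lit 0x3000100000000d00018000100020001800080000000000) := T_41 (nat_lit 60) (nat_lit 77) (nat_lit 6) (nat_lit 8) (nat_lit 7) L110149 (by decide +kernel)
theorem L110151 : W_41 (nat_lit 8) (nat_lit 0x70009000080024000200010000000000000000000) (nat_lit 0x0) (nat_lit 0x3000180004000d00018000100020001800080000000000) := T_41 (nat_lit 163) (nat_lit 146) (nat_lit 2) (nat_lit 7) (nat_lit 9) L110150 (by decide +kernel)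
theorem L110152 : W_41 (nat_lit 9) (nat_lit 0x60009000080024000200010000000000000000000) (nat_lit 0x0) (nat_lit 0x3200190004000d00018000100020001800080000000000) := T_41 (nat_lit 160) (nat_lit 177) (nat_lit 5) (nat_lit 8) (nat_lit 6) L110151 (by decide +kernel)
theorem L110153 : W_41 (nat_lit 2) (nat_lit 0x6000900008002c000300010001000000000000000) (nat_lit 0x0) (nat_lit 0x100000000000000000800080000000000) := D_41 (nat_lit 59) (nat_lit 43) (nat_lit 128) (nat_lit 6) (nat_lit 8) (nat_lit 6) (nat_lit 7) (nat_lit 8) (nat_lit 3) (by decide +kernel)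
theorem L110154 : W_41 (nat_lit 3) (nat_lit 0x60009000080024000300010001000000000000000) (nat_lit 0x0) (nat_lit 0x100018000000000000800080000000000) := T_41 (nat_lit 111) (nat_lit 112) (nat_lit 0) (nat_lit 11) (nat_lit 6) L110153 (by decide +kernel)
theorem L110155 : W_41 (nat_lit 4) (nat_lit 0x60009000080024000200010001000000000000000) (nat_lit 0x0) (nat_lit 0x100018000100008000800080000000000) := T_41 (nat_lit 92) (nat_lit 75) (nat_lit 4) (nat_lit 8) (nat_lit 8) L110154 (by decide +kernel)
theorem L110156 : W_41 (nat_lit 5) (nat_lit 0x60009000080024000200010000000000000000000) (nat_lit 0x0) (nat_lit 0x100018000100028001800080000000000) := T_41 (nat_lit 60) (nat_lit 77) (nat_lit 6) (nat_lit 8) (nat_lit 7) L110155 (by decide +kernel)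
theorem L110157 : W_41 (nat_lit 2) (nat_lit 0xf0009000480024000300010000000000000000000) (nat_lit 0x0) (nat_lit 0x3000100000000000000000000000000000000000000000) := D_41 (nat_lit 180) (nat_lit 181) (nat_lit 164) (nat_lit 3) (nat_lit 7) (nat_lit 9) (nat_lit 5) (nat_lit 11) (nat_lit 6) (by decide +kernel)
theorem L110158 : W_41 (nat_lit 3) (nat_lit 0x70009000480024000300010000000000000000000) (nat_lit 0x0) (nat_lit 0x3000180004000000000000000000000000000000000000) := T_41 (nat_lit 163) (nat_lit 146) (nat_lit 2) (nat_lit 7) (nat_lit 9) L110157 (by decide +kernel)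
theorem L110159 : W_41 (nat_lit 4) (nat_lit 0x60009000480024000300010000000000000000000) (nat_lit 0x0) (nat_lit 0x3200190004000000000000000000000000000000000000) := T_41 (nat_lit 160) (nat_lit 177) (nat_lit 5) (nat_lit 8) (nat_lit 6) L110158 (by decide +kernel)
theorem L110160 : W_41 (nat_lit 5) (nat_lit 0x60009000480024000200010000000000000000000) (nat_lit 0x0) (nat_lit 0x3200190004000000000000100008000000000000000000) := T_41 (nat_lit 92) (nat_lit 75) (nat_lit 4) (nat_lit 8) (nat_lit 8) L110159 (by decide +kernel)
theorem L110161 : W_41 (nat_lit 2) (nat_lit 0xe0009000480024003340070000000000000000000) (nat_lit 0x0) (nat_lit 0x1000100000000000040000000000000000000000000000) := D_41 (nat_lit 164) (nat_lit 180) (nat_lit 114) (nat_lit 5) (nat_lit 11) (nat_lit 6) (nat_lit 6) (nat_lit 11) (nat_lit 9) (by decide +kernel)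
theorem L110162 : W_41 (nat_lit 3) (nat_lit 0xe0009000480024001340070000000000000000000) (nat_lit 0x0) (nat_lit 0x1000100000000000040002000100000000000000000000) := T_41 (nat_lit 97) (nat_lit 80) (nat_lit 6) (nat_lit 11) (nat_lit 8) L110161 (by decide +kernel)
theorem L110163 : W_41 (nat_lit 4) (nat_lit 0x60009000480024001340070000000000000000000) (nat_lit 0x0) (nat_lit 0x1000180004000000040002000100000000000000000000) := T_41 (nat_lit 163) (nat_lit 146) (nat_lit 5) (nat_lit 11) (nat_lit 5) L110162 (by decide +kernel)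
theorem L110164 : W_41 (nat_lit 5) (nat_lit 0x60009000480024000340070000000000000000000) (nat_lit 0x0) (nat_lit 0x1000180004000000040003800100000000000000000000) := T_41 (nat_lit 96) (nat_lit 95) (nat_lit 4) (nat_lit 11) (nat_lit 8) L110163 (by decide +kernel)
theorem L110165 : W_41 (nat_lit 6) (nat_lit 0x60009000480024000340030000000000000000000) (nat_lit 0x0) (nat_lit 0x10001800040000000400038001c0000000000000000000) := T_41 (nat_lit 78) (nat_lit 79) (nat_lit 1) (nat_lit 11) (nat_lit 4) L110164 (by decide +kernel)
theorem L110166 : W_41 (nat_lit 7) (nat_lit 0x60009000480024000300030000000000000000000) (nat_lit 0x0) (nat_lit 0x10001800040000000400038c01c0000000000000000000) := T_41 (nat_lit 90) (nat_lit 91) (nat_lit 2) (nat_lit 5) (nat_lit 5) L110165 (by decide +kernel)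
theorem L110167 : W_41 (nat_lit 8) (nat_lit 0x60009000480024000200030000000000000000000) (nat_lit 0x0) (nat_lit 0x10001800040000000400039c01c8000000000000000000) := T_41 (nat_lit 92) (nat_lit 75) (nat_lit 4) (nat_lit 8) (nat_lit 8) L110166 (by decide +kernel)
theorem L110168 : W_41 (nat_lit 9) (nat_lit 0x60009000480024000200010000000000000000000) (nat_lit 0x0) (nat_lit 0x10001800040000000400039c01e8001000000000000000) := T_41 (nat_lit 77) (nat_lit 60) (nat_lit 6) (nat_lit 8) (nat_lit 7) L110167 (by decide +kernel)
theorem L110169 : W_41 (nat_lit 2) (nat_lit 0xf0009000480024000200010000000000000000000) (nat_lit 0x0) (nat_lit 0x3000100000000000000000000000000000000000000000) := D_41 (nat_lit 180) (nat_lit 181) (nat_lit 164) (nat_lit 3) (nat_lit 7) (nat_lit 9) (nat_lit 5) (nat_lit 11) (nat_lit 6) (by decide +kernel)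
theorem L110170 : W_41 (nat_lit 3) (nat_lit 0x70009000480024000200010000000000000000000) (nat_lit 0x0) (nat_lit 0x3000180004000000000000000000000000000000000000) := T_41 (nat_lit 163) (nat_lit 146) (nat_lit 2) (nat_lit 7) (nat_lit 9) L110169 (by decide +kernel)
theorem L110171 : W_41 (nat_lit 4) (nat_lit 0x60009000480024000200010000000000000000000) (nat_lit 0x0) (nat_lit 0x3200190004000000000000000000000000000000000000) := T_41 (nat_lit 160) (nat_lit 177) (nat_lit 5) (nat_lit 8) (nat_lit 6) L110170 (by decide +kernel)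
theorem L110172 : W_41 (nat_lit 2) (nat_lit 0x1f0009000480024003340070000000000000000000) (nat_lit 0x0) (nat_lit 0x6000200000000000000000000000000000000000000000) := D_41 (nat_lit 182) (nat_lit 181) (nat_lit 165) (nat_lit 3) (nat_lit 8) (nat_lit 9) (nat_lit 7) (nat_lit 11) (nat_lit 6) (by decide +kernel)
theorem L110173 : W_41 (nat_lit 3) (nat_lit 0x170009000480024003340070000000000000000000) (nat_lit 0x0) (nat_lit 0x7000280000000000000000000000000000000000000000) := T_41 (nat_lit 163) (nat_lit 180) (nat_lit 5) (nat_lit 11) (nat_lit 6) L110172 (by decide +kernel)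
theorem L110174 : W_41 (nat_lit 4) (nat_lit 0x70009000480024003340070000000000000000000) (nat_lit 0x0) (nat_lit 0x7000380000000000040000000000000000000000000000) := T_41 (nat_lit 164) (nat_lit 114) (nat_lit 6) (nat_lit 11) (nat_lit 9) L110173 (by decide +kernel)
theorem L110175 : W_41 (nat_lit 5) (nat_lit 0x70009000480024001340070000000000000000000) (nat_lit 0x0) (nat_lit 0x7000380000000000040002000100000000000000000000) := T_41 (nat_lit 97) (nat_lit 80) (nat_lit 6) (nat_lit 11) (nat_lit 8) L110174 (by decide +kernel)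
theorem L110176 : W_41 (nat_lit 6) (nat_lit 0x70009000480024000340070000000000000000000) (nat_lit 0x0) (nat_lit 0x7000380000000000040003800100000000000000000000) := T_41 (nat_lit 96) (nat_lit 95) (nat_lit 4) (nat_lit 11) (nat_lit 8) L110175 (by decide +kernel)
theorem L110177 : W_41 (nat_lit 7) (nat_lit 0x60009000480024000340070000000000000000000) (nat_lit 0x0) (nat_lit 0x7200390000000000040003800100000000000000000000) := T_41 (nat_lit 160) (nat_lit 177) (nat_lit 5) (nat_lit 8) (nat_lit 6) L110176 (by decide +kernel)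
theorem L110178 : W_41 (nat_lit 8) (nat_lit 0x60009000480024000340030000000000000000000) (nat_lit 0x0) (nat_lit 0x72003900000000000400038001c0000000000000000000) := T_41 (nat_lit 78) (nat_lit 79) (nat_lit 1) (nat_lit 11) (nat_lit 4) L110177 (by decide +kernel)
theorem L110179 : W_41 (nat_lit 9) (nat_lit 0x60009000480024000300030000000000000000000) (nat_lit 0x0) (nat_lit 0x72003900000000000400038c01c0000000000000000000) := T_41 (nat_lit 90) (nat_lit 91) (nat_lit 2) (nat_lit 5) (nat_lit 5) L110178 (by decide +kernel)
theorem L110180 : W_41 (nat_lit 10) (nat_lit 0x60009000480024000200030000000000000000000) (nat_lit 0x0) (nat_lit 0x72003900000000000400039c01c8000000000000000000) := T_41 (nat_lit 92) (nat_lit 75) (nat_lit 4) (nat_lit 8) (nat_lit 8) L110179 (by decide +kernel)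
theorem L110181 : W_41 (nat_lit 11) (nat_lit 0x60009000480024000200010000000000000000000) (nat_lit 0x0) (nat_lit 0x72003900000000000400039c01e8001000000000000000) := T_41 (nat_lit 77) (nat_lit 60) (nat_lit 6) (nat_lit 8) (nat_lit 7) L110180 (by decide +kernel)
theorem L110182 : W_41 (nat_lit 2) (nat_lit 0x7000d0004800240013400b0000000000000000000) (nat_lit 0x0) (nat_lit 0x2000100008000000000000000) := D_41 (nat_lit 80) (nat_lit 63) (nat_lit 97) (nat_lit 6) (nat_lit 11) (nat_lit 7) (nat_lit 6) (nat_lit 11) (nat_lit 8) (by decide +kernel)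
theorem L110183 : W_41 (nat_lit 3) (nat_lit 0x7000d0004800240003400b0000000000000000000) (nat_lit 0x0) (nat_lit 0x200000003000100008000000000000000) := T_41 (nat_lit 96) (nat_lit 129) (nat_lit 5) (nat_lit 11) (nat_lit 4) L110182 (by decide +kernel)
theorem L110184 : W_41 (nat_lit 4) (nat_lit 0x7000d000480024000340030000000000000000000) (nat_lit 0x0) (nat_lit 0x2000000030001c0008000000000000000) := T_41 (nat_lit 79) (nat_lit 78) (nat_lit 1) (nat_lit 11) (nat_lit 4) L110183 (by decide +kernel)
theorem L110185 : W_41 (nat_lit 5) (nat_lit 0x7000d000480024000300030000000000000000000) (nat_lit 0x0) (nat_lit 0x2000000030c01c0008000000000000000) := T_41 (nat_lit 90) (nat_lit 91) (nat_lit 2) (nat_lit 5) (nat_lit 5) L110184 (by decide +kernel)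
theorem L110186 : W_41 (nat_lit 6) (nat_lit 0x7000d000480024000200030000000000000000000) (nat_lit 0x0) (nat_lit 0x2000000031c01c8008000000000000000) := T_41 (nat_lit 92) (nat_lit 75) (nat_lit 4) (nat_lit 8) (nat_lit 8) L110185 (by decide +kernel)
theorem L110187 : W_41 (nat_lit 7) (nat_lit 0x7000d000480024000200010000000000000000000) (nat_lit 0x0) (nat_lit 0x2000000031c01e8009000000000000000) := T_41 (nat_lit 77) (nat_lit 60) (nat_lit 6) (nat_lit 8) (nat_lit 7) L110186 (by decide +kernel)
theorem L110188 : W_41 (nat_lit 8) (nat_lit 0x70009000480024000200010000000000000000000) (nat_lit 0x0) (nat_lit 0x800040002000000031c01e8009000000000000000) := T_41 (nat_lit 146) (nat_lit 163) (nat_lit 2) (nat_lit 7) (nat_lit 9) L110187 (by decide +kernel)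
theorem L110189 : W_41 (nat_lit 9) (nat_lit 0x60009000480024000200010000000000000000000) (nat_lit 0x0) (nat_lit 0x2000900040002000000031c01e8009000000000000000) := T_41 (nat_lit 160) (nat_lit 177) (nat_lit 5) (nat_lit 8) (nat_lit 6) L110188 (by decide +kernel)
theorem L110190 : W_41 (nat_lit 2) (nat_lit 0x2000170009000580064000300010001800000000000000) (nat_lit 0x0) (nat_lit 0x80004000200000000000000000000000000000000000000000) := D_41 (nat_lit 182) (nat_lit 165) (nat_lit 199) (nat_lit 7) (nat_lit 11) (nat_lit 6) (nat_lit 7) (nat_lit 11) (nat_lit 7) (by decide +kernel)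
theorem L110191 : W_41 (nat_lit 3) (nat_lit 0x170009000580064000300010001800000000000000) (nat_lit 0x0) (nat_lit 0x80006000200000000800000000000000000000000000000000) := T_41 (nat_lit 181) (nat_lit 131) (nat_lit 6) (nat_lit 11) (nat_lit 10) L110190 (by decide +kernel)
theorem L110192 : W_41 (nat_lit 4) (nat_lit 0x70009000580064000300010001800000000000000) (nat_lit 0x0) (nat_lit 0x80006000300000000800000002000000000000000000000000) := T_41 (nat_lit 164) (nat_lit 97) (nat_lit 6) (nat_lit 11) (nat_lit 9) L110191 (by decide +kernel)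
theorem L110193 : W_41 (nat_lit 5) (nat_lit 0x70009000580024000300010001800000000000000) (nat_lit 0x0) (nat_lit 0x80006000300000000a00040002000000000000000000000000) := T_41 (nat_lit 114) (nat_lit 129) (nat_lit 2) (nat_lit 8) (nat_lit 7) L110192 (by decide +kernel)
theorem L110194 : W_41 (nat_lit 6) (nat_lit 0x70009000480024000300010001800000000000000) (nat_lit 0x0) (nat_lit 0x80006000300000000b00048002000000000000000000000000) := T_41 (nat_lit 128) (nat_lit 111) (nat_lit 7) (nat_lit 8) (nat_lit 3) L110193 (by decide +kernel)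
theorem L110195 : W_41 (nat_lit 7) (nat_lit 0x70009000480024000300010001000000000000000) (nat_lit 0x0) (nat_lit 0x80006000300000000b00048002000000000800080000000000) := T_41 (nat_lit 59) (nat_lit 43) (nat_lit 6) (nat_lit 8) (nat_lit 6) L110194 (by decide +kernel)
theorem L110196 : W_41 (nat_lit 8) (nat_lit 0x70009000480024000300010000000000000000000) (nat_lit 0x0) (nat_lit 0x80006000300000000b00048002000020001800080000000000) := T_41 (nat_lit 60) (nat_lit 77) (nat_lit 6) (nat_lit 8) (nat_lit 7) L110195 (by decide +kernel)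
theorem L110197 : W_41 (nat_lit 9) (nat_lit 0x60009000480024000300010000000000000000000) (nat_lit 0x0) (nat_lit 0x80006200310000000b00048002000020001800080000000000) := T_41 (nat_lit 160) (nat_lit 177) (nat_lit 5) (nat_lit 8) (nat_lit 6) L110196 (by decide +kernel)
theorem L110198 : W_41 (nat_lit 10) (nat_lit 0x60009000480024000200010000000000000000000) (nat_lit 0x0) (nat_lit 0x80006200310000000b00048002100028001800080000000000) := T_41 (nat_lit 92) (nat_lit 75) (nat_lit 4) (nat_lit 8) (nat_lit 8) L110197 (by decide +kernel)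
theorem L110199 : W_41 (nat_lit 12) (nat_lit 0x60009000080024000200010000000000000000000) (nat_lit 0x0) (nat_lit 0x80007200390004000f000480039c01e8009800080000000000) := Q_41 (nat_lit 130) (C_41 L110160 (C_41 L110168 (C_41 L110171 (C_41 L110181 (C_41 L110189 (C_41 L110198 N_41)))))) (by decide +kernel)
theorem L110200 : W_41 (nat_lit 2) (nat_lit 0x20001f00090000800340003400b0000000000000000000) (nat_lit 0x0) (nat_lit 0x600000000800000000000000000000000) := D_41 (nat_lit 130) (nat_lit 95) (nat_lit 129) (nat_lit 4) (nat_lit 11) (nat_lit 9) (nat_lit 4) (nat_lit 11) (nat_lit 10) (by decide +kernel)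
theorem L110201 : W_41 (nat_lit 3) (nat_lit 0x20000f00090000800340003400b0000000000000000000) (nat_lit 0x0) (nat_lit 0x4000100000000600000000800000000000000000000000) := T_41 (nat_lit 164) (nat_lit 182) (nat_lit 3) (nat_lit 8) (nat_lit 9) L110200 (by decide +kernel)
theorem L110202 : W_41 (nat_lit 4) (nat_lit 0xf00090000800340003400b0000000000000000000) (nat_lit 0x0) (nat_lit 0x7000100000000600000000800000000000000000000000) := T_41 (nat_lit 181) (nat_lit 180) (nat_lit 3) (nat_lit 7) (nat_lit 9) L110201 (by decide +kernel)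
theorem L110203 : W_41 (nat_lit 5) (nat_lit 0x700090000800340003400b0000000000000000000) (nat_lit 0x0) (nat_lit 0x7000180004000600000000800000000000000000000000) := T_41 (nat_lit 163) (nat_lit 146) (nat_lit 2) (nat_lit 7) (nat_lit 9) L110202 (by decide +kernel)
theorem L110204 : W_41 (nat_lit 6) (nat_lit 0x600090000800340003400b0000000000000000000) (nat_lit 0x0) (nat_lit 0x7200190004000600000000800000000000000000000000) := T_41 (nat_lit 160) (nat_lit 177) (nat_lit 5) (nat_lit 8) (nat_lit 6) L110203 (by decide +kernel)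
theorem L110205 : W_41 (nat_lit 7) (nat_lit 0x600090000800240003400b0000000000000000000) (nat_lit 0x0) (nat_lit 0x7200190004000600018000800000000000000000000000) := T_41 (nat_lit 112) (nat_lit 111) (nat_lit 0) (nat_lit 11) (nat_lit 6) L110204 (by decide +kernel)
theorem L110206 : W_41 (nat_lit 8) (nat_lit 0x60009000080024000340030000000000000000000) (nat_lit 0x0) (nat_lit 0x72001900040006000180008000c0000000000000000000) := T_41 (nat_lit 79) (nat_lit 78) (nat_lit 1) (nat_lit 11) (nat_lit 4) L110205 (by decide +kernel)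
theorem L110207 : W_41 (nat_lit 9) (nat_lit 0x60009000080024000300030000000000000000000) (nat_lit 0x0) (nat_lit 0x72001900040006000180008c00c0000000000000000000) := T_41 (nat_lit 90) (nat_lit 91) (nat_lit 2) (nat_lit 5) (nat_lit 5) L110206 (by decide +kernel)
theorem L110208 : W_41 (nat_lit 10) (nat_lit 0x60009000080024000200030000000000000000000) (nat_lit 0x0) (nat_lit 0x72001900040006000180009c00c8000000000000000000) := T_41 (nat_lit 92) (nat_lit 75) (nat_lit 4) (nat_lit 8) (nat_lit 8) L110207 (by decide +kernel)
theorem L110209 : W_41 (nat_lit 11) (nat_lit 0x60009000080024000200010000000000000000000) (nat_lit 0x0) (nat_lit 0x72001900040006000180009c00e8001000000000000000) := T_41 (nat_lit 77) (nat_lit 60) (nat_lit 6) (nat_lit 8) (nat_lit 7) L110208 (by decide +kernel)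
theorem L110210 : W_41 (nat_lit 2) (nat_lit 0x10000f000900048002c000200010001800000000000000) (nat_lit 0x0) (nat_lit 0x840010000000000000000000000000000) := D_41 (nat_lit 112) (nat_lit 131) (nat_lit 126) (nat_lit 3) (nat_lit 8) (nat_lit 6) (nat_lit 1) (nat_lit 11) (nat_lit 6) (by decide +kernel)
theorem L110211 : W_41 (nat_lit 3) (nat_lit 0x10000f0009000480024000200010001800000000000000) (nat_lit 0x0) (nat_lit 0x940018000000000000000000000000000) := T_41 (nat_lit 111) (nat_lit 128) (nat_lit 7) (nat_lit 8) (nat_lit 3) L110210 (by decide +kernel)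
theorem L110212 : W_41 (nat_lit 4) (nat_lit 0x10000f0009000080024000200010001800000000000000) (nat_lit 0x0) (nat_lit 0x100000000d40018000000000000000000000000000) := T_41 (nat_lit 130) (nat_lit 164) (nat_lit 5) (nat_lit 11) (nat_lit 6) L110211 (by decide +kernel)
theorem L110213 : W_41 (nat_lit 5) (nat_lit 0x10000f0009000080024000200010001000000000000000) (nat_lit 0x0) (nat_lit 0x100000000d40018000000000000800080000000000) := T_41 (nat_lit 59) (nat_lit 43) (nat_lit 6) (nat_lit 8) (nat_lit 6) L110212 (by decide +kernel)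
theorem L110214 : W_41 (nat_lit 6) (nat_lit 0xf0009000080024000200010001000000000000000) (nat_lit 0x0) (nat_lit 0x3000100000000d40018000000000000800080000000000) := T_41 (nat_lit 180) (nat_lit 181) (nat_lit 3) (nat_lit 7) (nat_lit 9) L110213 (by decide +kernel)
theorem L110215 : W_41 (nat_lit 7) (nat_lit 0xf0009000080024000200010000000000000000000) (nat_lit 0x0) (nat_lit 0x3000100000000d40018000000020001800080000000000) := T_41 (nat_lit 60) (nat_lit 77) (nat_lit 6) (nat_lit 8) (nat_lit 7) L110214 (by decide +kernel)
theorem L110216 : W_41 (nat_lit 8) (nat_lit 0x70009000080024000200010000000000000000000) (nat_lit 0x0) (nat_lit 0x3000180004000d40018000000020001800080000000000) := T_41 (nat_lit 163) (nat_lit 146) (nat_lit 2) (nat_lit 7) (nat_lit 9) L110215 (by decide +kernel)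
theorem L110217 : W_41 (nat_lit 9) (nat_lit 0x60009000080024000200010000000000000000000) (nat_lit 0x0) (nat_lit 0x3200190004000d40018000000020001800080000000000) := T_41 (nat_lit 160) (nat_lit 177) (nat_lit 5) (nat_lit 8) (nat_lit 6) L110216 (by decide +kernel)
theorem L110218 : W_41 (nat_lit 2) (nat_lit 0x20001f0009000080034000300010000000000000000000) (nat_lit 0x0) (nat_lit 0x600000000800000000000000000000000) := D_41 (nat_lit 130) (nat_lit 95) (nat_lit 129) (nat_lit 4) (nat_lit 11) (nat_lit 9) (nat_lit 4) (nat_lit 11) (nat_lit 10) (by decide +kernel)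
theorem L110219 : W_41 (nat_lit 3) (nat_lit 0x20000f0009000080034000300010000000000000000000) (nat_lit 0x0) (nat_lit 0x4000100000000600000000800000000000000000000000) := T_41 (nat_lit 164) (nat_lit 182) (nat_lit 3) (nat_lit 8) (nat_lit 9) L110218 (by decide +kernel)
theorem L110220 : W_41 (nat_lit 4) (nat_lit 0xf0009000080034000300010000000000000000000) (nat_lit 0x0) (nat_lit 0x7000100000000600000000800000000000000000000000) := T_41 (nat_lit 181) (nat_lit 180) (nat_lit 3) (nat_lit 7) (nat_lit 9) L110219 (by decide +kernel)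
theorem L110221 : W_41 (nat_lit 5) (nat_lit 0x70009000080034000300010000000000000000000) (nat_lit 0x0) (nat_lit 0x7000180004000600000000800000000000000000000000) := T_41 (nat_lit 163) (nat_lit 146) (nat_lit 2) (nat_lit 7) (nat_lit 9) L110220 (by decide +kernel)
theorem L110222 : W_41 (nat_lit 6) (nat_lit 0x60009000080034000300010000000000000000000) (nat_lit 0x0) (nat_lit 0x7200190004000600000000800000000000000000000000) := T_41 (nat_lit 160) (nat_lit 177) (nat_lit 5) (nat_lit 8) (nat_lit 6) L110221 (by decide +kernel)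
theorem L110223 : W_41 (nat_lit 7) (nat_lit 0x60009000080024000300010000000000000000000) (nat_lit 0x0) (nat_lit 0x7200190004000600018000800000000000000000000000) := T_41 (nat_lit 112) (nat_lit 111) (nat_lit 0) (nat_lit 11) (nat_lit 6) L110222 (by decide +kernel)
theorem L110224 : W_41 (nat_lit 8) (nat_lit 0x60009000080024000200010000000000000000000) (nat_lit 0x0) (nat_lit 0x7200190004000600018000900008000000000000000000) := T_41 (nat_lit 92) (nat_lit 75) (nat_lit 4) (nat_lit 8) (nat_lit 8) L110223 (by decide +kernel)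
theorem L110225 : W_41 (nat_lit 2) (nat_lit 0x10000f0009000480024000b40070000000000000000000) (nat_lit 0x0) (nat_lit 0x200010000000000002000000000000000) := D_41 (nat_lit 112) (nat_lit 61) (nat_lit 129) (nat_lit 7) (nat_lit 10) (nat_lit 3) (nat_lit 7) (nat_lit 10) (nat_lit 4) (by decide +kernel)
theorem L110226 : W_41 (nat_lit 3) (nat_lit 0x10000f0009000480024000340070000000000000000000) (nat_lit 0x0) (nat_lit 0x200010001800000002000000000000000) := T_41 (nat_lit 95) (nat_lit 96) (nat_lit 4) (nat_lit 11) (nat_lit 8) L110225 (by decide +kernel)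
theorem L110227 : W_41 (nat_lit 4) (nat_lit 0x10000f0009000080024000340070000000000000000000) (nat_lit 0x0) (nat_lit 0x100000000600010001800000002000000000000000) := T_41 (nat_lit 130) (nat_lit 164) (nat_lit 5) (nat_lit 11) (nat_lit 6) L110226 (by decide +kernel)
theorem L110228 : W_41 (nat_lit 5) (nat_lit 0x10000f0009000080024000340030000000000000000000) (nat_lit 0x0) (nat_lit 0x1000000006000100018000c0002000000000000000) := T_41 (nat_lit 78) (nat_lit 79) (nat_lit 1) (nat_lit 11) (nat_lit 4) L110227 (by decide +kernel)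
theorem L110229 : W_41 (nat_lit 6) (nat_lit 0x10000f0009000080024000300030000000000000000000) (nat_lit 0x0) (nat_lit 0x1000000006000100018c00c0002000000000000000) := T_41 (nat_lit 90) (nat_lit 91) (nat_lit 2) (nat_lit 5) (nat_lit 5) L110228 (by decide +kernel)
theorem L110230 : W_41 (nat_lit 7) (nat_lit 0x10000f0009000080024000200030000000000000000000) (nat_lit 0x0) (nat_lit 0x1000000006000100019c00c8002000000000000000) := T_41 (nat_lit 92) (nat_lit 75) (nat_lit 4) (nat_lit 8) (nat_lit 8) L110229 (by decide +kernel)
theorem L110231 : W_41 (nat_lit 8) (nat_lit 0xf0009000080024000200030000000000000000000) (nat_lit 0x0) (nat_lit 0x30001000000006000100019c00c8002000000000000000) := T_41 (nat_lit 180) (nat_lit 181) (nat_lit 3) (nat_lit 7) (nat_lit 9) L110230 (by decide +kernel)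
theorem L110232 : W_41 (nat_lit 9) (nat_lit 0xf0009000080024000200010000000000000000000) (nat_lit 0x0) (nat_lit 0x30001000000006000100019c00e8003000000000000000) := T_41 (nat_lit 77) (nat_lit 60) (nat_lit 6) (nat_lit 8) (nat_lit 7) L110231 (by decide +kernel)
theorem L110233 : W_41 (nat_lit 10) (nat_lit 0x70009000080024000200010000000000000000000) (nat_lit 0x0) (nat_lit 0x30001800040006000100019c00e8003000000000000000) := T_41 (nat_lit 163) (nat_lit 146) (nat_lit 2) (nat_lit 7) (nat_lit 9) L110232 (by decide +kernel)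
theorem L110234 : W_41 (nat_lit 11) (nat_lit 0x60009000080024000200010000000000000000000) (nat_lit 0x0) (nat_lit 0x32001900040006000100019c00e8003000000000000000) := T_41 (nat_lit 160) (nat_lit 177) (nat_lit 5) (nat_lit 8) (nat_lit 6) L110233 (by decide +kernel)
theorem L110235 : W_41 (nat_lit 13) (nat_lit 0x60009000080004000200010000000000000000000) (nat_lit 0x0) (nat_lit 0x80007200390004000f400780039c01e800b800080000000000) := Q_41 (nat_lit 113) (C_41 L110152 (C_41 L110156 (C_41 L110199 (C_41 L110209 (C_41 L110217 (C_41 L110224 (C_41 L110234 N_41))))))) (by decide +kernel)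
theorem L110236 : W_41 (nat_lit 14) (nat_lit 0x60009000080004000200000000000000000000000) (nat_lit 0x0) (nat_lit 0x80007200390004000f400780039c01f800fc000a0000000000) := Q_41 (nat_lit 76) (C_41 L110099 (C_41 L110105 (C_41 L110144 (C_41 L110235 N_41)))) (by decide +kernel)
theorem L110237 : W_41 (nat_lit 15) (nat_lit 0x60009000080004000000000000000000000000000) (nat_lit 0x0) (nat_lit 0x80007200390004000f70078003fc01f800fc000a0000000000) := Q_41 (nat_lit 93) (C_41 L109094 (C_41 L109561 (C_41 L108895 (C_41 L110236 N_41)))) (by decide +kernel)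
theorem L110238 : W_41 (nat_lit 16) (nat_lit 0x60001000080004000000000000000000000000000) (nat_lit 0x0) (nat_lit 0x20001c001e000f201f9007c003f703f801ffc07fe00fc003a0000000000) := Q_41 (nat_lit 147) (C_41 L109316 (C_41 L109321 (C_41 L109325 (C_41 L109553 (C_41 L109573 (C_41 L110098 (C_41 L110237 N_41))))))) (by decide +kernel)
theorem L110239 : W_41 (nat_lit 17) (nat_lit 0x20001000080004000000000000000000000000000) (nat_lit 0x0) (nat_lit 0x20001c001e000fa01fd007c003f703f801ffc07fe00fc003a0000000000) := T_41 (nat_lit 162) (nat_lit 179) (nat_lit 7) (nat_lit 8) (nat_lit 6) L110238 (by decide +kernel)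
theorem L110240 : W_41 (nat_lit 2) (nat_lit 0x200010000e000c000000000000000000000000000) (nat_lit 0x0) (nat_lit 0x32000000000000000000000000000) := D_41 (nat_lit 112) (nat_lit 113) (nat_lit 109) (nat_lit 1) (nat_lit 11) (nat_lit 6) (nat_lit 1) (nat_lit 10) (nat_lit 6) (by decide +kernel)
theorem L110241 : W_41 (nat_lit 3) (nat_lit 0x200010000c000c000000000000000000000000000) (nat_lit 0x0) (nat_lit 0x30032000000000000000000000000000) := T_41 (nat_lit 125) (nat_lit 124) (nat_lit 2) (nat_lit 5) (nat_lit 7) L110240 (by decide +kernel)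
theorem L110242 : W_41 (nat_lit 4) (nat_lit 0x200010000c0004000000000000000000000000000) (nat_lit 0x0) (nat_lit 0x3003a000400000000000000000000000) := T_41 (nat_lit 111) (nat_lit 94) (nat_lit 6) (nat_lit 8) (nat_lit 9) L110241 (by decide +kernel)
theorem L110243 : W_41 (nat_lit 2) (nat_lit 0x700010002c001f800000000000000000000000000) (nat_lit 0x0) (nat_lit 0xe0000000000000000000000) := D_41 (nat_lit 90) (nat_lit 91) (nat_lit 89) (nat_lit 0) (nat_lit 9) (nat_lit 6) (nat_lit 0) (nat_lit 8) (nat_lit 6) (by decide +kernel)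
theorem L110244 : W_41 (nat_lit 3) (nat_lit 0x700010002c001f000000000000000000000000000) (nat_lit 0x0) (nat_lit 0xc000e0000000000000000000000) := T_41 (nat_lit 107) (nat_lit 106) (nat_lit 3) (nat_lit 4) (nat_lit 6) L110243 (by decide +kernel)
theorem L110245 : W_41 (nat_lit 4) (nat_lit 0x700010002c001e000000000000000000000000000) (nat_lit 0x0) (nat_lit 0x100001c000e0000000000000000000000) := T_41 (nat_lit 108) (nat_lit 128) (nat_lit 3) (nat_lit 6) (nat_lit 6) L110244 (by decide +kernel)
theorem L110246 : W_41 (nat_lit 5) (nat_lit 0x700010000c001e000000000000000000000000000) (nat_lit 0x0) (nat_lit 0x700001c000e0000000000000000000000) := T_41 (nat_lit 129) (nat_lit 130) (nat_lit 3) (nat_lit 7) (nat_lit 6) L110245 (by decide +kernel)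
theorem L110247 : W_41 (nat_lit 6) (nat_lit 0x600010000c001e000000000000000000000000000) (nat_lit 0x0) (nat_lit 0x200010000000700001c000e0000000000000000000000) := T_41 (nat_lit 160) (nat_lit 177) (nat_lit 5) (nat_lit 8) (nat_lit 6) L110246 (by decide +kernel)
theorem L110248 : W_41 (nat_lit 7) (nat_lit 0x600010000c000e000000000000000000000000000) (nat_lit 0x0) (nat_lit 0x200010000000700031c000e0000000000000000000000) := T_41 (nat_lit 112) (nat_lit 113) (nat_lit 1) (nat_lit 11) (nat_lit 6) L110247 (by decide +kernel)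
theorem L110249 : W_41 (nat_lit 8) (nat_lit 0x600010000c0006000000000000000000000000000) (nat_lit 0x0) (nat_lit 0x200010000000700039c004e0000000000000000000000) := T_41 (nat_lit 111) (nat_lit 94) (nat_lit 6) (nat_lit 8) (nat_lit 9) L110248 (by decide +kernel)
theorem L110250 : W_41 (nat_lit 9) (nat_lit 0x600010000c0004000000000000000000000000000) (nat_lit 0x0) (nat_lit 0x20001000000070003bc005e0000000000000000000000) := T_41 (nat_lit 109) (nat_lit 92) (nat_lit 4) (nat_lit 8) (nat_lit 9) L110249 (by decide +kernel)
theorem L110251 : W_41 (nat_lit 10) (nat_lit 0x200010000c0004000000000000000000000000000) (nat_lit 0x0) (nat_lit 0xa0005000000070003bc005e0000000000000000000000) := T_41 (nat_lit 162) (nat_lit 179) (nat_lit 7) (nat_lit 8) (nat_lit 6) L110250 (by decide +kernel)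
theorem L110252 : W_41 (nat_lit 2) (nat_lit 0x200010000e0004000000000000000000000000000) (nat_lit 0x0) (nat_lit 0x10008000400000000000000000000000) := D_41 (nat_lit 111) (nat_lit 94) (nat_lit 124) (nat_lit 6) (nat_lit 8) (nat_lit 9) (nat_lit 2) (nat_lit 5) (nat_lit 7) (by decide +kernel)
theorem L110253 : W_41 (nat_lit 2) (nat_lit 0x300012000f0006800000000000000000000000000) (nat_lit 0x0) (nat_lit 0x400100001000000000000000000000000000) := D_41 (nat_lit 128) (nat_lit 108) (nat_lit 142) (nat_lit 3) (nat_lit 5) (nat_lit 6) (nat_lit 1) (nat_lit 9) (nat_lit 7) (by decide +kernel)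
theorem L110254 : W_41 (nat_lit 3) (nat_lit 0x300010000f0006800000000000000000000000000) (nat_lit 0x0) (nat_lit 0x700100001000000000000000000000000000) := T_41 (nat_lit 141) (nat_lit 140) (nat_lit 1) (nat_lit 8) (nat_lit 7) L110253 (by decide +kernel)
theorem L110255 : W_41 (nat_lit 4) (nat_lit 0x300010000f0006000000000000000000000000000) (nat_lit 0x0) (nat_lit 0x700100001c00000000000000000000000000) := T_41 (nat_lit 107) (nat_lit 106) (nat_lit 0) (nat_lit 8) (nat_lit 7) L110254 (by decide +kernel)
theorem L110256 : W_41 (nat_lit 5) (nat_lit 0x200010000f0006000000000000000000000000000) (nat_lit 0x0) (nat_lit 0x200010000700100001c00000000000000000000000000) := T_41 (nat_lit 160) (nat_lit 177) (nat_lit 5) (nat_lit 8) (nat_lit 6) L110255 (by decide +kernel)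
theorem L110257 : W_41 (nat_lit 6) (nat_lit 0x200010000e0006000000000000000000000000000) (nat_lit 0x0) (nat_lit 0x200010000700118001c00000000000000000000000000) := T_41 (nat_lit 124) (nat_lit 123) (nat_lit 2) (nat_lit 4) (nat_lit 7) L110256 (by decide +kernel)
theorem L110258 : W_41 (nat_lit 7) (nat_lit 0x200010000e0004000000000000000000000000000) (nat_lit 0x0) (nat_lit 0x200010000700118003c00100000000000000000000000) := T_41 (nat_lit 109) (nat_lit 92) (nat_lit 4) (nat_lit 8) (nat_lit 9) L110257 (by decide +kernel)
theorem L110259 : W_41 (nat_lit 2) (nat_lit 0x700014001e000d00008000a000000000000000000) (nat_lit 0x0) (nat_lit 0x4000500000000000000) := D_41 (nat_lit 74) (nat_lit 58) (nat_lit 56) (nat_lit 6) (nat_lit 6) (nat_lit 7) (nat_lit 4) (nat_lit 6) (nat_lit 7) (by decide +kernel)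
theorem L110260 : W_41 (nat_lit 3) (nat_lit 0x700014001e000d000080008000000000000000000) (nat_lit 0x0) (nat_lit 0x40006000500000000000000) := T_41 (nat_lit 73) (nat_lit 90) (nat_lit 4) (nat_lit 6) (nat_lit 8) L110259 (by decide +kernel)
theorem L110261 : W_41 (nat_lit 4) (nat_lit 0x700014001e000d000080000000000000000000000) (nat_lit 0x0) (nat_lit 0x14000e000500000000000000) := T_41 (nat_lit 75) (nat_lit 92) (nat_lit 6) (nat_lit 6) (nat_lit 8) L110260 (by decide +kernel)
theorem L110262 : W_41 (nat_lit 2) (nat_lit 0x300014001e0005000080000000000000000000000) (nat_lit 0x0) (nat_lit 0x2000100008000000000000000000) := D_41 (nat_lit 92) (nat_lit 109) (nat_lit 75) (nat_lit 4) (nat_lit 8) (nat_lit 9) (nat_lit 6) (nat_lit 6) (nat_lit 8) (by decide +kernel)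
theorem L110263 : W_41 (nat_lit 2) (nat_lit 0x300010001e0007000080000000000000000000000) (nat_lit 0x0) (nat_lit 0x8000440000000000000000000000) := D_41 (nat_lit 111) (nat_lit 90) (nat_lit 94) (nat_lit 0) (nat_lit 9) (nat_lit 6) (nat_lit 6) (nat_lit 8) (nat_lit 9) (by decide +kernel)
theorem L110264 : W_41 (nat_lit 3) (nat_lit 0x300010001e0005000080000000000000000000000) (nat_lit 0x0) (nat_lit 0xa000540000000000000000000000) := T_41 (nat_lit 109) (nat_lit 92) (nat_lit 4) (nat_lit 8) (nat_lit 9) L110263 (by decide +kernel)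
theorem L110265 : W_41 (nat_lit 2) (nat_lit 0x700014001e00050000c0000000000000000000000) (nat_lit 0x0) (nat_lit 0xa000400000000000000000000000) := D_41 (nat_lit 111) (nat_lit 109) (nat_lit 94) (nat_lit 0) (nat_lit 9) (nat_lit 6) (nat_lit 6) (nat_lit 8) (nat_lit 9) (by decide +kernel)
theorem L110266 : W_41 (nat_lit 3) (nat_lit 0x700014001e0005000080000000000000000000000) (nat_lit 0x0) (nat_lit 0xa000440002000000000000000000) := T_41 (nat_lit 90) (nat_lit 73) (nat_lit 4) (nat_lit 6) (nat_lit 8) L110265 (by decide +kernel)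
theorem L110267 : W_41 (nat_lit 4) (nat_lit 0x300014001e0005000080000000000000000000000) (nat_lit 0x0) (nat_lit 0x80004000000000000a000440002000000000000000000) := T_41 (nat_lit 162) (nat_lit 179) (nat_lit 7) (nat_lit 8) (nat_lit 6) L110266 (by decide +kernel)
theorem L110268 : W_41 (nat_lit 5) (nat_lit 0x300010001e0005000080000000000000000000000) (nat_lit 0x0) (nat_lit 0x80004000060000000a000440002000000000000000000) := T_41 (nat_lit 142) (nat_lit 141) (nat_lit 1) (nat_lit 9) (nat_lit 7) L110267 (by decide +kernel)
theorem L110269 : W_41 (nat_lit 2) (nat_lit 0x700014001e0007000080004000000000000000000) (nat_lit 0x0) (nat_lit 0x40002000100000000000000) := D_41 (nat_lit 73) (nat_lit 56) (nat_lit 90) (nat_lit 4) (nat_lit 6) (nat_lit 7) (nat_lit 4) (nat_lit 6) (nat_lit 8) (by decide +kernel)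
theorem L110270 : W_41 (nat_lit 3) (nat_lit 0x700010001e0007000080004000000000000000000) (nat_lit 0x0) (nat_lit 0x600000000000040002000100000000000000) := T_41 (nat_lit 142) (nat_lit 141) (nat_lit 1) (nat_lit 9) (nat_lit 7) L110269 (by decide +kernel)
theorem L110271 : W_41 (nat_lit 4) (nat_lit 0x700010001e0007000080000000000000000000000) (nat_lit 0x0) (nat_lit 0x600000000000040006000300000000000000) := T_41 (nat_lit 74) (nat_lit 57) (nat_lit 7) (nat_lit 6) (nat_lit 3) L110270 (by decide +kernel)
theorem L110272 : W_41 (nat_lit 5) (nat_lit 0x300010001e0007000080000000000000000000000) (nat_lit 0x0) (nat_lit 0x800040000600000000000040006000300000000000000) := T_41 (nat_lit 162) (nat_lit 179) (nat_lit 7) (nat_lit 8) (nat_lit 6) L110271 (by decide +kernel)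
theorem L110273 : W_41 (nat_lit 6) (nat_lit 0x300010001e0005000080000000000000000000000) (nat_lit 0x0) (nat_lit 0x800040000600000002000140006000300000000000000) := T_41 (nat_lit 109) (nat_lit 92) (nat_lit 4) (nat_lit 8) (nat_lit 9) L110272 (by decide +kernel)
theorem L110274 : W_41 (nat_lit 3) (nat_lit 0x300010001e0005000080000000000000000000000) (nat_lit 0x0) (nat_lit 0x600000002000100008000000000000000000) := T_41 (nat_lit 142) (nat_lit 141) (nat_lit 1) (nat_lit 9) (nat_lit 7) L110262 (by decide +kernel)
theorem L110275 : W_41 (nat_lit 5) (nat_lit 0x700010001e000d000080000000000000000000000) (nat_lit 0x0) (nat_lit 0x60000000000014000e000500000000000000) := T_41 (nat_lit 142) (nat_lit 141) (nat_lit 1) (nat_lit 9) (nat_lit 7) L110261 (by decide +kernel)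
theorem L110276 : W_41 (nat_lit 6) (nat_lit 0x300010001e000d000080000000000000000000000) (nat_lit 0x0) (nat_lit 0x80004000060000000000014000e000500000000000000) := T_41 (nat_lit 162) (nat_lit 179) (nat_lit 7) (nat_lit 8) (nat_lit 6) L110275 (by decide +kernel)
theorem L110277 : W_41 (nat_lit 7) (nat_lit 0x300010001e0005000080000000000000000000000) (nat_lit 0x0) (nat_lit 0x80004000060000000800054000e000500000000000000) := T_41 (nat_lit 111) (nat_lit 94) (nat_lit 6) (nat_lit 8) (nat_lit 9) L110276 (by decide +kernel)
theorem L110278 : W_41 (nat_lit 8) (nat_lit 0x300010001e0005000000000000000000000000000) (nat_lit 0x0) (nat_lit 0x80004000060000000a0005c000e000700000000000000) := Q_41 (nat_lit 91) (C_41 L110264 (C_41 L110268 (C_41 L110273 (C_41 L110274 (C_41 L110277 N_41))))) (by decide +kernel)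
theorem L110279 : W_41 (nat_lit 9) (nat_lit 0x300010000e0005000000000000000000000000000) (nat_lit 0x0) (nat_lit 0x80004000060010000a8005c000e000700000000000000) := T_41 (nat_lit 128) (nat_lit 107) (nat_lit 0) (nat_lit 9) (nat_lit 7) L110278 (by decide +kernel)
theorem L110280 : W_41 (nat_lit 10) (nat_lit 0x200010000e0005000000000000000000000000000) (nat_lit 0x0) (nat_lit 0xa0005000060010000a8005c000e000700000000000000) := T_41 (nat_lit 160) (nat_lit 177) (nat_lit 5) (nat_lit 8) (nat_lit 6) L110279 (by decide +kernel)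
theorem L110281 : W_41 (nat_lit 2) (nat_lit 0x200010001e000d000000000000000000000000000) (nat_lit 0x0) (nat_lit 0x200002000100000000000000000000000) := D_41 (nat_lit 109) (nat_lit 92) (nat_lit 129) (nat_lit 4) (nat_lit 8) (nat_lit 9) (nat_lit 3) (nat_lit 6) (nat_lit 6) (by decide +kernel)
theorem L110282 : W_41 (nat_lit 3) (nat_lit 0x200010000e000d000000000000000000000000000) (nat_lit 0x0) (nat_lit 0x300002800100000000000000000000000) := T_41 (nat_lit 128) (nat_lit 107) (nat_lit 0) (nat_lit 9) (nat_lit 7) L110281 (by decide +kernel)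
theorem L110283 : W_41 (nat_lit 4) (nat_lit 0x200010000e0005000000000000000000000000000) (nat_lit 0x0) (nat_lit 0x30000a800500000000000000000000000) := T_41 (nat_lit 111) (nat_lit 94) (nat_lit 6) (nat_lit 8) (nat_lit 9) L110282 (by decide +kernel)
theorem L110284 : W_41 (nat_lit 2) (nat_lit 0x200010000e000f800000000000000000000000000) (nat_lit 0x0) (nat_lit 0xe0000000000000000000000) := D_41 (nat_lit 90) (nat_lit 91) (nat_lit 89) (nat_lit 0) (nat_lit 9) (nat_lit 6) (nat_lit 0) (nat_lit 8) (nat_lit 6) (by decide +kernel)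
theorem L110285 : W_41 (nat_lit 3) (nat_lit 0x200010000e0007800000000000000000000000000) (nat_lit 0x0) (nat_lit 0x80004e0000000000000000000000) := T_41 (nat_lit 111) (nat_lit 94) (nat_lit 6) (nat_lit 8) (nat_lit 9) L110284 (by decide +kernel)
theorem L110286 : W_41 (nat_lit 4) (nat_lit 0x200010000e0007000000000000000000000000000) (nat_lit 0x0) (nat_lit 0x8c004e0000000000000000000000) := T_41 (nat_lit 107) (nat_lit 106) (nat_lit 3) (nat_lit 4) (nat_lit 6) L110285 (by decide +kernel)
theorem L110287 : W_41 (nat_lit 5) (nat_lit 0x200010000e0005000000000000000000000000000) (nat_lit 0x0) (nat_lit 0xac005e0000000000000000000000) := T_41 (nat_lit 109) (nat_lit 92) (nat_lit 4) (nat_lit 8) (nat_lit 9) L110286 (by decide +kernel)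
theorem L110288 : W_41 (nat_lit 2) (nat_lit 0x300094003e000d000000000000000000000000000) (nat_lit 0x0) (nat_lit 0x10000c00000000000000000000000000000000) := D_41 (nat_lit 130) (nat_lit 131) (nat_lit 148) (nat_lit 0) (nat_lit 12) (nat_lit 7) (nat_lit 3) (nat_lit 8) (nat_lit 7) (by decide +kernel)
theorem L110289 : W_41 (nat_lit 3) (nat_lit 0x300014003e000d000000000000000000000000000) (nat_lit 0x0) (nat_lit 0x1c000c00000000000000000000000000000000) := T_41 (nat_lit 147) (nat_lit 146) (nat_lit 3) (nat_lit 7) (nat_lit 7) L110288 (by decide +kernel)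
theorem L110290 : W_41 (nat_lit 4) (nat_lit 0x300010003e000d000000000000000000000000000) (nat_lit 0x0) (nat_lit 0x1c600c00000000000000000000000000000000) := T_41 (nat_lit 142) (nat_lit 141) (nat_lit 1) (nat_lit 9) (nat_lit 7) L110289 (by decide +kernel)
theorem L110291 : W_41 (nat_lit 5) (nat_lit 0x300010001e000d000000000000000000000000000) (nat_lit 0x0) (nat_lit 0x1c600e00002000000000000000000000000000) := T_41 (nat_lit 129) (nat_lit 109) (nat_lit 3) (nat_lit 6) (nat_lit 6) L110290 (by decide +kernel)
theorem L110292 : W_41 (nat_lit 6) (nat_lit 0x200010001e000d000000000000000000000000000) (nat_lit 0x0) (nat_lit 0x20001001c600e00002000000000000000000000000000) := T_41 (nat_lit 160) (nat_lit 177) (nat_lit 5) (nat_lit 8) (nat_lit 6) L110291 (by decide +kernel)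
theorem L110293 : W_41 (nat_lit 7) (nat_lit 0x200010000e000d000000000000000000000000000) (nat_lit 0x0) (nat_lit 0x20001001c600f00002800000000000000000000000000) := T_41 (nat_lit 128) (nat_lit 107) (nat_lit 0) (nat_lit 9) (nat_lit 7) L110292 (by decide +kernel)
theorem L110294 : W_41 (nat_lit 8) (nat_lit 0x200010000e0005000000000000000000000000000) (nat_lit 0x0) (nat_lit 0x20001001c600f0000a800400000000000000000000000) := T_41 (nat_lit 111) (nat_lit 94) (nat_lit 6) (nat_lit 8) (nat_lit 9) L110293 (by decide +kernel)
theorem L110295 : W_41 (nat_lit 2) (nat_lit 0x200010001e0005000000000000000000000000000) (nat_lit 0x0) (nat_lit 0x200002000100000000000000000000000) := D_41 (nat_lit 109) (nat_lit 92) (nat_lit 129) (nat_lit 4) (nat_lit 8) (nat_lit 9) (nat_lit 0) (nat_lit 10) (nat_lit 7) (by decide +kernel)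
theorem L110296 : W_41 (nat_lit 3) (nat_lit 0x200010000e0005000000000000000000000000000) (nat_lit 0x0) (nat_lit 0x300002800100000000000000000000000) := T_41 (nat_lit 128) (nat_lit 107) (nat_lit 0) (nat_lit 9) (nat_lit 7) L110295 (by decide +kernel)
theorem L110297 : W_41 (nat_lit 2) (nat_lit 0x1000200016000e0007000080000000000000000000000) (nat_lit 0x0) (nat_lit 0x8000040002000000000000000000) := D_41 (nat_lit 90) (nat_lit 73) (nat_lit 111) (nat_lit 4) (nat_lit 6) (nat_lit 8) (nat_lit 0) (nat_lit 9) (nat_lit 6) (by decide +kernel)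
theorem L110298 : W_41 (nat_lit 3) (nat_lit 0x1000200016000e0007000000000000000000000000000) (nat_lit 0x0) (nat_lit 0x40000000000080000c0002000000000000000000) := T_41 (nat_lit 91) (nat_lit 158) (nat_lit 5) (nat_lit 6) (nat_lit 5) L110297 (by decide +kernel)
theorem L110299 : W_41 (nat_lit 4) (nat_lit 0x200016000e0007000000000000000000000000000) (nat_lit 0x0) (nat_lit 0x10000c0000000000080000c0002000000000000000000) := T_41 (nat_lit 176) (nat_lit 159) (nat_lit 6) (nat_lit 6) (nat_lit 10) L110298 (by decide +kernel)
theorem L110300 : W_41 (nat_lit 5) (nat_lit 0x200014000e0007000000000000000000000000000) (nat_lit 0x0) (nat_lit 0x10000c0002001000080000c0002000000000000000000) := T_41 (nat_lit 141) (nat_lit 128) (nat_lit 1) (nat_lit 9) (nat_lit 7) L110299 (by decide +kernel)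
theorem L110301 : W_41 (nat_lit 6) (nat_lit 0x200014000e0005000000000000000000000000000) (nat_lit 0x0) (nat_lit 0x10000c00020010000a0001c0002000000000000000000) := T_41 (nat_lit 109) (nat_lit 92) (nat_lit 4) (nat_lit 8) (nat_lit 9) L110300 (by decide +kernel)
theorem L110302 : W_41 (nat_lit 2) (nat_lit 0x280014000e000f000080000000000000000000000) (nat_lit 0x0) (nat_lit 0x80004000200000000000000000000000000000000000) := D_41 (nat_lit 158) (nat_lit 141) (nat_lit 175) (nat_lit 5) (nat_lit 6) (nat_lit 5) (nat_lit 5) (nat_lit 6) (nat_lit 6) (by decide +kernel)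
theorem L110303 : W_41 (nat_lit 3) (nat_lit 0x200014000e000f000080000000000000000000000) (nat_lit 0x0) (nat_lit 0x18000c000200000000000000000000000000000000000) := T_41 (nat_lit 159) (nat_lit 176) (nat_lit 6) (nat_lit 6) (nat_lit 10) L110302 (by decide +kernel)
theorem L110304 : W_41 (nat_lit 4) (nat_lit 0x200014000e000f000000000000000000000000000) (nat_lit 0x0) (nat_lit 0x18000c0002000000000000c0000000000000000000000) := T_41 (nat_lit 91) (nat_lit 90) (nat_lit 0) (nat_lit 9) (nat_lit 6) L110303 (by decide +kernel)
theorem L110305 : W_41 (nat_lit 5) (nat_lit 0x200014000e0007000000000000000000000000000) (nat_lit 0x0) (nat_lit 0x18000c0002000000080004c0000000000000000000000) := T_41 (nat_lit 111) (nat_lit 94) (nat_lit 6) (nat_lit 8) (nat_lit 9) L110304 (by decide +kernel)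
theorem L110306 : W_41 (nat_lit 6) (nat_lit 0x200014000e0005000000000000000000000000000) (nat_lit 0x0) (nat_lit 0x18000c00020000000a0005c0000000000000000000000) := T_41 (nat_lit 109) (nat_lit 92) (nat_lit 4) (nat_lit 8) (nat_lit 9) L110305 (by decide +kernel)
theorem L110307 : W_41 (nat_lit 2) (nat_lit 0x600014001e0005000000000000000000000000000) (nat_lit 0x0) (nat_lit 0x200002000100000000000000000000000) := D_41 (nat_lit 109) (nat_lit 129) (nat_lit 92) (nat_lit 0) (nat_lit 10) (nat_lit 7) (nat_lit 4) (nat_lit 8) (nat_lit 9) (by decide +kernel)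
theorem L110308 : W_41 (nat_lit 3) (nat_lit 0x600014000e0005000000000000000000000000000) (nat_lit 0x0) (nat_lit 0x200300002000100000000000000000000000) := T_41 (nat_lit 128) (nat_lit 141) (nat_lit 1) (nat_lit 9) (nat_lit 7) L110307 (by decide +kernel)
theorem L110309 : W_41 (nat_lit 4) (nat_lit 0x200014000e0005000000000000000000000000000) (nat_lit 0x0) (nat_lit 0x800040000200300002000100000000000000000000000) := T_41 (nat_lit 162) (nat_lit 179) (nat_lit 7) (nat_lit 8) (nat_lit 6) L110308 (by decide +kernel)
theorem L110310 : W_41 (nat_lit 2) (nat_lit 0x200014007e000d000000000000000000000000000) (nat_lit 0x0) (nat_lit 0x1c000000000000000000000000000000000000) := D_41 (nat_lit 147) (nat_lit 146) (nat_lit 148) (nat_lit 3) (nat_lit 7) (nat_lit 7) (nat_lit 3) (nat_lit 8) (nat_lit 7) (by decide +kernel)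
theorem L110311 : W_41 (nat_lit 3) (nat_lit 0x200014003e000d000000000000000000000000000) (nat_lit 0x0) (nat_lit 0x1c000c00000000000000000000000000000000) := T_41 (nat_lit 130) (nat_lit 131) (nat_lit 0) (nat_lit 12) (nat_lit 7) L110310 (by decide +kernel)
theorem L110312 : W_41 (nat_lit 4) (nat_lit 0x200014001e000d000000000000000000000000000) (nat_lit 0x0) (nat_lit 0x1c000e00002000000000000000000000000000) := T_41 (nat_lit 129) (nat_lit 109) (nat_lit 3) (nat_lit 6) (nat_lit 6) L110311 (by decide +kernel)
theorem L110313 : W_41 (nat_lit 5) (nat_lit 0x200014000e000d000000000000000000000000000) (nat_lit 0x0) (nat_lit 0x1c200f00002000000000000000000000000000) := T_41 (nat_lit 128) (nat_lit 141) (nat_lit 1) (nat_lit 9) (nat_lit 7) L110312 (by decide +kernel)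
theorem L110314 : W_41 (nat_lit 6) (nat_lit 0x200014000e0005000000000000000000000000000) (nat_lit 0x0) (nat_lit 0x1c200f0000a000400000000000000000000000) := T_41 (nat_lit 111) (nat_lit 94) (nat_lit 6) (nat_lit 8) (nat_lit 9) L110313 (by decide +kernel)
theorem L110315 : W_41 (nat_lit 2) (nat_lit 0x280014000e0005000000000000000000000000000) (nat_lit 0x0) (nat_lit 0x100000000000000002000100000000000000000000000) := D_41 (nat_lit 109) (nat_lit 176) (nat_lit 92) (nat_lit 6) (nat_lit 6) (nat_lit 10) (nat_lit 6) (nat_lit 6) (nat_lit 9) (by decide +kernel)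
theorem L110316 : W_41 (nat_lit 2) (nat_lit 0x780014000e0005000000000000000000000000000) (nat_lit 0x0) (nat_lit 0x180000000000000002000000000000000000000000000) := D_41 (nat_lit 176) (nat_lit 175) (nat_lit 109) (nat_lit 1) (nat_lit 9) (nat_lit 9) (nat_lit 6) (nat_lit 6) (nat_lit 10) (by decide +kernel)
theorem L110317 : W_41 (nat_lit 3) (nat_lit 0x680014000e0005000000000000000000000000000) (nat_lit 0x0) (nat_lit 0x380010000000000002000000000000000000000000000) := T_41 (nat_lit 160) (nat_lit 177) (nat_lit 7) (nat_lit 6) (nat_lit 6) L110316 (by decide +kernel)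
theorem L110318 : W_41 (nat_lit 4) (nat_lit 0x280014000e0005000000000000000000000000000) (nat_lit 0x0) (nat_lit 0xb80050000000000002000000000000000000000000000) := T_41 (nat_lit 162) (nat_lit 179) (nat_lit 7) (nat_lit 8) (nat_lit 6) L110317 (by decide +kernel)
theorem L110319 : W_41 (nat_lit 2) (nat_lit 0x800380014000e000d000000000000000000000000000) (nat_lit 0x0) (nat_lit 0x900040000000000000000000000000000000000000000) := D_41 (nat_lit 162) (nat_lit 179) (nat_lit 176) (nat_lit 7) (nat_lit 8) (nat_lit 6) (nat_lit 1) (nat_lit 9) (nat_lit 9) (by decide +kernel)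
theorem L110320 : W_41 (nat_lit 3) (nat_lit 0x380014000e000d000000000000000000000000000) (nat_lit 0x0) (nat_lit 0x980044000000000000000000000000000000000000000) := T_41 (nat_lit 175) (nat_lit 158) (nat_lit 5) (nat_lit 6) (nat_lit 6) L110319 (by decide +kernel)
theorem L110321 : W_41 (nat_lit 4) (nat_lit 0x280014000e000d000000000000000000000000000) (nat_lit 0x0) (nat_lit 0xb80054000000000000000000000000000000000000000) := T_41 (nat_lit 160) (nat_lit 177) (nat_lit 7) (nat_lit 6) (nat_lit 6) L110320 (by decide +kernel)
theorem L110322 : W_41 (nat_lit 5) (nat_lit 0x280014000e0005000000000000000000000000000) (nat_lit 0x0) (nat_lit 0xb80054000000000008000400000000000000000000000) := T_41 (nat_lit 111) (nat_lit 94) (nat_lit 6) (nat_lit 8) (nat_lit 9) L110321 (by decide +kernel)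
theorem L110323 : W_41 (nat_lit 2) (nat_lit 0x280014000e0005000080000000000000000000000) (nat_lit 0x0) (nat_lit 0x2000100008000000000000000000) := D_41 (nat_lit 92) (nat_lit 109) (nat_lit 75) (nat_lit 6) (nat_lit 6) (nat_lit 9) (nat_lit 6) (nat_lit 6) (nat_lit 8) (by decide +kernel)
theorem L110324 : W_41 (nat_lit 2) (nat_lit 0x680014000e00050000c0000000000000000000000) (nat_lit 0x0) (nat_lit 0xa000400000000000000000000000) := D_41 (nat_lit 111) (nat_lit 109) (nat_lit 94) (nat_lit 0) (nat_lit 9) (nat_lit 6) (nat_lit 6) (nat_lit 8) (nat_lit 9) (by decide +kernel)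
theorem L110325 : W_41 (nat_lit 3) (nat_lit 0x680014000e0005000080000000000000000000000) (nat_lit 0x0) (nat_lit 0xa000440002000000000000000000) := T_41 (nat_lit 90) (nat_lit 73) (nat_lit 4) (nat_lit 6) (nat_lit 8) L110324 (by decide +kernel)
theorem L110326 : W_41 (nat_lit 4) (nat_lit 0x280014000e0005000080000000000000000000000) (nat_lit 0x0) (nat_lit 0x80004000000000000a000440002000000000000000000) := T_41 (nat_lit 162) (nat_lit 179) (nat_lit 7) (nat_lit 8) (nat_lit 6) L110325 (by decide +kernel)
theorem L110327 : W_41 (nat_lit 2) (nat_lit 0x380014000e000500008000a000000000000000000) (nat_lit 0x0) (nat_lit 0x4000500000000000000) := D_41 (nat_lit 74) (nat_lit 58) (nat_lit 56) (nat_lit 6) (nat_lit 6) (nat_lit 7) (nat_lit 4) (nat_lit 6) (nat_lit 7) (by decide +kernel)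
theorem L110328 : W_41 (nat_lit 3) (nat_lit 0x380014000e0005000080008000000000000000000) (nat_lit 0x0) (nat_lit 0x40006000500000000000000) := T_41 (nat_lit 73) (nat_lit 90) (nat_lit 4) (nat_lit 6) (nat_lit 8) L110327 (by decide +kernel)
theorem L110329 : W_41 (nat_lit 4) (nat_lit 0x380014000e0005000080000000000000000000000) (nat_lit 0x0) (nat_lit 0x14000e000500000000000000) := T_41 (nat_lit 75) (nat_lit 92) (nat_lit 6) (nat_lit 6) (nat_lit 8) L110328 (by decide +kernel)
theorem L110330 : W_41 (nat_lit 5) (nat_lit 0x280014000e0005000080000000000000000000000) (nat_lit 0x0) (nat_lit 0x20001000000000000000014000e000500000000000000) := T_41 (nat_lit 160) (nat_lit 177) (nat_lit 7) (nat_lit 6) (nat_lit 6) L110329 (by decide +kernel)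
theorem L110331 : W_41 (nat_lit 6) (nat_lit 0x280014000e0005000000000000000000000000000) (nat_lit 0x0) (nat_lit 0xa0005000000000000a0005c000e000500000000000000) := Q_41 (nat_lit 91) (C_41 L110323 (C_41 L110326 (C_41 L110330 N_41))) (by decide +kernel)
theorem L110332 : W_41 (nat_lit 7) (nat_lit 0x200014000e0005000000000000000000000000000) (nat_lit 0x0) (nat_lit 0xb8005c00000000000a0005c000e000500000000000000) := Q_41 (nat_lit 159) (C_41 L110315 (C_41 L110318 (C_41 L110322 (C_41 L110331 N_41)))) (by decide +kernel)
theorem L110333 : W_41 (nat_lit 2) (nat_lit 0x700014000e000d000000000000000000000000000) (nat_lit 0x0) (nat_lit 0x8000200100000000000000000000000000000000) := D_41 (nat_lit 141) (nat_lit 159) (nat_lit 128) (nat_lit 0) (nat_lit 9) (nat_lit 9) (nat_lit 1) (nat_lit 9) (nat_lit 7) (by decide +kernel)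
theorem L110334 : W_41 (nat_lit 3) (nat_lit 0x600014000e000d000000000000000000000000000) (nat_lit 0x0) (nat_lit 0x200018000200100000000000000000000000000000000) := T_41 (nat_lit 160) (nat_lit 177) (nat_lit 5) (nat_lit 8) (nat_lit 6) L110333 (by decide +kernel)
theorem L110335 : W_41 (nat_lit 4) (nat_lit 0x600014000e0005000000000000000000000000000) (nat_lit 0x0) (nat_lit 0x200018000200100008000400000000000000000000000) := T_41 (nat_lit 111) (nat_lit 94) (nat_lit 6) (nat_lit 8) (nat_lit 9) L110334 (by decide +kernel)
theorem L110336 : W_41 (nat_lit 5) (nat_lit 0x200014000e0005000000000000000000000000000) (nat_lit 0x0) (nat_lit 0xa00058000200100008000400000000000000000000000) := T_41 (nat_lit 162) (nat_lit 179) (nat_lit 7) (nat_lit 8) (nat_lit 6) L110335 (by decide +kernel)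
theorem L110337 : W_41 (nat_lit 8) (nat_lit 0x200010000e0005000000000000000000000000000) (nat_lit 0x0) (nat_lit 0xb8005c01c600f0000a0005c000e000500000000000000) := Q_41 (nat_lit 142) (C_41 L110301 (C_41 L110306 (C_41 L110309 (C_41 L110314 (C_41 L110332 (C_41 L110336 N_41)))))) (by decide +kernel)
theorem L110338 : W_41 (nat_lit 2) (nat_lit 0x200014000e0005000000000000000000000000000) (nat_lit 0x0) (nat_lit 0x200100000800000000000000000000000000) := D_41 (nat_lit 128) (nat_lit 141) (nat_lit 107) (nat_lit 1) (nat_lit 9) (nat_lit 7) (nat_lit 0) (nat_lit 9) (nat_lit 7) (by decide +kernel)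
theorem L110339 : W_41 (nat_lit 2) (nat_lit 0x780014000e000d000000000000000000000000000) (nat_lit 0x0) (nat_lit 0x180004000000000000000000000000000000000000000) := D_41 (nat_lit 175) (nat_lit 176) (nat_lit 158) (nat_lit 1) (nat_lit 9) (nat_lit 9) (nat_lit 5) (nat_lit 6) (nat_lit 6) (by decide +kernel)
theorem L110340 : W_41 (nat_lit 3) (nat_lit 0x700014000e000d000000000000000000000000000) (nat_lit 0x0) (nat_lit 0x18000c000200000000000000000000000000000000000) := T_41 (nat_lit 159) (nat_lit 141) (nat_lit 0) (nat_lit 9) (nat_lit 9) L110339 (by decide +kernel)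
theorem L110341 : W_41 (nat_lit 4) (nat_lit 0x600014000e000d000000000000000000000000000) (nat_lit 0x0) (nat_lit 0x38001c000200000000000000000000000000000000000) := T_41 (nat_lit 160) (nat_lit 177) (nat_lit 5) (nat_lit 8) (nat_lit 6) L110340 (by decide +kernel)
theorem L110342 : W_41 (nat_lit 5) (nat_lit 0x600014000e0005000000000000000000000000000) (nat_lit 0x0) (nat_lit 0x38001c000200000008000400000000000000000000000) := T_41 (nat_lit 111) (nat_lit 94) (nat_lit 6) (nat_lit 8) (nat_lit 9) L110341 (by decide +kernel)
theorem L110343 : W_41 (nat_lit 6) (nat_lit 0x200014000e0005000000000000000000000000000) (nat_lit 0x0) (nat_lit 0xb8005c000200000008000400000000000000000000000) := T_41 (nat_lit 162) (nat_lit 179) (nat_lit 7) (nat_lit 8) (nat_lit 6) L110342 (by decide +kernel)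
theorem L110344 : W_41 (nat_lit 2) (nat_lit 0x780014000e0005800000000000000000000000000) (nat_lit 0x0) (nat_lit 0x180004000000000000000000000000000000000000000) := D_41 (nat_lit 175) (nat_lit 176) (nat_lit 158) (nat_lit 1) (nat_lit 9) (nat_lit 9) (nat_lit 5) (nat_lit 6) (nat_lit 6) (by decide +kernel)
theorem L110345 : W_41 (nat_lit 3) (nat_lit 0x700014000e0005800000000000000000000000000) (nat_lit 0x0) (nat_lit 0x18000c000000000000000040000000000000000000000) := T_41 (nat_lit 159) (nat_lit 90) (nat_lit 4) (nat_lit 6) (nat_lit 9) L110344 (by decide +kernel)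
theorem L110346 : W_41 (nat_lit 4) (nat_lit 0x300014000e0005800000000000000000000000000) (nat_lit 0x0) (nat_lit 0x98004c000000000000000040000000000000000000000) := T_41 (nat_lit 162) (nat_lit 179) (nat_lit 7) (nat_lit 8) (nat_lit 6) L110345 (by decide +kernel)
theorem L110347 : W_41 (nat_lit 5) (nat_lit 0x300014000e0005000000000000000000000000000) (nat_lit 0x0) (nat_lit 0x98004c000000100000800040000000000000000000000) := T_41 (nat_lit 107) (nat_lit 128) (nat_lit 0) (nat_lit 9) (nat_lit 7) L110346 (by decide +kernel)
theorem L110348 : W_41 (nat_lit 6) (nat_lit 0x200014000e0005000000000000000000000000000) (nat_lit 0x0) (nat_lit 0xb8005c000000100000800040000000000000000000000) := T_41 (nat_lit 160) (nat_lit 177) (nat_lit 5) (nat_lit 8) (nat_lit 6) L110347 (by decide +kernel)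
theorem L110349 : W_41 (nat_lit 7) (nat_lit 0x200010000e0005000000000000000000000000000) (nat_lit 0x0) (nat_lit 0xb8005c000600100008800440000000000000000000000) := Q_41 (nat_lit 142) (C_41 L110336 (C_41 L110338 (C_41 L110343 (C_41 L110348 N_41)))) (by decide +kernel)
theorem L110350 : W_41 (nat_lit 11) (nat_lit 0x200010000e0004000000000000000000000000000) (nat_lit 0x0) (nat_lit 0xb8005c01c600f0000bc005e000e000700000000000000) := Q_41 (nat_lit 108) (C_41 L110280 (C_41 L110283 (C_41 L110287 (C_41 L110294 (C_41 L110296 (C_41 L110337 (C_41 L110349 N_41))))))) (by decide +kernel)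
theorem L110351 : W_41 (nat_lit 12) (nat_lit 0x200010000c0004000000000000000000000000000) (nat_lit 0x0) (nat_lit 0xb8005c01c700f3800bc005e000e000700000000000000) := Q_41 (nat_lit 125) (C_41 L110252 (C_41 L110258 (C_41 L110350 N_41))) (by decide +kernel)
theorem L110352 : W_41 (nat_lit 2) (nat_lit 0x700012000f0006000000000000000000000000000) (nat_lit 0x0) (nat_lit 0x8000400100000000000000000000000000000000) := D_41 (nat_lit 142) (nat_lit 159) (nat_lit 128) (nat_lit 0) (nat_lit 9) (nat_lit 9) (nat_lit 1) (nat_lit 9) (nat_lit 7) (by decide +kernel)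
theorem L110353 : W_41 (nat_lit 3) (nat_lit 0x700010000f0006000000000000000000000000000) (nat_lit 0x0) (nat_lit 0x8000700100000000000000000000000000000000) := T_41 (nat_lit 141) (nat_lit 140) (nat_lit 1) (nat_lit 8) (nat_lit 7) L110352 (by decide +kernel)
theorem L110354 : W_41 (nat_lit 4) (nat_lit 0x700010000e0006000000000000000000000000000) (nat_lit 0x0) (nat_lit 0x8000700118000000000000000000000000000000) := T_41 (nat_lit 124) (nat_lit 123) (nat_lit 2) (nat_lit 4) (nat_lit 7) L110353 (by decide +kernel)
theorem L110355 : W_41 (nat_lit 5) (nat_lit 0x700010000e0004000000000000000000000000000) (nat_lit 0x0) (nat_lit 0x8000700118002000100000000000000000000000) := T_41 (nat_lit 109) (nat_lit 92) (nat_lit 4) (nat_lit 8) (nat_lit 9) L110354 (by decide +kernel)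
theorem L110356 : W_41 (nat_lit 6) (nat_lit 0x600010000e0004000000000000000000000000000) (nat_lit 0x0) (nat_lit 0x200018000700118002000100000000000000000000000) := T_41 (nat_lit 160) (nat_lit 177) (nat_lit 5) (nat_lit 8) (nat_lit 6) L110355 (by decide +kernel)
theorem L110357 : W_41 (nat_lit 7) (nat_lit 0x200010000e0004000000000000000000000000000) (nat_lit 0x0) (nat_lit 0xa00058000700118002000100000000000000000000000) := T_41 (nat_lit 162) (nat_lit 179) (nat_lit 7) (nat_lit 8) (nat_lit 6) L110356 (by decide +kernel)
theorem L110358 : W_41 (nat_lit 2) (nat_lit 0x600012000f0006800000000000000000000000000) (nat_lit 0x0) (nat_lit 0x400100001000000000000000000000000000) := D_41 (nat_lit 128) (nat_lit 108) (nat_lit 142) (nat_lit 3) (nat_lit 5) (nat_lit 6) (nat_lit 1) (nat_lit 9) (nat_lit 7) (by decide +kernel)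
theorem L110359 : W_41 (nat_lit 3) (nat_lit 0x600010000f0006800000000000000000000000000) (nat_lit 0x0) (nat_lit 0x700100001000000000000000000000000000) := T_41 (nat_lit 141) (nat_lit 140) (nat_lit 1) (nat_lit 8) (nat_lit 7) L110358 (by decide +kernel)
theorem L110360 : W_41 (nat_lit 4) (nat_lit 0x600010000f0006000000000000000000000000000) (nat_lit 0x0) (nat_lit 0x700100001c00000000000000000000000000) := T_41 (nat_lit 107) (nat_lit 106) (nat_lit 0) (nat_lit 8) (nat_lit 7) L110359 (by decide +kernel)
theorem L110361 : W_41 (nat_lit 5) (nat_lit 0x200010000f0006000000000000000000000000000) (nat_lit 0x0) (nat_lit 0x800040000700100001c00000000000000000000000000) := T_41 (nat_lit 162) (nat_lit 179) (nat_lit 7) (nat_lit 8) (nat_lit 6) L110360 (by decide +kernel)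
theorem L110362 : W_41 (nat_lit 6) (nat_lit 0x200010000e0006000000000000000000000000000) (nat_lit 0x0) (nat_lit 0x800040000700118001c00000000000000000000000000) := T_41 (nat_lit 124) (nat_lit 123) (nat_lit 2) (nat_lit 4) (nat_lit 7) L110361 (by decide +kernel)
theorem L110363 : W_41 (nat_lit 7) (nat_lit 0x200010000e0004000000000000000000000000000) (nat_lit 0x0) (nat_lit 0x800040000700118003c00100000000000000000000000) := T_41 (nat_lit 109) (nat_lit 92) (nat_lit 4) (nat_lit 8) (nat_lit 9) L110362 (by decide +kernel)
theorem L110364 : W_41 (nat_lit 2) (nat_lit 0x780012000f0006800000000000000000000000000) (nat_lit 0x0) (nat_lit 0x180004000000000000000000000000000000000000000) := D_41 (nat_lit 176) (nat_lit 175) (nat_lit 158) (nat_lit 1) (nat_lit 9) (nat_lit 9) (nat_lit 7) (nat_lit 5) (nat_lit 6) (by decide +kernel)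
theorem L110365 : W_41 (nat_lit 3) (nat_lit 0x780012000f0006000000000000000000000000000) (nat_lit 0x0) (nat_lit 0x180004000000000000c00000000000000000000000000) := T_41 (nat_lit 107) (nat_lit 106) (nat_lit 0) (nat_lit 8) (nat_lit 7) L110364 (by decide +kernel)
theorem L110366 : W_41 (nat_lit 4) (nat_lit 0x700012000f0006000000000000000000000000000) (nat_lit 0x0) (nat_lit 0x18000c000400000000c00000000000000000000000000) := T_41 (nat_lit 159) (nat_lit 142) (nat_lit 0) (nat_lit 9) (nat_lit 9) L110365 (by decide +kernel)
theorem L110367 : W_41 (nat_lit 5) (nat_lit 0x700010000f0006000000000000000000000000000) (nat_lit 0x0) (nat_lit 0x18000c000700000000c00000000000000000000000000) := T_41 (nat_lit 141) (nat_lit 140) (nat_lit 1) (nat_lit 8) (nat_lit 7) L110366 (by decide +kernel)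
theorem L110368 : W_41 (nat_lit 6) (nat_lit 0x700010000e0006000000000000000000000000000) (nat_lit 0x0) (nat_lit 0x18000c000700018000c00000000000000000000000000) := T_41 (nat_lit 124) (nat_lit 123) (nat_lit 2) (nat_lit 4) (nat_lit 7) L110367 (by decide +kernel)
theorem L110369 : W_41 (nat_lit 7) (nat_lit 0x700010000e0004000000000000000000000000000) (nat_lit 0x0) (nat_lit 0x18000c000700018002c00100000000000000000000000) := T_41 (nat_lit 109) (nat_lit 92) (nat_lit 4) (nat_lit 8) (nat_lit 9) L110368 (by decide +kernel)
theorem L110370 : W_41 (nat_lit 8) (nat_lit 0x300010000e0004000000000000000000000000000) (nat_lit 0x0) (nat_lit 0x98004c000700018002c00100000000000000000000000) := T_41 (nat_lit 162) (nat_lit 179) (nat_lit 7) (nat_lit 8) (nat_lit 6) L110369 (by decide +kernel)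
theorem L110371 : W_41 (nat_lit 9) (nat_lit 0x200010000e0004000000000000000000000000000) (nat_lit 0x0) (nat_lit 0xb8005c000700018002c00100000000000000000000000) := T_41 (nat_lit 160) (nat_lit 177) (nat_lit 5) (nat_lit 8) (nat_lit 6) L110370 (by decide +kernel)
theorem L110372 : W_41 (nat_lit 2) (nat_lit 0x200012001f0005000000000000000000000000000) (nat_lit 0x0) (nat_lit 0x208002000000000000000000000000000) := D_41 (nat_lit 109) (nat_lit 129) (nat_lit 123) (nat_lit 0) (nat_lit 10) (nat_lit 7) (nat_lit 2) (nat_lit 4) (nat_lit 7) (by decide +kernel)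
theorem L110373 : W_41 (nat_lit 3) (nat_lit 0x200012001e0005000000000000000000000000000) (nat_lit 0x0) (nat_lit 0x100218002000000000000000000000000000) := T_41 (nat_lit 124) (nat_lit 140) (nat_lit 1) (nat_lit 8) (nat_lit 7) L110372 (by decide +kernel)
theorem L110374 : W_41 (nat_lit 4) (nat_lit 0x200012001e0004000000000000000000000000000) (nat_lit 0x0) (nat_lit 0x100218003800000000000000000000000000) := T_41 (nat_lit 108) (nat_lit 107) (nat_lit 0) (nat_lit 9) (nat_lit 7) L110373 (by decide +kernel)
theorem L110375 : W_41 (nat_lit 5) (nat_lit 0x200012000e0004000000000000000000000000000) (nat_lit 0x0) (nat_lit 0x500318003800000000000000000000000000) := T_41 (nat_lit 128) (nat_lit 142) (nat_lit 1) (nat_lit 9) (nat_lit 7) L110374 (by decide +kernel)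
theorem L110376 : W_41 (nat_lit 2) (nat_lit 0x300016000f8004800000000000000000000000000) (nat_lit 0x0) (nat_lit 0x800048000000000000000000000000000000000000000) := D_41 (nat_lit 162) (nat_lit 179) (nat_lit 159) (nat_lit 7) (nat_lit 8) (nat_lit 6) (nat_lit 0) (nat_lit 9) (nat_lit 9) (by decide +kernel)
theorem L110377 : W_41 (nat_lit 3) (nat_lit 0x300012000f8004800000000000000000000000000) (nat_lit 0x0) (nat_lit 0x800048000400100000000000000000000000000000000) := T_41 (nat_lit 142) (nat_lit 128) (nat_lit 1) (nat_lit 9) (nat_lit 7) L110376 (by decide +kernel)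
theorem L110378 : W_41 (nat_lit 4) (nat_lit 0x200012000f8004800000000000000000000000000) (nat_lit 0x0) (nat_lit 0xa00058000400100000000000000000000000000000000) := T_41 (nat_lit 160) (nat_lit 177) (nat_lit 5) (nat_lit 8) (nat_lit 6) L110377 (by decide +kernel)
theorem L110379 : W_41 (nat_lit 5) (nat_lit 0x200012000f0004800000000000000000000000000) (nat_lit 0x0) (nat_lit 0xa00058000400108002000000000000000000000000000) := T_41 (nat_lit 123) (nat_lit 109) (nat_lit 2) (nat_lit 4) (nat_lit 7) L110378 (by decide +kernel)
theorem L110380 : W_41 (nat_lit 6) (nat_lit 0x200012000f0004000000000000000000000000000) (nat_lit 0x0) (nat_lit 0xa00058000400108002c00000000000000000000000000) := T_41 (nat_lit 107) (nat_lit 106) (nat_lit 0) (nat_lit 8) (nat_lit 7) L110379 (by decide +kernel)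
theorem L110381 : W_41 (nat_lit 7) (nat_lit 0x200012000e0004000000000000000000000000000) (nat_lit 0x0) (nat_lit 0xa00058000500118002c00000000000000000000000000) := T_41 (nat_lit 124) (nat_lit 140) (nat_lit 1) (nat_lit 8) (nat_lit 7) L110380 (by decide +kernel)
theorem L110382 : W_41 (nat_lit 2) (nat_lit 0x780012000e0004000000000000000000000000000) (nat_lit 0x0) (nat_lit 0x4000100010000000000000000000000000000000) := D_41 (nat_lit 140) (nat_lit 158) (nat_lit 124) (nat_lit 0) (nat_lit 8) (nat_lit 9) (nat_lit 1) (nat_lit 8) (nat_lit 7) (by decide +kernel)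
theorem L110383 : W_41 (nat_lit 3) (nat_lit 0x700012000e0004000000000000000000000000000) (nat_lit 0x0) (nat_lit 0xc000500010000000000000000000000000000000) := T_41 (nat_lit 159) (nat_lit 142) (nat_lit 0) (nat_lit 9) (nat_lit 9) L110382 (by decide +kernel)
theorem L110384 : W_41 (nat_lit 4) (nat_lit 0x600012000e0004000000000000000000000000000) (nat_lit 0x0) (nat_lit 0x20001c000500010000000000000000000000000000000) := T_41 (nat_lit 160) (nat_lit 177) (nat_lit 5) (nat_lit 8) (nat_lit 6) L110383 (by decide +kernel)
theorem L110385 : W_41 (nat_lit 5) (nat_lit 0x200012000e0004000000000000000000000000000) (nat_lit 0x0) (nat_lit 0xa0005c000500010000000000000000000000000000000) := T_41 (nat_lit 162) (nat_lit 179) (nat_lit 7) (nat_lit 8) (nat_lit 6) L110384 (by decide +kernel)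
theorem L110386 : W_41 (nat_lit 2) (nat_lit 0x700092003e0025000000000000000000000000000) (nat_lit 0x0) (nat_lit 0x10000400040000000000000000000000000000) := D_41 (nat_lit 130) (nat_lit 114) (nat_lit 148) (nat_lit 2) (nat_lit 8) (nat_lit 7) (nat_lit 3) (nat_lit 8) (nat_lit 7) (by decide +kernel)
theorem L110387 : W_41 (nat_lit 3) (nat_lit 0x700012003e0025000000000000000000000000000) (nat_lit 0x0) (nat_lit 0x1c000400040000000000000000000000000000) := T_41 (nat_lit 147) (nat_lit 146) (nat_lit 3) (nat_lit 7) (nat_lit 7) L110386 (by decide +kernel)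
theorem L110388 : W_41 (nat_lit 4) (nat_lit 0x700012003e0005000000000000000000000000000) (nat_lit 0x0) (nat_lit 0x1c000400070000000000000000000000000000) := T_41 (nat_lit 113) (nat_lit 112) (nat_lit 2) (nat_lit 7) (nat_lit 7) L110387 (by decide +kernel)
theorem L110389 : W_41 (nat_lit 5) (nat_lit 0x600012003e0005000000000000000000000000000) (nat_lit 0x0) (nat_lit 0x20001001c000400070000000000000000000000000000) := T_41 (nat_lit 160) (nat_lit 177) (nat_lit 5) (nat_lit 8) (nat_lit 6) L110388 (by decide +kernel)
theorem L110390 : W_41 (nat_lit 6) (nat_lit 0x600012001e0005000000000000000000000000000) (nat_lit 0x0) (nat_lit 0x20001001c000600072000000000000000000000000000) := T_41 (nat_lit 129) (nat_lit 109) (nat_lit 0) (nat_lit 10) (nat_lit 7) L110389 (by decide +kernel)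
theorem L110391 : W_41 (nat_lit 7) (nat_lit 0x200012001e0005000000000000000000000000000) (nat_lit 0x0) (nat_lit 0xa0005001c000600072000000000000000000000000000) := T_41 (nat_lit 162) (nat_lit 179) (nat_lit 7) (nat_lit 8) (nat_lit 6) L110390 (by decide +kernel)
theorem L110392 : W_41 (nat_lit 8) (nat_lit 0x200012001e0004000000000000000000000000000) (nat_lit 0x0) (nat_lit 0xa0005001c000600073800000000000000000000000000) := T_41 (nat_lit 108) (nat_lit 107) (nat_lit 0) (nat_lit 9) (nat_lit 7) L110391 (by decide +kernel)
theorem L110393 : W_41 (nat_lit 9) (nat_lit 0x200012000e0004000000000000000000000000000) (nat_lit 0x0) (nat_lit 0xa0005001c400700073800000000000000000000000000) := T_41 (nat_lit 128) (nat_lit 142) (nat_lit 1) (nat_lit 9) (nat_lit 7) L110392 (by decide +kernel)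
theorem L110394 : W_41 (nat_lit 2) (nat_lit 0x600012000f8005800000000000000000000000000) (nat_lit 0x0) (nat_lit 0x4000000000000000080004000000000000000000) := D_41 (nat_lit 91) (nat_lit 74) (nat_lit 158) (nat_lit 5) (nat_lit 6) (nat_lit 4) (nat_lit 6) (nat_lit 5) (nat_lit 9) (by decide +kernel)
theorem L110395 : W_41 (nat_lit 3) (nat_lit 0x600012000f8004800000000000000000000000000) (nat_lit 0x0) (nat_lit 0x4000000100001000080004000000000000000000) := T_41 (nat_lit 108) (nat_lit 128) (nat_lit 0) (nat_lit 9) (nat_lit 7) L110394 (by decide +kernel)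
theorem L110396 : W_41 (nat_lit 4) (nat_lit 0x600012000f0004800000000000000000000000000) (nat_lit 0x0) (nat_lit 0x4000000108003000080004000000000000000000) := T_41 (nat_lit 123) (nat_lit 109) (nat_lit 2) (nat_lit 4) (nat_lit 7) L110395 (by decide +kernel)
theorem L110397 : W_41 (nat_lit 5) (nat_lit 0x600012000f0004000000000000000000000000000) (nat_lit 0x0) (nat_lit 0x4000000108003c00080004000000000000000000) := T_41 (nat_lit 107) (nat_lit 106) (nat_lit 0) (nat_lit 8) (nat_lit 7) L110396 (by decide +kernel)
theorem L110398 : W_41 (nat_lit 6) (nat_lit 0x600012000e0004000000000000000000000000000) (nat_lit 0x0) (nat_lit 0x4000100118003c00080004000000000000000000) := T_41 (nat_lit 124) (nat_lit 140) (nat_lit 1) (nat_lit 8) (nat_lit 7) L110397 (by decide +kernel)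
theorem L110399 : W_41 (nat_lit 7) (nat_lit 0x200012000e0004000000000000000000000000000) (nat_lit 0x0) (nat_lit 0x800044000100118003c00080004000000000000000000) := T_41 (nat_lit 162) (nat_lit 179) (nat_lit 7) (nat_lit 8) (nat_lit 6) L110398 (by decide +kernel)
theorem L110400 : W_41 (nat_lit 10) (nat_lit 0x200010000e0004000000000000000000000000000) (nat_lit 0x0) (nat_lit 0xa0005c01c700718073c00080004000000000000000000) := Q_41 (nat_lit 141) (C_41 L110375 (C_41 L110381 (C_41 L110385 (C_41 L110393 (C_41 L110399 N_41))))) (by decide +kernel)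
theorem L110401 : W_41 (nat_lit 2) (nat_lit 0x700010000f0007800040000000000000000000000) (nat_lit 0x0) (nat_lit 0x8000400000000000000002000000000000000000) := D_41 (nat_lit 142) (nat_lit 159) (nat_lit 73) (nat_lit 4) (nat_lit 6) (nat_lit 9) (nat_lit 7) (nat_lit 5) (nat_lit 4) (by decide +kernel)
theorem L110402 : W_41 (nat_lit 3) (nat_lit 0x700010000f0007800000000000000000000000000) (nat_lit 0x0) (nat_lit 0x8000400000000000060002000000000000000000) := T_41 (nat_lit 90) (nat_lit 89) (nat_lit 0) (nat_lit 8) (nat_lit 6) L110401 (by decide +kernel)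
theorem L110403 : W_41 (nat_lit 4) (nat_lit 0x700010000f0006800000000000000000000000000) (nat_lit 0x0) (nat_lit 0x8000400100001000060002000000000000000000) := T_41 (nat_lit 108) (nat_lit 128) (nat_lit 3) (nat_lit 5) (nat_lit 6) L110402 (by decide +kernel)
theorem L110404 : W_41 (nat_lit 5) (nat_lit 0x700010000f0006000000000000000000000000000) (nat_lit 0x0) (nat_lit 0x8000400100001c00060002000000000000000000) := T_41 (nat_lit 107) (nat_lit 106) (nat_lit 0) (nat_lit 8) (nat_lit 7) L110403 (by decide +kernel)
theorem L110405 : W_41 (nat_lit 6) (nat_lit 0x300010000f0006000000000000000000000000000) (nat_lit 0x0) (nat_lit 0x800048000400100001c00060002000000000000000000) := T_41 (nat_lit 162) (nat_lit 179) (nat_lit 7) (nat_lit 8) (nat_lit 6) L110404 (by decide +kernel)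
theorem L110406 : W_41 (nat_lit 7) (nat_lit 0x300010000e0006000000000000000000000000000) (nat_lit 0x0) (nat_lit 0x800048000400118001c00060002000000000000000000) := T_41 (nat_lit 124) (nat_lit 123) (nat_lit 2) (nat_lit 4) (nat_lit 7) L110405 (by decide +kernel)
theorem L110407 : W_41 (nat_lit 8) (nat_lit 0x300010000e0004000000000000000000000000000) (nat_lit 0x0) (nat_lit 0x800048000400118003c00160002000000000000000000) := T_41 (nat_lit 109) (nat_lit 92) (nat_lit 4) (nat_lit 8) (nat_lit 9) L110406 (by decide +kernel)
theorem L110408 : W_41 (nat_lit 9) (nat_lit 0x200010000e0004000000000000000000000000000) (nat_lit 0x0) (nat_lit 0xa00058000400118003c00160002000000000000000000) := T_41 (nat_lit 160) (nat_lit 177) (nat_lit 5) (nat_lit 8) (nat_lit 6) L110407 (by decide +kernel)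
theorem L110409 : W_41 (nat_lit 2) (nat_lit 0x700010000e0007000000000000000000000000000) (nat_lit 0x0) (nat_lit 0x100000c00000000000000000000000000) := D_41 (nat_lit 107) (nat_lit 128) (nat_lit 106) (nat_lit 3) (nat_lit 5) (nat_lit 6) (nat_lit 3) (nat_lit 4) (nat_lit 6) (by decide +kernel)
theorem L110410 : W_41 (nat_lit 3) (nat_lit 0x700010000e0005000000000000000000000000000) (nat_lit 0x0) (nat_lit 0x100002c00100000000000000000000000) := T_41 (nat_lit 109) (nat_lit 92) (nat_lit 4) (nat_lit 8) (nat_lit 9) L110409 (by decide +kernel)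
theorem L110411 : W_41 (nat_lit 4) (nat_lit 0x600010000e0005000000000000000000000000000) (nat_lit 0x0) (nat_lit 0x200010000000100002c00100000000000000000000000) := T_41 (nat_lit 160) (nat_lit 177) (nat_lit 5) (nat_lit 8) (nat_lit 6) L110410 (by decide +kernel)
theorem L110412 : W_41 (nat_lit 5) (nat_lit 0x200010000e0005000000000000000000000000000) (nat_lit 0x0) (nat_lit 0xa00050000000100002c00100000000000000000000000) := T_41 (nat_lit 162) (nat_lit 179) (nat_lit 7) (nat_lit 8) (nat_lit 6) L110411 (by decide +kernel)
theorem L110413 : W_41 (nat_lit 2) (nat_lit 0x700010000e0007800040002000000000000000000) (nat_lit 0x0) (nat_lit 0x8000400000000000080000000000000000000000) := D_41 (nat_lit 142) (nat_lit 159) (nat_lit 91) (nat_lit 4) (nat_lit 6) (nat_lit 9) (nat_lit 4) (nat_lit 6) (nat_lit 8) (by decide +kernel)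
theorem L110414 : W_41 (nat_lit 3) (nat_lit 0x700010000e0007800040000000000000000000000) (nat_lit 0x0) (nat_lit 0x8000400000000000080002000100000000000000) := T_41 (nat_lit 73) (nat_lit 56) (nat_lit 7) (nat_lit 5) (nat_lit 3) L110413 (by decide +kernel)
theorem L110415 : W_41 (nat_lit 4) (nat_lit 0x300010000e0007800040000000000000000000000) (nat_lit 0x0) (nat_lit 0x800048000400000000000080002000100000000000000) := T_41 (nat_lit 162) (nat_lit 179) (nat_lit 7) (nat_lit 8) (nat_lit 6) L110414 (by decide +kernel)
theorem L110416 : W_41 (nat_lit 5) (nat_lit 0x300010000e0007800000000000000000000000000) (nat_lit 0x0) (nat_lit 0x8000480004000000000000e0002000100000000000000) := T_41 (nat_lit 90) (nat_lit 89) (nat_lit 0) (nat_lit 8) (nat_lit 6) L110415 (by decide +kernel)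
theorem L110417 : W_41 (nat_lit 6) (nat_lit 0x200010000e0007800000000000000000000000000) (nat_lit 0x0) (nat_lit 0xa000580004000000000000e0002000100000000000000) := T_41 (nat_lit 160) (nat_lit 177) (nat_lit 5) (nat_lit 8) (nat_lit 6) L110416 (by decide +kernel)
theorem L110418 : W_41 (nat_lit 7) (nat_lit 0x200010000e0007000000000000000000000000000) (nat_lit 0x0) (nat_lit 0xa00058000400000000c000e0002000100000000000000) := T_41 (nat_lit 107) (nat_lit 106) (nat_lit 3) (nat_lit 4) (nat_lit 6) L110417 (by decide +kernel)
theorem L110419 : W_41 (nat_lit 8) (nat_lit 0x200010000e0005000000000000000000000000000) (nat_lit 0x0) (nat_lit 0xa00058000400000002c001e0002000100000000000000) := T_41 (nat_lit 109) (nat_lit 92) (nat_lit 4) (nat_lit 8) (nat_lit 9) L110418 (by decide +kernel)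
theorem L110420 : W_41 (nat_lit 2) (nat_lit 0x700094003e0025000000000000000000000000000) (nat_lit 0x0) (nat_lit 0x10000400040000000000000000000000000000) := D_41 (nat_lit 130) (nat_lit 148) (nat_lit 114) (nat_lit 3) (nat_lit 8) (nat_lit 7) (nat_lit 2) (nat_lit 8) (nat_lit 7) (by decide +kernel)
theorem L110421 : W_41 (nat_lit 3) (nat_lit 0x700094003e0005000000000000000000000000000) (nat_lit 0x0) (nat_lit 0x10000400070000000000000000000000000000) := T_41 (nat_lit 113) (nat_lit 112) (nat_lit 2) (nat_lit 7) (nat_lit 7) L110420 (by decide +kernel)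
theorem L110422 : W_41 (nat_lit 4) (nat_lit 0x700014003e0005000000000000000000000000000) (nat_lit 0x0) (nat_lit 0x1c000400070000000000000000000000000000) := T_41 (nat_lit 147) (nat_lit 146) (nat_lit 3) (nat_lit 7) (nat_lit 7) L110421 (by decide +kernel)
theorem L110423 : W_41 (nat_lit 5) (nat_lit 0x700014001e0005000000000000000000000000000) (nat_lit 0x0) (nat_lit 0x1c000600072000000000000000000000000000) := T_41 (nat_lit 129) (nat_lit 109) (nat_lit 0) (nat_lit 10) (nat_lit 7) L110422 (by decide +kernel)
theorem L110424 : W_41 (nat_lit 6) (nat_lit 0x700010001e0005000000000000000000000000000) (nat_lit 0x0) (nat_lit 0x1c600600072000000000000000000000000000) := T_41 (nat_lit 142) (nat_lit 141) (nat_lit 1) (nat_lit 9) (nat_lit 7) L110423 (by decide +kernel)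
theorem L110425 : W_41 (nat_lit 7) (nat_lit 0x300010001e0005000000000000000000000000000) (nat_lit 0x0) (nat_lit 0x80004001c600600072000000000000000000000000000) := T_41 (nat_lit 162) (nat_lit 179) (nat_lit 7) (nat_lit 8) (nat_lit 6) L110424 (by decide +kernel)
theorem L110426 : W_41 (nat_lit 8) (nat_lit 0x300010000e0005000000000000000000000000000) (nat_lit 0x0) (nat_lit 0x80004001c600700072800000000000000000000000000) := T_41 (nat_lit 128) (nat_lit 107) (nat_lit 0) (nat_lit 9) (nat_lit 7) L110425 (by decide +kernel)
theorem L110427 : W_41 (nat_lit 9) (nat_lit 0x200010000e0005000000000000000000000000000) (nat_lit 0x0) (nat_lit 0xa0005001c600700072800000000000000000000000000) := T_41 (nat_lit 160) (nat_lit 177) (nat_lit 5) (nat_lit 8) (nat_lit 6) L110426 (by decide +kernel)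
theorem L110428 : W_41 (nat_lit 2) (nat_lit 0x600016000e0005000000000000000000000000000) (nat_lit 0x0) (nat_lit 0x200018000000000000000000000000000000000000000) := D_41 (nat_lit 160) (nat_lit 177) (nat_lit 159) (nat_lit 5) (nat_lit 8) (nat_lit 6) (nat_lit 0) (nat_lit 9) (nat_lit 9) (by decide +kernel)
theorem L110429 : W_41 (nat_lit 3) (nat_lit 0x600014000e0005000000000000000000000000000) (nat_lit 0x0) (nat_lit 0x200018000200100000000000000000000000000000000) := T_41 (nat_lit 141) (nat_lit 128) (nat_lit 1) (nat_lit 9) (nat_lit 7) L110428 (by decide +kernel)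
theorem L110430 : W_41 (nat_lit 4) (nat_lit 0x200014000e0005000000000000000000000000000) (nat_lit 0x0) (nat_lit 0xa00058000200100000000000000000000000000000000) := T_41 (nat_lit 162) (nat_lit 179) (nat_lit 7) (nat_lit 8) (nat_lit 6) L110429 (by decide +kernel)
theorem L110431 : W_41 (nat_lit 2) (nat_lit 0x300014001e0005000000000000000000000000000) (nat_lit 0x0) (nat_lit 0x200002000100000000000000000000000) := D_41 (nat_lit 109) (nat_lit 129) (nat_lit 92) (nat_lit 0) (nat_lit 10) (nat_lit 7) (nat_lit 4) (nat_lit 8) (nat_lit 9) (by decide +kernel)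
theorem L110432 : W_41 (nat_lit 3) (nat_lit 0x300014000e0005000000000000000000000000000) (nat_lit 0x0) (nat_lit 0x200300002000100000000000000000000000) := T_41 (nat_lit 128) (nat_lit 141) (nat_lit 1) (nat_lit 9) (nat_lit 7) L110431 (by decide +kernel)
theorem L110433 : W_41 (nat_lit 4) (nat_lit 0x200014000e0005000000000000000000000000000) (nat_lit 0x0) (nat_lit 0x200010000200300002000100000000000000000000000) := T_41 (nat_lit 160) (nat_lit 177) (nat_lit 5) (nat_lit 8) (nat_lit 6) L110432 (by decide +kernel)
theorem L110434 : W_41 (nat_lit 2) (nat_lit 0x380014000e0007000000000000000000000000000) (nat_lit 0x0) (nat_lit 0x800040000200000000000000000000000000000000000) := D_41 (nat_lit 162) (nat_lit 179) (nat_lit 141) (nat_lit 7) (nat_lit 8) (nat_lit 6) (nat_lit 0) (nat_lit 9) (nat_lit 9) (by decide +kernel)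
theorem L110435 : W_41 (nat_lit 3) (nat_lit 0x300014000e0007000000000000000000000000000) (nat_lit 0x0) (nat_lit 0x900048000200000000000000000000000000000000000) := T_41 (nat_lit 159) (nat_lit 176) (nat_lit 6) (nat_lit 6) (nat_lit 10) L110434 (by decide +kernel)
theorem L110436 : W_41 (nat_lit 4) (nat_lit 0x200014000e0007000000000000000000000000000) (nat_lit 0x0) (nat_lit 0xb00058000200000000000000000000000000000000000) := T_41 (nat_lit 160) (nat_lit 177) (nat_lit 5) (nat_lit 8) (nat_lit 6) L110435 (by decide +kernel)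
theorem L110437 : W_41 (nat_lit 5) (nat_lit 0x200014000e0005000000000000000000000000000) (nat_lit 0x0) (nat_lit 0xb00058000200000002000100000000000000000000000) := T_41 (nat_lit 109) (nat_lit 92) (nat_lit 4) (nat_lit 8) (nat_lit 9) L110436 (by decide +kernel)
theorem L110438 : W_41 (nat_lit 2) (nat_lit 0x800380014000e0005000000000000000000000000000) (nat_lit 0x0) (nat_lit 0x900040000000000000000000000000000000000000000) := D_41 (nat_lit 162) (nat_lit 179) (nat_lit 176) (nat_lit 7) (nat_lit 8) (nat_lit 6) (nat_lit 1) (nat_lit 9) (nat_lit 9) (by decide +kernel)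
theorem L110439 : W_41 (nat_lit 3) (nat_lit 0x380014000e0005000000000000000000000000000) (nat_lit 0x0) (nat_lit 0x980044000000000000000000000000000000000000000) := T_41 (nat_lit 175) (nat_lit 158) (nat_lit 5) (nat_lit 6) (nat_lit 6) L110438 (by decide +kernel)
theorem L110440 : W_41 (nat_lit 4) (nat_lit 0x280014000e0005000000000000000000000000000) (nat_lit 0x0) (nat_lit 0xb80054000000000000000000000000000000000000000) := T_41 (nat_lit 160) (nat_lit 177) (nat_lit 7) (nat_lit 6) (nat_lit 6) L110439 (by decide +kernel)
theorem L110441 : W_41 (nat_lit 2) (nat_lit 0x7c0014000e0005000080006000400000000000000) (nat_lit 0x0) (nat_lit 0x2000000000000200020000000000) := D_41 (nat_lit 57) (nat_lit 109) (nat_lit 41) (nat_lit 7) (nat_lit 6) (nat_lit 3) (nat_lit 6) (nat_lit 6) (nat_lit 6) (by decide +kernel)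
theorem L110442 : W_41 (nat_lit 3) (nat_lit 0x7c0014000e0005000080006000000000000000000) (nat_lit 0x0) (nat_lit 0x2000000008000600020000000000) := T_41 (nat_lit 58) (nat_lit 75) (nat_lit 6) (nat_lit 6) (nat_lit 7) L110441 (by decide +kernel)
theorem L110443 : W_41 (nat_lit 4) (nat_lit 0x7c0014000e0005000080002000000000000000000) (nat_lit 0x0) (nat_lit 0x200000000c000700020000000000) := T_41 (nat_lit 74) (nat_lit 56) (nat_lit 4) (nat_lit 6) (nat_lit 7) L110442 (by decide +kernel)
theorem L110444 : W_41 (nat_lit 5) (nat_lit 0x780014000e0005000080002000000000000000000) (nat_lit 0x0) (nat_lit 0x8000400000000000200000000c000700020000000000) := T_41 (nat_lit 158) (nat_lit 175) (nat_lit 5) (nat_lit 6) (nat_lit 6) L110443 (by decide +kernel)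
theorem L110445 : W_41 (nat_lit 6) (nat_lit 0x780014000e0005000080000000000000000000000) (nat_lit 0x0) (nat_lit 0x8000400000000000200004000e000700020000000000) := T_41 (nat_lit 73) (nat_lit 90) (nat_lit 4) (nat_lit 6) (nat_lit 8) L110444 (by decide +kernel)
theorem L110446 : W_41 (nat_lit 7) (nat_lit 0x680014000e0005000080000000000000000000000) (nat_lit 0x0) (nat_lit 0x28001400000000000200004000e000700020000000000) := T_41 (nat_lit 160) (nat_lit 177) (nat_lit 7) (nat_lit 6) (nat_lit 6) L110445 (by decide +kernel)
theorem L110447 : W_41 (nat_lit 8) (nat_lit 0x280014000e0005000080000000000000000000000) (nat_lit 0x0) (nat_lit 0xa8005400000000000200004000e000700020000000000) := T_41 (nat_lit 162) (nat_lit 179) (nat_lit 7) (nat_lit 8) (nat_lit 6) L110446 (by decide +kernel)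
theorem L110448 : W_41 (nat_lit 2) (nat_lit 0x2c0014002e0007000080004000000000000000000) (nat_lit 0x0) (nat_lit 0x40002000100000000000000) := D_41 (nat_lit 73) (nat_lit 90) (nat_lit 56) (nat_lit 4) (nat_lit 6) (nat_lit 8) (nat_lit 4) (nat_lit 6) (nat_lit 7) (by decide +kernel)
theorem L110449 : W_41 (nat_lit 3) (nat_lit 0x2c0014002e0007000080000000000000000000000) (nat_lit 0x0) (nat_lit 0x40006000300000000000000) := T_41 (nat_lit 74) (nat_lit 57) (nat_lit 7) (nat_lit 6) (nat_lit 3) L110448 (by decide +kernel)
theorem L110450 : W_41 (nat_lit 4) (nat_lit 0x2c0014000e0007000080000000000000000000000) (nat_lit 0x0) (nat_lit 0x300000000040006000300000000000000) := T_41 (nat_lit 129) (nat_lit 128) (nat_lit 0) (nat_lit 10) (nat_lit 7) L110449 (by decide +kernel)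
theorem L110451 : W_41 (nat_lit 5) (nat_lit 0x2c0014000e0005000080000000000000000000000) (nat_lit 0x0) (nat_lit 0x300002000140006000300000000000000) := T_41 (nat_lit 109) (nat_lit 92) (nat_lit 6) (nat_lit 6) (nat_lit 9) L110450 (by decide +kernel)
theorem L110452 : W_41 (nat_lit 6) (nat_lit 0x280014000e0005000080000000000000000000000) (nat_lit 0x0) (nat_lit 0x80004000000300002000140006000300000000000000) := T_41 (nat_lit 158) (nat_lit 175) (nat_lit 5) (nat_lit 6) (nat_lit 6) L110451 (by decide +kernel)
theorem L110453 : W_41 (nat_lit 9) (nat_lit 0x280014000e0005000000000000000000000000000) (nat_lit 0x0) (nat_lit 0xa800540000003000020001c000e000700020000000000) := Q_41 (nat_lit 91) (C_41 L110330 (C_41 L110323 (C_41 L110447 (C_41 L110452 N_41)))) (by decide +kernel)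
theorem L110454 : W_41 (nat_lit 10) (nat_lit 0x200014000e0005000000000000000000000000000) (nat_lit 0x0) (nat_lit 0xb8005c0000003000020001c000e000700020000000000) := Q_41 (nat_lit 159) (C_41 L110318 (C_41 L110315 (C_41 L110440 (C_41 L110453 N_41)))) (by decide +kernel)
theorem L110455 : W_41 (nat_lit 11) (nat_lit 0x200010000e0005000000000000000000000000000) (nat_lit 0x0) (nat_lit 0xb8005c0006003000020001c000e000700020000000000) := Q_41 (nat_lit 142) (C_41 L110430 (C_41 L110309 (C_41 L110433 (C_41 L110437 (C_41 L110454 N_41))))) (by decide +kernel)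
theorem L110456 : W_41 (nat_lit 2) (nat_lit 0x780014000e0005000000000000000000000000000) (nat_lit 0x0) (nat_lit 0x180004000000000000000000000000000000000000000) := D_41 (nat_lit 175) (nat_lit 176) (nat_lit 158) (nat_lit 1) (nat_lit 9) (nat_lit 9) (nat_lit 5) (nat_lit 6) (nat_lit 6) (by decide +kernel)
theorem L110457 : W_41 (nat_lit 3) (nat_lit 0x700014000e0005000000000000000000000000000) (nat_lit 0x0) (nat_lit 0x18000c000200000000000000000000000000000000000) := T_41 (nat_lit 159) (nat_lit 141) (nat_lit 0) (nat_lit 9) (nat_lit 9) L110456 (by decide +kernel)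
theorem L110458 : W_41 (nat_lit 4) (nat_lit 0x300014000e0005000000000000000000000000000) (nat_lit 0x0) (nat_lit 0x98004c000200000000000000000000000000000000000) := T_41 (nat_lit 162) (nat_lit 179) (nat_lit 7) (nat_lit 8) (nat_lit 6) L110457 (by decide +kernel)
theorem L110459 : W_41 (nat_lit 5) (nat_lit 0x200014000e0005000000000000000000000000000) (nat_lit 0x0) (nat_lit 0xb8005c000200000000000000000000000000000000000) := T_41 (nat_lit 160) (nat_lit 177) (nat_lit 5) (nat_lit 8) (nat_lit 6) L110458 (by decide +kernel)
theorem L110460 : W_41 (nat_lit 7) (nat_lit 0x200010000e0005000000000000000000000000000) (nat_lit 0x0) (nat_lit 0xb8005c000600100000800040000000000000000000000) := Q_41 (nat_lit 142) (C_41 L110430 (C_41 L110338 (C_41 L110459 (C_41 L110348 N_41)))) (by decide +kernel)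
theorem L110461 : W_41 (nat_lit 12) (nat_lit 0x200010000e0004000000000000000000000000000) (nat_lit 0x0) (nat_lit 0xb8005c01c600700073c001e000e000700020000000000) := Q_41 (nat_lit 108) (C_41 L110296 (C_41 L110412 (C_41 L110419 (C_41 L110427 (C_41 L110455 (C_41 L110460 N_41)))))) (by decide +kernel)
theorem L110462 : W_41 (nat_lit 2) (nat_lit 0x700012000f0007800000000000000000000000000) (nat_lit 0x0) (nat_lit 0x80004000000000000000080000000000000000000000) := D_41 (nat_lit 158) (nat_lit 175) (nat_lit 91) (nat_lit 6) (nat_lit 5) (nat_lit 10) (nat_lit 6) (nat_lit 5) (nat_lit 9) (by decide +kernel)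
theorem L110463 : W_41 (nat_lit 3) (nat_lit 0x700012000f0006800000000000000000000000000) (nat_lit 0x0) (nat_lit 0x80004000000100001000080000000000000000000000) := T_41 (nat_lit 108) (nat_lit 128) (nat_lit 3) (nat_lit 5) (nat_lit 6) L110462 (by decide +kernel)
theorem L110464 : W_41 (nat_lit 4) (nat_lit 0x700010000f0006800000000000000000000000000) (nat_lit 0x0) (nat_lit 0x80004000300100001000080000000000000000000000) := T_41 (nat_lit 141) (nat_lit 140) (nat_lit 1) (nat_lit 8) (nat_lit 7) L110463 (by decide +kernel)
theorem L110465 : W_41 (nat_lit 5) (nat_lit 0x700010000f0006000000000000000000000000000) (nat_lit 0x0) (nat_lit 0x80004000300100001c00080000000000000000000000) := T_41 (nat_lit 107) (nat_lit 106) (nat_lit 0) (nat_lit 8) (nat_lit 7) L110464 (by decide +kernel)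
theorem L110466 : W_41 (nat_lit 6) (nat_lit 0x600010000f0006000000000000000000000000000) (nat_lit 0x0) (nat_lit 0x280014000300100001c00080000000000000000000000) := T_41 (nat_lit 160) (nat_lit 177) (nat_lit 5) (nat_lit 8) (nat_lit 6) L110465 (by decide +kernel)
theorem L110467 : W_41 (nat_lit 7) (nat_lit 0x600010000e0006000000000000000000000000000) (nat_lit 0x0) (nat_lit 0x280014000300118001c00080000000000000000000000) := T_41 (nat_lit 124) (nat_lit 123) (nat_lit 2) (nat_lit 4) (nat_lit 7) L110466 (by decide +kernel)
theorem L110468 : W_41 (nat_lit 8) (nat_lit 0x600010000e0004000000000000000000000000000) (nat_lit 0x0) (nat_lit 0x280014000300118003c00180000000000000000000000) := T_41 (nat_lit 109) (nat_lit 92) (nat_lit 4) (nat_lit 8) (nat_lit 9) L110467 (by decide +kernel)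
theorem L110469 : W_41 (nat_lit 9) (nat_lit 0x200010000e0004000000000000000000000000000) (nat_lit 0x0) (nat_lit 0xa80054000300118003c00180000000000000000000000) := T_41 (nat_lit 162) (nat_lit 179) (nat_lit 7) (nat_lit 8) (nat_lit 6) L110468 (by decide +kernel)
theorem L110470 : W_41 (nat_lit 2) (nat_lit 0x200012001e0004800000000000000000000000000) (nat_lit 0x0) (nat_lit 0x100010000400000000000000000000000000) := D_41 (nat_lit 124) (nat_lit 140) (nat_lit 106) (nat_lit 1) (nat_lit 8) (nat_lit 7) (nat_lit 0) (nat_lit 8) (nat_lit 7) (by decide +kernel)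
theorem L110471 : W_41 (nat_lit 3) (nat_lit 0x200012001e0004000000000000000000000000000) (nat_lit 0x0) (nat_lit 0x100010001c00000000000000000000000000) := T_41 (nat_lit 107) (nat_lit 108) (nat_lit 0) (nat_lit 9) (nat_lit 7) L110470 (by decide +kernel)
theorem L110472 : W_41 (nat_lit 4) (nat_lit 0x200012000e0004000000000000000000000000000) (nat_lit 0x0) (nat_lit 0x500110001c00000000000000000000000000) := T_41 (nat_lit 128) (nat_lit 142) (nat_lit 1) (nat_lit 9) (nat_lit 7) L110471 (by decide +kernel)
theorem L110473 : W_41 (nat_lit 2) (nat_lit 0x300016000e0004000000000000000000000000000) (nat_lit 0x0) (nat_lit 0x800048000000000000000000000000000000000000000) := D_41 (nat_lit 162) (nat_lit 179) (nat_lit 159) (nat_lit 7) (nat_lit 8) (nat_lit 6) (nat_lit 0) (nat_lit 9) (nat_lit 9) (by decide +kernel)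
theorem L110474 : W_41 (nat_lit 3) (nat_lit 0x300012000e0004000000000000000000000000000) (nat_lit 0x0) (nat_lit 0x800048000400100000000000000000000000000000000) := T_41 (nat_lit 142) (nat_lit 128) (nat_lit 1) (nat_lit 9) (nat_lit 7) L110473 (by decide +kernel)
theorem L110475 : W_41 (nat_lit 4) (nat_lit 0x200012000e0004000000000000000000000000000) (nat_lit 0x0) (nat_lit 0xa00058000400100000000000000000000000000000000) := T_41 (nat_lit 160) (nat_lit 177) (nat_lit 5) (nat_lit 8) (nat_lit 6) L110474 (by decide +kernel)
theorem L110476 : W_41 (nat_lit 2) (nat_lit 0x700012000f0005800000000000000000000000000) (nat_lit 0x0) (nat_lit 0x4000000000000000080004000000000000000000) := D_41 (nat_lit 91) (nat_lit 74) (nat_lit 158) (nat_lit 5) (nat_lit 6) (nat_lit 4) (nat_lit 6) (nat_lit 5) (nat_lit 9) (by decide +kernel)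
theorem L110477 : W_41 (nat_lit 3) (nat_lit 0x700012000f0004800000000000000000000000000) (nat_lit 0x0) (nat_lit 0x4000000100001000080004000000000000000000) := T_41 (nat_lit 108) (nat_lit 128) (nat_lit 0) (nat_lit 9) (nat_lit 7) L110476 (by decide +kernel)
theorem L110478 : W_41 (nat_lit 4) (nat_lit 0x700012000f0004000000000000000000000000000) (nat_lit 0x0) (nat_lit 0x4000000100001c00080004000000000000000000) := T_41 (nat_lit 107) (nat_lit 106) (nat_lit 0) (nat_lit 8) (nat_lit 7) L110477 (by decide +kernel)
theorem L110479 : W_41 (nat_lit 5) (nat_lit 0x700012000e0004000000000000000000000000000) (nat_lit 0x0) (nat_lit 0x4000100110001c00080004000000000000000000) := T_41 (nat_lit 124) (nat_lit 140) (nat_lit 1) (nat_lit 8) (nat_lit 7) L110478 (by decide +kernel)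
theorem L110480 : W_41 (nat_lit 6) (nat_lit 0x600012000e0004000000000000000000000000000) (nat_lit 0x0) (nat_lit 0x200014000100110001c00080004000000000000000000) := T_41 (nat_lit 160) (nat_lit 177) (nat_lit 5) (nat_lit 8) (nat_lit 6) L110479 (by decide +kernel)
theorem L110481 : W_41 (nat_lit 7) (nat_lit 0x200012000e0004000000000000000000000000000) (nat_lit 0x0) (nat_lit 0xa00054000100110001c00080004000000000000000000) := T_41 (nat_lit 162) (nat_lit 179) (nat_lit 7) (nat_lit 8) (nat_lit 6) L110480 (by decide +kernel)
theorem L110482 : W_41 (nat_lit 8) (nat_lit 0x200010000e0004000000000000000000000000000) (nat_lit 0x0) (nat_lit 0xa0005c000700110001c00080004000000000000000000) := Q_41 (nat_lit 141) (C_41 L110385 (C_41 L110472 (C_41 L110475 (C_41 L110481 N_41)))) (by decide +kernel)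
theorem L110483 : W_41 (nat_lit 13) (nat_lit 0x200010000c0004000000000000000000000000000) (nat_lit 0x0) (nat_lit 0xb8005c01c700738073c001e000e000700020000000000) := Q_41 (nat_lit 125) (C_41 L110357 (C_41 L110363 (C_41 L110258 (C_41 L110371 (C_41 L110400 (C_41 L110408 (C_41 L110461 (C_41 L110469 (C_41 L110482 N_41))))))))) (by decide +kernel)
theorem L110484 : W_41 (nat_lit 2) (nat_lit 0x600010000e000c000000000000000000000000000) (nat_lit 0x0) (nat_lit 0x100030000000000000000000000000000) := D_41 (nat_lit 112) (nat_lit 113) (nat_lit 128) (nat_lit 1) (nat_lit 11) (nat_lit 6) (nat_lit 2) (nat_lit 6) (nat_lit 7) (by decide +kernel)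
theorem L110485 : W_41 (nat_lit 3) (nat_lit 0x600010000c000c000000000000000000000000000) (nat_lit 0x0) (nat_lit 0x130030000000000000000000000000000) := T_41 (nat_lit 125) (nat_lit 124) (nat_lit 2) (nat_lit 5) (nat_lit 7) L110484 (by decide +kernel)
theorem L110486 : W_41 (nat_lit 4) (nat_lit 0x600010000c0004000000000000000000000000000) (nat_lit 0x0) (nat_lit 0x130038000400000000000000000000000) := T_41 (nat_lit 111) (nat_lit 94) (nat_lit 6) (nat_lit 8) (nat_lit 9) L110485 (by decide +kernel)
theorem L110487 : W_41 (nat_lit 5) (nat_lit 0x200010000c0004000000000000000000000000000) (nat_lit 0x0) (nat_lit 0x800040000000130038000400000000000000000000000) := T_41 (nat_lit 162) (nat_lit 179) (nat_lit 7) (nat_lit 8) (nat_lit 6) L110486 (by decide +kernel)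
theorem L110488 : W_41 (nat_lit 14) (nat_lit 0x20001000080004000000000000000000000000000) (nat_lit 0x0) (nat_lit 0xb8005c01c700f7807bc005e000e000700020000000000) := Q_41 (nat_lit 126) (C_41 L110242 (C_41 L110251 (C_41 L110351 (C_41 L110483 (C_41 L110487 N_41))))) (by decide +kernel)
theorem L110492 : W_41 (nat_lit 2) (nat_lit 0x40003e000100008000c000000000000000000000000000) (nat_lit 0x0) (nat_lit 0x38000000000000000000000000000000000000) := D_41 (nat_lit 148) (nat_lit 149) (nat_lit 147) (nat_lit 2) (nat_lit 9) (nat_lit 9) (nat_lit 2) (nat_lit 8) (nat_lit 9) (by decide +kernel)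
theorem L110493 : W_41 (nat_lit 3) (nat_lit 0x40001e000100008000c000000000000000000000000000) (nat_lit 0x0) (nat_lit 0x8000200038000000000000000000000000000000000000) := T_41 (nat_lit 165) (nat_lit 183) (nat_lit 3) (nat_lit 9) (nat_lit 9) L110492 (by decide +kernel)
theorem L110494 : W_41 (nat_lit 4) (nat_lit 0x40001e0001000080004000000000000000000000000000) (nat_lit 0x0) (nat_lit 0x8000200038000000008000400000000000000000000000) := T_41 (nat_lit 111) (nat_lit 94) (nat_lit 6) (nat_lit 8) (nat_lit 9) L110493 (by decide +kernel)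
theorem L110495 : W_41 (nat_lit 5) (nat_lit 0x1e0001000080004000000000000000000000000000) (nat_lit 0x0) (nat_lit 0xe000200038000000008000400000000000000000000000) := T_41 (nat_lit 182) (nat_lit 181) (nat_lit 3) (nat_lit 8) (nat_lit 9) L110494 (by decide +kernel)
theorem L110496 : W_41 (nat_lit 2) (nat_lit 0x3e0001000080004000000000000000000000000000) (nat_lit 0x0) (nat_lit 0xe000000000000000000000000000000000000000000000) := D_41 (nat_lit 182) (nat_lit 181) (nat_lit 183) (nat_lit 3) (nat_lit 8) (nat_lit 9) (nat_lit 3) (nat_lit 9) (nat_lit 9) (by decide +kernel)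
theorem L110497 : W_41 (nat_lit 2) (nat_lit 0x80003e002100008000c000000000000000000000000000) (nat_lit 0x0) (nat_lit 0x10000400040000000000000000000000000000000000000) := D_41 (nat_lit 166) (nat_lit 150) (nat_lit 184) (nat_lit 2) (nat_lit 10) (nat_lit 9) (nat_lit 3) (nat_lit 10) (nat_lit 9) (by decide +kernel)
theorem L110498 : W_41 (nat_lit 3) (nat_lit 0x3e002100008000c000000000000000000000000000) (nat_lit 0x0) (nat_lit 0x1c000400040000000000000000000000000000000000000) := T_41 (nat_lit 183) (nat_lit 182) (nat_lit 3) (nat_lit 9) (nat_lit 9) L110497 (by decide +kernel)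
theorem L110499 : W_41 (nat_lit 4) (nat_lit 0x3e000100008000c000000000000000000000000000) (nat_lit 0x0) (nat_lit 0x1c000400070000000000000000000000000000000000000) := T_41 (nat_lit 149) (nat_lit 148) (nat_lit 2) (nat_lit 9) (nat_lit 9) L110498 (by decide +kernel)
theorem L110500 : W_41 (nat_lit 5) (nat_lit 0x3e0001000080004000000000000000000000000000) (nat_lit 0x0) (nat_lit 0x1c000400070000000008000400000000000000000000000) := T_41 (nat_lit 111) (nat_lit 94) (nat_lit 6) (nat_lit 8) (nat_lit 9) L110499 (by decide +kernel)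
theorem L110501 : W_41 (nat_lit 2) (nat_lit 0x7e0001000080004000000000000000000000000000) (nat_lit 0x0) (nat_lit 0x70000000000000000000000000000000000000) := D_41 (nat_lit 149) (nat_lit 148) (nat_lit 150) (nat_lit 2) (nat_lit 9) (nat_lit 9) (nat_lit 2) (nat_lit 10) (nat_lit 9) (by decide +kernel)
theorem L110502 : W_41 (nat_lit 2) (nat_lit 0x3e000100008007c000000000000000000000000000) (nat_lit 0x0) (nat_lit 0x1c00000000000000000000000000000000) := D_41 (nat_lit 131) (nat_lit 130) (nat_lit 132) (nat_lit 3) (nat_lit 8) (nat_lit 6) (nat_lit 3) (nat_lit 9) (nat_lit 6) (by decide +kernel)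
theorem L110503 : W_41 (nat_lit 3) (nat_lit 0x3e000100008003c000000000000000000000000000) (nat_lit 0x0) (nat_lit 0x1d00040000000000000000000000000000) := T_41 (nat_lit 114) (nat_lit 128) (nat_lit 1) (nat_lit 12) (nat_lit 6) L110502 (by decide +kernel)
theorem L110504 : W_41 (nat_lit 4) (nat_lit 0x3e000100008001c000000000000000000000000000) (nat_lit 0x0) (nat_lit 0x1d40060000000000000000000000000000) := T_41 (nat_lit 113) (nat_lit 126) (nat_lit 1) (nat_lit 11) (nat_lit 6) L110503 (by decide +kernel)
theorem L110505 : W_41 (nat_lit 2) (nat_lit 0x12000fe002100068009c000000000000000000000000000) (nat_lit 0x0) (nat_lit 0x900020000000000000000000000000000) := D_41 (nat_lit 131) (nat_lit 128) (nat_lit 113) (nat_lit 0) (nat_lit 12) (nat_lit 7) (nat_lit 3) (nat_lit 8) (nat_lit 6) (by decide +kernel)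
theorem L110506 : W_41 (nat_lit 3) (nat_lit 0x12000fe002100028009c000000000000000000000000000) (nat_lit 0x0) (nat_lit 0xd00022000000000000000000000000000) := T_41 (nat_lit 130) (nat_lit 109) (nat_lit 3) (nat_lit 7) (nat_lit 6) L110505 (by decide +kernel)
theorem L110507 : W_41 (nat_lit 4) (nat_lit 0x12000fe002100008009c000000000000000000000000000) (nat_lit 0x0) (nat_lit 0x4000f00022000000000000000000000000000) := T_41 (nat_lit 129) (nat_lit 146) (nat_lit 7) (nat_lit 10) (nat_lit 6) L110506 (by decide +kernel)
theorem L110508 : W_41 (nat_lit 5) (nat_lit 0x12000fe002100008001c000000000000000000000000000) (nat_lit 0x0) (nat_lit 0x4001f000a2000000000000000000000000000) := T_41 (nat_lit 115) (nat_lit 132) (nat_lit 7) (nat_lit 13) (nat_lit 6) L110507 (by decide +kernel)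
theorem L110509 : W_41 (nat_lit 6) (nat_lit 0x10000fe002100008001c000000000000000000000000000) (nat_lit 0x0) (nat_lit 0x3000000004001f000a2000000000000000000000000000) := T_41 (nat_lit 181) (nat_lit 180) (nat_lit 1) (nat_lit 14) (nat_lit 9) L110508 (by decide +kernel)
theorem L110510 : W_41 (nat_lit 7) (nat_lit 0x100007e002100008001c000000000000000000000000000) (nat_lit 0x0) (nat_lit 0x23000800004001f000a2000000000000000000000000000) := T_41 (nat_lit 167) (nat_lit 185) (nat_lit 3) (nat_lit 11) (nat_lit 9) L110509 (by decide +kernel)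
theorem L110511 : W_41 (nat_lit 8) (nat_lit 0x7e002100008001c000000000000000000000000000) (nat_lit 0x0) (nat_lit 0x3b000800004001f000a2000000000000000000000000000) := T_41 (nat_lit 184) (nat_lit 183) (nat_lit 3) (nat_lit 10) (nat_lit 9) L110510 (by decide +kernel)
theorem L110512 : W_41 (nat_lit 9) (nat_lit 0x3e002100008001c000000000000000000000000000) (nat_lit 0x0) (nat_lit 0x3b000c00044001f000a2000000000000000000000000000) := T_41 (nat_lit 166) (nat_lit 150) (nat_lit 2) (nat_lit 10) (nat_lit 9) L110511 (by decide +kernel)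
theorem L110513 : W_41 (nat_lit 10) (nat_lit 0x3e000100008001c000000000000000000000000000) (nat_lit 0x0) (nat_lit 0x3b000c00074001f000a2000000000000000000000000000) := T_41 (nat_lit 149) (nat_lit 148) (nat_lit 2) (nat_lit 9) (nat_lit 9) L110512 (by decide +kernel)
theorem L110514 : W_41 (nat_lit 2) (nat_lit 0x3e001100008003c001000000000000000000000000) (nat_lit 0x0) (nat_lit 0xc00040000000000000000000000000000) := D_41 (nat_lit 131) (nat_lit 130) (nat_lit 114) (nat_lit 3) (nat_lit 8) (nat_lit 6) (nat_lit 4) (nat_lit 12) (nat_lit 9) (by decide +kernel)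
theorem L110515 : W_41 (nat_lit 3) (nat_lit 0x3e001100008003c000000000000000000000000000) (nat_lit 0x0) (nat_lit 0xc00040003000000000000000000000000) := T_41 (nat_lit 96) (nat_lit 97) (nat_lit 2) (nat_lit 8) (nat_lit 6) L110514 (by decide +kernel)
theorem L110516 : W_41 (nat_lit 4) (nat_lit 0x3e001100008001c000000000000000000000000000) (nat_lit 0x0) (nat_lit 0xc40060003000000000000000000000000) := T_41 (nat_lit 113) (nat_lit 126) (nat_lit 1) (nat_lit 11) (nat_lit 6) L110515 (by decide +kernel)
theorem L110517 : W_41 (nat_lit 5) (nat_lit 0x3e000100008001c000000000000000000000000000) (nat_lit 0x0) (nat_lit 0x30000c40060003000000000000000000000000) := T_41 (nat_lit 148) (nat_lit 149) (nat_lit 2) (nat_lit 9) (nat_lit 9) L110516 (by decide +kernel)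
theorem L110518 : W_41 (nat_lit 2) (nat_lit 0x3e001100008003c001000000000000000000000000) (nat_lit 0x0) (nat_lit 0x900040000000000000000000000000000) := D_41 (nat_lit 114) (nat_lit 128) (nat_lit 131) (nat_lit 1) (nat_lit 12) (nat_lit 6) (nat_lit 4) (nat_lit 12) (nat_lit 9) (by decide +kernel)
theorem L110519 : W_41 (nat_lit 3) (nat_lit 0x3e001100008003c000000000000000000000000000) (nat_lit 0x0) (nat_lit 0x900040003000000000000000000000000) := T_41 (nat_lit 96) (nat_lit 97) (nat_lit 2) (nat_lit 8) (nat_lit 6) L110518 (by decide +kernel)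
theorem L110520 : W_41 (nat_lit 4) (nat_lit 0x3e000100008003c000000000000000000000000000) (nat_lit 0x0) (nat_lit 0x30000900040003000000000000000000000000) := T_41 (nat_lit 148) (nat_lit 149) (nat_lit 2) (nat_lit 9) (nat_lit 9) L110519 (by decide +kernel)
theorem L110521 : W_41 (nat_lit 5) (nat_lit 0x3e000100008001c000000000000000000000000000) (nat_lit 0x0) (nat_lit 0x30000940060003000000000000000000000000) := T_41 (nat_lit 113) (nat_lit 126) (nat_lit 1) (nat_lit 11) (nat_lit 6) L110520 (by decide +kernel)
theorem L110522 : W_41 (nat_lit 2) (nat_lit 0x12000fe002100028009f000000000000000000000000000) (nat_lit 0x0) (nat_lit 0x70000000000000000000000000000000) := D_41 (nat_lit 125) (nat_lit 124) (nat_lit 126) (nat_lit 1) (nat_lit 9) (nat_lit 6) (nat_lit 1) (nat_lit 10) (nat_lit 6) (by decide +kernel)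
theorem L110523 : W_41 (nat_lit 3) (nat_lit 0x12000fe002100028009e000000000000000000000000000) (nat_lit 0x0) (nat_lit 0x170001000000000000000000000000000) := T_41 (nat_lit 108) (nat_lit 128) (nat_lit 3) (nat_lit 6) (nat_lit 6) L110522 (by decide +kernel)
theorem L110524 : W_41 (nat_lit 4) (nat_lit 0x12000fe002100028009c000000000000000000000000000) (nat_lit 0x0) (nat_lit 0x570003000000000000000000000000000) := T_41 (nat_lit 109) (nat_lit 130) (nat_lit 3) (nat_lit 7) (nat_lit 6) L110523 (by decide +kernel)
theorem L110525 : W_41 (nat_lit 5) (nat_lit 0x12000fe002100008009c000000000000000000000000000) (nat_lit 0x0) (nat_lit 0x4000770003000000000000000000000000000) := T_41 (nat_lit 129) (nat_lit 146) (nat_lit 7) (nat_lit 10) (nat_lit 6) L110524 (by decide +kernel)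
theorem L110526 : W_41 (nat_lit 6) (nat_lit 0x12000fe002100008001c000000000000000000000000000) (nat_lit 0x0) (nat_lit 0x4001770083000000000000000000000000000) := T_41 (nat_lit 115) (nat_lit 132) (nat_lit 7) (nat_lit 13) (nat_lit 6) L110525 (by decide +kernel)
theorem L110527 : W_41 (nat_lit 7) (nat_lit 0x10000fe002100008001c000000000000000000000000000) (nat_lit 0x0) (nat_lit 0x3000000004001770083000000000000000000000000000) := T_41 (nat_lit 181) (nat_lit 180) (nat_lit 1) (nat_lit 14) (nat_lit 9) L110526 (by decide +kernel)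
theorem L110528 : W_41 (nat_lit 8) (nat_lit 0x100007e002100008001c000000000000000000000000000) (nat_lit 0x0) (nat_lit 0x23000800004001770083000000000000000000000000000) := T_41 (nat_lit 167) (nat_lit 185) (nat_lit 3) (nat_lit 11) (nat_lit 9) L110527 (by decide +kernel)
theorem L110529 : W_41 (nat_lit 9) (nat_lit 0x7e002100008001c000000000000000000000000000) (nat_lit 0x0) (nat_lit 0x3b000800004001770083000000000000000000000000000) := T_41 (nat_lit 184) (nat_lit 183) (nat_lit 3) (nat_lit 10) (nat_lit 9) L110528 (by decide +kernel)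
theorem L110530 : W_41 (nat_lit 10) (nat_lit 0x3e002100008001c000000000000000000000000000) (nat_lit 0x0) (nat_lit 0x3b000c00044001770083000000000000000000000000000) := T_41 (nat_lit 166) (nat_lit 150) (nat_lit 2) (nat_lit 10) (nat_lit 9) L110529 (by decide +kernel)
theorem L110531 : W_41 (nat_lit 11) (nat_lit 0x3e000100008001c000000000000000000000000000) (nat_lit 0x0) (nat_lit 0x3b000c00074001770083000000000000000000000000000) := T_41 (nat_lit 149) (nat_lit 148) (nat_lit 2) (nat_lit 9) (nat_lit 9) L110530 (by decide +kernel)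
theorem L110532 : W_41 (nat_lit 12) (nat_lit 0x3e000100008000c000000000000000000000000000) (nat_lit 0x0) (nat_lit 0x3b000c00074001f700f3003000000000000000000000000) := Q_41 (nat_lit 112) (C_41 L110504 (C_41 L110513 (C_41 L110517 (C_41 L110521 (C_41 L110531 N_41))))) (by decide +kernel)
theorem L110533 : W_41 (nat_lit 13) (nat_lit 0x3e0001000080004000000000000000000000000000) (nat_lit 0x0) (nat_lit 0x3b000c00074001f700fb003400000000000000000000000) := T_41 (nat_lit 111) (nat_lit 94) (nat_lit 6) (nat_lit 8) (nat_lit 9) L110532 (by decide +kernel)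
theorem L110534 : W_41 (nat_lit 2) (nat_lit 0x2000fe000100008000c000000000000000000000000000) (nat_lit 0x0) (nat_lit 0xe0000000000000000000000000000000000000) := D_41 (nat_lit 150) (nat_lit 149) (nat_lit 151) (nat_lit 2) (nat_lit 10) (nat_lit 9) (nat_lit 2) (nat_lit 11) (nat_lit 9) (by decide +kernel)
theorem L110535 : W_41 (nat_lit 3) (nat_lit 0x20007e000100008000c000000000000000000000000000) (nat_lit 0x0) (nat_lit 0x10008000e0000000000000000000000000000000000000) := T_41 (nat_lit 167) (nat_lit 180) (nat_lit 1) (nat_lit 14) (nat_lit 9) L110534 (by decide +kernel)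
theorem L110536 : W_41 (nat_lit 4) (nat_lit 0x7e000100008000c000000000000000000000000000) (nat_lit 0x0) (nat_lit 0x70008000e0000000000000000000000000000000000000) := T_41 (nat_lit 181) (nat_lit 182) (nat_lit 3) (nat_lit 8) (nat_lit 9) L110535 (by decide +kernel)
theorem L110537 : W_41 (nat_lit 5) (nat_lit 0x7e0001000080004000000000000000000000000000) (nat_lit 0x0) (nat_lit 0x70008000e0000000008000400000000000000000000000) := T_41 (nat_lit 111) (nat_lit 94) (nat_lit 6) (nat_lit 8) (nat_lit 9) L110536 (by decide +kernel)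
theorem L110538 : W_41 (nat_lit 2) (nat_lit 0x22000fe008100008000c000000000000000000000000000) (nat_lit 0x0) (nat_lit 0x40001000100000000000000000000000000000000000000) := D_41 (nat_lit 168) (nat_lit 152) (nat_lit 186) (nat_lit 2) (nat_lit 12) (nat_lit 9) (nat_lit 3) (nat_lit 12) (nat_lit 9) (by decide +kernel)
theorem L110539 : W_41 (nat_lit 3) (nat_lit 0x2000fe008100008000c000000000000000000000000000) (nat_lit 0x0) (nat_lit 0x70001000100000000000000000000000000000000000000) := T_41 (nat_lit 185) (nat_lit 184) (nat_lit 3) (nat_lit 11) (nat_lit 9) L110538 (by decide +kernel)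
theorem L110540 : W_41 (nat_lit 4) (nat_lit 0x2000fe000100008000c000000000000000000000000000) (nat_lit 0x0) (nat_lit 0x700010001c0000000000000000000000000000000000000) := T_41 (nat_lit 151) (nat_lit 150) (nat_lit 2) (nat_lit 11) (nat_lit 9) L110539 (by decide +kernel)
theorem L110541 : W_41 (nat_lit 5) (nat_lit 0x20007e000100008000c000000000000000000000000000) (nat_lit 0x0) (nat_lit 0x710018001c0000000000000000000000000000000000000) := T_41 (nat_lit 167) (nat_lit 180) (nat_lit 1) (nat_lit 14) (nat_lit 9) L110540 (by decide +kernel)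
theorem L110542 : W_41 (nat_lit 6) (nat_lit 0x7e000100008000c000000000000000000000000000) (nat_lit 0x0) (nat_lit 0x770018001c0000000000000000000000000000000000000) := T_41 (nat_lit 181) (nat_lit 182) (nat_lit 3) (nat_lit 8) (nat_lit 9) L110541 (by decide +kernel)
theorem L110543 : W_41 (nat_lit 7) (nat_lit 0x7e0001000080004000000000000000000000000000) (nat_lit 0x0) (nat_lit 0x770018001c0000000008000400000000000000000000000) := T_41 (nat_lit 111) (nat_lit 94) (nat_lit 6) (nat_lit 8) (nat_lit 9) L110542 (by decide +kernel)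
theorem L110544 : W_41 (nat_lit 2) (nat_lit 0x400030007e0011000e8000c000000000000000000000000000) (nat_lit 0x0) (nat_lit 0x1000030000000000000000000000000000) := D_41 (nat_lit 112) (nat_lit 113) (nat_lit 132) (nat_lit 3) (nat_lit 8) (nat_lit 6) (nat_lit 0) (nat_lit 13) (nat_lit 7) (by decide +kernel)
theorem L110545 : W_41 (nat_lit 3) (nat_lit 0x400030007e0011000a8000c000000000000000000000000000) (nat_lit 0x0) (nat_lit 0x1500030000000000000000000000000000) := T_41 (nat_lit 130) (nat_lit 128) (nat_lit 0) (nat_lit 12) (nat_lit 7) L110544 (by decide +kernel)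
theorem L110546 : W_41 (nat_lit 4) (nat_lit 0x400030007e001100088000c000000000000000000000000000) (nat_lit 0x0) (nat_lit 0x4001700030000000000000000000000000000) := T_41 (nat_lit 129) (nat_lit 146) (nat_lit 7) (nat_lit 10) (nat_lit 7) L110545 (by decide +kernel)
theorem L110547 : W_41 (nat_lit 5) (nat_lit 0x30007e001100088000c000000000000000000000000000) (nat_lit 0x0) (nat_lit 0x800040000000000004001700030000000000000000000000000000) := T_41 (nat_lit 198) (nat_lit 215) (nat_lit 6) (nat_lit 11) (nat_lit 12) L110546 (by decide +kernel)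
theorem L110548 : W_41 (nat_lit 6) (nat_lit 0x30007e001100008000c000000000000000000000000000) (nat_lit 0x0) (nat_lit 0x800040000000000004001f00070000000000000000000000000000) := T_41 (nat_lit 131) (nat_lit 114) (nat_lit 5) (nat_lit 12) (nat_lit 6) L110547 (by decide +kernel)
theorem L110549 : W_41 (nat_lit 7) (nat_lit 0x30007e000100008000c000000000000000000000000000) (nat_lit 0x0) (nat_lit 0x800040000000000034001f00070000000000000000000000000000) := T_41 (nat_lit 148) (nat_lit 149) (nat_lit 2) (nat_lit 9) (nat_lit 9) L110548 (by decide +kernel)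
theorem L110550 : W_41 (nat_lit 8) (nat_lit 0x30007e0001000080004000000000000000000000000000) (nat_lit 0x0) (nat_lit 0x800040000000000034001f00078000400000000000000000000000) := T_41 (nat_lit 111) (nat_lit 94) (nat_lit 6) (nat_lit 8) (nat_lit 9) L110549 (by decide +kernel)
theorem L110551 : W_41 (nat_lit 9) (nat_lit 0x20007e0001000080004000000000000000000000000000) (nat_lit 0x0) (nat_lit 0x800040001000800034001f00078000400000000000000000000000) := T_41 (nat_lit 180) (nat_lit 167) (nat_lit 1) (nat_lit 14) (nat_lit 9) L110550 (by decide +kernel)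
theorem L110552 : W_41 (nat_lit 10) (nat_lit 0x7e0001000080004000000000000000000000000000) (nat_lit 0x0) (nat_lit 0x800040007000800034001f00078000400000000000000000000000) := T_41 (nat_lit 181) (nat_lit 182) (nat_lit 3) (nat_lit 8) (nat_lit 9) L110551 (by decide +kernel)
theorem L110553 : W_41 (nat_lit 11) (nat_lit 0x3e0001000080004000000000000000000000000000) (nat_lit 0x0) (nat_lit 0x800040077001c001f4001f00078000400000000000000000000000) := Q_41 (nat_lit 166) (C_41 L110501 (C_41 L110537 (C_41 L110543 (C_41 L110552 N_41)))) (by decide +kernel)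
theorem L110554 : W_41 (nat_lit 14) (nat_lit 0x1e0001000080004000000000000000000000000000) (nat_lit 0x0) (nat_lit 0x80004007f001e001f4001f700fb003400000000000000000000000) := Q_41 (nat_lit 165) (C_41 L110496 (C_41 L110500 (C_41 L110533 (C_41 L110553 N_41)))) (by decide +kernel)
theorem L110555 : W_41 (nat_lit 2) (nat_lit 0x40001e0011000080004000000000000000000000000000) (nat_lit 0x0) (nat_lit 0x8000200020000000000000000000000000000000000000) := D_41 (nat_lit 165) (nat_lit 183) (nat_lit 149) (nat_lit 3) (nat_lit 9) (nat_lit 9) (nat_lit 2) (nat_lit 9) (nat_lit 9) (by decide +kernel)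
theorem L110556 : W_41 (nat_lit 3) (nat_lit 0x40001e0001000080004000000000000000000000000000) (nat_lit 0x0) (nat_lit 0x8000200038000000000000000000000000000000000000) := T_41 (nat_lit 148) (nat_lit 147) (nat_lit 2) (nat_lit 8) (nat_lit 9) L110555 (by decide +kernel)
theorem L110557 : W_41 (nat_lit 4) (nat_lit 0x1e0001000080004000000000000000000000000000) (nat_lit 0x0) (nat_lit 0xe000200038000000000000000000000000000000000000) := T_41 (nat_lit 182) (nat_lit 181) (nat_lit 3) (nat_lit 8) (nat_lit 9) L110556 (by decide +kernel)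
theorem L110558 : W_41 (nat_lit 2) (nat_lit 0x2000000008000fe004900048016c000000000000000000000000000) (nat_lit 0x0) (nat_lit 0x300080000000000000000000000000000) := D_41 (nat_lit 129) (nat_lit 128) (nat_lit 115) (nat_lit 2) (nat_lit 8) (nat_lit 7) (nat_lit 1) (nat_lit 14) (nat_lit 6) (by decide +kernel)
theorem L110559 : W_41 (nat_lit 3) (nat_lit 0x2000000008000fe004900048012c000000000000000000000000000) (nat_lit 0x0) (nat_lit 0x3000c0002000000000000000000000000) := T_41 (nat_lit 114) (nat_lit 97) (nat_lit 6) (nat_lit 11) (nat_lit 9) L110558 (by decide +kernel)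
theorem L110560 : W_41 (nat_lit 4) (nat_lit 0x2000000008000fe004900048002c000000000000000000000000000) (nat_lit 0x0) (nat_lit 0x23001c0002000000000000000000000000) := T_41 (nat_lit 116) (nat_lit 133) (nat_lit 5) (nat_lit 14) (nat_lit 6) L110559 (by decide +kernel)
theorem L110561 : W_41 (nat_lit 5) (nat_lit 0x2000000008000fe004900008002c000000000000000000000000000) (nat_lit 0x0) (nat_lit 0x10000000000027001c0002000000000000000000000000) := T_41 (nat_lit 130) (nat_lit 180) (nat_lit 5) (nat_lit 11) (nat_lit 6) L110560 (by decide +kernel)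
theorem L110562 : W_41 (nat_lit 6) (nat_lit 0x8000fe004900008002c000000000000000000000000000) (nat_lit 0x0) (nat_lit 0x20001000010000000000027001c0002000000000000000000000000) := T_41 (nat_lit 217) (nat_lit 200) (nat_lit 6) (nat_lit 13) (nat_lit 12) L110561 (by decide +kernel)
theorem L110563 : W_41 (nat_lit 7) (nat_lit 0x8000fe004100008002c000000000000000000000000000) (nat_lit 0x0) (nat_lit 0x200010000100000000c0027001c0002000000000000000000000000) := T_41 (nat_lit 147) (nat_lit 146) (nat_lit 0) (nat_lit 14) (nat_lit 9) L110562 (by decide +kernel)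
theorem L110564 : W_41 (nat_lit 8) (nat_lit 0x80007e004100008002c000000000000000000000000000) (nat_lit 0x0) (nat_lit 0x200010000100080008c0027001c0002000000000000000000000000) := T_41 (nat_lit 167) (nat_lit 151) (nat_lit 2) (nat_lit 11) (nat_lit 9) L110563 (by decide +kernel)
theorem L110565 : W_41 (nat_lit 9) (nat_lit 0x80007e000100008002c000000000000000000000000000) (nat_lit 0x0) (nat_lit 0x20001000010008000ec0027001c0002000000000000000000000000) := T_41 (nat_lit 150) (nat_lit 149) (nat_lit 2) (nat_lit 10) (nat_lit 9) L110564 (by decide +kernel)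
theorem L110566 : W_41 (nat_lit 10) (nat_lit 0x80003e000100008002c000000000000000000000000000) (nat_lit 0x0) (nat_lit 0x2000100011000c000ec0027001c0002000000000000000000000000) := T_41 (nat_lit 166) (nat_lit 184) (nat_lit 3) (nat_lit 10) (nat_lit 9) L110565 (by decide +kernel)
theorem L110567 : W_41 (nat_lit 2) (nat_lit 0x2000000008000fe0049000680074000000000000000000000000000) (nat_lit 0x0) (nat_lit 0x2000180000000000000000000000000000) := D_41 (nat_lit 116) (nat_lit 133) (nat_lit 115) (nat_lit 5) (nat_lit 14) (nat_lit 6) (nat_lit 1) (nat_lit 14) (nat_lit 6) (by decide +kernel)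
theorem L110568 : W_41 (nat_lit 3) (nat_lit 0x2000000008000fe0049000480074000000000000000000000000000) (nat_lit 0x0) (nat_lit 0x2300180000000000000000000000000000) := T_41 (nat_lit 129) (nat_lit 128) (nat_lit 2) (nat_lit 8) (nat_lit 7) L110567 (by decide +kernel)
theorem L110569 : W_41 (nat_lit 4) (nat_lit 0x2000000008000fe0049000480034000000000000000000000000000) (nat_lit 0x0) (nat_lit 0x23001c0002000000000000000000000000) := T_41 (nat_lit 114) (nat_lit 97) (nat_lit 6) (nat_lit 11) (nat_lit 9) L110568 (by decide +kernel)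
theorem L110570 : W_41 (nat_lit 5) (nat_lit 0x2000000008000fe0049000480024000000000000000000000000000) (nat_lit 0x0) (nat_lit 0x23001d0002800000000000000000000000) := T_41 (nat_lit 112) (nat_lit 95) (nat_lit 4) (nat_lit 11) (nat_lit 9) L110569 (by decide +kernel)
theorem L110571 : W_41 (nat_lit 6) (nat_lit 0x2000000008000fe0049000080024000000000000000000000000000) (nat_lit 0x0) (nat_lit 0x10000000000027001d0002800000000000000000000000) := T_41 (nat_lit 130) (nat_lit 180) (nat_lit 5) (nat_lit 11) (nat_lit 6) L110570 (by decide +kernel)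
theorem L110572 : W_41 (nat_lit 7) (nat_lit 0x8000fe0049000080024000000000000000000000000000) (nat_lit 0x0) (nat_lit 0x20001000010000000000027001d0002800000000000000000000000) := T_41 (nat_lit 217) (nat_lit 200) (nat_lit 6) (nat_lit 13) (nat_lit 12) L110571 (by decide +kernel)
theorem L110573 : W_41 (nat_lit 8) (nat_lit 0x8000fe0041000080024000000000000000000000000000) (nat_lit 0x0) (nat_lit 0x200010000100000000c0027001d0002800000000000000000000000) := T_41 (nat_lit 147) (nat_lit 146) (nat_lit 0) (nat_lit 14) (nat_lit 9) L110572 (by decide +kernel)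
theorem L110574 : W_41 (nat_lit 9) (nat_lit 0x80007e0041000080024000000000000000000000000000) (nat_lit 0x0) (nat_lit 0x200010000100080008c0027001d0002800000000000000000000000) := T_41 (nat_lit 167) (nat_lit 151) (nat_lit 2) (nat_lit 11) (nat_lit 9) L110573 (by decide +kernel)
theorem L110575 : W_41 (nat_lit 10) (nat_lit 0x80007e0001000080024000000000000000000000000000) (nat_lit 0x0) (nat_lit 0x20001000010008000ec0027001d0002800000000000000000000000) := T_41 (nat_lit 150) (nat_lit 149) (nat_lit 2) (nat_lit 10) (nat_lit 9) L110574 (by decide +kernel)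
theorem L110576 : W_41 (nat_lit 11) (nat_lit 0x80003e0001000080024000000000000000000000000000) (nat_lit 0x0) (nat_lit 0x2000100011000c000ec0027001d0002800000000000000000000000) := T_41 (nat_lit 166) (nat_lit 184) (nat_lit 3) (nat_lit 10) (nat_lit 9) L110575 (by decide +kernel)
theorem L110577 : W_41 (nat_lit 2) (nat_lit 0x3e000100008003e001000000000000000000000000) (nat_lit 0x0) (nat_lit 0x4000600000000000000000000000000000000) := D_41 (nat_lit 129) (nat_lit 146) (nat_lit 130) (nat_lit 6) (nat_lit 10) (nat_lit 9) (nat_lit 3) (nat_lit 7) (nat_lit 6) (by decide +kernel)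
theorem L110578 : W_41 (nat_lit 3) (nat_lit 0x3e000100008003c001000000000000000000000000) (nat_lit 0x0) (nat_lit 0x4000600002000800000000000000000000000) := T_41 (nat_lit 109) (nat_lit 95) (nat_lit 2) (nat_lit 7) (nat_lit 6) L110577 (by decide +kernel)
theorem L110579 : W_41 (nat_lit 4) (nat_lit 0x3e000100008003c000000000000000000000000000) (nat_lit 0x0) (nat_lit 0x4000600002003800000000000000000000000) := T_41 (nat_lit 96) (nat_lit 97) (nat_lit 2) (nat_lit 8) (nat_lit 6) L110578 (by decide +kernel)
theorem L110580 : W_41 (nat_lit 2) (nat_lit 0x1e000100008007c000000000000000000000000000) (nat_lit 0x0) (nat_lit 0x1c00000000000000000000000000000000) := D_41 (nat_lit 131) (nat_lit 130) (nat_lit 132) (nat_lit 3) (nat_lit 8) (nat_lit 6) (nat_lit 3) (nat_lit 9) (nat_lit 6) (by decide +kernel)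
theorem L110581 : W_41 (nat_lit 3) (nat_lit 0x1e000100008003c000000000000000000000000000) (nat_lit 0x0) (nat_lit 0x1d00040000000000000000000000000000) := T_41 (nat_lit 114) (nat_lit 128) (nat_lit 1) (nat_lit 12) (nat_lit 6) L110580 (by decide +kernel)
theorem L110582 : W_41 (nat_lit 4) (nat_lit 0x1e000100008001c000000000000000000000000000) (nat_lit 0x0) (nat_lit 0x1d40060000000000000000000000000000) := T_41 (nat_lit 113) (nat_lit 126) (nat_lit 1) (nat_lit 11) (nat_lit 6) L110581 (by decide +kernel)
theorem L110583 : W_41 (nat_lit 5) (nat_lit 0x1e0001000080014000000000000000000000000000) (nat_lit 0x0) (nat_lit 0x1d40068000400000000000000000000000) := T_41 (nat_lit 111) (nat_lit 94) (nat_lit 6) (nat_lit 8) (nat_lit 9) L110582 (by decide +kernel)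
theorem L110584 : W_41 (nat_lit 2) (nat_lit 0x20001e0001000680014000000000000000000000000000) (nat_lit 0x0) (nat_lit 0x10000a000000000000000000000000000) := D_41 (nat_lit 109) (nat_lit 111) (nat_lit 128) (nat_lit 3) (nat_lit 7) (nat_lit 6) (nat_lit 0) (nat_lit 11) (nat_lit 7) (by decide +kernel)
theorem L110585 : W_41 (nat_lit 3) (nat_lit 0x20001e0001000280014000000000000000000000000000) (nat_lit 0x0) (nat_lit 0x800050000a000000000000000000000000000) := T_41 (nat_lit 130) (nat_lit 147) (nat_lit 4) (nat_lit 11) (nat_lit 10) L110584 (by decide +kernel)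
theorem L110586 : W_41 (nat_lit 4) (nat_lit 0x20001e0001000080014000000000000000000000000000) (nat_lit 0x0) (nat_lit 0xc00070000a000000000000000000000000000) := T_41 (nat_lit 129) (nat_lit 146) (nat_lit 7) (nat_lit 10) (nat_lit 6) L110585 (by decide +kernel)
theorem L110587 : W_41 (nat_lit 5) (nat_lit 0x1e0001000080014000000000000000000000000000) (nat_lit 0x0) (nat_lit 0x600000000c00070000a000000000000000000000000000) := T_41 (nat_lit 181) (nat_lit 182) (nat_lit 3) (nat_lit 8) (nat_lit 9) L110586 (by decide +kernel)
theorem L110588 : W_41 (nat_lit 2) (nat_lit 0x20001e000100028003c000000000000000000000000000) (nat_lit 0x0) (nat_lit 0x8000c00000000000000000000000000000000) := D_41 (nat_lit 130) (nat_lit 147) (nat_lit 131) (nat_lit 4) (nat_lit 11) (nat_lit 10) (nat_lit 3) (nat_lit 8) (nat_lit 6) (by decide +kernel)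
theorem L110589 : W_41 (nat_lit 3) (nat_lit 0x20001e000100008003c000000000000000000000000000) (nat_lit 0x0) (nat_lit 0xc000e00000000000000000000000000000000) := T_41 (nat_lit 129) (nat_lit 146) (nat_lit 7) (nat_lit 10) (nat_lit 6) L110588 (by decide +kernel)
theorem L110590 : W_41 (nat_lit 4) (nat_lit 0x20001e000100008001c000000000000000000000000000) (nat_lit 0x0) (nat_lit 0xc000e40020000000000000000000000000000) := T_41 (nat_lit 113) (nat_lit 126) (nat_lit 1) (nat_lit 11) (nat_lit 6) L110589 (by decide +kernel)
theorem L110591 : W_41 (nat_lit 5) (nat_lit 0x20001e0001000080014000000000000000000000000000) (nat_lit 0x0) (nat_lit 0xc000e40028000400000000000000000000000) := T_41 (nat_lit 111) (nat_lit 94) (nat_lit 6) (nat_lit 8) (nat_lit 9) L110590 (by decide +kernel)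
theorem L110592 : W_41 (nat_lit 6) (nat_lit 0x1e0001000080014000000000000000000000000000) (nat_lit 0x0) (nat_lit 0x600000000c000e40028000400000000000000000000000) := T_41 (nat_lit 181) (nat_lit 182) (nat_lit 3) (nat_lit 8) (nat_lit 9) L110591 (by decide +kernel)
theorem L110593 : W_41 (nat_lit 2) (nat_lit 0x20001e0001000780014000000000000000000000000000) (nat_lit 0x0) (nat_lit 0x40060000000000000000000000000000) := D_41 (nat_lit 113) (nat_lit 126) (nat_lit 114) (nat_lit 2) (nat_lit 7) (nat_lit 7) (nat_lit 2) (nat_lit 8) (nat_lit 7) (by decide +kernel)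
theorem L110594 : W_41 (nat_lit 3) (nat_lit 0x20001e0001000680014000000000000000000000000000) (nat_lit 0x0) (nat_lit 0x140062000000000000000000000000000) := T_41 (nat_lit 128) (nat_lit 109) (nat_lit 0) (nat_lit 11) (nat_lit 7) L110593 (by decide +kernel)
theorem L110595 : W_41 (nat_lit 4) (nat_lit 0x20001e0001000280014000000000000000000000000000) (nat_lit 0x0) (nat_lit 0x8000540062000000000000000000000000000) := T_41 (nat_lit 130) (nat_lit 147) (nat_lit 4) (nat_lit 11) (nat_lit 10) L110594 (by decide +kernel)
theorem L110596 : W_41 (nat_lit 5) (nat_lit 0x20001e0001000080014000000000000000000000000000) (nat_lit 0x0) (nat_lit 0xc000740062000000000000000000000000000) := T_41 (nat_lit 129) (nat_lit 146) (nat_lit 7) (nat_lit 10) (nat_lit 6) L110595 (by decide +kernel)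
theorem L110597 : W_41 (nat_lit 6) (nat_lit 0x1e0001000080014000000000000000000000000000) (nat_lit 0x0) (nat_lit 0x600000000c000740062000000000000000000000000000) := T_41 (nat_lit 181) (nat_lit 182) (nat_lit 3) (nat_lit 8) (nat_lit 9) L110596 (by decide +kernel)
theorem L110598 : W_41 (nat_lit 2) (nat_lit 0x20001e000100028003e001000000000000000000000000) (nat_lit 0x0) (nat_lit 0x100041000000000000000000000000000) := D_41 (nat_lit 128) (nat_lit 114) (nat_lit 108) (nat_lit 1) (nat_lit 12) (nat_lit 6) (nat_lit 3) (nat_lit 6) (nat_lit 6) (by decide +kernel)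
theorem L110599 : W_41 (nat_lit 3) (nat_lit 0x20001e000100028003c001000000000000000000000000) (nat_lit 0x0) (nat_lit 0x100043000800000000000000000000000) := T_41 (nat_lit 109) (nat_lit 95) (nat_lit 2) (nat_lit 7) (nat_lit 6) L110598 (by decide +kernel)
theorem L110600 : W_41 (nat_lit 4) (nat_lit 0x20001e000100028003c000000000000000000000000000) (nat_lit 0x0) (nat_lit 0x100043003800000000000000000000000) := T_41 (nat_lit 96) (nat_lit 97) (nat_lit 2) (nat_lit 8) (nat_lit 6) L110599 (by decide +kernel)
theorem L110601 : W_41 (nat_lit 5) (nat_lit 0x20001e000100008003c000000000000000000000000000) (nat_lit 0x0) (nat_lit 0x4000300043003800000000000000000000000) := T_41 (nat_lit 129) (nat_lit 146) (nat_lit 7) (nat_lit 10) (nat_lit 6) L110600 (by decide +kernel)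
theorem L110602 : W_41 (nat_lit 6) (nat_lit 0x20001e000100008001c000000000000000000000000000) (nat_lit 0x0) (nat_lit 0x4000340063003800000000000000000000000) := T_41 (nat_lit 113) (nat_lit 126) (nat_lit 1) (nat_lit 11) (nat_lit 6) L110601 (by decide +kernel)
theorem L110603 : W_41 (nat_lit 7) (nat_lit 0x20001e0001000080014000000000000000000000000000) (nat_lit 0x0) (nat_lit 0x400034006b003c00000000000000000000000) := T_41 (nat_lit 111) (nat_lit 94) (nat_lit 6) (nat_lit 8) (nat_lit 9) L110602 (by decide +kernel)
theorem L110604 : W_41 (nat_lit 8) (nat_lit 0x1e0001000080014000000000000000000000000000) (nat_lit 0x0) (nat_lit 0x600000000400034006b003c00000000000000000000000) := T_41 (nat_lit 181) (nat_lit 182) (nat_lit 3) (nat_lit 8) (nat_lit 9) L110603 (by decide +kernel)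
theorem L110605 : W_41 (nat_lit 9) (nat_lit 0x1e0001000080004000000000000000000000000000) (nat_lit 0x0) (nat_lit 0x600000000c001f4007b003c00000000000000000000000) := Q_41 (nat_lit 112) (C_41 L110583 (C_41 L110587 (C_41 L110592 (C_41 L110597 (C_41 L110604 N_41))))) (by decide +kernel)
theorem L110606 : W_41 (nat_lit 2) (nat_lit 0x3e0001000080004000000000000000000000000000) (nat_lit 0x0) (nat_lit 0x38000000000000000000000000000000000000) := D_41 (nat_lit 148) (nat_lit 147) (nat_lit 149) (nat_lit 2) (nat_lit 8) (nat_lit 9) (nat_lit 2) (nat_lit 9) (nat_lit 9) (by decide +kernel)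
theorem L110607 : W_41 (nat_lit 12) (nat_lit 0x3e0001000080024000000000000000000000000000) (nat_lit 0x0) (nat_lit 0x200010001d000c000ec0027001d0002800000000000000000000000) := T_41 (nat_lit 183) (nat_lit 182) (nat_lit 3) (nat_lit 9) (nat_lit 9) L110576 (by decide +kernel)
theorem L110608 : W_41 (nat_lit 5) (nat_lit 0x3e000100008002c000000000000000000000000000) (nat_lit 0x0) (nat_lit 0x4000640012003800000000000000000000000) := T_41 (nat_lit 112) (nat_lit 126) (nat_lit 1) (nat_lit 11) (nat_lit 6) L110579 (by decide +kernel)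
theorem L110609 : W_41 (nat_lit 6) (nat_lit 0x3e0001000080024000000000000000000000000000) (nat_lit 0x0) (nat_lit 0x400064001a003c00000000000000000000000) := T_41 (nat_lit 111) (nat_lit 94) (nat_lit 6) (nat_lit 8) (nat_lit 9) L110608 (by decide +kernel)
theorem L110610 : W_41 (nat_lit 11) (nat_lit 0x3e000100008002c000000000000000000000000000) (nat_lit 0x0) (nat_lit 0x200010001d000c000ec0027001c0002000000000000000000000000) := T_41 (nat_lit 183) (nat_lit 182) (nat_lit 3) (nat_lit 9) (nat_lit 9) L110566 (by decide +kernel)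
theorem L110611 : W_41 (nat_lit 12) (nat_lit 0x3e0001000080024000000000000000000000000000) (nat_lit 0x0) (nat_lit 0x200010001d000c000ec0027001c8002400000000000000000000000) := T_41 (nat_lit 111) (nat_lit 94) (nat_lit 6) (nat_lit 8) (nat_lit 9) L110610 (by decide +kernel)
theorem L110612 : W_41 (nat_lit 2) (nat_lit 0x40003e000100008003c000000000000000000000000000) (nat_lit 0x0) (nat_lit 0x8000c00000000000000000000000000000000) := D_41 (nat_lit 130) (nat_lit 147) (nat_lit 131) (nat_lit 7) (nat_lit 11) (nat_lit 6) (nat_lit 3) (nat_lit 8) (nat_lit 6) (by decide +kernel)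
theorem L110613 : W_41 (nat_lit 3) (nat_lit 0x40003e000100008002c000000000000000000000000000) (nat_lit 0x0) (nat_lit 0x8000c40010000000000000000000000000000) := T_41 (nat_lit 112) (nat_lit 126) (nat_lit 1) (nat_lit 11) (nat_lit 6) L110612 (by decide +kernel)
theorem L110614 : W_41 (nat_lit 4) (nat_lit 0x40003e0001000080024000000000000000000000000000) (nat_lit 0x0) (nat_lit 0x8000c40018000400000000000000000000000) := T_41 (nat_lit 111) (nat_lit 94) (nat_lit 6) (nat_lit 8) (nat_lit 9) L110613 (by decide +kernel)
theorem L110615 : W_41 (nat_lit 5) (nat_lit 0x3e0001000080024000000000000000000000000000) (nat_lit 0x0) (nat_lit 0xc000000008000c40018000400000000000000000000000) := T_41 (nat_lit 182) (nat_lit 183) (nat_lit 3) (nat_lit 9) (nat_lit 9) L110614 (by decide +kernel)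
theorem L110616 : W_41 (nat_lit 2) (nat_lit 0x40003e000100008007c000000000000000000000000000) (nat_lit 0x0) (nat_lit 0x7000000000000000000000000) := D_41 (nat_lit 97) (nat_lit 96) (nat_lit 98) (nat_lit 2) (nat_lit 8) (nat_lit 6) (nat_lit 2) (nat_lit 9) (nat_lit 6) (by decide +kernel)
theorem L110617 : W_41 (nat_lit 3) (nat_lit 0x40003e000100008003c000000000000000000000000000) (nat_lit 0x0) (nat_lit 0x100040007000000000000000000000000) := T_41 (nat_lit 114) (nat_lit 128) (nat_lit 1) (nat_lit 12) (nat_lit 6) L110616 (by decide +kernel)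
theorem L110618 : W_41 (nat_lit 4) (nat_lit 0x40003e000100008002c000000000000000000000000000) (nat_lit 0x0) (nat_lit 0x140050007000000000000000000000000) := T_41 (nat_lit 112) (nat_lit 126) (nat_lit 1) (nat_lit 11) (nat_lit 6) L110617 (by decide +kernel)
theorem L110619 : W_41 (nat_lit 5) (nat_lit 0x40003e0001000080024000000000000000000000000000) (nat_lit 0x0) (nat_lit 0x140058007400000000000000000000000) := T_41 (nat_lit 111) (nat_lit 94) (nat_lit 6) (nat_lit 8) (nat_lit 9) L110618 (by decide +kernel)
theorem L110620 : W_41 (nat_lit 6) (nat_lit 0x3e0001000080024000000000000000000000000000) (nat_lit 0x0) (nat_lit 0xc000000000000140058007400000000000000000000000) := T_41 (nat_lit 182) (nat_lit 183) (nat_lit 3) (nat_lit 9) (nat_lit 9) L110619 (by decide +kernel)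
theorem L110621 : W_41 (nat_lit 13) (nat_lit 0x3e0001000080004000000000000000000000000000) (nat_lit 0x0) (nat_lit 0x200010001d000c000ec002f401fa007c00000000000000000000000) := Q_41 (nat_lit 113) (C_41 L110607 (C_41 L110609 (C_41 L110611 (C_41 L110615 (C_41 L110620 N_41))))) (by decide +kernel)
theorem L110622 : W_41 (nat_lit 7) (nat_lit 0x3e000900008000c000000000000000000000000000) (nat_lit 0x0) (nat_lit 0x100008000c000000000000540070007000000000000000000000000) := T_41 (nat_lit 182) (nat_lit 183) (nat_lit 3) (nat_lit 9) (nat_lit 9) L734 (by decide +kernel)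
theorem L110623 : W_41 (nat_lit 8) (nat_lit 0x3e000100008000c000000000000000000000000000) (nat_lit 0x0) (nat_lit 0x100008000c000000018000540070007000000000000000000000000) := T_41 (nat_lit 147) (nat_lit 148) (nat_lit 2) (nat_lit 8) (nat_lit 9) L110622 (by decide +kernel)
theorem L110624 : W_41 (nat_lit 9) (nat_lit 0x3e0001000080004000000000000000000000000000) (nat_lit 0x0) (nat_lit 0x100008000c000000018000540078007400000000000000000000000) := T_41 (nat_lit 111) (nat_lit 94) (nat_lit 6) (nat_lit 8) (nat_lit 9) L110623 (by decide +kernel)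
theorem L110625 : W_41 (nat_lit 14) (nat_lit 0x1e0001000080004000000000000000000000000000) (nat_lit 0x0) (nat_lit 0x300018001d000e000fc002f401fa007c00000000000000000000000) := Q_41 (nat_lit 165) (C_41 L110606 (C_41 L110500 (C_41 L110621 (C_41 L110624 N_41)))) (by decide +kernel)
theorem L110626 : W_41 (nat_lit 2) (nat_lit 0x1e000100028001e000000000000000000000000000) (nat_lit 0x0) (nat_lit 0x60020000000000000000000000000000) := D_41 (nat_lit 126) (nat_lit 113) (nat_lit 125) (nat_lit 1) (nat_lit 11) (nat_lit 6) (nat_lit 1) (nat_lit 10) (nat_lit 6) (by decide +kernel)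
theorem L110627 : W_41 (nat_lit 3) (nat_lit 0x1e000100028001c000000000000000000000000000) (nat_lit 0x0) (nat_lit 0x460022000000000000000000000000000) := T_41 (nat_lit 109) (nat_lit 130) (nat_lit 3) (nat_lit 7) (nat_lit 6) L110626 (by decide +kernel)
theorem L110628 : W_41 (nat_lit 4) (nat_lit 0x1e0001000280014000000000000000000000000000) (nat_lit 0x0) (nat_lit 0x46002a000400000000000000000000000) := T_41 (nat_lit 111) (nat_lit 94) (nat_lit 6) (nat_lit 8) (nat_lit 9) L110627 (by decide +kernel)
theorem L110629 : W_41 (nat_lit 2) (nat_lit 0x1e0005000280014000800000000000000000000000) (nat_lit 0x0) (nat_lit 0x20001000080000000000000000000) := D_41 (nat_lit 96) (nat_lit 79) (nat_lit 113) (nat_lit 6) (nat_lit 10) (nat_lit 8) (nat_lit 6) (nat_lit 10) (nat_lit 9) (by decide +kernel)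
theorem L110630 : W_41 (nat_lit 3) (nat_lit 0x1e0005000280014000000000000000000000000000) (nat_lit 0x0) (nat_lit 0x8000000020001800080000000000000000000) := T_41 (nat_lit 95) (nat_lit 147) (nat_lit 7) (nat_lit 10) (nat_lit 5) L110629 (by decide +kernel)
theorem L110631 : W_41 (nat_lit 4) (nat_lit 0x1e0001000280014000000000000000000000000000) (nat_lit 0x0) (nat_lit 0x200000000c000000020001800080000000000000000000) := T_41 (nat_lit 146) (nat_lit 181) (nat_lit 7) (nat_lit 10) (nat_lit 6) L110630 (by decide +kernel)
theorem L110632 : W_41 (nat_lit 2) (nat_lit 0x1e000100028001f000000000000000000000000000) (nat_lit 0x0) (nat_lit 0x70000000000000000000000000000000) := D_41 (nat_lit 125) (nat_lit 124) (nat_lit 126) (nat_lit 1) (nat_lit 9) (nat_lit 6) (nat_lit 1) (nat_lit 10) (nat_lit 6) (by decide +kernel)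
theorem L110633 : W_41 (nat_lit 3) (nat_lit 0x1e000100028001e000000000000000000000000000) (nat_lit 0x0) (nat_lit 0x170001000000000000000000000000000) := T_41 (nat_lit 108) (nat_lit 128) (nat_lit 3) (nat_lit 6) (nat_lit 6) L110632 (by decide +kernel)
theorem L110634 : W_41 (nat_lit 4) (nat_lit 0x1e000100028001c000000000000000000000000000) (nat_lit 0x0) (nat_lit 0x570003000000000000000000000000000) := T_41 (nat_lit 109) (nat_lit 130) (nat_lit 3) (nat_lit 7) (nat_lit 6) L110633 (by decide +kernel)
theorem L110635 : W_41 (nat_lit 5) (nat_lit 0x1e0001000280014000000000000000000000000000) (nat_lit 0x0) (nat_lit 0x57000b000400000000000000000000000) := T_41 (nat_lit 111) (nat_lit 94) (nat_lit 6) (nat_lit 8) (nat_lit 9) L110634 (by decide +kernel)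
theorem L110636 : W_41 (nat_lit 6) (nat_lit 0x1e0001000280004000000000000000000000000000) (nat_lit 0x0) (nat_lit 0x200000000c00057003b001c00080000000000000000000) := Q_41 (nat_lit 112) (C_41 L110628 (C_41 L110631 (C_41 L110635 N_41))) (by decide +kernel)
theorem L110637 : W_41 (nat_lit 2) (nat_lit 0x1e0001000f80004000000000000000000000000000) (nat_lit 0x0) (nat_lit 0xe0000000000000000000000000000) := D_41 (nat_lit 114) (nat_lit 113) (nat_lit 115) (nat_lit 2) (nat_lit 8) (nat_lit 7) (nat_lit 2) (nat_lit 9) (nat_lit 7) (by decide +kernel)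
theorem L110638 : W_41 (nat_lit 3) (nat_lit 0x1e0001000780004000000000000000000000000000) (nat_lit 0x0) (nat_lit 0x8000e8000000000000000000000000000) := T_41 (nat_lit 131) (nat_lit 111) (nat_lit 0) (nat_lit 12) (nat_lit 7) L110637 (by decide +kernel)
theorem L110639 : W_41 (nat_lit 4) (nat_lit 0x1e0001000680004000000000000000000000000000) (nat_lit 0x0) (nat_lit 0x9000ea000000000000000000000000000) := T_41 (nat_lit 128) (nat_lit 109) (nat_lit 0) (nat_lit 11) (nat_lit 7) L110638 (by decide +kernel)
theorem L110640 : W_41 (nat_lit 2) (nat_lit 0x20001e0009000680004000000000000000000000000000) (nat_lit 0x0) (nat_lit 0x20001000000000000000020000000000000000000000000000) := D_41 (nat_lit 180) (nat_lit 113) (nat_lit 197) (nat_lit 5) (nat_lit 11) (nat_lit 6) (nat_lit 5) (nat_lit 11) (nat_lit 7) (by decide +kernel)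
theorem L110641 : W_41 (nat_lit 3) (nat_lit 0x1e0009000680004000000000000000000000000000) (nat_lit 0x0) (nat_lit 0x20003000000000000000030000000000000000000000000000) := T_41 (nat_lit 181) (nat_lit 112) (nat_lit 4) (nat_lit 11) (nat_lit 10) L110640 (by decide +kernel)
theorem L110642 : W_41 (nat_lit 4) (nat_lit 0x1e0001000680004000000000000000000000000000) (nat_lit 0x0) (nat_lit 0x20003000000018000000030000000000000000000000000000) := T_41 (nat_lit 147) (nat_lit 148) (nat_lit 2) (nat_lit 8) (nat_lit 9) L110641 (by decide +kernel)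
theorem L110643 : W_41 (nat_lit 2) (nat_lit 0x20001e0009000780004000000000000000000000000000) (nat_lit 0x0) (nat_lit 0x40000000000004000040000000000000000000000000000000) := D_41 (nat_lit 146) (nat_lit 126) (nat_lit 198) (nat_lit 3) (nat_lit 7) (nat_lit 7) (nat_lit 4) (nat_lit 11) (nat_lit 11) (by decide +kernel)
theorem L110644 : W_41 (nat_lit 3) (nat_lit 0x1e0009000780004000000000000000000000000000) (nat_lit 0x0) (nat_lit 0x40002000000004000040010000000000000000000000000000) := T_41 (nat_lit 181) (nat_lit 112) (nat_lit 4) (nat_lit 11) (nat_lit 10) L110643 (by decide +kernel)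
theorem L110645 : W_41 (nat_lit 4) (nat_lit 0x1e0009000680004000000000000000000000000000) (nat_lit 0x0) (nat_lit 0x40002000000004000140012000000000000000000000000000) := T_41 (nat_lit 128) (nat_lit 109) (nat_lit 0) (nat_lit 11) (nat_lit 7) L110644 (by decide +kernel)
theorem L110646 : W_41 (nat_lit 5) (nat_lit 0x1e0001000680004000000000000000000000000000) (nat_lit 0x0) (nat_lit 0x4000200000001c000140012000000000000000000000000000) := T_41 (nat_lit 147) (nat_lit 148) (nat_lit 2) (nat_lit 8) (nat_lit 9) L110645 (by decide +kernel)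
theorem L110647 : W_41 (nat_lit 6) (nat_lit 0x1e0001000280004000000000000000000000000000) (nat_lit 0x0) (nat_lit 0x6000300000001c000d400fa000000000000000000000000000) := Q_41 (nat_lit 130) (C_41 L110639 (C_41 L110642 (C_41 L110646 N_41))) (by decide +kernel)
theorem L110648 : W_41 (nat_lit 4) (nat_lit 0x1e0001000380004000000000000000000000000000) (nat_lit 0x0) (nat_lit 0xc000ea000000000000000000000000000) := T_41 (nat_lit 130) (nat_lit 109) (nat_lit 0) (nat_lit 11) (nat_lit 7) L110638 (by decide +kernel)
theorem L110649 : W_41 (nat_lit 2) (nat_lit 0x1e0009000780004000000000000000000000000000) (nat_lit 0x0) (nat_lit 0x1000000000000000060000000000000000000000000000) := D_41 (nat_lit 113) (nat_lit 114) (nat_lit 180) (nat_lit 2) (nat_lit 8) (nat_lit 7) (nat_lit 5) (nat_lit 11) (nat_lit 6) (by decide +kernel)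
theorem L110650 : W_41 (nat_lit 3) (nat_lit 0x1e0009000380004000000000000000000000000000) (nat_lit 0x0) (nat_lit 0x1000000000000400062000000000000000000000000000) := T_41 (nat_lit 130) (nat_lit 109) (nat_lit 0) (nat_lit 11) (nat_lit 7) L110649 (by decide +kernel)
theorem L110651 : W_41 (nat_lit 4) (nat_lit 0x1e0001000380004000000000000000000000000000) (nat_lit 0x0) (nat_lit 0x1000000018000400062000000000000000000000000000) := T_41 (nat_lit 147) (nat_lit 148) (nat_lit 2) (nat_lit 8) (nat_lit 9) L110650 (by decide +kernel)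
theorem L110652 : W_41 (nat_lit 2) (nat_lit 0x1e000900038000c000000000000000000000000000) (nat_lit 0x0) (nat_lit 0x1000000004000040000000000000000000000000000000) := D_41 (nat_lit 146) (nat_lit 180) (nat_lit 126) (nat_lit 4) (nat_lit 10) (nat_lit 10) (nat_lit 3) (nat_lit 7) (nat_lit 7) (by decide +kernel)
theorem L110653 : W_41 (nat_lit 3) (nat_lit 0x1e0009000380004000000000000000000000000000) (nat_lit 0x0) (nat_lit 0x1000000004000040008000400000000000000000000000) := T_41 (nat_lit 111) (nat_lit 94) (nat_lit 6) (nat_lit 8) (nat_lit 9) L110652 (by decide +kernel)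
theorem L110654 : W_41 (nat_lit 4) (nat_lit 0x1e0001000380004000000000000000000000000000) (nat_lit 0x0) (nat_lit 0x100000001c000040008000400000000000000000000000) := T_41 (nat_lit 147) (nat_lit 148) (nat_lit 2) (nat_lit 8) (nat_lit 9) L110653 (by decide +kernel)
theorem L110655 : W_41 (nat_lit 5) (nat_lit 0x1e0001000280004000000000000000000000000000) (nat_lit 0x0) (nat_lit 0x100000001c000d400ea000400000000000000000000000) := Q_41 (nat_lit 128) (C_41 L110648 (C_41 L110651 (C_41 L110654 N_41))) (by decide +kernel)
theorem L110656 : W_41 (nat_lit 2) (nat_lit 0x1e0001000780004000000000000000000000000000) (nat_lit 0x0) (nat_lit 0x800008000400000000000000000000000) := D_41 (nat_lit 111) (nat_lit 94) (nat_lit 131) (nat_lit 6) (nat_lit 8) (nat_lit 9) (nat_lit 0) (nat_lit 12) (nat_lit 7) (by decide +kernel)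
theorem L110657 : W_41 (nat_lit 3) (nat_lit 0x1e0001000680004000000000000000000000000000) (nat_lit 0x0) (nat_lit 0x90000a000400000000000000000000000) := T_41 (nat_lit 128) (nat_lit 109) (nat_lit 0) (nat_lit 11) (nat_lit 7) L110656 (by decide +kernel)
theorem L110658 : W_41 (nat_lit 5) (nat_lit 0x1e0001000280004000000000000000000000000000) (nat_lit 0x0) (nat_lit 0x20003000000018000d000fa000400000000000000000000000) := Q_41 (nat_lit 130) (C_41 L110639 (C_41 L110642 (C_41 L110657 N_41))) (by decide +kernel)
theorem L110659 : W_41 (nat_lit 2) (nat_lit 0x1e0005000280014000000000000000000000000000) (nat_lit 0x0) (nat_lit 0x18000000000000800000000000000000000000) := D_41 (nat_lit 147) (nat_lit 95) (nat_lit 148) (nat_lit 7) (nat_lit 10) (nat_lit 5) (nat_lit 2) (nat_lit 8) (nat_lit 9) (by decide +kernel)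
theorem L110660 : W_41 (nat_lit 3) (nat_lit 0x1e0001000280014000000000000000000000000000) (nat_lit 0x0) (nat_lit 0x200000001c000000000000800000000000000000000000) := T_41 (nat_lit 146) (nat_lit 181) (nat_lit 7) (nat_lit 10) (nat_lit 6) L110659 (by decide +kernel)
theorem L110661 : W_41 (nat_lit 5) (nat_lit 0x1e0001000280004000000000000000000000000000) (nat_lit 0x0) (nat_lit 0x200000001c00046003a001c00080000000000000000000) := Q_41 (nat_lit 112) (C_41 L110628 (C_41 L110631 (C_41 L110660 N_41))) (by decide +kernel)
theorem L110662 : W_41 (nat_lit 2) (nat_lit 0x1e0001000780034000000000000000000000000000) (nat_lit 0x0) (nat_lit 0x1000000004000000000001000000000000000000000000) := D_41 (nat_lit 146) (nat_lit 180) (nat_lit 96) (nat_lit 6) (nat_lit 10) (nat_lit 10) (nat_lit 6) (nat_lit 10) (nat_lit 9) (by decide +kernel)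
theorem L110663 : W_41 (nat_lit 3) (nat_lit 0x1e0001000780024000000000000000000000000000) (nat_lit 0x0) (nat_lit 0x1000000004000040010001000000000000000000000000) := T_41 (nat_lit 112) (nat_lit 126) (nat_lit 2) (nat_lit 7) (nat_lit 7) L110662 (by decide +kernel)
theorem L110664 : W_41 (nat_lit 4) (nat_lit 0x1e0001000780004000000000000000000000000000) (nat_lit 0x0) (nat_lit 0x1000000004000040070001000000000000000000000000) := T_41 (nat_lit 113) (nat_lit 114) (nat_lit 2) (nat_lit 8) (nat_lit 7) L110663 (by decide +kernel)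
theorem L110665 : W_41 (nat_lit 5) (nat_lit 0x1e0001000380004000000000000000000000000000) (nat_lit 0x0) (nat_lit 0x1000000004000440072001000000000000000000000000) := T_41 (nat_lit 130) (nat_lit 109) (nat_lit 0) (nat_lit 11) (nat_lit 7) L110664 (by decide +kernel)
theorem L110666 : W_41 (nat_lit 2) (nat_lit 0x1e000500038001d000000000000000000000000000) (nat_lit 0x0) (nat_lit 0x40020001000000000000000000000000) := D_41 (nat_lit 113) (nat_lit 96) (nat_lit 126) (nat_lit 6) (nat_lit 10) (nat_lit 9) (nat_lit 2) (nat_lit 7) (nat_lit 7) (by decide +kernel)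
theorem L110667 : W_41 (nat_lit 3) (nat_lit 0x1e000500038000d000000000000000000000000000) (nat_lit 0x0) (nat_lit 0x2000000000000040030001000000000000000000000000) := T_41 (nat_lit 112) (nat_lit 181) (nat_lit 7) (nat_lit 10) (nat_lit 6) L110666 (by decide +kernel)
theorem L110668 : W_41 (nat_lit 4) (nat_lit 0x1e000500038000c000000000000000000000000000) (nat_lit 0x0) (nat_lit 0x2000000000000040033001000000000000000000000000) := T_41 (nat_lit 108) (nat_lit 109) (nat_lit 3) (nat_lit 6) (nat_lit 6) L110667 (by decide +kernel)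
theorem L110669 : W_41 (nat_lit 5) (nat_lit 0x1e000100038000c000000000000000000000000000) (nat_lit 0x0) (nat_lit 0x3000000004000040033001000000000000000000000000) := T_41 (nat_lit 146) (nat_lit 180) (nat_lit 4) (nat_lit 10) (nat_lit 10) L110668 (by decide +kernel)
theorem L110670 : W_41 (nat_lit 6) (nat_lit 0x1e0001000380004000000000000000000000000000) (nat_lit 0x0) (nat_lit 0x300000000400004003b001400000000000000000000000) := T_41 (nat_lit 111) (nat_lit 94) (nat_lit 6) (nat_lit 8) (nat_lit 9) L110669 (by decide +kernel)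
theorem L110671 : W_41 (nat_lit 2) (nat_lit 0x1e000100038000c000000000000000000000000000) (nat_lit 0x0) (nat_lit 0xc00002000000000000000000000000000) := D_41 (nat_lit 130) (nat_lit 109) (nat_lit 131) (nat_lit 0) (nat_lit 11) (nat_lit 7) (nat_lit 0) (nat_lit 12) (nat_lit 7) (by decide +kernel)
theorem L110672 : W_41 (nat_lit 3) (nat_lit 0x1e0001000380004000000000000000000000000000) (nat_lit 0x0) (nat_lit 0xc0000a000400000000000000000000000) := T_41 (nat_lit 111) (nat_lit 94) (nat_lit 6) (nat_lit 8) (nat_lit 9) L110671 (by decide +kernel)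
theorem L110673 : W_41 (nat_lit 2) (nat_lit 0x1e0005000b8001c000000000000000000000000000) (nat_lit 0x0) (nat_lit 0x40020001000000000000000000000000) := D_41 (nat_lit 113) (nat_lit 96) (nat_lit 126) (nat_lit 6) (nat_lit 10) (nat_lit 9) (nat_lit 2) (nat_lit 7) (nat_lit 7) (by decide +kernel)
theorem L110674 : W_41 (nat_lit 3) (nat_lit 0x1e0005000b8000c000000000000000000000000000) (nat_lit 0x0) (nat_lit 0x2000000000000040030001000000000000000000000000) := T_41 (nat_lit 112) (nat_lit 181) (nat_lit 7) (nat_lit 10) (nat_lit 6) L110673 (by decide +kernel)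
theorem L110675 : W_41 (nat_lit 4) (nat_lit 0x1e000500038000c000000000000000000000000000) (nat_lit 0x0) (nat_lit 0x2000000000000c40030001000000000000000000000000) := T_41 (nat_lit 131) (nat_lit 130) (nat_lit 0) (nat_lit 12) (nat_lit 7) L110674 (by decide +kernel)
theorem L110676 : W_41 (nat_lit 5) (nat_lit 0x1e000100038000c000000000000000000000000000) (nat_lit 0x0) (nat_lit 0x3000000004000c40030001000000000000000000000000) := T_41 (nat_lit 146) (nat_lit 180) (nat_lit 4) (nat_lit 10) (nat_lit 10) L110675 (by decide +kernel)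
theorem L110677 : W_41 (nat_lit 6) (nat_lit 0x1e0001000380004000000000000000000000000000) (nat_lit 0x0) (nat_lit 0x3000000004000c40038001400000000000000000000000) := T_41 (nat_lit 111) (nat_lit 94) (nat_lit 6) (nat_lit 8) (nat_lit 9) L110676 (by decide +kernel)
theorem L110678 : W_41 (nat_lit 7) (nat_lit 0x1e0001000280004000000000000000000000000000) (nat_lit 0x0) (nat_lit 0x3000000004000d400fb001400000000000000000000000) := Q_41 (nat_lit 128) (C_41 L110648 (C_41 L110665 (C_41 L110670 (C_41 L110672 (C_41 L110677 N_41))))) (by decide +kernel)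
theorem L110679 : W_41 (nat_lit 2) (nat_lit 0x1e0005000380034000000000000000000000000000) (nat_lit 0x0) (nat_lit 0x1000000000000400002000000000000000000000000000) := D_41 (nat_lit 130) (nat_lit 180) (nat_lit 109) (nat_lit 6) (nat_lit 10) (nat_lit 10) (nat_lit 0) (nat_lit 11) (nat_lit 7) (by decide +kernel)
theorem L110680 : W_41 (nat_lit 3) (nat_lit 0x1e0005000280034000000000000000000000000000) (nat_lit 0x0) (nat_lit 0x1000000000000540002000000000000000000000000000) := T_41 (nat_lit 128) (nat_lit 126) (nat_lit 2) (nat_lit 7) (nat_lit 7) L110679 (by decide +kernel)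
theorem L110681 : W_41 (nat_lit 4) (nat_lit 0x1e0005000280014000000000000000000000000000) (nat_lit 0x0) (nat_lit 0x1000000000000540022001000000000000000000000000) := T_41 (nat_lit 113) (nat_lit 96) (nat_lit 6) (nat_lit 10) (nat_lit 9) L110680 (by decide +kernel)
theorem L110682 : W_41 (nat_lit 5) (nat_lit 0x1e0005000280004000000000000000000000000000) (nat_lit 0x0) (nat_lit 0x3000000000000540032001000000000000000000000000) := T_41 (nat_lit 112) (nat_lit 181) (nat_lit 7) (nat_lit 10) (nat_lit 6) L110681 (by decide +kernel)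
theorem L110683 : W_41 (nat_lit 2) (nat_lit 0x400000001e000d000780004000000000000000000000000000) (nat_lit 0x0) (nat_lit 0x60001000000000000000000000000) := D_41 (nat_lit 113) (nat_lit 114) (nat_lit 96) (nat_lit 2) (nat_lit 8) (nat_lit 7) (nat_lit 5) (nat_lit 11) (nat_lit 5) (by decide +kernel)
theorem L110684 : W_41 (nat_lit 3) (nat_lit 0x400000001e000d000380004000000000000000000000000000) (nat_lit 0x0) (nat_lit 0x400062001000000000000000000000000) := T_41 (nat_lit 130) (nat_lit 109) (nat_lit 0) (nat_lit 11) (nat_lit 7) L110683 (by decide +kernel)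
theorem L110685 : W_41 (nat_lit 4) (nat_lit 0x400000001e000d000280004000000000000000000000000000) (nat_lit 0x0) (nat_lit 0x540062001000000000000000000000000) := T_41 (nat_lit 128) (nat_lit 126) (nat_lit 3) (nat_lit 7) (nat_lit 7) L110684 (by decide +kernel)
theorem L110686 : W_41 (nat_lit 5) (nat_lit 0x1e000d000280004000000000000000000000000000) (nat_lit 0x0) (nat_lit 0x40002000000000000540062001000000000000000000000000) := T_41 (nat_lit 198) (nat_lit 181) (nat_lit 4) (nat_lit 11) (nat_lit 11) L110685 (by decide +kernel)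
theorem L110687 : W_41 (nat_lit 6) (nat_lit 0x1e0005000280004000000000000000000000000000) (nat_lit 0x0) (nat_lit 0x40002000000018000540062001000000000000000000000000) := T_41 (nat_lit 147) (nat_lit 148) (nat_lit 2) (nat_lit 8) (nat_lit 9) L110686 (by decide +kernel)
theorem L110688 : W_41 (nat_lit 2) (nat_lit 0x1e000d000280004000000000000000000000000000) (nat_lit 0x0) (nat_lit 0x2000000000000000010000800000000000000000000000) := D_41 (nat_lit 112) (nat_lit 95) (nat_lit 181) (nat_lit 7) (nat_lit 10) (nat_lit 5) (nat_lit 7) (nat_lit 10) (nat_lit 6) (by decide +kernel)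
theorem L110689 : W_41 (nat_lit 3) (nat_lit 0x1e0005000280004000000000000000000000000000) (nat_lit 0x0) (nat_lit 0x2000000018000000010000800000000000000000000000) := T_41 (nat_lit 147) (nat_lit 148) (nat_lit 2) (nat_lit 8) (nat_lit 9) L110688 (by decide +kernel)
theorem L110690 : W_41 (nat_lit 2) (nat_lit 0x1e000d000780004000800000000000000000000000) (nat_lit 0x0) (nat_lit 0x60001000000000000000000000000) := D_41 (nat_lit 113) (nat_lit 114) (nat_lit 96) (nat_lit 2) (nat_lit 8) (nat_lit 7) (nat_lit 5) (nat_lit 11) (nat_lit 5) (by decide +kernel)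
theorem L110691 : W_41 (nat_lit 3) (nat_lit 0x1e000d000380004000800000000000000000000000) (nat_lit 0x0) (nat_lit 0x400062001000000000000000000000000) := T_41 (nat_lit 130) (nat_lit 109) (nat_lit 0) (nat_lit 11) (nat_lit 7) L110690 (by decide +kernel)
theorem L110692 : W_41 (nat_lit 4) (nat_lit 0x1e000d000280004000800000000000000000000000) (nat_lit 0x0) (nat_lit 0x540062001000000000000000000000000) := T_41 (nat_lit 128) (nat_lit 126) (nat_lit 3) (nat_lit 7) (nat_lit 7) L110691 (by decide +kernel)
theorem L110693 : W_41 (nat_lit 5) (nat_lit 0x1e000d000280004000000000000000000000000000) (nat_lit 0x0) (nat_lit 0x540072001800000000000000000000000) := T_41 (nat_lit 95) (nat_lit 112) (nat_lit 7) (nat_lit 10) (nat_lit 5) L110692 (by decide +kernel)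
theorem L110694 : W_41 (nat_lit 6) (nat_lit 0x1e0005000280004000000000000000000000000000) (nat_lit 0x0) (nat_lit 0x18000540072001800000000000000000000000) := T_41 (nat_lit 147) (nat_lit 148) (nat_lit 2) (nat_lit 8) (nat_lit 9) L110693 (by decide +kernel)
theorem L110695 : W_41 (nat_lit 7) (nat_lit 0x1e0001000280004000000000000000000000000000) (nat_lit 0x0) (nat_lit 0x4000300000001c000540072001800000000000000000000000) := Q_41 (nat_lit 146) (C_41 L110682 (C_41 L110687 (C_41 L110689 (C_41 L110694 N_41)))) (by decide +kernel)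
theorem L110696 : W_41 (nat_lit 2) (nat_lit 0x1e0005000280034000000000000000000000000000) (nat_lit 0x0) (nat_lit 0x140008000000000000000000000000000) := D_41 (nat_lit 126) (nat_lit 128) (nat_lit 111) (nat_lit 2) (nat_lit 7) (nat_lit 7) (nat_lit 1) (nat_lit 11) (nat_lit 6) (by decide +kernel)
theorem L110697 : W_41 (nat_lit 3) (nat_lit 0x1e0005000280014000000000000000000000000000) (nat_lit 0x0) (nat_lit 0x140028001000000000000000000000000) := T_41 (nat_lit 113) (nat_lit 96) (nat_lit 6) (nat_lit 10) (nat_lit 9) L110696 (by decide +kernel)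
theorem L110698 : W_41 (nat_lit 4) (nat_lit 0x1e0005000280004000000000000000000000000000) (nat_lit 0x0) (nat_lit 0x2000000000000140038001000000000000000000000000) := T_41 (nat_lit 112) (nat_lit 181) (nat_lit 7) (nat_lit 10) (nat_lit 6) L110697 (by decide +kernel)
theorem L110699 : W_41 (nat_lit 2) (nat_lit 0x200010001e000d00028000c000000000000000000000000000) (nat_lit 0x0) (nat_lit 0x800040002000000000000000000000000000000000000000000000) := D_41 (nat_lit 198) (nat_lit 181) (nat_lit 215) (nat_lit 7) (nat_lit 10) (nat_lit 7) (nat_lit 7) (nat_lit 10) (nat_lit 8) (by decide +kernel)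
theorem L110700 : W_41 (nat_lit 3) (nat_lit 0x10001e000d00028000c000000000000000000000000000) (nat_lit 0x0) (nat_lit 0xc00060002000000000000000000000000000000000000000000000) := T_41 (nat_lit 197) (nat_lit 214) (nat_lit 6) (nat_lit 10) (nat_lit 12) L110699 (by decide +kernel)
theorem L110701 : W_41 (nat_lit 4) (nat_lit 0x10001e000500028000c000000000000000000000000000) (nat_lit 0x0) (nat_lit 0xc00060002000000018000000000000000000000000000000000000) := T_41 (nat_lit 147) (nat_lit 148) (nat_lit 2) (nat_lit 8) (nat_lit 9) L110700 (by decide +kernel)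
theorem L110702 : W_41 (nat_lit 5) (nat_lit 0x1e000500028000c000000000000000000000000000) (nat_lit 0x0) (nat_lit 0xc00060003000000018000100000000000000000000000000000000) := T_41 (nat_lit 180) (nat_lit 128) (nat_lit 4) (nat_lit 10) (nat_lit 10) L110701 (by decide +kernel)
theorem L110703 : W_41 (nat_lit 6) (nat_lit 0x1e0005000280004000000000000000000000000000) (nat_lit 0x0) (nat_lit 0xc00060003000000018000100008000400000000000000000000000) := T_41 (nat_lit 111) (nat_lit 94) (nat_lit 6) (nat_lit 8) (nat_lit 9) L110702 (by decide +kernel)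
theorem L110704 : W_41 (nat_lit 2) (nat_lit 0x1e000d0002c0044001e00110000000000000000000) (nat_lit 0x0) (nat_lit 0x80002000200000000000000000000) := D_41 (nat_lit 97) (nat_lit 115) (nat_lit 81) (nat_lit 3) (nat_lit 9) (nat_lit 5) (nat_lit 2) (nat_lit 9) (nat_lit 5) (by decide +kernel)
theorem L110705 : W_41 (nat_lit 3) (nat_lit 0x1e000d0002c0044001e00010000000000000000000) (nat_lit 0x0) (nat_lit 0x80002000380000000000000000000) := T_41 (nat_lit 80) (nat_lit 79) (nat_lit 2) (nat_lit 8) (nat_lit 5) L110704 (by decide +kernel)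
theorem L110706 : W_41 (nat_lit 4) (nat_lit 0x1e000d0002c0004001e00010000000000000000000) (nat_lit 0x0) (nat_lit 0xe0002000380000000000000000000) := T_41 (nat_lit 114) (nat_lit 113) (nat_lit 3) (nat_lit 8) (nat_lit 5) L110705 (by decide +kernel)
theorem L110707 : W_41 (nat_lit 5) (nat_lit 0x1e000d0002c0004001e00000000000000000000000) (nat_lit 0x0) (nat_lit 0xe0002000398000000000000000000) := T_41 (nat_lit 76) (nat_lit 75) (nat_lit 0) (nat_lit 11) (nat_lit 5) L110706 (by decide +kernel)
theorem L110708 : W_41 (nat_lit 6) (nat_lit 0x1e000d0002c0004000e00000000000000000000000) (nat_lit 0x0) (nat_lit 0xe2003000398000000000000000000) := T_41 (nat_lit 96) (nat_lit 109) (nat_lit 1) (nat_lit 11) (nat_lit 5) L110707 (by decide +kernel)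
theorem L110709 : W_41 (nat_lit 7) (nat_lit 0x1e000d0002c0004000c00000000000000000000000) (nat_lit 0x0) (nat_lit 0xe20032003b8000000000000000000) := T_41 (nat_lit 93) (nat_lit 77) (nat_lit 6) (nat_lit 8) (nat_lit 8) L110708 (by decide +kernel)
theorem L110710 : W_41 (nat_lit 8) (nat_lit 0x1e000d0002c0004000800000000000000000000000) (nat_lit 0x0) (nat_lit 0xea0036003b8000000000000000000) := T_41 (nat_lit 94) (nat_lit 111) (nat_lit 6) (nat_lit 8) (nat_lit 9) L110709 (by decide +kernel)
theorem L110711 : W_41 (nat_lit 9) (nat_lit 0x1e000d000280004000800000000000000000000000) (nat_lit 0x0) (nat_lit 0x1400ea0036003b8000000000000000000) := T_41 (nat_lit 126) (nat_lit 128) (nat_lit 3) (nat_lit 7) (nat_lit 7) L110710 (by decide +kernel)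
theorem L110712 : W_41 (nat_lit 10) (nat_lit 0x1e000d000280004000000000000000000000000000) (nat_lit 0x0) (nat_lit 0x1400fa003e003b8000000000000000000) := T_41 (nat_lit 95) (nat_lit 112) (nat_lit 7) (nat_lit 10) (nat_lit 5) L110711 (by decide +kernel)
theorem L110713 : W_41 (nat_lit 11) (nat_lit 0x1e0005000280004000000000000000000000000000) (nat_lit 0x0) (nat_lit 0x180001400fa003e003b8000000000000000000) := T_41 (nat_lit 147) (nat_lit 148) (nat_lit 2) (nat_lit 8) (nat_lit 9) L110712 (by decide +kernel)
theorem L110714 : W_41 (nat_lit 12) (nat_lit 0x1e0001000280004000000000000000000000000000) (nat_lit 0x0) (nat_lit 0xc0006000300000001c0001400fa003e003b8000000000000000000) := Q_41 (nat_lit 146) (C_41 L110698 (C_41 L110703 (C_41 L110689 (C_41 L110713 N_41)))) (by decide +kernel)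
theorem L110715 : W_41 (nat_lit 4) (nat_lit 0x1e0009000380004000000000000000000000000000) (nat_lit 0x0) (nat_lit 0x40002000000004000440012000000000000000000000000000) := T_41 (nat_lit 130) (nat_lit 109) (nat_lit 0) (nat_lit 11) (nat_lit 7) L110644 (by decide +kernel)
theorem L110716 : W_41 (nat_lit 5) (nat_lit 0x1e0001000380004000000000000000000000000000) (nat_lit 0x0) (nat_lit 0x4000200000001c000440012000000000000000000000000000) := T_41 (nat_lit 147) (nat_lit 148) (nat_lit 2) (nat_lit 8) (nat_lit 9) L110715 (by decide +kernel)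
theorem L110717 : W_41 (nat_lit 6) (nat_lit 0x1e0001000280004000000000000000000000000000) (nat_lit 0x0) (nat_lit 0x4000300000001c000d4001a000400000000000000000000000) := Q_41 (nat_lit 128) (C_41 L110672 (C_41 L110716 (C_41 L110654 N_41))) (by decide +kernel)
theorem L110718 : W_41 (nat_lit 2) (nat_lit 0x1e000d000380004000800000000000000000000000) (nat_lit 0x0) (nat_lit 0x1000000000000000008000400000000000000000000000) := D_41 (nat_lit 111) (nat_lit 94) (nat_lit 180) (nat_lit 6) (nat_lit 8) (nat_lit 9) (nat_lit 4) (nat_lit 10) (nat_lit 10) (by decide +kernel)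
theorem L110719 : W_41 (nat_lit 3) (nat_lit 0x1e000d000280004000800000000000000000000000) (nat_lit 0x0) (nat_lit 0x1000000000000140008000400000000000000000000000) := T_41 (nat_lit 128) (nat_lit 126) (nat_lit 3) (nat_lit 7) (nat_lit 7) L110718 (by decide +kernel)
theorem L110720 : W_41 (nat_lit 4) (nat_lit 0x1e000d000280004000000000000000000000000000) (nat_lit 0x0) (nat_lit 0x1000000000000140018000c00000000000000000000000) := T_41 (nat_lit 95) (nat_lit 112) (nat_lit 7) (nat_lit 10) (nat_lit 5) L110719 (by decide +kernel)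
theorem L110721 : W_41 (nat_lit 5) (nat_lit 0x1e0005000280004000000000000000000000000000) (nat_lit 0x0) (nat_lit 0x1000000018000140018000c00000000000000000000000) := T_41 (nat_lit 147) (nat_lit 148) (nat_lit 2) (nat_lit 8) (nat_lit 9) L110720 (by decide +kernel)
theorem L110722 : W_41 (nat_lit 7) (nat_lit 0x1e0001000280004000000000000000000000000000) (nat_lit 0x0) (nat_lit 0xc0006000300000001c000140038001c00000000000000000000000) := Q_41 (nat_lit 146) (C_41 L110698 (C_41 L110703 (C_41 L110689 (C_41 L110721 N_41)))) (by decide +kernel)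
theorem L110723 : W_41 (nat_lit 13) (nat_lit 0x1e0001000080004000000000000000000000000000) (nat_lit 0x0) (nat_lit 0xc0006000300000001c000f700fb003e003b8000000000000000000) := Q_41 (nat_lit 129) (C_41 L110636 (C_41 L110647 (C_41 L110655 (C_41 L110658 (C_41 L110661 (C_41 L110678 (C_41 L110695 (C_41 L110714 (C_41 L110717 (C_41 L110722 N_41)))))))))) (by decide +kernel)
theorem L110724 : W_41 (nat_lit 15) (nat_lit 0xe0001000080004000000000000000000000000000) (nat_lit 0x0) (nat_lit 0x3c001e007f001f001fc003f701fb007e003b8000000000000000000) := Q_41 (nat_lit 164) (C_41 L110491 (C_41 L110495 (C_41 L110554 (C_41 L110557 (C_41 L110605 (C_41 L110625 (C_41 L110723 N_41))))))) (by decide +kernel)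
theorem L110725 : W_41 (nat_lit 2) (nat_lit 0x20000f000900008000c000000000000000000000000000) (nat_lit 0x0) (nat_lit 0x4000100010000000000000000000000000000000000000) := D_41 (nat_lit 164) (nat_lit 182) (nat_lit 148) (nat_lit 3) (nat_lit 8) (nat_lit 9) (nat_lit 2) (nat_lit 8) (nat_lit 9) (by decide +kernel)
theorem L110726 : W_41 (nat_lit 3) (nat_lit 0x20000f000100008000c000000000000000000000000000) (nat_lit 0x0) (nat_lit 0x400010001c000000000000000000000000000000000000) := T_41 (nat_lit 147) (nat_lit 146) (nat_lit 2) (nat_lit 7) (nat_lit 9) L110725 (by decide +kernel)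
theorem L110727 : W_41 (nat_lit 4) (nat_lit 0xf000100008000c000000000000000000000000000) (nat_lit 0x0) (nat_lit 0x700010001c000000000000000000000000000000000000) := T_41 (nat_lit 181) (nat_lit 180) (nat_lit 3) (nat_lit 7) (nat_lit 9) L110726 (by decide +kernel)
theorem L110728 : W_41 (nat_lit 5) (nat_lit 0xe000100008000c000000000000000000000000000) (nat_lit 0x0) (nat_lit 0x720011001c000000000000000000000000000000000000) := T_41 (nat_lit 160) (nat_lit 177) (nat_lit 5) (nat_lit 8) (nat_lit 6) L110727 (by decide +kernel)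
theorem L110729 : W_41 (nat_lit 6) (nat_lit 0xe0001000080004000000000000000000000000000) (nat_lit 0x0) (nat_lit 0x720011001c000000008000400000000000000000000000) := T_41 (nat_lit 111) (nat_lit 94) (nat_lit 6) (nat_lit 8) (nat_lit 9) L110728 (by decide +kernel)
theorem L110730 : W_41 (nat_lit 2) (nat_lit 0x20000e0001000080004000000000000000000000000000) (nat_lit 0x0) (nat_lit 0x1200010000000000000000000000000000000000000000) := D_41 (nat_lit 160) (nat_lit 177) (nat_lit 180) (nat_lit 5) (nat_lit 8) (nat_lit 6) (nat_lit 3) (nat_lit 7) (nat_lit 9) (by decide +kernel)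
theorem L110731 : W_41 (nat_lit 2) (nat_lit 0x20001e000100028001e000000000000000000000000000) (nat_lit 0x0) (nat_lit 0x60020000000000000000000000000000) := D_41 (nat_lit 126) (nat_lit 113) (nat_lit 125) (nat_lit 1) (nat_lit 11) (nat_lit 6) (nat_lit 1) (nat_lit 10) (nat_lit 6) (by decide +kernel)
theorem L110732 : W_41 (nat_lit 3) (nat_lit 0x20001e000100028001c000000000000000000000000000) (nat_lit 0x0) (nat_lit 0x460022000000000000000000000000000) := T_41 (nat_lit 109) (nat_lit 130) (nat_lit 3) (nat_lit 7) (nat_lit 6) L110731 (by decide +kernel)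
theorem L110733 : W_41 (nat_lit 4) (nat_lit 0x20001e000100028000c000000000000000000000000000) (nat_lit 0x0) (nat_lit 0x4000460032000000000000000000000000000) := T_41 (nat_lit 112) (nat_lit 146) (nat_lit 7) (nat_lit 10) (nat_lit 6) L110732 (by decide +kernel)
theorem L110734 : W_41 (nat_lit 5) (nat_lit 0x20001e0001000280004000000000000000000000000000) (nat_lit 0x0) (nat_lit 0x400046003a000400000000000000000000000) := T_41 (nat_lit 111) (nat_lit 94) (nat_lit 6) (nat_lit 8) (nat_lit 9) L110733 (by decide +kernel)
theorem L110735 : W_41 (nat_lit 6) (nat_lit 0x20000e0001000280004000000000000000000000000000) (nat_lit 0x0) (nat_lit 0x400010000400046003a000400000000000000000000000) := T_41 (nat_lit 164) (nat_lit 182) (nat_lit 3) (nat_lit 8) (nat_lit 9) L110734 (by decide +kernel)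
theorem L110736 : W_41 (nat_lit 2) (nat_lit 0x20001e0005000280004000000000000000000000000000) (nat_lit 0x0) (nat_lit 0x800040001000000000000000000000000000000000000000000000) := D_41 (nat_lit 198) (nat_lit 215) (nat_lit 180) (nat_lit 4) (nat_lit 11) (nat_lit 12) (nat_lit 7) (nat_lit 10) (nat_lit 7) (by decide +kernel)
theorem L110737 : W_41 (nat_lit 3) (nat_lit 0x20001e0001000280004000000000000000000000000000) (nat_lit 0x0) (nat_lit 0x800040001000000004000000010000000000000000000000000000) := T_41 (nat_lit 146) (nat_lit 112) (nat_lit 7) (nat_lit 10) (nat_lit 6) L110736 (by decide +kernel)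
theorem L110738 : W_41 (nat_lit 4) (nat_lit 0x20000e0001000280004000000000000000000000000000) (nat_lit 0x0) (nat_lit 0x800040005000100004000000010000000000000000000000000000) := T_41 (nat_lit 164) (nat_lit 182) (nat_lit 3) (nat_lit 8) (nat_lit 9) L110737 (by decide +kernel)
theorem L110739 : W_41 (nat_lit 2) (nat_lit 0x70000e000100028000c000000000000000000000000000) (nat_lit 0x0) (nat_lit 0x40000000000004000100000000000000000000000000000000) := D_41 (nat_lit 146) (nat_lit 128) (nat_lit 198) (nat_lit 4) (nat_lit 10) (nat_lit 10) (nat_lit 7) (nat_lit 10) (nat_lit 7) (by decide +kernel)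
theorem L110740 : W_41 (nat_lit 3) (nat_lit 0x60000e000100028000c000000000000000000000000000) (nat_lit 0x0) (nat_lit 0x40009000000004000100000000000000000000000000000000) := T_41 (nat_lit 180) (nat_lit 183) (nat_lit 0) (nat_lit 13) (nat_lit 10) L110739 (by decide +kernel)
theorem L110741 : W_41 (nat_lit 4) (nat_lit 0x60000e0001000280004000000000000000000000000000) (nat_lit 0x0) (nat_lit 0x40009000000004000100008000400000000000000000000000) := T_41 (nat_lit 111) (nat_lit 94) (nat_lit 6) (nat_lit 8) (nat_lit 9) L110740 (by decide +kernel)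
theorem L110742 : W_41 (nat_lit 5) (nat_lit 0x20000e0001000280004000000000000000000000000000) (nat_lit 0x0) (nat_lit 0x4000d000100004000100008000400000000000000000000000) := T_41 (nat_lit 182) (nat_lit 164) (nat_lit 3) (nat_lit 8) (nat_lit 9) L110741 (by decide +kernel)
theorem L110743 : W_41 (nat_lit 2) (nat_lit 0x20000e000100028000e000000000000000000000000000) (nat_lit 0x0) (nat_lit 0x500010000000000000000000000000000) := D_41 (nat_lit 130) (nat_lit 112) (nat_lit 128) (nat_lit 3) (nat_lit 7) (nat_lit 6) (nat_lit 0) (nat_lit 11) (nat_lit 7) (by decide +kernel)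
theorem L110744 : W_41 (nat_lit 3) (nat_lit 0x20000e0001000280006000000000000000000000000000) (nat_lit 0x0) (nat_lit 0x500018000400000000000000000000000) := T_41 (nat_lit 111) (nat_lit 94) (nat_lit 6) (nat_lit 8) (nat_lit 9) L110743 (by decide +kernel)
theorem L110745 : W_41 (nat_lit 2) (nat_lit 0x20000e0001000380006000000000000000000000000000) (nat_lit 0x0) (nat_lit 0x9000400000000000000000000000) := D_41 (nat_lit 111) (nat_lit 94) (nat_lit 108) (nat_lit 6) (nat_lit 8) (nat_lit 9) (nat_lit 3) (nat_lit 6) (nat_lit 6) (by decide +kernel)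
theorem L110746 : W_41 (nat_lit 3) (nat_lit 0x20000e0001000280006000000000000000000000000000) (nat_lit 0x0) (nat_lit 0x500009000400000000000000000000000) := T_41 (nat_lit 128) (nat_lit 130) (nat_lit 0) (nat_lit 11) (nat_lit 7) L110745 (by decide +kernel)
theorem L110747 : W_41 (nat_lit 2) (nat_lit 0x20000e000100028001e000000000000000000000000000) (nat_lit 0x0) (nat_lit 0x60020000000000000000000000000000) := D_41 (nat_lit 126) (nat_lit 125) (nat_lit 113) (nat_lit 1) (nat_lit 10) (nat_lit 6) (nat_lit 1) (nat_lit 11) (nat_lit 6) (by decide +kernel)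
theorem L110748 : W_41 (nat_lit 3) (nat_lit 0x20000e000100028000e000000000000000000000000000) (nat_lit 0x0) (nat_lit 0x460030000000000000000000000000000) := T_41 (nat_lit 112) (nat_lit 130) (nat_lit 3) (nat_lit 7) (nat_lit 6) L110747 (by decide +kernel)
theorem L110749 : W_41 (nat_lit 4) (nat_lit 0x20000e0001000280006000000000000000000000000000) (nat_lit 0x0) (nat_lit 0x460038000400000000000000000000000) := T_41 (nat_lit 111) (nat_lit 94) (nat_lit 6) (nat_lit 8) (nat_lit 9) L110748 (by decide +kernel)
theorem L110750 : W_41 (nat_lit 2) (nat_lit 0x20001e0001000380006000000000000000000000000000) (nat_lit 0x0) (nat_lit 0x40001800000000000000000000000000) := D_41 (nat_lit 108) (nat_lit 126) (nat_lit 107) (nat_lit 0) (nat_lit 10) (nat_lit 7) (nat_lit 3) (nat_lit 5) (nat_lit 6) (by decide +kernel)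
theorem L110751 : W_41 (nat_lit 3) (nat_lit 0x20001e0001000280006000000000000000000000000000) (nat_lit 0x0) (nat_lit 0x540001800000000000000000000000000) := T_41 (nat_lit 128) (nat_lit 130) (nat_lit 0) (nat_lit 11) (nat_lit 7) L110750 (by decide +kernel)
theorem L110752 : W_41 (nat_lit 4) (nat_lit 0x20000e0001000280006000000000000000000000000000) (nat_lit 0x0) (nat_lit 0x4000100000000540001800000000000000000000000000) := T_41 (nat_lit 164) (nat_lit 182) (nat_lit 3) (nat_lit 8) (nat_lit 9) L110751 (by decide +kernel)
theorem L110753 : W_41 (nat_lit 2) (nat_lit 0x20000e00010002e000f000040000000000000000000000) (nat_lit 0x0) (nat_lit 0xc00020000000000000000000000) := D_41 (nat_lit 107) (nat_lit 89) (nat_lit 106) (nat_lit 0) (nat_lit 8) (nat_lit 6) (nat_lit 3) (nat_lit 4) (nat_lit 6) (by decide +kernel)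
theorem L110754 : W_41 (nat_lit 3) (nat_lit 0x20000e00010002a000f000040000000000000000000000) (nat_lit 0x0) (nat_lit 0x40010c00020000000000000000000000) := T_41 (nat_lit 126) (nat_lit 112) (nat_lit 1) (nat_lit 10) (nat_lit 6) L110753 (by decide +kernel)
theorem L110755 : W_41 (nat_lit 4) (nat_lit 0x20000e00010002a000f000000000000000000000000000) (nat_lit 0x0) (nat_lit 0x40010c000e0000000000000000000000) := T_41 (nat_lit 90) (nat_lit 91) (nat_lit 0) (nat_lit 9) (nat_lit 6) L110754 (by decide +kernel)
theorem L110756 : W_41 (nat_lit 5) (nat_lit 0x20000e000100028000f000000000000000000000000000) (nat_lit 0x0) (nat_lit 0x70010c000e0000000000000000000000) := T_41 (nat_lit 125) (nat_lit 124) (nat_lit 1) (nat_lit 9) (nat_lit 6) L110755 (by decide +kernel)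
theorem L110757 : W_41 (nat_lit 6) (nat_lit 0x20000e000100028000e000000000000000000000000000) (nat_lit 0x0) (nat_lit 0x170011c000e0000000000000000000000) := T_41 (nat_lit 108) (nat_lit 128) (nat_lit 3) (nat_lit 6) (nat_lit 6) L110756 (by decide +kernel)
theorem L110758 : W_41 (nat_lit 7) (nat_lit 0x20000e0001000280006000000000000000000000000000) (nat_lit 0x0) (nat_lit 0x170019c004e0000000000000000000000) := T_41 (nat_lit 111) (nat_lit 94) (nat_lit 6) (nat_lit 8) (nat_lit 9) L110757 (by decide +kernel)
theorem L110759 : W_41 (nat_lit 8) (nat_lit 0x20000e0001000280004000000000000000000000000000) (nat_lit 0x0) (nat_lit 0x400010000000057003bc004e0000000000000000000000) := Q_41 (nat_lit 109) (C_41 L110744 (C_41 L110746 (C_41 L110749 (C_41 L110752 (C_41 L110758 N_41))))) (by decide +kernel)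
theorem L110760 : W_41 (nat_lit 2) (nat_lit 0x20000e0001000380006000000000000000000000000000) (nat_lit 0x0) (nat_lit 0x40001800000000000000000000000000) := D_41 (nat_lit 108) (nat_lit 126) (nat_lit 107) (nat_lit 0) (nat_lit 10) (nat_lit 7) (nat_lit 3) (nat_lit 5) (nat_lit 6) (by decide +kernel)
theorem L110761 : W_41 (nat_lit 3) (nat_lit 0x20000e0001000280006000000000000000000000000000) (nat_lit 0x0) (nat_lit 0x540001800000000000000000000000000) := T_41 (nat_lit 128) (nat_lit 130) (nat_lit 0) (nat_lit 11) (nat_lit 7) L110760 (by decide +kernel)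
theorem L110762 : W_41 (nat_lit 8) (nat_lit 0x20000e0001000280004000000000000000000000000000) (nat_lit 0x0) (nat_lit 0x57003bc004e0000000000000000000000) := Q_41 (nat_lit 109) (C_41 L110758 (C_41 L110746 (C_41 L110749 (C_41 L110761 N_41)))) (by decide +kernel)
theorem L110763 : W_41 (nat_lit 9) (nat_lit 0x20000e0001000080004000000000000000000000000000) (nat_lit 0x0) (nat_lit 0x80004000d00010000400077003bc004e0000000000000000000000) := Q_41 (nat_lit 129) (C_41 L110735 (C_41 L110738 (C_41 L110742 (C_41 L110759 (C_41 L110762 N_41))))) (by decide +kernel)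
theorem L110764 : W_41 (nat_lit 2) (nat_lit 0x20001f000100048003c000000000000000000000000000) (nat_lit 0x0) (nat_lit 0x4000200002000000000000000000000000000) := D_41 (nat_lit 129) (nat_lit 109) (nat_lit 146) (nat_lit 3) (nat_lit 7) (nat_lit 6) (nat_lit 7) (nat_lit 10) (nat_lit 6) (by decide +kernel)
theorem L110765 : W_41 (nat_lit 3) (nat_lit 0x20001f000100008003c000000000000000000000000000) (nat_lit 0x0) (nat_lit 0x4000e00002000000000000000000000000000) := T_41 (nat_lit 130) (nat_lit 131) (nat_lit 3) (nat_lit 8) (nat_lit 6) L110764 (by decide +kernel)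
theorem L110766 : W_41 (nat_lit 4) (nat_lit 0x20000f000100008003c000000000000000000000000000) (nat_lit 0x0) (nat_lit 0x4000100004000e00002000000000000000000000000000) := T_41 (nat_lit 164) (nat_lit 182) (nat_lit 3) (nat_lit 8) (nat_lit 9) L110765 (by decide +kernel)
theorem L110767 : W_41 (nat_lit 5) (nat_lit 0x20000f000100008001c000000000000000000000000000) (nat_lit 0x0) (nat_lit 0x4000100004000e40022000000000000000000000000000) := T_41 (nat_lit 113) (nat_lit 126) (nat_lit 1) (nat_lit 11) (nat_lit 6) L110766 (by decide +kernel)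
theorem L110768 : W_41 (nat_lit 6) (nat_lit 0x20000e000100008001c000000000000000000000000000) (nat_lit 0x0) (nat_lit 0x4200110004000e40022000000000000000000000000000) := T_41 (nat_lit 160) (nat_lit 177) (nat_lit 5) (nat_lit 8) (nat_lit 6) L110767 (by decide +kernel)
theorem L110769 : W_41 (nat_lit 7) (nat_lit 0x20000e000100008001c000000000000000000000000000) (nat_lit 0x0) (nat_lit 0x4000100004000340063003800000000000000000000000) := T_41 (nat_lit 164) (nat_lit 182) (nat_lit 3) (nat_lit 8) (nat_lit 9) L110602 (by decide +kernel)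
theorem L110770 : W_41 (nat_lit 2) (nat_lit 0x20001f000100029001f000040000000000000000000000) (nat_lit 0x0) (nat_lit 0x8000800020000000000000000000000) := D_41 (nat_lit 107) (nat_lit 123) (nat_lit 89) (nat_lit 1) (nat_lit 8) (nat_lit 6) (nat_lit 0) (nat_lit 8) (nat_lit 6) (by decide +kernel)
theorem L110771 : W_41 (nat_lit 3) (nat_lit 0x20001f000100029001f000000000000000000000000000) (nat_lit 0x0) (nat_lit 0x80008000e0000000000000000000000) := T_41 (nat_lit 90) (nat_lit 91) (nat_lit 0) (nat_lit 9) (nat_lit 6) L110770 (by decide +kernel)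
theorem L110772 : W_41 (nat_lit 4) (nat_lit 0x20001f000100028001f000000000000000000000000000) (nat_lit 0x0) (nat_lit 0x380008000e0000000000000000000000) := T_41 (nat_lit 124) (nat_lit 125) (nat_lit 1) (nat_lit 9) (nat_lit 6) L110771 (by decide +kernel)
theorem L110773 : W_41 (nat_lit 5) (nat_lit 0x20001f000100028001e000000000000000000000000000) (nat_lit 0x0) (nat_lit 0x1380018000e0000000000000000000000) := T_41 (nat_lit 108) (nat_lit 128) (nat_lit 3) (nat_lit 6) (nat_lit 6) L110772 (by decide +kernel)
theorem L110774 : W_41 (nat_lit 6) (nat_lit 0x20001f000100028001c000000000000000000000000000) (nat_lit 0x0) (nat_lit 0x5380038000e0000000000000000000000) := T_41 (nat_lit 109) (nat_lit 130) (nat_lit 3) (nat_lit 7) (nat_lit 6) L110773 (by decide +kernel)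
theorem L110775 : W_41 (nat_lit 7) (nat_lit 0x20001f000100008001c000000000000000000000000000) (nat_lit 0x0) (nat_lit 0x40007380038000e0000000000000000000000) := T_41 (nat_lit 129) (nat_lit 146) (nat_lit 7) (nat_lit 10) (nat_lit 6) L110774 (by decide +kernel)
theorem L110776 : W_41 (nat_lit 8) (nat_lit 0x20000f000100008001c000000000000000000000000000) (nat_lit 0x0) (nat_lit 0x40001000040007380038000e0000000000000000000000) := T_41 (nat_lit 164) (nat_lit 182) (nat_lit 3) (nat_lit 8) (nat_lit 9) L110775 (by decide +kernel)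
theorem L110777 : W_41 (nat_lit 9) (nat_lit 0x20000e000100008001c000000000000000000000000000) (nat_lit 0x0) (nat_lit 0x42001100040007380038000e0000000000000000000000) := T_41 (nat_lit 160) (nat_lit 177) (nat_lit 5) (nat_lit 8) (nat_lit 6) L110776 (by decide +kernel)
theorem L110778 : W_41 (nat_lit 2) (nat_lit 0x20001f000100048003c002000000000000000000000000) (nat_lit 0x0) (nat_lit 0x100040004000000000000000000000000) := D_41 (nat_lit 114) (nat_lit 128) (nat_lit 98) (nat_lit 1) (nat_lit 12) (nat_lit 6) (nat_lit 2) (nat_lit 9) (nat_lit 6) (by decide +kernel)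
theorem L110779 : W_41 (nat_lit 3) (nat_lit 0x20001f000100048003c000000000000000000000000000) (nat_lit 0x0) (nat_lit 0x100040007000000000000000000000000) := T_41 (nat_lit 97) (nat_lit 96) (nat_lit 2) (nat_lit 8) (nat_lit 6) L110778 (by decide +kernel)
theorem L110780 : W_41 (nat_lit 4) (nat_lit 0x20001f000100008003c000000000000000000000000000) (nat_lit 0x0) (nat_lit 0xd00040007000000000000000000000000) := T_41 (nat_lit 130) (nat_lit 131) (nat_lit 3) (nat_lit 8) (nat_lit 6) L110779 (by decide +kernel)
theorem L110781 : W_41 (nat_lit 5) (nat_lit 0x20001e000100008003c000000000000000000000000000) (nat_lit 0x0) (nat_lit 0x200010000000d00040007000000000000000000000000) := T_41 (nat_lit 160) (nat_lit 177) (nat_lit 5) (nat_lit 8) (nat_lit 6) L110780 (by decide +kernel)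
theorem L110782 : W_41 (nat_lit 6) (nat_lit 0x20001e000100008001c000000000000000000000000000) (nat_lit 0x0) (nat_lit 0x200010000000d40060007000000000000000000000000) := T_41 (nat_lit 113) (nat_lit 126) (nat_lit 1) (nat_lit 11) (nat_lit 6) L110781 (by decide +kernel)
theorem L110783 : W_41 (nat_lit 7) (nat_lit 0x20000e000100008001c000000000000000000000000000) (nat_lit 0x0) (nat_lit 0x4200110000000d40060007000000000000000000000000) := T_41 (nat_lit 164) (nat_lit 182) (nat_lit 3) (nat_lit 8) (nat_lit 9) L110782 (by decide +kernel)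
theorem L110784 : W_41 (nat_lit 2) (nat_lit 0x20000f000100048003e000000000000000000000000000) (nat_lit 0x0) (nat_lit 0x3800000000000000000000000) := D_41 (nat_lit 96) (nat_lit 95) (nat_lit 97) (nat_lit 2) (nat_lit 7) (nat_lit 6) (nat_lit 2) (nat_lit 8) (nat_lit 6) (by decide +kernel)
theorem L110785 : W_41 (nat_lit 3) (nat_lit 0x20000f000100048003c000000000000000000000000000) (nat_lit 0x0) (nat_lit 0x200002003800000000000000000000000) := T_41 (nat_lit 109) (nat_lit 129) (nat_lit 3) (nat_lit 7) (nat_lit 6) L110784 (by decide +kernel)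
theorem L110786 : W_41 (nat_lit 4) (nat_lit 0x20000f000100008003c000000000000000000000000000) (nat_lit 0x0) (nat_lit 0xe00002003800000000000000000000000) := T_41 (nat_lit 130) (nat_lit 131) (nat_lit 3) (nat_lit 8) (nat_lit 6) L110785 (by decide +kernel)
theorem L110787 : W_41 (nat_lit 5) (nat_lit 0x20000e000100008003c000000000000000000000000000) (nat_lit 0x0) (nat_lit 0x200010000000e00002003800000000000000000000000) := T_41 (nat_lit 160) (nat_lit 177) (nat_lit 5) (nat_lit 8) (nat_lit 6) L110786 (by decide +kernel)
theorem L110788 : W_41 (nat_lit 6) (nat_lit 0x20000e000100008001c000000000000000000000000000) (nat_lit 0x0) (nat_lit 0x200010000000e40022003800000000000000000000000) := T_41 (nat_lit 113) (nat_lit 126) (nat_lit 1) (nat_lit 11) (nat_lit 6) L110787 (by decide +kernel)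
theorem L110789 : W_41 (nat_lit 10) (nat_lit 0x20000e000100008000c000000000000000000000000000) (nat_lit 0x0) (nat_lit 0x4200110004000f780738078e0000000000000000000000) := Q_41 (nat_lit 112) (C_41 L110768 (C_41 L110769 (C_41 L110777 (C_41 L110783 (C_41 L110788 N_41))))) (by decide +kernel)
theorem L110790 : W_41 (nat_lit 11) (nat_lit 0x20000e0001000080004000000000000000000000000000) (nat_lit 0x0) (nat_lit 0x4200110004000f7807b807ce0000000000000000000000) := T_41 (nat_lit 111) (nat_lit 94) (nat_lit 6) (nat_lit 8) (nat_lit 9) L110789 (by decide +kernel)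
theorem L110791 : W_41 (nat_lit 12) (nat_lit 0xe0001000080004000000000000000000000000000) (nat_lit 0x0) (nat_lit 0x80004000f200110004000f7807bc07ce0000000000000000000000) := Q_41 (nat_lit 181) (C_41 L110730 (C_41 L110763 (C_41 L110790 N_41))) (by decide +kernel)
theorem L110792 : W_41 (nat_lit 2) (nat_lit 0x20000f0009000080004000000000000000000000000000) (nat_lit 0x0) (nat_lit 0x4000100010000000000000000000000000000000000000) := D_41 (nat_lit 164) (nat_lit 182) (nat_lit 148) (nat_lit 3) (nat_lit 8) (nat_lit 9) (nat_lit 2) (nat_lit 8) (nat_lit 9) (by decide +kernel)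
theorem L110793 : W_41 (nat_lit 3) (nat_lit 0x20000f0001000080004000000000000000000000000000) (nat_lit 0x0) (nat_lit 0x400010001c000000000000000000000000000000000000) := T_41 (nat_lit 147) (nat_lit 146) (nat_lit 2) (nat_lit 7) (nat_lit 9) L110792 (by decide +kernel)
theorem L110794 : W_41 (nat_lit 4) (nat_lit 0xf0001000080004000000000000000000000000000) (nat_lit 0x0) (nat_lit 0x700010001c000000000000000000000000000000000000) := T_41 (nat_lit 181) (nat_lit 180) (nat_lit 3) (nat_lit 7) (nat_lit 9) L110793 (by decide +kernel)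
theorem L110795 : W_41 (nat_lit 5) (nat_lit 0xe0001000080004000000000000000000000000000) (nat_lit 0x0) (nat_lit 0x720011001c000000000000000000000000000000000000) := T_41 (nat_lit 160) (nat_lit 177) (nat_lit 5) (nat_lit 8) (nat_lit 6) L110794 (by decide +kernel)
theorem L110796 : W_41 (nat_lit 2) (nat_lit 0x1f000100008007c000000000000000000000000000) (nat_lit 0x0) (nat_lit 0x1c00000000000000000000000000000000) := D_41 (nat_lit 131) (nat_lit 130) (nat_lit 132) (nat_lit 3) (nat_lit 8) (nat_lit 6) (nat_lit 3) (nat_lit 9) (nat_lit 6) (by decide +kernel)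
theorem L110797 : W_41 (nat_lit 3) (nat_lit 0x1f000100008003c000000000000000000000000000) (nat_lit 0x0) (nat_lit 0x1d00040000000000000000000000000000) := T_41 (nat_lit 114) (nat_lit 128) (nat_lit 1) (nat_lit 12) (nat_lit 6) L110796 (by decide +kernel)
theorem L110798 : W_41 (nat_lit 4) (nat_lit 0x1f000100008002c000000000000000000000000000) (nat_lit 0x0) (nat_lit 0x1d40050000000000000000000000000000) := T_41 (nat_lit 112) (nat_lit 126) (nat_lit 1) (nat_lit 11) (nat_lit 6) L110797 (by decide +kernel)
theorem L110799 : W_41 (nat_lit 5) (nat_lit 0x1f0001000080024000000000000000000000000000) (nat_lit 0x0) (nat_lit 0x1d40058000400000000000000000000000) := T_41 (nat_lit 111) (nat_lit 94) (nat_lit 6) (nat_lit 8) (nat_lit 9) L110798 (by decide +kernel)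
theorem L110800 : W_41 (nat_lit 6) (nat_lit 0x1e0001000080024000000000000000000000000000) (nat_lit 0x0) (nat_lit 0x200010000001d40058000400000000000000000000000) := T_41 (nat_lit 160) (nat_lit 177) (nat_lit 5) (nat_lit 8) (nat_lit 6) L110799 (by decide +kernel)
theorem L110801 : W_41 (nat_lit 2) (nat_lit 0x1f0009000480034000000000000000000000000000) (nat_lit 0x0) (nat_lit 0x840008000000000000000000000000000) := D_41 (nat_lit 111) (nat_lit 131) (nat_lit 126) (nat_lit 3) (nat_lit 8) (nat_lit 6) (nat_lit 1) (nat_lit 11) (nat_lit 6) (by decide +kernel)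
theorem L110802 : W_41 (nat_lit 3) (nat_lit 0x1f0009000480024000000000000000000000000000) (nat_lit 0x0) (nat_lit 0x840018000800000000000000000000000) := T_41 (nat_lit 112) (nat_lit 95) (nat_lit 4) (nat_lit 11) (nat_lit 9) L110801 (by decide +kernel)
theorem L110803 : W_41 (nat_lit 4) (nat_lit 0x1f0009000080024000000000000000000000000000) (nat_lit 0x0) (nat_lit 0x1000000000000c40018000800000000000000000000000) := T_41 (nat_lit 130) (nat_lit 180) (nat_lit 5) (nat_lit 11) (nat_lit 6) L110802 (by decide +kernel)
theorem L110804 : W_41 (nat_lit 5) (nat_lit 0x1e0009000080024000000000000000000000000000) (nat_lit 0x0) (nat_lit 0x1200010000000c40018000800000000000000000000000) := T_41 (nat_lit 160) (nat_lit 177) (nat_lit 5) (nat_lit 8) (nat_lit 6) L110803 (by decide +kernel)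
theorem L110805 : W_41 (nat_lit 6) (nat_lit 0x1e0001000080024000000000000000000000000000) (nat_lit 0x0) (nat_lit 0x1200010018000c40018000800000000000000000000000) := T_41 (nat_lit 147) (nat_lit 148) (nat_lit 2) (nat_lit 8) (nat_lit 9) L110804 (by decide +kernel)
theorem L110806 : W_41 (nat_lit 2) (nat_lit 0x1e000900008003c000000000000000000000000000) (nat_lit 0x0) (nat_lit 0x1000000000000c00000000000000000000000000000000) := D_41 (nat_lit 130) (nat_lit 180) (nat_lit 131) (nat_lit 5) (nat_lit 11) (nat_lit 6) (nat_lit 3) (nat_lit 8) (nat_lit 6) (by decide +kernel)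
theorem L110807 : W_41 (nat_lit 3) (nat_lit 0x1e000900008002c000000000000000000000000000) (nat_lit 0x0) (nat_lit 0x1000000000000c40010000000000000000000000000000) := T_41 (nat_lit 112) (nat_lit 126) (nat_lit 1) (nat_lit 11) (nat_lit 6) L110806 (by decide +kernel)
theorem L110808 : W_41 (nat_lit 4) (nat_lit 0x1e0009000080024000000000000000000000000000) (nat_lit 0x0) (nat_lit 0x1000000000000c40018000400000000000000000000000) := T_41 (nat_lit 111) (nat_lit 94) (nat_lit 6) (nat_lit 8) (nat_lit 9) L110807 (by decide +kernel)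
theorem L110809 : W_41 (nat_lit 5) (nat_lit 0x1e0001000080024000000000000000000000000000) (nat_lit 0x0) (nat_lit 0x1000000018000c40018000400000000000000000000000) := T_41 (nat_lit 147) (nat_lit 148) (nat_lit 2) (nat_lit 8) (nat_lit 9) L110808 (by decide +kernel)
theorem L110810 : W_41 (nat_lit 2) (nat_lit 0x3f0009000480024003600000000000000000000000) (nat_lit 0x0) (nat_lit 0x2000800040000000000000000000) := D_41 (nat_lit 95) (nat_lit 78) (nat_lit 109) (nat_lit 4) (nat_lit 11) (nat_lit 8) (nat_lit 1) (nat_lit 11) (nat_lit 5) (by decide +kernel)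
theorem L110811 : W_41 (nat_lit 3) (nat_lit 0x3f0009000480024002600000000000000000000000) (nat_lit 0x0) (nat_lit 0x2001800140000000000000000000) := T_41 (nat_lit 96) (nat_lit 80) (nat_lit 6) (nat_lit 11) (nat_lit 8) L110810 (by decide +kernel)
theorem L110812 : W_41 (nat_lit 4) (nat_lit 0x3f0009000480024000600000000000000000000000) (nat_lit 0x0) (nat_lit 0x42003800140000000000000000000) := T_41 (nat_lit 97) (nat_lit 114) (nat_lit 6) (nat_lit 11) (nat_lit 9) L110811 (by decide +kernel)
theorem L110813 : W_41 (nat_lit 5) (nat_lit 0x3f0009000480024000400000000000000000000000) (nat_lit 0x0) (nat_lit 0x42003a00160000000000000000000) := T_41 (nat_lit 93) (nat_lit 77) (nat_lit 6) (nat_lit 8) (nat_lit 8) L110812 (by decide +kernel)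
theorem L110814 : W_41 (nat_lit 6) (nat_lit 0x1f0009000480024000400000000000000000000000) (nat_lit 0x0) (nat_lit 0x4000200000000000042003a00160000000000000000000) := T_41 (nat_lit 165) (nat_lit 182) (nat_lit 7) (nat_lit 11) (nat_lit 6) L110813 (by decide +kernel)
theorem L110815 : W_41 (nat_lit 7) (nat_lit 0x1f0009000480024000000000000000000000000000) (nat_lit 0x0) (nat_lit 0x400020000000000004a003e00160000000000000000000) := T_41 (nat_lit 94) (nat_lit 111) (nat_lit 6) (nat_lit 8) (nat_lit 9) L110814 (by decide +kernel)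
theorem L110816 : W_41 (nat_lit 8) (nat_lit 0x1f0009000080024000000000000000000000000000) (nat_lit 0x0) (nat_lit 0x500020000000040004a003e00160000000000000000000) := T_41 (nat_lit 130) (nat_lit 180) (nat_lit 5) (nat_lit 11) (nat_lit 6) L110815 (by decide +kernel)
theorem L110817 : W_41 (nat_lit 9) (nat_lit 0x1e0009000080024000000000000000000000000000) (nat_lit 0x0) (nat_lit 0x520021000000040004a003e00160000000000000000000) := T_41 (nat_lit 160) (nat_lit 177) (nat_lit 5) (nat_lit 8) (nat_lit 6) L110816 (by decide +kernel)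
theorem L110818 : W_41 (nat_lit 10) (nat_lit 0x1e0001000080024000000000000000000000000000) (nat_lit 0x0) (nat_lit 0x520021001800040004a003e00160000000000000000000) := T_41 (nat_lit 147) (nat_lit 148) (nat_lit 2) (nat_lit 8) (nat_lit 9) L110817 (by decide +kernel)
theorem L110819 : W_41 (nat_lit 2) (nat_lit 0x3f0009000480024001800000000000000000000000) (nat_lit 0x0) (nat_lit 0x40002000100000000000000000000) := D_41 (nat_lit 97) (nat_lit 114) (nat_lit 80) (nat_lit 6) (nat_lit 11) (nat_lit 9) (nat_lit 6) (nat_lit 11) (nat_lit 8) (by decide +kernel)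
theorem L110820 : W_41 (nat_lit 3) (nat_lit 0x3f0009000480024000800000000000000000000000) (nat_lit 0x0) (nat_lit 0x40003000140000000000000000000) := T_41 (nat_lit 96) (nat_lit 78) (nat_lit 4) (nat_lit 11) (nat_lit 8) L110819 (by decide +kernel)
theorem L110821 : W_41 (nat_lit 4) (nat_lit 0x1f0009000480024000800000000000000000000000) (nat_lit 0x0) (nat_lit 0x4000200000000000040003000140000000000000000000) := T_41 (nat_lit 165) (nat_lit 182) (nat_lit 7) (nat_lit 11) (nat_lit 6) L110820 (by decide +kernel)
theorem L110822 : W_41 (nat_lit 5) (nat_lit 0x1f0009000480024000000000000000000000000000) (nat_lit 0x0) (nat_lit 0x4000200000000000050003800140000000000000000000) := T_41 (nat_lit 95) (nat_lit 112) (nat_lit 4) (nat_lit 11) (nat_lit 9) L110821 (by decide +kernel)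
theorem L110823 : W_41 (nat_lit 6) (nat_lit 0x1f0009000080024000000000000000000000000000) (nat_lit 0x0) (nat_lit 0x5000200000000400050003800140000000000000000000) := T_41 (nat_lit 130) (nat_lit 180) (nat_lit 5) (nat_lit 11) (nat_lit 6) L110822 (by decide +kernel)
theorem L110824 : W_41 (nat_lit 7) (nat_lit 0x1e0009000080024000000000000000000000000000) (nat_lit 0x0) (nat_lit 0x5200210000000400050003800140000000000000000000) := T_41 (nat_lit 160) (nat_lit 177) (nat_lit 5) (nat_lit 8) (nat_lit 6) L110823 (by decide +kernel)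
theorem L110825 : W_41 (nat_lit 8) (nat_lit 0x1e0001000080024000000000000000000000000000) (nat_lit 0x0) (nat_lit 0x5200210018000400050003800140000000000000000000) := T_41 (nat_lit 147) (nat_lit 148) (nat_lit 2) (nat_lit 8) (nat_lit 9) L110824 (by decide +kernel)
theorem L110826 : W_41 (nat_lit 2) (nat_lit 0x1f000900018003e001000000000000000000000000) (nat_lit 0x0) (nat_lit 0x200001800000000000000000000000000) := D_41 (nat_lit 108) (nat_lit 107) (nat_lit 129) (nat_lit 3) (nat_lit 5) (nat_lit 6) (nat_lit 3) (nat_lit 6) (nat_lit 6) (by decide +kernel)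
theorem L110827 : W_41 (nat_lit 3) (nat_lit 0x1f000900008003e001000000000000000000000000) (nat_lit 0x0) (nat_lit 0x300041800000000000000000000000000) := T_41 (nat_lit 128) (nat_lit 114) (nat_lit 1) (nat_lit 12) (nat_lit 6) L110826 (by decide +kernel)
theorem L110828 : W_41 (nat_lit 4) (nat_lit 0x1f000900008003c001000000000000000000000000) (nat_lit 0x0) (nat_lit 0x300043800800000000000000000000000) := T_41 (nat_lit 109) (nat_lit 95) (nat_lit 2) (nat_lit 7) (nat_lit 6) L110827 (by decide +kernel)
theorem L110829 : W_41 (nat_lit 5) (nat_lit 0x1f000900008003c000000000000000000000000000) (nat_lit 0x0) (nat_lit 0x300043803800000000000000000000000) := T_41 (nat_lit 96) (nat_lit 97) (nat_lit 2) (nat_lit 8) (nat_lit 6) L110828 (by decide +kernel)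
theorem L110830 : W_41 (nat_lit 6) (nat_lit 0x1e000900008003c000000000000000000000000000) (nat_lit 0x0) (nat_lit 0x200010000000300043803800000000000000000000000) := T_41 (nat_lit 160) (nat_lit 177) (nat_lit 5) (nat_lit 8) (nat_lit 6) L110829 (by decide +kernel)
theorem L110831 : W_41 (nat_lit 7) (nat_lit 0x1e000900008002c000000000000000000000000000) (nat_lit 0x0) (nat_lit 0x200010000000340053803800000000000000000000000) := T_41 (nat_lit 112) (nat_lit 126) (nat_lit 1) (nat_lit 11) (nat_lit 6) L110830 (by decide +kernel)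
theorem L110832 : W_41 (nat_lit 8) (nat_lit 0x1e0009000080024000000000000000000000000000) (nat_lit 0x0) (nat_lit 0x20001000000034005b803c00000000000000000000000) := T_41 (nat_lit 111) (nat_lit 94) (nat_lit 6) (nat_lit 8) (nat_lit 9) L110831 (by decide +kernel)
theorem L110833 : W_41 (nat_lit 9) (nat_lit 0x1e0001000080024000000000000000000000000000) (nat_lit 0x0) (nat_lit 0x20001001800034005b803c00000000000000000000000) := T_41 (nat_lit 147) (nat_lit 148) (nat_lit 2) (nat_lit 8) (nat_lit 9) L110832 (by decide +kernel)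
theorem L110834 : W_41 (nat_lit 11) (nat_lit 0x1e0001000080004000000000000000000000000000) (nat_lit 0x0) (nat_lit 0x5200210018001f4007b803e00160000000000000000000) := Q_41 (nat_lit 113) (C_41 L110800 (C_41 L110805 (C_41 L110809 (C_41 L110818 (C_41 L110825 (C_41 L110833 N_41)))))) (by decide +kernel)
theorem L110835 : W_41 (nat_lit 2) (nat_lit 0x4000000010001f000900008007c000000000000000000000000000) (nat_lit 0x0) (nat_lit 0x7000000000000000000000000) := D_41 (nat_lit 97) (nat_lit 96) (nat_lit 98) (nat_lit 2) (nat_lit 8) (nat_lit 6) (nat_lit 2) (nat_lit 9) (nat_lit 6) (by decide +kernel)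
theorem L110836 : W_41 (nat_lit 3) (nat_lit 0x4000000010001f000900008003c000000000000000000000000000) (nat_lit 0x0) (nat_lit 0x100040007000000000000000000000000) := T_41 (nat_lit 114) (nat_lit 128) (nat_lit 1) (nat_lit 12) (nat_lit 6) L110835 (by decide +kernel)
theorem L110837 : W_41 (nat_lit 4) (nat_lit 0x4000000010001f000900008002c000000000000000000000000000) (nat_lit 0x0) (nat_lit 0x140050007000000000000000000000000) := T_41 (nat_lit 112) (nat_lit 126) (nat_lit 1) (nat_lit 11) (nat_lit 6) L110836 (by decide +kernel)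
theorem L110838 : W_41 (nat_lit 5) (nat_lit 0x4000000010001f000900008000c000000000000000000000000000) (nat_lit 0x0) (nat_lit 0x540070007000000000000000000000000) := T_41 (nat_lit 113) (nat_lit 130) (nat_lit 5) (nat_lit 11) (nat_lit 6) L110837 (by decide +kernel)
theorem L110839 : W_41 (nat_lit 6) (nat_lit 0x10001f000900008000c000000000000000000000000000) (nat_lit 0x0) (nat_lit 0x400020000000000000000540070007000000000000000000000000) := T_41 (nat_lit 214) (nat_lit 197) (nat_lit 6) (nat_lit 10) (nat_lit 12) L110838 (by decide +kernel)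
theorem L110840 : W_41 (nat_lit 7) (nat_lit 0x10001f0009000080004000000000000000000000000000) (nat_lit 0x0) (nat_lit 0x400020000000000000000540078007400000000000000000000000) := T_41 (nat_lit 111) (nat_lit 94) (nat_lit 6) (nat_lit 8) (nat_lit 9) L110839 (by decide +kernel)
theorem L110841 : W_41 (nat_lit 8) (nat_lit 0x10001f0001000080004000000000000000000000000000) (nat_lit 0x0) (nat_lit 0x400020000000000018000540078007400000000000000000000000) := T_41 (nat_lit 147) (nat_lit 148) (nat_lit 2) (nat_lit 8) (nat_lit 9) L110840 (by decide +kernel)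
theorem L110842 : W_41 (nat_lit 9) (nat_lit 0x1f0001000080004000000000000000000000000000) (nat_lit 0x0) (nat_lit 0x400020003000000018000540078007400000000000000000000000) := T_41 (nat_lit 180) (nat_lit 181) (nat_lit 3) (nat_lit 7) (nat_lit 9) L110841 (by decide +kernel)
theorem L110843 : W_41 (nat_lit 10) (nat_lit 0x1e0001000080004000000000000000000000000000) (nat_lit 0x0) (nat_lit 0x400020003200010018000540078007400000000000000000000000) := T_41 (nat_lit 160) (nat_lit 177) (nat_lit 5) (nat_lit 8) (nat_lit 6) L110842 (by decide +kernel)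
theorem L110844 : W_41 (nat_lit 12) (nat_lit 0xe0001000080004000000000000000000000000000) (nat_lit 0x0) (nat_lit 0x40002000f200310038001f4007b807e00160000000000000000000) := Q_41 (nat_lit 164) (C_41 L110557 (C_41 L1613 (C_41 L110834 (C_41 L110843 N_41)))) (by decide +kernel)
theorem L110845 : W_41 (nat_lit 2) (nat_lit 0x10000000040003f000900008007c000000000000000000000000000) (nat_lit 0x0) (nat_lit 0x7000000000000000000000000) := D_41 (nat_lit 97) (nat_lit 96) (nat_lit 98) (nat_lit 2) (nat_lit 8) (nat_lit 6) (nat_lit 2) (nat_lit 9) (nat_lit 6) (by decide +kernel)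
theorem L110846 : W_41 (nat_lit 3) (nat_lit 0x10000000040003f000900008003c000000000000000000000000000) (nat_lit 0x0) (nat_lit 0x100040007000000000000000000000000) := T_41 (nat_lit 114) (nat_lit 128) (nat_lit 1) (nat_lit 12) (nat_lit 6) L110845 (by decide +kernel)
theorem L110847 : W_41 (nat_lit 4) (nat_lit 0x10000000040003f000900008002c000000000000000000000000000) (nat_lit 0x0) (nat_lit 0x140050007000000000000000000000000) := T_41 (nat_lit 112) (nat_lit 126) (nat_lit 1) (nat_lit 11) (nat_lit 6) L110846 (by decide +kernel)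
theorem L110848 : W_41 (nat_lit 5) (nat_lit 0x10000000040003f000900008000c000000000000000000000000000) (nat_lit 0x0) (nat_lit 0x540070007000000000000000000000000) := T_41 (nat_lit 113) (nat_lit 130) (nat_lit 7) (nat_lit 11) (nat_lit 6) L110847 (by decide +kernel)
theorem L110849 : W_41 (nat_lit 6) (nat_lit 0x40003f000900008000c000000000000000000000000000) (nat_lit 0x0) (nat_lit 0x1000080000000000000000540070007000000000000000000000000) := T_41 (nat_lit 216) (nat_lit 199) (nat_lit 4) (nat_lit 12) (nat_lit 12) L110848 (by decide +kernel)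
theorem L110850 : W_41 (nat_lit 7) (nat_lit 0x40001f000900008000c000000000000000000000000000) (nat_lit 0x0) (nat_lit 0x1000080008000200000000540070007000000000000000000000000) := T_41 (nat_lit 165) (nat_lit 183) (nat_lit 3) (nat_lit 9) (nat_lit 9) L110849 (by decide +kernel)
theorem L110851 : W_41 (nat_lit 8) (nat_lit 0x1f000900008000c000000000000000000000000000) (nat_lit 0x0) (nat_lit 0x100008000e000200000000540070007000000000000000000000000) := T_41 (nat_lit 182) (nat_lit 181) (nat_lit 3) (nat_lit 8) (nat_lit 9) L110850 (by decide +kernel)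
theorem L110852 : W_41 (nat_lit 9) (nat_lit 0xf000900008000c000000000000000000000000000) (nat_lit 0x0) (nat_lit 0x100008000e000300010000540070007000000000000000000000000) := T_41 (nat_lit 164) (nat_lit 148) (nat_lit 2) (nat_lit 8) (nat_lit 9) L110851 (by decide +kernel)
theorem L110853 : W_41 (nat_lit 10) (nat_lit 0xf0009000080004000000000000000000000000000) (nat_lit 0x0) (nat_lit 0x100008000e000300010000540078007400000000000000000000000) := T_41 (nat_lit 111) (nat_lit 94) (nat_lit 6) (nat_lit 8) (nat_lit 9) L110852 (by decide +kernel)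
theorem L110854 : W_41 (nat_lit 11) (nat_lit 0xf0001000080004000000000000000000000000000) (nat_lit 0x0) (nat_lit 0x100008000e00030001c000540078007400000000000000000000000) := T_41 (nat_lit 147) (nat_lit 146) (nat_lit 2) (nat_lit 7) (nat_lit 9) L110853 (by decide +kernel)
theorem L110855 : W_41 (nat_lit 12) (nat_lit 0xe0001000080004000000000000000000000000000) (nat_lit 0x0) (nat_lit 0x100008000e20031001c000540078007400000000000000000000000) := T_41 (nat_lit 160) (nat_lit 177) (nat_lit 5) (nat_lit 8) (nat_lit 6) L110854 (by decide +kernel)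
theorem L110856 : W_41 (nat_lit 2) (nat_lit 0xe0009000080004000000000000000000000000000) (nat_lit 0x0) (nat_lit 0x200010004000000000000000000000000000000000000) := D_41 (nat_lit 160) (nat_lit 177) (nat_lit 146) (nat_lit 5) (nat_lit 8) (nat_lit 6) (nat_lit 2) (nat_lit 7) (nat_lit 9) (by decide +kernel)
theorem L110857 : W_41 (nat_lit 2) (nat_lit 0x200000000e000d00048002c000000000000000000000000000) (nat_lit 0x0) (nat_lit 0x840010000000000000000000000000000) := D_41 (nat_lit 112) (nat_lit 131) (nat_lit 126) (nat_lit 3) (nat_lit 8) (nat_lit 6) (nat_lit 1) (nat_lit 11) (nat_lit 6) (by decide +kernel)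
theorem L110858 : W_41 (nat_lit 3) (nat_lit 0x200000000e000d00048000c000000000000000000000000000) (nat_lit 0x0) (nat_lit 0x840030001000000000000000000000000) := T_41 (nat_lit 113) (nat_lit 96) (nat_lit 5) (nat_lit 11) (nat_lit 5) L110857 (by decide +kernel)
theorem L110859 : W_41 (nat_lit 4) (nat_lit 0xe000d00048000c000000000000000000000000000) (nat_lit 0x0) (nat_lit 0x20001000000000000840030001000000000000000000000000) := T_41 (nat_lit 197) (nat_lit 180) (nat_lit 6) (nat_lit 10) (nat_lit 11) L110858 (by decide +kernel)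
theorem L110860 : W_41 (nat_lit 5) (nat_lit 0xe000d000480004000000000000000000000000000) (nat_lit 0x0) (nat_lit 0x20001000000000000840038001400000000000000000000000) := T_41 (nat_lit 111) (nat_lit 94) (nat_lit 6) (nat_lit 8) (nat_lit 9) L110859 (by decide +kernel)
theorem L110861 : W_41 (nat_lit 2) (nat_lit 0x200000000e000d000480004003e00110000000000000000000) (nat_lit 0x0) (nat_lit 0x8000c0000000000000000000000000000) := D_41 (nat_lit 114) (nat_lit 115) (nat_lit 131) (nat_lit 3) (nat_lit 9) (nat_lit 5) (nat_lit 5) (nat_lit 12) (nat_lit 4) (by decide +kernel)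
theorem L110862 : W_41 (nat_lit 3) (nat_lit 0x200000000e000d000480004001e00110000000000000000000) (nat_lit 0x0) (nat_lit 0x8000c0002000200000000000000000000) := T_41 (nat_lit 97) (nat_lit 81) (nat_lit 2) (nat_lit 9) (nat_lit 5) L110861 (by decide +kernel)
theorem L110863 : W_41 (nat_lit 4) (nat_lit 0x200000000e000d000480004001e00010000000000000000000) (nat_lit 0x0) (nat_lit 0x8000c0002000380000000000000000000) := T_41 (nat_lit 80) (nat_lit 79) (nat_lit 2) (nat_lit 8) (nat_lit 5) L110862 (by decide +kernel)
theorem L110864 : W_41 (nat_lit 5) (nat_lit 0x200000000e000d000480004001e00000000000000000000000) (nat_lit 0x0) (nat_lit 0x8000c0002000398000000000000000000) := T_41 (nat_lit 76) (nat_lit 75) (nat_lit 0) (nat_lit 11) (nat_lit 5) L110863 (by decide +kernel)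
theorem L110865 : W_41 (nat_lit 6) (nat_lit 0x200000000e000d000480004001600000000000000000000000) (nat_lit 0x0) (nat_lit 0x8000c2002800398000000000000000000) := T_41 (nat_lit 95) (nat_lit 109) (nat_lit 1) (nat_lit 11) (nat_lit 5) L110864 (by decide +kernel)
theorem L110866 : W_41 (nat_lit 7) (nat_lit 0x200000000e000d000480004001400000000000000000000000) (nat_lit 0x0) (nat_lit 0x8000c2002a003b8000000000000000000) := T_41 (nat_lit 93) (nat_lit 77) (nat_lit 6) (nat_lit 8) (nat_lit 8) L110865 (by decide +kernel)
theorem L110867 : W_41 (nat_lit 8) (nat_lit 0xe000d000480004001400000000000000000000000) (nat_lit 0x0) (nat_lit 0x200010000000000008000c2002a003b8000000000000000000) := T_41 (nat_lit 197) (nat_lit 180) (nat_lit 6) (nat_lit 10) (nat_lit 11) L110866 (by decide +kernel)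
theorem L110868 : W_41 (nat_lit 9) (nat_lit 0xe000d000480004001000000000000000000000000) (nat_lit 0x0) (nat_lit 0x200010000000000008000ca002e003b8000000000000000000) := T_41 (nat_lit 94) (nat_lit 111) (nat_lit 6) (nat_lit 8) (nat_lit 9) L110867 (by decide +kernel)
theorem L110869 : W_41 (nat_lit 10) (nat_lit 0xe000d000480004000000000000000000000000000) (nat_lit 0x0) (nat_lit 0x200010000000000008000ea003e003b8000000000000000000) := T_41 (nat_lit 96) (nat_lit 113) (nat_lit 5) (nat_lit 11) (nat_lit 5) L110868 (by decide +kernel)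
theorem L110870 : W_41 (nat_lit 2) (nat_lit 0x10000e000d000480004000000000000000000000000000) (nat_lit 0x0) (nat_lit 0x200020001000000000000000000000000) := D_41 (nat_lit 113) (nat_lit 96) (nat_lit 129) (nat_lit 5) (nat_lit 11) (nat_lit 5) (nat_lit 6) (nat_lit 10) (nat_lit 10) (by decide +kernel)
theorem L110871 : W_41 (nat_lit 3) (nat_lit 0xe000d000480004000000000000000000000000000) (nat_lit 0x0) (nat_lit 0x20001000000000000200020001000000000000000000000000) := T_41 (nat_lit 180) (nat_lit 197) (nat_lit 6) (nat_lit 10) (nat_lit 11) L110870 (by decide +kernel)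
theorem L110872 : W_41 (nat_lit 2) (nat_lit 0x10000e000d00068001c000000000000000000000000000) (nat_lit 0x0) (nat_lit 0x100000000000000000800040000000000000000000) := D_41 (nat_lit 95) (nat_lit 78) (nat_lit 164) (nat_lit 7) (nat_lit 10) (nat_lit 4) (nat_lit 7) (nat_lit 10) (nat_lit 5) (by decide +kernel)
theorem L110873 : W_41 (nat_lit 3) (nat_lit 0x10000e000d00068000c000000000000000000000000000) (nat_lit 0x0) (nat_lit 0x100000000000012000800040000000000000000000) := T_41 (nat_lit 112) (nat_lit 109) (nat_lit 3) (nat_lit 7) (nat_lit 6) L110872 (by decide +kernel)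
theorem L110874 : W_41 (nat_lit 4) (nat_lit 0x10000e000d00048000c000000000000000000000000000) (nat_lit 0x0) (nat_lit 0x100000000300012000800040000000000000000000) := T_41 (nat_lit 129) (nat_lit 128) (nat_lit 4) (nat_lit 10) (nat_lit 10) L110873 (by decide +kernel)
theorem L110875 : W_41 (nat_lit 5) (nat_lit 0xe000d00048000c000000000000000000000000000) (nat_lit 0x0) (nat_lit 0x20001000100000000300012000800040000000000000000000) := T_41 (nat_lit 180) (nat_lit 197) (nat_lit 6) (nat_lit 10) (nat_lit 11) L110874 (by decide +kernel)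
theorem L110876 : W_41 (nat_lit 6) (nat_lit 0xe000d000480004000000000000000000000000000) (nat_lit 0x0) (nat_lit 0x2000100010000000030001a000c00040000000000000000000) := T_41 (nat_lit 111) (nat_lit 94) (nat_lit 6) (nat_lit 8) (nat_lit 9) L110875 (by decide +kernel)
theorem L110877 : W_41 (nat_lit 2) (nat_lit 0xe000d000480004003e00110000000000000000000) (nat_lit 0x0) (nat_lit 0x8000c0000000000000000000000000000) := D_41 (nat_lit 114) (nat_lit 115) (nat_lit 131) (nat_lit 3) (nat_lit 9) (nat_lit 5) (nat_lit 5) (nat_lit 12) (nat_lit 4) (by decide +kernel)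
theorem L110878 : W_41 (nat_lit 3) (nat_lit 0xe000d000480004001e00110000000000000000000) (nat_lit 0x0) (nat_lit 0x8000c0002000200000000000000000000) := T_41 (nat_lit 97) (nat_lit 81) (nat_lit 2) (nat_lit 9) (nat_lit 5) L110877 (by decide +kernel)
theorem L110879 : W_41 (nat_lit 4) (nat_lit 0xe000d000480004001e00010000000000000000000) (nat_lit 0x0) (nat_lit 0x8000c0002000380000000000000000000) := T_41 (nat_lit 80) (nat_lit 79) (nat_lit 2) (nat_lit 8) (nat_lit 5) L110878 (by decide +kernel)
theorem L110880 : W_41 (nat_lit 5) (nat_lit 0xe000d000480004001e00000000000000000000000) (nat_lit 0x0) (nat_lit 0x8000c0002000398000000000000000000) := T_41 (nat_lit 76) (nat_lit 75) (nat_lit 0) (nat_lit 11) (nat_lit 5) L110879 (by decide +kernel)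
theorem L110881 : W_41 (nat_lit 6) (nat_lit 0xe000d000480004001600000000000000000000000) (nat_lit 0x0) (nat_lit 0x8000c2002800398000000000000000000) := T_41 (nat_lit 95) (nat_lit 109) (nat_lit 1) (nat_lit 11) (nat_lit 5) L110880 (by decide +kernel)
theorem L110882 : W_41 (nat_lit 7) (nat_lit 0xe000d000480004001400000000000000000000000) (nat_lit 0x0) (nat_lit 0x8000c2002a003b8000000000000000000) := T_41 (nat_lit 93) (nat_lit 77) (nat_lit 6) (nat_lit 8) (nat_lit 8) L110881 (by decide +kernel)
theorem L110883 : W_41 (nat_lit 8) (nat_lit 0xe000d000480004001000000000000000000000000) (nat_lit 0x0) (nat_lit 0x8000ca002e003b8000000000000000000) := T_41 (nat_lit 94) (nat_lit 111) (nat_lit 6) (nat_lit 8) (nat_lit 9) L110882 (by decide +kernel)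
theorem L110884 : W_41 (nat_lit 9) (nat_lit 0xe000d000480004000000000000000000000000000) (nat_lit 0x0) (nat_lit 0x8000ea003e003b8000000000000000000) := T_41 (nat_lit 96) (nat_lit 113) (nat_lit 5) (nat_lit 11) (nat_lit 5) L110883 (by decide +kernel)
theorem L110885 : W_41 (nat_lit 11) (nat_lit 0xe000d000080004000000000000000000000000000) (nat_lit 0x0) (nat_lit 0x20001000100000000f400fa003e003f8000000000000000000) := Q_41 (nat_lit 130) (C_41 L110860 (C_41 L110869 (C_41 L110871 (C_41 L110876 (C_41 L110884 N_41))))) (by decide +kernel)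
theorem L110886 : W_41 (nat_lit 2) (nat_lit 0xe000d000080004000000000000000000000000000) (nat_lit 0x0) (nat_lit 0x100030000000000000000000000000000000000000) := D_41 (nat_lit 148) (nat_lit 164) (nat_lit 149) (nat_lit 2) (nat_lit 8) (nat_lit 9) (nat_lit 1) (nat_lit 13) (nat_lit 8) (by decide +kernel)
theorem L110887 : W_41 (nat_lit 2) (nat_lit 0xe000d00008003c000000000000000000000000000) (nat_lit 0x0) (nat_lit 0x400000003000000000000000000000000) := D_41 (nat_lit 96) (nat_lit 130) (nat_lit 97) (nat_lit 5) (nat_lit 11) (nat_lit 5) (nat_lit 2) (nat_lit 8) (nat_lit 6) (by decide +kernel)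
theorem L110888 : W_41 (nat_lit 3) (nat_lit 0xe000d00008002c000000000000000000000000000) (nat_lit 0x0) (nat_lit 0x440010003000000000000000000000000) := T_41 (nat_lit 112) (nat_lit 126) (nat_lit 1) (nat_lit 11) (nat_lit 6) L110887 (by decide +kernel)
theorem L110889 : W_41 (nat_lit 4) (nat_lit 0xe000d000080024000000000000000000000000000) (nat_lit 0x0) (nat_lit 0x440018003400000000000000000000000) := T_41 (nat_lit 111) (nat_lit 94) (nat_lit 6) (nat_lit 8) (nat_lit 9) L110888 (by decide +kernel)
theorem L110890 : W_41 (nat_lit 2) (nat_lit 0xe002d000080024001600000000000000000000000) (nat_lit 0x0) (nat_lit 0x42000800000000000000000000000) := D_41 (nat_lit 95) (nat_lit 114) (nat_lit 109) (nat_lit 3) (nat_lit 8) (nat_lit 5) (nat_lit 1) (nat_lit 11) (nat_lit 5) (by decide +kernel)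
theorem L110891 : W_41 (nat_lit 3) (nat_lit 0xe002d000080024001400000000000000000000000) (nat_lit 0x0) (nat_lit 0x42000a00020000000000000000000) := T_41 (nat_lit 93) (nat_lit 77) (nat_lit 6) (nat_lit 8) (nat_lit 8) L110890 (by decide +kernel)
theorem L110892 : W_41 (nat_lit 4) (nat_lit 0xe000d000080024001400000000000000000000000) (nat_lit 0x0) (nat_lit 0x30000000042000a00020000000000000000000) := T_41 (nat_lit 149) (nat_lit 148) (nat_lit 1) (nat_lit 13) (nat_lit 8) L110891 (by decide +kernel)
theorem L110893 : W_41 (nat_lit 5) (nat_lit 0xe000d000080024001000000000000000000000000) (nat_lit 0x0) (nat_lit 0x3000000004a000e00020000000000000000000) := T_41 (nat_lit 94) (nat_lit 111) (nat_lit 6) (nat_lit 8) (nat_lit 9) L110892 (by decide +kernel)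
theorem L110894 : W_41 (nat_lit 6) (nat_lit 0xe000d000080024000000000000000000000000000) (nat_lit 0x0) (nat_lit 0x3000040004a001e00020000000000000000000) := T_41 (nat_lit 96) (nat_lit 130) (nat_lit 5) (nat_lit 11) (nat_lit 5) L110893 (by decide +kernel)
theorem L110895 : W_41 (nat_lit 2) (nat_lit 0xe002d000480024000000000000000000000000000) (nat_lit 0x0) (nat_lit 0x20001000000000000200000000000000000000000000000000) := D_41 (nat_lit 180) (nat_lit 129) (nat_lit 197) (nat_lit 6) (nat_lit 10) (nat_lit 10) (nat_lit 6) (nat_lit 10) (nat_lit 11) (by decide +kernel)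
theorem L110896 : W_41 (nat_lit 3) (nat_lit 0xe002d000080024000000000000000000000000000) (nat_lit 0x0) (nat_lit 0x20001000000000000600000001000000000000000000000000) := T_41 (nat_lit 130) (nat_lit 96) (nat_lit 5) (nat_lit 11) (nat_lit 5) L110895 (by decide +kernel)
theorem L110897 : W_41 (nat_lit 4) (nat_lit 0xe000d000080024000000000000000000000000000) (nat_lit 0x0) (nat_lit 0x20001000000030000600000001000000000000000000000000) := T_41 (nat_lit 149) (nat_lit 148) (nat_lit 1) (nat_lit 13) (nat_lit 8) L110896 (by decide +kernel)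
theorem L110898 : W_41 (nat_lit 2) (nat_lit 0xe000d00008003c000000000000000000000000000) (nat_lit 0x0) (nat_lit 0x200000003000000000000000000000000) := D_41 (nat_lit 96) (nat_lit 97) (nat_lit 129) (nat_lit 2) (nat_lit 8) (nat_lit 6) (nat_lit 6) (nat_lit 10) (nat_lit 9) (by decide +kernel)
theorem L110899 : W_41 (nat_lit 3) (nat_lit 0xe000d00008002c000000000000000000000000000) (nat_lit 0x0) (nat_lit 0x240010003000000000000000000000000) := T_41 (nat_lit 112) (nat_lit 126) (nat_lit 1) (nat_lit 11) (nat_lit 6) L110898 (by decide +kernel)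
theorem L110900 : W_41 (nat_lit 4) (nat_lit 0xe000d000080024000000000000000000000000000) (nat_lit 0x0) (nat_lit 0x240018003400000000000000000000000) := T_41 (nat_lit 111) (nat_lit 94) (nat_lit 6) (nat_lit 8) (nat_lit 9) L110899 (by decide +kernel)
theorem L110901 : W_41 (nat_lit 2) (nat_lit 0xe002d00008007c000000000000000000000000000) (nat_lit 0x0) (nat_lit 0x1c00000000000000000000000000000000) := D_41 (nat_lit 131) (nat_lit 130) (nat_lit 132) (nat_lit 3) (nat_lit 8) (nat_lit 6) (nat_lit 3) (nat_lit 9) (nat_lit 6) (by decide +kernel)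
theorem L110902 : W_41 (nat_lit 3) (nat_lit 0xe002d00008003c000000000000000000000000000) (nat_lit 0x0) (nat_lit 0x1d00040000000000000000000000000000) := T_41 (nat_lit 114) (nat_lit 128) (nat_lit 1) (nat_lit 12) (nat_lit 6) L110901 (by decide +kernel)
theorem L110903 : W_41 (nat_lit 4) (nat_lit 0xe002d00008002c000000000000000000000000000) (nat_lit 0x0) (nat_lit 0x1d40050000000000000000000000000000) := T_41 (nat_lit 112) (nat_lit 126) (nat_lit 1) (nat_lit 11) (nat_lit 6) L110902 (by decide +kernel)
theorem L110904 : W_41 (nat_lit 5) (nat_lit 0xe002d000080024000000000000000000000000000) (nat_lit 0x0) (nat_lit 0x1d40058000400000000000000000000000) := T_41 (nat_lit 111) (nat_lit 94) (nat_lit 6) (nat_lit 8) (nat_lit 9) L110903 (by decide +kernel)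
theorem L110905 : W_41 (nat_lit 6) (nat_lit 0xe000d000080024000000000000000000000000000) (nat_lit 0x0) (nat_lit 0x30001d40058000400000000000000000000000) := T_41 (nat_lit 149) (nat_lit 148) (nat_lit 1) (nat_lit 13) (nat_lit 8) L110904 (by decide +kernel)
theorem L110906 : W_41 (nat_lit 7) (nat_lit 0xe000d000080004000000000000000000000000000) (nat_lit 0x0) (nat_lit 0x20001000000030001f4007a003e00020000000000000000000) := Q_41 (nat_lit 113) (C_41 L110889 (C_41 L110894 (C_41 L110897 (C_41 L110900 (C_41 L110905 N_41))))) (by decide +kernel)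
theorem L110907 : W_41 (nat_lit 12) (nat_lit 0xe0009000080004000000000000000000000000000) (nat_lit 0x0) (nat_lit 0x20001000100034001f400fa003e003f8000000000000000000) := Q_41 (nat_lit 146) (C_41 L110885 (C_41 L110886 (C_41 L110906 N_41))) (by decide +kernel)
theorem L110908 : W_41 (nat_lit 2) (nat_lit 0xf000900048003c000000000000000000000000000) (nat_lit 0x0) (nat_lit 0x1000100000000000000000800000000000000000000000) := D_41 (nat_lit 164) (nat_lit 95) (nat_lit 180) (nat_lit 4) (nat_lit 11) (nat_lit 9) (nat_lit 5) (nat_lit 11) (nat_lit 6) (by decide +kernel)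
theorem L110909 : W_41 (nat_lit 3) (nat_lit 0xf000900008003c000000000000000000000000000) (nat_lit 0x0) (nat_lit 0x1000100000000c00000000800000000000000000000000) := T_41 (nat_lit 130) (nat_lit 131) (nat_lit 3) (nat_lit 8) (nat_lit 6) L110908 (by decide +kernel)
theorem L110910 : W_41 (nat_lit 4) (nat_lit 0xe000900008003c000000000000000000000000000) (nat_lit 0x0) (nat_lit 0x1200110000000c00000000800000000000000000000000) := T_41 (nat_lit 160) (nat_lit 177) (nat_lit 5) (nat_lit 8) (nat_lit 6) L110909 (by decide +kernel)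
theorem L110911 : W_41 (nat_lit 5) (nat_lit 0xe000900008002c000000000000000000000000000) (nat_lit 0x0) (nat_lit 0x1200110000000c40010000800000000000000000000000) := T_41 (nat_lit 112) (nat_lit 126) (nat_lit 1) (nat_lit 11) (nat_lit 6) L110910 (by decide +kernel)
theorem L110912 : W_41 (nat_lit 6) (nat_lit 0xe0009000080024000000000000000000000000000) (nat_lit 0x0) (nat_lit 0x1200110000000c40018000c00000000000000000000000) := T_41 (nat_lit 111) (nat_lit 94) (nat_lit 6) (nat_lit 8) (nat_lit 9) L110911 (by decide +kernel)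
theorem L110913 : W_41 (nat_lit 7) (nat_lit 0xf0009000080024000000000000000000000000000) (nat_lit 0x0) (nat_lit 0x5000300010000400050003800140000000000000000000) := T_41 (nat_lit 164) (nat_lit 148) (nat_lit 2) (nat_lit 8) (nat_lit 9) L110823 (by decide +kernel)
theorem L110914 : W_41 (nat_lit 8) (nat_lit 0xe0009000080024000000000000000000000000000) (nat_lit 0x0) (nat_lit 0x5200310010000400050003800140000000000000000000) := T_41 (nat_lit 160) (nat_lit 177) (nat_lit 5) (nat_lit 8) (nat_lit 6) L110913 (by decide +kernel)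
theorem L110915 : W_41 (nat_lit 5) (nat_lit 0xe0009000080024000000000000000000000000000) (nat_lit 0x0) (nat_lit 0x1000100010000c40018000400000000000000000000000) := T_41 (nat_lit 164) (nat_lit 148) (nat_lit 2) (nat_lit 8) (nat_lit 9) L110808 (by decide +kernel)
theorem L110916 : W_41 (nat_lit 4) (nat_lit 0x1f0009000480024002600000000000000000000000) (nat_lit 0x0) (nat_lit 0x4000200000000000002001800140000000000000000000) := T_41 (nat_lit 165) (nat_lit 182) (nat_lit 7) (nat_lit 11) (nat_lit 6) L110811 (by decide +kernel)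
theorem L110917 : W_41 (nat_lit 5) (nat_lit 0x1f0009000480024000600000000000000000000000) (nat_lit 0x0) (nat_lit 0x4000200000000000042003800140000000000000000000) := T_41 (nat_lit 97) (nat_lit 114) (nat_lit 6) (nat_lit 11) (nat_lit 9) L110916 (by decide +kernel)
theorem L110918 : W_41 (nat_lit 6) (nat_lit 0x1f0009000080024000600000000000000000000000) (nat_lit 0x0) (nat_lit 0x5000200000000400042003800140000000000000000000) := T_41 (nat_lit 130) (nat_lit 180) (nat_lit 5) (nat_lit 11) (nat_lit 6) L110917 (by decide +kernel)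
theorem L110919 : W_41 (nat_lit 7) (nat_lit 0xf0009000080024000600000000000000000000000) (nat_lit 0x0) (nat_lit 0x5000300010000400042003800140000000000000000000) := T_41 (nat_lit 164) (nat_lit 148) (nat_lit 2) (nat_lit 8) (nat_lit 9) L110918 (by decide +kernel)
theorem L110920 : W_41 (nat_lit 8) (nat_lit 0xf0009000080024000400000000000000000000000) (nat_lit 0x0) (nat_lit 0x5000300010000400042003a00160000000000000000000) := T_41 (nat_lit 93) (nat_lit 77) (nat_lit 6) (nat_lit 8) (nat_lit 8) L110919 (by decide +kernel)
theorem L110921 : W_41 (nat_lit 9) (nat_lit 0xe0009000080024000400000000000000000000000) (nat_lit 0x0) (nat_lit 0x5200310010000400042003a00160000000000000000000) := T_41 (nat_lit 160) (nat_lit 177) (nat_lit 5) (nat_lit 8) (nat_lit 6) L110920 (by decide +kernel)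
theorem L110922 : W_41 (nat_lit 10) (nat_lit 0xe0009000080024000000000000000000000000000) (nat_lit 0x0) (nat_lit 0x520031001000040004a003e00160000000000000000000) := T_41 (nat_lit 94) (nat_lit 111) (nat_lit 6) (nat_lit 8) (nat_lit 9) L110921 (by decide +kernel)
theorem L110923 : W_41 (nat_lit 9) (nat_lit 0xe0009000080024000000000000000000000000000) (nat_lit 0x0) (nat_lit 0x20011001000034005b803c00000000000000000000000) := T_41 (nat_lit 164) (nat_lit 148) (nat_lit 2) (nat_lit 8) (nat_lit 9) L110832 (by decide +kernel)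
theorem L110924 : W_41 (nat_lit 2) (nat_lit 0xf000900048003e000000000000000000000000000) (nat_lit 0x0) (nat_lit 0x3800000000000000000000000) := D_41 (nat_lit 96) (nat_lit 95) (nat_lit 97) (nat_lit 2) (nat_lit 7) (nat_lit 6) (nat_lit 2) (nat_lit 8) (nat_lit 6) (by decide +kernel)
theorem L110925 : W_41 (nat_lit 3) (nat_lit 0xf000900048003c000000000000000000000000000) (nat_lit 0x0) (nat_lit 0x200002003800000000000000000000000) := T_41 (nat_lit 109) (nat_lit 129) (nat_lit 3) (nat_lit 7) (nat_lit 6) L110924 (by decide +kernel)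
theorem L110926 : W_41 (nat_lit 4) (nat_lit 0xf000900008003c000000000000000000000000000) (nat_lit 0x0) (nat_lit 0xe00002003800000000000000000000000) := T_41 (nat_lit 130) (nat_lit 131) (nat_lit 3) (nat_lit 8) (nat_lit 6) L110925 (by decide +kernel)
theorem L110927 : W_41 (nat_lit 5) (nat_lit 0xe000900008003c000000000000000000000000000) (nat_lit 0x0) (nat_lit 0x200010000000e00002003800000000000000000000000) := T_41 (nat_lit 160) (nat_lit 177) (nat_lit 5) (nat_lit 8) (nat_lit 6) L110926 (by decide +kernel)
theorem L110928 : W_41 (nat_lit 6) (nat_lit 0xe000900008002c000000000000000000000000000) (nat_lit 0x0) (nat_lit 0x200010000000e40012003800000000000000000000000) := T_41 (nat_lit 112) (nat_lit 126) (nat_lit 1) (nat_lit 11) (nat_lit 6) L110927 (by decide +kernel)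
theorem L110929 : W_41 (nat_lit 7) (nat_lit 0xe0009000080024000000000000000000000000000) (nat_lit 0x0) (nat_lit 0x200010000000e4001a003c00000000000000000000000) := T_41 (nat_lit 111) (nat_lit 94) (nat_lit 6) (nat_lit 8) (nat_lit 9) L110928 (by decide +kernel)
theorem L110930 : W_41 (nat_lit 11) (nat_lit 0xe0009000080004000000000000000000000000000) (nat_lit 0x0) (nat_lit 0x5200310010000f4007b803e00160000000000000000000) := Q_41 (nat_lit 113) (C_41 L110912 (C_41 L110914 (C_41 L110915 (C_41 L110922 (C_41 L110923 (C_41 L110929 N_41)))))) (by decide +kernel)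
theorem L110931 : W_41 (nat_lit 13) (nat_lit 0xe0001000080004000000000000000000000000000) (nat_lit 0x0) (nat_lit 0x2000520031003c001f400fb803e003f8000000000000000000) := Q_41 (nat_lit 147) (C_41 L110856 (C_41 L110907 (C_41 L110930 N_41))) (by decide +kernel)
theorem L110932 : W_41 (nat_lit 16) (nat_lit 0x60001000080004000000000000000000000000000) (nat_lit 0x0) (nat_lit 0x3c001e007f201f901fc003f781fbc07ee03f8000000000000000000) := Q_41 (nat_lit 163) (C_41 L729 (C_41 L110724 (C_41 L110729 (C_41 L110791 (C_41 L110795 (C_41 L110844 (C_41 L110855 (C_41 L110931 N_41)))))))) (by decide +kernel)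
theorem L110933 : W_41 (nat_lit 17) (nat_lit 0x20001000080004000000000000000000000000000) (nat_lit 0x0) (nat_lit 0x3c001e007fa01fd01fc003f781fbc07ee03f8000000000000000000) := T_41 (nat_lit 162) (nat_lit 179) (nat_lit 7) (nat_lit 8) (nat_lit 6) L110932 (by decide +kernel)
theorem L110934 : W_41 (nat_lit 2) (nat_lit 0x7c001200080006000000000000000000000000000) (nat_lit 0x0) (nat_lit 0x1c0000000000000000000000000000000000000000000) := D_41 (nat_lit 175) (nat_lit 176) (nat_lit 174) (nat_lit 1) (nat_lit 9) (nat_lit 9) (nat_lit 1) (nat_lit 8) (nat_lit 9) (by decide +kernel)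
theorem L110935 : W_41 (nat_lit 3) (nat_lit 0x78001200080006000000000000000000000000000) (nat_lit 0x0) (nat_lit 0x1c0004000100000000000000000000000000000000000) := T_41 (nat_lit 158) (nat_lit 140) (nat_lit 0) (nat_lit 8) (nat_lit 9) L110934 (by decide +kernel)
theorem L110936 : W_41 (nat_lit 4) (nat_lit 0x70001200080006000000000000000000000000000) (nat_lit 0x0) (nat_lit 0x1c000c000500000000000000000000000000000000000) := T_41 (nat_lit 159) (nat_lit 142) (nat_lit 0) (nat_lit 9) (nat_lit 9) L110935 (by decide +kernel)
theorem L110937 : W_41 (nat_lit 5) (nat_lit 0x30001200080006000000000000000000000000000) (nat_lit 0x0) (nat_lit 0x9c004c000500000000000000000000000000000000000) := T_41 (nat_lit 162) (nat_lit 179) (nat_lit 7) (nat_lit 8) (nat_lit 6) L110936 (by decide +kernel)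
theorem L110938 : W_41 (nat_lit 6) (nat_lit 0x30001200080004000000000000000000000000000) (nat_lit 0x0) (nat_lit 0x9c004c000500000002000100000000000000000000000) := T_41 (nat_lit 109) (nat_lit 92) (nat_lit 4) (nat_lit 8) (nat_lit 9) L110937 (by decide +kernel)
theorem L110939 : W_41 (nat_lit 2) (nat_lit 0x30001200080004000200000000000000000000000) (nat_lit 0x0) (nat_lit 0x2000100008000000000000000000) := D_41 (nat_lit 92) (nat_lit 109) (nat_lit 75) (nat_lit 4) (nat_lit 8) (nat_lit 9) (nat_lit 4) (nat_lit 8) (nat_lit 8) (by decide +kernel)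
theorem L110940 : W_41 (nat_lit 2) (nat_lit 0x30001200080004000200010000000000000000000) (nat_lit 0x0) (nat_lit 0x400020001000000000000000) := D_41 (nat_lit 77) (nat_lit 94) (nat_lit 60) (nat_lit 6) (nat_lit 8) (nat_lit 8) (nat_lit 6) (nat_lit 8) (nat_lit 7) (by decide +kernel)
theorem L110941 : W_41 (nat_lit 2) (nat_lit 0x30001200080004000200010001400000000000000) (nat_lit 0x0) (nat_lit 0x8000a0000000000) := D_41 (nat_lit 59) (nat_lit 43) (nat_lit 41) (nat_lit 6) (nat_lit 8) (nat_lit 6) (nat_lit 4) (nat_lit 8) (nat_lit 6) (by decide +kernel)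
theorem L110942 : W_41 (nat_lit 3) (nat_lit 0x30001200080004000200010001000000000000000) (nat_lit 0x0) (nat_lit 0x8000c000a0000000000) := T_41 (nat_lit 58) (nat_lit 75) (nat_lit 4) (nat_lit 8) (nat_lit 7) L110941 (by decide +kernel)
theorem L110943 : W_41 (nat_lit 4) (nat_lit 0x30001200080004000200010000000000000000000) (nat_lit 0x0) (nat_lit 0x28001c000a0000000000) := T_41 (nat_lit 60) (nat_lit 77) (nat_lit 6) (nat_lit 8) (nat_lit 7) L110942 (by decide +kernel)
theorem L110944 : W_41 (nat_lit 2) (nat_lit 0x380013e0090004000200000000000000000000000) (nat_lit 0x0) (nat_lit 0xe00000000000000000000000000000000000000) := D_41 (nat_lit 154) (nat_lit 153) (nat_lit 155) (nat_lit 1) (nat_lit 4) (nat_lit 8) (nat_lit 1) (nat_lit 5) (nat_lit 8) (by decide +kernel)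
theorem L110945 : W_41 (nat_lit 3) (nat_lit 0x380013c0090004000200000000000000000000000) (nat_lit 0x0) (nat_lit 0xe00020008000000000000000000000000000000) := T_41 (nat_lit 137) (nat_lit 123) (nat_lit 2) (nat_lit 1) (nat_lit 8) L110944 (by decide +kernel)
theorem L110946 : W_41 (nat_lit 4) (nat_lit 0x38001380090004000200000000000000000000000) (nat_lit 0x0) (nat_lit 0xe00060028000000000000000000000000000000) := T_41 (nat_lit 138) (nat_lit 125) (nat_lit 2) (nat_lit 2) (nat_lit 8) L110945 (by decide +kernel)
theorem L110947 : W_41 (nat_lit 2) (nat_lit 0x800340013400b0004000200000000000000000000000) (nat_lit 0x0) (nat_lit 0x1000000000000000008000400000000000000000000000000) := D_41 (nat_lit 123) (nat_lit 106) (nat_lit 192) (nat_lit 4) (nat_lit 5) (nat_lit 10) (nat_lit 4) (nat_lit 5) (nat_lit 11) (by decide +kernel)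
theorem L110948 : W_41 (nat_lit 3) (nat_lit 0x340013400b0004000200000000000000000000000) (nat_lit 0x0) (nat_lit 0x1000080000000000008001400000000000000000000000000) := T_41 (nat_lit 175) (nat_lit 108) (nat_lit 6) (nat_lit 5) (nat_lit 10) L110947 (by decide +kernel)
theorem L110949 : W_41 (nat_lit 4) (nat_lit 0x340013000b0004000200000000000000000000000) (nat_lit 0x0) (nat_lit 0x10000800000000c0008001400000000000000000000000000) := T_41 (nat_lit 138) (nat_lit 139) (nat_lit 2) (nat_lit 2) (nat_lit 8) L110948 (by decide +kernel)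
theorem L110950 : W_41 (nat_lit 5) (nat_lit 0x34001300090004000200000000000000000000000) (nat_lit 0x0) (nat_lit 0x10000800000000c0068001400000000000000000000000000) := T_41 (nat_lit 125) (nat_lit 126) (nat_lit 1) (nat_lit 8) (nat_lit 7) L110949 (by decide +kernel)
theorem L110951 : W_41 (nat_lit 6) (nat_lit 0x30001300090004000200000000000000000000000) (nat_lit 0x0) (nat_lit 0x100008000c0000c0068001400000000000000000000000000) := T_41 (nat_lit 158) (nat_lit 159) (nat_lit 0) (nat_lit 8) (nat_lit 9) L110950 (by decide +kernel)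
theorem L110952 : W_41 (nat_lit 5) (nat_lit 0x38001300090004000200000000000000000000000) (nat_lit 0x0) (nat_lit 0xe004e0028000000000000000000000000000000) := T_41 (nat_lit 139) (nat_lit 142) (nat_lit 3) (nat_lit 3) (nat_lit 8) L110946 (by decide +kernel)
theorem L110953 : W_41 (nat_lit 6) (nat_lit 0x30001300090004000200000000000000000000000) (nat_lit 0x0) (nat_lit 0xce004e0028000000000000000000000000000000) := T_41 (nat_lit 159) (nat_lit 158) (nat_lit 0) (nat_lit 8) (nat_lit 9) L110952 (by decide +kernel)
theorem L110954 : W_41 (nat_lit 2) (nat_lit 0x38001300090004800200000000000000000000000) (nat_lit 0x0) (nat_lit 0x2000400000000000040000000000000000000000) := D_41 (nat_lit 90) (nat_lit 157) (nat_lit 142) (nat_lit 5) (nat_lit 5) (nat_lit 5) (nat_lit 7) (nat_lit 5) (nat_lit 5) (by decide +kernel)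
theorem L110955 : W_41 (nat_lit 3) (nat_lit 0x30001300090004800200000000000000000000000) (nat_lit 0x0) (nat_lit 0xe000400000000000040000000000000000000000) := T_41 (nat_lit 159) (nat_lit 158) (nat_lit 0) (nat_lit 8) (nat_lit 9) L110954 (by decide +kernel)
theorem L110956 : W_41 (nat_lit 2) (nat_lit 0x30001300090004800240002000000000000000000) (nat_lit 0x0) (nat_lit 0x20001000080000000000000) := D_41 (nat_lit 72) (nat_lit 55) (nat_lit 89) (nat_lit 4) (nat_lit 5) (nat_lit 7) (nat_lit 4) (nat_lit 5) (nat_lit 8) (by decide +kernel)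
theorem L110957 : W_41 (nat_lit 3) (nat_lit 0x30001300090004800240000000000000000000000) (nat_lit 0x0) (nat_lit 0x8000000020003000080000000000000) := T_41 (nat_lit 73) (nat_lit 123) (nat_lit 5) (nat_lit 5) (nat_lit 4) L110956 (by decide +kernel)
theorem L110958 : W_41 (nat_lit 4) (nat_lit 0x30001300090004800200000000000000000000000) (nat_lit 0x0) (nat_lit 0x2000000008000000060003000080000000000000) := T_41 (nat_lit 90) (nat_lit 157) (nat_lit 5) (nat_lit 5) (nat_lit 5) L110957 (by decide +kernel)
theorem L110959 : W_41 (nat_lit 2) (nat_lit 0x34001300090005c00200000000000000000000000) (nat_lit 0x0) (nat_lit 0x108002000000000000000000000000000) := D_41 (nat_lit 109) (nat_lit 128) (nat_lit 123) (nat_lit 3) (nat_lit 5) (nat_lit 6) (nat_lit 1) (nat_lit 8) (nat_lit 6) (by decide +kernel)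
theorem L110960 : W_41 (nat_lit 3) (nat_lit 0x34001300090004c00200000000000000000000000) (nat_lit 0x0) (nat_lit 0x108003000080000000000000000000000) := T_41 (nat_lit 108) (nat_lit 91) (nat_lit 6) (nat_lit 5) (nat_lit 9) L110959 (by decide +kernel)
theorem L110961 : W_41 (nat_lit 4) (nat_lit 0x34001300090004800200000000000000000000000) (nat_lit 0x0) (nat_lit 0x1080034000a0000000000000000000000) := T_41 (nat_lit 106) (nat_lit 89) (nat_lit 4) (nat_lit 5) (nat_lit 9) L110960 (by decide +kernel)
theorem L110962 : W_41 (nat_lit 5) (nat_lit 0x30001300090004800200000000000000000000000) (nat_lit 0x0) (nat_lit 0xc0000001080034000a0000000000000000000000) := T_41 (nat_lit 158) (nat_lit 159) (nat_lit 0) (nat_lit 8) (nat_lit 9) L110961 (by decide +kernel)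
theorem L110963 : W_41 (nat_lit 6) (nat_lit 0x30001300090004000200000000000000000000000) (nat_lit 0x0) (nat_lit 0xe000400108003c000e0003000080000000000000) := Q_41 (nat_lit 107) (C_41 L110955 (C_41 L110958 (C_41 L110962 N_41))) (by decide +kernel)
theorem L110964 : W_41 (nat_lit 2) (nat_lit 0x400320013000d0004000200000000000000000000000) (nat_lit 0x0) (nat_lit 0x8000800040000000000000000000000) := D_41 (nat_lit 107) (nat_lit 90) (nat_lit 123) (nat_lit 5) (nat_lit 5) (nat_lit 5) (nat_lit 6) (nat_lit 4) (nat_lit 10) (by decide +kernel)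
theorem L110965 : W_41 (nat_lit 3) (nat_lit 0x320013000d0004000200000000000000000000000) (nat_lit 0x0) (nat_lit 0x800040000000000008000800040000000000000000000000) := T_41 (nat_lit 174) (nat_lit 191) (nat_lit 6) (nat_lit 4) (nat_lit 11) L110964 (by decide +kernel)
theorem L110966 : W_41 (nat_lit 4) (nat_lit 0x32001300090004000200000000000000000000000) (nat_lit 0x0) (nat_lit 0x800040000000000068000800040000000000000000000000) := T_41 (nat_lit 126) (nat_lit 125) (nat_lit 1) (nat_lit 8) (nat_lit 7) L110965 (by decide +kernel)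
theorem L110967 : W_41 (nat_lit 2) (nat_lit 0x600320013000d8004400200000000000000000000000) (nat_lit 0x0) (nat_lit 0x4000200010000000000000000000000) := D_41 (nat_lit 105) (nat_lit 88) (nat_lit 122) (nat_lit 4) (nat_lit 4) (nat_lit 9) (nat_lit 4) (nat_lit 4) (nat_lit 10) (by decide +kernel)
theorem L110968 : W_41 (nat_lit 3) (nat_lit 0x600320013000d8004000200000000000000000000000) (nat_lit 0x0) (nat_lit 0x1000000004000600010000000000000000000000) := T_41 (nat_lit 106) (nat_lit 156) (nat_lit 5) (nat_lit 4) (nat_lit 6) L110967 (by decide +kernel)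
theorem L110969 : W_41 (nat_lit 4) (nat_lit 0x400320013000d8004000200000000000000000000000) (nat_lit 0x0) (nat_lit 0x400020001000000004000600010000000000000000000000) := T_41 (nat_lit 173) (nat_lit 190) (nat_lit 5) (nat_lit 4) (nat_lit 7) L110968 (by decide +kernel)
theorem L110970 : W_41 (nat_lit 5) (nat_lit 0x400320013000d0004000200000000000000000000000) (nat_lit 0x0) (nat_lit 0x40002000100000000c000e00010000000000000000000000) := T_41 (nat_lit 123) (nat_lit 107) (nat_lit 6) (nat_lit 4) (nat_lit 10) L110969 (by decide +kernel)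
theorem L110971 : W_41 (nat_lit 6) (nat_lit 0x320013000d0004000200000000000000000000000) (nat_lit 0x0) (nat_lit 0xc0006000100000000c000e00010000000000000000000000) := T_41 (nat_lit 174) (nat_lit 191) (nat_lit 6) (nat_lit 4) (nat_lit 11) L110970 (by decide +kernel)
theorem L110972 : W_41 (nat_lit 7) (nat_lit 0x32001300090004000200000000000000000000000) (nat_lit 0x0) (nat_lit 0xc0006000100000006c000e00010000000000000000000000) := T_41 (nat_lit 126) (nat_lit 125) (nat_lit 1) (nat_lit 8) (nat_lit 7) L110971 (by decide +kernel)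
theorem L110973 : W_41 (nat_lit 2) (nat_lit 0x40032001300090004000200000000000000000000000) (nat_lit 0x0) (nat_lit 0x8000800040000000000000000000000) := D_41 (nat_lit 107) (nat_lit 90) (nat_lit 123) (nat_lit 5) (nat_lit 5) (nat_lit 5) (nat_lit 6) (nat_lit 4) (nat_lit 10) (by decide +kernel)
theorem L110974 : W_41 (nat_lit 3) (nat_lit 0x32001300090004000200000000000000000000000) (nat_lit 0x0) (nat_lit 0x800040000000000008000800040000000000000000000000) := T_41 (nat_lit 174) (nat_lit 191) (nat_lit 6) (nat_lit 4) (nat_lit 11) L110973 (by decide +kernel)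
theorem L110975 : W_41 (nat_lit 2) (nat_lit 0x8000000330017800b4004200200000000000000000000000) (nat_lit 0x0) (nat_lit 0x8000100008000000000000000000000) := D_41 (nat_lit 104) (nat_lit 123) (nat_lit 87) (nat_lit 0) (nat_lit 6) (nat_lit 7) (nat_lit 4) (nat_lit 3) (nat_lit 9) (by decide +kernel)
theorem L110976 : W_41 (nat_lit 3) (nat_lit 0x8000000330017800b4004000200000000000000000000000) (nat_lit 0x0) (nat_lit 0x8000300018000000000000000000000) := T_41 (nat_lit 105) (nat_lit 88) (nat_lit 7) (nat_lit 3) (nat_lit 5) L110975 (by decide +kernel)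
theorem L110977 : W_41 (nat_lit 4) (nat_lit 0x8000000330017800b0004000200000000000000000000000) (nat_lit 0x0) (nat_lit 0xe000300018000000000000000000000) := T_41 (nat_lit 122) (nat_lit 121) (nat_lit 0) (nat_lit 6) (nat_lit 8) L110976 (by decide +kernel)
theorem L110978 : W_41 (nat_lit 5) (nat_lit 0x8000000320017800b0004000200000000000000000000000) (nat_lit 0x0) (nat_lit 0x180000000e000300018000000000000000000000) := T_41 (nat_lit 156) (nat_lit 155) (nat_lit 1) (nat_lit 6) (nat_lit 8) L110977 (by decide +kernel)
theorem L110979 : W_41 (nat_lit 6) (nat_lit 0x8000000320013800b0004000200000000000000000000000) (nat_lit 0x0) (nat_lit 0x980040000e000300018000000000000000000000) := T_41 (nat_lit 142) (nat_lit 159) (nat_lit 3) (nat_lit 3) (nat_lit 8) L110978 (by decide +kernel)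
theorem L110980 : W_41 (nat_lit 7) (nat_lit 0x8000000320013000b0004000200000000000000000000000) (nat_lit 0x0) (nat_lit 0x98004c000e000300018000000000000000000000) := T_41 (nat_lit 139) (nat_lit 138) (nat_lit 2) (nat_lit 2) (nat_lit 8) L110979 (by decide +kernel)
theorem L110981 : W_41 (nat_lit 8) (nat_lit 0x320013000b0004000200000000000000000000000) (nat_lit 0x0) (nat_lit 0x8000400098004c000e000300018000000000000000000000) := T_41 (nat_lit 191) (nat_lit 174) (nat_lit 6) (nat_lit 4) (nat_lit 11) L110980 (by decide +kernel)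
theorem L110982 : W_41 (nat_lit 9) (nat_lit 0x32001300090004000200000000000000000000000) (nat_lit 0x0) (nat_lit 0x8000400098004c006e000300018000000000000000000000) := T_41 (nat_lit 125) (nat_lit 126) (nat_lit 1) (nat_lit 8) (nat_lit 7) L110981 (by decide +kernel)
theorem L110983 : W_41 (nat_lit 2) (nat_lit 0x330017800b4004200240000000000000000000000) (nat_lit 0x0) (nat_lit 0x8000100008000000000000000000000) := D_41 (nat_lit 104) (nat_lit 123) (nat_lit 87) (nat_lit 0) (nat_lit 6) (nat_lit 7) (nat_lit 4) (nat_lit 3) (nat_lit 9) (by decide +kernel)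
theorem L110984 : W_41 (nat_lit 3) (nat_lit 0x330017800b4004000240000000000000000000000) (nat_lit 0x0) (nat_lit 0x8000300018000000000000000000000) := T_41 (nat_lit 105) (nat_lit 88) (nat_lit 7) (nat_lit 3) (nat_lit 5) L110983 (by decide +kernel)
theorem L110985 : W_41 (nat_lit 4) (nat_lit 0x330017800b0004000240000000000000000000000) (nat_lit 0x0) (nat_lit 0xe000300018000000000000000000000) := T_41 (nat_lit 122) (nat_lit 121) (nat_lit 0) (nat_lit 6) (nat_lit 8) L110984 (by decide +kernel)
theorem L110986 : W_41 (nat_lit 5) (nat_lit 0x320017800b0004000240000000000000000000000) (nat_lit 0x0) (nat_lit 0x180000000e000300018000000000000000000000) := T_41 (nat_lit 156) (nat_lit 155) (nat_lit 1) (nat_lit 6) (nat_lit 8) L110985 (by decide +kernel)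
theorem L110987 : W_41 (nat_lit 6) (nat_lit 0x320013800b0004000240000000000000000000000) (nat_lit 0x0) (nat_lit 0x980040000e000300018000000000000000000000) := T_41 (nat_lit 142) (nat_lit 159) (nat_lit 3) (nat_lit 3) (nat_lit 8) L110986 (by decide +kernel)
theorem L110988 : W_41 (nat_lit 7) (nat_lit 0x320013000b0004000240000000000000000000000) (nat_lit 0x0) (nat_lit 0x98004c000e000300018000000000000000000000) := T_41 (nat_lit 139) (nat_lit 138) (nat_lit 2) (nat_lit 2) (nat_lit 8) L110987 (by decide +kernel)
theorem L110989 : W_41 (nat_lit 8) (nat_lit 0x320013000b0004000200000000000000000000000) (nat_lit 0x0) (nat_lit 0x98004c000e000b00058000000000000000000000) := T_41 (nat_lit 90) (nat_lit 107) (nat_lit 5) (nat_lit 5) (nat_lit 5) L110988 (by decide +kernel)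
theorem L110990 : W_41 (nat_lit 9) (nat_lit 0x32001300090004000200000000000000000000000) (nat_lit 0x0) (nat_lit 0x98004c006e000b00058000000000000000000000) := T_41 (nat_lit 125) (nat_lit 126) (nat_lit 1) (nat_lit 8) (nat_lit 7) L110989 (by decide +kernel)
theorem L110991 : W_41 (nat_lit 2) (nat_lit 0x8000000330017800b4004a00200000000000000000000000) (nat_lit 0x0) (nat_lit 0x500020000000000000000000000) := D_41 (nat_lit 106) (nat_lit 89) (nat_lit 104) (nat_lit 6) (nat_lit 3) (nat_lit 9) (nat_lit 3) (nat_lit 2) (nat_lit 6) (by decide +kernel)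
theorem L110992 : W_41 (nat_lit 3) (nat_lit 0x8000000330017800b4004800200000000000000000000000) (nat_lit 0x0) (nat_lit 0x700030000000000000000000000) := T_41 (nat_lit 105) (nat_lit 88) (nat_lit 7) (nat_lit 3) (nat_lit 5) L110991 (by decide +kernel)
theorem L110993 : W_41 (nat_lit 4) (nat_lit 0x8000000330017800b0004800200000000000000000000000) (nat_lit 0x0) (nat_lit 0x6000700030000000000000000000000) := T_41 (nat_lit 122) (nat_lit 121) (nat_lit 0) (nat_lit 6) (nat_lit 8) L110992 (by decide +kernel)
theorem L110994 : W_41 (nat_lit 5) (nat_lit 0x8000000320017800b0004800200000000000000000000000) (nat_lit 0x0) (nat_lit 0x1800000006000700030000000000000000000000) := T_41 (nat_lit 156) (nat_lit 155) (nat_lit 1) (nat_lit 6) (nat_lit 8) L110993 (by decide +kernel)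
theorem L110995 : W_41 (nat_lit 6) (nat_lit 0x8000000320013800b0004800200000000000000000000000) (nat_lit 0x0) (nat_lit 0x9800400006000700030000000000000000000000) := T_41 (nat_lit 142) (nat_lit 159) (nat_lit 3) (nat_lit 3) (nat_lit 8) L110994 (by decide +kernel)
theorem L110996 : W_41 (nat_lit 7) (nat_lit 0x8000000320013800b0004000200000000000000000000000) (nat_lit 0x0) (nat_lit 0x9800400006000f00070000000000000000000000) := T_41 (nat_lit 107) (nat_lit 90) (nat_lit 5) (nat_lit 5) (nat_lit 5) L110995 (by decide +kernel)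
theorem L110997 : W_41 (nat_lit 8) (nat_lit 0x8000000320013000b0004000200000000000000000000000) (nat_lit 0x0) (nat_lit 0x98004c0006000f00070000000000000000000000) := T_41 (nat_lit 139) (nat_lit 138) (nat_lit 2) (nat_lit 2) (nat_lit 8) L110996 (by decide +kernel)
theorem L110998 : W_41 (nat_lit 9) (nat_lit 0x320013000b0004000200000000000000000000000) (nat_lit 0x0) (nat_lit 0x8000400098004c0006000f00070000000000000000000000) := T_41 (nat_lit 191) (nat_lit 174) (nat_lit 6) (nat_lit 4) (nat_lit 11) L110997 (by decide +kernel)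
theorem L110999 : W_41 (nat_lit 10) (nat_lit 0x32001300090004000200000000000000000000000) (nat_lit 0x0) (nat_lit 0x8000400098004c0066000f00070000000000000000000000) := T_41 (nat_lit 125) (nat_lit 126) (nat_lit 1) (nat_lit 8) (nat_lit 7) L110998 (by decide +kernel)
theorem L111000 : W_41 (nat_lit 11) (nat_lit 0x30001300090004000200000000000000000000000) (nat_lit 0x0) (nat_lit 0xc0006000b8004c006e000f00078000000000000000000000) := Q_41 (nat_lit 157) (C_41 L110966 (C_41 L110972 (C_41 L110974 (C_41 L110982 (C_41 L110990 (C_41 L110999 N_41)))))) (by decide +kernel)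
theorem L111001 : W_41 (nat_lit 2) (nat_lit 0x30001300080006800200000000000000000000000) (nat_lit 0x0) (nat_lit 0x100001000400000000000000000000000) := D_41 (nat_lit 108) (nat_lit 128) (nat_lit 94) (nat_lit 3) (nat_lit 5) (nat_lit 6) (nat_lit 2) (nat_lit 5) (nat_lit 6) (by decide +kernel)
theorem L111002 : W_41 (nat_lit 2) (nat_lit 0x1000180034001200098004000200000000000000000000000) (nat_lit 0x0) (nat_lit 0x400020001000000000000000000000000000) := D_41 (nat_lit 125) (nat_lit 108) (nat_lit 142) (nat_lit 6) (nat_lit 5) (nat_lit 10) (nat_lit 6) (nat_lit 5) (nat_lit 11) (by decide +kernel)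
theorem L111003 : W_41 (nat_lit 3) (nat_lit 0x180034001200098004000200000000000000000000000) (nat_lit 0x0) (nat_lit 0x1000000000000500020001000000000000000000000000000) := T_41 (nat_lit 192) (nat_lit 140) (nat_lit 4) (nat_lit 5) (nat_lit 11) L111002 (by decide +kernel)
theorem L111004 : W_41 (nat_lit 4) (nat_lit 0x80034001200098004000200000000000000000000000) (nat_lit 0x0) (nat_lit 0x3000100000000500020001000000000000000000000000000) := T_41 (nat_lit 176) (nat_lit 193) (nat_lit 7) (nat_lit 5) (nat_lit 7) L111003 (by decide +kernel)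
theorem L111005 : W_41 (nat_lit 5) (nat_lit 0x80034001200090004000200000000000000000000000) (nat_lit 0x0) (nat_lit 0x3000100000000500028001400000000000000000000000000) := T_41 (nat_lit 123) (nat_lit 106) (nat_lit 4) (nat_lit 5) (nat_lit 10) L111004 (by decide +kernel)
theorem L111006 : W_41 (nat_lit 2) (nat_lit 0x1c003600130009c004000200000000000000000000000) (nat_lit 0x0) (nat_lit 0x400003000000000000000000000000000000) := D_41 (nat_lit 121) (nat_lit 142) (nat_lit 120) (nat_lit 3) (nat_lit 2) (nat_lit 7) (nat_lit 3) (nat_lit 1) (nat_lit 7) (by decide +kernel)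
theorem L111007 : W_41 (nat_lit 3) (nat_lit 0x1c0036001300098004000200000000000000000000000) (nat_lit 0x0) (nat_lit 0x400007000200000000000000000000000000) := T_41 (nat_lit 122) (nat_lit 105) (nat_lit 4) (nat_lit 4) (nat_lit 10) L111006 (by decide +kernel)
theorem L111008 : W_41 (nat_lit 4) (nat_lit 0x1c0036001200098004000200000000000000000000000) (nat_lit 0x0) (nat_lit 0x1000000000000500007000200000000000000000000000000) := T_41 (nat_lit 140) (nat_lit 192) (nat_lit 7) (nat_lit 4) (nat_lit 7) L111007 (by decide +kernel)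
theorem L111009 : W_41 (nat_lit 5) (nat_lit 0x1c0034001200098004000200000000000000000000000) (nat_lit 0x0) (nat_lit 0x1000000002000500007000a00000000000000000000000000) := T_41 (nat_lit 157) (nat_lit 107) (nat_lit 5) (nat_lit 5) (nat_lit 6) L111008 (by decide +kernel)
theorem L111010 : W_41 (nat_lit 6) (nat_lit 0x180034001200098004000200000000000000000000000) (nat_lit 0x0) (nat_lit 0x1800040002000500007000a00000000000000000000000000) := T_41 (nat_lit 174) (nat_lit 191) (nat_lit 5) (nat_lit 5) (nat_lit 7) L111009 (by decide +kernel)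
theorem L111011 : W_41 (nat_lit 7) (nat_lit 0x180034001200090004000200000000000000000000000) (nat_lit 0x0) (nat_lit 0x180004000200050000f000e00000000000000000000000000) := T_41 (nat_lit 123) (nat_lit 106) (nat_lit 4) (nat_lit 5) (nat_lit 10) L111010 (by decide +kernel)
theorem L111012 : W_41 (nat_lit 8) (nat_lit 0x80034001200090004000200000000000000000000000) (nat_lit 0x0) (nat_lit 0x380014000200050000f000e00000000000000000000000000) := T_41 (nat_lit 176) (nat_lit 193) (nat_lit 7) (nat_lit 5) (nat_lit 7) L111011 (by decide +kernel)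
theorem L111013 : W_41 (nat_lit 2) (nat_lit 0x800340012000f8004000200000000000000000000000) (nat_lit 0x0) (nat_lit 0x1000000000000400100000000000000000000000000000000) := D_41 (nat_lit 142) (nat_lit 128) (nat_lit 192) (nat_lit 1) (nat_lit 9) (nat_lit 7) (nat_lit 6) (nat_lit 5) (nat_lit 11) (by decide +kernel)
theorem L111014 : W_41 (nat_lit 3) (nat_lit 0x800340012000b8004000200000000000000000000000) (nat_lit 0x0) (nat_lit 0x1000000000000400140002000000000000000000000000000) := T_41 (nat_lit 126) (nat_lit 109) (nat_lit 2) (nat_lit 4) (nat_lit 7) L111013 (by decide +kernel)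
theorem L111015 : W_41 (nat_lit 4) (nat_lit 0x800340012000b0004000200000000000000000000000) (nat_lit 0x0) (nat_lit 0x1000000000000400148002400000000000000000000000000) := T_41 (nat_lit 123) (nat_lit 106) (nat_lit 4) (nat_lit 5) (nat_lit 10) L111014 (by decide +kernel)
theorem L111016 : W_41 (nat_lit 5) (nat_lit 0x80034001200090004000200000000000000000000000) (nat_lit 0x0) (nat_lit 0x1000000000000400168003400000000000000000000000000) := T_41 (nat_lit 125) (nat_lit 108) (nat_lit 6) (nat_lit 5) (nat_lit 10) L111015 (by decide +kernel)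
theorem L111017 : W_41 (nat_lit 2) (nat_lit 0xc0034001200090004800200000000000000000000000) (nat_lit 0x0) (nat_lit 0x8000400020000000000000000000000) := D_41 (nat_lit 106) (nat_lit 89) (nat_lit 123) (nat_lit 4) (nat_lit 5) (nat_lit 9) (nat_lit 4) (nat_lit 5) (nat_lit 10) (by decide +kernel)
theorem L111018 : W_41 (nat_lit 3) (nat_lit 0xc0034001200090004000200000000000000000000000) (nat_lit 0x0) (nat_lit 0x2000000008000c00020000000000000000000000) := T_41 (nat_lit 107) (nat_lit 157) (nat_lit 5) (nat_lit 5) (nat_lit 6) L111017 (by decide +kernel)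
theorem L111019 : W_41 (nat_lit 4) (nat_lit 0xc0034001200080004000200000000000000000000000) (nat_lit 0x0) (nat_lit 0x800000002000000018000c00020000000000000000000000) := T_41 (nat_lit 124) (nat_lit 191) (nat_lit 5) (nat_lit 5) (nat_lit 7) L111018 (by decide +kernel)
theorem L111020 : W_41 (nat_lit 5) (nat_lit 0x80034001200080004000200000000000000000000000) (nat_lit 0x0) (nat_lit 0x80004000a000000018000c00020000000000000000000000) := T_41 (nat_lit 174) (nat_lit 159) (nat_lit 1) (nat_lit 8) (nat_lit 9) L111019 (by decide +kernel)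
theorem L111021 : W_41 (nat_lit 2) (nat_lit 0x34001200080004000200010000000000000000000) (nat_lit 0x0) (nat_lit 0x400020001000000000000000) := D_41 (nat_lit 77) (nat_lit 94) (nat_lit 60) (nat_lit 6) (nat_lit 8) (nat_lit 8) (nat_lit 6) (nat_lit 8) (nat_lit 7) (by decide +kernel)
theorem L111022 : W_41 (nat_lit 2) (nat_lit 0x1000000004003e001200080006800200010001c00000000000000) (nat_lit 0x0) (nat_lit 0x100001000400000000000000000000000) := D_41 (nat_lit 108) (nat_lit 128) (nat_lit 94) (nat_lit 3) (nat_lit 5) (nat_lit 6) (nat_lit 2) (nat_lit 5) (nat_lit 6) (by decide +kernel)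
theorem L111023 : W_41 (nat_lit 3) (nat_lit 0x1000000004003e001200080004800200010001c00000000000000) (nat_lit 0x0) (nat_lit 0x140003000400000000000000000000000) := T_41 (nat_lit 109) (nat_lit 126) (nat_lit 5) (nat_lit 8) (nat_lit 3) L111022 (by decide +kernel)
theorem L111024 : W_41 (nat_lit 4) (nat_lit 0x1000000004003e001200080004000200010001c00000000000000) (nat_lit 0x0) (nat_lit 0x150003800400000000000000000000000) := T_41 (nat_lit 107) (nat_lit 124) (nat_lit 5) (nat_lit 5) (nat_lit 6) L111023 (by decide +kernel)
theorem L111025 : W_41 (nat_lit 5) (nat_lit 0x4003e001200080004000200010001c00000000000000) (nat_lit 0x0) (nat_lit 0x10000800000000000000150003800400000000000000000000000) := T_41 (nat_lit 208) (nat_lit 191) (nat_lit 6) (nat_lit 4) (nat_lit 12) L111024 (by decide +kernel)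
theorem L111026 : W_41 (nat_lit 6) (nat_lit 0x4003e001200080004000200010000c00000000000000) (nat_lit 0x0) (nat_lit 0x10000800000000000000150003800400000001000080000000000) := T_41 (nat_lit 60) (nat_lit 43) (nat_lit 6) (nat_lit 8) (nat_lit 6) L111025 (by decide +kernel)
theorem L111027 : W_41 (nat_lit 7) (nat_lit 0x4003c001200080004000200010000c00000000000000) (nat_lit 0x0) (nat_lit 0x10000800020002000000150003800400000001000080000000000) := T_41 (nat_lit 157) (nat_lit 173) (nat_lit 1) (nat_lit 7) (nat_lit 9) L111026 (by decide +kernel)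
theorem L111028 : W_41 (nat_lit 8) (nat_lit 0x4003c001200080004000200010000400000000000000) (nat_lit 0x0) (nat_lit 0x100008000200020000001500038004000000018000a0000000000) := T_41 (nat_lit 59) (nat_lit 41) (nat_lit 4) (nat_lit 8) (nat_lit 6) L111027 (by decide +kernel)
theorem L111029 : W_41 (nat_lit 9) (nat_lit 0x3c001200080004000200010000400000000000000) (nat_lit 0x0) (nat_lit 0x100008000e00020000001500038004000000018000a0000000000) := T_41 (nat_lit 174) (nat_lit 175) (nat_lit 1) (nat_lit 8) (nat_lit 9) L111028 (by decide +kernel)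
theorem L111030 : W_41 (nat_lit 10) (nat_lit 0x3c001200080004000200010000000000000000000) (nat_lit 0x0) (nat_lit 0x100008000e0002000000150003800400008001c000a0000000000) := T_41 (nat_lit 58) (nat_lit 75) (nat_lit 4) (nat_lit 8) (nat_lit 7) L111029 (by decide +kernel)
theorem L111031 : W_41 (nat_lit 11) (nat_lit 0x34001200080004000200010000000000000000000) (nat_lit 0x0) (nat_lit 0x100008000e000a000100150003800400008001c000a0000000000) := T_41 (nat_lit 159) (nat_lit 140) (nat_lit 0) (nat_lit 8) (nat_lit 9) L111030 (by decide +kernel)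
theorem L111032 : W_41 (nat_lit 2) (nat_lit 0x8003c001200090006801600010000c00000000000000) (nat_lit 0x0) (nat_lit 0x8000400020000000000000000000000) := D_41 (nat_lit 106) (nat_lit 89) (nat_lit 123) (nat_lit 4) (nat_lit 5) (nat_lit 9) (nat_lit 4) (nat_lit 5) (nat_lit 10) (by decide +kernel)
theorem L111033 : W_41 (nat_lit 3) (nat_lit 0x8003c001200080006801600010000c00000000000000) (nat_lit 0x0) (nat_lit 0x100000000000018000400020000000000000000000000) := T_41 (nat_lit 124) (nat_lit 176) (nat_lit 7) (nat_lit 5) (nat_lit 6) L111032 (by decide +kernel)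
theorem L111034 : W_41 (nat_lit 4) (nat_lit 0x8003c001200080006800600010000c00000000000000) (nat_lit 0x0) (nat_lit 0x100000000000018000401820000000000000000000000) := T_41 (nat_lit 96) (nat_lit 95) (nat_lit 1) (nat_lit 11) (nat_lit 5) L111033 (by decide +kernel)
theorem L111035 : W_41 (nat_lit 5) (nat_lit 0x8003c001200080006000600010000c00000000000000) (nat_lit 0x0) (nat_lit 0x100000000000018001c01820000000000000000000000) := T_41 (nat_lit 107) (nat_lit 108) (nat_lit 2) (nat_lit 5) (nat_lit 6) L111034 (by decide +kernel)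
theorem L111036 : W_41 (nat_lit 6) (nat_lit 0x8003c001200080004000600010000c00000000000000) (nat_lit 0x0) (nat_lit 0x100000000000058003c01820000000000000000000000) := T_41 (nat_lit 109) (nat_lit 126) (nat_lit 5) (nat_lit 8) (nat_lit 3) L111035 (by decide +kernel)
theorem L111037 : W_41 (nat_lit 7) (nat_lit 0x8003c001200080004000600010000400000000000000) (nat_lit 0x0) (nat_lit 0x100000000000058003c01820000000800020000000000) := T_41 (nat_lit 59) (nat_lit 41) (nat_lit 4) (nat_lit 8) (nat_lit 6) L111036 (by decide +kernel)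
theorem L111038 : W_41 (nat_lit 8) (nat_lit 0x8003c001200080004000600010000000000000000000) (nat_lit 0x0) (nat_lit 0x100000000000058003c01820008000c00020000000000) := T_41 (nat_lit 58) (nat_lit 75) (nat_lit 4) (nat_lit 8) (nat_lit 7) L111037 (by decide +kernel)
theorem L111039 : W_41 (nat_lit 9) (nat_lit 0x3c001200080004000600010000000000000000000) (nat_lit 0x0) (nat_lit 0x1c0000000000058003c01820008000c00020000000000) := T_41 (nat_lit 175) (nat_lit 174) (nat_lit 1) (nat_lit 8) (nat_lit 9) L111038 (by decide +kernel)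
theorem L111040 : W_41 (nat_lit 10) (nat_lit 0x3c001200080004000200010000000000000000000) (nat_lit 0x0) (nat_lit 0x1c0000000000058003c01c20028000c00020000000000) := T_41 (nat_lit 94) (nat_lit 77) (nat_lit 6) (nat_lit 8) (nat_lit 8) L111039 (by decide +kernel)
theorem L111041 : W_41 (nat_lit 11) (nat_lit 0x34001200080004000200010000000000000000000) (nat_lit 0x0) (nat_lit 0x1c0008000100058003c01c20028000c00020000000000) := T_41 (nat_lit 159) (nat_lit 140) (nat_lit 0) (nat_lit 8) (nat_lit 9) L111040 (by decide +kernel)
theorem L111042 : W_41 (nat_lit 2) (nat_lit 0x34001200080004000200010001400000000000000) (nat_lit 0x0) (nat_lit 0x8000a0000000000) := D_41 (nat_lit 59) (nat_lit 41) (nat_lit 43) (nat_lit 4) (nat_lit 8) (nat_lit 6) (nat_lit 6) (nat_lit 8) (nat_lit 6) (by decide +kernel)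
theorem L111043 : W_41 (nat_lit 3) (nat_lit 0x34001200080004000200010000400000000000000) (nat_lit 0x0) (nat_lit 0x200018000a0000000000) := T_41 (nat_lit 60) (nat_lit 77) (nat_lit 6) (nat_lit 8) (nat_lit 7) L111042 (by decide +kernel)
theorem L111044 : W_41 (nat_lit 4) (nat_lit 0x34001200080004000200010000000000000000000) (nat_lit 0x0) (nat_lit 0x28001c000a0000000000) := T_41 (nat_lit 58) (nat_lit 75) (nat_lit 4) (nat_lit 8) (nat_lit 7) L111043 (by decide +kernel)
theorem L111045 : W_41 (nat_lit 12) (nat_lit 0x34001200080004000200000000000000000000000) (nat_lit 0x0) (nat_lit 0x100008001e000a000100158003c01c20038001c000a0000000000) := Q_41 (nat_lit 76) (C_41 L111021 (C_41 L111031 (C_41 L111041 (C_41 L111044 N_41)))) (by decide +kernel)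
theorem L111046 : W_41 (nat_lit 2) (nat_lit 0x800340012000d0004c00200000000000000000000000) (nat_lit 0x0) (nat_lit 0x800040002000000000000000000000000000000000000000) := D_41 (nat_lit 174) (nat_lit 157) (nat_lit 191) (nat_lit 5) (nat_lit 5) (nat_lit 6) (nat_lit 5) (nat_lit 5) (nat_lit 7) (by decide +kernel)
theorem L111047 : W_41 (nat_lit 3) (nat_lit 0x340012000d0004c00200000000000000000000000) (nat_lit 0x0) (nat_lit 0x8000c0002000000008000000000000000000000000000000) := T_41 (nat_lit 175) (nat_lit 123) (nat_lit 4) (nat_lit 5) (nat_lit 10) L111046 (by decide +kernel)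
theorem L111048 : W_41 (nat_lit 4) (nat_lit 0x34001200090004c00200000000000000000000000) (nat_lit 0x0) (nat_lit 0x8000c0002000000068000000000000000000000000000000) := T_41 (nat_lit 126) (nat_lit 125) (nat_lit 0) (nat_lit 8) (nat_lit 7) L111047 (by decide +kernel)
theorem L111049 : W_41 (nat_lit 5) (nat_lit 0x34001200090004800200000000000000000000000) (nat_lit 0x0) (nat_lit 0x8000c0002000000068000400020000000000000000000000) := T_41 (nat_lit 106) (nat_lit 89) (nat_lit 4) (nat_lit 5) (nat_lit 9) L111048 (by decide +kernel)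
theorem L111050 : W_41 (nat_lit 2) (nat_lit 0x36001200090004800240000000000000000000000) (nat_lit 0x0) (nat_lit 0x400020001000000000000000000) := D_41 (nat_lit 89) (nat_lit 72) (nat_lit 106) (nat_lit 4) (nat_lit 5) (nat_lit 8) (nat_lit 4) (nat_lit 5) (nat_lit 9) (by decide +kernel)
theorem L111051 : W_41 (nat_lit 3) (nat_lit 0x36001200090004800200000000000000000000000) (nat_lit 0x0) (nat_lit 0x100000000400060001000000000000000000) := T_41 (nat_lit 90) (nat_lit 140) (nat_lit 5) (nat_lit 5) (nat_lit 5) L111050 (by decide +kernel)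
theorem L111052 : W_41 (nat_lit 4) (nat_lit 0x34001200090004800200000000000000000000000) (nat_lit 0x0) (nat_lit 0x40002000100000000400060001000000000000000000) := T_41 (nat_lit 157) (nat_lit 174) (nat_lit 5) (nat_lit 5) (nat_lit 6) L111051 (by decide +kernel)
theorem L111053 : W_41 (nat_lit 2) (nat_lit 0x34001200090005800200000000000000000000000) (nat_lit 0x0) (nat_lit 0x108002000000000000000000000000000) := D_41 (nat_lit 109) (nat_lit 128) (nat_lit 123) (nat_lit 3) (nat_lit 5) (nat_lit 6) (nat_lit 1) (nat_lit 8) (nat_lit 6) (by decide +kernel)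
theorem L111054 : W_41 (nat_lit 3) (nat_lit 0x34001200090004800200000000000000000000000) (nat_lit 0x0) (nat_lit 0x108003000080000000000000000000000) := T_41 (nat_lit 108) (nat_lit 91) (nat_lit 6) (nat_lit 5) (nat_lit 9) L111053 (by decide +kernel)
theorem L111055 : W_41 (nat_lit 6) (nat_lit 0x34001200090004000200000000000000000000000) (nat_lit 0x0) (nat_lit 0x8000c0002000100168003c000e0001000000000000000000) := Q_41 (nat_lit 107) (C_41 L111049 (C_41 L111052 (C_41 L111054 N_41))) (by decide +kernel)
theorem L111056 : W_41 (nat_lit 2) (nat_lit 0x8003c001200090004000200000000000000000000000) (nat_lit 0x0) (nat_lit 0x2000100000000000000000800000000000000000000000000) := D_41 (nat_lit 176) (nat_lit 107) (nat_lit 193) (nat_lit 7) (nat_lit 5) (nat_lit 6) (nat_lit 7) (nat_lit 5) (nat_lit 7) (by decide +kernel)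
theorem L111057 : W_41 (nat_lit 3) (nat_lit 0x3c001200090004000200000000000000000000000) (nat_lit 0x0) (nat_lit 0x20001c0000000000000000800000000000000000000000000) := T_41 (nat_lit 175) (nat_lit 174) (nat_lit 1) (nat_lit 8) (nat_lit 9) L111056 (by decide +kernel)
theorem L111058 : W_41 (nat_lit 4) (nat_lit 0x34001200090004000200000000000000000000000) (nat_lit 0x0) (nat_lit 0x20001c0008000100000000800000000000000000000000000) := T_41 (nat_lit 159) (nat_lit 140) (nat_lit 0) (nat_lit 8) (nat_lit 9) L111057 (by decide +kernel)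
theorem L111059 : W_41 (nat_lit 2) (nat_lit 0x100008003c0012000b8004000200000000000000000000000) (nat_lit 0x0) (nat_lit 0x40002000100000000000000000000000000000000000000000000) := D_41 (nat_lit 193) (nat_lit 176) (nat_lit 210) (nat_lit 7) (nat_lit 5) (nat_lit 7) (nat_lit 7) (nat_lit 5) (nat_lit 8) (by decide +kernel)
theorem L111060 : W_41 (nat_lit 3) (nat_lit 0x8003c0012000b8004000200000000000000000000000) (nat_lit 0x0) (nat_lit 0x40003000100000000400000000000000000000000000000000000) := T_41 (nat_lit 192) (nat_lit 142) (nat_lit 6) (nat_lit 5) (nat_lit 11) L111059 (by decide +kernel)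
theorem L111061 : W_41 (nat_lit 4) (nat_lit 0x8003c001200098004000200000000000000000000000) (nat_lit 0x0) (nat_lit 0x40003000100000000400020001000000000000000000000000000) := T_41 (nat_lit 125) (nat_lit 108) (nat_lit 6) (nat_lit 5) (nat_lit 10) L111060 (by decide +kernel)
theorem L111062 : W_41 (nat_lit 5) (nat_lit 0x8003c001200090004000200000000000000000000000) (nat_lit 0x0) (nat_lit 0x40003000100000000400028001400000000000000000000000000) := T_41 (nat_lit 123) (nat_lit 106) (nat_lit 4) (nat_lit 5) (nat_lit 10) L111061 (by decide +kernel)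
theorem L111063 : W_41 (nat_lit 6) (nat_lit 0x3c001200090004000200000000000000000000000) (nat_lit 0x0) (nat_lit 0x400030001c0000000400028001400000000000000000000000000) := T_41 (nat_lit 175) (nat_lit 174) (nat_lit 1) (nat_lit 8) (nat_lit 9) L111062 (by decide +kernel)
theorem L111064 : W_41 (nat_lit 7) (nat_lit 0x34001200090004000200000000000000000000000) (nat_lit 0x0) (nat_lit 0x400030001c0008000500028001400000000000000000000000000) := T_41 (nat_lit 159) (nat_lit 140) (nat_lit 0) (nat_lit 8) (nat_lit 9) L111063 (by decide +kernel)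
theorem L111065 : W_41 (nat_lit 2) (nat_lit 0x340012000d0004c00200000000000000000000000) (nat_lit 0x0) (nat_lit 0x3000080000000000000000000000) := D_41 (nat_lit 108) (nat_lit 91) (nat_lit 109) (nat_lit 6) (nat_lit 5) (nat_lit 9) (nat_lit 3) (nat_lit 4) (nat_lit 6) (by decide +kernel)
theorem L111066 : W_41 (nat_lit 3) (nat_lit 0x34001200090004c00200000000000000000000000) (nat_lit 0x0) (nat_lit 0x60003000080000000000000000000000) := T_41 (nat_lit 126) (nat_lit 125) (nat_lit 0) (nat_lit 8) (nat_lit 7) L111065 (by decide +kernel)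
theorem L111067 : W_41 (nat_lit 4) (nat_lit 0x34001200090004800200000000000000000000000) (nat_lit 0x0) (nat_lit 0x600034000a0000000000000000000000) := T_41 (nat_lit 106) (nat_lit 89) (nat_lit 4) (nat_lit 5) (nat_lit 9) L111066 (by decide +kernel)
theorem L111068 : W_41 (nat_lit 6) (nat_lit 0x34001200090004000200000000000000000000000) (nat_lit 0x0) (nat_lit 0x8000c0002000000168003c000a0000000000000000000000) := Q_41 (nat_lit 107) (C_41 L111049 (C_41 L111054 (C_41 L111067 N_41))) (by decide +kernel)
theorem L111069 : W_41 (nat_lit 2) (nat_lit 0x3c001200090004800240000000000000000000000) (nat_lit 0x0) (nat_lit 0x1000080004000000000000000000) := D_41 (nat_lit 91) (nat_lit 74) (nat_lit 108) (nat_lit 6) (nat_lit 5) (nat_lit 8) (nat_lit 6) (nat_lit 5) (nat_lit 9) (by decide +kernel)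
theorem L111070 : W_41 (nat_lit 3) (nat_lit 0x3c001200090004800200000000000000000000000) (nat_lit 0x0) (nat_lit 0x4000000010000c0004000000000000000000) := T_41 (nat_lit 90) (nat_lit 142) (nat_lit 7) (nat_lit 5) (nat_lit 5) L111069 (by decide +kernel)
theorem L111071 : W_41 (nat_lit 4) (nat_lit 0x3c001200090004000200000000000000000000000) (nat_lit 0x0) (nat_lit 0x1000000004000000018000c0004000000000000000000) := T_41 (nat_lit 107) (nat_lit 176) (nat_lit 7) (nat_lit 5) (nat_lit 6) L111070 (by decide +kernel)
theorem L111072 : W_41 (nat_lit 5) (nat_lit 0x34001200090004000200000000000000000000000) (nat_lit 0x0) (nat_lit 0x1000080005000000018000c0004000000000000000000) := T_41 (nat_lit 159) (nat_lit 140) (nat_lit 0) (nat_lit 8) (nat_lit 9) L111071 (by decide +kernel)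
theorem L111073 : W_41 (nat_lit 8) (nat_lit 0x30001200090004000200000000000000000000000) (nat_lit 0x0) (nat_lit 0x400038001c000e000500168003c000e0005000000000000000000) := Q_41 (nat_lit 158) (C_41 L111055 (C_41 L111058 (C_41 L111064 (C_41 L111068 (C_41 L111072 N_41))))) (by decide +kernel)
theorem L111074 : W_41 (nat_lit 2) (nat_lit 0x1c00340012000b0004800600000000000000000000000) (nat_lit 0x0) (nat_lit 0x8000400020000000000000000000000) := D_41 (nat_lit 106) (nat_lit 89) (nat_lit 123) (nat_lit 4) (nat_lit 5) (nat_lit 9) (nat_lit 4) (nat_lit 5) (nat_lit 10) (by decide +kernel)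
theorem L111075 : W_41 (nat_lit 3) (nat_lit 0x1c00340012000b0004000600000000000000000000000) (nat_lit 0x0) (nat_lit 0x2000000008000c00020000000000000000000000) := T_41 (nat_lit 107) (nat_lit 157) (nat_lit 5) (nat_lit 5) (nat_lit 6) L111074 (by decide +kernel)
theorem L111076 : W_41 (nat_lit 4) (nat_lit 0x1800340012000b0004000600000000000000000000000) (nat_lit 0x0) (nat_lit 0x800040002000000008000c00020000000000000000000000) := T_41 (nat_lit 174) (nat_lit 191) (nat_lit 5) (nat_lit 5) (nat_lit 7) L111075 (by decide +kernel)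
theorem L111077 : W_41 (nat_lit 5) (nat_lit 0x800340012000b0004000600000000000000000000000) (nat_lit 0x0) (nat_lit 0x2800140002000000008000c00020000000000000000000000) := T_41 (nat_lit 176) (nat_lit 193) (nat_lit 7) (nat_lit 5) (nat_lit 7) L111076 (by decide +kernel)
theorem L111078 : W_41 (nat_lit 6) (nat_lit 0x80034001200090004000600000000000000000000000) (nat_lit 0x0) (nat_lit 0x2800140002000000028001c00020000000000000000000000) := T_41 (nat_lit 125) (nat_lit 108) (nat_lit 6) (nat_lit 5) (nat_lit 10) L111077 (by decide +kernel)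
theorem L111079 : W_41 (nat_lit 7) (nat_lit 0x80034001200090004000200000000000000000000000) (nat_lit 0x0) (nat_lit 0x2800140002000000028001c00420020000000000000000000) := T_41 (nat_lit 94) (nat_lit 77) (nat_lit 6) (nat_lit 8) (nat_lit 8) L111078 (by decide +kernel)
theorem L111080 : W_41 (nat_lit 2) (nat_lit 0x10001800340012000b0004000600000000000000000000000) (nat_lit 0x0) (nat_lit 0x10000800040000000000000000000000000000000000000000000) := D_41 (nat_lit 191) (nat_lit 208) (nat_lit 174) (nat_lit 5) (nat_lit 5) (nat_lit 8) (nat_lit 5) (nat_lit 5) (nat_lit 7) (by decide +kernel)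
theorem L111081 : W_41 (nat_lit 3) (nat_lit 0x1800340012000b0004000600000000000000000000000) (nat_lit 0x0) (nat_lit 0x10001800040000000400000000000000000000000000000000000) := T_41 (nat_lit 192) (nat_lit 142) (nat_lit 6) (nat_lit 5) (nat_lit 11) L111080 (by decide +kernel)
theorem L111082 : W_41 (nat_lit 4) (nat_lit 0x800340012000b0004000600000000000000000000000) (nat_lit 0x0) (nat_lit 0x10003800140000000400000000000000000000000000000000000) := T_41 (nat_lit 176) (nat_lit 193) (nat_lit 7) (nat_lit 5) (nat_lit 7) L111081 (by decide +kernel)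
theorem L111083 : W_41 (nat_lit 5) (nat_lit 0x80034001200090004000600000000000000000000000) (nat_lit 0x0) (nat_lit 0x10003800140000000400020001000000000000000000000000000) := T_41 (nat_lit 125) (nat_lit 108) (nat_lit 6) (nat_lit 5) (nat_lit 10) L111082 (by decide +kernel)
theorem L111084 : W_41 (nat_lit 6) (nat_lit 0x80034001200090004000200000000000000000000000) (nat_lit 0x0) (nat_lit 0x10003800140000000400020001000400020000000000000000000) := T_41 (nat_lit 94) (nat_lit 77) (nat_lit 6) (nat_lit 8) (nat_lit 8) L111083 (by decide +kernel)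
theorem L111085 : W_41 (nat_lit 4) (nat_lit 0x80034001200090004000200000000000000000000000) (nat_lit 0x0) (nat_lit 0x800040002000000008000c00020000000000000000000000) := T_41 (nat_lit 174) (nat_lit 191) (nat_lit 5) (nat_lit 5) (nat_lit 7) L111018 (by decide +kernel)
theorem L111086 : W_41 (nat_lit 9) (nat_lit 0x34001200090004000200000000000000000000000) (nat_lit 0x0) (nat_lit 0x100038001c000200050002f001e00420020000000000000000000) := Q_41 (nat_lit 175) (C_41 L111012 (C_41 L111005 (C_41 L111079 (C_41 L111084 (C_41 L111085 N_41))))) (by decide +kernel)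
theorem L111087 : W_41 (nat_lit 2) (nat_lit 0x5000100008003c0012000b8004000600000000000000000000000) (nat_lit 0x0) (nat_lit 0xa00020000000000000000000000000000000000000000000000000000) := D_41 (nat_lit 209) (nat_lit 225) (nat_lit 227) (nat_lit 5) (nat_lit 5) (nat_lit 9) (nat_lit 7) (nat_lit 5) (nat_lit 9) (by decide +kernel)
theorem L111088 : W_41 (nat_lit 3) (nat_lit 0x1000100008003c0012000b8004000600000000000000000000000) (nat_lit 0x0) (nat_lit 0xa00060002000000000000000000000000000000000000000000000000) := T_41 (nat_lit 210) (nat_lit 193) (nat_lit 7) (nat_lit 5) (nat_lit 8) L111087 (by decide +kernel)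
theorem L111089 : W_41 (nat_lit 4) (nat_lit 0x100008003c0012000b8004000600000000000000000000000) (nat_lit 0x0) (nat_lit 0xa00070002800000000000000000000000000000000000000000000000) := T_41 (nat_lit 208) (nat_lit 191) (nat_lit 5) (nat_lit 5) (nat_lit 8) L111088 (by decide +kernel)
theorem L111090 : W_41 (nat_lit 5) (nat_lit 0x8003c0012000b8004000600000000000000000000000) (nat_lit 0x0) (nat_lit 0xa00070003800000000000400000000000000000000000000000000000) := T_41 (nat_lit 192) (nat_lit 142) (nat_lit 6) (nat_lit 5) (nat_lit 11) L111089 (by decide +kernel)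
theorem L111091 : W_41 (nat_lit 6) (nat_lit 0x8003c001200098004000600000000000000000000000) (nat_lit 0x0) (nat_lit 0xa00070003800000000000400020001000000000000000000000000000) := T_41 (nat_lit 125) (nat_lit 108) (nat_lit 6) (nat_lit 5) (nat_lit 10) L111090 (by decide +kernel)
theorem L111092 : W_41 (nat_lit 7) (nat_lit 0x8003c001200090004000600000000000000000000000) (nat_lit 0x0) (nat_lit 0xa00070003800000000000400028001400000000000000000000000000) := T_41 (nat_lit 123) (nat_lit 106) (nat_lit 4) (nat_lit 5) (nat_lit 10) L111091 (by decide +kernel)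
theorem L111093 : W_41 (nat_lit 8) (nat_lit 0x3c001200090004000600000000000000000000000) (nat_lit 0x0) (nat_lit 0xa000700038000c0000000400028001400000000000000000000000000) := T_41 (nat_lit 175) (nat_lit 174) (nat_lit 1) (nat_lit 8) (nat_lit 9) L111092 (by decide +kernel)
theorem L111094 : W_41 (nat_lit 9) (nat_lit 0x34001200090004000600000000000000000000000) (nat_lit 0x0) (nat_lit 0xa000700038000c0008000500028001400000000000000000000000000) := T_41 (nat_lit 159) (nat_lit 140) (nat_lit 0) (nat_lit 8) (nat_lit 9) L111093 (by decide +kernel)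
theorem L111095 : W_41 (nat_lit 10) (nat_lit 0x34001200090004000200000000000000000000000) (nat_lit 0x0) (nat_lit 0xa000700038000c0008000500028001400400020000000000000000000) := T_41 (nat_lit 94) (nat_lit 77) (nat_lit 6) (nat_lit 8) (nat_lit 8) L111094 (by decide +kernel)
theorem L111096 : W_41 (nat_lit 2) (nat_lit 0x180034001200090004800600000000000000000000000) (nat_lit 0x0) (nat_lit 0x20001000080000000000000000000000) := D_41 (nat_lit 108) (nat_lit 91) (nat_lit 125) (nat_lit 6) (nat_lit 5) (nat_lit 9) (nat_lit 6) (nat_lit 5) (nat_lit 10) (by decide +kernel)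
theorem L111097 : W_41 (nat_lit 3) (nat_lit 0x180034001200090004000600000000000000000000000) (nat_lit 0x0) (nat_lit 0x8000000020001800080000000000000000000000) := T_41 (nat_lit 107) (nat_lit 159) (nat_lit 7) (nat_lit 5) (nat_lit 6) L111096 (by decide +kernel)
theorem L111098 : W_41 (nat_lit 4) (nat_lit 0x80034001200090004000600000000000000000000000) (nat_lit 0x0) (nat_lit 0x2000100008000000020001800080000000000000000000000) := T_41 (nat_lit 176) (nat_lit 193) (nat_lit 7) (nat_lit 5) (nat_lit 7) L111097 (by decide +kernel)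
theorem L111099 : W_41 (nat_lit 5) (nat_lit 0x80034001200090004000200000000000000000000000) (nat_lit 0x0) (nat_lit 0x2000100008000000020001800480020000000000000000000) := T_41 (nat_lit 94) (nat_lit 77) (nat_lit 6) (nat_lit 8) (nat_lit 8) L111098 (by decide +kernel)
theorem L111100 : W_41 (nat_lit 7) (nat_lit 0x34001200090004000200000000000000000000000) (nat_lit 0x0) (nat_lit 0x100038001c000a000400028001c004a0020000000000000000000) := Q_41 (nat_lit 175) (C_41 L111085 (C_41 L111084 (C_41 L111099 N_41))) (by decide +kernel)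
theorem L111101 : W_41 (nat_lit 11) (nat_lit 0x30001200090004000200000000000000000000000) (nat_lit 0x0) (nat_lit 0xa000700038001c000e00050002f001e004e0024000000000000000000) := Q_41 (nat_lit 158) (C_41 L111086 (C_41 L111058 (C_41 L111064 (C_41 L111095 (C_41 L111100 (C_41 L111072 N_41)))))) (by decide +kernel)
theorem L111102 : W_41 (nat_lit 2) (nat_lit 0x300016000f00048002000b0000d00000000000000) (nat_lit 0x0) (nat_lit 0x100008000000000000000040000000000000000000000) := D_41 (nat_lit 159) (nat_lit 176) (nat_lit 90) (nat_lit 4) (nat_lit 6) (nat_lit 10) (nat_lit 7) (nat_lit 5) (nat_lit 5) (by decide +kernel)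
theorem L111103 : W_41 (nat_lit 3) (nat_lit 0x300012000f00048002000b0000d00000000000000) (nat_lit 0x0) (nat_lit 0x100008000400100000000040000000000000000000000) := T_41 (nat_lit 142) (nat_lit 128) (nat_lit 1) (nat_lit 9) (nat_lit 7) L111102 (by decide +kernel)
theorem L111104 : W_41 (nat_lit 4) (nat_lit 0x300012000f00040002000b0000d00000000000000) (nat_lit 0x0) (nat_lit 0x100008000400100000c00040000000000000000000000) := T_41 (nat_lit 107) (nat_lit 106) (nat_lit 0) (nat_lit 8) (nat_lit 7) L111103 (by decide +kernel)
theorem L111105 : W_41 (nat_lit 5) (nat_lit 0x300012000d00040002000b0000d00000000000000) (nat_lit 0x0) (nat_lit 0x100008000500120000c00040000000000000000000000) := T_41 (nat_lit 125) (nat_lit 140) (nat_lit 1) (nat_lit 8) (nat_lit 7) L111104 (by decide +kernel)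
theorem L111106 : W_41 (nat_lit 6) (nat_lit 0x300012000d0004000200030000d00000000000000) (nat_lit 0x0) (nat_lit 0x100008000500120000c000400c0000000000000000000) := T_41 (nat_lit 79) (nat_lit 78) (nat_lit 0) (nat_lit 11) (nat_lit 4) L111105 (by decide +kernel)
theorem L111107 : W_41 (nat_lit 7) (nat_lit 0x30001200090004000200030000d00000000000000) (nat_lit 0x0) (nat_lit 0x100008000500160002c000400c0000000000000000000) := T_41 (nat_lit 126) (nat_lit 109) (nat_lit 5) (nat_lit 8) (nat_lit 3) L111106 (by decide +kernel)
theorem L111108 : W_41 (nat_lit 8) (nat_lit 0x30001200090004000200030000c00000000000000) (nat_lit 0x0) (nat_lit 0x100008000500160002c000400c0000300000000000000) := T_41 (nat_lit 56) (nat_lit 57) (nat_lit 3) (nat_lit 5) (nat_lit 3) L111107 (by decide +kernel)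
theorem L111109 : W_41 (nat_lit 9) (nat_lit 0x30001200090004000200030000400000000000000) (nat_lit 0x0) (nat_lit 0x100008000500160002c000400c0000b00020000000000) := T_41 (nat_lit 59) (nat_lit 41) (nat_lit 4) (nat_lit 8) (nat_lit 6) L111108 (by decide +kernel)
theorem L111110 : W_41 (nat_lit 10) (nat_lit 0x30001200090004000200030000000000000000000) (nat_lit 0x0) (nat_lit 0x100008000500160002c000400c8000f00020000000000) := T_41 (nat_lit 58) (nat_lit 75) (nat_lit 4) (nat_lit 8) (nat_lit 7) L111109 (by decide +kernel)
theorem L111111 : W_41 (nat_lit 11) (nat_lit 0x30001200090004000200020000000000000000000) (nat_lit 0x0) (nat_lit 0x100008000500160002c000400d8001f00020000000000) := T_41 (nat_lit 76) (nat_lit 60) (nat_lit 6) (nat_lit 8) (nat_lit 7) L111110 (by decide +kernel)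
theorem L111112 : W_41 (nat_lit 12) (nat_lit 0x30001200090004000200000000000000000000000) (nat_lit 0x0) (nat_lit 0x100008000500160002c004400f8001f00020000000000) := T_41 (nat_lit 77) (nat_lit 94) (nat_lit 6) (nat_lit 8) (nat_lit 8) L111111 (by decide +kernel)
theorem L111113 : W_41 (nat_lit 5) (nat_lit 0x34001200090004000200000000000000000000000) (nat_lit 0x0) (nat_lit 0x40002000100108003c000e0001000000000000000000) := Q_41 (nat_lit 107) (C_41 L111052 (C_41 L111054 N_41)) (by decide +kernel)
theorem L111114 : W_41 (nat_lit 2) (nat_lit 0x2000300008003c001200098004000600000000000000000000000) (nat_lit 0x0) (nat_lit 0x200010000800000000000000000000000000000000000000000000000) := D_41 (nat_lit 208) (nat_lit 225) (nat_lit 191) (nat_lit 5) (nat_lit 5) (nat_lit 9) (nat_lit 5) (nat_lit 5) (nat_lit 8) (by decide +kernel)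
theorem L111115 : W_41 (nat_lit 3) (nat_lit 0x300008003c001200098004000600000000000000000000000) (nat_lit 0x0) (nat_lit 0x200030000800000000000400000000000000000000000000000000000) := T_41 (nat_lit 209) (nat_lit 142) (nat_lit 6) (nat_lit 5) (nat_lit 12) L111114 (by decide +kernel)
theorem L111116 : W_41 (nat_lit 4) (nat_lit 0x200008003c001200098004000600000000000000000000000) (nat_lit 0x0) (nat_lit 0x200070001800000000000400000000000000000000000000000000000) := T_41 (nat_lit 192) (nat_lit 210) (nat_lit 7) (nat_lit 5) (nat_lit 8) L111115 (by decide +kernel)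
theorem L111117 : W_41 (nat_lit 5) (nat_lit 0x8003c001200098004000600000000000000000000000) (nat_lit 0x0) (nat_lit 0x200070003800100000000400000000000000000000000000000000000) := T_41 (nat_lit 193) (nat_lit 176) (nat_lit 7) (nat_lit 5) (nat_lit 7) L111116 (by decide +kernel)
theorem L111118 : W_41 (nat_lit 6) (nat_lit 0x8003c001200090004000600000000000000000000000) (nat_lit 0x0) (nat_lit 0x200070003800100000000400008000400000000000000000000000000) := T_41 (nat_lit 123) (nat_lit 106) (nat_lit 4) (nat_lit 5) (nat_lit 10) L111117 (by decide +kernel)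
theorem L111119 : W_41 (nat_lit 7) (nat_lit 0x3c001200090004000600000000000000000000000) (nat_lit 0x0) (nat_lit 0x2000700038001c0000000400008000400000000000000000000000000) := T_41 (nat_lit 175) (nat_lit 174) (nat_lit 1) (nat_lit 8) (nat_lit 9) L111118 (by decide +kernel)
theorem L111120 : W_41 (nat_lit 8) (nat_lit 0x34001200090004000600000000000000000000000) (nat_lit 0x0) (nat_lit 0x2000700038001c0008000500008000400000000000000000000000000) := T_41 (nat_lit 159) (nat_lit 140) (nat_lit 0) (nat_lit 8) (nat_lit 9) L111119 (by decide +kernel)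
theorem L111121 : W_41 (nat_lit 9) (nat_lit 0x34001200090004000200000000000000000000000) (nat_lit 0x0) (nat_lit 0x2000700038001c0008000500008000400400020000000000000000000) := T_41 (nat_lit 94) (nat_lit 77) (nat_lit 6) (nat_lit 8) (nat_lit 8) L111120 (by decide +kernel)
theorem L111122 : W_41 (nat_lit 2) (nat_lit 0x3c001200090004800600000000000000000000000) (nat_lit 0x0) (nat_lit 0xc0002000000000000000000000000000000000000000) := D_41 (nat_lit 174) (nat_lit 157) (nat_lit 175) (nat_lit 5) (nat_lit 5) (nat_lit 6) (nat_lit 1) (nat_lit 8) (nat_lit 9) (by decide +kernel)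
theorem L111123 : W_41 (nat_lit 3) (nat_lit 0x34001200090004800600000000000000000000000) (nat_lit 0x0) (nat_lit 0x1c000a000000000000000000000000000000000000000) := T_41 (nat_lit 159) (nat_lit 176) (nat_lit 7) (nat_lit 5) (nat_lit 6) L111122 (by decide +kernel)
theorem L111124 : W_41 (nat_lit 4) (nat_lit 0x34001200090004800200000000000000000000000) (nat_lit 0x0) (nat_lit 0x1c000a000000000000000400020000000000000000000) := T_41 (nat_lit 94) (nat_lit 77) (nat_lit 6) (nat_lit 8) (nat_lit 8) L111123 (by decide +kernel)
theorem L111125 : W_41 (nat_lit 5) (nat_lit 0x34001200090004000200000000000000000000000) (nat_lit 0x0) (nat_lit 0x1c000a000000108003800480020000000000000000000) := Q_41 (nat_lit 107) (C_41 L111124 (C_41 L111054 N_41)) (by decide +kernel)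
theorem L111126 : W_41 (nat_lit 10) (nat_lit 0x30001200090004000200000000000000000000000) (nat_lit 0x0) (nat_lit 0x2000700038001c000e000500108003c004e0025000000000000000000) := Q_41 (nat_lit 158) (C_41 L111113 (C_41 L111058 (C_41 L111121 (C_41 L111125 (C_41 L111072 N_41))))) (by decide +kernel)
theorem L111127 : W_41 (nat_lit 2) (nat_lit 0x300013000d0004000200030000800000000000000) (nat_lit 0x0) (nat_lit 0x8000400020000000000) := D_41 (nat_lit 58) (nat_lit 41) (nat_lit 75) (nat_lit 4) (nat_lit 8) (nat_lit 6) (nat_lit 4) (nat_lit 8) (nat_lit 7) (by decide +kernel)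
theorem L111128 : W_41 (nat_lit 3) (nat_lit 0x300013000d0004000200030000000000000000000) (nat_lit 0x0) (nat_lit 0x2000000008000c00020000000000) := T_41 (nat_lit 59) (nat_lit 109) (nat_lit 5) (nat_lit 8) (nat_lit 3) L111127 (by decide +kernel)
theorem L111129 : W_41 (nat_lit 4) (nat_lit 0x300013000d0004000200020000000000000000000) (nat_lit 0x0) (nat_lit 0x2000000018001c00020000000000) := T_41 (nat_lit 76) (nat_lit 60) (nat_lit 6) (nat_lit 8) (nat_lit 7) L111128 (by decide +kernel)
theorem L111130 : W_41 (nat_lit 5) (nat_lit 0x30001300090004000200020000000000000000000) (nat_lit 0x0) (nat_lit 0x60002000000018001c00020000000000) := T_41 (nat_lit 126) (nat_lit 125) (nat_lit 1) (nat_lit 8) (nat_lit 7) L111129 (by decide +kernel)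
theorem L111131 : W_41 (nat_lit 6) (nat_lit 0x30001300090004000200000000000000000000000) (nat_lit 0x0) (nat_lit 0x60002000400038001c00020000000000) := T_41 (nat_lit 77) (nat_lit 94) (nat_lit 6) (nat_lit 8) (nat_lit 8) L111130 (by decide +kernel)
theorem L111132 : W_41 (nat_lit 6) (nat_lit 0x34001200090004000200000000000000000000000) (nat_lit 0x0) (nat_lit 0x10000800080001c0068001400000000000000000000000000) := T_41 (nat_lit 140) (nat_lit 159) (nat_lit 0) (nat_lit 8) (nat_lit 9) L110950 (by decide +kernel)
theorem L111133 : W_41 (nat_lit 2) (nat_lit 0x18003c0016000b0004000600000000000000000000000) (nat_lit 0x0) (nat_lit 0x140002000000000000000000000000000) := D_41 (nat_lit 126) (nat_lit 128) (nat_lit 109) (nat_lit 1) (nat_lit 9) (nat_lit 7) (nat_lit 6) (nat_lit 6) (nat_lit 10) (by decide +kernel)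
theorem L111134 : W_41 (nat_lit 3) (nat_lit 0x18003c0012000b0004000600000000000000000000000) (nat_lit 0x0) (nat_lit 0x1000000000000400140002000000000000000000000000000) := T_41 (nat_lit 142) (nat_lit 192) (nat_lit 6) (nat_lit 5) (nat_lit 11) L111133 (by decide +kernel)
theorem L111135 : W_41 (nat_lit 4) (nat_lit 0x18003c001200090004000600000000000000000000000) (nat_lit 0x0) (nat_lit 0x1000000000000400160003000000000000000000000000000) := T_41 (nat_lit 125) (nat_lit 108) (nat_lit 6) (nat_lit 5) (nat_lit 10) L111134 (by decide +kernel)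
theorem L111136 : W_41 (nat_lit 5) (nat_lit 0x8003c001200090004000600000000000000000000000) (nat_lit 0x0) (nat_lit 0x3000100000000400160003000000000000000000000000000) := T_41 (nat_lit 176) (nat_lit 193) (nat_lit 7) (nat_lit 5) (nat_lit 7) L111135 (by decide +kernel)
theorem L111137 : W_41 (nat_lit 6) (nat_lit 0x3c001200090004000600000000000000000000000) (nat_lit 0x0) (nat_lit 0x30001c0000000400160003000000000000000000000000000) := T_41 (nat_lit 175) (nat_lit 174) (nat_lit 1) (nat_lit 8) (nat_lit 9) L111136 (by decide +kernel)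
theorem L111138 : W_41 (nat_lit 7) (nat_lit 0x34001200090004000600000000000000000000000) (nat_lit 0x0) (nat_lit 0x30001c0008000500160003000000000000000000000000000) := T_41 (nat_lit 159) (nat_lit 140) (nat_lit 0) (nat_lit 8) (nat_lit 9) L111137 (by decide +kernel)
theorem L111139 : W_41 (nat_lit 8) (nat_lit 0x34001200090004000200000000000000000000000) (nat_lit 0x0) (nat_lit 0x30001c0008000500160003000400020000000000000000000) := T_41 (nat_lit 94) (nat_lit 77) (nat_lit 6) (nat_lit 8) (nat_lit 8) L111138 (by decide +kernel)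
theorem L111140 : W_41 (nat_lit 2) (nat_lit 0x340016000f00040002000b0000d00000000000000) (nat_lit 0x0) (nat_lit 0x1000080000000000000001000000000000000000000000000) := D_41 (nat_lit 175) (nat_lit 108) (nat_lit 192) (nat_lit 6) (nat_lit 5) (nat_lit 10) (nat_lit 6) (nat_lit 5) (nat_lit 11) (by decide +kernel)
theorem L111141 : W_41 (nat_lit 3) (nat_lit 0x340012000f00040002000b0000d00000000000000) (nat_lit 0x0) (nat_lit 0x1000080000000400100001000000000000000000000000000) := T_41 (nat_lit 142) (nat_lit 128) (nat_lit 1) (nat_lit 9) (nat_lit 7) L111140 (by decide +kernel)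
theorem L111142 : W_41 (nat_lit 4) (nat_lit 0x340012000d00040002000b0000d00000000000000) (nat_lit 0x0) (nat_lit 0x1000080000000500120001000000000000000000000000000) := T_41 (nat_lit 125) (nat_lit 140) (nat_lit 1) (nat_lit 8) (nat_lit 7) L111141 (by decide +kernel)
theorem L111143 : W_41 (nat_lit 5) (nat_lit 0x340012000d0004000200030000d00000000000000) (nat_lit 0x0) (nat_lit 0x10000800000005001200010000000c0000000000000000000) := T_41 (nat_lit 79) (nat_lit 78) (nat_lit 0) (nat_lit 11) (nat_lit 4) L111142 (by decide +kernel)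
theorem L111144 : W_41 (nat_lit 6) (nat_lit 0x34001200090004000200030000d00000000000000) (nat_lit 0x0) (nat_lit 0x10000800000005001600030000000c0000000000000000000) := T_41 (nat_lit 126) (nat_lit 109) (nat_lit 5) (nat_lit 8) (nat_lit 3) L111143 (by decide +kernel)
theorem L111145 : W_41 (nat_lit 7) (nat_lit 0x34001200090004000200030000c00000000000000) (nat_lit 0x0) (nat_lit 0x10000800000005001600030000000c0000300000000000000) := T_41 (nat_lit 56) (nat_lit 57) (nat_lit 3) (nat_lit 5) (nat_lit 3) L111144 (by decide +kernel)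
theorem L111146 : W_41 (nat_lit 8) (nat_lit 0x34001200090004000200030000400000000000000) (nat_lit 0x0) (nat_lit 0x10000800000005001600030000000c0000b00020000000000) := T_41 (nat_lit 59) (nat_lit 41) (nat_lit 4) (nat_lit 8) (nat_lit 6) L111145 (by decide +kernel)
theorem L111147 : W_41 (nat_lit 9) (nat_lit 0x34001200090004000200030000000000000000000) (nat_lit 0x0) (nat_lit 0x10000800000005001600030000000c8000f00020000000000) := T_41 (nat_lit 58) (nat_lit 75) (nat_lit 4) (nat_lit 8) (nat_lit 7) L111146 (by decide +kernel)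
theorem L111148 : W_41 (nat_lit 10) (nat_lit 0x34001200090004000200020000000000000000000) (nat_lit 0x0) (nat_lit 0x10000800000005001600030000000d8001f00020000000000) := T_41 (nat_lit 76) (nat_lit 60) (nat_lit 6) (nat_lit 8) (nat_lit 7) L111147 (by decide +kernel)
theorem L111149 : W_41 (nat_lit 11) (nat_lit 0x34001200090004000200000000000000000000000) (nat_lit 0x0) (nat_lit 0x10000800000005001600030004000f8001f00020000000000) := T_41 (nat_lit 77) (nat_lit 94) (nat_lit 6) (nat_lit 8) (nat_lit 8) L111148 (by decide +kernel)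
theorem L111150 : W_41 (nat_lit 2) (nat_lit 0x80034001200090004000200000000000000000000000) (nat_lit 0x0) (nat_lit 0x800040008000000000000000000000000000000000000000) := D_41 (nat_lit 174) (nat_lit 159) (nat_lit 191) (nat_lit 1) (nat_lit 8) (nat_lit 9) (nat_lit 5) (nat_lit 5) (nat_lit 7) (by decide +kernel)
theorem L111151 : W_41 (nat_lit 7) (nat_lit 0x34001200090004000200000000000000000000000) (nat_lit 0x0) (nat_lit 0x100038001c0008000400168003400400020000000000000000000) := Q_41 (nat_lit 175) (C_41 L111084 (C_41 L111150 (C_41 L111016 N_41))) (by decide +kernel)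
theorem L111152 : W_41 (nat_lit 2) (nat_lit 0x340013000d0004000200030000400000000000000) (nat_lit 0x0) (nat_lit 0x2000000000000800020000000000) := D_41 (nat_lit 59) (nat_lit 41) (nat_lit 109) (nat_lit 4) (nat_lit 8) (nat_lit 6) (nat_lit 5) (nat_lit 8) (nat_lit 3) (by decide +kernel)
theorem L111153 : W_41 (nat_lit 3) (nat_lit 0x34001300090004000200030000400000000000000) (nat_lit 0x0) (nat_lit 0x60002000000000000800020000000000) := T_41 (nat_lit 126) (nat_lit 125) (nat_lit 1) (nat_lit 8) (nat_lit 7) L111152 (by decide +kernel)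
theorem L111154 : W_41 (nat_lit 4) (nat_lit 0x34001300090004000200030000000000000000000) (nat_lit 0x0) (nat_lit 0x60002000000008000c00020000000000) := T_41 (nat_lit 58) (nat_lit 75) (nat_lit 4) (nat_lit 8) (nat_lit 7) L111153 (by decide +kernel)
theorem L111155 : W_41 (nat_lit 5) (nat_lit 0x34001300090004000200020000000000000000000) (nat_lit 0x0) (nat_lit 0x60002000000018001c00020000000000) := T_41 (nat_lit 76) (nat_lit 60) (nat_lit 6) (nat_lit 8) (nat_lit 7) L111154 (by decide +kernel)
theorem L111156 : W_41 (nat_lit 6) (nat_lit 0x34001200090004000200020000000000000000000) (nat_lit 0x0) (nat_lit 0x8000100060002000000018001c00020000000000) := T_41 (nat_lit 140) (nat_lit 159) (nat_lit 0) (nat_lit 8) (nat_lit 9) L111155 (by decide +kernel)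
theorem L111157 : W_41 (nat_lit 7) (nat_lit 0x34001200090004000200000000000000000000000) (nat_lit 0x0) (nat_lit 0x8000100060002000400038001c00020000000000) := T_41 (nat_lit 77) (nat_lit 94) (nat_lit 6) (nat_lit 8) (nat_lit 8) L111156 (by decide +kernel)
theorem L111158 : W_41 (nat_lit 12) (nat_lit 0x30001200090004000200000000000000000000000) (nat_lit 0x0) (nat_lit 0x2000700038001c000c0005c01680034004000f8001f00020000000000) := Q_41 (nat_lit 158) (C_41 L111064 (C_41 L111121 (C_41 L111132 (C_41 L111139 (C_41 L111149 (C_41 L111151 (C_41 L111157 N_41))))))) (by decide +kernel)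
theorem L111159 : W_41 (nat_lit 2) (nat_lit 0x300012000f00058002000b0000d00000000000000) (nat_lit 0x0) (nat_lit 0x4000000000000000080004000000000000000000) := D_41 (nat_lit 91) (nat_lit 74) (nat_lit 158) (nat_lit 5) (nat_lit 6) (nat_lit 4) (nat_lit 6) (nat_lit 5) (nat_lit 9) (by decide +kernel)
theorem L111160 : W_41 (nat_lit 3) (nat_lit 0x300012000f00048002000b0000d00000000000000) (nat_lit 0x0) (nat_lit 0x4000000100001000080004000000000000000000) := T_41 (nat_lit 108) (nat_lit 128) (nat_lit 0) (nat_lit 9) (nat_lit 7) L111159 (by decide +kernel)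
theorem L111161 : W_41 (nat_lit 4) (nat_lit 0x300012000f00040002000b0000d00000000000000) (nat_lit 0x0) (nat_lit 0x4000000100001c00080004000000000000000000) := T_41 (nat_lit 107) (nat_lit 106) (nat_lit 0) (nat_lit 8) (nat_lit 7) L111160 (by decide +kernel)
theorem L111162 : W_41 (nat_lit 5) (nat_lit 0x300012000d00040002000b0000d00000000000000) (nat_lit 0x0) (nat_lit 0x4000100120001c00080004000000000000000000) := T_41 (nat_lit 125) (nat_lit 140) (nat_lit 1) (nat_lit 8) (nat_lit 7) L111161 (by decide +kernel)
theorem L111163 : W_41 (nat_lit 6) (nat_lit 0x300012000d0004000200030000d00000000000000) (nat_lit 0x0) (nat_lit 0x4000100120001c000800c4000000000000000000) := T_41 (nat_lit 79) (nat_lit 78) (nat_lit 0) (nat_lit 11) (nat_lit 4) L111162 (by decide +kernel)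
theorem L111164 : W_41 (nat_lit 7) (nat_lit 0x30001200090004000200030000d00000000000000) (nat_lit 0x0) (nat_lit 0x4000100160003c000800c4000000000000000000) := T_41 (nat_lit 126) (nat_lit 109) (nat_lit 5) (nat_lit 8) (nat_lit 3) L111163 (by decide +kernel)
theorem L111165 : W_41 (nat_lit 8) (nat_lit 0x30001200090004000200030000c00000000000000) (nat_lit 0x0) (nat_lit 0x4000100160003c000800c4000300000000000000) := T_41 (nat_lit 56) (nat_lit 57) (nat_lit 3) (nat_lit 5) (nat_lit 3) L111164 (by decide +kernel)
theorem L111166 : W_41 (nat_lit 9) (nat_lit 0x30001200090004000200030000400000000000000) (nat_lit 0x0) (nat_lit 0x4000100160003c000800c4000b00020000000000) := T_41 (nat_lit 59) (nat_lit 41) (nat_lit 4) (nat_lit 8) (nat_lit 6) L111165 (by decide +kernel)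
theorem L111167 : W_41 (nat_lit 10) (nat_lit 0x30001200090004000200030000000000000000000) (nat_lit 0x0) (nat_lit 0x4000100160003c000800cc000f00020000000000) := T_41 (nat_lit 58) (nat_lit 75) (nat_lit 4) (nat_lit 8) (nat_lit 7) L111166 (by decide +kernel)
theorem L111168 : W_41 (nat_lit 11) (nat_lit 0x30001200090004000200020000000000000000000) (nat_lit 0x0) (nat_lit 0x4000100160003c000800dc001f00020000000000) := T_41 (nat_lit 76) (nat_lit 60) (nat_lit 6) (nat_lit 8) (nat_lit 7) L111167 (by decide +kernel)
theorem L111169 : W_41 (nat_lit 12) (nat_lit 0x30001200090004000200000000000000000000000) (nat_lit 0x0) (nat_lit 0x4000100160003c004800fc001f00020000000000) := T_41 (nat_lit 77) (nat_lit 94) (nat_lit 6) (nat_lit 8) (nat_lit 8) L111168 (by decide +kernel)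
theorem L111170 : W_41 (nat_lit 2) (nat_lit 0x200000003800170009000400024003e000000000000000000) (nat_lit 0x0) (nat_lit 0x380000000000000) := D_41 (nat_lit 56) (nat_lit 55) (nat_lit 57) (nat_lit 0) (nat_lit 8) (nat_lit 4) (nat_lit 0) (nat_lit 9) (nat_lit 4) (by decide +kernel)
theorem L111171 : W_41 (nat_lit 3) (nat_lit 0x200000003800170009000400024003c000000000000000000) (nat_lit 0x0) (nat_lit 0x20002000380000000000000) := T_41 (nat_lit 73) (nat_lit 89) (nat_lit 1) (nat_lit 8) (nat_lit 4) L111170 (by decide +kernel)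
theorem L111172 : W_41 (nat_lit 4) (nat_lit 0x2000000038001700090004000240038000000000000000000) (nat_lit 0x0) (nat_lit 0xa0006000380000000000000) := T_41 (nat_lit 74) (nat_lit 91) (nat_lit 1) (nat_lit 9) (nat_lit 4) L111171 (by decide +kernel)
theorem L111173 : W_41 (nat_lit 5) (nat_lit 0x2000000038001700090004000200038000000000000000000) (nat_lit 0x0) (nat_lit 0x8000e0006000380000000000000) := T_41 (nat_lit 90) (nat_lit 107) (nat_lit 7) (nat_lit 5) (nat_lit 5) L111172 (by decide +kernel)
theorem L111174 : W_41 (nat_lit 6) (nat_lit 0x38001700090004000200038000000000000000000) (nat_lit 0x0) (nat_lit 0x20001000000000000000008000e0006000380000000000000) := T_41 (nat_lit 193) (nat_lit 176) (nat_lit 4) (nat_lit 6) (nat_lit 11) L111173 (by decide +kernel)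
theorem L111175 : W_41 (nat_lit 7) (nat_lit 0x38001300090004000200038000000000000000000) (nat_lit 0x0) (nat_lit 0x20001000000004800000008000e0006000380000000000000) := T_41 (nat_lit 142) (nat_lit 139) (nat_lit 3) (nat_lit 3) (nat_lit 8) L111174 (by decide +kernel)
theorem L111176 : W_41 (nat_lit 8) (nat_lit 0x38001300090004000200030000000000000000000) (nat_lit 0x0) (nat_lit 0x20001000000004800000008000e000e000780000000000000) := T_41 (nat_lit 75) (nat_lit 58) (nat_lit 4) (nat_lit 8) (nat_lit 7) L111175 (by decide +kernel)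
theorem L111177 : W_41 (nat_lit 9) (nat_lit 0x38001300090004000200020000000000000000000) (nat_lit 0x0) (nat_lit 0x20001000000004800000008000e001e001780000000000000) := T_41 (nat_lit 76) (nat_lit 60) (nat_lit 6) (nat_lit 8) (nat_lit 7) L111176 (by decide +kernel)
theorem L111178 : W_41 (nat_lit 10) (nat_lit 0x30001300090004000200020000000000000000000) (nat_lit 0x0) (nat_lit 0x200010000c0004800000008000e001e001780000000000000) := T_41 (nat_lit 159) (nat_lit 158) (nat_lit 0) (nat_lit 8) (nat_lit 9) L111177 (by decide +kernel)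
theorem L111179 : W_41 (nat_lit 11) (nat_lit 0x30001300090004000200000000000000000000000) (nat_lit 0x0) (nat_lit 0x200010000c0004800000008004e003e001780000000000000) := T_41 (nat_lit 77) (nat_lit 94) (nat_lit 6) (nat_lit 8) (nat_lit 8) L111178 (by decide +kernel)
theorem L111180 : W_41 (nat_lit 12) (nat_lit 0x30001200090004000200000000000000000000000) (nat_lit 0x0) (nat_lit 0x200010000ce005e00680028004e003e001f80020000000000) := Q_41 (nat_lit 140) (C_41 L110953 (C_41 L111179 (C_41 L111131 N_41))) (by decide +kernel)
theorem L111181 : W_41 (nat_lit 2) (nat_lit 0x30001200090005800200000000000000000000000) (nat_lit 0x0) (nat_lit 0x8002000400000000000000000000000) := D_41 (nat_lit 109) (nat_lit 123) (nat_lit 94) (nat_lit 1) (nat_lit 8) (nat_lit 6) (nat_lit 2) (nat_lit 5) (nat_lit 6) (by decide +kernel)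
theorem L111182 : W_41 (nat_lit 2) (nat_lit 0x3e001200090005800240000000000000000000000) (nat_lit 0x0) (nat_lit 0x400020001000000000000000000) := D_41 (nat_lit 89) (nat_lit 72) (nat_lit 106) (nat_lit 4) (nat_lit 5) (nat_lit 8) (nat_lit 4) (nat_lit 5) (nat_lit 9) (by decide +kernel)
theorem L111183 : W_41 (nat_lit 3) (nat_lit 0x3e001200090005800200000000000000000000000) (nat_lit 0x0) (nat_lit 0x400000000400060001000000000000000000) := T_41 (nat_lit 90) (nat_lit 142) (nat_lit 7) (nat_lit 5) (nat_lit 5) L111182 (by decide +kernel)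
theorem L111184 : W_41 (nat_lit 4) (nat_lit 0x36001200090005800200000000000000000000000) (nat_lit 0x0) (nat_lit 0x100008000400000000400060001000000000000000000) := T_41 (nat_lit 159) (nat_lit 176) (nat_lit 7) (nat_lit 5) (nat_lit 6) L111183 (by decide +kernel)
theorem L111185 : W_41 (nat_lit 5) (nat_lit 0x34001200090005800200000000000000000000000) (nat_lit 0x0) (nat_lit 0x14000a000400000000400060001000000000000000000) := T_41 (nat_lit 157) (nat_lit 174) (nat_lit 5) (nat_lit 5) (nat_lit 6) L111184 (by decide +kernel)
theorem L111186 : W_41 (nat_lit 6) (nat_lit 0x30001200090005800200000000000000000000000) (nat_lit 0x0) (nat_lit 0x14000e0004000000004000e0001000000000000000000) := T_41 (nat_lit 158) (nat_lit 91) (nat_lit 6) (nat_lit 5) (nat_lit 9) L111185 (by decide +kernel)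
theorem L111187 : W_41 (nat_lit 7) (nat_lit 0x30001200090004800200000000000000000000000) (nat_lit 0x0) (nat_lit 0x14000e0004000080034004e0001000000000000000000) := Q_41 (nat_lit 108) (C_41 L111181 (C_41 L111186 N_41)) (by decide +kernel)
theorem L111188 : W_41 (nat_lit 4) (nat_lit 0x300012000d00048002000b0000d00000000000000) (nat_lit 0x0) (nat_lit 0x100008000400120000400040000000000000000000000) := T_41 (nat_lit 125) (nat_lit 106) (nat_lit 0) (nat_lit 8) (nat_lit 7) L111103 (by decide +kernel)
theorem L111189 : W_41 (nat_lit 5) (nat_lit 0x300012000d0004800200030000d00000000000000) (nat_lit 0x0) (nat_lit 0x1000080004001200004000400c0000000000000000000) := T_41 (nat_lit 79) (nat_lit 78) (nat_lit 0) (nat_lit 11) (nat_lit 4) L111188 (by decide +kernel)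
theorem L111190 : W_41 (nat_lit 6) (nat_lit 0x30001200090004800200030000d00000000000000) (nat_lit 0x0) (nat_lit 0x1000080004001600024000400c0000000000000000000) := T_41 (nat_lit 126) (nat_lit 109) (nat_lit 5) (nat_lit 8) (nat_lit 3) L111189 (by decide +kernel)
theorem L111191 : W_41 (nat_lit 7) (nat_lit 0x30001200090004800200030000c00000000000000) (nat_lit 0x0) (nat_lit 0x1000080004001600024000400c0000300000000000000) := T_41 (nat_lit 56) (nat_lit 57) (nat_lit 3) (nat_lit 5) (nat_lit 3) L111190 (by decide +kernel)
theorem L111192 : W_41 (nat_lit 8) (nat_lit 0x30001200090004800200030000400000000000000) (nat_lit 0x0) (nat_lit 0x1000080004001600024000400c0000b00020000000000) := T_41 (nat_lit 59) (nat_lit 41) (nat_lit 4) (nat_lit 8) (nat_lit 6) L111191 (by decide +kernel)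
theorem L111193 : W_41 (nat_lit 9) (nat_lit 0x30001200090004800200030000000000000000000) (nat_lit 0x0) (nat_lit 0x1000080004001600024000400c8000f00020000000000) := T_41 (nat_lit 58) (nat_lit 75) (nat_lit 4) (nat_lit 8) (nat_lit 7) L111192 (by decide +kernel)
theorem L111194 : W_41 (nat_lit 10) (nat_lit 0x30001200090004800200020000000000000000000) (nat_lit 0x0) (nat_lit 0x1000080004001600024000400d8001f00020000000000) := T_41 (nat_lit 76) (nat_lit 60) (nat_lit 6) (nat_lit 8) (nat_lit 7) L111193 (by decide +kernel)
theorem L111195 : W_41 (nat_lit 11) (nat_lit 0x30001200090004800200000000000000000000000) (nat_lit 0x0) (nat_lit 0x1000080004001600024004400f8001f00020000000000) := T_41 (nat_lit 77) (nat_lit 94) (nat_lit 6) (nat_lit 8) (nat_lit 8) L111194 (by decide +kernel)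
theorem L111196 : W_41 (nat_lit 2) (nat_lit 0x8003e001200090005800600000000000000000000000) (nat_lit 0x0) (nat_lit 0x8000400020000000000000000000000) := D_41 (nat_lit 106) (nat_lit 123) (nat_lit 89) (nat_lit 4) (nat_lit 5) (nat_lit 10) (nat_lit 4) (nat_lit 5) (nat_lit 9) (by decide +kernel)
theorem L111197 : W_41 (nat_lit 3) (nat_lit 0x3e001200090005800600000000000000000000000) (nat_lit 0x0) (nat_lit 0x80000000000028000400020000000000000000000000) := T_41 (nat_lit 175) (nat_lit 125) (nat_lit 6) (nat_lit 5) (nat_lit 10) L111196 (by decide +kernel)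
theorem L111198 : W_41 (nat_lit 4) (nat_lit 0x36001200090005800600000000000000000000000) (nat_lit 0x0) (nat_lit 0x180008000000028000400020000000000000000000000) := T_41 (nat_lit 159) (nat_lit 176) (nat_lit 7) (nat_lit 5) (nat_lit 6) L111197 (by decide +kernel)
theorem L111199 : W_41 (nat_lit 5) (nat_lit 0x34001200090005800600000000000000000000000) (nat_lit 0x0) (nat_lit 0x1c000a000000028000400020000000000000000000000) := T_41 (nat_lit 157) (nat_lit 174) (nat_lit 5) (nat_lit 5) (nat_lit 6) L111198 (by decide +kernel)
theorem L111200 : W_41 (nat_lit 6) (nat_lit 0x30001200090005800600000000000000000000000) (nat_lit 0x0) (nat_lit 0x1c000e0000000280004000a0000000000000000000000) := T_41 (nat_lit 158) (nat_lit 91) (nat_lit 6) (nat_lit 5) (nat_lit 9) L111199 (by decide +kernel)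
theorem L111201 : W_41 (nat_lit 7) (nat_lit 0x30001200090004800600000000000000000000000) (nat_lit 0x0) (nat_lit 0x1c000e0000000280034000a0000000000000000000000) := T_41 (nat_lit 108) (nat_lit 109) (nat_lit 2) (nat_lit 5) (nat_lit 6) L111200 (by decide +kernel)
theorem L111202 : W_41 (nat_lit 8) (nat_lit 0x30001200090004800200000000000000000000000) (nat_lit 0x0) (nat_lit 0x1c000e0000000280034004a0020000000000000000000) := T_41 (nat_lit 94) (nat_lit 77) (nat_lit 6) (nat_lit 8) (nat_lit 8) L111201 (by decide +kernel)
theorem L111203 : W_41 (nat_lit 4) (nat_lit 0x34001200090004800200000000000000000000000) (nat_lit 0x0) (nat_lit 0x1000080004000000010000c0004000000000000000000) := T_41 (nat_lit 159) (nat_lit 176) (nat_lit 7) (nat_lit 5) (nat_lit 6) L111070 (by decide +kernel)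
theorem L111204 : W_41 (nat_lit 6) (nat_lit 0x30001200090004800200000000000000000000000) (nat_lit 0x0) (nat_lit 0x8001c000e0004000680014004e0024000000000000000000) := Q_41 (nat_lit 158) (C_41 L111124 (C_41 L111049 (C_41 L111203 N_41))) (by decide +kernel)
theorem L111205 : W_41 (nat_lit 6) (nat_lit 0x30001200090004800200000000000000000000000) (nat_lit 0x0) (nat_lit 0x8001c000e0004000680014000e0004000000000000000000) := Q_41 (nat_lit 158) (C_41 L111203 (C_41 L111049 N_41)) (by decide +kernel)
theorem L111206 : W_41 (nat_lit 2) (nat_lit 0x3e0012000b0005800640001000000000000000000) (nat_lit 0x0) (nat_lit 0x2000180000000000000) := D_41 (nat_lit 73) (nat_lit 55) (nat_lit 56) (nat_lit 4) (nat_lit 5) (nat_lit 7) (nat_lit 7) (nat_lit 5) (nat_lit 3) (by decide +kernel)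
theorem L111207 : W_41 (nat_lit 3) (nat_lit 0x3e001200090005800640001000000000000000000) (nat_lit 0x0) (nat_lit 0x80000000000020000000000002000180000000000000) := T_41 (nat_lit 125) (nat_lit 175) (nat_lit 6) (nat_lit 5) (nat_lit 10) L111206 (by decide +kernel)
theorem L111208 : W_41 (nat_lit 4) (nat_lit 0x3e001200090005800640000000000000000000000) (nat_lit 0x0) (nat_lit 0x80000000000020000000020003000180000000000000) := T_41 (nat_lit 72) (nat_lit 89) (nat_lit 4) (nat_lit 5) (nat_lit 8) L111207 (by decide +kernel)
theorem L111209 : W_41 (nat_lit 5) (nat_lit 0x3e001200090005800600000000000000000000000) (nat_lit 0x0) (nat_lit 0x80000000400020000000060003000180000000000000) := T_41 (nat_lit 90) (nat_lit 142) (nat_lit 7) (nat_lit 5) (nat_lit 5) L111208 (by decide +kernel)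
theorem L111210 : W_41 (nat_lit 6) (nat_lit 0x36001200090005800600000000000000000000000) (nat_lit 0x0) (nat_lit 0x180008000400020000000060003000180000000000000) := T_41 (nat_lit 159) (nat_lit 176) (nat_lit 7) (nat_lit 5) (nat_lit 6) L111209 (by decide +kernel)
theorem L111211 : W_41 (nat_lit 7) (nat_lit 0x34001200090005800600000000000000000000000) (nat_lit 0x0) (nat_lit 0x1c000a000400020000000060003000180000000000000) := T_41 (nat_lit 157) (nat_lit 174) (nat_lit 5) (nat_lit 5) (nat_lit 6) L111210 (by decide +kernel)
theorem L111212 : W_41 (nat_lit 8) (nat_lit 0x30001200090005800600000000000000000000000) (nat_lit 0x0) (nat_lit 0x1c000e0004000200000000e0003000180000000000000) := T_41 (nat_lit 158) (nat_lit 91) (nat_lit 6) (nat_lit 5) (nat_lit 9) L111211 (by decide +kernel)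
theorem L111213 : W_41 (nat_lit 9) (nat_lit 0x30001200090004800600000000000000000000000) (nat_lit 0x0) (nat_lit 0x1c000e0004000200030000e0003000180000000000000) := T_41 (nat_lit 108) (nat_lit 109) (nat_lit 2) (nat_lit 5) (nat_lit 6) L111212 (by decide +kernel)
theorem L111214 : W_41 (nat_lit 10) (nat_lit 0x30001200090004800200000000000000000000000) (nat_lit 0x0) (nat_lit 0x1c000e0004000200030004e0023000180000000000000) := T_41 (nat_lit 94) (nat_lit 77) (nat_lit 6) (nat_lit 8) (nat_lit 8) L111213 (by decide +kernel)
theorem L111215 : W_41 (nat_lit 2) (nat_lit 0x80036001200090005800600000000000000000000000) (nat_lit 0x0) (nat_lit 0x8000400020000000000000000000000) := D_41 (nat_lit 106) (nat_lit 123) (nat_lit 89) (nat_lit 4) (nat_lit 5) (nat_lit 10) (nat_lit 4) (nat_lit 5) (nat_lit 9) (by decide +kernel)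
theorem L111216 : W_41 (nat_lit 3) (nat_lit 0x36001200090005800600000000000000000000000) (nat_lit 0x0) (nat_lit 0x80000000000028000400020000000000000000000000) := T_41 (nat_lit 175) (nat_lit 125) (nat_lit 6) (nat_lit 5) (nat_lit 10) L111215 (by decide +kernel)
theorem L111217 : W_41 (nat_lit 4) (nat_lit 0x34001200090005800600000000000000000000000) (nat_lit 0x0) (nat_lit 0xc0002000000028000400020000000000000000000000) := T_41 (nat_lit 157) (nat_lit 174) (nat_lit 5) (nat_lit 5) (nat_lit 6) L111216 (by decide +kernel)
theorem L111218 : W_41 (nat_lit 5) (nat_lit 0x30001200090005800600000000000000000000000) (nat_lit 0x0) (nat_lit 0xc00060000000280004000a0000000000000000000000) := T_41 (nat_lit 158) (nat_lit 91) (nat_lit 6) (nat_lit 5) (nat_lit 9) L111217 (by decide +kernel)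
theorem L111219 : W_41 (nat_lit 6) (nat_lit 0x30001200090004800600000000000000000000000) (nat_lit 0x0) (nat_lit 0xc00060000000280034000a0000000000000000000000) := T_41 (nat_lit 108) (nat_lit 109) (nat_lit 2) (nat_lit 5) (nat_lit 6) L111218 (by decide +kernel)
theorem L111220 : W_41 (nat_lit 7) (nat_lit 0x30001200090004800200000000000000000000000) (nat_lit 0x0) (nat_lit 0xc00060000000280034004a0020000000000000000000) := T_41 (nat_lit 94) (nat_lit 77) (nat_lit 6) (nat_lit 8) (nat_lit 8) L111219 (by decide +kernel)
theorem L111221 : W_41 (nat_lit 12) (nat_lit 0x30001200090004000200000000000000000000000) (nat_lit 0x0) (nat_lit 0x8001c000e000400168003c004e00ff001f80020000000000) := Q_41 (nat_lit 107) (C_41 L111187 (C_41 L111195 (C_41 L111202 (C_41 L111204 (C_41 L111205 (C_41 L111214 (C_41 L111220 N_41))))))) (by decide +kernel)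
theorem L111222 : W_41 (nat_lit 13) (nat_lit 0x30001200080004000200000000000000000000000) (nat_lit 0x0) (nat_lit 0xa000700038001c000ee005e017f003e004e00ff001f80020000000000) := Q_41 (nat_lit 124) (C_41 L111073 (C_41 L111101 (C_41 L111112 (C_41 L111126 (C_41 L111158 (C_41 L111169 (C_41 L111180 (C_41 L111221 N_41)))))))) (by decide +kernel)
theorem L111223 : W_41 (nat_lit 2) (nat_lit 0x300013000d0004800260000000000000000000000) (nat_lit 0x0) (nat_lit 0x3000100000000000000000000000) := D_41 (nat_lit 109) (nat_lit 108) (nat_lit 92) (nat_lit 0) (nat_lit 8) (nat_lit 6) (nat_lit 4) (nat_lit 8) (nat_lit 9) (by decide +kernel)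
theorem L111224 : W_41 (nat_lit 3) (nat_lit 0x300013000d0004800240000000000000000000000) (nat_lit 0x0) (nat_lit 0x3000120001000000000000000000) := T_41 (nat_lit 89) (nat_lit 72) (nat_lit 4) (nat_lit 5) (nat_lit 8) L111223 (by decide +kernel)
theorem L111225 : W_41 (nat_lit 4) (nat_lit 0x300013000d0004800200000000000000000000000) (nat_lit 0x0) (nat_lit 0x2000000000003000160001000000000000000000) := T_41 (nat_lit 90) (nat_lit 157) (nat_lit 5) (nat_lit 5) (nat_lit 5) L111224 (by decide +kernel)
theorem L111226 : W_41 (nat_lit 5) (nat_lit 0x30001300090004800200000000000000000000000) (nat_lit 0x0) (nat_lit 0x2000000060003000160001000000000000000000) := T_41 (nat_lit 126) (nat_lit 125) (nat_lit 1) (nat_lit 8) (nat_lit 7) L111225 (by decide +kernel)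
theorem L111227 : W_41 (nat_lit 2) (nat_lit 0x300013000d0006800200000000000000000000000) (nat_lit 0x0) (nat_lit 0x108001000000000000000000000000000) := D_41 (nat_lit 108) (nat_lit 128) (nat_lit 123) (nat_lit 3) (nat_lit 5) (nat_lit 6) (nat_lit 1) (nat_lit 8) (nat_lit 6) (by decide +kernel)
theorem L111228 : W_41 (nat_lit 3) (nat_lit 0x300013000d0004800200000000000000000000000) (nat_lit 0x0) (nat_lit 0x108003000100000000000000000000000) := T_41 (nat_lit 109) (nat_lit 92) (nat_lit 4) (nat_lit 8) (nat_lit 9) L111227 (by decide +kernel)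
theorem L111229 : W_41 (nat_lit 4) (nat_lit 0x30001300090004800200000000000000000000000) (nat_lit 0x0) (nat_lit 0x168003000100000000000000000000000) := T_41 (nat_lit 126) (nat_lit 125) (nat_lit 1) (nat_lit 8) (nat_lit 7) L111228 (by decide +kernel)
theorem L111230 : W_41 (nat_lit 6) (nat_lit 0x30001300090004000200000000000000000000000) (nat_lit 0x0) (nat_lit 0x2000000168003800160003000080000000000000) := Q_41 (nat_lit 107) (C_41 L110958 (C_41 L111226 (C_41 L111229 N_41))) (by decide +kernel)
theorem L111231 : W_41 (nat_lit 2) (nat_lit 0x380017000d0006800200000000800000000000000) (nat_lit 0x0) (nat_lit 0x100001000400000000000000000000000) := D_41 (nat_lit 108) (nat_lit 128) (nat_lit 94) (nat_lit 3) (nat_lit 5) (nat_lit 6) (nat_lit 2) (nat_lit 5) (nat_lit 6) (by decide +kernel)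
theorem L111232 : W_41 (nat_lit 3) (nat_lit 0x380017000d0006000200000000800000000000000) (nat_lit 0x0) (nat_lit 0x100001800440000000000000000000000) := T_41 (nat_lit 107) (nat_lit 90) (nat_lit 7) (nat_lit 5) (nat_lit 5) L111231 (by decide +kernel)
theorem L111233 : W_41 (nat_lit 4) (nat_lit 0x380017000d0006000200000000000000000000000) (nat_lit 0x0) (nat_lit 0x100001800440010000800000000000000) := T_41 (nat_lit 59) (nat_lit 76) (nat_lit 5) (nat_lit 8) (nat_lit 3) L111232 (by decide +kernel)
theorem L111234 : W_41 (nat_lit 5) (nat_lit 0x380013000d0006000200000000000000000000000) (nat_lit 0x0) (nat_lit 0x480100001800440010000800000000000000) := T_41 (nat_lit 142) (nat_lit 139) (nat_lit 3) (nat_lit 3) (nat_lit 8) L111233 (by decide +kernel)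
theorem L111235 : W_41 (nat_lit 6) (nat_lit 0x38001300090006000200000000000000000000000) (nat_lit 0x0) (nat_lit 0x480160001800440010000800000000000000) := T_41 (nat_lit 126) (nat_lit 125) (nat_lit 1) (nat_lit 8) (nat_lit 7) L111234 (by decide +kernel)
theorem L111236 : W_41 (nat_lit 7) (nat_lit 0x30001300090006000200000000000000000000000) (nat_lit 0x0) (nat_lit 0xc000480160001800440010000800000000000000) := T_41 (nat_lit 159) (nat_lit 158) (nat_lit 0) (nat_lit 8) (nat_lit 9) L111235 (by decide +kernel)
theorem L111237 : W_41 (nat_lit 8) (nat_lit 0x30001300090004000200000000000000000000000) (nat_lit 0x0) (nat_lit 0xc000480160003800540010000800000000000000) := T_41 (nat_lit 109) (nat_lit 92) (nat_lit 4) (nat_lit 8) (nat_lit 9) L111236 (by decide +kernel)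
theorem L111238 : W_41 (nat_lit 12) (nat_lit 0x30001300080004000200000000000000000000000) (nat_lit 0x0) (nat_lit 0x1c000e000fe004e017e003f005f8013000880000000000000) := Q_41 (nat_lit 124) (C_41 L110963 (C_41 L111000 (C_41 L110953 (C_41 L110951 (C_41 L111230 (C_41 L111237 N_41)))))) (by decide +kernel)
theorem L111239 : W_41 (nat_lit 2) (nat_lit 0x380017000c0006000200030000000000000000000) (nat_lit 0x0) (nat_lit 0x100000000000120000000000000000000000000000000) := D_41 (nat_lit 125) (nat_lit 128) (nat_lit 176) (nat_lit 1) (nat_lit 9) (nat_lit 7) (nat_lit 6) (nat_lit 6) (nat_lit 10) (by decide +kernel)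
theorem L111240 : W_41 (nat_lit 3) (nat_lit 0x38001700080006000200030000000000000000000) (nat_lit 0x0) (nat_lit 0x100000000000160000000000000000800000000000000) := T_41 (nat_lit 126) (nat_lit 59) (nat_lit 5) (nat_lit 8) (nat_lit 3) L111239 (by decide +kernel)
theorem L111241 : W_41 (nat_lit 4) (nat_lit 0x38001700080004000200030000000000000000000) (nat_lit 0x0) (nat_lit 0x100000000000160002000100000000800000000000000) := T_41 (nat_lit 109) (nat_lit 92) (nat_lit 4) (nat_lit 8) (nat_lit 9) L111240 (by decide +kernel)
theorem L111242 : W_41 (nat_lit 5) (nat_lit 0x38001700080004000200020000000000000000000) (nat_lit 0x0) (nat_lit 0x100000000000160002000100010001800000000000000) := T_41 (nat_lit 76) (nat_lit 60) (nat_lit 6) (nat_lit 8) (nat_lit 7) L111241 (by decide +kernel)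
theorem L111243 : W_41 (nat_lit 6) (nat_lit 0x38001300080004000200020000000000000000000) (nat_lit 0x0) (nat_lit 0x100000000480160002000100010001800000000000000) := T_41 (nat_lit 142) (nat_lit 139) (nat_lit 3) (nat_lit 3) (nat_lit 8) L111242 (by decide +kernel)
theorem L111244 : W_41 (nat_lit 7) (nat_lit 0x38001300080004000200000000000000000000000) (nat_lit 0x0) (nat_lit 0x100000000480160002000500030001800000000000000) := T_41 (nat_lit 77) (nat_lit 94) (nat_lit 6) (nat_lit 8) (nat_lit 8) L111243 (by decide +kernel)
theorem L111245 : W_41 (nat_lit 8) (nat_lit 0x30001300080004000200000000000000000000000) (nat_lit 0x0) (nat_lit 0x10000c000480160002000500030001800000000000000) := T_41 (nat_lit 159) (nat_lit 158) (nat_lit 0) (nat_lit 8) (nat_lit 9) L111244 (by decide +kernel)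
theorem L111246 : W_41 (nat_lit 2) (nat_lit 0x38001700090006801600000000000000000000000) (nat_lit 0x0) (nat_lit 0x2000100000000000020000000000000000000000000000000) := D_41 (nat_lit 176) (nat_lit 193) (nat_lit 125) (nat_lit 4) (nat_lit 6) (nat_lit 11) (nat_lit 4) (nat_lit 6) (nat_lit 10) (by decide +kernel)
theorem L111247 : W_41 (nat_lit 3) (nat_lit 0x38001700080006801600000000000000000000000) (nat_lit 0x0) (nat_lit 0x2000100000000000030000000040000000000000000000000) := T_41 (nat_lit 124) (nat_lit 90) (nat_lit 7) (nat_lit 5) (nat_lit 5) L111246 (by decide +kernel)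
theorem L111248 : W_41 (nat_lit 4) (nat_lit 0x38001300080006801600000000000000000000000) (nat_lit 0x0) (nat_lit 0x2000100000000480030000000040000000000000000000000) := T_41 (nat_lit 142) (nat_lit 139) (nat_lit 3) (nat_lit 3) (nat_lit 8) L111247 (by decide +kernel)
theorem L111249 : W_41 (nat_lit 5) (nat_lit 0x30001300080006801600000000000000000000000) (nat_lit 0x0) (nat_lit 0x200010000c000480030000000040000000000000000000000) := T_41 (nat_lit 159) (nat_lit 158) (nat_lit 0) (nat_lit 8) (nat_lit 9) L111248 (by decide +kernel)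
theorem L111250 : W_41 (nat_lit 6) (nat_lit 0x30001300080006800600000000000000000000000) (nat_lit 0x0) (nat_lit 0x200010000c000480030000001840000000000000000000000) := T_41 (nat_lit 96) (nat_lit 95) (nat_lit 1) (nat_lit 11) (nat_lit 5) L111249 (by decide +kernel)
theorem L111251 : W_41 (nat_lit 7) (nat_lit 0x30001300080006000600000000000000000000000) (nat_lit 0x0) (nat_lit 0x200010000c000480030001801840000000000000000000000) := T_41 (nat_lit 107) (nat_lit 108) (nat_lit 2) (nat_lit 5) (nat_lit 6) L111250 (by decide +kernel)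
theorem L111252 : W_41 (nat_lit 8) (nat_lit 0x30001300080006000200000000000000000000000) (nat_lit 0x0) (nat_lit 0x200010000c000480030001801c40020000000000000000000) := T_41 (nat_lit 94) (nat_lit 77) (nat_lit 6) (nat_lit 8) (nat_lit 8) L111251 (by decide +kernel)
theorem L111253 : W_41 (nat_lit 9) (nat_lit 0x30001300080004000200000000000000000000000) (nat_lit 0x0) (nat_lit 0x200010000c000480030003801d40020000000000000000000) := T_41 (nat_lit 109) (nat_lit 92) (nat_lit 4) (nat_lit 8) (nat_lit 9) L111252 (by decide +kernel)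
theorem L111254 : W_41 (nat_lit 2) (nat_lit 0x16003a001700098004000600000000000000000000000) (nat_lit 0x0) (nat_lit 0x6000200000000000000000000000000) := D_41 (nat_lit 122) (nat_lit 121) (nat_lit 105) (nat_lit 3) (nat_lit 2) (nat_lit 7) (nat_lit 4) (nat_lit 4) (nat_lit 10) (by decide +kernel)
theorem L111255 : W_41 (nat_lit 3) (nat_lit 0x16003a001700090004000600000000000000000000000) (nat_lit 0x0) (nat_lit 0x40000000000000000e000200000000000000000000000000) := T_41 (nat_lit 123) (nat_lit 190) (nat_lit 5) (nat_lit 4) (nat_lit 7) L111254 (by decide +kernel)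
theorem L111256 : W_41 (nat_lit 4) (nat_lit 0x14003a001700090004000600000000000000000000000) (nat_lit 0x0) (nat_lit 0x4000a000000000000e000200000000000000000000000000) := T_41 (nat_lit 173) (nat_lit 175) (nat_lit 2) (nat_lit 3) (nat_lit 10) L111255 (by decide +kernel)
theorem L111257 : W_41 (nat_lit 5) (nat_lit 0x14003a001700090004000200000000000000000000000) (nat_lit 0x0) (nat_lit 0x4000a000000000000e000200400020000000000000000000) := T_41 (nat_lit 94) (nat_lit 77) (nat_lit 6) (nat_lit 8) (nat_lit 8) L111256 (by decide +kernel)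
theorem L111258 : W_41 (nat_lit 6) (nat_lit 0x4003a001700090004000200000000000000000000000) (nat_lit 0x0) (nat_lit 0x24001a000000000000e000200400020000000000000000000) := T_41 (nat_lit 176) (nat_lit 193) (nat_lit 4) (nat_lit 6) (nat_lit 11) L111257 (by decide +kernel)
theorem L111259 : W_41 (nat_lit 7) (nat_lit 0x3a001700090004000200000000000000000000000) (nat_lit 0x0) (nat_lit 0x2c001e000000000000e000200400020000000000000000000) := T_41 (nat_lit 174) (nat_lit 191) (nat_lit 6) (nat_lit 4) (nat_lit 11) L111258 (by decide +kernel)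
theorem L111260 : W_41 (nat_lit 8) (nat_lit 0x3a001300090004000200000000000000000000000) (nat_lit 0x0) (nat_lit 0x2c001e000000048000e000200400020000000000000000000) := T_41 (nat_lit 142) (nat_lit 139) (nat_lit 3) (nat_lit 3) (nat_lit 8) L111259 (by decide +kernel)
theorem L111261 : W_41 (nat_lit 9) (nat_lit 0x32001300090004000200000000000000000000000) (nat_lit 0x0) (nat_lit 0x2c001e000c00048000e000200400020000000000000000000) := T_41 (nat_lit 159) (nat_lit 158) (nat_lit 0) (nat_lit 8) (nat_lit 9) L111260 (by decide +kernel)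
theorem L111262 : W_41 (nat_lit 2) (nat_lit 0x30001300080004800600000000000000000000000) (nat_lit 0x0) (nat_lit 0x3000100000000000000000000000) := D_41 (nat_lit 109) (nat_lit 108) (nat_lit 92) (nat_lit 2) (nat_lit 5) (nat_lit 6) (nat_lit 4) (nat_lit 8) (nat_lit 9) (by decide +kernel)
theorem L111263 : W_41 (nat_lit 3) (nat_lit 0x30001300080004800200000000000000000000000) (nat_lit 0x0) (nat_lit 0x3000500020000000000000000000) := T_41 (nat_lit 94) (nat_lit 77) (nat_lit 6) (nat_lit 8) (nat_lit 8) L111262 (by decide +kernel)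
theorem L111264 : W_41 (nat_lit 2) (nat_lit 0x380017000800048007c0000000000000000000000) (nat_lit 0x0) (nat_lit 0x7000000000000000000) := D_41 (nat_lit 73) (nat_lit 74) (nat_lit 72) (nat_lit 0) (nat_lit 9) (nat_lit 5) (nat_lit 0) (nat_lit 8) (nat_lit 5) (by decide +kernel)
theorem L111265 : W_41 (nat_lit 3) (nat_lit 0x38001700080004800740000000000000000000000) (nat_lit 0x0) (nat_lit 0x400080007000000000000000000) := T_41 (nat_lit 91) (nat_lit 106) (nat_lit 1) (nat_lit 8) (nat_lit 5) L111264 (by decide +kernel)
theorem L111266 : W_41 (nat_lit 4) (nat_lit 0x38001700080004800700000000000000000000000) (nat_lit 0x0) (nat_lit 0x100004000c0007000000000000000000) := T_41 (nat_lit 90) (nat_lit 124) (nat_lit 7) (nat_lit 5) (nat_lit 5) L111265 (by decide +kernel)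
theorem L111267 : W_41 (nat_lit 5) (nat_lit 0x38001300080004800700000000000000000000000) (nat_lit 0x0) (nat_lit 0x4800100004000c0007000000000000000000) := T_41 (nat_lit 142) (nat_lit 139) (nat_lit 3) (nat_lit 3) (nat_lit 8) L111266 (by decide +kernel)
theorem L111268 : W_41 (nat_lit 6) (nat_lit 0x38001300080004800300000000000000000000000) (nat_lit 0x0) (nat_lit 0x4800100004004c0027000000000000000000) := T_41 (nat_lit 94) (nat_lit 77) (nat_lit 6) (nat_lit 8) (nat_lit 8) L111267 (by decide +kernel)
theorem L111269 : W_41 (nat_lit 7) (nat_lit 0x30001300080004800300000000000000000000000) (nat_lit 0x0) (nat_lit 0xc0004800100004004c0027000000000000000000) := T_41 (nat_lit 159) (nat_lit 158) (nat_lit 0) (nat_lit 8) (nat_lit 9) L111268 (by decide +kernel)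
theorem L111270 : W_41 (nat_lit 8) (nat_lit 0x30001300080004800200000000000000000000000) (nat_lit 0x0) (nat_lit 0xc0004800100024005c0027000000000000000000) := T_41 (nat_lit 92) (nat_lit 109) (nat_lit 4) (nat_lit 8) (nat_lit 9) L111269 (by decide +kernel)
theorem L111271 : W_41 (nat_lit 2) (nat_lit 0x34001300090005800600000000000000000000000) (nat_lit 0x0) (nat_lit 0x40002000000000000000040000000000000000000000) := D_41 (nat_lit 157) (nat_lit 174) (nat_lit 90) (nat_lit 5) (nat_lit 5) (nat_lit 6) (nat_lit 5) (nat_lit 5) (nat_lit 5) (by decide +kernel)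
theorem L111272 : W_41 (nat_lit 3) (nat_lit 0x34001300080005800600000000000000000000000) (nat_lit 0x0) (nat_lit 0x400020000000100000000c0000000000000000000000) := T_41 (nat_lit 124) (nat_lit 91) (nat_lit 6) (nat_lit 5) (nat_lit 9) L111271 (by decide +kernel)
theorem L111273 : W_41 (nat_lit 4) (nat_lit 0x34001300080004800600000000000000000000000) (nat_lit 0x0) (nat_lit 0x400020000000100030000c0000000000000000000000) := T_41 (nat_lit 108) (nat_lit 109) (nat_lit 2) (nat_lit 5) (nat_lit 6) L111272 (by decide +kernel)
theorem L111274 : W_41 (nat_lit 5) (nat_lit 0x34001300080004800200000000000000000000000) (nat_lit 0x0) (nat_lit 0x400020000000100030004c0020000000000000000000) := T_41 (nat_lit 94) (nat_lit 77) (nat_lit 6) (nat_lit 8) (nat_lit 8) L111273 (by decide +kernel)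
theorem L111275 : W_41 (nat_lit 6) (nat_lit 0x30001300080004800200000000000000000000000) (nat_lit 0x0) (nat_lit 0x4000e0000000100030004c0020000000000000000000) := T_41 (nat_lit 158) (nat_lit 159) (nat_lit 0) (nat_lit 8) (nat_lit 9) L111274 (by decide +kernel)
theorem L111276 : W_41 (nat_lit 3) (nat_lit 0x30001300080004800200000000000000000000000) (nat_lit 0x0) (nat_lit 0x100003000500000000000000000000000) := T_41 (nat_lit 109) (nat_lit 92) (nat_lit 4) (nat_lit 8) (nat_lit 9) L111001 (by decide +kernel)
theorem L111277 : W_41 (nat_lit 2) (nat_lit 0x1000080036001300090005c00600000000000000000000000) (nat_lit 0x0) (nat_lit 0x40002000100000000000000000000000000000000000000000000) := D_41 (nat_lit 193) (nat_lit 176) (nat_lit 210) (nat_lit 7) (nat_lit 5) (nat_lit 7) (nat_lit 7) (nat_lit 5) (nat_lit 8) (by decide +kernel)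
theorem L111278 : W_41 (nat_lit 3) (nat_lit 0x80036001300090005c00600000000000000000000000) (nat_lit 0x0) (nat_lit 0x60003000100000000000000000000000000000000000000000000) := T_41 (nat_lit 192) (nat_lit 209) (nat_lit 4) (nat_lit 5) (nat_lit 12) L111277 (by decide +kernel)
theorem L111279 : W_41 (nat_lit 4) (nat_lit 0x36001300090005c00600000000000000000000000) (nat_lit 0x0) (nat_lit 0x60003000180000000000008000000000000000000000000000000) := T_41 (nat_lit 175) (nat_lit 123) (nat_lit 7) (nat_lit 4) (nat_lit 6) L111278 (by decide +kernel)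
theorem L111280 : W_41 (nat_lit 5) (nat_lit 0x36001300090005800600000000000000000000000) (nat_lit 0x0) (nat_lit 0x60003000180000000000008000400020000000000000000000000) := T_41 (nat_lit 106) (nat_lit 89) (nat_lit 4) (nat_lit 5) (nat_lit 9) L111279 (by decide +kernel)
theorem L111281 : W_41 (nat_lit 6) (nat_lit 0x34001300090005800600000000000000000000000) (nat_lit 0x0) (nat_lit 0x600030001c0002000000008000400020000000000000000000000) := T_41 (nat_lit 157) (nat_lit 174) (nat_lit 5) (nat_lit 5) (nat_lit 6) L111280 (by decide +kernel)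
theorem L111282 : W_41 (nat_lit 7) (nat_lit 0x34001300090004800600000000000000000000000) (nat_lit 0x0) (nat_lit 0x600030001c00020000000080014000a0000000000000000000000) := T_41 (nat_lit 108) (nat_lit 91) (nat_lit 6) (nat_lit 5) (nat_lit 9) L111281 (by decide +kernel)
theorem L111283 : W_41 (nat_lit 8) (nat_lit 0x34001300090004800200000000000000000000000) (nat_lit 0x0) (nat_lit 0x600030001c00020000000080014004a0020000000000000000000) := T_41 (nat_lit 94) (nat_lit 77) (nat_lit 6) (nat_lit 8) (nat_lit 8) L111282 (by decide +kernel)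
theorem L111284 : W_41 (nat_lit 9) (nat_lit 0x30001300090004800200000000000000000000000) (nat_lit 0x0) (nat_lit 0x600030001c000e0000000080014004a0020000000000000000000) := T_41 (nat_lit 158) (nat_lit 159) (nat_lit 0) (nat_lit 8) (nat_lit 9) L111283 (by decide +kernel)
theorem L111285 : W_41 (nat_lit 2) (nat_lit 0x38001300090004800200000000000000000000000) (nat_lit 0x0) (nat_lit 0x480000000000040000000000000000000000) := D_41 (nat_lit 142) (nat_lit 139) (nat_lit 90) (nat_lit 3) (nat_lit 3) (nat_lit 8) (nat_lit 7) (nat_lit 5) (nat_lit 5) (by decide +kernel)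
theorem L111286 : W_41 (nat_lit 3) (nat_lit 0x30001300090004800200000000000000000000000) (nat_lit 0x0) (nat_lit 0xc000480000000000040000000000000000000000) := T_41 (nat_lit 159) (nat_lit 158) (nat_lit 0) (nat_lit 8) (nat_lit 9) L111285 (by decide +kernel)
theorem L111287 : W_41 (nat_lit 10) (nat_lit 0x30001300080004800200000000000000000000000) (nat_lit 0x0) (nat_lit 0x600030001c000e0004800180014004e0023000080000000000000) := Q_41 (nat_lit 124) (C_41 L110958 (C_41 L110955 (C_41 L111284 (C_41 L111286 N_41)))) (by decide +kernel)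
theorem L111288 : W_41 (nat_lit 2) (nat_lit 0x30001300080007c00200000000000000000000000) (nat_lit 0x0) (nat_lit 0x1c000000000000000000000000000000) := D_41 (nat_lit 123) (nat_lit 122) (nat_lit 124) (nat_lit 1) (nat_lit 7) (nat_lit 6) (nat_lit 1) (nat_lit 8) (nat_lit 6) (by decide +kernel)
theorem L111289 : W_41 (nat_lit 3) (nat_lit 0x30001300080007800200000000000000000000000) (nat_lit 0x0) (nat_lit 0x5c000400000000000000000000000000) := T_41 (nat_lit 106) (nat_lit 126) (nat_lit 3) (nat_lit 4) (nat_lit 6) L111288 (by decide +kernel)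
theorem L111290 : W_41 (nat_lit 4) (nat_lit 0x30001300080006800200000000000000000000000) (nat_lit 0x0) (nat_lit 0x15c001400000000000000000000000000) := T_41 (nat_lit 108) (nat_lit 128) (nat_lit 3) (nat_lit 5) (nat_lit 6) L111289 (by decide +kernel)
theorem L111291 : W_41 (nat_lit 5) (nat_lit 0x30001300080004800200000000000000000000000) (nat_lit 0x0) (nat_lit 0x15c003400100000000000000000000000) := T_41 (nat_lit 109) (nat_lit 92) (nat_lit 4) (nat_lit 8) (nat_lit 9) L111290 (by decide +kernel)
theorem L111292 : W_41 (nat_lit 11) (nat_lit 0x30001300080004000200000000000000000000000) (nat_lit 0x0) (nat_lit 0x600030001c000e00048015c003c005e0027000080000000000000) := Q_41 (nat_lit 107) (C_41 L111263 (C_41 L111270 (C_41 L111275 (C_41 L111276 (C_41 L111287 (C_41 L111291 N_41)))))) (by decide +kernel)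
theorem L111293 : W_41 (nat_lit 2) (nat_lit 0x340013000d0006800260010000000000000000000) (nat_lit 0x0) (nat_lit 0x400020001000000000000000) := D_41 (nat_lit 77) (nat_lit 94) (nat_lit 60) (nat_lit 6) (nat_lit 8) (nat_lit 8) (nat_lit 6) (nat_lit 8) (nat_lit 7) (by decide +kernel)
theorem L111294 : W_41 (nat_lit 3) (nat_lit 0x340013000d0006800260000000000000000000000) (nat_lit 0x0) (nat_lit 0x400030001800000000000000) := T_41 (nat_lit 76) (nat_lit 59) (nat_lit 5) (nat_lit 8) (nat_lit 3) L111293 (by decide +kernel)
theorem L111295 : W_41 (nat_lit 4) (nat_lit 0x300013000d0006800260000000000000000000000) (nat_lit 0x0) (nat_lit 0x4000000000000400400030001800000000000000) := T_41 (nat_lit 158) (nat_lit 106) (nat_lit 4) (nat_lit 5) (nat_lit 9) L111294 (by decide +kernel)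
theorem L111296 : W_41 (nat_lit 5) (nat_lit 0x300013000d0004800260000000000000000000000) (nat_lit 0x0) (nat_lit 0x4000000000003400400030001800000000000000) := T_41 (nat_lit 109) (nat_lit 108) (nat_lit 0) (nat_lit 8) (nat_lit 6) L111295 (by decide +kernel)
theorem L111297 : W_41 (nat_lit 6) (nat_lit 0x300013000d0004800240000000000000000000000) (nat_lit 0x0) (nat_lit 0x4000000000003400420031001800000000000000) := T_41 (nat_lit 89) (nat_lit 72) (nat_lit 4) (nat_lit 5) (nat_lit 8) L111296 (by decide +kernel)
theorem L111298 : W_41 (nat_lit 7) (nat_lit 0x300013000d0004800200000000000000000000000) (nat_lit 0x0) (nat_lit 0x6000000000003400460031001800000000000000) := T_41 (nat_lit 90) (nat_lit 157) (nat_lit 5) (nat_lit 5) (nat_lit 5) L111297 (by decide +kernel)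
theorem L111299 : W_41 (nat_lit 8) (nat_lit 0x30001300090004800200000000000000000000000) (nat_lit 0x0) (nat_lit 0x6000000060003400460031001800000000000000) := T_41 (nat_lit 126) (nat_lit 125) (nat_lit 1) (nat_lit 8) (nat_lit 7) L111298 (by decide +kernel)
theorem L111300 : W_41 (nat_lit 2) (nat_lit 0x10000800360013000d0005c00600000000000000000000000) (nat_lit 0x0) (nat_lit 0x40002000100000000000000000000000000000000000000000000) := D_41 (nat_lit 193) (nat_lit 176) (nat_lit 210) (nat_lit 7) (nat_lit 5) (nat_lit 7) (nat_lit 7) (nat_lit 5) (nat_lit 8) (by decide +kernel)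
theorem L111301 : W_41 (nat_lit 3) (nat_lit 0x800360013000d0005c00600000000000000000000000) (nat_lit 0x0) (nat_lit 0x60003000100000000000000000000000000000000000000000000) := T_41 (nat_lit 192) (nat_lit 209) (nat_lit 4) (nat_lit 5) (nat_lit 12) L111300 (by decide +kernel)
theorem L111302 : W_41 (nat_lit 4) (nat_lit 0x360013000d0005c00600000000000000000000000) (nat_lit 0x0) (nat_lit 0x60003000180000000000008000000000000000000000000000000) := T_41 (nat_lit 175) (nat_lit 123) (nat_lit 7) (nat_lit 4) (nat_lit 6) L111301 (by decide +kernel)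
theorem L111303 : W_41 (nat_lit 5) (nat_lit 0x360013000d0005800600000000000000000000000) (nat_lit 0x0) (nat_lit 0x60003000180000000000008000400020000000000000000000000) := T_41 (nat_lit 106) (nat_lit 89) (nat_lit 4) (nat_lit 5) (nat_lit 9) L111302 (by decide +kernel)
theorem L111304 : W_41 (nat_lit 6) (nat_lit 0x340013000d0005800600000000000000000000000) (nat_lit 0x0) (nat_lit 0x600030001c0002000000008000400020000000000000000000000) := T_41 (nat_lit 157) (nat_lit 174) (nat_lit 5) (nat_lit 5) (nat_lit 6) L111303 (by decide +kernel)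
theorem L111305 : W_41 (nat_lit 7) (nat_lit 0x300013000d0005800600000000000000000000000) (nat_lit 0x0) (nat_lit 0x600030001c00060000000080004000a0000000000000000000000) := T_41 (nat_lit 158) (nat_lit 91) (nat_lit 6) (nat_lit 5) (nat_lit 9) L111304 (by decide +kernel)
theorem L111306 : W_41 (nat_lit 8) (nat_lit 0x300013000d0004800600000000000000000000000) (nat_lit 0x0) (nat_lit 0x600030001c00060000000080034000a0000000000000000000000) := T_41 (nat_lit 108) (nat_lit 109) (nat_lit 2) (nat_lit 5) (nat_lit 6) L111305 (by decide +kernel)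
theorem L111307 : W_41 (nat_lit 9) (nat_lit 0x300013000d0004800200000000000000000000000) (nat_lit 0x0) (nat_lit 0x600030001c00060000000080034004a0020000000000000000000) := T_41 (nat_lit 94) (nat_lit 77) (nat_lit 6) (nat_lit 8) (nat_lit 8) L111306 (by decide +kernel)
theorem L111308 : W_41 (nat_lit 10) (nat_lit 0x30001300090004800200000000000000000000000) (nat_lit 0x0) (nat_lit 0x600030001c00060000000680034004a0020000000000000000000) := T_41 (nat_lit 126) (nat_lit 125) (nat_lit 1) (nat_lit 8) (nat_lit 7) L111307 (by decide +kernel)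
theorem L111309 : W_41 (nat_lit 3) (nat_lit 0x30001300090005800600000000000000000000000) (nat_lit 0x0) (nat_lit 0x400060000000000000000c0000000000000000000000) := T_41 (nat_lit 158) (nat_lit 91) (nat_lit 6) (nat_lit 5) (nat_lit 9) L111271 (by decide +kernel)
theorem L111310 : W_41 (nat_lit 4) (nat_lit 0x30001300090004800600000000000000000000000) (nat_lit 0x0) (nat_lit 0x400060000000000030000c0000000000000000000000) := T_41 (nat_lit 108) (nat_lit 109) (nat_lit 2) (nat_lit 5) (nat_lit 6) L111309 (by decide +kernel)
theorem L111311 : W_41 (nat_lit 5) (nat_lit 0x30001300090004800200000000000000000000000) (nat_lit 0x0) (nat_lit 0x400060000000000030004c0020000000000000000000) := T_41 (nat_lit 94) (nat_lit 77) (nat_lit 6) (nat_lit 8) (nat_lit 8) L111310 (by decide +kernel)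
theorem L111312 : W_41 (nat_lit 2) (nat_lit 0x34001300090005800600000000000000000000000) (nat_lit 0x0) (nat_lit 0x80000000000060000000000000000000000000000000) := D_41 (nat_lit 125) (nat_lit 126) (nat_lit 175) (nat_lit 1) (nat_lit 8) (nat_lit 7) (nat_lit 6) (nat_lit 5) (nat_lit 10) (by decide +kernel)
theorem L111313 : W_41 (nat_lit 3) (nat_lit 0x30001300090005800600000000000000000000000) (nat_lit 0x0) (nat_lit 0x80004000000060000000080000000000000000000000) := T_41 (nat_lit 158) (nat_lit 91) (nat_lit 6) (nat_lit 5) (nat_lit 9) L111312 (by decide +kernel)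
theorem L111314 : W_41 (nat_lit 4) (nat_lit 0x30001300090004800600000000000000000000000) (nat_lit 0x0) (nat_lit 0x80004000000060003000080000000000000000000000) := T_41 (nat_lit 108) (nat_lit 109) (nat_lit 2) (nat_lit 5) (nat_lit 6) L111313 (by decide +kernel)
theorem L111315 : W_41 (nat_lit 5) (nat_lit 0x30001300090004800200000000000000000000000) (nat_lit 0x0) (nat_lit 0x80004000000060003000480020000000000000000000) := T_41 (nat_lit 94) (nat_lit 77) (nat_lit 6) (nat_lit 8) (nat_lit 8) L111314 (by decide +kernel)
theorem L111316 : W_41 (nat_lit 11) (nat_lit 0x30001300090004000200000000000000000000000) (nat_lit 0x0) (nat_lit 0x600030001c0006000000068003c004e0033001880000000000000) := Q_41 (nat_lit 107) (C_41 L110958 (C_41 L111299 (C_41 L111308 (C_41 L111311 (C_41 L111315 N_41))))) (by decide +kernel)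
theorem L111317 : W_41 (nat_lit 2) (nat_lit 0x380017000d0006800200030000000000000000000) (nat_lit 0x0) (nat_lit 0x100001400000000000000000000000000) := D_41 (nat_lit 108) (nat_lit 128) (nat_lit 106) (nat_lit 3) (nat_lit 5) (nat_lit 6) (nat_lit 3) (nat_lit 4) (nat_lit 6) (by decide +kernel)
theorem L111318 : W_41 (nat_lit 3) (nat_lit 0x380017000d0006000200030000000000000000000) (nat_lit 0x0) (nat_lit 0x100001c00040000000000000000000000) := T_41 (nat_lit 107) (nat_lit 90) (nat_lit 7) (nat_lit 5) (nat_lit 5) L111317 (by decide +kernel)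
theorem L111319 : W_41 (nat_lit 4) (nat_lit 0x380017000d0004000200030000000000000000000) (nat_lit 0x0) (nat_lit 0x100003c00040000000800000000000000) := T_41 (nat_lit 109) (nat_lit 59) (nat_lit 5) (nat_lit 8) (nat_lit 3) L111318 (by decide +kernel)
theorem L111320 : W_41 (nat_lit 5) (nat_lit 0x380017000d0004000200020000000000000000000) (nat_lit 0x0) (nat_lit 0x100003c00040010001800000000000000) := T_41 (nat_lit 76) (nat_lit 60) (nat_lit 6) (nat_lit 8) (nat_lit 7) L111319 (by decide +kernel)
theorem L111321 : W_41 (nat_lit 6) (nat_lit 0x380013000d0004000200020000000000000000000) (nat_lit 0x0) (nat_lit 0x480100003c00040010001800000000000000) := T_41 (nat_lit 142) (nat_lit 139) (nat_lit 3) (nat_lit 3) (nat_lit 8) L111320 (by decide +kernel)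
theorem L111322 : W_41 (nat_lit 7) (nat_lit 0x380013000d0004000200000000000000000000000) (nat_lit 0x0) (nat_lit 0x480100003c00440030001800000000000000) := T_41 (nat_lit 77) (nat_lit 94) (nat_lit 6) (nat_lit 8) (nat_lit 8) L111321 (by decide +kernel)
theorem L111323 : W_41 (nat_lit 8) (nat_lit 0x300013000d0004000200000000000000000000000) (nat_lit 0x0) (nat_lit 0xc000480100003c00440030001800000000000000) := T_41 (nat_lit 159) (nat_lit 158) (nat_lit 0) (nat_lit 8) (nat_lit 9) L111322 (by decide +kernel)
theorem L111324 : W_41 (nat_lit 9) (nat_lit 0x30001300090004000200000000000000000000000) (nat_lit 0x0) (nat_lit 0xc000480160003c00440030001800000000000000) := T_41 (nat_lit 126) (nat_lit 125) (nat_lit 1) (nat_lit 8) (nat_lit 7) L111323 (by decide +kernel)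
theorem L111325 : W_41 (nat_lit 12) (nat_lit 0x30001300080004000200000000000000000000000) (nat_lit 0x0) (nat_lit 0x60003c001e000fe004e017e003f004f8033001880000000000000) := Q_41 (nat_lit 124) (C_41 L111000 (C_41 L110963 (C_41 L110953 (C_41 L110951 (C_41 L111316 (C_41 L111324 N_41)))))) (by decide +kernel)
theorem L111326 : W_41 (nat_lit 2) (nat_lit 0x38001300090006800640002000000000000000000) (nat_lit 0x0) (nat_lit 0x20001000080000000000000) := D_41 (nat_lit 72) (nat_lit 55) (nat_lit 89) (nat_lit 4) (nat_lit 5) (nat_lit 7) (nat_lit 4) (nat_lit 5) (nat_lit 8) (by decide +kernel)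
theorem L111327 : W_41 (nat_lit 3) (nat_lit 0x38001300090006800640000000000000000000000) (nat_lit 0x0) (nat_lit 0x8000000020003000080000000000000) := T_41 (nat_lit 73) (nat_lit 123) (nat_lit 5) (nat_lit 5) (nat_lit 4) L111326 (by decide +kernel)
theorem L111328 : W_41 (nat_lit 4) (nat_lit 0x38001300090006800600000000000000000000000) (nat_lit 0x0) (nat_lit 0x2000000008000000060003000080000000000000) := T_41 (nat_lit 90) (nat_lit 157) (nat_lit 5) (nat_lit 5) (nat_lit 5) L111327 (by decide +kernel)
theorem L111329 : W_41 (nat_lit 5) (nat_lit 0x38001300090006000600000000000000000000000) (nat_lit 0x0) (nat_lit 0x2000000008001800060003000080000000000000) := T_41 (nat_lit 107) (nat_lit 108) (nat_lit 2) (nat_lit 5) (nat_lit 6) L111328 (by decide +kernel)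
theorem L111330 : W_41 (nat_lit 6) (nat_lit 0x38001300090006000200000000000000000000000) (nat_lit 0x0) (nat_lit 0x2000000008001800460023000080000000000000) := T_41 (nat_lit 94) (nat_lit 77) (nat_lit 6) (nat_lit 8) (nat_lit 8) L111329 (by decide +kernel)
theorem L111331 : W_41 (nat_lit 7) (nat_lit 0x38001300090004000200000000000000000000000) (nat_lit 0x0) (nat_lit 0x2000000008003800560023000080000000000000) := T_41 (nat_lit 109) (nat_lit 92) (nat_lit 4) (nat_lit 8) (nat_lit 9) L111330 (by decide +kernel)
theorem L111332 : W_41 (nat_lit 8) (nat_lit 0x30001300090004000200000000000000000000000) (nat_lit 0x0) (nat_lit 0xe000000008003800560023000080000000000000) := T_41 (nat_lit 159) (nat_lit 158) (nat_lit 0) (nat_lit 8) (nat_lit 9) L111331 (by decide +kernel)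
theorem L111333 : W_41 (nat_lit 2) (nat_lit 0x300013000d0004000200030000000000000000000) (nat_lit 0x0) (nat_lit 0x2000100000000800000000000000) := D_41 (nat_lit 109) (nat_lit 59) (nat_lit 92) (nat_lit 5) (nat_lit 8) (nat_lit 3) (nat_lit 4) (nat_lit 8) (nat_lit 9) (by decide +kernel)
theorem L111334 : W_41 (nat_lit 3) (nat_lit 0x300013000d0004000200020000000000000000000) (nat_lit 0x0) (nat_lit 0x2000100010001800000000000000) := T_41 (nat_lit 76) (nat_lit 60) (nat_lit 6) (nat_lit 8) (nat_lit 7) L111333 (by decide +kernel)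
theorem L111335 : W_41 (nat_lit 4) (nat_lit 0x30001300090004000200020000000000000000000) (nat_lit 0x0) (nat_lit 0x60002000100010001800000000000000) := T_41 (nat_lit 126) (nat_lit 125) (nat_lit 1) (nat_lit 8) (nat_lit 7) L111334 (by decide +kernel)
theorem L111336 : W_41 (nat_lit 5) (nat_lit 0x30001300090004000200000000000000000000000) (nat_lit 0x0) (nat_lit 0x60002000500030001800000000000000) := T_41 (nat_lit 77) (nat_lit 94) (nat_lit 6) (nat_lit 8) (nat_lit 8) L111335 (by decide +kernel)
theorem L111337 : W_41 (nat_lit 12) (nat_lit 0x30001300080004000200000000000000000000000) (nat_lit 0x0) (nat_lit 0x600030001c000e0000c0178003c005e0033001880000000000000) := Q_41 (nat_lit 124) (C_41 L111230 (C_41 L111316 (C_41 L111332 (C_41 L111336 (C_41 L110951 N_41))))) (by decide +kernel)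
theorem L111338 : W_41 (nat_lit 5) (nat_lit 0x36001300090004c00600000000000000000000000) (nat_lit 0x0) (nat_lit 0x60003000180000000000008001000080000000000000000000000) := T_41 (nat_lit 108) (nat_lit 91) (nat_lit 6) (nat_lit 5) (nat_lit 9) L111279 (by decide +kernel)
theorem L111339 : W_41 (nat_lit 6) (nat_lit 0x36001300090004800600000000000000000000000) (nat_lit 0x0) (nat_lit 0x600030001800000000000080014000a0000000000000000000000) := T_41 (nat_lit 106) (nat_lit 89) (nat_lit 4) (nat_lit 5) (nat_lit 9) L111338 (by decide +kernel)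
theorem L111340 : W_41 (nat_lit 7) (nat_lit 0x36001300090004000600000000000000000000000) (nat_lit 0x0) (nat_lit 0x60003000180000000000008001c000e0000000000000000000000) := T_41 (nat_lit 107) (nat_lit 90) (nat_lit 5) (nat_lit 5) (nat_lit 5) L111339 (by decide +kernel)
theorem L111341 : W_41 (nat_lit 8) (nat_lit 0x36001300090004000200000000000000000000000) (nat_lit 0x0) (nat_lit 0x60003000180000000000008001c004e0020000000000000000000) := T_41 (nat_lit 94) (nat_lit 77) (nat_lit 6) (nat_lit 8) (nat_lit 8) L111340 (by decide +kernel)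
theorem L111342 : W_41 (nat_lit 9) (nat_lit 0x32001300090004000200000000000000000000000) (nat_lit 0x0) (nat_lit 0x6000300018000c000000008001c004e0020000000000000000000) := T_41 (nat_lit 158) (nat_lit 159) (nat_lit 0) (nat_lit 8) (nat_lit 9) L111341 (by decide +kernel)
theorem L111343 : W_41 (nat_lit 2) (nat_lit 0x32001300090004800200000000000000000000000) (nat_lit 0x0) (nat_lit 0x800040004000000000000000000000000000000000000000) := D_41 (nat_lit 174) (nat_lit 191) (nat_lit 158) (nat_lit 6) (nat_lit 4) (nat_lit 11) (nat_lit 5) (nat_lit 5) (nat_lit 6) (by decide +kernel)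
theorem L111344 : W_41 (nat_lit 3) (nat_lit 0x32001300090004000200000000000000000000000) (nat_lit 0x0) (nat_lit 0x800040004000000000000800040000000000000000000000) := T_41 (nat_lit 107) (nat_lit 90) (nat_lit 5) (nat_lit 5) (nat_lit 5) L111343 (by decide +kernel)
theorem L111345 : W_41 (nat_lit 10) (nat_lit 0x30001300090004000200000000000000000000000) (nat_lit 0x0) (nat_lit 0x60003c001e000e00048000e001e004e0020000000000000000000) := Q_41 (nat_lit 157) (C_41 L110974 (C_41 L111261 (C_41 L111342 (C_41 L111344 N_41)))) (by decide +kernel)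
theorem L111346 : W_41 (nat_lit 2) (nat_lit 0x300013000d0004800240002000000000000000000) (nat_lit 0x0) (nat_lit 0x20001000080000000000000) := D_41 (nat_lit 72) (nat_lit 55) (nat_lit 89) (nat_lit 4) (nat_lit 5) (nat_lit 7) (nat_lit 4) (nat_lit 5) (nat_lit 8) (by decide +kernel)
theorem L111347 : W_41 (nat_lit 3) (nat_lit 0x300013000d0004800240000000000000000000000) (nat_lit 0x0) (nat_lit 0x8000000020003000080000000000000) := T_41 (nat_lit 73) (nat_lit 123) (nat_lit 5) (nat_lit 5) (nat_lit 4) L111346 (by decide +kernel)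
theorem L111348 : W_41 (nat_lit 4) (nat_lit 0x300013000d0004000240000000000000000000000) (nat_lit 0x0) (nat_lit 0x2000000008000800020003000080000000000000) := T_41 (nat_lit 107) (nat_lit 157) (nat_lit 5) (nat_lit 5) (nat_lit 5) L111347 (by decide +kernel)
theorem L111349 : W_41 (nat_lit 5) (nat_lit 0x30001300090004000240000000000000000000000) (nat_lit 0x0) (nat_lit 0x2000000068000800020003000080000000000000) := T_41 (nat_lit 126) (nat_lit 125) (nat_lit 1) (nat_lit 8) (nat_lit 7) L111348 (by decide +kernel)
theorem L111350 : W_41 (nat_lit 4) (nat_lit 0x30001300090004000240000000000000000000000) (nat_lit 0x0) (nat_lit 0x2000000008000800020003000080000000000000) := T_41 (nat_lit 107) (nat_lit 157) (nat_lit 5) (nat_lit 5) (nat_lit 5) L110957 (by decide +kernel)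
theorem L111351 : W_41 (nat_lit 2) (nat_lit 0x300013000900048002e0000000000000000000000) (nat_lit 0x0) (nat_lit 0x4000000000000400100000000000000000000000) := D_41 (nat_lit 106) (nat_lit 92) (nat_lit 158) (nat_lit 1) (nat_lit 8) (nat_lit 5) (nat_lit 4) (nat_lit 5) (nat_lit 9) (by decide +kernel)
theorem L111352 : W_41 (nat_lit 3) (nat_lit 0x30001300090004800260000000000000000000000) (nat_lit 0x0) (nat_lit 0x4000000000000400180004000000000000000000) := T_41 (nat_lit 91) (nat_lit 74) (nat_lit 6) (nat_lit 5) (nat_lit 8) L111351 (by decide +kernel)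
theorem L111353 : W_41 (nat_lit 4) (nat_lit 0x30001300090004800240000000000000000000000) (nat_lit 0x0) (nat_lit 0x40000000000004001a0005000000000000000000) := T_41 (nat_lit 89) (nat_lit 72) (nat_lit 4) (nat_lit 5) (nat_lit 8) L111352 (by decide +kernel)
theorem L111354 : W_41 (nat_lit 5) (nat_lit 0x30001300090004000240000000000000000000000) (nat_lit 0x0) (nat_lit 0x6000000000000c001a0005000000000000000000) := T_41 (nat_lit 107) (nat_lit 157) (nat_lit 5) (nat_lit 5) (nat_lit 5) L111353 (by decide +kernel)
theorem L111355 : W_41 (nat_lit 2) (nat_lit 0x300013400b00050002c0030000000000000000000) (nat_lit 0x0) (nat_lit 0x4000400000000000000002000000000000000000) := D_41 (nat_lit 142) (nat_lit 73) (nat_lit 158) (nat_lit 4) (nat_lit 6) (nat_lit 8) (nat_lit 5) (nat_lit 6) (nat_lit 5) (by decide +kernel)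
theorem L111356 : W_41 (nat_lit 3) (nat_lit 0x300013400b00040002c0030000000000000000000) (nat_lit 0x0) (nat_lit 0x4000400000001000000006000000000000000000) := T_41 (nat_lit 108) (nat_lit 74) (nat_lit 5) (nat_lit 6) (nat_lit 4) L111355 (by decide +kernel)
theorem L111357 : W_41 (nat_lit 4) (nat_lit 0x300013400b0004000240030000000000000000000) (nat_lit 0x0) (nat_lit 0x4000400000001000180006000000000000000000) := T_41 (nat_lit 91) (nat_lit 92) (nat_lit 2) (nat_lit 5) (nat_lit 5) L111356 (by decide +kernel)
theorem L111358 : W_41 (nat_lit 5) (nat_lit 0x300013400b0004000240020000000000000000000) (nat_lit 0x0) (nat_lit 0x4000400000001000180016001000000000000000) := T_41 (nat_lit 76) (nat_lit 60) (nat_lit 6) (nat_lit 8) (nat_lit 7) L111357 (by decide +kernel)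
theorem L111359 : W_41 (nat_lit 6) (nat_lit 0x300013000b0004000240020000000000000000000) (nat_lit 0x0) (nat_lit 0x40004c0000001000180016001000000000000000) := T_41 (nat_lit 138) (nat_lit 139) (nat_lit 2) (nat_lit 2) (nat_lit 8) L111358 (by decide +kernel)
theorem L111360 : W_41 (nat_lit 7) (nat_lit 0x300013000b0004000240000000000000000000000) (nat_lit 0x0) (nat_lit 0x40004c0000001000580036001000000000000000) := T_41 (nat_lit 77) (nat_lit 94) (nat_lit 6) (nat_lit 8) (nat_lit 8) L111359 (by decide +kernel)
theorem L111361 : W_41 (nat_lit 8) (nat_lit 0x30001300090004000240000000000000000000000) (nat_lit 0x0) (nat_lit 0x40004c0060001000580036001000000000000000) := T_41 (nat_lit 125) (nat_lit 126) (nat_lit 1) (nat_lit 8) (nat_lit 7) L111360 (by decide +kernel)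
theorem L111362 : W_41 (nat_lit 9) (nat_lit 0x30001300090004000200000000000000000000000) (nat_lit 0x0) (nat_lit 0x60004c0068001c005e0037001080000000000000) := Q_41 (nat_lit 90) (C_41 L111349 (C_41 L111350 (C_41 L111354 (C_41 L111361 N_41)))) (by decide +kernel)
theorem L111363 : W_41 (nat_lit 2) (nat_lit 0x380013000b0004000200000000000000000000000) (nat_lit 0x0) (nat_lit 0x4c0000000000000000000000000000000000) := D_41 (nat_lit 139) (nat_lit 138) (nat_lit 142) (nat_lit 2) (nat_lit 2) (nat_lit 8) (nat_lit 3) (nat_lit 3) (nat_lit 8) (by decide +kernel)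
theorem L111364 : W_41 (nat_lit 3) (nat_lit 0x300013000b0004000200000000000000000000000) (nat_lit 0x0) (nat_lit 0xc0004c0000000000000000000000000000000000) := T_41 (nat_lit 159) (nat_lit 158) (nat_lit 0) (nat_lit 8) (nat_lit 9) L111363 (by decide +kernel)
theorem L111365 : W_41 (nat_lit 4) (nat_lit 0x30001300090004000200000000000000000000000) (nat_lit 0x0) (nat_lit 0xc0004c0060000000000000000000000000000000) := T_41 (nat_lit 125) (nat_lit 126) (nat_lit 1) (nat_lit 8) (nat_lit 7) L111364 (by decide +kernel)
theorem L111366 : W_41 (nat_lit 2) (nat_lit 0x800340013000b0004000600000000000000000000000) (nat_lit 0x0) (nat_lit 0x1000000000000000008000400000000000000000000000000) := D_41 (nat_lit 123) (nat_lit 106) (nat_lit 192) (nat_lit 4) (nat_lit 5) (nat_lit 10) (nat_lit 4) (nat_lit 5) (nat_lit 11) (by decide +kernel)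
theorem L111367 : W_41 (nat_lit 3) (nat_lit 0x340013000b0004000600000000000000000000000) (nat_lit 0x0) (nat_lit 0x1000080000000000008001400000000000000000000000000) := T_41 (nat_lit 175) (nat_lit 108) (nat_lit 6) (nat_lit 5) (nat_lit 10) L111366 (by decide +kernel)
theorem L111368 : W_41 (nat_lit 4) (nat_lit 0x340013000b0004000200000000000000000000000) (nat_lit 0x0) (nat_lit 0x1000080000000000008001400400020000000000000000000) := T_41 (nat_lit 94) (nat_lit 77) (nat_lit 6) (nat_lit 8) (nat_lit 8) L111367 (by decide +kernel)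
theorem L111369 : W_41 (nat_lit 5) (nat_lit 0x300013000b0004000200000000000000000000000) (nat_lit 0x0) (nat_lit 0x100008000c000000008001400400020000000000000000000) := T_41 (nat_lit 158) (nat_lit 159) (nat_lit 0) (nat_lit 8) (nat_lit 9) L111368 (by decide +kernel)
theorem L111370 : W_41 (nat_lit 6) (nat_lit 0x30001300090004000200000000000000000000000) (nat_lit 0x0) (nat_lit 0x100008000c000000068001400400020000000000000000000) := T_41 (nat_lit 125) (nat_lit 126) (nat_lit 1) (nat_lit 8) (nat_lit 7) L111369 (by decide +kernel)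
theorem L111371 : W_41 (nat_lit 12) (nat_lit 0x30001300080004000200000000000000000000000) (nat_lit 0x0) (nat_lit 0x60003c001e000fe004e007e001f005f8037001080000000000000) := Q_41 (nat_lit 124) (C_41 L111000 (C_41 L110953 (C_41 L111345 (C_41 L110951 (C_41 L111362 (C_41 L111365 (C_41 L111370 N_41))))))) (by decide +kernel)
theorem L111372 : W_41 (nat_lit 7) (nat_lit 0x30001300080004000200000000000000000000000) (nat_lit 0x0) (nat_lit 0xe0004c0178003c001e0003000080000000000000) := Q_41 (nat_lit 124) (C_41 L111230 (C_41 L111365 (C_41 L110963 N_41))) (by decide +kernel)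
theorem L111373 : W_41 (nat_lit 2) (nat_lit 0x300013000e0006000200030000000000000000000) (nat_lit 0x0) (nat_lit 0x480100000000000000000000000000000000) := D_41 (nat_lit 142) (nat_lit 128) (nat_lit 139) (nat_lit 1) (nat_lit 9) (nat_lit 7) (nat_lit 2) (nat_lit 3) (nat_lit 8) (by decide +kernel)
theorem L111374 : W_41 (nat_lit 3) (nat_lit 0x300013000c0006000200030000000000000000000) (nat_lit 0x0) (nat_lit 0x480130000000000000000000000000000000) := T_41 (nat_lit 125) (nat_lit 124) (nat_lit 1) (nat_lit 8) (nat_lit 7) L111373 (by decide +kernel)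
theorem L111375 : W_41 (nat_lit 4) (nat_lit 0x30001300080006000200030000000000000000000) (nat_lit 0x0) (nat_lit 0x480170000000000000000800000000000000) := T_41 (nat_lit 126) (nat_lit 59) (nat_lit 5) (nat_lit 8) (nat_lit 3) L111374 (by decide +kernel)
theorem L111376 : W_41 (nat_lit 5) (nat_lit 0x30001300080006000200020000000000000000000) (nat_lit 0x0) (nat_lit 0x480170000000000010001800000000000000) := T_41 (nat_lit 76) (nat_lit 60) (nat_lit 6) (nat_lit 8) (nat_lit 7) L111375 (by decide +kernel)
theorem L111377 : W_41 (nat_lit 6) (nat_lit 0x30001300080004000200020000000000000000000) (nat_lit 0x0) (nat_lit 0x480170002000100010001800000000000000) := T_41 (nat_lit 109) (nat_lit 92) (nat_lit 4) (nat_lit 8) (nat_lit 9) L111376 (by decide +kernel)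
theorem L111378 : W_41 (nat_lit 7) (nat_lit 0x30001300080004000200000000000000000000000) (nat_lit 0x0) (nat_lit 0x480170002000500030001800000000000000) := T_41 (nat_lit 77) (nat_lit 94) (nat_lit 6) (nat_lit 8) (nat_lit 8) L111377 (by decide +kernel)
theorem L111379 : W_41 (nat_lit 2) (nat_lit 0x380013000e0006000200030000000000000000000) (nat_lit 0x0) (nat_lit 0x100000000400100000000000000000000000000000000) := D_41 (nat_lit 142) (nat_lit 128) (nat_lit 176) (nat_lit 1) (nat_lit 9) (nat_lit 7) (nat_lit 6) (nat_lit 6) (nat_lit 10) (by decide +kernel)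
theorem L111380 : W_41 (nat_lit 3) (nat_lit 0x380013000c0006000200030000000000000000000) (nat_lit 0x0) (nat_lit 0x100000000400130000000000000000000000000000000) := T_41 (nat_lit 125) (nat_lit 124) (nat_lit 1) (nat_lit 8) (nat_lit 7) L111379 (by decide +kernel)
theorem L111381 : W_41 (nat_lit 4) (nat_lit 0x38001300080006000200030000000000000000000) (nat_lit 0x0) (nat_lit 0x100000000400170000000000000000800000000000000) := T_41 (nat_lit 126) (nat_lit 59) (nat_lit 5) (nat_lit 8) (nat_lit 3) L111380 (by decide +kernel)
theorem L111382 : W_41 (nat_lit 5) (nat_lit 0x38001300080006000200020000000000000000000) (nat_lit 0x0) (nat_lit 0x100000000400170000000000010001800000000000000) := T_41 (nat_lit 76) (nat_lit 60) (nat_lit 6) (nat_lit 8) (nat_lit 7) L111381 (by decide +kernel)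
theorem L111383 : W_41 (nat_lit 6) (nat_lit 0x38001300080006000200000000000000000000000) (nat_lit 0x0) (nat_lit 0x100000000400170000000400030001800000000000000) := T_41 (nat_lit 77) (nat_lit 94) (nat_lit 6) (nat_lit 8) (nat_lit 8) L111382 (by decide +kernel)
theorem L111384 : W_41 (nat_lit 7) (nat_lit 0x30001300080006000200000000000000000000000) (nat_lit 0x0) (nat_lit 0x10000c000400170000000400030001800000000000000) := T_41 (nat_lit 159) (nat_lit 158) (nat_lit 0) (nat_lit 8) (nat_lit 9) L111383 (by decide +kernel)
theorem L111385 : W_41 (nat_lit 8) (nat_lit 0x30001300080004000200000000000000000000000) (nat_lit 0x0) (nat_lit 0x10000c000400170002000500030001800000000000000) := T_41 (nat_lit 109) (nat_lit 92) (nat_lit 4) (nat_lit 8) (nat_lit 9) L111384 (by decide +kernel)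
theorem L111386 : W_41 (nat_lit 13) (nat_lit 0x30001200080004000200000000000000000000000) (nat_lit 0x0) (nat_lit 0x60003c001e000fe005e017e003f01df8037001880000000000000) := Q_41 (nat_lit 140) (C_41 L111238 (C_41 L111245 (C_41 L111253 (C_41 L111292 (C_41 L111325 (C_41 L111337 (C_41 L111371 (C_41 L111372 (C_41 L111378 (C_41 L111385 N_41)))))))))) (by decide +kernel)
theorem L111387 : W_41 (nat_lit 2) (nat_lit 0x30001200080004000200028000000000000000000) (nat_lit 0x0) (nat_lit 0x10001400000000000000) := D_41 (nat_lit 76) (nat_lit 60) (nat_lit 58) (nat_lit 6) (nat_lit 8) (nat_lit 7) (nat_lit 4) (nat_lit 8) (nat_lit 7) (by decide +kernel)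
theorem L111388 : W_41 (nat_lit 3) (nat_lit 0x30001200080004000200020000000000000000000) (nat_lit 0x0) (nat_lit 0x100018001400000000000000) := T_41 (nat_lit 75) (nat_lit 92) (nat_lit 4) (nat_lit 8) (nat_lit 8) L111387 (by decide +kernel)
theorem L111389 : W_41 (nat_lit 4) (nat_lit 0x30001200080004000200000000000000000000000) (nat_lit 0x0) (nat_lit 0x500038001400000000000000) := T_41 (nat_lit 77) (nat_lit 94) (nat_lit 6) (nat_lit 8) (nat_lit 8) L111388 (by decide +kernel)
theorem L111390 : W_41 (nat_lit 14) (nat_lit 0x30001200080004000000000000000000000000000) (nat_lit 0x0) (nat_lit 0xa00070003c001e000fe005e017f003f01ff80ff001f80020000000000) := Q_41 (nat_lit 93) (C_41 L110939 (C_41 L111222 (C_41 L111386 (C_41 L111389 N_41)))) (by decide +kernel)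
theorem L111391 : W_41 (nat_lit 2) (nat_lit 0x7c001200080004000000000000000000000000000) (nat_lit 0x0) (nat_lit 0x1c0000000000000000000000000000000000000000000) := D_41 (nat_lit 175) (nat_lit 176) (nat_lit 174) (nat_lit 1) (nat_lit 9) (nat_lit 9) (nat_lit 1) (nat_lit 8) (nat_lit 9) (by decide +kernel)
theorem L111392 : W_41 (nat_lit 3) (nat_lit 0x78001200080004000000000000000000000000000) (nat_lit 0x0) (nat_lit 0x1c0004000100000000000000000000000000000000000) := T_41 (nat_lit 158) (nat_lit 140) (nat_lit 0) (nat_lit 8) (nat_lit 9) L111391 (by decide +kernel)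
theorem L111393 : W_41 (nat_lit 4) (nat_lit 0x70001200080004000000000000000000000000000) (nat_lit 0x0) (nat_lit 0x1c000c000500000000000000000000000000000000000) := T_41 (nat_lit 159) (nat_lit 142) (nat_lit 0) (nat_lit 9) (nat_lit 9) L111392 (by decide +kernel)
theorem L111394 : W_41 (nat_lit 5) (nat_lit 0x30001200080004000000000000000000000000000) (nat_lit 0x0) (nat_lit 0x9c004c000500000000000000000000000000000000000) := T_41 (nat_lit 162) (nat_lit 179) (nat_lit 7) (nat_lit 8) (nat_lit 6) L111393 (by decide +kernel)
theorem L111395 : W_41 (nat_lit 2) (nat_lit 0x7c001200080004000200000000000000000000000) (nat_lit 0x0) (nat_lit 0x1c0000000000000000000000000000000000000000000) := D_41 (nat_lit 175) (nat_lit 174) (nat_lit 176) (nat_lit 1) (nat_lit 8) (nat_lit 9) (nat_lit 1) (nat_lit 9) (nat_lit 9) (by decide +kernel)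
theorem L111396 : W_41 (nat_lit 3) (nat_lit 0x74001200080004000200000000000000000000000) (nat_lit 0x0) (nat_lit 0x1c0008000100000000000000000000000000000000000) := T_41 (nat_lit 159) (nat_lit 140) (nat_lit 0) (nat_lit 8) (nat_lit 9) L111395 (by decide +kernel)
theorem L111397 : W_41 (nat_lit 4) (nat_lit 0x34001200080004000200000000000000000000000) (nat_lit 0x0) (nat_lit 0x9c0048000100000000000000000000000000000000000) := T_41 (nat_lit 162) (nat_lit 179) (nat_lit 7) (nat_lit 8) (nat_lit 6) L111396 (by decide +kernel)
theorem L111398 : W_41 (nat_lit 2) (nat_lit 0x76001200090005800640010000000000000000000) (nat_lit 0x0) (nat_lit 0x400020001000000000000000000) := D_41 (nat_lit 89) (nat_lit 72) (nat_lit 106) (nat_lit 4) (nat_lit 5) (nat_lit 8) (nat_lit 4) (nat_lit 5) (nat_lit 9) (by decide +kernel)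
theorem L111399 : W_41 (nat_lit 3) (nat_lit 0x76001200090005800600010000000000000000000) (nat_lit 0x0) (nat_lit 0x100000000400060001000000000000000000) := T_41 (nat_lit 90) (nat_lit 140) (nat_lit 5) (nat_lit 5) (nat_lit 5) L111398 (by decide +kernel)
theorem L111400 : W_41 (nat_lit 4) (nat_lit 0x74001200090005800600010000000000000000000) (nat_lit 0x0) (nat_lit 0x40002000100000000400060001000000000000000000) := T_41 (nat_lit 157) (nat_lit 174) (nat_lit 5) (nat_lit 5) (nat_lit 6) L111399 (by decide +kernel)
theorem L111401 : W_41 (nat_lit 5) (nat_lit 0x74001200080005800600010000000000000000000) (nat_lit 0x0) (nat_lit 0x400020001000100004000e0001000000000000000000) := T_41 (nat_lit 124) (nat_lit 91) (nat_lit 6) (nat_lit 5) (nat_lit 9) L111400 (by decide +kernel)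
theorem L111402 : W_41 (nat_lit 6) (nat_lit 0x74001200080004800600010000000000000000000) (nat_lit 0x0) (nat_lit 0x400020001000100034000e0001000000000000000000) := T_41 (nat_lit 108) (nat_lit 109) (nat_lit 2) (nat_lit 5) (nat_lit 6) L111401 (by decide +kernel)
theorem L111403 : W_41 (nat_lit 7) (nat_lit 0x74001200080004800200010000000000000000000) (nat_lit 0x0) (nat_lit 0x400020001000100034004e0021000000000000000000) := T_41 (nat_lit 94) (nat_lit 77) (nat_lit 6) (nat_lit 8) (nat_lit 8) L111402 (by decide +kernel)
theorem L111404 : W_41 (nat_lit 8) (nat_lit 0x34001200080004800200010000000000000000000) (nat_lit 0x0) (nat_lit 0x8400420001000100034004e0021000000000000000000) := T_41 (nat_lit 162) (nat_lit 179) (nat_lit 7) (nat_lit 8) (nat_lit 6) L111403 (by decide +kernel)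
theorem L111405 : W_41 (nat_lit 2) (nat_lit 0x740012000f00044002000b0000d00000000000000) (nat_lit 0x0) (nat_lit 0x80000000000008000200000000000000000000000000) := D_41 (nat_lit 123) (nat_lit 105) (nat_lit 175) (nat_lit 0) (nat_lit 7) (nat_lit 7) (nat_lit 4) (nat_lit 5) (nat_lit 10) (by decide +kernel)
theorem L111406 : W_41 (nat_lit 3) (nat_lit 0x740012000f00040002000b0000d00000000000000) (nat_lit 0x0) (nat_lit 0x80000000000008000e00000000000000000000000000) := T_41 (nat_lit 106) (nat_lit 107) (nat_lit 0) (nat_lit 8) (nat_lit 7) L111405 (by decide +kernel)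
theorem L111407 : W_41 (nat_lit 4) (nat_lit 0x740012000d00040002000b0000d00000000000000) (nat_lit 0x0) (nat_lit 0x80000000100028000e00000000000000000000000000) := T_41 (nat_lit 125) (nat_lit 140) (nat_lit 1) (nat_lit 8) (nat_lit 7) L111406 (by decide +kernel)
theorem L111408 : W_41 (nat_lit 5) (nat_lit 0x740012000d0004000200030000d00000000000000) (nat_lit 0x0) (nat_lit 0x80000000100028000e000000c0000000000000000000) := T_41 (nat_lit 79) (nat_lit 78) (nat_lit 0) (nat_lit 11) (nat_lit 4) L111407 (by decide +kernel)
theorem L111409 : W_41 (nat_lit 6) (nat_lit 0x74001200090004000200030000d00000000000000) (nat_lit 0x0) (nat_lit 0x80000000100068002e000000c0000000000000000000) := T_41 (nat_lit 126) (nat_lit 109) (nat_lit 5) (nat_lit 8) (nat_lit 3) L111408 (by decide +kernel)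
theorem L111410 : W_41 (nat_lit 7) (nat_lit 0x74001200090004000200030000c00000000000000) (nat_lit 0x0) (nat_lit 0x80000000100068002e000000c0000300000000000000) := T_41 (nat_lit 56) (nat_lit 57) (nat_lit 3) (nat_lit 5) (nat_lit 3) L111409 (by decide +kernel)
theorem L111411 : W_41 (nat_lit 8) (nat_lit 0x74001200090004000200030000400000000000000) (nat_lit 0x0) (nat_lit 0x80000000100068002e000000c0000b00020000000000) := T_41 (nat_lit 59) (nat_lit 41) (nat_lit 4) (nat_lit 8) (nat_lit 6) L111410 (by decide +kernel)
theorem L111412 : W_41 (nat_lit 9) (nat_lit 0x74001200090004000200030000000000000000000) (nat_lit 0x0) (nat_lit 0x80000000100068002e000000c8000f00020000000000) := T_41 (nat_lit 58) (nat_lit 75) (nat_lit 4) (nat_lit 8) (nat_lit 7) L111411 (by decide +kernel)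
theorem L111413 : W_41 (nat_lit 10) (nat_lit 0x74001200090004000200020000000000000000000) (nat_lit 0x0) (nat_lit 0x80000000100068002e000000d8001f00020000000000) := T_41 (nat_lit 76) (nat_lit 60) (nat_lit 6) (nat_lit 8) (nat_lit 7) L111412 (by decide +kernel)
theorem L111414 : W_41 (nat_lit 11) (nat_lit 0x34001200090004000200020000000000000000000) (nat_lit 0x0) (nat_lit 0x880040000100068002e000000d8001f00020000000000) := T_41 (nat_lit 162) (nat_lit 179) (nat_lit 7) (nat_lit 8) (nat_lit 6) L111413 (by decide +kernel)
theorem L111415 : W_41 (nat_lit 12) (nat_lit 0x34001200090004000200000000000000000000000) (nat_lit 0x0) (nat_lit 0x880040000100068002e004000f8001f00020000000000) := T_41 (nat_lit 77) (nat_lit 94) (nat_lit 6) (nat_lit 8) (nat_lit 8) L111414 (by decide +kernel)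
theorem L111416 : W_41 (nat_lit 2) (nat_lit 0x28000800740012000f0004000200030000c00000000000000) (nat_lit 0x0) (nat_lit 0x50001000000000000000000000000000000000000000000000000) := D_41 (nat_lit 192) (nat_lit 208) (nat_lit 210) (nat_lit 5) (nat_lit 5) (nat_lit 8) (nat_lit 7) (nat_lit 5) (nat_lit 8) (by decide +kernel)
theorem L111417 : W_41 (nat_lit 3) (nat_lit 0x8000800740012000f0004000200030000c00000000000000) (nat_lit 0x0) (nat_lit 0x50003000100000000000000000000000000000000000000000000) := T_41 (nat_lit 193) (nat_lit 176) (nat_lit 7) (nat_lit 5) (nat_lit 7) L111416 (by decide +kernel)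
theorem L111418 : W_41 (nat_lit 4) (nat_lit 0x800740012000f0004000200030000c00000000000000) (nat_lit 0x0) (nat_lit 0x50003800140000000000000000000000000000000000000000000) := T_41 (nat_lit 191) (nat_lit 174) (nat_lit 5) (nat_lit 5) (nat_lit 7) L111417 (by decide +kernel)
theorem L111419 : W_41 (nat_lit 5) (nat_lit 0x740012000f0004000200030000c00000000000000) (nat_lit 0x0) (nat_lit 0x500038001c0000000000000001000000000000000000000000000) := T_41 (nat_lit 175) (nat_lit 108) (nat_lit 6) (nat_lit 5) (nat_lit 10) L111418 (by decide +kernel)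
theorem L111420 : W_41 (nat_lit 6) (nat_lit 0x740012000d0004000200030000c00000000000000) (nat_lit 0x0) (nat_lit 0x500038001c0000000100020001000000000000000000000000000) := T_41 (nat_lit 125) (nat_lit 140) (nat_lit 1) (nat_lit 8) (nat_lit 7) L111419 (by decide +kernel)
theorem L111421 : W_41 (nat_lit 7) (nat_lit 0x74001200090004000200030000c00000000000000) (nat_lit 0x0) (nat_lit 0x500038001c0000000100060003000000000000000000000000000) := T_41 (nat_lit 126) (nat_lit 109) (nat_lit 5) (nat_lit 8) (nat_lit 3) L111420 (by decide +kernel)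
theorem L111422 : W_41 (nat_lit 8) (nat_lit 0x74001200090004000200030000400000000000000) (nat_lit 0x0) (nat_lit 0x500038001c0000000100060003000000000000800020000000000) := T_41 (nat_lit 59) (nat_lit 41) (nat_lit 4) (nat_lit 8) (nat_lit 6) L111421 (by decide +kernel)
theorem L111423 : W_41 (nat_lit 9) (nat_lit 0x74001200090004000200030000000000000000000) (nat_lit 0x0) (nat_lit 0x500038001c0000000100060003000000008000c00020000000000) := T_41 (nat_lit 58) (nat_lit 75) (nat_lit 4) (nat_lit 8) (nat_lit 7) L111422 (by decide +kernel)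
theorem L111424 : W_41 (nat_lit 10) (nat_lit 0x74001200090004000200020000000000000000000) (nat_lit 0x0) (nat_lit 0x500038001c0000000100060003000000018001c00020000000000) := T_41 (nat_lit 76) (nat_lit 60) (nat_lit 6) (nat_lit 8) (nat_lit 7) L111423 (by decide +kernel)
theorem L111425 : W_41 (nat_lit 11) (nat_lit 0x74001200090004000200000000000000000000000) (nat_lit 0x0) (nat_lit 0x500038001c0000000100060003000400038001c00020000000000) := T_41 (nat_lit 77) (nat_lit 94) (nat_lit 6) (nat_lit 8) (nat_lit 8) L111424 (by decide +kernel)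
theorem L111426 : W_41 (nat_lit 12) (nat_lit 0x34001200090004000200000000000000000000000) (nat_lit 0x0) (nat_lit 0x500038009c0040000100060003000400038001c00020000000000) := T_41 (nat_lit 162) (nat_lit 179) (nat_lit 7) (nat_lit 8) (nat_lit 6) L111425 (by decide +kernel)
theorem L111427 : W_41 (nat_lit 2) (nat_lit 0x36001200090004800640000000000000000000000) (nat_lit 0x0) (nat_lit 0x1000080004000000000000000000) := D_41 (nat_lit 91) (nat_lit 108) (nat_lit 74) (nat_lit 6) (nat_lit 5) (nat_lit 9) (nat_lit 6) (nat_lit 5) (nat_lit 8) (by decide +kernel)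
theorem L111428 : W_41 (nat_lit 3) (nat_lit 0x36001200090004800600000000000000000000000) (nat_lit 0x0) (nat_lit 0x1000000010000c0004000000000000000000) := T_41 (nat_lit 90) (nat_lit 140) (nat_lit 5) (nat_lit 5) (nat_lit 5) L111427 (by decide +kernel)
theorem L111429 : W_41 (nat_lit 4) (nat_lit 0x34001200090004800600000000000000000000000) (nat_lit 0x0) (nat_lit 0x400020001000000010000c0004000000000000000000) := T_41 (nat_lit 157) (nat_lit 174) (nat_lit 5) (nat_lit 5) (nat_lit 6) L111428 (by decide +kernel)
theorem L111430 : W_41 (nat_lit 5) (nat_lit 0x34001200090004800200000000000000000000000) (nat_lit 0x0) (nat_lit 0x400020001000000010004c0024000000000000000000) := T_41 (nat_lit 94) (nat_lit 77) (nat_lit 6) (nat_lit 8) (nat_lit 8) L111429 (by decide +kernel)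
theorem L111431 : W_41 (nat_lit 2) (nat_lit 0x80034001200090005800600000000000000000000000) (nat_lit 0x0) (nat_lit 0x8000400020000000000000000000000) := D_41 (nat_lit 106) (nat_lit 123) (nat_lit 89) (nat_lit 4) (nat_lit 5) (nat_lit 10) (nat_lit 4) (nat_lit 5) (nat_lit 9) (by decide +kernel)
theorem L111432 : W_41 (nat_lit 3) (nat_lit 0x34001200090005800600000000000000000000000) (nat_lit 0x0) (nat_lit 0x80000000000028000400020000000000000000000000) := T_41 (nat_lit 175) (nat_lit 125) (nat_lit 6) (nat_lit 5) (nat_lit 10) L111431 (by decide +kernel)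
theorem L111433 : W_41 (nat_lit 4) (nat_lit 0x34001200090005800200000000000000000000000) (nat_lit 0x0) (nat_lit 0x80000000000028000400420020000000000000000000) := T_41 (nat_lit 94) (nat_lit 77) (nat_lit 6) (nat_lit 8) (nat_lit 8) L111432 (by decide +kernel)
theorem L111434 : W_41 (nat_lit 5) (nat_lit 0x34001200090004800200000000000000000000000) (nat_lit 0x0) (nat_lit 0x800000000000280014004a0020000000000000000000) := T_41 (nat_lit 108) (nat_lit 91) (nat_lit 6) (nat_lit 5) (nat_lit 9) L111433 (by decide +kernel)
theorem L111435 : W_41 (nat_lit 6) (nat_lit 0x34001200090004000200000000000000000000000) (nat_lit 0x0) (nat_lit 0x8000c0002000100068001c004e0025000000000000000000) := Q_41 (nat_lit 107) (C_41 L111052 (C_41 L111049 (C_41 L111430 (C_41 L111434 N_41)))) (by decide +kernel)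
theorem L111436 : W_41 (nat_lit 13) (nat_lit 0x34001200080004000200000000000000000000000) (nat_lit 0x0) (nat_lit 0x500038009c0042000100178003e004e00fd001f00020000000000) := Q_41 (nat_lit 124) (C_41 L111113 (C_41 L111415 (C_41 L111426 (C_41 L111435 (C_41 L111068 N_41))))) (by decide +kernel)
theorem L111437 : W_41 (nat_lit 2) (nat_lit 0x4007c001200080006801600010000c00000000000000) (nat_lit 0x0) (nat_lit 0x20002000000010000000000000000000000000000000) := D_41 (nat_lit 157) (nat_lit 173) (nat_lit 124) (nat_lit 1) (nat_lit 7) (nat_lit 9) (nat_lit 5) (nat_lit 5) (nat_lit 6) (by decide +kernel)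
theorem L111438 : W_41 (nat_lit 3) (nat_lit 0x7c001200080006801600010000c00000000000000) (nat_lit 0x0) (nat_lit 0xe0002000000010000000000000000000000000000000) := T_41 (nat_lit 174) (nat_lit 175) (nat_lit 1) (nat_lit 8) (nat_lit 9) L111437 (by decide +kernel)
theorem L111439 : W_41 (nat_lit 4) (nat_lit 0x7c001200080006800600010000c00000000000000) (nat_lit 0x0) (nat_lit 0xe0002000000010000001800000000000000000000000) := T_41 (nat_lit 96) (nat_lit 95) (nat_lit 1) (nat_lit 11) (nat_lit 5) L111438 (by decide +kernel)
theorem L111440 : W_41 (nat_lit 5) (nat_lit 0x7c001200080006000600010000c00000000000000) (nat_lit 0x0) (nat_lit 0xe0002000000010001801800000000000000000000000) := T_41 (nat_lit 107) (nat_lit 108) (nat_lit 2) (nat_lit 5) (nat_lit 6) L111439 (by decide +kernel)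
theorem L111441 : W_41 (nat_lit 6) (nat_lit 0x7c001200080004000600010000c00000000000000) (nat_lit 0x0) (nat_lit 0xe0002000000050003801800000000000000000000000) := T_41 (nat_lit 109) (nat_lit 126) (nat_lit 5) (nat_lit 8) (nat_lit 3) L111440 (by decide +kernel)
theorem L111442 : W_41 (nat_lit 7) (nat_lit 0x74001200080004000600010000c00000000000000) (nat_lit 0x0) (nat_lit 0xe000a000100050003801800000000000000000000000) := T_41 (nat_lit 159) (nat_lit 140) (nat_lit 0) (nat_lit 8) (nat_lit 9) L111441 (by decide +kernel)
theorem L111443 : W_41 (nat_lit 8) (nat_lit 0x74001200080004000600010000400000000000000) (nat_lit 0x0) (nat_lit 0xe000a000100050003801800000000800020000000000) := T_41 (nat_lit 59) (nat_lit 41) (nat_lit 4) (nat_lit 8) (nat_lit 6) L111442 (by decide +kernel)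
theorem L111444 : W_41 (nat_lit 9) (nat_lit 0x34001200080004000600010000400000000000000) (nat_lit 0x0) (nat_lit 0x8e004a000100050003801800000000800020000000000) := T_41 (nat_lit 162) (nat_lit 179) (nat_lit 7) (nat_lit 8) (nat_lit 6) L111443 (by decide +kernel)
theorem L111445 : W_41 (nat_lit 10) (nat_lit 0x34001200080004000600010000000000000000000) (nat_lit 0x0) (nat_lit 0x8e004a000100050003801800008000c00020000000000) := T_41 (nat_lit 58) (nat_lit 75) (nat_lit 4) (nat_lit 8) (nat_lit 7) L111444 (by decide +kernel)
theorem L111446 : W_41 (nat_lit 11) (nat_lit 0x34001200080004000200010000000000000000000) (nat_lit 0x0) (nat_lit 0x8e004a000100050003801c00028000c00020000000000) := T_41 (nat_lit 94) (nat_lit 77) (nat_lit 6) (nat_lit 8) (nat_lit 8) L111445 (by decide +kernel)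
theorem L111447 : W_41 (nat_lit 12) (nat_lit 0x34001200080004000200000000000000000000000) (nat_lit 0x0) (nat_lit 0x100008008e004a000100150003801c00038001c000a0000000000) := Q_41 (nat_lit 76) (C_41 L111446 (C_41 L111044 (C_41 L111021 (C_41 L111031 N_41)))) (by decide +kernel)
theorem L111448 : W_41 (nat_lit 2) (nat_lit 0x8003c001200080004000600000000000000000000000) (nat_lit 0x0) (nat_lit 0x900040000000000000000000000000000000000000000) := D_41 (nat_lit 162) (nat_lit 179) (nat_lit 176) (nat_lit 7) (nat_lit 8) (nat_lit 6) (nat_lit 1) (nat_lit 9) (nat_lit 9) (by decide +kernel)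
theorem L111449 : W_41 (nat_lit 3) (nat_lit 0x80034001200080004000600000000000000000000000) (nat_lit 0x0) (nat_lit 0x940048000000000000000000000000000000000000000) := T_41 (nat_lit 159) (nat_lit 174) (nat_lit 1) (nat_lit 8) (nat_lit 9) L111448 (by decide +kernel)
theorem L111450 : W_41 (nat_lit 4) (nat_lit 0x80034001200080004000200000000000000000000000) (nat_lit 0x0) (nat_lit 0x940048000000000000000400020000000000000000000) := T_41 (nat_lit 94) (nat_lit 77) (nat_lit 6) (nat_lit 8) (nat_lit 8) L111449 (by decide +kernel)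
theorem L111451 : W_41 (nat_lit 2) (nat_lit 0x3000080074001200098004000200000000000000000000000) (nat_lit 0x0) (nat_lit 0x10000800040000000000000000000000000000000000000000000) := D_41 (nat_lit 191) (nat_lit 208) (nat_lit 174) (nat_lit 5) (nat_lit 5) (nat_lit 8) (nat_lit 5) (nat_lit 5) (nat_lit 7) (by decide +kernel)
theorem L111452 : W_41 (nat_lit 3) (nat_lit 0x2000080074001200098004000200000000000000000000000) (nat_lit 0x0) (nat_lit 0x50001800040000000000000000000000000000000000000000000) := T_41 (nat_lit 192) (nat_lit 210) (nat_lit 7) (nat_lit 5) (nat_lit 8) L111451 (by decide +kernel)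
theorem L111453 : W_41 (nat_lit 4) (nat_lit 0x2000080074001200090004000200000000000000000000000) (nat_lit 0x0) (nat_lit 0x50001800040000000000008000400000000000000000000000000) := T_41 (nat_lit 123) (nat_lit 106) (nat_lit 4) (nat_lit 5) (nat_lit 10) L111452 (by decide +kernel)
theorem L111454 : W_41 (nat_lit 5) (nat_lit 0x80074001200090004000200000000000000000000000) (nat_lit 0x0) (nat_lit 0x50003800140000000000008000400000000000000000000000000) := T_41 (nat_lit 193) (nat_lit 176) (nat_lit 7) (nat_lit 5) (nat_lit 7) L111453 (by decide +kernel)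
theorem L111455 : W_41 (nat_lit 6) (nat_lit 0x80034001200090004000200000000000000000000000) (nat_lit 0x0) (nat_lit 0x50003800940040000000008000400000000000000000000000000) := T_41 (nat_lit 162) (nat_lit 179) (nat_lit 7) (nat_lit 8) (nat_lit 6) L111454 (by decide +kernel)
theorem L111456 : W_41 (nat_lit 2) (nat_lit 0xc0034001200090004800200000000000000000000000) (nat_lit 0x0) (nat_lit 0x20001000080000000000000000000000) := D_41 (nat_lit 108) (nat_lit 125) (nat_lit 91) (nat_lit 6) (nat_lit 5) (nat_lit 10) (nat_lit 6) (nat_lit 5) (nat_lit 9) (by decide +kernel)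
theorem L111457 : W_41 (nat_lit 3) (nat_lit 0xc0034001200090004000200000000000000000000000) (nat_lit 0x0) (nat_lit 0x2000000020001800080000000000000000000000) := T_41 (nat_lit 107) (nat_lit 157) (nat_lit 5) (nat_lit 5) (nat_lit 6) L111456 (by decide +kernel)
theorem L111458 : W_41 (nat_lit 4) (nat_lit 0x80034001200090004000200000000000000000000000) (nat_lit 0x0) (nat_lit 0x800040002000000020001800080000000000000000000000) := T_41 (nat_lit 174) (nat_lit 191) (nat_lit 5) (nat_lit 5) (nat_lit 7) L111457 (by decide +kernel)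
theorem L111459 : W_41 (nat_lit 2) (nat_lit 0x180074001200098005000600000000000000000000000) (nat_lit 0x0) (nat_lit 0x2800080000000000000000000000) := D_41 (nat_lit 107) (nat_lit 91) (nat_lit 109) (nat_lit 6) (nat_lit 5) (nat_lit 9) (nat_lit 2) (nat_lit 5) (nat_lit 6) (by decide +kernel)
theorem L111460 : W_41 (nat_lit 3) (nat_lit 0x180074001200098004000600000000000000000000000) (nat_lit 0x0) (nat_lit 0x20003800080000000000000000000000) := T_41 (nat_lit 108) (nat_lit 125) (nat_lit 6) (nat_lit 5) (nat_lit 10) L111459 (by decide +kernel)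
theorem L111461 : W_41 (nat_lit 4) (nat_lit 0x180074001200098004000200000000000000000000000) (nat_lit 0x0) (nat_lit 0x20003800480020000000000000000000) := T_41 (nat_lit 94) (nat_lit 77) (nat_lit 6) (nat_lit 8) (nat_lit 8) L111460 (by decide +kernel)
theorem L111462 : W_41 (nat_lit 5) (nat_lit 0x80074001200098004000200000000000000000000000) (nat_lit 0x0) (nat_lit 0x2000100000000000020003800480020000000000000000000) := T_41 (nat_lit 176) (nat_lit 193) (nat_lit 7) (nat_lit 5) (nat_lit 7) L111461 (by decide +kernel)
theorem L111463 : W_41 (nat_lit 6) (nat_lit 0x80074001200090004000200000000000000000000000) (nat_lit 0x0) (nat_lit 0x2000100000000000028003c00480020000000000000000000) := T_41 (nat_lit 123) (nat_lit 106) (nat_lit 4) (nat_lit 5) (nat_lit 10) L111462 (by decide +kernel)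
theorem L111464 : W_41 (nat_lit 7) (nat_lit 0x80034001200090004000200000000000000000000000) (nat_lit 0x0) (nat_lit 0x2000900040000000028003c00480020000000000000000000) := T_41 (nat_lit 162) (nat_lit 179) (nat_lit 7) (nat_lit 8) (nat_lit 6) L111463 (by decide +kernel)
theorem L111465 : W_41 (nat_lit 8) (nat_lit 0x80034001200080004000200000000000000000000000) (nat_lit 0x0) (nat_lit 0x50003800940042000000038003c004a0020000000000000000000) := Q_41 (nat_lit 124) (C_41 L111455 (C_41 L111085 (C_41 L111458 (C_41 L111464 N_41)))) (by decide +kernel)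
theorem L111466 : W_41 (nat_lit 2) (nat_lit 0x1800740012000b0004400600000000000000000000000) (nat_lit 0x0) (nat_lit 0x40000800020000000000000000000000) := D_41 (nat_lit 107) (nat_lit 89) (nat_lit 126) (nat_lit 4) (nat_lit 5) (nat_lit 9) (nat_lit 0) (nat_lit 8) (nat_lit 7) (by decide +kernel)
theorem L111467 : W_41 (nat_lit 3) (nat_lit 0x1800740012000b0004000600000000000000000000000) (nat_lit 0x0) (nat_lit 0x48000c00020000000000000000000000) := T_41 (nat_lit 106) (nat_lit 123) (nat_lit 4) (nat_lit 5) (nat_lit 10) L111466 (by decide +kernel)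
theorem L111468 : W_41 (nat_lit 4) (nat_lit 0x180074001200090004000600000000000000000000000) (nat_lit 0x0) (nat_lit 0x68001c00020000000000000000000000) := T_41 (nat_lit 125) (nat_lit 108) (nat_lit 6) (nat_lit 5) (nat_lit 10) L111467 (by decide +kernel)
theorem L111469 : W_41 (nat_lit 5) (nat_lit 0x180074001200080004000600000000000000000000000) (nat_lit 0x0) (nat_lit 0x2000000000000000078001c00020000000000000000000000) := T_41 (nat_lit 124) (nat_lit 193) (nat_lit 7) (nat_lit 5) (nat_lit 7) L111468 (by decide +kernel)
theorem L111470 : W_41 (nat_lit 6) (nat_lit 0x180074001200080004000200000000000000000000000) (nat_lit 0x0) (nat_lit 0x2000000000000000078001c00420020000000000000000000) := T_41 (nat_lit 94) (nat_lit 77) (nat_lit 6) (nat_lit 8) (nat_lit 8) L111469 (by decide +kernel)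
theorem L111471 : W_41 (nat_lit 7) (nat_lit 0x80074001200080004000200000000000000000000000) (nat_lit 0x0) (nat_lit 0x2000100008000000078001c00420020000000000000000000) := T_41 (nat_lit 176) (nat_lit 159) (nat_lit 1) (nat_lit 9) (nat_lit 9) L111470 (by decide +kernel)
theorem L111472 : W_41 (nat_lit 8) (nat_lit 0x80034001200080004000200000000000000000000000) (nat_lit 0x0) (nat_lit 0x2000900048000000078001c00420020000000000000000000) := T_41 (nat_lit 162) (nat_lit 179) (nat_lit 7) (nat_lit 8) (nat_lit 6) L111471 (by decide +kernel)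
theorem L111473 : W_41 (nat_lit 9) (nat_lit 0x34001200080004000200000000000000000000000) (nat_lit 0x0) (nat_lit 0x500038009c004a000000078003c004a0020000000000000000000) := Q_41 (nat_lit 175) (C_41 L111020 (C_41 L111450 (C_41 L111465 (C_41 L111472 N_41)))) (by decide +kernel)
theorem L111474 : W_41 (nat_lit 2) (nat_lit 0x3400120009000580160001a000000000000000000) (nat_lit 0x0) (nat_lit 0x100008000100000000000000000000000000000000000) := D_41 (nat_lit 159) (nat_lit 140) (nat_lit 176) (nat_lit 0) (nat_lit 8) (nat_lit 9) (nat_lit 7) (nat_lit 5) (nat_lit 6) (by decide +kernel)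
theorem L111475 : W_41 (nat_lit 3) (nat_lit 0x3400120008000580160001a000000000000000000) (nat_lit 0x0) (nat_lit 0x100008000100010000000080000000000000000000000) := T_41 (nat_lit 124) (nat_lit 91) (nat_lit 6) (nat_lit 5) (nat_lit 9) L111474 (by decide +kernel)
theorem L111476 : W_41 (nat_lit 4) (nat_lit 0x3400120008000580060001a000000000000000000) (nat_lit 0x0) (nat_lit 0x100008000100010000001880000000000000000000000) := T_41 (nat_lit 96) (nat_lit 95) (nat_lit 0) (nat_lit 11) (nat_lit 5) L111475 (by decide +kernel)
theorem L111477 : W_41 (nat_lit 5) (nat_lit 0x34001200080005800600018000000000000000000) (nat_lit 0x0) (nat_lit 0x100008000100010000001880006000000000000000000) := T_41 (nat_lit 73) (nat_lit 74) (nat_lit 3) (nat_lit 5) (nat_lit 4) L111476 (by decide +kernel)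
theorem L111478 : W_41 (nat_lit 6) (nat_lit 0x34001200080005800600010000000000000000000) (nat_lit 0x0) (nat_lit 0x10000800010001000000188000e000400000000000000) := T_41 (nat_lit 75) (nat_lit 58) (nat_lit 4) (nat_lit 8) (nat_lit 7) L111477 (by decide +kernel)
theorem L111479 : W_41 (nat_lit 7) (nat_lit 0x34001200080004800600010000000000000000000) (nat_lit 0x0) (nat_lit 0x10000800010001000300188000e000400000000000000) := T_41 (nat_lit 108) (nat_lit 109) (nat_lit 2) (nat_lit 5) (nat_lit 6) L111478 (by decide +kernel)
theorem L111480 : W_41 (nat_lit 8) (nat_lit 0x34001200080004800200010000000000000000000) (nat_lit 0x0) (nat_lit 0x100008000100010003001c8002e000400000000000000) := T_41 (nat_lit 94) (nat_lit 77) (nat_lit 6) (nat_lit 8) (nat_lit 8) L111479 (by decide +kernel)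
theorem L111481 : W_41 (nat_lit 2) (nat_lit 0x7c00120009000480164001c000000000000000000) (nat_lit 0x0) (nat_lit 0x400020001000000000000000000) := D_41 (nat_lit 89) (nat_lit 72) (nat_lit 106) (nat_lit 4) (nat_lit 5) (nat_lit 8) (nat_lit 4) (nat_lit 5) (nat_lit 9) (by decide +kernel)
theorem L111482 : W_41 (nat_lit 3) (nat_lit 0x7c00120009000480160001c000000000000000000) (nat_lit 0x0) (nat_lit 0x4000e0001000000000000000000) := T_41 (nat_lit 90) (nat_lit 91) (nat_lit 6) (nat_lit 5) (nat_lit 8) L111481 (by decide +kernel)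
theorem L111483 : W_41 (nat_lit 4) (nat_lit 0x7c00120008000480160001c000000000000000000) (nat_lit 0x0) (nat_lit 0x1000000000000100004000e0001000000000000000000) := T_41 (nat_lit 124) (nat_lit 176) (nat_lit 7) (nat_lit 5) (nat_lit 6) L111482 (by decide +kernel)
theorem L111484 : W_41 (nat_lit 5) (nat_lit 0x7400120008000480160001c000000000000000000) (nat_lit 0x0) (nat_lit 0x1000080001000100004000e0001000000000000000000) := T_41 (nat_lit 159) (nat_lit 140) (nat_lit 0) (nat_lit 8) (nat_lit 9) L111483 (by decide +kernel)
theorem L111485 : W_41 (nat_lit 6) (nat_lit 0x7400120008000480060001c000000000000000000) (nat_lit 0x0) (nat_lit 0x1000080001000100004018e0001000000000000000000) := T_41 (nat_lit 96) (nat_lit 95) (nat_lit 0) (nat_lit 11) (nat_lit 5) L111484 (by decide +kernel)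
theorem L111486 : W_41 (nat_lit 7) (nat_lit 0x74001200080004800600018000000000000000000) (nat_lit 0x0) (nat_lit 0x1000080001000100004018e0007000000000000000000) := T_41 (nat_lit 74) (nat_lit 73) (nat_lit 3) (nat_lit 5) (nat_lit 4) L111485 (by decide +kernel)
theorem L111487 : W_41 (nat_lit 8) (nat_lit 0x74001200080004800200018000000000000000000) (nat_lit 0x0) (nat_lit 0x100008000100010000401ce0027000000000000000000) := T_41 (nat_lit 94) (nat_lit 77) (nat_lit 6) (nat_lit 8) (nat_lit 8) L111486 (by decide +kernel)
theorem L111488 : W_41 (nat_lit 9) (nat_lit 0x34001200080004800200018000000000000000000) (nat_lit 0x0) (nat_lit 0x900048000100010000401ce0027000000000000000000) := T_41 (nat_lit 162) (nat_lit 179) (nat_lit 7) (nat_lit 8) (nat_lit 6) L111487 (by decide +kernel)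
theorem L111489 : W_41 (nat_lit 10) (nat_lit 0x34001200080004800200010000000000000000000) (nat_lit 0x0) (nat_lit 0x900048000100010000401ce002f000400000000000000) := T_41 (nat_lit 75) (nat_lit 58) (nat_lit 4) (nat_lit 8) (nat_lit 7) L111488 (by decide +kernel)
theorem L111490 : W_41 (nat_lit 2) (nat_lit 0x3e0012000d0004c00200018000000000000000000) (nat_lit 0x0) (nat_lit 0x3000000000000800000000000000) := D_41 (nat_lit 109) (nat_lit 108) (nat_lit 59) (nat_lit 3) (nat_lit 4) (nat_lit 6) (nat_lit 5) (nat_lit 8) (nat_lit 3) (by decide +kernel)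
theorem L111491 : W_41 (nat_lit 3) (nat_lit 0x3e001200090004c00200018000000000000000000) (nat_lit 0x0) (nat_lit 0x60003000000000000800000000000000) := T_41 (nat_lit 126) (nat_lit 125) (nat_lit 0) (nat_lit 8) (nat_lit 7) L111490 (by decide +kernel)
theorem L111492 : W_41 (nat_lit 4) (nat_lit 0x3e001200090004800200018000000000000000000) (nat_lit 0x0) (nat_lit 0x60003400020000000800000000000000) := T_41 (nat_lit 106) (nat_lit 89) (nat_lit 4) (nat_lit 5) (nat_lit 9) L111491 (by decide +kernel)
theorem L111493 : W_41 (nat_lit 5) (nat_lit 0x3c001200090004800200018000000000000000000) (nat_lit 0x0) (nat_lit 0x40002000000060003400020000000800000000000000) := T_41 (nat_lit 157) (nat_lit 174) (nat_lit 5) (nat_lit 5) (nat_lit 6) L111492 (by decide +kernel)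
theorem L111494 : W_41 (nat_lit 6) (nat_lit 0x3c001200080004800200018000000000000000000) (nat_lit 0x0) (nat_lit 0x140002000000070003400020000000800000000000000) := T_41 (nat_lit 124) (nat_lit 176) (nat_lit 7) (nat_lit 5) (nat_lit 6) L111493 (by decide +kernel)
theorem L111495 : W_41 (nat_lit 7) (nat_lit 0x3c001200080004800200010000000000000000000) (nat_lit 0x0) (nat_lit 0x140002000000070003400020008000c00000000000000) := T_41 (nat_lit 75) (nat_lit 58) (nat_lit 4) (nat_lit 8) (nat_lit 7) L111494 (by decide +kernel)
theorem L111496 : W_41 (nat_lit 8) (nat_lit 0x34001200080004800200010000000000000000000) (nat_lit 0x0) (nat_lit 0x14000a000100070003400020008000c00000000000000) := T_41 (nat_lit 159) (nat_lit 140) (nat_lit 0) (nat_lit 8) (nat_lit 9) L111495 (by decide +kernel)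
theorem L111497 : W_41 (nat_lit 2) (nat_lit 0x7c001200080004800600010000c00000000000000) (nat_lit 0x0) (nat_lit 0x40003000000000000000000000000000) := D_41 (nat_lit 109) (nat_lit 108) (nat_lit 126) (nat_lit 2) (nat_lit 5) (nat_lit 6) (nat_lit 5) (nat_lit 8) (nat_lit 3) (by decide +kernel)
theorem L111498 : W_41 (nat_lit 3) (nat_lit 0x7c001200080004800200010000c00000000000000) (nat_lit 0x0) (nat_lit 0x40003000400020000000000000000000) := T_41 (nat_lit 94) (nat_lit 77) (nat_lit 6) (nat_lit 8) (nat_lit 8) L111497 (by decide +kernel)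
theorem L111499 : W_41 (nat_lit 4) (nat_lit 0x7c001200080004800200010000400000000000000) (nat_lit 0x0) (nat_lit 0x40003000400020000800020000000000) := T_41 (nat_lit 59) (nat_lit 41) (nat_lit 4) (nat_lit 8) (nat_lit 6) L111498 (by decide +kernel)
theorem L111500 : W_41 (nat_lit 5) (nat_lit 0x74001200080004800200010000400000000000000) (nat_lit 0x0) (nat_lit 0x8000100040003000400020000800020000000000) := T_41 (nat_lit 159) (nat_lit 140) (nat_lit 0) (nat_lit 8) (nat_lit 9) L111499 (by decide +kernel)
theorem L111501 : W_41 (nat_lit 6) (nat_lit 0x74001200080004800200010000000000000000000) (nat_lit 0x0) (nat_lit 0x8000100040003000400028000c00020000000000) := T_41 (nat_lit 58) (nat_lit 75) (nat_lit 4) (nat_lit 8) (nat_lit 7) L111500 (by decide +kernel)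
theorem L111502 : W_41 (nat_lit 7) (nat_lit 0x34001200080004800200010000000000000000000) (nat_lit 0x0) (nat_lit 0x800048000100040003000400028000c00020000000000) := T_41 (nat_lit 162) (nat_lit 179) (nat_lit 7) (nat_lit 8) (nat_lit 6) L111501 (by decide +kernel)
theorem L111503 : W_41 (nat_lit 2) (nat_lit 0x74001200080006800600010000400000000000000) (nat_lit 0x0) (nat_lit 0x40000000000000000800020000000000) := D_41 (nat_lit 59) (nat_lit 41) (nat_lit 126) (nat_lit 4) (nat_lit 8) (nat_lit 6) (nat_lit 5) (nat_lit 8) (nat_lit 3) (by decide +kernel)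
theorem L111504 : W_41 (nat_lit 3) (nat_lit 0x74001200080004800600010000400000000000000) (nat_lit 0x0) (nat_lit 0x40003000000000000800020000000000) := T_41 (nat_lit 109) (nat_lit 108) (nat_lit 2) (nat_lit 5) (nat_lit 6) L111503 (by decide +kernel)
theorem L111505 : W_41 (nat_lit 4) (nat_lit 0x74001200080004800200010000400000000000000) (nat_lit 0x0) (nat_lit 0x40003000400020000800020000000000) := T_41 (nat_lit 94) (nat_lit 77) (nat_lit 6) (nat_lit 8) (nat_lit 8) L111504 (by decide +kernel)
theorem L111506 : W_41 (nat_lit 5) (nat_lit 0x74001200080004800200010000000000000000000) (nat_lit 0x0) (nat_lit 0x40003000400028000c00020000000000) := T_41 (nat_lit 58) (nat_lit 75) (nat_lit 4) (nat_lit 8) (nat_lit 7) L111505 (by decide +kernel)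
theorem L111507 : W_41 (nat_lit 6) (nat_lit 0x34001200080004800200010000000000000000000) (nat_lit 0x0) (nat_lit 0x800040000000040003000400028000c00020000000000) := T_41 (nat_lit 162) (nat_lit 179) (nat_lit 7) (nat_lit 8) (nat_lit 6) L111506 (by decide +kernel)
theorem L111508 : W_41 (nat_lit 11) (nat_lit 0x34001200080004000200010000000000000000000) (nat_lit 0x0) (nat_lit 0x94004a000100070003c01ce002f000c00020000000000) := Q_41 (nat_lit 107) (C_41 L111404 (C_41 L111480 (C_41 L111489 (C_41 L111496 (C_41 L111502 (C_41 L111507 N_41)))))) (by decide +kernel)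
theorem L111509 : W_41 (nat_lit 2) (nat_lit 0x7c001200090005800200010000000000000000000) (nat_lit 0x0) (nat_lit 0x108002000000000000000000000000000) := D_41 (nat_lit 109) (nat_lit 128) (nat_lit 123) (nat_lit 3) (nat_lit 5) (nat_lit 6) (nat_lit 1) (nat_lit 8) (nat_lit 6) (by decide +kernel)
theorem L111510 : W_41 (nat_lit 3) (nat_lit 0x7c001200090004800200010000000000000000000) (nat_lit 0x0) (nat_lit 0x108003000080000000000000000000000) := T_41 (nat_lit 108) (nat_lit 91) (nat_lit 6) (nat_lit 5) (nat_lit 9) L111509 (by decide +kernel)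
theorem L111511 : W_41 (nat_lit 4) (nat_lit 0x7c001200080004800200010000000000000000000) (nat_lit 0x0) (nat_lit 0x100000000000118003000080000000000000000000000) := T_41 (nat_lit 124) (nat_lit 176) (nat_lit 7) (nat_lit 5) (nat_lit 6) L111510 (by decide +kernel)
theorem L111512 : W_41 (nat_lit 5) (nat_lit 0x74001200080004800200010000000000000000000) (nat_lit 0x0) (nat_lit 0x100008000100118003000080000000000000000000000) := T_41 (nat_lit 159) (nat_lit 140) (nat_lit 0) (nat_lit 8) (nat_lit 9) L111511 (by decide +kernel)
theorem L111513 : W_41 (nat_lit 6) (nat_lit 0x34001200080004800200010000000000000000000) (nat_lit 0x0) (nat_lit 0x900048000100118003000080000000000000000000000) := T_41 (nat_lit 162) (nat_lit 179) (nat_lit 7) (nat_lit 8) (nat_lit 6) L111512 (by decide +kernel)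
theorem L111514 : W_41 (nat_lit 2) (nat_lit 0x7e0012000d0004c00200010000400000000000000) (nat_lit 0x0) (nat_lit 0x2000000000000800020000000000) := D_41 (nat_lit 59) (nat_lit 109) (nat_lit 41) (nat_lit 5) (nat_lit 8) (nat_lit 3) (nat_lit 4) (nat_lit 8) (nat_lit 6) (by decide +kernel)
theorem L111515 : W_41 (nat_lit 3) (nat_lit 0x7e0012000d0004c00200010000000000000000000) (nat_lit 0x0) (nat_lit 0x2000000008000c00020000000000) := T_41 (nat_lit 58) (nat_lit 75) (nat_lit 4) (nat_lit 8) (nat_lit 7) L111514 (by decide +kernel)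
theorem L111516 : W_41 (nat_lit 4) (nat_lit 0x7e001200090004c00200010000000000000000000) (nat_lit 0x0) (nat_lit 0x60002000000008000c00020000000000) := T_41 (nat_lit 126) (nat_lit 125) (nat_lit 0) (nat_lit 8) (nat_lit 7) L111515 (by decide +kernel)
theorem L111517 : W_41 (nat_lit 5) (nat_lit 0x7e001200090004800200010000000000000000000) (nat_lit 0x0) (nat_lit 0x60002400020008000c00020000000000) := T_41 (nat_lit 106) (nat_lit 89) (nat_lit 4) (nat_lit 5) (nat_lit 9) L111516 (by decide +kernel)
theorem L111518 : W_41 (nat_lit 6) (nat_lit 0x7c001200090004800200010000000000000000000) (nat_lit 0x0) (nat_lit 0x40002000000060002400020008000c00020000000000) := T_41 (nat_lit 157) (nat_lit 174) (nat_lit 5) (nat_lit 5) (nat_lit 6) L111517 (by decide +kernel)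
theorem L111519 : W_41 (nat_lit 7) (nat_lit 0x7c001200080004800200010000000000000000000) (nat_lit 0x0) (nat_lit 0x140002000000070002400020008000c00020000000000) := T_41 (nat_lit 124) (nat_lit 176) (nat_lit 7) (nat_lit 5) (nat_lit 6) L111518 (by decide +kernel)
theorem L111520 : W_41 (nat_lit 8) (nat_lit 0x3c001200080004800200010000000000000000000) (nat_lit 0x0) (nat_lit 0x940042000000070002400020008000c00020000000000) := T_41 (nat_lit 162) (nat_lit 179) (nat_lit 7) (nat_lit 8) (nat_lit 6) L111519 (by decide +kernel)
theorem L111521 : W_41 (nat_lit 9) (nat_lit 0x34001200080004800200010000000000000000000) (nat_lit 0x0) (nat_lit 0x94004a000100070002400020008000c00020000000000) := T_41 (nat_lit 159) (nat_lit 140) (nat_lit 0) (nat_lit 8) (nat_lit 9) L111520 (by decide +kernel)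
theorem L111522 : W_41 (nat_lit 2) (nat_lit 0x7c001200080006800200010001c00000000000000) (nat_lit 0x0) (nat_lit 0x100001000400000000000000000000000) := D_41 (nat_lit 108) (nat_lit 128) (nat_lit 94) (nat_lit 3) (nat_lit 5) (nat_lit 6) (nat_lit 2) (nat_lit 5) (nat_lit 6) (by decide +kernel)
theorem L111523 : W_41 (nat_lit 3) (nat_lit 0x7c001200080004800200010001c00000000000000) (nat_lit 0x0) (nat_lit 0x140003000400000000000000000000000) := T_41 (nat_lit 109) (nat_lit 126) (nat_lit 5) (nat_lit 8) (nat_lit 3) L111522 (by decide +kernel)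
theorem L111524 : W_41 (nat_lit 4) (nat_lit 0x7c001200080004800200010000c00000000000000) (nat_lit 0x0) (nat_lit 0x140003000400000001000080000000000) := T_41 (nat_lit 60) (nat_lit 43) (nat_lit 6) (nat_lit 8) (nat_lit 6) L111523 (by decide +kernel)
theorem L111525 : W_41 (nat_lit 5) (nat_lit 0x74001200080004800200010000c00000000000000) (nat_lit 0x0) (nat_lit 0x8000100140003000400000001000080000000000) := T_41 (nat_lit 159) (nat_lit 140) (nat_lit 0) (nat_lit 8) (nat_lit 9) L111524 (by decide +kernel)
theorem L111526 : W_41 (nat_lit 6) (nat_lit 0x74001200080004800200010000400000000000000) (nat_lit 0x0) (nat_lit 0x80001001400030004000000018000a0000000000) := T_41 (nat_lit 59) (nat_lit 41) (nat_lit 4) (nat_lit 8) (nat_lit 6) L111525 (by decide +kernel)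
theorem L111527 : W_41 (nat_lit 7) (nat_lit 0x34001200080004800200010000400000000000000) (nat_lit 0x0) (nat_lit 0x8000480001001400030004000000018000a0000000000) := T_41 (nat_lit 162) (nat_lit 179) (nat_lit 7) (nat_lit 8) (nat_lit 6) L111526 (by decide +kernel)
theorem L111528 : W_41 (nat_lit 8) (nat_lit 0x34001200080004800200010000000000000000000) (nat_lit 0x0) (nat_lit 0x800048000100140003000400008001c000a0000000000) := T_41 (nat_lit 58) (nat_lit 75) (nat_lit 4) (nat_lit 8) (nat_lit 7) L111527 (by decide +kernel)
theorem L111529 : W_41 (nat_lit 2) (nat_lit 0x7e0012000900048002c0018000000000000000000) (nat_lit 0x0) (nat_lit 0x400020001000000000000000000) := D_41 (nat_lit 89) (nat_lit 72) (nat_lit 106) (nat_lit 4) (nat_lit 5) (nat_lit 8) (nat_lit 4) (nat_lit 5) (nat_lit 9) (by decide +kernel)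
theorem L111530 : W_41 (nat_lit 3) (nat_lit 0x7e001200090004800280018000000000000000000) (nat_lit 0x0) (nat_lit 0x400060005000000000000000000) := T_41 (nat_lit 90) (nat_lit 74) (nat_lit 6) (nat_lit 5) (nat_lit 8) L111529 (by decide +kernel)
theorem L111531 : W_41 (nat_lit 4) (nat_lit 0x7c001200090004800280018000000000000000000) (nat_lit 0x0) (nat_lit 0x40002000000000000400060005000000000000000000) := T_41 (nat_lit 157) (nat_lit 174) (nat_lit 5) (nat_lit 5) (nat_lit 6) L111530 (by decide +kernel)
theorem L111532 : W_41 (nat_lit 5) (nat_lit 0x7c001200090004800200018000000000000000000) (nat_lit 0x0) (nat_lit 0x400020000000000014000e0005000000000000000000) := T_41 (nat_lit 91) (nat_lit 108) (nat_lit 6) (nat_lit 5) (nat_lit 9) L111531 (by decide +kernel)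
theorem L111533 : W_41 (nat_lit 6) (nat_lit 0x7c001200080004800200018000000000000000000) (nat_lit 0x0) (nat_lit 0x1400020000000100014000e0005000000000000000000) := T_41 (nat_lit 124) (nat_lit 176) (nat_lit 7) (nat_lit 5) (nat_lit 6) L111532 (by decide +kernel)
theorem L111534 : W_41 (nat_lit 7) (nat_lit 0x74001200080004800200018000000000000000000) (nat_lit 0x0) (nat_lit 0x14000a0001000100014000e0005000000000000000000) := T_41 (nat_lit 159) (nat_lit 140) (nat_lit 0) (nat_lit 8) (nat_lit 9) L111533 (by decide +kernel)
theorem L111535 : W_41 (nat_lit 8) (nat_lit 0x74001200080004800200010000000000000000000) (nat_lit 0x0) (nat_lit 0x14000a0001000100014000e000d000400000000000000) := T_41 (nat_lit 75) (nat_lit 58) (nat_lit 4) (nat_lit 8) (nat_lit 7) L111534 (by decide +kernel)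
theorem L111536 : W_41 (nat_lit 9) (nat_lit 0x34001200080004800200010000000000000000000) (nat_lit 0x0) (nat_lit 0x94004a0001000100014000e000d000400000000000000) := T_41 (nat_lit 162) (nat_lit 179) (nat_lit 7) (nat_lit 8) (nat_lit 6) L111535 (by decide +kernel)
theorem L111537 : W_41 (nat_lit 2) (nat_lit 0x74001200080006800200010000c00000000000000) (nat_lit 0x0) (nat_lit 0x100001000400000000000000000000000) := D_41 (nat_lit 108) (nat_lit 128) (nat_lit 94) (nat_lit 3) (nat_lit 5) (nat_lit 6) (nat_lit 2) (nat_lit 5) (nat_lit 6) (by decide +kernel)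
theorem L111538 : W_41 (nat_lit 3) (nat_lit 0x74001200080004800200010000c00000000000000) (nat_lit 0x0) (nat_lit 0x140003000400000000000000000000000) := T_41 (nat_lit 109) (nat_lit 126) (nat_lit 5) (nat_lit 8) (nat_lit 3) L111537 (by decide +kernel)
theorem L111539 : W_41 (nat_lit 4) (nat_lit 0x74001200080004800200010000400000000000000) (nat_lit 0x0) (nat_lit 0x140003000400000000800020000000000) := T_41 (nat_lit 59) (nat_lit 41) (nat_lit 4) (nat_lit 8) (nat_lit 6) L111538 (by decide +kernel)
theorem L111540 : W_41 (nat_lit 5) (nat_lit 0x74001200080004800200010000000000000000000) (nat_lit 0x0) (nat_lit 0x140003000400008000c00020000000000) := T_41 (nat_lit 58) (nat_lit 75) (nat_lit 4) (nat_lit 8) (nat_lit 7) L111539 (by decide +kernel)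
theorem L111541 : W_41 (nat_lit 6) (nat_lit 0x34001200080004800200010000000000000000000) (nat_lit 0x0) (nat_lit 0x800040000000140003000400008000c00020000000000) := T_41 (nat_lit 162) (nat_lit 179) (nat_lit 7) (nat_lit 8) (nat_lit 6) L111540 (by decide +kernel)
theorem L111542 : W_41 (nat_lit 10) (nat_lit 0x34001200080004000200010000000000000000000) (nat_lit 0x0) (nat_lit 0x94004a000100178003c004e000d001c000a0000000000) := Q_41 (nat_lit 107) (C_41 L111513 (C_41 L111496 (C_41 L111521 (C_41 L111528 (C_41 L111536 (C_41 L111541 N_41)))))) (by decide +kernel)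
theorem L111543 : W_41 (nat_lit 12) (nat_lit 0x34001200080004000200000000000000000000000) (nat_lit 0x0) (nat_lit 0x94004a000100178003c01ce003f001c000a0000000000) := Q_41 (nat_lit 76) (C_41 L111508 (C_41 L111044 (C_41 L111021 (C_41 L111542 N_41)))) (by decide +kernel)
theorem L111544 : W_41 (nat_lit 2) (nat_lit 0x10007c001200080006800200010000c00000000000000) (nat_lit 0x0) (nat_lit 0x100001000400000000000000000000000) := D_41 (nat_lit 108) (nat_lit 128) (nat_lit 94) (nat_lit 3) (nat_lit 5) (nat_lit 6) (nat_lit 2) (nat_lit 5) (nat_lit 6) (by decide +kernel)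
theorem L111545 : W_41 (nat_lit 3) (nat_lit 0x10007c001200080006000200010000c00000000000000) (nat_lit 0x0) (nat_lit 0x110001800400000000000000000000000) := T_41 (nat_lit 107) (nat_lit 124) (nat_lit 7) (nat_lit 5) (nat_lit 6) L111544 (by decide +kernel)
theorem L111546 : W_41 (nat_lit 4) (nat_lit 0x10007c001200080004000200010000c00000000000000) (nat_lit 0x0) (nat_lit 0x150003800400000000000000000000000) := T_41 (nat_lit 109) (nat_lit 126) (nat_lit 5) (nat_lit 8) (nat_lit 3) L111545 (by decide +kernel)
theorem L111547 : W_41 (nat_lit 5) (nat_lit 0x7c001200080004000200010000c00000000000000) (nat_lit 0x0) (nat_lit 0x180000000000150003800400000000000000000000000) := T_41 (nat_lit 176) (nat_lit 175) (nat_lit 1) (nat_lit 9) (nat_lit 9) L111546 (by decide +kernel)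
theorem L111548 : W_41 (nat_lit 6) (nat_lit 0x7c001200080004000200010000400000000000000) (nat_lit 0x0) (nat_lit 0x180000000000150003800400000000800020000000000) := T_41 (nat_lit 59) (nat_lit 41) (nat_lit 4) (nat_lit 8) (nat_lit 6) L111547 (by decide +kernel)
theorem L111549 : W_41 (nat_lit 7) (nat_lit 0x74001200080004000200010000400000000000000) (nat_lit 0x0) (nat_lit 0x180008000100150003800400000000800020000000000) := T_41 (nat_lit 159) (nat_lit 140) (nat_lit 0) (nat_lit 8) (nat_lit 9) L111548 (by decide +kernel)
theorem L111550 : W_41 (nat_lit 8) (nat_lit 0x74001200080004000200010000000000000000000) (nat_lit 0x0) (nat_lit 0x180008000100150003800400008000c00020000000000) := T_41 (nat_lit 58) (nat_lit 75) (nat_lit 4) (nat_lit 8) (nat_lit 7) L111549 (by decide +kernel)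
theorem L111551 : W_41 (nat_lit 9) (nat_lit 0x34001200080004000200010000000000000000000) (nat_lit 0x0) (nat_lit 0x980048000100150003800400008000c00020000000000) := T_41 (nat_lit 162) (nat_lit 179) (nat_lit 7) (nat_lit 8) (nat_lit 6) L111550 (by decide +kernel)
theorem L111552 : W_41 (nat_lit 10) (nat_lit 0x34001200080004000200000000000000000000000) (nat_lit 0x0) (nat_lit 0x980048000100150003800400038001c000a0000000000) := Q_41 (nat_lit 76) (C_41 L111551 (C_41 L111044 (C_41 L111021 N_41))) (by decide +kernel)
theorem L111553 : W_41 (nat_lit 14) (nat_lit 0x30001200080004000200000000000000000000000) (nat_lit 0x0) (nat_lit 0x500038009e004e000100178003e01ce00ff001f000a0000000000) := Q_41 (nat_lit 158) (C_41 L111397 (C_41 L111045 (C_41 L111436 (C_41 L111447 (C_41 L111473 (C_41 L111543 (C_41 L111552 N_41))))))) (by decide +kernel)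
theorem L111554 : W_41 (nat_lit 2) (nat_lit 0x8003c001200090006801600000000000000000000000) (nat_lit 0x0) (nat_lit 0x8000400020000000000000000000000) := D_41 (nat_lit 106) (nat_lit 123) (nat_lit 89) (nat_lit 4) (nat_lit 5) (nat_lit 10) (nat_lit 4) (nat_lit 5) (nat_lit 9) (by decide +kernel)
theorem L111555 : W_41 (nat_lit 3) (nat_lit 0x8003c001200080006801600000000000000000000000) (nat_lit 0x0) (nat_lit 0x100000000000018000400020000000000000000000000) := T_41 (nat_lit 124) (nat_lit 176) (nat_lit 7) (nat_lit 5) (nat_lit 6) L111554 (by decide +kernel)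
theorem L111556 : W_41 (nat_lit 4) (nat_lit 0x8003c001200080006800600000000000000000000000) (nat_lit 0x0) (nat_lit 0x100000000000018000401820000000000000000000000) := T_41 (nat_lit 96) (nat_lit 95) (nat_lit 1) (nat_lit 11) (nat_lit 5) L111555 (by decide +kernel)
theorem L111557 : W_41 (nat_lit 5) (nat_lit 0x8003c001200080006000600000000000000000000000) (nat_lit 0x0) (nat_lit 0x100000000000018001c01820000000000000000000000) := T_41 (nat_lit 107) (nat_lit 108) (nat_lit 2) (nat_lit 5) (nat_lit 6) L111556 (by decide +kernel)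
theorem L111558 : W_41 (nat_lit 6) (nat_lit 0x8003c001200080006000200000000000000000000000) (nat_lit 0x0) (nat_lit 0x100000000000018001c01c20020000000000000000000) := T_41 (nat_lit 94) (nat_lit 77) (nat_lit 6) (nat_lit 8) (nat_lit 8) L111557 (by decide +kernel)
theorem L111559 : W_41 (nat_lit 7) (nat_lit 0x3c001200080006000200000000000000000000000) (nat_lit 0x0) (nat_lit 0x1c0000000000018001c01c20020000000000000000000) := T_41 (nat_lit 175) (nat_lit 174) (nat_lit 1) (nat_lit 8) (nat_lit 9) L111558 (by decide +kernel)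
theorem L111560 : W_41 (nat_lit 8) (nat_lit 0x3c001200080004000200000000000000000000000) (nat_lit 0x0) (nat_lit 0x1c0000000000018003c01d20020000000000000000000) := T_41 (nat_lit 109) (nat_lit 92) (nat_lit 4) (nat_lit 8) (nat_lit 9) L111559 (by decide +kernel)
theorem L111561 : W_41 (nat_lit 9) (nat_lit 0x34001200080004000200000000000000000000000) (nat_lit 0x0) (nat_lit 0x1c0008000100018003c01d20020000000000000000000) := T_41 (nat_lit 159) (nat_lit 140) (nat_lit 0) (nat_lit 8) (nat_lit 9) L111560 (by decide +kernel)
theorem L111562 : W_41 (nat_lit 2) (nat_lit 0x340012000d0006000200030000000000000000000) (nat_lit 0x0) (nat_lit 0x100028000000000000000000000000000000) := D_41 (nat_lit 125) (nat_lit 123) (nat_lit 140) (nat_lit 2) (nat_lit 4) (nat_lit 7) (nat_lit 1) (nat_lit 8) (nat_lit 7) (by decide +kernel)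
theorem L111563 : W_41 (nat_lit 3) (nat_lit 0x34001200090006000200030000000000000000000) (nat_lit 0x0) (nat_lit 0x100068000000000000000800000000000000) := T_41 (nat_lit 126) (nat_lit 59) (nat_lit 5) (nat_lit 8) (nat_lit 3) L111562 (by decide +kernel)
theorem L111564 : W_41 (nat_lit 4) (nat_lit 0x34001200090006000200020000000000000000000) (nat_lit 0x0) (nat_lit 0x100068000000000010001800000000000000) := T_41 (nat_lit 76) (nat_lit 60) (nat_lit 6) (nat_lit 8) (nat_lit 7) L111563 (by decide +kernel)
theorem L111565 : W_41 (nat_lit 5) (nat_lit 0x34001200090004000200020000000000000000000) (nat_lit 0x0) (nat_lit 0x100068002000100010001800000000000000) := T_41 (nat_lit 109) (nat_lit 92) (nat_lit 4) (nat_lit 8) (nat_lit 9) L111564 (by decide +kernel)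
theorem L111566 : W_41 (nat_lit 6) (nat_lit 0x34001200090004000200000000000000000000000) (nat_lit 0x0) (nat_lit 0x100068002000500030001800000000000000) := T_41 (nat_lit 77) (nat_lit 94) (nat_lit 6) (nat_lit 8) (nat_lit 8) L111565 (by decide +kernel)
theorem L111567 : W_41 (nat_lit 2) (nat_lit 0x76001200090006801620000000000000000000000) (nat_lit 0x0) (nat_lit 0x100000000000040001000000000000000000) := D_41 (nat_lit 90) (nat_lit 140) (nat_lit 72) (nat_lit 5) (nat_lit 5) (nat_lit 5) (nat_lit 4) (nat_lit 5) (nat_lit 8) (by decide +kernel)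
theorem L111568 : W_41 (nat_lit 3) (nat_lit 0x74001200090006801620000000000000000000000) (nat_lit 0x0) (nat_lit 0x40002000100000000000040001000000000000000000) := T_41 (nat_lit 157) (nat_lit 174) (nat_lit 5) (nat_lit 5) (nat_lit 6) L111567 (by decide +kernel)
theorem L111569 : W_41 (nat_lit 4) (nat_lit 0x74001200090006801600000000000000000000000) (nat_lit 0x0) (nat_lit 0x40002000100000000400060001000000000000000000) := T_41 (nat_lit 89) (nat_lit 106) (nat_lit 4) (nat_lit 5) (nat_lit 9) L111568 (by decide +kernel)
theorem L111570 : W_41 (nat_lit 5) (nat_lit 0x74001200090006800600000000000000000000000) (nat_lit 0x0) (nat_lit 0x40002000100000000401860001000000000000000000) := T_41 (nat_lit 96) (nat_lit 95) (nat_lit 1) (nat_lit 11) (nat_lit 5) L111569 (by decide +kernel)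
theorem L111571 : W_41 (nat_lit 6) (nat_lit 0x74001200090006000600000000000000000000000) (nat_lit 0x0) (nat_lit 0x40002000100000001c01860001000000000000000000) := T_41 (nat_lit 107) (nat_lit 108) (nat_lit 2) (nat_lit 5) (nat_lit 6) L111570 (by decide +kernel)
theorem L111572 : W_41 (nat_lit 7) (nat_lit 0x74001200090004000600000000000000000000000) (nat_lit 0x0) (nat_lit 0x40002000100000003c01960001000000000000000000) := T_41 (nat_lit 109) (nat_lit 92) (nat_lit 4) (nat_lit 8) (nat_lit 9) L111571 (by decide +kernel)
theorem L111573 : W_41 (nat_lit 8) (nat_lit 0x74001200090004000200000000000000000000000) (nat_lit 0x0) (nat_lit 0x40002000100000003c01d60021000000000000000000) := T_41 (nat_lit 94) (nat_lit 77) (nat_lit 6) (nat_lit 8) (nat_lit 8) L111572 (by decide +kernel)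
theorem L111574 : W_41 (nat_lit 9) (nat_lit 0x34001200090004000200000000000000000000000) (nat_lit 0x0) (nat_lit 0x840042000100000003c01d60021000000000000000000) := T_41 (nat_lit 162) (nat_lit 179) (nat_lit 7) (nat_lit 8) (nat_lit 6) L111573 (by decide +kernel)
theorem L111575 : W_41 (nat_lit 10) (nat_lit 0x34001200080004000200000000000000000000000) (nat_lit 0x0) (nat_lit 0x8008c0042000100178003c01de0035001800000000000000) := Q_41 (nat_lit 124) (C_41 L111435 (C_41 L111113 (C_41 L111566 (C_41 L111068 (C_41 L111574 N_41))))) (by decide +kernel)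
theorem L111576 : W_41 (nat_lit 2) (nat_lit 0x7c001200080006800200000000000000000000000) (nat_lit 0x0) (nat_lit 0x100001000400000000000000000000000) := D_41 (nat_lit 108) (nat_lit 128) (nat_lit 94) (nat_lit 3) (nat_lit 5) (nat_lit 6) (nat_lit 2) (nat_lit 5) (nat_lit 6) (by decide +kernel)
theorem L111577 : W_41 (nat_lit 3) (nat_lit 0x7c001200080004800200000000000000000000000) (nat_lit 0x0) (nat_lit 0x100003000500000000000000000000000) := T_41 (nat_lit 109) (nat_lit 92) (nat_lit 4) (nat_lit 8) (nat_lit 9) L111576 (by decide +kernel)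
theorem L111578 : W_41 (nat_lit 4) (nat_lit 0x74001200080004800200000000000000000000000) (nat_lit 0x0) (nat_lit 0x8000100100003000500000000000000000000000) := T_41 (nat_lit 159) (nat_lit 140) (nat_lit 0) (nat_lit 8) (nat_lit 9) L111577 (by decide +kernel)
theorem L111579 : W_41 (nat_lit 5) (nat_lit 0x34001200080004800200000000000000000000000) (nat_lit 0x0) (nat_lit 0x800048000100100003000500000000000000000000000) := T_41 (nat_lit 162) (nat_lit 179) (nat_lit 7) (nat_lit 8) (nat_lit 6) L111578 (by decide +kernel)
theorem L111580 : W_41 (nat_lit 2) (nat_lit 0x3c001200080006800200000000000000000000000) (nat_lit 0x0) (nat_lit 0x100001000400000000000000000000000) := D_41 (nat_lit 108) (nat_lit 128) (nat_lit 94) (nat_lit 3) (nat_lit 5) (nat_lit 6) (nat_lit 2) (nat_lit 5) (nat_lit 6) (by decide +kernel)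
theorem L111581 : W_41 (nat_lit 3) (nat_lit 0x3c001200080004800200000000000000000000000) (nat_lit 0x0) (nat_lit 0x100003000500000000000000000000000) := T_41 (nat_lit 109) (nat_lit 92) (nat_lit 4) (nat_lit 8) (nat_lit 9) L111580 (by decide +kernel)
theorem L111582 : W_41 (nat_lit 4) (nat_lit 0x34001200080004800200000000000000000000000) (nat_lit 0x0) (nat_lit 0x8000100100003000500000000000000000000000) := T_41 (nat_lit 159) (nat_lit 140) (nat_lit 0) (nat_lit 8) (nat_lit 9) L111581 (by decide +kernel)
theorem L111583 : W_41 (nat_lit 2) (nat_lit 0x7e0012000d0006c00200020000000000000000000) (nat_lit 0x0) (nat_lit 0x10001800000000000000) := D_41 (nat_lit 76) (nat_lit 59) (nat_lit 60) (nat_lit 5) (nat_lit 8) (nat_lit 3) (nat_lit 6) (nat_lit 8) (nat_lit 7) (by decide +kernel)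
theorem L111584 : W_41 (nat_lit 3) (nat_lit 0x7e0012000d0006c00200000000000000000000000) (nat_lit 0x0) (nat_lit 0x400030001800000000000000) := T_41 (nat_lit 77) (nat_lit 94) (nat_lit 6) (nat_lit 8) (nat_lit 8) L111583 (by decide +kernel)
theorem L111585 : W_41 (nat_lit 4) (nat_lit 0x7e0012000d0004c00200000000000000000000000) (nat_lit 0x0) (nat_lit 0x2000500030001800000000000000) := T_41 (nat_lit 109) (nat_lit 92) (nat_lit 4) (nat_lit 8) (nat_lit 9) L111584 (by decide +kernel)
theorem L111586 : W_41 (nat_lit 5) (nat_lit 0x7e001200090004c00200000000000000000000000) (nat_lit 0x0) (nat_lit 0x60002000500030001800000000000000) := T_41 (nat_lit 126) (nat_lit 125) (nat_lit 0) (nat_lit 8) (nat_lit 7) L111585 (by decide +kernel)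
theorem L111587 : W_41 (nat_lit 6) (nat_lit 0x7e001200090004800200000000000000000000000) (nat_lit 0x0) (nat_lit 0x60002400520030001800000000000000) := T_41 (nat_lit 106) (nat_lit 89) (nat_lit 4) (nat_lit 5) (nat_lit 9) L111586 (by decide +kernel)
theorem L111588 : W_41 (nat_lit 7) (nat_lit 0x7c001200090004800200000000000000000000000) (nat_lit 0x0) (nat_lit 0x40002000000060002400520030001800000000000000) := T_41 (nat_lit 157) (nat_lit 174) (nat_lit 5) (nat_lit 5) (nat_lit 6) L111587 (by decide +kernel)
theorem L111589 : W_41 (nat_lit 8) (nat_lit 0x7c001200080004800200000000000000000000000) (nat_lit 0x0) (nat_lit 0x140002000000070002400520030001800000000000000) := T_41 (nat_lit 124) (nat_lit 176) (nat_lit 7) (nat_lit 5) (nat_lit 6) L111588 (by decide +kernel)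
theorem L111590 : W_41 (nat_lit 9) (nat_lit 0x3c001200080004800200000000000000000000000) (nat_lit 0x0) (nat_lit 0x940042000000070002400520030001800000000000000) := T_41 (nat_lit 162) (nat_lit 179) (nat_lit 7) (nat_lit 8) (nat_lit 6) L111589 (by decide +kernel)
theorem L111591 : W_41 (nat_lit 10) (nat_lit 0x34001200080004800200000000000000000000000) (nat_lit 0x0) (nat_lit 0x94004a000100070002400520030001800000000000000) := T_41 (nat_lit 159) (nat_lit 140) (nat_lit 0) (nat_lit 8) (nat_lit 9) L111590 (by decide +kernel)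
theorem L111592 : W_41 (nat_lit 2) (nat_lit 0x7c001200080005800600000000000000000000000) (nat_lit 0x0) (nat_lit 0x100000000000010000000080000000000000000000000) := D_41 (nat_lit 124) (nat_lit 176) (nat_lit 91) (nat_lit 7) (nat_lit 5) (nat_lit 6) (nat_lit 6) (nat_lit 5) (nat_lit 9) (by decide +kernel)
theorem L111593 : W_41 (nat_lit 3) (nat_lit 0x7c001200080004800600000000000000000000000) (nat_lit 0x0) (nat_lit 0x100000000000010003000080000000000000000000000) := T_41 (nat_lit 108) (nat_lit 109) (nat_lit 2) (nat_lit 5) (nat_lit 6) L111592 (by decide +kernel)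
theorem L111594 : W_41 (nat_lit 4) (nat_lit 0x7c001200080004800200000000000000000000000) (nat_lit 0x0) (nat_lit 0x100000000000010003000480020000000000000000000) := T_41 (nat_lit 94) (nat_lit 77) (nat_lit 6) (nat_lit 8) (nat_lit 8) L111593 (by decide +kernel)
theorem L111595 : W_41 (nat_lit 5) (nat_lit 0x74001200080004800200000000000000000000000) (nat_lit 0x0) (nat_lit 0x100008000100010003000480020000000000000000000) := T_41 (nat_lit 159) (nat_lit 140) (nat_lit 0) (nat_lit 8) (nat_lit 9) L111594 (by decide +kernel)
theorem L111596 : W_41 (nat_lit 6) (nat_lit 0x34001200080004800200000000000000000000000) (nat_lit 0x0) (nat_lit 0x900048000100010003000480020000000000000000000) := T_41 (nat_lit 162) (nat_lit 179) (nat_lit 7) (nat_lit 8) (nat_lit 6) L111595 (by decide +kernel)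
theorem L111597 : W_41 (nat_lit 2) (nat_lit 0x7c0012000900048006c0000000000000000000000) (nat_lit 0x0) (nat_lit 0x400020001000000000000000000) := D_41 (nat_lit 89) (nat_lit 72) (nat_lit 106) (nat_lit 4) (nat_lit 5) (nat_lit 8) (nat_lit 4) (nat_lit 5) (nat_lit 9) (by decide +kernel)
theorem L111598 : W_41 (nat_lit 3) (nat_lit 0x7c001200090004800680000000000000000000000) (nat_lit 0x0) (nat_lit 0x400060005000000000000000000) := T_41 (nat_lit 90) (nat_lit 74) (nat_lit 6) (nat_lit 5) (nat_lit 8) L111597 (by decide +kernel)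
theorem L111599 : W_41 (nat_lit 4) (nat_lit 0x7c001200090004800280000000000000000000000) (nat_lit 0x0) (nat_lit 0x400460025000000000000000000) := T_41 (nat_lit 94) (nat_lit 77) (nat_lit 6) (nat_lit 8) (nat_lit 8) L111598 (by decide +kernel)
theorem L111600 : W_41 (nat_lit 5) (nat_lit 0x7c001200090004800200000000000000000000000) (nat_lit 0x0) (nat_lit 0x14004e0025000000000000000000) := T_41 (nat_lit 91) (nat_lit 108) (nat_lit 6) (nat_lit 5) (nat_lit 9) L111599 (by decide +kernel)
theorem L111601 : W_41 (nat_lit 6) (nat_lit 0x7c001200080004800200000000000000000000000) (nat_lit 0x0) (nat_lit 0x1000000000000100014004e0025000000000000000000) := T_41 (nat_lit 124) (nat_lit 176) (nat_lit 7) (nat_lit 5) (nat_lit 6) L111600 (by decide +kernel)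
theorem L111602 : W_41 (nat_lit 7) (nat_lit 0x3c001200080004800200000000000000000000000) (nat_lit 0x0) (nat_lit 0x9000400000000100014004e0025000000000000000000) := T_41 (nat_lit 162) (nat_lit 179) (nat_lit 7) (nat_lit 8) (nat_lit 6) L111601 (by decide +kernel)
theorem L111603 : W_41 (nat_lit 8) (nat_lit 0x34001200080004800200000000000000000000000) (nat_lit 0x0) (nat_lit 0x9000480001000100014004e0025000000000000000000) := T_41 (nat_lit 159) (nat_lit 140) (nat_lit 0) (nat_lit 8) (nat_lit 9) L111602 (by decide +kernel)
theorem L111604 : W_41 (nat_lit 2) (nat_lit 0x34001200080007800200000000000000000000000) (nat_lit 0x0) (nat_lit 0x18000000080000000000000000000000) := D_41 (nat_lit 124) (nat_lit 123) (nat_lit 91) (nat_lit 1) (nat_lit 8) (nat_lit 6) (nat_lit 6) (nat_lit 5) (nat_lit 9) (by decide +kernel)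
theorem L111605 : W_41 (nat_lit 3) (nat_lit 0x34001200080006800200000000000000000000000) (nat_lit 0x0) (nat_lit 0x118001000080000000000000000000000) := T_41 (nat_lit 108) (nat_lit 128) (nat_lit 3) (nat_lit 5) (nat_lit 6) L111604 (by decide +kernel)
theorem L111606 : W_41 (nat_lit 4) (nat_lit 0x34001200080004800200000000000000000000000) (nat_lit 0x0) (nat_lit 0x118003000180000000000000000000000) := T_41 (nat_lit 109) (nat_lit 92) (nat_lit 4) (nat_lit 8) (nat_lit 9) L111605 (by decide +kernel)
theorem L111607 : W_41 (nat_lit 11) (nat_lit 0x34001200080004000200000000000000000000000) (nat_lit 0x0) (nat_lit 0x94004a000100178003c005e0035001800000000000000) := Q_41 (nat_lit 107) (C_41 L111579 (C_41 L111582 (C_41 L111591 (C_41 L111596 (C_41 L111603 (C_41 L111606 N_41)))))) (by decide +kernel)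
theorem L111608 : W_41 (nat_lit 2) (nat_lit 0x7c001200080006801600000000000000000000000) (nat_lit 0x0) (nat_lit 0x180000000000010000000000000000000000000000000) := D_41 (nat_lit 176) (nat_lit 175) (nat_lit 124) (nat_lit 1) (nat_lit 9) (nat_lit 9) (nat_lit 7) (nat_lit 5) (nat_lit 6) (by decide +kernel)
theorem L111609 : W_41 (nat_lit 3) (nat_lit 0x74001200080006801600000000000000000000000) (nat_lit 0x0) (nat_lit 0x180008000100010000000000000000000000000000000) := T_41 (nat_lit 159) (nat_lit 140) (nat_lit 0) (nat_lit 8) (nat_lit 9) L111608 (by decide +kernel)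
theorem L111610 : W_41 (nat_lit 4) (nat_lit 0x74001200080006800600000000000000000000000) (nat_lit 0x0) (nat_lit 0x180008000100010000001800000000000000000000000) := T_41 (nat_lit 96) (nat_lit 95) (nat_lit 1) (nat_lit 11) (nat_lit 5) L111609 (by decide +kernel)
theorem L111611 : W_41 (nat_lit 5) (nat_lit 0x74001200080006000600000000000000000000000) (nat_lit 0x0) (nat_lit 0x180008000100010001801800000000000000000000000) := T_41 (nat_lit 107) (nat_lit 108) (nat_lit 2) (nat_lit 5) (nat_lit 6) L111610 (by decide +kernel)
theorem L111612 : W_41 (nat_lit 6) (nat_lit 0x74001200080004000600000000000000000000000) (nat_lit 0x0) (nat_lit 0x180008000100010003801900000000000000000000000) := T_41 (nat_lit 109) (nat_lit 92) (nat_lit 4) (nat_lit 8) (nat_lit 9) L111611 (by decide +kernel)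
theorem L111613 : W_41 (nat_lit 7) (nat_lit 0x74001200080004000200000000000000000000000) (nat_lit 0x0) (nat_lit 0x180008000100010003801d00020000000000000000000) := T_41 (nat_lit 94) (nat_lit 77) (nat_lit 6) (nat_lit 8) (nat_lit 8) L111612 (by decide +kernel)
theorem L111614 : W_41 (nat_lit 8) (nat_lit 0x34001200080004000200000000000000000000000) (nat_lit 0x0) (nat_lit 0x980048000100010003801d00020000000000000000000) := T_41 (nat_lit 162) (nat_lit 179) (nat_lit 7) (nat_lit 8) (nat_lit 6) L111613 (by decide +kernel)
theorem L111615 : W_41 (nat_lit 12) (nat_lit 0x30001200080004000200000000000000000000000) (nat_lit 0x0) (nat_lit 0x500038009c004e000100178003c01de0035001800000000000000) := Q_41 (nat_lit 158) (C_41 L111397 (C_41 L111473 (C_41 L111561 (C_41 L111575 (C_41 L111607 (C_41 L111614 N_41)))))) (by decide +kernel)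
theorem L111616 : W_41 (nat_lit 15) (nat_lit 0x30001200080004000000000000000000000000000) (nat_lit 0x0) (nat_lit 0x500038009e004e000100178003e01fe00ff001f000a0000000000) := Q_41 (nat_lit 93) (C_41 L111389 (C_41 L110939 (C_41 L111553 (C_41 L111615 N_41)))) (by decide +kernel)
theorem L111617 : W_41 (nat_lit 2) (nat_lit 0x700016000e00040002000b0000d00000000000000) (nat_lit 0x0) (nat_lit 0x180010000000000000000000000000000000) := D_41 (nat_lit 140) (nat_lit 124) (nat_lit 139) (nat_lit 1) (nat_lit 8) (nat_lit 7) (nat_lit 2) (nat_lit 3) (nat_lit 8) (by decide +kernel)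
theorem L111618 : W_41 (nat_lit 3) (nat_lit 0x700016000c00040002000b0000d00000000000000) (nat_lit 0x0) (nat_lit 0x180130000000000000000000000000000000) := T_41 (nat_lit 125) (nat_lit 128) (nat_lit 1) (nat_lit 9) (nat_lit 7) L111617 (by decide +kernel)
theorem L111619 : W_41 (nat_lit 4) (nat_lit 0x700016000c0004000200030000d00000000000000) (nat_lit 0x0) (nat_lit 0x1801300000000000c0000000000000000000) := T_41 (nat_lit 79) (nat_lit 78) (nat_lit 0) (nat_lit 11) (nat_lit 4) L111618 (by decide +kernel)
theorem L111620 : W_41 (nat_lit 5) (nat_lit 0x70001600080004000200030000d00000000000000) (nat_lit 0x0) (nat_lit 0x1801700020000000c0000000000000000000) := T_41 (nat_lit 126) (nat_lit 109) (nat_lit 5) (nat_lit 8) (nat_lit 3) L111619 (by decide +kernel)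
theorem L111621 : W_41 (nat_lit 6) (nat_lit 0x70001600080004000200030000c00000000000000) (nat_lit 0x0) (nat_lit 0x1801700020000000c0000300000000000000) := T_41 (nat_lit 56) (nat_lit 57) (nat_lit 3) (nat_lit 5) (nat_lit 3) L111620 (by decide +kernel)
theorem L111622 : W_41 (nat_lit 7) (nat_lit 0x70001600080004000200030000400000000000000) (nat_lit 0x0) (nat_lit 0x1801700020000000c0000b00020000000000) := T_41 (nat_lit 59) (nat_lit 41) (nat_lit 4) (nat_lit 8) (nat_lit 6) L111621 (by decide +kernel)
theorem L111623 : W_41 (nat_lit 8) (nat_lit 0x70001600080004000200030000000000000000000) (nat_lit 0x0) (nat_lit 0x1801700020000000c8000f00020000000000) := T_41 (nat_lit 58) (nat_lit 75) (nat_lit 4) (nat_lit 8) (nat_lit 7) L111622 (by decide +kernel)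
theorem L111624 : W_41 (nat_lit 9) (nat_lit 0x70001600080004000200020000000000000000000) (nat_lit 0x0) (nat_lit 0x1801700020000000d8001f00020000000000) := T_41 (nat_lit 76) (nat_lit 60) (nat_lit 6) (nat_lit 8) (nat_lit 7) L111623 (by decide +kernel)
theorem L111625 : W_41 (nat_lit 10) (nat_lit 0x70001600080004000200000000000000000000000) (nat_lit 0x0) (nat_lit 0x1801700020004000f8001f00020000000000) := T_41 (nat_lit 77) (nat_lit 94) (nat_lit 6) (nat_lit 8) (nat_lit 8) L111624 (by decide +kernel)
theorem L111626 : W_41 (nat_lit 11) (nat_lit 0x70001200080004000200000000000000000000000) (nat_lit 0x0) (nat_lit 0x80005801700020004000f8001f00020000000000) := T_41 (nat_lit 142) (nat_lit 159) (nat_lit 0) (nat_lit 9) (nat_lit 9) L111625 (by decide +kernel)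
theorem L111627 : W_41 (nat_lit 12) (nat_lit 0x30001200080004000200000000000000000000000) (nat_lit 0x0) (nat_lit 0x8000480005801700020004000f8001f00020000000000) := T_41 (nat_lit 162) (nat_lit 179) (nat_lit 7) (nat_lit 8) (nat_lit 6) L111626 (by decide +kernel)
theorem L111628 : W_41 (nat_lit 2) (nat_lit 0x700016001c0006000200030000000000000000000) (nat_lit 0x0) (nat_lit 0x600001000000000000000000000000000) := D_41 (nat_lit 129) (nat_lit 130) (nat_lit 108) (nat_lit 0) (nat_lit 11) (nat_lit 7) (nat_lit 0) (nat_lit 10) (nat_lit 7) (by decide +kernel)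
theorem L111629 : W_41 (nat_lit 3) (nat_lit 0x700016000c0006000200030000000000000000000) (nat_lit 0x0) (nat_lit 0x720001000000000000000000000000000) := T_41 (nat_lit 128) (nat_lit 125) (nat_lit 1) (nat_lit 9) (nat_lit 7) L111628 (by decide +kernel)
theorem L111630 : W_41 (nat_lit 4) (nat_lit 0x700012000c0006000200030000000000000000000) (nat_lit 0x0) (nat_lit 0x8000400720001000000000000000000000000000) := T_41 (nat_lit 142) (nat_lit 159) (nat_lit 0) (nat_lit 9) (nat_lit 9) L111629 (by decide +kernel)
theorem L111631 : W_41 (nat_lit 5) (nat_lit 0x300012000c0006000200030000000000000000000) (nat_lit 0x0) (nat_lit 0x800048000400720001000000000000000000000000000) := T_41 (nat_lit 162) (nat_lit 179) (nat_lit 7) (nat_lit 8) (nat_lit 6) L111630 (by decide +kernel)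
theorem L111632 : W_41 (nat_lit 6) (nat_lit 0x30001200080006000200030000000000000000000) (nat_lit 0x0) (nat_lit 0x800048000400760001000000000000800000000000000) := T_41 (nat_lit 126) (nat_lit 59) (nat_lit 5) (nat_lit 8) (nat_lit 3) L111631 (by decide +kernel)
theorem L111633 : W_41 (nat_lit 7) (nat_lit 0x30001200080006000200020000000000000000000) (nat_lit 0x0) (nat_lit 0x800048000400760001000000010001800000000000000) := T_41 (nat_lit 76) (nat_lit 60) (nat_lit 6) (nat_lit 8) (nat_lit 7) L111632 (by decide +kernel)
theorem L111634 : W_41 (nat_lit 8) (nat_lit 0x30001200080004000200020000000000000000000) (nat_lit 0x0) (nat_lit 0x800048000400760003000100010001800000000000000) := T_41 (nat_lit 109) (nat_lit 92) (nat_lit 4) (nat_lit 8) (nat_lit 9) L111633 (by decide +kernel)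
theorem L111635 : W_41 (nat_lit 9) (nat_lit 0x30001200080004000200000000000000000000000) (nat_lit 0x0) (nat_lit 0x800048000400760003000500030001800000000000000) := T_41 (nat_lit 77) (nat_lit 94) (nat_lit 6) (nat_lit 8) (nat_lit 8) L111634 (by decide +kernel)
theorem L111636 : W_41 (nat_lit 13) (nat_lit 0x30001200080004000000000000000000000000000) (nat_lit 0x0) (nat_lit 0x8000480005807700030007000f8001f00020000000000) := Q_41 (nat_lit 93) (C_41 L111389 (C_41 L110939 (C_41 L111627 (C_41 L111635 N_41)))) (by decide +kernel)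
theorem L111637 : W_41 (nat_lit 2) (nat_lit 0x30001200080004800200000000000000000000000) (nat_lit 0x0) (nat_lit 0x2000100008000000000000000000) := D_41 (nat_lit 92) (nat_lit 109) (nat_lit 75) (nat_lit 4) (nat_lit 8) (nat_lit 9) (nat_lit 4) (nat_lit 8) (nat_lit 8) (by decide +kernel)
theorem L111638 : W_41 (nat_lit 2) (nat_lit 0x70001300090004800240002000000000000000000) (nat_lit 0x0) (nat_lit 0x20001000080000000000000) := D_41 (nat_lit 72) (nat_lit 55) (nat_lit 89) (nat_lit 4) (nat_lit 5) (nat_lit 7) (nat_lit 4) (nat_lit 5) (nat_lit 8) (by decide +kernel)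
theorem L111639 : W_41 (nat_lit 3) (nat_lit 0x70001300090004800240000000000000000000000) (nat_lit 0x0) (nat_lit 0x8000000020003000080000000000000) := T_41 (nat_lit 73) (nat_lit 123) (nat_lit 5) (nat_lit 5) (nat_lit 4) L111638 (by decide +kernel)
theorem L111640 : W_41 (nat_lit 4) (nat_lit 0x70001200090004800240000000000000000000000) (nat_lit 0x0) (nat_lit 0x2000100008000000020003000080000000000000) := T_41 (nat_lit 140) (nat_lit 157) (nat_lit 5) (nat_lit 5) (nat_lit 5) L111639 (by decide +kernel)
theorem L111641 : W_41 (nat_lit 5) (nat_lit 0x30001200090004800240000000000000000000000) (nat_lit 0x0) (nat_lit 0x800042000100008000000020003000080000000000000) := T_41 (nat_lit 162) (nat_lit 179) (nat_lit 7) (nat_lit 8) (nat_lit 6) L111640 (by decide +kernel)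
theorem L111642 : W_41 (nat_lit 2) (nat_lit 0x34001200090004800660000000000000000000000) (nat_lit 0x0) (nat_lit 0x40002000100000000000000000000000000000000000) := D_41 (nat_lit 157) (nat_lit 140) (nat_lit 174) (nat_lit 5) (nat_lit 5) (nat_lit 5) (nat_lit 5) (nat_lit 5) (nat_lit 6) (by decide +kernel)
theorem L111643 : W_41 (nat_lit 3) (nat_lit 0x30001200090004800660000000000000000000000) (nat_lit 0x0) (nat_lit 0x40006000100000000400000000000000000000000000) := T_41 (nat_lit 158) (nat_lit 106) (nat_lit 4) (nat_lit 5) (nat_lit 9) L111642 (by decide +kernel)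
theorem L111644 : W_41 (nat_lit 4) (nat_lit 0x30001200090004800260000000000000000000000) (nat_lit 0x0) (nat_lit 0x40006000100000000400400020000000000000000000) := T_41 (nat_lit 94) (nat_lit 77) (nat_lit 6) (nat_lit 8) (nat_lit 8) L111643 (by decide +kernel)
theorem L111645 : W_41 (nat_lit 5) (nat_lit 0x30001200090004800240000000000000000000000) (nat_lit 0x0) (nat_lit 0x40006000100000000400420021000000000000000000) := T_41 (nat_lit 89) (nat_lit 72) (nat_lit 4) (nat_lit 5) (nat_lit 8) L111644 (by decide +kernel)
theorem L111646 : W_41 (nat_lit 2) (nat_lit 0x30001300090004800240002000000000000000000) (nat_lit 0x0) (nat_lit 0x400060000000000000000000000000000000) := D_41 (nat_lit 125) (nat_lit 126) (nat_lit 142) (nat_lit 1) (nat_lit 8) (nat_lit 7) (nat_lit 7) (nat_lit 5) (nat_lit 4) (by decide +kernel)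
theorem L111647 : W_41 (nat_lit 3) (nat_lit 0x30001300090004800240000000000000000000000) (nat_lit 0x0) (nat_lit 0x400068000000000002000000000000000000) := T_41 (nat_lit 73) (nat_lit 123) (nat_lit 5) (nat_lit 5) (nat_lit 4) L111646 (by decide +kernel)
theorem L111648 : W_41 (nat_lit 4) (nat_lit 0x30001200090004800240000000000000000000000) (nat_lit 0x0) (nat_lit 0x2000500068000000000002000000000000000000) := T_41 (nat_lit 140) (nat_lit 157) (nat_lit 5) (nat_lit 5) (nat_lit 5) L111647 (by decide +kernel)
theorem L111649 : W_41 (nat_lit 2) (nat_lit 0x700012000b0004d006e0002000000000000000000) (nat_lit 0x0) (nat_lit 0x8000000000000000100008000000000) := D_41 (nat_lit 56) (nat_lit 123) (nat_lit 39) (nat_lit 5) (nat_lit 5) (nat_lit 3) (nat_lit 5) (nat_lit 5) (nat_lit 2) (by decide +kernel)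
theorem L111650 : W_41 (nat_lit 3) (nat_lit 0x700012000b0004d006e0000000000000000000000) (nat_lit 0x0) (nat_lit 0x400008000000000002000100008000000000) := T_41 (nat_lit 73) (nat_lit 142) (nat_lit 7) (nat_lit 5) (nat_lit 4) L111649 (by decide +kernel)
theorem L111651 : W_41 (nat_lit 4) (nat_lit 0x70001200090004d006e0000000000000000000000) (nat_lit 0x0) (nat_lit 0x400068000000000002000100008000000000) := T_41 (nat_lit 125) (nat_lit 126) (nat_lit 0) (nat_lit 8) (nat_lit 7) L111650 (by decide +kernel)
theorem L111652 : W_41 (nat_lit 5) (nat_lit 0x70001200090004c006e0000000000000000000000) (nat_lit 0x0) (nat_lit 0x400068000300000002000100008000000000) := T_41 (nat_lit 104) (nat_lit 105) (nat_lit 2) (nat_lit 2) (nat_lit 6) L111651 (by decide +kernel)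
theorem L111653 : W_41 (nat_lit 6) (nat_lit 0x70001200090004c00660000000000000000000000) (nat_lit 0x0) (nat_lit 0x400068000300080006000100008000000000) := T_41 (nat_lit 91) (nat_lit 74) (nat_lit 6) (nat_lit 5) (nat_lit 8) L111652 (by decide +kernel)
theorem L111654 : W_41 (nat_lit 7) (nat_lit 0x70001200090004800660000000000000000000000) (nat_lit 0x0) (nat_lit 0x4000400068000700080006000100008000000000) := T_41 (nat_lit 106) (nat_lit 158) (nat_lit 4) (nat_lit 5) (nat_lit 9) L111653 (by decide +kernel)
theorem L111655 : W_41 (nat_lit 8) (nat_lit 0x30001200090004800660000000000000000000000) (nat_lit 0x0) (nat_lit 0x800044000400068000700080006000100008000000000) := T_41 (nat_lit 162) (nat_lit 179) (nat_lit 7) (nat_lit 8) (nat_lit 6) L111654 (by decide +kernel)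
theorem L111656 : W_41 (nat_lit 9) (nat_lit 0x30001200090004800640000000000000000000000) (nat_lit 0x0) (nat_lit 0x8000440004000680007000a0007000100008000000000) := T_41 (nat_lit 89) (nat_lit 72) (nat_lit 4) (nat_lit 5) (nat_lit 8) L111655 (by decide +kernel)
theorem L111657 : W_41 (nat_lit 10) (nat_lit 0x30001200090004800240000000000000000000000) (nat_lit 0x0) (nat_lit 0x8000440004000680007004a0027000100008000000000) := T_41 (nat_lit 94) (nat_lit 77) (nat_lit 6) (nat_lit 8) (nat_lit 8) L111656 (by decide +kernel)
theorem L111658 : W_41 (nat_lit 11) (nat_lit 0x30001200090004800200000000000000000000000) (nat_lit 0x0) (nat_lit 0x8400460005000680007004e0027000180008000000000) := Q_41 (nat_lit 90) (C_41 L111641 (C_41 L111645 (C_41 L111648 (C_41 L111657 N_41)))) (by decide +kernel)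
theorem L111659 : W_41 (nat_lit 2) (nat_lit 0x700012000d0004800200030000d00000000000000) (nat_lit 0x0) (nat_lit 0x100020000400000000000000000000000000) := D_41 (nat_lit 125) (nat_lit 140) (nat_lit 106) (nat_lit 1) (nat_lit 8) (nat_lit 7) (nat_lit 0) (nat_lit 8) (nat_lit 7) (by decide +kernel)
theorem L111660 : W_41 (nat_lit 3) (nat_lit 0x70001200090004800200030000d00000000000000) (nat_lit 0x0) (nat_lit 0x100060002400000000000000000000000000) := T_41 (nat_lit 126) (nat_lit 109) (nat_lit 5) (nat_lit 8) (nat_lit 3) L111659 (by decide +kernel)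
theorem L111661 : W_41 (nat_lit 4) (nat_lit 0x70001200090004800200030000c00000000000000) (nat_lit 0x0) (nat_lit 0x100060002400000000000300000000000000) := T_41 (nat_lit 56) (nat_lit 57) (nat_lit 3) (nat_lit 5) (nat_lit 3) L111660 (by decide +kernel)
theorem L111662 : W_41 (nat_lit 5) (nat_lit 0x70001200090004800200030000400000000000000) (nat_lit 0x0) (nat_lit 0x100060002400000000000b00020000000000) := T_41 (nat_lit 59) (nat_lit 41) (nat_lit 4) (nat_lit 8) (nat_lit 6) L111661 (by decide +kernel)
theorem L111663 : W_41 (nat_lit 6) (nat_lit 0x70001200090004800200030000000000000000000) (nat_lit 0x0) (nat_lit 0x100060002400000008000f00020000000000) := T_41 (nat_lit 58) (nat_lit 75) (nat_lit 4) (nat_lit 8) (nat_lit 7) L111662 (by decide +kernel)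
theorem L111664 : W_41 (nat_lit 7) (nat_lit 0x70001200090004800200020000000000000000000) (nat_lit 0x0) (nat_lit 0x100060002400000018001f00020000000000) := T_41 (nat_lit 76) (nat_lit 60) (nat_lit 6) (nat_lit 8) (nat_lit 7) L111663 (by decide +kernel)
theorem L111665 : W_41 (nat_lit 8) (nat_lit 0x70001200090004800200000000000000000000000) (nat_lit 0x0) (nat_lit 0x100060002400400038001f00020000000000) := T_41 (nat_lit 77) (nat_lit 94) (nat_lit 6) (nat_lit 8) (nat_lit 8) L111664 (by decide +kernel)
theorem L111666 : W_41 (nat_lit 9) (nat_lit 0x30001200090004800200000000000000000000000) (nat_lit 0x0) (nat_lit 0x800040000100060002400400038001f00020000000000) := T_41 (nat_lit 162) (nat_lit 179) (nat_lit 7) (nat_lit 8) (nat_lit 6) L111665 (by decide +kernel)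
theorem L111667 : W_41 (nat_lit 2) (nat_lit 0x300012000d0004800200030000d00000000000000) (nat_lit 0x0) (nat_lit 0x100020000400000000000000000000000000) := D_41 (nat_lit 125) (nat_lit 140) (nat_lit 106) (nat_lit 1) (nat_lit 8) (nat_lit 7) (nat_lit 0) (nat_lit 8) (nat_lit 7) (by decide +kernel)
theorem L111668 : W_41 (nat_lit 3) (nat_lit 0x30001200090004800200030000d00000000000000) (nat_lit 0x0) (nat_lit 0x100060002400000000000000000000000000) := T_41 (nat_lit 126) (nat_lit 109) (nat_lit 5) (nat_lit 8) (nat_lit 3) L111667 (by decide +kernel)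
theorem L111669 : W_41 (nat_lit 4) (nat_lit 0x30001200090004800200030000c00000000000000) (nat_lit 0x0) (nat_lit 0x100060002400000000000300000000000000) := T_41 (nat_lit 56) (nat_lit 57) (nat_lit 3) (nat_lit 5) (nat_lit 3) L111668 (by decide +kernel)
theorem L111670 : W_41 (nat_lit 5) (nat_lit 0x30001200090004800200030000400000000000000) (nat_lit 0x0) (nat_lit 0x100060002400000000000b00020000000000) := T_41 (nat_lit 59) (nat_lit 41) (nat_lit 4) (nat_lit 8) (nat_lit 6) L111669 (by decide +kernel)
theorem L111671 : W_41 (nat_lit 6) (nat_lit 0x30001200090004800200030000000000000000000) (nat_lit 0x0) (nat_lit 0x100060002400000008000f00020000000000) := T_41 (nat_lit 58) (nat_lit 75) (nat_lit 4) (nat_lit 8) (nat_lit 7) L111670 (by decide +kernel)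
theorem L111672 : W_41 (nat_lit 7) (nat_lit 0x30001200090004800200020000000000000000000) (nat_lit 0x0) (nat_lit 0x100060002400000018001f00020000000000) := T_41 (nat_lit 76) (nat_lit 60) (nat_lit 6) (nat_lit 8) (nat_lit 7) L111671 (by decide +kernel)
theorem L111673 : W_41 (nat_lit 8) (nat_lit 0x30001200090004800200000000000000000000000) (nat_lit 0x0) (nat_lit 0x100060002400400038001f00020000000000) := T_41 (nat_lit 77) (nat_lit 94) (nat_lit 6) (nat_lit 8) (nat_lit 8) L111672 (by decide +kernel)
theorem L111674 : W_41 (nat_lit 2) (nat_lit 0x36001200098004c002c0030000500000000000000) (nat_lit 0x0) (nat_lit 0xa00020000000000) := D_41 (nat_lit 59) (nat_lit 57) (nat_lit 41) (nat_lit 3) (nat_lit 5) (nat_lit 3) (nat_lit 4) (nat_lit 8) (nat_lit 6) (by decide +kernel)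
theorem L111675 : W_41 (nat_lit 3) (nat_lit 0x36001200098004c002c0030000400000000000000) (nat_lit 0x0) (nat_lit 0x2000b00020000000000) := T_41 (nat_lit 56) (nat_lit 73) (nat_lit 5) (nat_lit 5) (nat_lit 3) L111674 (by decide +kernel)
theorem L111676 : W_41 (nat_lit 4) (nat_lit 0x36001200098004c002c0030000000000000000000) (nat_lit 0x0) (nat_lit 0xa000f00020000000000) := T_41 (nat_lit 58) (nat_lit 75) (nat_lit 4) (nat_lit 8) (nat_lit 7) L111675 (by decide +kernel)
theorem L111677 : W_41 (nat_lit 5) (nat_lit 0x36001200090004c002c0030000000000000000000) (nat_lit 0x0) (nat_lit 0x8000000000000800000000000a000f00020000000000) := T_41 (nat_lit 123) (nat_lit 175) (nat_lit 4) (nat_lit 5) (nat_lit 10) L111676 (by decide +kernel)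
theorem L111678 : W_41 (nat_lit 6) (nat_lit 0x36001200090004c002c0020000000000000000000) (nat_lit 0x0) (nat_lit 0x8000000000000800000000001a001f00020000000000) := T_41 (nat_lit 76) (nat_lit 60) (nat_lit 6) (nat_lit 8) (nat_lit 7) L111677 (by decide +kernel)
theorem L111679 : W_41 (nat_lit 7) (nat_lit 0x360012000900048002c0020000000000000000000) (nat_lit 0x0) (nat_lit 0x8000000000000800040002001a001f00020000000000) := T_41 (nat_lit 106) (nat_lit 89) (nat_lit 4) (nat_lit 5) (nat_lit 9) L111678 (by decide +kernel)
theorem L111680 : W_41 (nat_lit 8) (nat_lit 0x320012000900048002c0020000000000000000000) (nat_lit 0x0) (nat_lit 0xc000400000000800040002001a001f00020000000000) := T_41 (nat_lit 158) (nat_lit 174) (nat_lit 5) (nat_lit 5) (nat_lit 6) L111679 (by decide +kernel)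
theorem L111681 : W_41 (nat_lit 9) (nat_lit 0x320012000900048002c0000000000000000000000) (nat_lit 0x0) (nat_lit 0xc000400000000800040042003a001f00020000000000) := T_41 (nat_lit 77) (nat_lit 94) (nat_lit 6) (nat_lit 8) (nat_lit 8) L111680 (by decide +kernel)
theorem L111682 : W_41 (nat_lit 10) (nat_lit 0x300012000900048002c0000000000000000000000) (nat_lit 0x0) (nat_lit 0xc000600010000800040042003a001f00020000000000) := T_41 (nat_lit 157) (nat_lit 140) (nat_lit 5) (nat_lit 5) (nat_lit 5) L111681 (by decide +kernel)
theorem L111683 : W_41 (nat_lit 11) (nat_lit 0x30001200090004800240000000000000000000000) (nat_lit 0x0) (nat_lit 0xc00060001000080004004a003e001f00020000000000) := T_41 (nat_lit 91) (nat_lit 74) (nat_lit 6) (nat_lit 5) (nat_lit 8) L111682 (by decide +kernel)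
theorem L111684 : W_41 (nat_lit 2) (nat_lit 0x30001200090004d002e0030000d00000000000000) (nat_lit 0x0) (nat_lit 0x8000000000002000000008000000000) := D_41 (nat_lit 73) (nat_lit 39) (nat_lit 123) (nat_lit 5) (nat_lit 5) (nat_lit 2) (nat_lit 5) (nat_lit 5) (nat_lit 3) (by decide +kernel)
theorem L111685 : W_41 (nat_lit 3) (nat_lit 0x30001200090004d002e0030000c00000000000000) (nat_lit 0x0) (nat_lit 0x8000000000002000300008000000000) := T_41 (nat_lit 56) (nat_lit 57) (nat_lit 3) (nat_lit 5) (nat_lit 3) L111684 (by decide +kernel)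
theorem L111686 : W_41 (nat_lit 4) (nat_lit 0x30001200090004d002e0030000400000000000000) (nat_lit 0x0) (nat_lit 0x8000000000002000b00028000000000) := T_41 (nat_lit 59) (nat_lit 41) (nat_lit 4) (nat_lit 8) (nat_lit 6) L111685 (by decide +kernel)
theorem L111687 : W_41 (nat_lit 5) (nat_lit 0x30001200090004d002e0030000000000000000000) (nat_lit 0x0) (nat_lit 0x800000000000a000f00028000000000) := T_41 (nat_lit 58) (nat_lit 75) (nat_lit 4) (nat_lit 8) (nat_lit 7) L111686 (by decide +kernel)
theorem L111688 : W_41 (nat_lit 6) (nat_lit 0x30001200090004d002e0020000000000000000000) (nat_lit 0x0) (nat_lit 0x800000000001a001f00028000000000) := T_41 (nat_lit 76) (nat_lit 60) (nat_lit 6) (nat_lit 8) (nat_lit 7) L111687 (by decide +kernel)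
theorem L111689 : W_41 (nat_lit 7) (nat_lit 0x30001200090004c002e0020000000000000000000) (nat_lit 0x0) (nat_lit 0x800030000001a001f00028000000000) := T_41 (nat_lit 104) (nat_lit 105) (nat_lit 2) (nat_lit 2) (nat_lit 6) L111688 (by decide +kernel)
theorem L111690 : W_41 (nat_lit 8) (nat_lit 0x30001200090004c002e0000000000000000000000) (nat_lit 0x0) (nat_lit 0x800030040003a001f00028000000000) := T_41 (nat_lit 77) (nat_lit 94) (nat_lit 6) (nat_lit 8) (nat_lit 8) L111689 (by decide +kernel)
theorem L111691 : W_41 (nat_lit 9) (nat_lit 0x300012000900048002e0000000000000000000000) (nat_lit 0x0) (nat_lit 0x400000000800070040003a001f00028000000000) := T_41 (nat_lit 106) (nat_lit 158) (nat_lit 4) (nat_lit 5) (nat_lit 9) L111690 (by decide +kernel)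
theorem L111692 : W_41 (nat_lit 10) (nat_lit 0x30001200090004800260000000000000000000000) (nat_lit 0x0) (nat_lit 0x400000000800070048003e001f00028000000000) := T_41 (nat_lit 91) (nat_lit 74) (nat_lit 6) (nat_lit 5) (nat_lit 8) L111691 (by decide +kernel)
theorem L111693 : W_41 (nat_lit 11) (nat_lit 0x30001200090004800240000000000000000000000) (nat_lit 0x0) (nat_lit 0x40000000080007004a003f001f00028000000000) := T_41 (nat_lit 89) (nat_lit 72) (nat_lit 4) (nat_lit 5) (nat_lit 8) L111692 (by decide +kernel)
theorem L111694 : W_41 (nat_lit 2) (nat_lit 0x700013000900048002c0032000580000000000000) (nat_lit 0x0) (nat_lit 0xa00010000000000) := D_41 (nat_lit 57) (nat_lit 40) (nat_lit 59) (nat_lit 6) (nat_lit 5) (nat_lit 6) (nat_lit 3) (nat_lit 5) (nat_lit 3) (by decide +kernel)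
theorem L111695 : W_41 (nat_lit 3) (nat_lit 0x700013000900048002c0032000180000000000000) (nat_lit 0x0) (nat_lit 0x8000e00010000000000) := T_41 (nat_lit 58) (nat_lit 75) (nat_lit 4) (nat_lit 8) (nat_lit 7) L111694 (by decide +kernel)
theorem L111696 : W_41 (nat_lit 4) (nat_lit 0x700013000900048002c0022000180000000000000) (nat_lit 0x0) (nat_lit 0x18001e00010000000000) := T_41 (nat_lit 76) (nat_lit 60) (nat_lit 6) (nat_lit 8) (nat_lit 7) L111695 (by decide +kernel)
theorem L111697 : W_41 (nat_lit 5) (nat_lit 0x700013000900048002c0022000080000000000000) (nat_lit 0x0) (nat_lit 0x18001f00014000000000) := T_41 (nat_lit 56) (nat_lit 38) (nat_lit 4) (nat_lit 5) (nat_lit 6) L111696 (by decide +kernel)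
theorem L111698 : W_41 (nat_lit 6) (nat_lit 0x700013000900048002c0002000080000000000000) (nat_lit 0x0) (nat_lit 0x400038001f00014000000000) := T_41 (nat_lit 77) (nat_lit 94) (nat_lit 6) (nat_lit 8) (nat_lit 8) L111697 (by decide +kernel)
theorem L111699 : W_41 (nat_lit 7) (nat_lit 0x700013000900048002c0002000000000000000000) (nat_lit 0x0) (nat_lit 0x400039001f80014000000000) := T_41 (nat_lit 55) (nat_lit 72) (nat_lit 4) (nat_lit 5) (nat_lit 7) L111698 (by decide +kernel)
theorem L111700 : W_41 (nat_lit 8) (nat_lit 0x700013000900048002c0000000000000000000000) (nat_lit 0x0) (nat_lit 0x800000040003b001f80014000000000) := T_41 (nat_lit 73) (nat_lit 123) (nat_lit 5) (nat_lit 5) (nat_lit 4) L111699 (by decide +kernel)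
theorem L111701 : W_41 (nat_lit 9) (nat_lit 0x700012000900048002c0000000000000000000000) (nat_lit 0x0) (nat_lit 0x200010000800000040003b001f80014000000000) := T_41 (nat_lit 140) (nat_lit 157) (nat_lit 5) (nat_lit 5) (nat_lit 5) L111700 (by decide +kernel)
theorem L111702 : W_41 (nat_lit 10) (nat_lit 0x70001200090004800240000000000000000000000) (nat_lit 0x0) (nat_lit 0x200010000800000048003f001f80014000000000) := T_41 (nat_lit 91) (nat_lit 74) (nat_lit 6) (nat_lit 5) (nat_lit 8) L111701 (by decide +kernel)
theorem L111703 : W_41 (nat_lit 11) (nat_lit 0x30001200090004800240000000000000000000000) (nat_lit 0x0) (nat_lit 0x80004200010000800000048003f001f80014000000000) := T_41 (nat_lit 162) (nat_lit 179) (nat_lit 7) (nat_lit 8) (nat_lit 6) L111702 (by decide +kernel)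
theorem L111704 : W_41 (nat_lit 12) (nat_lit 0x30001200090004800200000000000000000000000) (nat_lit 0x0) (nat_lit 0x8c00460001000080007004e003f001f8003c000000000) := Q_41 (nat_lit 90) (C_41 L111641 (C_41 L111645 (C_41 L111683 (C_41 L111693 (C_41 L111703 N_41))))) (by decide +kernel)
theorem L111705 : W_41 (nat_lit 2) (nat_lit 0x700013800b0004e002e0000000000000000000000) (nat_lit 0x0) (nat_lit 0x100000000c000000000000000000000000000000) := D_41 (nat_lit 156) (nat_lit 123) (nat_lit 122) (nat_lit 5) (nat_lit 4) (nat_lit 5) (nat_lit 6) (nat_lit 3) (nat_lit 9) (by decide +kernel)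
theorem L111706 : W_41 (nat_lit 3) (nat_lit 0x700013800b0004c002e0000000000000000000000) (nat_lit 0x0) (nat_lit 0x100000000c000300000000000000000000000000) := T_41 (nat_lit 105) (nat_lit 104) (nat_lit 3) (nat_lit 2) (nat_lit 6) L111705 (by decide +kernel)
theorem L111707 : W_41 (nat_lit 4) (nat_lit 0x700013800b00048002e0000000000000000000000) (nat_lit 0x0) (nat_lit 0x500000000c000700000000000000000000000000) := T_41 (nat_lit 106) (nat_lit 158) (nat_lit 4) (nat_lit 5) (nat_lit 9) L111706 (by decide +kernel)
theorem L111708 : W_41 (nat_lit 5) (nat_lit 0x700013000b00048002e0000000000000000000000) (nat_lit 0x0) (nat_lit 0x50000c000c000700000000000000000000000000) := T_41 (nat_lit 139) (nat_lit 138) (nat_lit 2) (nat_lit 2) (nat_lit 8) L111707 (by decide +kernel)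
theorem L111709 : W_41 (nat_lit 6) (nat_lit 0x700013000b00048002c0000000000000000000000) (nat_lit 0x0) (nat_lit 0x50000c000c000700020001000000000000000000) := T_41 (nat_lit 89) (nat_lit 72) (nat_lit 4) (nat_lit 5) (nat_lit 8) L111708 (by decide +kernel)
theorem L111710 : W_41 (nat_lit 7) (nat_lit 0x700013000900048002c0000000000000000000000) (nat_lit 0x0) (nat_lit 0x50000c006c000700020001000000000000000000) := T_41 (nat_lit 125) (nat_lit 126) (nat_lit 1) (nat_lit 8) (nat_lit 7) L111709 (by decide +kernel)
theorem L111711 : W_41 (nat_lit 8) (nat_lit 0x700012000900048002c0000000000000000000000) (nat_lit 0x0) (nat_lit 0x70001c006c000700020001000000000000000000) := T_41 (nat_lit 140) (nat_lit 157) (nat_lit 5) (nat_lit 5) (nat_lit 5) L111710 (by decide +kernel)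
theorem L111712 : W_41 (nat_lit 9) (nat_lit 0x70001200090004800240000000000000000000000) (nat_lit 0x0) (nat_lit 0x70001c006c0007000a0005000000000000000000) := T_41 (nat_lit 91) (nat_lit 74) (nat_lit 6) (nat_lit 5) (nat_lit 8) L111711 (by decide +kernel)
theorem L111713 : W_41 (nat_lit 10) (nat_lit 0x30001200090004800240000000000000000000000) (nat_lit 0x0) (nat_lit 0x8000470001c006c0007000a0005000000000000000000) := T_41 (nat_lit 162) (nat_lit 179) (nat_lit 7) (nat_lit 8) (nat_lit 6) L111712 (by decide +kernel)
theorem L111714 : W_41 (nat_lit 2) (nat_lit 0x700012000b0004d002e0002000000000000000000) (nat_lit 0x0) (nat_lit 0x8000000000000000100008000000000) := D_41 (nat_lit 56) (nat_lit 123) (nat_lit 39) (nat_lit 5) (nat_lit 5) (nat_lit 3) (nat_lit 5) (nat_lit 5) (nat_lit 2) (by decide +kernel)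
theorem L111715 : W_41 (nat_lit 3) (nat_lit 0x700012000b0004d002e0000000000000000000000) (nat_lit 0x0) (nat_lit 0x400008000000000002000100008000000000) := T_41 (nat_lit 73) (nat_lit 142) (nat_lit 7) (nat_lit 5) (nat_lit 4) L111714 (by decide +kernel)
theorem L111716 : W_41 (nat_lit 4) (nat_lit 0x700012000b0004c002e0000000000000000000000) (nat_lit 0x0) (nat_lit 0x400008000300000002000100008000000000) := T_41 (nat_lit 104) (nat_lit 105) (nat_lit 3) (nat_lit 2) (nat_lit 6) L111715 (by decide +kernel)
theorem L111717 : W_41 (nat_lit 5) (nat_lit 0x70001200090004c002e0000000000000000000000) (nat_lit 0x0) (nat_lit 0x400068000300000002000100008000000000) := T_41 (nat_lit 125) (nat_lit 126) (nat_lit 0) (nat_lit 8) (nat_lit 7) L111716 (by decide +kernel)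
theorem L111718 : W_41 (nat_lit 6) (nat_lit 0x30001200090004c002e0000000000000000000000) (nat_lit 0x0) (nat_lit 0x800040000400068000300000002000100008000000000) := T_41 (nat_lit 162) (nat_lit 179) (nat_lit 7) (nat_lit 8) (nat_lit 6) L111717 (by decide +kernel)
theorem L111719 : W_41 (nat_lit 7) (nat_lit 0x300012000900048002e0000000000000000000000) (nat_lit 0x0) (nat_lit 0x800044000400068000700000002000100008000000000) := T_41 (nat_lit 106) (nat_lit 158) (nat_lit 4) (nat_lit 5) (nat_lit 9) L111718 (by decide +kernel)
theorem L111720 : W_41 (nat_lit 8) (nat_lit 0x30001200090004800260000000000000000000000) (nat_lit 0x0) (nat_lit 0x800044000400068000700080006000100008000000000) := T_41 (nat_lit 91) (nat_lit 74) (nat_lit 6) (nat_lit 5) (nat_lit 8) L111719 (by decide +kernel)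
theorem L111721 : W_41 (nat_lit 9) (nat_lit 0x30001200090004800240000000000000000000000) (nat_lit 0x0) (nat_lit 0x8000440004000680007000a0007000100008000000000) := T_41 (nat_lit 89) (nat_lit 72) (nat_lit 4) (nat_lit 5) (nat_lit 8) L111720 (by decide +kernel)
theorem L111722 : W_41 (nat_lit 2) (nat_lit 0x700013000d0004800240005000000000000000000) (nat_lit 0x0) (nat_lit 0x2000280000000000000) := D_41 (nat_lit 73) (nat_lit 57) (nat_lit 55) (nat_lit 6) (nat_lit 5) (nat_lit 7) (nat_lit 4) (nat_lit 5) (nat_lit 7) (by decide +kernel)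
theorem L111723 : W_41 (nat_lit 3) (nat_lit 0x700013000d0004800240004000000000000000000) (nat_lit 0x0) (nat_lit 0x20003000280000000000000) := T_41 (nat_lit 72) (nat_lit 89) (nat_lit 4) (nat_lit 5) (nat_lit 8) L111722 (by decide +kernel)
theorem L111724 : W_41 (nat_lit 4) (nat_lit 0x700013000d0004800240000000000000000000000) (nat_lit 0x0) (nat_lit 0xa0007000280000000000000) := T_41 (nat_lit 74) (nat_lit 91) (nat_lit 6) (nat_lit 5) (nat_lit 8) L111723 (by decide +kernel)
theorem L111725 : W_41 (nat_lit 5) (nat_lit 0x70001300090004800240000000000000000000000) (nat_lit 0x0) (nat_lit 0x600000000a0007000280000000000000) := T_41 (nat_lit 126) (nat_lit 125) (nat_lit 1) (nat_lit 8) (nat_lit 7) L111724 (by decide +kernel)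
theorem L111726 : W_41 (nat_lit 6) (nat_lit 0x70001200090004800240000000000000000000000) (nat_lit 0x0) (nat_lit 0x20001000600000000a0007000280000000000000) := T_41 (nat_lit 140) (nat_lit 157) (nat_lit 5) (nat_lit 5) (nat_lit 5) L111725 (by decide +kernel)
theorem L111727 : W_41 (nat_lit 7) (nat_lit 0x30001200090004800240000000000000000000000) (nat_lit 0x0) (nat_lit 0x8000420001000600000000a0007000280000000000000) := T_41 (nat_lit 162) (nat_lit 179) (nat_lit 7) (nat_lit 8) (nat_lit 6) L111726 (by decide +kernel)
theorem L111728 : W_41 (nat_lit 11) (nat_lit 0x30001200090004800200000000000000000000000) (nat_lit 0x0) (nat_lit 0x8000470005c006c0007000e0007000380008000000000) := Q_41 (nat_lit 90) (C_41 L111648 (C_41 L111641 (C_41 L111713 (C_41 L111721 (C_41 L111727 N_41))))) (by decide +kernel)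
theorem L111729 : W_41 (nat_lit 2) (nat_lit 0x720013000d00048002000b0000d00000000000000) (nat_lit 0x0) (nat_lit 0x40004000000008000000000000000000000000000000) := D_41 (nat_lit 174) (nat_lit 158) (nat_lit 123) (nat_lit 5) (nat_lit 5) (nat_lit 6) (nat_lit 6) (nat_lit 4) (nat_lit 10) (by decide +kernel)
theorem L111730 : W_41 (nat_lit 3) (nat_lit 0x700013000d00048002000b0000d00000000000000) (nat_lit 0x0) (nat_lit 0x40006000000008000000040000000000000000000000) := T_41 (nat_lit 157) (nat_lit 90) (nat_lit 5) (nat_lit 5) (nat_lit 5) L111729 (by decide +kernel)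
theorem L111731 : W_41 (nat_lit 4) (nat_lit 0x700012000d00048002000b0000d00000000000000) (nat_lit 0x0) (nat_lit 0x40006000100028000000040000000000000000000000) := T_41 (nat_lit 140) (nat_lit 125) (nat_lit 1) (nat_lit 8) (nat_lit 7) L111730 (by decide +kernel)
theorem L111732 : W_41 (nat_lit 5) (nat_lit 0x700012000d0004800200030000d00000000000000) (nat_lit 0x0) (nat_lit 0x400060001000280000000400c0000000000000000000) := T_41 (nat_lit 79) (nat_lit 78) (nat_lit 0) (nat_lit 11) (nat_lit 4) L111731 (by decide +kernel)
theorem L111733 : W_41 (nat_lit 6) (nat_lit 0x70001200090004800200030000d00000000000000) (nat_lit 0x0) (nat_lit 0x400060001000680020000400c0000000000000000000) := T_41 (nat_lit 126) (nat_lit 109) (nat_lit 5) (nat_lit 8) (nat_lit 3) L111732 (by decide +kernel)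
theorem L111734 : W_41 (nat_lit 7) (nat_lit 0x70001200090004800200030000c00000000000000) (nat_lit 0x0) (nat_lit 0x400060001000680020000400c0000300000000000000) := T_41 (nat_lit 56) (nat_lit 57) (nat_lit 3) (nat_lit 5) (nat_lit 3) L111733 (by decide +kernel)
theorem L111735 : W_41 (nat_lit 8) (nat_lit 0x70001200090004800200030000400000000000000) (nat_lit 0x0) (nat_lit 0x400060001000680020000400c0000b00020000000000) := T_41 (nat_lit 59) (nat_lit 41) (nat_lit 4) (nat_lit 8) (nat_lit 6) L111734 (by decide +kernel)
theorem L111736 : W_41 (nat_lit 9) (nat_lit 0x70001200090004800200030000000000000000000) (nat_lit 0x0) (nat_lit 0x400060001000680020000400c8000f00020000000000) := T_41 (nat_lit 58) (nat_lit 75) (nat_lit 4) (nat_lit 8) (nat_lit 7) L111735 (by decide +kernel)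
theorem L111737 : W_41 (nat_lit 10) (nat_lit 0x70001200090004800200020000000000000000000) (nat_lit 0x0) (nat_lit 0x400060001000680020000400d8001f00020000000000) := T_41 (nat_lit 76) (nat_lit 60) (nat_lit 6) (nat_lit 8) (nat_lit 7) L111736 (by decide +kernel)
theorem L111738 : W_41 (nat_lit 11) (nat_lit 0x70001200090004800200000000000000000000000) (nat_lit 0x0) (nat_lit 0x400060001000680020004400f8001f00020000000000) := T_41 (nat_lit 77) (nat_lit 94) (nat_lit 6) (nat_lit 8) (nat_lit 8) L111737 (by decide +kernel)
theorem L111739 : W_41 (nat_lit 12) (nat_lit 0x30001200090004800200000000000000000000000) (nat_lit 0x0) (nat_lit 0x8400460001000680020004400f8001f00020000000000) := T_41 (nat_lit 162) (nat_lit 179) (nat_lit 7) (nat_lit 8) (nat_lit 6) L111738 (by decide +kernel)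
theorem L111740 : W_41 (nat_lit 2) (nat_lit 0x700012000d00048002000b0000c00000000000000) (nat_lit 0x0) (nat_lit 0x100020000400000000000000000000000000) := D_41 (nat_lit 125) (nat_lit 140) (nat_lit 106) (nat_lit 1) (nat_lit 8) (nat_lit 7) (nat_lit 0) (nat_lit 8) (nat_lit 7) (by decide +kernel)
theorem L111741 : W_41 (nat_lit 3) (nat_lit 0x700012000900048002000b0000c00000000000000) (nat_lit 0x0) (nat_lit 0x100060002400000000000000000000000000) := T_41 (nat_lit 126) (nat_lit 109) (nat_lit 5) (nat_lit 8) (nat_lit 3) L111740 (by decide +kernel)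
theorem L111742 : W_41 (nat_lit 4) (nat_lit 0x70001200090004800200030000c00000000000000) (nat_lit 0x0) (nat_lit 0x1000600024000000c0000000000000000000) := T_41 (nat_lit 79) (nat_lit 78) (nat_lit 0) (nat_lit 11) (nat_lit 4) L111741 (by decide +kernel)
theorem L111743 : W_41 (nat_lit 5) (nat_lit 0x70001200090004800200030000400000000000000) (nat_lit 0x0) (nat_lit 0x1000600024000000c0000800020000000000) := T_41 (nat_lit 59) (nat_lit 41) (nat_lit 4) (nat_lit 8) (nat_lit 6) L111742 (by decide +kernel)
theorem L111744 : W_41 (nat_lit 6) (nat_lit 0x70001200090004800200030000000000000000000) (nat_lit 0x0) (nat_lit 0x1000600024000000c8000c00020000000000) := T_41 (nat_lit 58) (nat_lit 75) (nat_lit 4) (nat_lit 8) (nat_lit 7) L111743 (by decide +kernel)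
theorem L111745 : W_41 (nat_lit 7) (nat_lit 0x70001200090004800200020000000000000000000) (nat_lit 0x0) (nat_lit 0x1000600024000000d8001c00020000000000) := T_41 (nat_lit 76) (nat_lit 60) (nat_lit 6) (nat_lit 8) (nat_lit 7) L111744 (by decide +kernel)
theorem L111746 : W_41 (nat_lit 8) (nat_lit 0x30001200090004800200020000000000000000000) (nat_lit 0x0) (nat_lit 0x8000400001000600024000000d8001c00020000000000) := T_41 (nat_lit 162) (nat_lit 179) (nat_lit 7) (nat_lit 8) (nat_lit 6) L111745 (by decide +kernel)
theorem L111747 : W_41 (nat_lit 9) (nat_lit 0x30001200090004800200000000000000000000000) (nat_lit 0x0) (nat_lit 0x8000400001000600024004000f8001c00020000000000) := T_41 (nat_lit 77) (nat_lit 94) (nat_lit 6) (nat_lit 8) (nat_lit 8) L111746 (by decide +kernel)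
theorem L111748 : W_41 (nat_lit 2) (nat_lit 0x700012000d0004c002200b0000d00000000000000) (nat_lit 0x0) (nat_lit 0x40001000080000000000000) := D_41 (nat_lit 72) (nat_lit 90) (nat_lit 55) (nat_lit 4) (nat_lit 5) (nat_lit 8) (nat_lit 7) (nat_lit 4) (nat_lit 3) (by decide +kernel)
theorem L111749 : W_41 (nat_lit 3) (nat_lit 0x700012000d0004c002000b0000d00000000000000) (nat_lit 0x0) (nat_lit 0x4000000000000000060001000080000000000000) := T_41 (nat_lit 89) (nat_lit 158) (nat_lit 4) (nat_lit 5) (nat_lit 9) L111748 (by decide +kernel)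
theorem L111750 : W_41 (nat_lit 4) (nat_lit 0x700012000d00048002000b0000d00000000000000) (nat_lit 0x0) (nat_lit 0x4000000020000400060001000080000000000000) := T_41 (nat_lit 106) (nat_lit 125) (nat_lit 0) (nat_lit 8) (nat_lit 7) L111749 (by decide +kernel)
theorem L111751 : W_41 (nat_lit 5) (nat_lit 0x700012000d0004800200030000d00000000000000) (nat_lit 0x0) (nat_lit 0x40000000200004000600c1000080000000000000) := T_41 (nat_lit 79) (nat_lit 78) (nat_lit 0) (nat_lit 11) (nat_lit 4) L111750 (by decide +kernel)
theorem L111752 : W_41 (nat_lit 6) (nat_lit 0x70001200090004800200030000d00000000000000) (nat_lit 0x0) (nat_lit 0x40000000600024000600c1000080000000000000) := T_41 (nat_lit 126) (nat_lit 109) (nat_lit 5) (nat_lit 8) (nat_lit 3) L111751 (by decide +kernel)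
theorem L111753 : W_41 (nat_lit 7) (nat_lit 0x70001200090004800200030000c00000000000000) (nat_lit 0x0) (nat_lit 0x40000000600024000600c1000380000000000000) := T_41 (nat_lit 56) (nat_lit 57) (nat_lit 3) (nat_lit 5) (nat_lit 3) L111752 (by decide +kernel)
theorem L111754 : W_41 (nat_lit 8) (nat_lit 0x70001200090004800200030000400000000000000) (nat_lit 0x0) (nat_lit 0x40000000600024000600c1000b80020000000000) := T_41 (nat_lit 59) (nat_lit 41) (nat_lit 4) (nat_lit 8) (nat_lit 6) L111753 (by decide +kernel)
theorem L111755 : W_41 (nat_lit 9) (nat_lit 0x70001200090004800200030000000000000000000) (nat_lit 0x0) (nat_lit 0x40000000600024000600c9000f80020000000000) := T_41 (nat_lit 58) (nat_lit 75) (nat_lit 4) (nat_lit 8) (nat_lit 7) L111754 (by decide +kernel)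
theorem L111756 : W_41 (nat_lit 10) (nat_lit 0x70001200090004800200020000000000000000000) (nat_lit 0x0) (nat_lit 0x40000000600024000600d9001f80020000000000) := T_41 (nat_lit 76) (nat_lit 60) (nat_lit 6) (nat_lit 8) (nat_lit 7) L111755 (by decide +kernel)
theorem L111757 : W_41 (nat_lit 11) (nat_lit 0x70001200090004800200000000000000000000000) (nat_lit 0x0) (nat_lit 0x40000000600024004600f9001f80020000000000) := T_41 (nat_lit 77) (nat_lit 94) (nat_lit 6) (nat_lit 8) (nat_lit 8) L111756 (by decide +kernel)
theorem L111758 : W_41 (nat_lit 12) (nat_lit 0x30001200090004800200000000000000000000000) (nat_lit 0x0) (nat_lit 0x8000440000000600024004600f9001f80020000000000) := T_41 (nat_lit 162) (nat_lit 179) (nat_lit 7) (nat_lit 8) (nat_lit 6) L111757 (by decide +kernel)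
theorem L111759 : W_41 (nat_lit 13) (nat_lit 0x30001200080004800200000000000000000000000) (nat_lit 0x0) (nat_lit 0x8c00470005c007c0027004e00ff001f8003c000000000) := Q_41 (nat_lit 124) (C_41 L111658 (C_41 L111666 (C_41 L111673 (C_41 L111704 (C_41 L111728 (C_41 L111739 (C_41 L111747 (C_41 L111758 N_41)))))))) (by decide +kernel)
theorem L111760 : W_41 (nat_lit 2) (nat_lit 0x300012000d0006800200030000000000000000000) (nat_lit 0x0) (nat_lit 0x28000400000000000000000000000000) := D_41 (nat_lit 125) (nat_lit 123) (nat_lit 106) (nat_lit 2) (nat_lit 4) (nat_lit 7) (nat_lit 0) (nat_lit 8) (nat_lit 7) (by decide +kernel)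
theorem L111761 : W_41 (nat_lit 3) (nat_lit 0x30001200090006800200030000000000000000000) (nat_lit 0x0) (nat_lit 0x68000400000000000800000000000000) := T_41 (nat_lit 126) (nat_lit 59) (nat_lit 5) (nat_lit 8) (nat_lit 3) L111760 (by decide +kernel)
theorem L111762 : W_41 (nat_lit 4) (nat_lit 0x30001200090006800200020000000000000000000) (nat_lit 0x0) (nat_lit 0x68000400000010001800000000000000) := T_41 (nat_lit 76) (nat_lit 60) (nat_lit 6) (nat_lit 8) (nat_lit 7) L111761 (by decide +kernel)
theorem L111763 : W_41 (nat_lit 5) (nat_lit 0x30001200090004800200020000000000000000000) (nat_lit 0x0) (nat_lit 0x68002400100010001800000000000000) := T_41 (nat_lit 109) (nat_lit 92) (nat_lit 4) (nat_lit 8) (nat_lit 9) L111762 (by decide +kernel)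
theorem L111764 : W_41 (nat_lit 6) (nat_lit 0x30001200090004800200000000000000000000000) (nat_lit 0x0) (nat_lit 0x68002400500030001800000000000000) := T_41 (nat_lit 77) (nat_lit 94) (nat_lit 6) (nat_lit 8) (nat_lit 8) L111763 (by decide +kernel)
theorem L111765 : W_41 (nat_lit 2) (nat_lit 0x70001300090004800340032000000000000000000) (nat_lit 0x0) (nat_lit 0x20001000080000000000000) := D_41 (nat_lit 72) (nat_lit 55) (nat_lit 89) (nat_lit 4) (nat_lit 5) (nat_lit 7) (nat_lit 4) (nat_lit 5) (nat_lit 8) (by decide +kernel)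
theorem L111766 : W_41 (nat_lit 3) (nat_lit 0x70001300090004800340030000000000000000000) (nat_lit 0x0) (nat_lit 0x8000000020003000080000000000000) := T_41 (nat_lit 73) (nat_lit 123) (nat_lit 5) (nat_lit 5) (nat_lit 4) L111765 (by decide +kernel)
theorem L111767 : W_41 (nat_lit 4) (nat_lit 0x70001200090004800340030000000000000000000) (nat_lit 0x0) (nat_lit 0x2000100008000000020003000080000000000000) := T_41 (nat_lit 140) (nat_lit 157) (nat_lit 5) (nat_lit 5) (nat_lit 5) L111766 (by decide +kernel)
theorem L111768 : W_41 (nat_lit 5) (nat_lit 0x70001200090004800300030000000000000000000) (nat_lit 0x0) (nat_lit 0x20001000080000000e0003000080000000000000) := T_41 (nat_lit 90) (nat_lit 91) (nat_lit 2) (nat_lit 5) (nat_lit 5) L111767 (by decide +kernel)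
theorem L111769 : W_41 (nat_lit 6) (nat_lit 0x70001200090004800300020000000000000000000) (nat_lit 0x0) (nat_lit 0x20001000080000000e0013001080000000000000) := T_41 (nat_lit 76) (nat_lit 60) (nat_lit 6) (nat_lit 8) (nat_lit 7) L111768 (by decide +kernel)
theorem L111770 : W_41 (nat_lit 7) (nat_lit 0x70001200090004800200020000000000000000000) (nat_lit 0x0) (nat_lit 0x20001000080020001e0013001080000000000000) := T_41 (nat_lit 92) (nat_lit 109) (nat_lit 4) (nat_lit 8) (nat_lit 9) L111769 (by decide +kernel)
theorem L111771 : W_41 (nat_lit 8) (nat_lit 0x70001200090004800200000000000000000000000) (nat_lit 0x0) (nat_lit 0x20001000080020005e0033001080000000000000) := T_41 (nat_lit 77) (nat_lit 94) (nat_lit 6) (nat_lit 8) (nat_lit 8) L111770 (by decide +kernel)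
theorem L111772 : W_41 (nat_lit 9) (nat_lit 0x30001200090004800200000000000000000000000) (nat_lit 0x0) (nat_lit 0x8000420001000080020005e0033001080000000000000) := T_41 (nat_lit 162) (nat_lit 179) (nat_lit 7) (nat_lit 8) (nat_lit 6) L111771 (by decide +kernel)
theorem L111773 : W_41 (nat_lit 2) (nat_lit 0x700012000d0006800200030000000000000000000) (nat_lit 0x0) (nat_lit 0x100020000400000000000000000000000000) := D_41 (nat_lit 125) (nat_lit 140) (nat_lit 106) (nat_lit 1) (nat_lit 8) (nat_lit 7) (nat_lit 0) (nat_lit 8) (nat_lit 7) (by decide +kernel)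
theorem L111774 : W_41 (nat_lit 3) (nat_lit 0x70001200090006800200030000000000000000000) (nat_lit 0x0) (nat_lit 0x100060000400000000000800000000000000) := T_41 (nat_lit 126) (nat_lit 59) (nat_lit 5) (nat_lit 8) (nat_lit 3) L111773 (by decide +kernel)
theorem L111775 : W_41 (nat_lit 4) (nat_lit 0x70001200090006800200020000000000000000000) (nat_lit 0x0) (nat_lit 0x100060000400000010001800000000000000) := T_41 (nat_lit 76) (nat_lit 60) (nat_lit 6) (nat_lit 8) (nat_lit 7) L111774 (by decide +kernel)
theorem L111776 : W_41 (nat_lit 5) (nat_lit 0x70001200090006800200000000000000000000000) (nat_lit 0x0) (nat_lit 0x100060000400400030001800000000000000) := T_41 (nat_lit 77) (nat_lit 94) (nat_lit 6) (nat_lit 8) (nat_lit 8) L111775 (by decide +kernel)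
theorem L111777 : W_41 (nat_lit 6) (nat_lit 0x30001200090006800200000000000000000000000) (nat_lit 0x0) (nat_lit 0x800040000100060000400400030001800000000000000) := T_41 (nat_lit 162) (nat_lit 179) (nat_lit 7) (nat_lit 8) (nat_lit 6) L111776 (by decide +kernel)
theorem L111778 : W_41 (nat_lit 7) (nat_lit 0x30001200090004800200000000000000000000000) (nat_lit 0x0) (nat_lit 0x800040000100060002400500030001800000000000000) := T_41 (nat_lit 109) (nat_lit 92) (nat_lit 4) (nat_lit 8) (nat_lit 9) L111777 (by decide +kernel)
theorem L111779 : W_41 (nat_lit 12) (nat_lit 0x30001200080004800200000000000000000000000) (nat_lit 0x0) (nat_lit 0x8000470005c007c0027005e0037001b80008000000000) := Q_41 (nat_lit 124) (C_41 L111728 (C_41 L111764 (C_41 L111772 (C_41 L111778 N_41)))) (by decide +kernel)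
theorem L111780 : W_41 (nat_lit 2) (nat_lit 0x30001200080004800200028000000000000000000) (nat_lit 0x0) (nat_lit 0x10001400000000000000) := D_41 (nat_lit 76) (nat_lit 60) (nat_lit 58) (nat_lit 6) (nat_lit 8) (nat_lit 7) (nat_lit 4) (nat_lit 8) (nat_lit 7) (by decide +kernel)
theorem L111781 : W_41 (nat_lit 3) (nat_lit 0x30001200080004800200020000000000000000000) (nat_lit 0x0) (nat_lit 0x100018001400000000000000) := T_41 (nat_lit 75) (nat_lit 92) (nat_lit 4) (nat_lit 8) (nat_lit 8) L111780 (by decide +kernel)
theorem L111782 : W_41 (nat_lit 4) (nat_lit 0x30001200080004800200000000000000000000000) (nat_lit 0x0) (nat_lit 0x500038001400000000000000) := T_41 (nat_lit 77) (nat_lit 94) (nat_lit 6) (nat_lit 8) (nat_lit 8) L111781 (by decide +kernel)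
theorem L111783 : W_41 (nat_lit 14) (nat_lit 0x30001200080004800000000000000000000000000) (nat_lit 0x0) (nat_lit 0x8c00470005c007c0027007e00ff001f8003c000000000) := Q_41 (nat_lit 93) (C_41 L111637 (C_41 L111759 (C_41 L111779 (C_41 L111782 N_41)))) (by decide +kernel)
theorem L111784 : W_41 (nat_lit 2) (nat_lit 0x30001200080007c00000000000000000000000000) (nat_lit 0x0) (nat_lit 0x1c000000000000000000000000000000) := D_41 (nat_lit 123) (nat_lit 122) (nat_lit 124) (nat_lit 1) (nat_lit 7) (nat_lit 6) (nat_lit 1) (nat_lit 8) (nat_lit 6) (by decide +kernel)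
theorem L111785 : W_41 (nat_lit 3) (nat_lit 0x30001200080007800000000000000000000000000) (nat_lit 0x0) (nat_lit 0x5c000400000000000000000000000000) := T_41 (nat_lit 106) (nat_lit 126) (nat_lit 3) (nat_lit 4) (nat_lit 6) L111784 (by decide +kernel)
theorem L111786 : W_41 (nat_lit 4) (nat_lit 0x30001200080006800000000000000000000000000) (nat_lit 0x0) (nat_lit 0x15c001400000000000000000000000000) := T_41 (nat_lit 108) (nat_lit 128) (nat_lit 3) (nat_lit 5) (nat_lit 6) L111785 (by decide +kernel)
theorem L111787 : W_41 (nat_lit 5) (nat_lit 0x30001200080004800000000000000000000000000) (nat_lit 0x0) (nat_lit 0x15c003400100000000000000000000000) := T_41 (nat_lit 109) (nat_lit 92) (nat_lit 4) (nat_lit 8) (nat_lit 9) L111786 (by decide +kernel)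
theorem L111788 : W_41 (nat_lit 2) (nat_lit 0x30001200090007800240000000000000000000000) (nat_lit 0x0) (nat_lit 0x4000000000000000080004000000000000000000) := D_41 (nat_lit 91) (nat_lit 158) (nat_lit 74) (nat_lit 6) (nat_lit 5) (nat_lit 9) (nat_lit 6) (nat_lit 5) (nat_lit 8) (by decide +kernel)
theorem L111789 : W_41 (nat_lit 3) (nat_lit 0x30001200090007800200000000000000000000000) (nat_lit 0x0) (nat_lit 0x40000000000000000e0004000000000000000000) := T_41 (nat_lit 90) (nat_lit 89) (nat_lit 0) (nat_lit 8) (nat_lit 6) L111788 (by decide +kernel)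
theorem L111790 : W_41 (nat_lit 4) (nat_lit 0x30001200080007800200000000000000000000000) (nat_lit 0x0) (nat_lit 0x40000000180000000e0004000000000000000000) := T_41 (nat_lit 124) (nat_lit 123) (nat_lit 1) (nat_lit 8) (nat_lit 6) L111789 (by decide +kernel)
theorem L111791 : W_41 (nat_lit 5) (nat_lit 0x30001200080007800000000000000000000000000) (nat_lit 0x0) (nat_lit 0x40000000180000006e0004000000000000000000) := T_41 (nat_lit 93) (nat_lit 94) (nat_lit 2) (nat_lit 5) (nat_lit 6) L111790 (by decide +kernel)
theorem L111792 : W_41 (nat_lit 6) (nat_lit 0x30001200080006800000000000000000000000000) (nat_lit 0x0) (nat_lit 0x40000001180010006e0004000000000000000000) := T_41 (nat_lit 108) (nat_lit 128) (nat_lit 3) (nat_lit 5) (nat_lit 6) L111791 (by decide +kernel)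
theorem L111793 : W_41 (nat_lit 7) (nat_lit 0x30001200080004800000000000000000000000000) (nat_lit 0x0) (nat_lit 0x40000001180030007e0004000000000000000000) := T_41 (nat_lit 109) (nat_lit 92) (nat_lit 4) (nat_lit 8) (nat_lit 9) L111792 (by decide +kernel)
theorem L111794 : W_41 (nat_lit 2) (nat_lit 0x300012000b0004800000000000000000000000000) (nat_lit 0x0) (nat_lit 0x100040000400000000000000000000000000) := D_41 (nat_lit 126) (nat_lit 106) (nat_lit 140) (nat_lit 0) (nat_lit 8) (nat_lit 7) (nat_lit 1) (nat_lit 8) (nat_lit 7) (by decide +kernel)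
theorem L111795 : W_41 (nat_lit 2) (nat_lit 0x340012000b0004800000000000000000000000000) (nat_lit 0x0) (nat_lit 0x80000000000000001000080000000000000000000000) := D_41 (nat_lit 108) (nat_lit 91) (nat_lit 175) (nat_lit 6) (nat_lit 5) (nat_lit 9) (nat_lit 6) (nat_lit 5) (nat_lit 10) (by decide +kernel)
theorem L111796 : W_41 (nat_lit 2) (nat_lit 0x760012000b0004800040000000000000000000000) (nat_lit 0x0) (nat_lit 0x400020001000000000000000000) := D_41 (nat_lit 89) (nat_lit 72) (nat_lit 106) (nat_lit 4) (nat_lit 5) (nat_lit 8) (nat_lit 4) (nat_lit 5) (nat_lit 9) (by decide +kernel)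
theorem L111797 : W_41 (nat_lit 3) (nat_lit 0x760012000b0004800000000000000000000000000) (nat_lit 0x0) (nat_lit 0x100000000400060001000000000000000000) := T_41 (nat_lit 90) (nat_lit 140) (nat_lit 5) (nat_lit 5) (nat_lit 5) L111796 (by decide +kernel)
theorem L111798 : W_41 (nat_lit 4) (nat_lit 0x740012000b0004800000000000000000000000000) (nat_lit 0x0) (nat_lit 0x40002000100000000400060001000000000000000000) := T_41 (nat_lit 157) (nat_lit 174) (nat_lit 5) (nat_lit 5) (nat_lit 6) L111797 (by decide +kernel)
theorem L111799 : W_41 (nat_lit 5) (nat_lit 0x340012000b0004800000000000000000000000000) (nat_lit 0x0) (nat_lit 0x840042000100000000400060001000000000000000000) := T_41 (nat_lit 162) (nat_lit 179) (nat_lit 7) (nat_lit 8) (nat_lit 6) L111798 (by decide +kernel)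
theorem L111800 : W_41 (nat_lit 6) (nat_lit 0x300012000b0004800000000000000000000000000) (nat_lit 0x0) (nat_lit 0x8c00460001000000014000e0001000000000000000000) := Q_41 (nat_lit 158) (C_41 L111795 (C_41 L111799 N_41)) (by decide +kernel)
theorem L111801 : W_41 (nat_lit 4) (nat_lit 0x700012000b0004800000000000000000000000000) (nat_lit 0x0) (nat_lit 0x4000100140001000080004000000000000000000) := T_41 (nat_lit 126) (nat_lit 140) (nat_lit 1) (nat_lit 8) (nat_lit 7) L110477 (by decide +kernel)
theorem L111802 : W_41 (nat_lit 5) (nat_lit 0x300012000b0004800000000000000000000000000) (nat_lit 0x0) (nat_lit 0x800044000100140001000080004000000000000000000) := T_41 (nat_lit 162) (nat_lit 179) (nat_lit 7) (nat_lit 8) (nat_lit 6) L111801 (by decide +kernel)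
theorem L111803 : W_41 (nat_lit 2) (nat_lit 0x300012000f0004800000000000000000000000000) (nat_lit 0x0) (nat_lit 0x400100001000000000000000000000000000) := D_41 (nat_lit 128) (nat_lit 108) (nat_lit 142) (nat_lit 0) (nat_lit 9) (nat_lit 7) (nat_lit 1) (nat_lit 9) (nat_lit 7) (by decide +kernel)
theorem L111804 : W_41 (nat_lit 3) (nat_lit 0x300012000b0004800000000000000000000000000) (nat_lit 0x0) (nat_lit 0x400140001400000000000000000000000000) := T_41 (nat_lit 126) (nat_lit 106) (nat_lit 0) (nat_lit 8) (nat_lit 7) L111803 (by decide +kernel)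
theorem L111805 : W_41 (nat_lit 7) (nat_lit 0x30001200090004800000000000000000000000000) (nat_lit 0x0) (nat_lit 0x8c00460005001600014000e0005000000000000000000) := Q_41 (nat_lit 125) (C_41 L111794 (C_41 L111800 (C_41 L111802 (C_41 L111804 N_41)))) (by decide +kernel)
theorem L111806 : W_41 (nat_lit 2) (nat_lit 0x30001200090005800000000000000000000000000) (nat_lit 0x0) (nat_lit 0x108002000000000000000000000000000) := D_41 (nat_lit 109) (nat_lit 123) (nat_lit 128) (nat_lit 1) (nat_lit 8) (nat_lit 6) (nat_lit 3) (nat_lit 5) (nat_lit 6) (by decide +kernel)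
theorem L111807 : W_41 (nat_lit 2) (nat_lit 0x30001200090007800040000000000000000000000) (nat_lit 0x0) (nat_lit 0x4000000000000000080004000000000000000000) := D_41 (nat_lit 91) (nat_lit 158) (nat_lit 74) (nat_lit 6) (nat_lit 5) (nat_lit 9) (nat_lit 6) (nat_lit 5) (nat_lit 8) (by decide +kernel)
theorem L111808 : W_41 (nat_lit 3) (nat_lit 0x30001200090007800000000000000000000000000) (nat_lit 0x0) (nat_lit 0x40000000000000000e0004000000000000000000) := T_41 (nat_lit 90) (nat_lit 89) (nat_lit 0) (nat_lit 8) (nat_lit 6) L111807 (by decide +kernel)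
theorem L111809 : W_41 (nat_lit 4) (nat_lit 0x30001200090005800000000000000000000000000) (nat_lit 0x0) (nat_lit 0x40000000080020000e0004000000000000000000) := T_41 (nat_lit 109) (nat_lit 123) (nat_lit 1) (nat_lit 8) (nat_lit 6) L111808 (by decide +kernel)
theorem L111810 : W_41 (nat_lit 2) (nat_lit 0x36001200090005800040000000000000000000000) (nat_lit 0x0) (nat_lit 0x400020001000000000000000000) := D_41 (nat_lit 89) (nat_lit 72) (nat_lit 106) (nat_lit 4) (nat_lit 5) (nat_lit 8) (nat_lit 4) (nat_lit 5) (nat_lit 9) (by decide +kernel)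
theorem L111811 : W_41 (nat_lit 3) (nat_lit 0x36001200090005800000000000000000000000000) (nat_lit 0x0) (nat_lit 0x100000000400060001000000000000000000) := T_41 (nat_lit 90) (nat_lit 140) (nat_lit 5) (nat_lit 5) (nat_lit 5) L111810 (by decide +kernel)
theorem L111812 : W_41 (nat_lit 4) (nat_lit 0x34001200090005800000000000000000000000000) (nat_lit 0x0) (nat_lit 0x40002000100000000400060001000000000000000000) := T_41 (nat_lit 157) (nat_lit 174) (nat_lit 5) (nat_lit 5) (nat_lit 6) L111811 (by decide +kernel)
theorem L111813 : W_41 (nat_lit 5) (nat_lit 0x30001200090005800000000000000000000000000) (nat_lit 0x0) (nat_lit 0x400060001000000004000e0001000000000000000000) := T_41 (nat_lit 158) (nat_lit 91) (nat_lit 6) (nat_lit 5) (nat_lit 9) L111812 (by decide +kernel)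
theorem L111814 : W_41 (nat_lit 6) (nat_lit 0x30001200090004800000000000000000000000000) (nat_lit 0x0) (nat_lit 0x400060001001080034000e0005000000000000000000) := Q_41 (nat_lit 108) (C_41 L111806 (C_41 L111809 (C_41 L111813 N_41))) (by decide +kernel)
theorem L111815 : W_41 (nat_lit 2) (nat_lit 0x700013000900048000c0002000000000000000000) (nat_lit 0x0) (nat_lit 0x20001000080000000000000) := D_41 (nat_lit 72) (nat_lit 55) (nat_lit 89) (nat_lit 4) (nat_lit 5) (nat_lit 7) (nat_lit 4) (nat_lit 5) (nat_lit 8) (by decide +kernel)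
theorem L111816 : W_41 (nat_lit 3) (nat_lit 0x700013000900048000c0000000000000000000000) (nat_lit 0x0) (nat_lit 0x8000000020003000080000000000000) := T_41 (nat_lit 73) (nat_lit 123) (nat_lit 5) (nat_lit 5) (nat_lit 4) L111815 (by decide +kernel)
theorem L111817 : W_41 (nat_lit 4) (nat_lit 0x700012000900048000c0000000000000000000000) (nat_lit 0x0) (nat_lit 0x2000100008000000020003000080000000000000) := T_41 (nat_lit 140) (nat_lit 157) (nat_lit 5) (nat_lit 5) (nat_lit 5) L111816 (by decide +kernel)
theorem L111818 : W_41 (nat_lit 5) (nat_lit 0x70001200090004800040000000000000000000000) (nat_lit 0x0) (nat_lit 0x20001000080000000a0007000080000000000000) := T_41 (nat_lit 91) (nat_lit 74) (nat_lit 6) (nat_lit 5) (nat_lit 8) L111817 (by decide +kernel)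
theorem L111819 : W_41 (nat_lit 6) (nat_lit 0x30001200090004800040000000000000000000000) (nat_lit 0x0) (nat_lit 0x8000420001000080000000a0007000080000000000000) := T_41 (nat_lit 162) (nat_lit 179) (nat_lit 7) (nat_lit 8) (nat_lit 6) L111818 (by decide +kernel)
theorem L111820 : W_41 (nat_lit 2) (nat_lit 0x340012000900048000e0000000000000000000000) (nat_lit 0x0) (nat_lit 0x40002000100000000000000000000000000000000000) := D_41 (nat_lit 157) (nat_lit 140) (nat_lit 174) (nat_lit 5) (nat_lit 5) (nat_lit 5) (nat_lit 5) (nat_lit 5) (nat_lit 6) (by decide +kernel)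
theorem L111821 : W_41 (nat_lit 3) (nat_lit 0x300012000900048000e0000000000000000000000) (nat_lit 0x0) (nat_lit 0x40006000100000000400000000000000000000000000) := T_41 (nat_lit 158) (nat_lit 106) (nat_lit 4) (nat_lit 5) (nat_lit 9) L111820 (by decide +kernel)
theorem L111822 : W_41 (nat_lit 4) (nat_lit 0x30001200090004800060000000000000000000000) (nat_lit 0x0) (nat_lit 0x40006000100000000400080004000000000000000000) := T_41 (nat_lit 91) (nat_lit 74) (nat_lit 6) (nat_lit 5) (nat_lit 8) L111821 (by decide +kernel)
theorem L111823 : W_41 (nat_lit 5) (nat_lit 0x30001200090004800040000000000000000000000) (nat_lit 0x0) (nat_lit 0x400060001000000004000a0005000000000000000000) := T_41 (nat_lit 89) (nat_lit 72) (nat_lit 4) (nat_lit 5) (nat_lit 8) L111822 (by decide +kernel)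
theorem L111824 : W_41 (nat_lit 2) (nat_lit 0x30001300090004800040002000000000000000000) (nat_lit 0x0) (nat_lit 0x20001000080000000000000) := D_41 (nat_lit 72) (nat_lit 55) (nat_lit 89) (nat_lit 4) (nat_lit 5) (nat_lit 7) (nat_lit 4) (nat_lit 5) (nat_lit 8) (by decide +kernel)
theorem L111825 : W_41 (nat_lit 3) (nat_lit 0x30001300090004800040000000000000000000000) (nat_lit 0x0) (nat_lit 0x8000000020003000080000000000000) := T_41 (nat_lit 73) (nat_lit 123) (nat_lit 5) (nat_lit 5) (nat_lit 4) L111824 (by decide +kernel)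
theorem L111826 : W_41 (nat_lit 4) (nat_lit 0x30001200090004800040000000000000000000000) (nat_lit 0x0) (nat_lit 0x2000100008000000020003000080000000000000) := T_41 (nat_lit 140) (nat_lit 157) (nat_lit 5) (nat_lit 5) (nat_lit 5) L111825 (by decide +kernel)
theorem L111827 : W_41 (nat_lit 2) (nat_lit 0x70001300090004800040002000000000000000000) (nat_lit 0x0) (nat_lit 0x400060000000000000000000000000000000) := D_41 (nat_lit 125) (nat_lit 126) (nat_lit 142) (nat_lit 1) (nat_lit 8) (nat_lit 7) (nat_lit 7) (nat_lit 5) (nat_lit 4) (by decide +kernel)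
theorem L111828 : W_41 (nat_lit 3) (nat_lit 0x70001300090004800040000000000000000000000) (nat_lit 0x0) (nat_lit 0x400068000000000002000000000000000000) := T_41 (nat_lit 73) (nat_lit 123) (nat_lit 5) (nat_lit 5) (nat_lit 4) L111827 (by decide +kernel)
theorem L111829 : W_41 (nat_lit 4) (nat_lit 0x70001200090004800040000000000000000000000) (nat_lit 0x0) (nat_lit 0x2000500068000000000002000000000000000000) := T_41 (nat_lit 140) (nat_lit 157) (nat_lit 5) (nat_lit 5) (nat_lit 5) L111828 (by decide +kernel)
theorem L111830 : W_41 (nat_lit 5) (nat_lit 0x30001200090004800040000000000000000000000) (nat_lit 0x0) (nat_lit 0x800042000500068000000000002000000000000000000) := T_41 (nat_lit 162) (nat_lit 179) (nat_lit 7) (nat_lit 8) (nat_lit 6) L111829 (by decide +kernel)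
theorem L111831 : W_41 (nat_lit 2) (nat_lit 0x700012000b0004d000e0002000000000000000000) (nat_lit 0x0) (nat_lit 0x8000000000000000100008000000000) := D_41 (nat_lit 56) (nat_lit 123) (nat_lit 39) (nat_lit 5) (nat_lit 5) (nat_lit 3) (nat_lit 5) (nat_lit 5) (nat_lit 2) (by decide +kernel)
theorem L111832 : W_41 (nat_lit 3) (nat_lit 0x700012000b0004d000e0000000000000000000000) (nat_lit 0x0) (nat_lit 0x400008000000000002000100008000000000) := T_41 (nat_lit 73) (nat_lit 142) (nat_lit 7) (nat_lit 5) (nat_lit 4) L111831 (by decide +kernel)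
theorem L111833 : W_41 (nat_lit 4) (nat_lit 0x70001200090004d000e0000000000000000000000) (nat_lit 0x0) (nat_lit 0x400068000000000002000100008000000000) := T_41 (nat_lit 125) (nat_lit 126) (nat_lit 0) (nat_lit 8) (nat_lit 7) L111832 (by decide +kernel)
theorem L111834 : W_41 (nat_lit 5) (nat_lit 0x70001200090004c000e0000000000000000000000) (nat_lit 0x0) (nat_lit 0x400068000300000002000100008000000000) := T_41 (nat_lit 104) (nat_lit 105) (nat_lit 2) (nat_lit 2) (nat_lit 6) L111833 (by decide +kernel)
theorem L111835 : W_41 (nat_lit 6) (nat_lit 0x700012000900048000e0000000000000000000000) (nat_lit 0x0) (nat_lit 0x4000400068000700000002000100008000000000) := T_41 (nat_lit 106) (nat_lit 158) (nat_lit 4) (nat_lit 5) (nat_lit 9) L111834 (by decide +kernel)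
theorem L111836 : W_41 (nat_lit 7) (nat_lit 0x700012000900048000c0000000000000000000000) (nat_lit 0x0) (nat_lit 0x4000400068000700020003000100008000000000) := T_41 (nat_lit 89) (nat_lit 72) (nat_lit 4) (nat_lit 5) (nat_lit 8) L111835 (by decide +kernel)
theorem L111837 : W_41 (nat_lit 8) (nat_lit 0x300012000900048000c0000000000000000000000) (nat_lit 0x0) (nat_lit 0x800044000400068000700020003000100008000000000) := T_41 (nat_lit 162) (nat_lit 179) (nat_lit 7) (nat_lit 8) (nat_lit 6) L111836 (by decide +kernel)
theorem L111838 : W_41 (nat_lit 9) (nat_lit 0x30001200090004800040000000000000000000000) (nat_lit 0x0) (nat_lit 0x8000440004000680007000a0007000100008000000000) := T_41 (nat_lit 91) (nat_lit 74) (nat_lit 6) (nat_lit 5) (nat_lit 8) L111837 (by decide +kernel)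
theorem L111839 : W_41 (nat_lit 10) (nat_lit 0x30001200090004800000000000000000000000000) (nat_lit 0x0) (nat_lit 0x8400460005000680007000e0007000180008000000000) := Q_41 (nat_lit 90) (C_41 L111819 (C_41 L111823 (C_41 L111826 (C_41 L111830 (C_41 L111838 N_41))))) (by decide +kernel)
theorem L111840 : W_41 (nat_lit 2) (nat_lit 0x770013000d8005c00000000000000000000000000) (nat_lit 0x0) (nat_lit 0xc00400000000000000000000000000000000000) := D_41 (nat_lit 155) (nat_lit 142) (nat_lit 154) (nat_lit 2) (nat_lit 2) (nat_lit 9) (nat_lit 2) (nat_lit 1) (nat_lit 9) (by decide +kernel)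
theorem L111841 : W_41 (nat_lit 3) (nat_lit 0x760013000d8005c00000000000000000000000000) (nat_lit 0x0) (nat_lit 0x20001c00400000000000000000000000000000000000) := T_41 (nat_lit 156) (nat_lit 173) (nat_lit 5) (nat_lit 4) (nat_lit 6) L111840 (by decide +kernel)
theorem L111842 : W_41 (nat_lit 4) (nat_lit 0x760013000d0005c00000000000000000000000000) (nat_lit 0x0) (nat_lit 0xa0001c00400008000000000000000000000000000000) := T_41 (nat_lit 123) (nat_lit 175) (nat_lit 7) (nat_lit 4) (nat_lit 6) L111841 (by decide +kernel)
theorem L111843 : W_41 (nat_lit 5) (nat_lit 0x760013000d0004c00000000000000000000000000) (nat_lit 0x0) (nat_lit 0xa0001c00400008003000000000000000000000000000) := T_41 (nat_lit 108) (nat_lit 109) (nat_lit 3) (nat_lit 4) (nat_lit 6) L111842 (by decide +kernel)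
theorem L111844 : W_41 (nat_lit 6) (nat_lit 0x760012000d0004c00000000000000000000000000) (nat_lit 0x0) (nat_lit 0xa0001c00500008003000040000000000000000000000) := T_41 (nat_lit 140) (nat_lit 90) (nat_lit 5) (nat_lit 5) (nat_lit 5) L111843 (by decide +kernel)
theorem L111845 : W_41 (nat_lit 7) (nat_lit 0x740012000d0004c00000000000000000000000000) (nat_lit 0x0) (nat_lit 0xe0003c00500008003000040000000000000000000000) := T_41 (nat_lit 157) (nat_lit 174) (nat_lit 5) (nat_lit 5) (nat_lit 6) L111844 (by decide +kernel)
theorem L111846 : W_41 (nat_lit 8) (nat_lit 0x74001200090004c00000000000000000000000000) (nat_lit 0x0) (nat_lit 0xe0003c00500068003000040000000000000000000000) := T_41 (nat_lit 126) (nat_lit 125) (nat_lit 0) (nat_lit 8) (nat_lit 7) L111845 (by decide +kernel)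
theorem L111847 : W_41 (nat_lit 9) (nat_lit 0x70001200090004c00000000000000000000000000) (nat_lit 0x0) (nat_lit 0xe0007c00500068003000060000000000000000000000) := T_41 (nat_lit 158) (nat_lit 89) (nat_lit 4) (nat_lit 5) (nat_lit 9) L111846 (by decide +kernel)
theorem L111848 : W_41 (nat_lit 10) (nat_lit 0x30001200090004c00000000000000000000000000) (nat_lit 0x0) (nat_lit 0x8e0047c00500068003000060000000000000000000000) := T_41 (nat_lit 162) (nat_lit 179) (nat_lit 7) (nat_lit 8) (nat_lit 6) L111847 (by decide +kernel)
theorem L111849 : W_41 (nat_lit 2) (nat_lit 0x70001300090004c00040002000000000000000000) (nat_lit 0x0) (nat_lit 0x400060000000000000000000000000000000) := D_41 (nat_lit 125) (nat_lit 142) (nat_lit 126) (nat_lit 7) (nat_lit 5) (nat_lit 4) (nat_lit 1) (nat_lit 8) (nat_lit 7) (by decide +kernel)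
theorem L111850 : W_41 (nat_lit 3) (nat_lit 0x70001300090004c00040000000000000000000000) (nat_lit 0x0) (nat_lit 0x400068000000000002000000000000000000) := T_41 (nat_lit 73) (nat_lit 123) (nat_lit 5) (nat_lit 5) (nat_lit 4) L111849 (by decide +kernel)
theorem L111851 : W_41 (nat_lit 4) (nat_lit 0x70001200090004c00040000000000000000000000) (nat_lit 0x0) (nat_lit 0x2000500068000000000002000000000000000000) := T_41 (nat_lit 140) (nat_lit 157) (nat_lit 5) (nat_lit 5) (nat_lit 5) L111850 (by decide +kernel)
theorem L111852 : W_41 (nat_lit 5) (nat_lit 0x30001200090004c00040000000000000000000000) (nat_lit 0x0) (nat_lit 0x800042000500068000000000002000000000000000000) := T_41 (nat_lit 162) (nat_lit 179) (nat_lit 7) (nat_lit 8) (nat_lit 6) L111851 (by decide +kernel)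
theorem L111853 : W_41 (nat_lit 2) (nat_lit 0x30001300090004c00040002000000000000000000) (nat_lit 0x0) (nat_lit 0x400060000000000000000000000000000000) := D_41 (nat_lit 125) (nat_lit 142) (nat_lit 126) (nat_lit 7) (nat_lit 5) (nat_lit 4) (nat_lit 1) (nat_lit 8) (nat_lit 7) (by decide +kernel)
theorem L111854 : W_41 (nat_lit 3) (nat_lit 0x30001300090004c00040000000000000000000000) (nat_lit 0x0) (nat_lit 0x400068000000000002000000000000000000) := T_41 (nat_lit 73) (nat_lit 123) (nat_lit 5) (nat_lit 5) (nat_lit 4) L111853 (by decide +kernel)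
theorem L111855 : W_41 (nat_lit 4) (nat_lit 0x30001200090004c00040000000000000000000000) (nat_lit 0x0) (nat_lit 0x2000500068000000000002000000000000000000) := T_41 (nat_lit 140) (nat_lit 157) (nat_lit 5) (nat_lit 5) (nat_lit 5) L111854 (by decide +kernel)
theorem L111856 : W_41 (nat_lit 2) (nat_lit 0x30001300090004c00040002000000000000000000) (nat_lit 0x0) (nat_lit 0x20001000080000000000000) := D_41 (nat_lit 72) (nat_lit 89) (nat_lit 55) (nat_lit 4) (nat_lit 5) (nat_lit 8) (nat_lit 4) (nat_lit 5) (nat_lit 7) (by decide +kernel)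
theorem L111857 : W_41 (nat_lit 3) (nat_lit 0x30001300090004c00040000000000000000000000) (nat_lit 0x0) (nat_lit 0x8000000020003000080000000000000) := T_41 (nat_lit 73) (nat_lit 123) (nat_lit 5) (nat_lit 5) (nat_lit 4) L111856 (by decide +kernel)
theorem L111858 : W_41 (nat_lit 4) (nat_lit 0x30001200090004c00040000000000000000000000) (nat_lit 0x0) (nat_lit 0x2000100008000000020003000080000000000000) := T_41 (nat_lit 140) (nat_lit 157) (nat_lit 5) (nat_lit 5) (nat_lit 5) L111857 (by decide +kernel)
theorem L111859 : W_41 (nat_lit 2) (nat_lit 0x700013800da005c00070000000000000000000000) (nat_lit 0x0) (nat_lit 0x60001000000000000000000000000000000) := D_41 (nat_lit 138) (nat_lit 137) (nat_lit 120) (nat_lit 2) (nat_lit 1) (nat_lit 8) (nat_lit 0) (nat_lit 5) (nat_lit 8) (by decide +kernel)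
theorem L111860 : W_41 (nat_lit 3) (nat_lit 0x700013000da005c00070000000000000000000000) (nat_lit 0x0) (nat_lit 0x10000e0001000000000000000000000000000000) := T_41 (nat_lit 139) (nat_lit 156) (nat_lit 5) (nat_lit 4) (nat_lit 5) L111859 (by decide +kernel)
theorem L111861 : W_41 (nat_lit 4) (nat_lit 0x700013000d8005c00070000000000000000000000) (nat_lit 0x0) (nat_lit 0x10000e0007000000000000000000000000000000) := T_41 (nat_lit 121) (nat_lit 122) (nat_lit 2) (nat_lit 2) (nat_lit 7) L111860 (by decide +kernel)
theorem L111862 : W_41 (nat_lit 5) (nat_lit 0x700013000d0005c00070000000000000000000000) (nat_lit 0x0) (nat_lit 0x10000e000f000000000000800000000000000000) := T_41 (nat_lit 123) (nat_lit 71) (nat_lit 4) (nat_lit 4) (nat_lit 8) L111861 (by decide +kernel)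
theorem L111863 : W_41 (nat_lit 6) (nat_lit 0x700013000d0005c00060000000000000000000000) (nat_lit 0x0) (nat_lit 0x10000e000f000000018000800000000000000000) := T_41 (nat_lit 88) (nat_lit 87) (nat_lit 3) (nat_lit 2) (nat_lit 5) L111862 (by decide +kernel)
theorem L111864 : W_41 (nat_lit 7) (nat_lit 0x300013000d0005c00060000000000000000000000) (nat_lit 0x0) (nat_lit 0x8000410000e000f000000018000800000000000000000) := T_41 (nat_lit 162) (nat_lit 179) (nat_lit 7) (nat_lit 8) (nat_lit 6) L111863 (by decide +kernel)
theorem L111865 : W_41 (nat_lit 8) (nat_lit 0x300013000d0004c00060000000000000000000000) (nat_lit 0x0) (nat_lit 0x8000410000e000f003000018000800000000000000000) := T_41 (nat_lit 108) (nat_lit 109) (nat_lit 3) (nat_lit 4) (nat_lit 6) L111864 (by decide +kernel)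
theorem L111866 : W_41 (nat_lit 9) (nat_lit 0x300013000d0004c00040000000000000000000000) (nat_lit 0x0) (nat_lit 0x8000410000e000f003000038001800000000000000000) := T_41 (nat_lit 89) (nat_lit 72) (nat_lit 4) (nat_lit 5) (nat_lit 8) L111865 (by decide +kernel)
theorem L111867 : W_41 (nat_lit 10) (nat_lit 0x30001300090004c00040000000000000000000000) (nat_lit 0x0) (nat_lit 0x8000410000e006f003000038001800000000000000000) := T_41 (nat_lit 126) (nat_lit 125) (nat_lit 1) (nat_lit 8) (nat_lit 7) L111866 (by decide +kernel)
theorem L111868 : W_41 (nat_lit 11) (nat_lit 0x30001200090004c00040000000000000000000000) (nat_lit 0x0) (nat_lit 0x8000430001e006f003000038001800000000000000000) := T_41 (nat_lit 140) (nat_lit 157) (nat_lit 5) (nat_lit 5) (nat_lit 5) L111867 (by decide +kernel)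
theorem L111869 : W_41 (nat_lit 2) (nat_lit 0x700012000b0006d00060002000000000000000000) (nat_lit 0x0) (nat_lit 0x8000000000000000100008000000000) := D_41 (nat_lit 56) (nat_lit 39) (nat_lit 123) (nat_lit 5) (nat_lit 5) (nat_lit 2) (nat_lit 5) (nat_lit 5) (nat_lit 3) (by decide +kernel)
theorem L111870 : W_41 (nat_lit 3) (nat_lit 0x700012000b0006d00060000000000000000000000) (nat_lit 0x0) (nat_lit 0x400008000000000002000100008000000000) := T_41 (nat_lit 73) (nat_lit 142) (nat_lit 7) (nat_lit 5) (nat_lit 4) L111869 (by decide +kernel)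
theorem L111871 : W_41 (nat_lit 4) (nat_lit 0x700012000b0006c00060000000000000000000000) (nat_lit 0x0) (nat_lit 0x400008000300000002000100008000000000) := T_41 (nat_lit 104) (nat_lit 105) (nat_lit 3) (nat_lit 2) (nat_lit 6) L111870 (by decide +kernel)
theorem L111872 : W_41 (nat_lit 5) (nat_lit 0x300012000b0006c00060000000000000000000000) (nat_lit 0x0) (nat_lit 0x800040000400008000300000002000100008000000000) := T_41 (nat_lit 162) (nat_lit 179) (nat_lit 7) (nat_lit 8) (nat_lit 6) L111871 (by decide +kernel)
theorem L111873 : W_41 (nat_lit 6) (nat_lit 0x30001200090006c00060000000000000000000000) (nat_lit 0x0) (nat_lit 0x800040000400068000300000002000100008000000000) := T_41 (nat_lit 125) (nat_lit 126) (nat_lit 0) (nat_lit 8) (nat_lit 7) L111872 (by decide +kernel)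
theorem L111874 : W_41 (nat_lit 7) (nat_lit 0x30001200090004c00060000000000000000000000) (nat_lit 0x0) (nat_lit 0x800040000400068003300000002000100008000000000) := T_41 (nat_lit 109) (nat_lit 108) (nat_lit 0) (nat_lit 8) (nat_lit 6) L111873 (by decide +kernel)
theorem L111875 : W_41 (nat_lit 8) (nat_lit 0x30001200090004c00040000000000000000000000) (nat_lit 0x0) (nat_lit 0x800040000400068003300020003000100008000000000) := T_41 (nat_lit 89) (nat_lit 72) (nat_lit 4) (nat_lit 5) (nat_lit 8) L111874 (by decide +kernel)
theorem L111876 : W_41 (nat_lit 2) (nat_lit 0x700013000b0006c00060002000200000000000000) (nat_lit 0x0) (nat_lit 0x100018000000000) := D_41 (nat_lit 56) (nat_lit 39) (nat_lit 40) (nat_lit 5) (nat_lit 5) (nat_lit 2) (nat_lit 6) (nat_lit 5) (nat_lit 6) (by decide +kernel)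
theorem L111877 : W_41 (nat_lit 3) (nat_lit 0x700013000b0006c00060002000000000000000000) (nat_lit 0x0) (nat_lit 0x4000300018000000000) := T_41 (nat_lit 57) (nat_lit 74) (nat_lit 6) (nat_lit 5) (nat_lit 7) L111876 (by decide +kernel)
theorem L111878 : W_41 (nat_lit 4) (nat_lit 0x700013000b0006c00060000000000000000000000) (nat_lit 0x0) (nat_lit 0x400000000000000006000300018000000000) := T_41 (nat_lit 73) (nat_lit 142) (nat_lit 7) (nat_lit 5) (nat_lit 4) L111877 (by decide +kernel)
theorem L111879 : W_41 (nat_lit 5) (nat_lit 0x700013000b0004c00060000000000000000000000) (nat_lit 0x0) (nat_lit 0x400000003000000006000300018000000000) := T_41 (nat_lit 109) (nat_lit 108) (nat_lit 0) (nat_lit 8) (nat_lit 6) L111878 (by decide +kernel)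
theorem L111880 : W_41 (nat_lit 6) (nat_lit 0x700013000b0004c00040000000000000000000000) (nat_lit 0x0) (nat_lit 0x400000003000020007000300018000000000) := T_41 (nat_lit 89) (nat_lit 72) (nat_lit 4) (nat_lit 5) (nat_lit 8) L111879 (by decide +kernel)
theorem L111881 : W_41 (nat_lit 7) (nat_lit 0x70001300090004c00040000000000000000000000) (nat_lit 0x0) (nat_lit 0x400060003000020007000300018000000000) := T_41 (nat_lit 125) (nat_lit 126) (nat_lit 1) (nat_lit 8) (nat_lit 7) L111880 (by decide +kernel)
theorem L111882 : W_41 (nat_lit 8) (nat_lit 0x70001200090004c00040000000000000000000000) (nat_lit 0x0) (nat_lit 0x2000500060003000020007000300018000000000) := T_41 (nat_lit 140) (nat_lit 157) (nat_lit 5) (nat_lit 5) (nat_lit 5) L111881 (by decide +kernel)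
theorem L111883 : W_41 (nat_lit 9) (nat_lit 0x30001200090004c00040000000000000000000000) (nat_lit 0x0) (nat_lit 0x800042000500060003000020007000300018000000000) := T_41 (nat_lit 162) (nat_lit 179) (nat_lit 7) (nat_lit 8) (nat_lit 6) L111882 (by decide +kernel)
theorem L111884 : W_41 (nat_lit 12) (nat_lit 0x30001200090004c00000000000000000000000000) (nat_lit 0x0) (nat_lit 0x8000430005e006f003300078007800380018000000000) := Q_41 (nat_lit 90) (C_41 L111852 (C_41 L111855 (C_41 L111858 (C_41 L111868 (C_41 L111875 (C_41 L111883 N_41)))))) (by decide +kernel)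
theorem L111885 : W_41 (nat_lit 2) (nat_lit 0x370013000d8005c00000000000000000000000000) (nat_lit 0x0) (nat_lit 0xc00400000000000000000000000000000000000) := D_41 (nat_lit 155) (nat_lit 142) (nat_lit 154) (nat_lit 2) (nat_lit 2) (nat_lit 9) (nat_lit 2) (nat_lit 1) (nat_lit 9) (by decide +kernel)
theorem L111886 : W_41 (nat_lit 3) (nat_lit 0x360013000d8005c00000000000000000000000000) (nat_lit 0x0) (nat_lit 0x20001c00400000000000000000000000000000000000) := T_41 (nat_lit 156) (nat_lit 173) (nat_lit 5) (nat_lit 4) (nat_lit 6) L111885 (by decide +kernel)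
theorem L111887 : W_41 (nat_lit 4) (nat_lit 0x360013000d0005c00000000000000000000000000) (nat_lit 0x0) (nat_lit 0xa0001c00400008000000000000000000000000000000) := T_41 (nat_lit 123) (nat_lit 175) (nat_lit 7) (nat_lit 4) (nat_lit 6) L111886 (by decide +kernel)
theorem L111888 : W_41 (nat_lit 5) (nat_lit 0x360013000d0004c00000000000000000000000000) (nat_lit 0x0) (nat_lit 0xa0001c00400008003000000000000000000000000000) := T_41 (nat_lit 108) (nat_lit 109) (nat_lit 3) (nat_lit 4) (nat_lit 6) L111887 (by decide +kernel)
theorem L111889 : W_41 (nat_lit 6) (nat_lit 0x360012000d0004c00000000000000000000000000) (nat_lit 0x0) (nat_lit 0xa0001c00500008003000040000000000000000000000) := T_41 (nat_lit 140) (nat_lit 90) (nat_lit 5) (nat_lit 5) (nat_lit 5) L111888 (by decide +kernel)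
theorem L111890 : W_41 (nat_lit 7) (nat_lit 0x340012000d0004c00000000000000000000000000) (nat_lit 0x0) (nat_lit 0xe0003c00500008003000040000000000000000000000) := T_41 (nat_lit 157) (nat_lit 174) (nat_lit 5) (nat_lit 5) (nat_lit 6) L111889 (by decide +kernel)
theorem L111891 : W_41 (nat_lit 8) (nat_lit 0x34001200090004c00000000000000000000000000) (nat_lit 0x0) (nat_lit 0xe0003c00500068003000040000000000000000000000) := T_41 (nat_lit 126) (nat_lit 125) (nat_lit 0) (nat_lit 8) (nat_lit 7) L111890 (by decide +kernel)
theorem L111892 : W_41 (nat_lit 9) (nat_lit 0x30001200090004c00000000000000000000000000) (nat_lit 0x0) (nat_lit 0xe0007c00500068003000060000000000000000000000) := T_41 (nat_lit 158) (nat_lit 89) (nat_lit 4) (nat_lit 5) (nat_lit 9) L111891 (by decide +kernel)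
theorem L111893 : W_41 (nat_lit 2) (nat_lit 0x800760012000b0004c00040000000000000000000000) (nat_lit 0x0) (nat_lit 0x1000000000000400000000000000002000000000000000000) := D_41 (nat_lit 142) (nat_lit 192) (nat_lit 73) (nat_lit 6) (nat_lit 5) (nat_lit 11) (nat_lit 7) (nat_lit 5) (nat_lit 4) (by decide +kernel)
theorem L111894 : W_41 (nat_lit 3) (nat_lit 0x80076001200090004c00040000000000000000000000) (nat_lit 0x0) (nat_lit 0x1000000000000400020001000000002000000000000000000) := T_41 (nat_lit 125) (nat_lit 108) (nat_lit 6) (nat_lit 5) (nat_lit 10) L111893 (by decide +kernel)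
theorem L111895 : W_41 (nat_lit 4) (nat_lit 0x76001200090004c00040000000000000000000000) (nat_lit 0x0) (nat_lit 0x1000080000000400028001000000002000000000000000000) := T_41 (nat_lit 175) (nat_lit 123) (nat_lit 4) (nat_lit 5) (nat_lit 10) L111894 (by decide +kernel)
theorem L111896 : W_41 (nat_lit 5) (nat_lit 0x76001200090004c00000000000000000000000000) (nat_lit 0x0) (nat_lit 0x1000080000000500028001000040002000000000000000000) := T_41 (nat_lit 90) (nat_lit 140) (nat_lit 5) (nat_lit 5) (nat_lit 5) L111895 (by decide +kernel)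
theorem L111897 : W_41 (nat_lit 6) (nat_lit 0x74001200090004c00000000000000000000000000) (nat_lit 0x0) (nat_lit 0x10000c0002000500028001000040002000000000000000000) := T_41 (nat_lit 157) (nat_lit 174) (nat_lit 5) (nat_lit 5) (nat_lit 6) L111896 (by decide +kernel)
theorem L111898 : W_41 (nat_lit 7) (nat_lit 0x34001200090004c00000000000000000000000000) (nat_lit 0x0) (nat_lit 0x10008c0042000500028001000040002000000000000000000) := T_41 (nat_lit 162) (nat_lit 179) (nat_lit 7) (nat_lit 8) (nat_lit 6) L111897 (by decide +kernel)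
theorem L111899 : W_41 (nat_lit 8) (nat_lit 0x30001200090004c00000000000000000000000000) (nat_lit 0x0) (nat_lit 0x10008c0046000500028001000060002000000000000000000) := T_41 (nat_lit 158) (nat_lit 89) (nat_lit 4) (nat_lit 5) (nat_lit 9) L111898 (by decide +kernel)
theorem L111900 : W_41 (nat_lit 2) (nat_lit 0x10000800360013000d0004c00000000000000000000000000) (nat_lit 0x0) (nat_lit 0x40002000100000000000000000000000000000000000000000000) := D_41 (nat_lit 193) (nat_lit 176) (nat_lit 210) (nat_lit 7) (nat_lit 5) (nat_lit 7) (nat_lit 7) (nat_lit 5) (nat_lit 8) (by decide +kernel)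
theorem L111901 : W_41 (nat_lit 3) (nat_lit 0x800360013000d0004c00000000000000000000000000) (nat_lit 0x0) (nat_lit 0x60003000100000000000000000000000000000000000000000000) := T_41 (nat_lit 192) (nat_lit 209) (nat_lit 4) (nat_lit 5) (nat_lit 12) L111900 (by decide +kernel)
theorem L111902 : W_41 (nat_lit 4) (nat_lit 0x360013000d0004c00000000000000000000000000) (nat_lit 0x0) (nat_lit 0x60003000180000000000008000000000000000000000000000000) := T_41 (nat_lit 175) (nat_lit 123) (nat_lit 7) (nat_lit 4) (nat_lit 6) L111901 (by decide +kernel)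
theorem L111903 : W_41 (nat_lit 5) (nat_lit 0x360012000d0004c00000000000000000000000000) (nat_lit 0x0) (nat_lit 0x60003000180000000100008000000040000000000000000000000) := T_41 (nat_lit 140) (nat_lit 90) (nat_lit 5) (nat_lit 5) (nat_lit 5) L111902 (by decide +kernel)
theorem L111904 : W_41 (nat_lit 6) (nat_lit 0x340012000d0004c00000000000000000000000000) (nat_lit 0x0) (nat_lit 0x600030001c0002000100008000000040000000000000000000000) := T_41 (nat_lit 157) (nat_lit 174) (nat_lit 5) (nat_lit 5) (nat_lit 6) L111903 (by decide +kernel)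
theorem L111905 : W_41 (nat_lit 7) (nat_lit 0x34001200090004c00000000000000000000000000) (nat_lit 0x0) (nat_lit 0x600030001c0002000100068000000040000000000000000000000) := T_41 (nat_lit 126) (nat_lit 125) (nat_lit 0) (nat_lit 8) (nat_lit 7) L111904 (by decide +kernel)
theorem L111906 : W_41 (nat_lit 8) (nat_lit 0x30001200090004c00000000000000000000000000) (nat_lit 0x0) (nat_lit 0x600030001c0006000100068000000060000000000000000000000) := T_41 (nat_lit 158) (nat_lit 89) (nat_lit 4) (nat_lit 5) (nat_lit 9) L111905 (by decide +kernel)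
theorem L111907 : W_41 (nat_lit 2) (nat_lit 0x1000080076001300090004c00000000000000000000000000) (nat_lit 0x0) (nat_lit 0x40002000100000000000000000000000000000000000000000000) := D_41 (nat_lit 193) (nat_lit 176) (nat_lit 210) (nat_lit 7) (nat_lit 5) (nat_lit 7) (nat_lit 7) (nat_lit 5) (nat_lit 8) (by decide +kernel)
theorem L111908 : W_41 (nat_lit 3) (nat_lit 0x80076001300090004c00000000000000000000000000) (nat_lit 0x0) (nat_lit 0x60003000100000000000000000000000000000000000000000000) := T_41 (nat_lit 192) (nat_lit 209) (nat_lit 4) (nat_lit 5) (nat_lit 12) L111907 (by decide +kernel)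
theorem L111909 : W_41 (nat_lit 4) (nat_lit 0x76001300090004c00000000000000000000000000) (nat_lit 0x0) (nat_lit 0x60003000180000000000008000000000000000000000000000000) := T_41 (nat_lit 175) (nat_lit 123) (nat_lit 7) (nat_lit 4) (nat_lit 6) L111908 (by decide +kernel)
theorem L111910 : W_41 (nat_lit 5) (nat_lit 0x76001200090004c00000000000000000000000000) (nat_lit 0x0) (nat_lit 0x60003000180000000100008000000040000000000000000000000) := T_41 (nat_lit 140) (nat_lit 90) (nat_lit 5) (nat_lit 5) (nat_lit 5) L111909 (by decide +kernel)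
theorem L111911 : W_41 (nat_lit 6) (nat_lit 0x74001200090004c00000000000000000000000000) (nat_lit 0x0) (nat_lit 0x600030001c0002000100008000000040000000000000000000000) := T_41 (nat_lit 157) (nat_lit 174) (nat_lit 5) (nat_lit 5) (nat_lit 6) L111910 (by decide +kernel)
theorem L111912 : W_41 (nat_lit 7) (nat_lit 0x34001200090004c00000000000000000000000000) (nat_lit 0x0) (nat_lit 0x600030009c0042000100008000000040000000000000000000000) := T_41 (nat_lit 162) (nat_lit 179) (nat_lit 7) (nat_lit 8) (nat_lit 6) L111911 (by decide +kernel)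
theorem L111913 : W_41 (nat_lit 8) (nat_lit 0x30001200090004c00000000000000000000000000) (nat_lit 0x0) (nat_lit 0x600030009c0046000100008000000060000000000000000000000) := T_41 (nat_lit 158) (nat_lit 89) (nat_lit 4) (nat_lit 5) (nat_lit 9) L111912 (by decide +kernel)
theorem L111914 : W_41 (nat_lit 2) (nat_lit 0x100030000800760012000d0005c00000000000000000000000000) (nat_lit 0x0) (nat_lit 0x200020000000000000000100000000000000000000000000000000000) := D_41 (nat_lit 209) (nat_lit 140) (nat_lit 225) (nat_lit 4) (nat_lit 5) (nat_lit 12) (nat_lit 5) (nat_lit 5) (nat_lit 9) (by decide +kernel)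
theorem L111915 : W_41 (nat_lit 3) (nat_lit 0x30000800760012000d0005c00000000000000000000000000) (nat_lit 0x0) (nat_lit 0x200030000800000000000100000000000000000000000000000000000) := T_41 (nat_lit 208) (nat_lit 191) (nat_lit 5) (nat_lit 5) (nat_lit 8) L111914 (by decide +kernel)
theorem L111916 : W_41 (nat_lit 4) (nat_lit 0x20000800760012000d0005c00000000000000000000000000) (nat_lit 0x0) (nat_lit 0x200070001800000000000100000000000000000000000000000000000) := T_41 (nat_lit 192) (nat_lit 210) (nat_lit 7) (nat_lit 5) (nat_lit 8) L111915 (by decide +kernel)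
theorem L111917 : W_41 (nat_lit 5) (nat_lit 0x800760012000d0005c00000000000000000000000000) (nat_lit 0x0) (nat_lit 0x200070003800100000000100000000000000000000000000000000000) := T_41 (nat_lit 193) (nat_lit 176) (nat_lit 7) (nat_lit 5) (nat_lit 7) L111916 (by decide +kernel)
theorem L111918 : W_41 (nat_lit 6) (nat_lit 0x800360012000d0005c00000000000000000000000000) (nat_lit 0x0) (nat_lit 0x200070003800900040000100000000000000000000000000000000000) := T_41 (nat_lit 162) (nat_lit 179) (nat_lit 7) (nat_lit 8) (nat_lit 6) L111917 (by decide +kernel)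
theorem L111919 : W_41 (nat_lit 7) (nat_lit 0x360012000d0005c00000000000000000000000000) (nat_lit 0x0) (nat_lit 0x200070003800980040000100008000000000000000000000000000000) := T_41 (nat_lit 175) (nat_lit 123) (nat_lit 4) (nat_lit 5) (nat_lit 10) L111918 (by decide +kernel)
theorem L111920 : W_41 (nat_lit 8) (nat_lit 0x360012000d0004c00000000000000000000000000) (nat_lit 0x0) (nat_lit 0x200070003800980040000100008003000000000000000000000000000) := T_41 (nat_lit 108) (nat_lit 109) (nat_lit 3) (nat_lit 4) (nat_lit 6) L111919 (by decide +kernel)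
theorem L111921 : W_41 (nat_lit 9) (nat_lit 0x340012000d0004c00000000000000000000000000) (nat_lit 0x0) (nat_lit 0x2000700038009c0042000100008003000000000000000000000000000) := T_41 (nat_lit 157) (nat_lit 174) (nat_lit 5) (nat_lit 5) (nat_lit 6) L111920 (by decide +kernel)
theorem L111922 : W_41 (nat_lit 10) (nat_lit 0x34001200090004c00000000000000000000000000) (nat_lit 0x0) (nat_lit 0x2000700038009c0042000100068003000000000000000000000000000) := T_41 (nat_lit 126) (nat_lit 125) (nat_lit 0) (nat_lit 8) (nat_lit 7) L111921 (by decide +kernel)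
theorem L111923 : W_41 (nat_lit 11) (nat_lit 0x30001200090004c00000000000000000000000000) (nat_lit 0x0) (nat_lit 0x2000700038009c0046000100068003000020000000000000000000000) := T_41 (nat_lit 158) (nat_lit 89) (nat_lit 4) (nat_lit 5) (nat_lit 9) L111922 (by decide +kernel)
theorem L111924 : W_41 (nat_lit 2) (nat_lit 0x400340012000d0004c00000000000000000000000000) (nat_lit 0x0) (nat_lit 0x800080000000000008000000000000000000000000000000) := D_41 (nat_lit 175) (nat_lit 123) (nat_lit 191) (nat_lit 4) (nat_lit 5) (nat_lit 10) (nat_lit 5) (nat_lit 5) (nat_lit 7) (by decide +kernel)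
theorem L111925 : W_41 (nat_lit 3) (nat_lit 0x340012000d0004c00000000000000000000000000) (nat_lit 0x0) (nat_lit 0x8000c0002000000008000000000000000000000000000000) := T_41 (nat_lit 174) (nat_lit 157) (nat_lit 5) (nat_lit 5) (nat_lit 6) L111924 (by decide +kernel)
theorem L111926 : W_41 (nat_lit 4) (nat_lit 0x34001200090004c00000000000000000000000000) (nat_lit 0x0) (nat_lit 0x8000c0002000000068000000000000000000000000000000) := T_41 (nat_lit 126) (nat_lit 125) (nat_lit 0) (nat_lit 8) (nat_lit 7) L111925 (by decide +kernel)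
theorem L111927 : W_41 (nat_lit 5) (nat_lit 0x30001200090004c00000000000000000000000000) (nat_lit 0x0) (nat_lit 0x8000c0006000000068000000020000000000000000000000) := T_41 (nat_lit 158) (nat_lit 89) (nat_lit 4) (nat_lit 5) (nat_lit 9) L111926 (by decide +kernel)
theorem L111928 : W_41 (nat_lit 6) (nat_lit 0x72001200090004c00000000000000000000000000) (nat_lit 0x0) (nat_lit 0x600030001c0004000100008000000040000000000000000000000) := T_41 (nat_lit 158) (nat_lit 174) (nat_lit 5) (nat_lit 5) (nat_lit 6) L111910 (by decide +kernel)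
theorem L111929 : W_41 (nat_lit 7) (nat_lit 0x32001200090004c00000000000000000000000000) (nat_lit 0x0) (nat_lit 0x600030009c0044000100008000000040000000000000000000000) := T_41 (nat_lit 162) (nat_lit 179) (nat_lit 7) (nat_lit 8) (nat_lit 6) L111928 (by decide +kernel)
theorem L111930 : W_41 (nat_lit 2) (nat_lit 0x80036001200090004c00040000000000000000000000) (nat_lit 0x0) (nat_lit 0x60001000000000000000000000000000) := D_41 (nat_lit 125) (nat_lit 126) (nat_lit 108) (nat_lit 0) (nat_lit 8) (nat_lit 7) (nat_lit 6) (nat_lit 5) (nat_lit 10) (by decide +kernel)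
theorem L111931 : W_41 (nat_lit 3) (nat_lit 0x36001200090004c00040000000000000000000000) (nat_lit 0x0) (nat_lit 0x80000000000068001000000000000000000000000000) := T_41 (nat_lit 175) (nat_lit 123) (nat_lit 4) (nat_lit 5) (nat_lit 10) L111930 (by decide +kernel)
theorem L111932 : W_41 (nat_lit 4) (nat_lit 0x32001200090004c00040000000000000000000000) (nat_lit 0x0) (nat_lit 0xc0004000000068001000000000000000000000000000) := T_41 (nat_lit 158) (nat_lit 174) (nat_lit 5) (nat_lit 5) (nat_lit 6) L111931 (by decide +kernel)
theorem L111933 : W_41 (nat_lit 5) (nat_lit 0x32001200090004c00000000000000000000000000) (nat_lit 0x0) (nat_lit 0xc0004000100068001000040000000000000000000000) := T_41 (nat_lit 90) (nat_lit 140) (nat_lit 5) (nat_lit 5) (nat_lit 5) L111932 (by decide +kernel)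
theorem L111934 : W_41 (nat_lit 6) (nat_lit 0x760012000d0005c00000000000000000000000000) (nat_lit 0x0) (nat_lit 0x200070003800180000000100008000000000000000000000000000000) := T_41 (nat_lit 175) (nat_lit 123) (nat_lit 4) (nat_lit 5) (nat_lit 10) L111917 (by decide +kernel)
theorem L111935 : W_41 (nat_lit 7) (nat_lit 0x720012000d0005c00000000000000000000000000) (nat_lit 0x0) (nat_lit 0x2000700038001c0004000100008000000000000000000000000000000) := T_41 (nat_lit 158) (nat_lit 174) (nat_lit 5) (nat_lit 5) (nat_lit 6) L111934 (by decide +kernel)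
theorem L111936 : W_41 (nat_lit 8) (nat_lit 0x720012000d0004c00000000000000000000000000) (nat_lit 0x0) (nat_lit 0x2000700038001c0004000100008003000000000000000000000000000) := T_41 (nat_lit 108) (nat_lit 109) (nat_lit 3) (nat_lit 4) (nat_lit 6) L111935 (by decide +kernel)
theorem L111937 : W_41 (nat_lit 9) (nat_lit 0x320012000d0004c00000000000000000000000000) (nat_lit 0x0) (nat_lit 0x2000700038009c0044000100008003000000000000000000000000000) := T_41 (nat_lit 162) (nat_lit 179) (nat_lit 7) (nat_lit 8) (nat_lit 6) L111936 (by decide +kernel)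
theorem L111938 : W_41 (nat_lit 10) (nat_lit 0x32001200090004c00000000000000000000000000) (nat_lit 0x0) (nat_lit 0x2000700038009c0044000100068003000000000000000000000000000) := T_41 (nat_lit 126) (nat_lit 125) (nat_lit 0) (nat_lit 8) (nat_lit 7) L111937 (by decide +kernel)
theorem L111939 : W_41 (nat_lit 2) (nat_lit 0x720012000b0004d00040002000000000000000000) (nat_lit 0x0) (nat_lit 0x8001000000000000100000000000000) := D_41 (nat_lit 56) (nat_lit 108) (nat_lit 123) (nat_lit 7) (nat_lit 5) (nat_lit 3) (nat_lit 5) (nat_lit 5) (nat_lit 3) (by decide +kernel)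
theorem L111940 : W_41 (nat_lit 3) (nat_lit 0x720012000b0004d00040000000000000000000000) (nat_lit 0x0) (nat_lit 0x400008001000000002000100000000000000) := T_41 (nat_lit 73) (nat_lit 142) (nat_lit 7) (nat_lit 5) (nat_lit 4) L111939 (by decide +kernel)
theorem L111941 : W_41 (nat_lit 4) (nat_lit 0x720012000b0004c00040000000000000000000000) (nat_lit 0x0) (nat_lit 0x400008001300000002000100000000000000) := T_41 (nat_lit 104) (nat_lit 105) (nat_lit 3) (nat_lit 2) (nat_lit 6) L111940 (by decide +kernel)
theorem L111942 : W_41 (nat_lit 5) (nat_lit 0x72001200090004c00040000000000000000000000) (nat_lit 0x0) (nat_lit 0x400068001300000002000100000000000000) := T_41 (nat_lit 125) (nat_lit 126) (nat_lit 0) (nat_lit 8) (nat_lit 7) L111941 (by decide +kernel)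
theorem L111943 : W_41 (nat_lit 6) (nat_lit 0x32001200090004c00040000000000000000000000) (nat_lit 0x0) (nat_lit 0x800040000400068001300000002000100000000000000) := T_41 (nat_lit 162) (nat_lit 179) (nat_lit 7) (nat_lit 8) (nat_lit 6) L111942 (by decide +kernel)
theorem L111944 : W_41 (nat_lit 7) (nat_lit 0x32001200090004c00000000000000000000000000) (nat_lit 0x0) (nat_lit 0x800040000500068001300040002000100000000000000) := T_41 (nat_lit 90) (nat_lit 140) (nat_lit 5) (nat_lit 5) (nat_lit 5) L111943 (by decide +kernel)
theorem L111945 : W_41 (nat_lit 2) (nat_lit 0x760012000b0004d00000000000000000000000000) (nat_lit 0x0) (nat_lit 0x80000000000008001000000000000000000000000000) := D_41 (nat_lit 175) (nat_lit 123) (nat_lit 108) (nat_lit 4) (nat_lit 5) (nat_lit 10) (nat_lit 6) (nat_lit 5) (nat_lit 10) (by decide +kernel)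
theorem L111946 : W_41 (nat_lit 3) (nat_lit 0x720012000b0004d00000000000000000000000000) (nat_lit 0x0) (nat_lit 0xc0004000000008001000000000000000000000000000) := T_41 (nat_lit 158) (nat_lit 174) (nat_lit 5) (nat_lit 5) (nat_lit 6) L111945 (by decide +kernel)
theorem L111947 : W_41 (nat_lit 4) (nat_lit 0x720012000b0004c00000000000000000000000000) (nat_lit 0x0) (nat_lit 0xc0004000000008001300000000000000000000000000) := T_41 (nat_lit 104) (nat_lit 105) (nat_lit 3) (nat_lit 2) (nat_lit 6) L111946 (by decide +kernel)
theorem L111948 : W_41 (nat_lit 5) (nat_lit 0x320012000b0004c00000000000000000000000000) (nat_lit 0x0) (nat_lit 0x8c0044000000008001300000000000000000000000000) := T_41 (nat_lit 162) (nat_lit 179) (nat_lit 7) (nat_lit 8) (nat_lit 6) L111947 (by decide +kernel)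
theorem L111949 : W_41 (nat_lit 6) (nat_lit 0x32001200090004c00000000000000000000000000) (nat_lit 0x0) (nat_lit 0x8c0044000000068001300000000000000000000000000) := T_41 (nat_lit 125) (nat_lit 126) (nat_lit 0) (nat_lit 8) (nat_lit 7) L111948 (by decide +kernel)
theorem L111950 : W_41 (nat_lit 2) (nat_lit 0x760012000b0004d00040002000000000000000000) (nat_lit 0x0) (nat_lit 0x80000000000000001000000000000100000000000000) := D_41 (nat_lit 108) (nat_lit 56) (nat_lit 175) (nat_lit 7) (nat_lit 5) (nat_lit 3) (nat_lit 6) (nat_lit 5) (nat_lit 10) (by decide +kernel)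
theorem L111951 : W_41 (nat_lit 3) (nat_lit 0x760012000b0004d00040000000000000000000000) (nat_lit 0x0) (nat_lit 0x80000000400000001000000002000100000000000000) := T_41 (nat_lit 73) (nat_lit 142) (nat_lit 7) (nat_lit 5) (nat_lit 4) L111950 (by decide +kernel)
theorem L111952 : W_41 (nat_lit 4) (nat_lit 0x760012000b0004c00040000000000000000000000) (nat_lit 0x0) (nat_lit 0x80000000400000001300000002000100000000000000) := T_41 (nat_lit 104) (nat_lit 105) (nat_lit 3) (nat_lit 2) (nat_lit 6) L111951 (by decide +kernel)
theorem L111953 : W_41 (nat_lit 5) (nat_lit 0x76001200090004c00040000000000000000000000) (nat_lit 0x0) (nat_lit 0x80000000400060001300000002000100000000000000) := T_41 (nat_lit 125) (nat_lit 126) (nat_lit 0) (nat_lit 8) (nat_lit 7) L111952 (by decide +kernel)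
theorem L111954 : W_41 (nat_lit 6) (nat_lit 0x36001200090004c00040000000000000000000000) (nat_lit 0x0) (nat_lit 0x880040000400060001300000002000100000000000000) := T_41 (nat_lit 162) (nat_lit 179) (nat_lit 7) (nat_lit 8) (nat_lit 6) L111953 (by decide +kernel)
theorem L111955 : W_41 (nat_lit 7) (nat_lit 0x36001200090004c00000000000000000000000000) (nat_lit 0x0) (nat_lit 0x880040000500060001300040002000100000000000000) := T_41 (nat_lit 90) (nat_lit 140) (nat_lit 5) (nat_lit 5) (nat_lit 5) L111954 (by decide +kernel)
theorem L111956 : W_41 (nat_lit 8) (nat_lit 0x32001200090004c00000000000000000000000000) (nat_lit 0x0) (nat_lit 0x8c0044000500060001300040002000100000000000000) := T_41 (nat_lit 158) (nat_lit 174) (nat_lit 5) (nat_lit 5) (nat_lit 6) L111955 (by decide +kernel)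
theorem L111957 : W_41 (nat_lit 11) (nat_lit 0x30001200090004c00000000000000000000000000) (nat_lit 0x0) (nat_lit 0x2000700038009c0046000500068003300040002000100000000000000) := Q_41 (nat_lit 157) (C_41 L111929 (C_41 L111933 (C_41 L111938 (C_41 L111944 (C_41 L111949 (C_41 L111956 N_41)))))) (by decide +kernel)
theorem L111958 : W_41 (nat_lit 2) (nat_lit 0x300012000d0004c00020000000000000000000000) (nat_lit 0x0) (nat_lit 0x40001000080000000000000) := D_41 (nat_lit 72) (nat_lit 90) (nat_lit 55) (nat_lit 4) (nat_lit 5) (nat_lit 8) (nat_lit 7) (nat_lit 4) (nat_lit 3) (by decide +kernel)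
theorem L111959 : W_41 (nat_lit 3) (nat_lit 0x300012000d0004c00000000000000000000000000) (nat_lit 0x0) (nat_lit 0x4000000000000000060001000080000000000000) := T_41 (nat_lit 89) (nat_lit 158) (nat_lit 4) (nat_lit 5) (nat_lit 9) L111958 (by decide +kernel)
theorem L111960 : W_41 (nat_lit 4) (nat_lit 0x30001200090004c00000000000000000000000000) (nat_lit 0x0) (nat_lit 0x4000000060000000060001000080000000000000) := T_41 (nat_lit 126) (nat_lit 125) (nat_lit 0) (nat_lit 8) (nat_lit 7) L111959 (by decide +kernel)
theorem L111961 : W_41 (nat_lit 13) (nat_lit 0x30001200090004800000000000000000000000000) (nat_lit 0x0) (nat_lit 0x2000700038009e0047c005e006f003700078007800380018000000000) := Q_41 (nat_lit 106) (C_41 L111848 (C_41 L111884 (C_41 L111892 (C_41 L111899 (C_41 L111906 (C_41 L111913 (C_41 L111923 (C_41 L111927 (C_41 L111957 (C_41 L111960 N_41)))))))))) (by decide +kernel)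
theorem L111962 : W_41 (nat_lit 6) (nat_lit 0x30001200090004800000000000000000000000000) (nat_lit 0x0) (nat_lit 0x400060001001080034000e0001000000000000000000) := Q_41 (nat_lit 108) (C_41 L111813 (C_41 L111806 N_41)) (by decide +kernel)
theorem L111963 : W_41 (nat_lit 2) (nat_lit 0x80076001200090005800000000000000000000000000) (nat_lit 0x0) (nat_lit 0x8002400000000000000000000000000) := D_41 (nat_lit 123) (nat_lit 106) (nat_lit 109) (nat_lit 4) (nat_lit 5) (nat_lit 10) (nat_lit 1) (nat_lit 8) (nat_lit 6) (by decide +kernel)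
theorem L111964 : W_41 (nat_lit 3) (nat_lit 0x76001200090005800000000000000000000000000) (nat_lit 0x0) (nat_lit 0x80000000000028002400000000000000000000000000) := T_41 (nat_lit 175) (nat_lit 125) (nat_lit 6) (nat_lit 5) (nat_lit 10) L111963 (by decide +kernel)
theorem L111965 : W_41 (nat_lit 4) (nat_lit 0x74001200090005800000000000000000000000000) (nat_lit 0x0) (nat_lit 0xc0002000000028002400000000000000000000000000) := T_41 (nat_lit 157) (nat_lit 174) (nat_lit 5) (nat_lit 5) (nat_lit 6) L111964 (by decide +kernel)
theorem L111966 : W_41 (nat_lit 5) (nat_lit 0x70001200090005800000000000000000000000000) (nat_lit 0x0) (nat_lit 0xc0006000000028002400080000000000000000000000) := T_41 (nat_lit 158) (nat_lit 91) (nat_lit 6) (nat_lit 5) (nat_lit 9) L111965 (by decide +kernel)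
theorem L111967 : W_41 (nat_lit 6) (nat_lit 0x30001200090005800000000000000000000000000) (nat_lit 0x0) (nat_lit 0x8c0046000000028002400080000000000000000000000) := T_41 (nat_lit 162) (nat_lit 179) (nat_lit 7) (nat_lit 8) (nat_lit 6) L111966 (by decide +kernel)
theorem L111968 : W_41 (nat_lit 2) (nat_lit 0x80036001200090005800000000000000000000000000) (nat_lit 0x0) (nat_lit 0x8000400020000000000000000000000) := D_41 (nat_lit 106) (nat_lit 123) (nat_lit 89) (nat_lit 4) (nat_lit 5) (nat_lit 10) (nat_lit 4) (nat_lit 5) (nat_lit 9) (by decide +kernel)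
theorem L111969 : W_41 (nat_lit 3) (nat_lit 0x36001200090005800000000000000000000000000) (nat_lit 0x0) (nat_lit 0x80000000000028000400020000000000000000000000) := T_41 (nat_lit 175) (nat_lit 125) (nat_lit 6) (nat_lit 5) (nat_lit 10) L111968 (by decide +kernel)
theorem L111970 : W_41 (nat_lit 4) (nat_lit 0x34001200090005800000000000000000000000000) (nat_lit 0x0) (nat_lit 0xc0002000000028000400020000000000000000000000) := T_41 (nat_lit 157) (nat_lit 174) (nat_lit 5) (nat_lit 5) (nat_lit 6) L111969 (by decide +kernel)
theorem L111971 : W_41 (nat_lit 5) (nat_lit 0x30001200090005800000000000000000000000000) (nat_lit 0x0) (nat_lit 0xc00060000000280004000a0000000000000000000000) := T_41 (nat_lit 158) (nat_lit 91) (nat_lit 6) (nat_lit 5) (nat_lit 9) L111970 (by decide +kernel)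
theorem L111972 : W_41 (nat_lit 2) (nat_lit 0x80036001200090005c00000000000000000000000000) (nat_lit 0x0) (nat_lit 0x140002000000000000000000000000000) := D_41 (nat_lit 109) (nat_lit 126) (nat_lit 128) (nat_lit 3) (nat_lit 4) (nat_lit 6) (nat_lit 3) (nat_lit 5) (nat_lit 6) (by decide +kernel)
theorem L111973 : W_41 (nat_lit 3) (nat_lit 0x80036001200090005800000000000000000000000000) (nat_lit 0x0) (nat_lit 0x140002400020000000000000000000000) := T_41 (nat_lit 106) (nat_lit 89) (nat_lit 4) (nat_lit 5) (nat_lit 9) L111972 (by decide +kernel)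
theorem L111974 : W_41 (nat_lit 4) (nat_lit 0x36001200090005800000000000000000000000000) (nat_lit 0x0) (nat_lit 0x80000000000160002400020000000000000000000000) := T_41 (nat_lit 175) (nat_lit 125) (nat_lit 6) (nat_lit 5) (nat_lit 10) L111973 (by decide +kernel)
theorem L111975 : W_41 (nat_lit 5) (nat_lit 0x34001200090005800000000000000000000000000) (nat_lit 0x0) (nat_lit 0xc0002000000160002400020000000000000000000000) := T_41 (nat_lit 157) (nat_lit 174) (nat_lit 5) (nat_lit 5) (nat_lit 6) L111974 (by decide +kernel)
theorem L111976 : W_41 (nat_lit 6) (nat_lit 0x30001200090005800000000000000000000000000) (nat_lit 0x0) (nat_lit 0xc00060000001600024000a0000000000000000000000) := T_41 (nat_lit 158) (nat_lit 91) (nat_lit 6) (nat_lit 5) (nat_lit 9) L111975 (by decide +kernel)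
theorem L111977 : W_41 (nat_lit 7) (nat_lit 0x30001200090004800000000000000000000000000) (nat_lit 0x0) (nat_lit 0x8c00460000001680034000a0000000000000000000000) := Q_41 (nat_lit 108) (C_41 L111806 (C_41 L111967 (C_41 L111971 (C_41 L111976 N_41)))) (by decide +kernel)
theorem L111978 : W_41 (nat_lit 2) (nat_lit 0x700013000d0005a000f0000800000000000000000) (nat_lit 0x0) (nat_lit 0xc000400000000000000000000000000) := D_41 (nat_lit 123) (nat_lit 106) (nat_lit 122) (nat_lit 4) (nat_lit 4) (nat_lit 8) (nat_lit 7) (nat_lit 3) (nat_lit 4) (by decide +kernel)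
theorem L111979 : W_41 (nat_lit 3) (nat_lit 0x700013000d0005a000f0000000000000000000000) (nat_lit 0x0) (nat_lit 0xc000400000000c00000000000000000) := T_41 (nat_lit 71) (nat_lit 70) (nat_lit 0) (nat_lit 6) (nat_lit 5) L111978 (by decide +kernel)
theorem L111980 : W_41 (nat_lit 4) (nat_lit 0x700013000d00058000f0000000000000000000000) (nat_lit 0x0) (nat_lit 0xc000700000000c00000000000000000) := T_41 (nat_lit 105) (nat_lit 104) (nat_lit 1) (nat_lit 6) (nat_lit 5) L111979 (by decide +kernel)
theorem L111981 : W_41 (nat_lit 5) (nat_lit 0x700013000d00058000e0000000000000000000000) (nat_lit 0x0) (nat_lit 0xc000700018000c00000000000000000) := T_41 (nat_lit 88) (nat_lit 87) (nat_lit 3) (nat_lit 2) (nat_lit 5) L111980 (by decide +kernel)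
theorem L111982 : W_41 (nat_lit 6) (nat_lit 0x700013000d00048000e0000000000000000000000) (nat_lit 0x0) (nat_lit 0xc003700018000c00000000000000000) := T_41 (nat_lit 108) (nat_lit 109) (nat_lit 0) (nat_lit 8) (nat_lit 6) L111981 (by decide +kernel)
theorem L111983 : W_41 (nat_lit 7) (nat_lit 0x700013000d00048000c0000000000000000000000) (nat_lit 0x0) (nat_lit 0xc003700038001c00000000000000000) := T_41 (nat_lit 89) (nat_lit 72) (nat_lit 4) (nat_lit 5) (nat_lit 8) L111982 (by decide +kernel)
theorem L111984 : W_41 (nat_lit 8) (nat_lit 0x700013000900048000c0000000000000000000000) (nat_lit 0x0) (nat_lit 0x6c003700038001c00000000000000000) := T_41 (nat_lit 126) (nat_lit 125) (nat_lit 1) (nat_lit 8) (nat_lit 7) L111983 (by decide +kernel)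
theorem L111985 : W_41 (nat_lit 9) (nat_lit 0x700012000900048000c0000000000000000000000) (nat_lit 0x0) (nat_lit 0x200010006c003700038001c00000000000000000) := T_41 (nat_lit 140) (nat_lit 157) (nat_lit 5) (nat_lit 5) (nat_lit 5) L111984 (by decide +kernel)
theorem L111986 : W_41 (nat_lit 10) (nat_lit 0x300012000900048000c0000000000000000000000) (nat_lit 0x0) (nat_lit 0x80004200010006c003700038001c00000000000000000) := T_41 (nat_lit 162) (nat_lit 179) (nat_lit 7) (nat_lit 8) (nat_lit 6) L111985 (by decide +kernel)
theorem L111987 : W_41 (nat_lit 11) (nat_lit 0x30001200090004800040000000000000000000000) (nat_lit 0x0) (nat_lit 0x80004200010006c0037000b8005c00000000000000000) := T_41 (nat_lit 91) (nat_lit 74) (nat_lit 6) (nat_lit 5) (nat_lit 8) L111986 (by decide +kernel)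
theorem L111988 : W_41 (nat_lit 2) (nat_lit 0x700012000b0006800068006000000000000000000) (nat_lit 0x0) (nat_lit 0x48000400000000000000000000000000) := D_41 (nat_lit 126) (nat_lit 123) (nat_lit 106) (nat_lit 2) (nat_lit 4) (nat_lit 7) (nat_lit 0) (nat_lit 8) (nat_lit 7) (by decide +kernel)
theorem L111989 : W_41 (nat_lit 3) (nat_lit 0x70001200090006800068006000000000000000000) (nat_lit 0x0) (nat_lit 0x400068000400000000000000000000000000) := T_41 (nat_lit 125) (nat_lit 142) (nat_lit 7) (nat_lit 5) (nat_lit 4) L111988 (by decide +kernel)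
theorem L111990 : W_41 (nat_lit 4) (nat_lit 0x70001200090006800060006000000000000000000) (nat_lit 0x0) (nat_lit 0x400068000400018000000000000000000000) := T_41 (nat_lit 87) (nat_lit 88) (nat_lit 2) (nat_lit 2) (nat_lit 5) L111989 (by decide +kernel)
theorem L111991 : W_41 (nat_lit 5) (nat_lit 0x70001200090006800060004000000000000000000) (nat_lit 0x0) (nat_lit 0x400068000400018002000200000000000000) := T_41 (nat_lit 73) (nat_lit 57) (nat_lit 6) (nat_lit 5) (nat_lit 7) L111990 (by decide +kernel)
theorem L111992 : W_41 (nat_lit 6) (nat_lit 0x70001200090006800060000000000000000000000) (nat_lit 0x0) (nat_lit 0x400068000400098006000200000000000000) := T_41 (nat_lit 74) (nat_lit 91) (nat_lit 6) (nat_lit 5) (nat_lit 8) L111991 (by decide +kernel)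
theorem L111993 : W_41 (nat_lit 7) (nat_lit 0x30001200090006800060000000000000000000000) (nat_lit 0x0) (nat_lit 0x800040000400068000400098006000200000000000000) := T_41 (nat_lit 162) (nat_lit 179) (nat_lit 7) (nat_lit 8) (nat_lit 6) L111992 (by decide +kernel)
theorem L111994 : W_41 (nat_lit 8) (nat_lit 0x30001200090004800060000000000000000000000) (nat_lit 0x0) (nat_lit 0x800040000400068003400098006000200000000000000) := T_41 (nat_lit 109) (nat_lit 108) (nat_lit 0) (nat_lit 8) (nat_lit 6) L111993 (by decide +kernel)
theorem L111995 : W_41 (nat_lit 9) (nat_lit 0x30001200090004800040000000000000000000000) (nat_lit 0x0) (nat_lit 0x8000400004000680034000b8007000200000000000000) := T_41 (nat_lit 89) (nat_lit 72) (nat_lit 4) (nat_lit 5) (nat_lit 8) L111994 (by decide +kernel)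
theorem L111996 : W_41 (nat_lit 2) (nat_lit 0x310017800b4006a000e0000000000000000000000) (nat_lit 0x0) (nat_lit 0x100018000000000000000000000) := D_41 (nat_lit 104) (nat_lit 87) (nat_lit 88) (nat_lit 4) (nat_lit 3) (nat_lit 9) (nat_lit 1) (nat_lit 6) (nat_lit 5) (by decide +kernel)
theorem L111997 : W_41 (nat_lit 3) (nat_lit 0x310017800b40068000e0000000000000000000000) (nat_lit 0x0) (nat_lit 0x700018000000000000000000000) := T_41 (nat_lit 105) (nat_lit 106) (nat_lit 6) (nat_lit 3) (nat_lit 9) L111996 (by decide +kernel)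
theorem L111998 : W_41 (nat_lit 4) (nat_lit 0x310017800b00068000e0000000000000000000000) (nat_lit 0x0) (nat_lit 0x6000700018000000000000000000000) := T_41 (nat_lit 122) (nat_lit 121) (nat_lit 0) (nat_lit 6) (nat_lit 8) L111997 (by decide +kernel)
theorem L111999 : W_41 (nat_lit 5) (nat_lit 0x300017800b00068000e0000000000000000000000) (nat_lit 0x0) (nat_lit 0x1800000006000700018000000000000000000000) := T_41 (nat_lit 156) (nat_lit 155) (nat_lit 1) (nat_lit 6) (nat_lit 8) L111998 (by decide +kernel)
theorem L112000 : W_41 (nat_lit 6) (nat_lit 0x300013800b00068000e0000000000000000000000) (nat_lit 0x0) (nat_lit 0x1800400006000700018002000000000000000000) := T_41 (nat_lit 142) (nat_lit 73) (nat_lit 7) (nat_lit 5) (nat_lit 4) L111999 (by decide +kernel)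
theorem L112001 : W_41 (nat_lit 7) (nat_lit 0x300013000b00068000e0000000000000000000000) (nat_lit 0x0) (nat_lit 0x18004c0006000700018002000000000000000000) := T_41 (nat_lit 139) (nat_lit 138) (nat_lit 2) (nat_lit 2) (nat_lit 8) L112000 (by decide +kernel)
theorem L112002 : W_41 (nat_lit 8) (nat_lit 0x300013000b00048000e0000000000000000000000) (nat_lit 0x0) (nat_lit 0x18004c0006003700018002000000000000000000) := T_41 (nat_lit 109) (nat_lit 108) (nat_lit 0) (nat_lit 8) (nat_lit 6) L112001 (by decide +kernel)
theorem L112003 : W_41 (nat_lit 9) (nat_lit 0x300013000b00048000c0000000000000000000000) (nat_lit 0x0) (nat_lit 0x18004c0006003700038003000000000000000000) := T_41 (nat_lit 89) (nat_lit 72) (nat_lit 4) (nat_lit 5) (nat_lit 8) L112002 (by decide +kernel)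
theorem L112004 : W_41 (nat_lit 10) (nat_lit 0x300013000900048000c0000000000000000000000) (nat_lit 0x0) (nat_lit 0x18004c0066003700038003000000000000000000) := T_41 (nat_lit 125) (nat_lit 126) (nat_lit 1) (nat_lit 8) (nat_lit 7) L112003 (by decide +kernel)
theorem L112005 : W_41 (nat_lit 11) (nat_lit 0x300012000900048000c0000000000000000000000) (nat_lit 0x0) (nat_lit 0x38005c0066003700038003000000000000000000) := T_41 (nat_lit 140) (nat_lit 157) (nat_lit 5) (nat_lit 5) (nat_lit 5) L112004 (by decide +kernel)
theorem L112006 : W_41 (nat_lit 12) (nat_lit 0x30001200090004800040000000000000000000000) (nat_lit 0x0) (nat_lit 0x38005c00660037000b8007000000000000000000) := T_41 (nat_lit 91) (nat_lit 74) (nat_lit 6) (nat_lit 5) (nat_lit 8) L112005 (by decide +kernel)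
theorem L112007 : W_41 (nat_lit 13) (nat_lit 0x30001200090004800000000000000000000000000) (nat_lit 0x0) (nat_lit 0x8000438005c006e0037000f8007c00280000000000000) := Q_41 (nat_lit 90) (C_41 L111830 (C_41 L111826 (C_41 L111987 (C_41 L111995 (C_41 L112006 N_41))))) (by decide +kernel)
theorem L112008 : W_41 (nat_lit 2) (nat_lit 0x760012000b0005800068000000000000000000000) (nat_lit 0x0) (nat_lit 0x400000000000000002000100000000000000) := D_41 (nat_lit 73) (nat_lit 56) (nat_lit 142) (nat_lit 7) (nat_lit 5) (nat_lit 3) (nat_lit 7) (nat_lit 5) (nat_lit 4) (by decide +kernel)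
theorem L112009 : W_41 (nat_lit 3) (nat_lit 0x76001200090005800068000000000000000000000) (nat_lit 0x0) (nat_lit 0x80000000400020000000000002000100000000000000) := T_41 (nat_lit 125) (nat_lit 175) (nat_lit 6) (nat_lit 5) (nat_lit 10) L112008 (by decide +kernel)
theorem L112010 : W_41 (nat_lit 4) (nat_lit 0x76001200090005800060000000000000000000000) (nat_lit 0x0) (nat_lit 0x80000000400020000000018002000100000000000000) := T_41 (nat_lit 87) (nat_lit 88) (nat_lit 3) (nat_lit 2) (nat_lit 5) L112009 (by decide +kernel)
theorem L112011 : W_41 (nat_lit 5) (nat_lit 0x76001200090005800040000000000000000000000) (nat_lit 0x0) (nat_lit 0x80000000400020000000038003000100000000000000) := T_41 (nat_lit 89) (nat_lit 72) (nat_lit 4) (nat_lit 5) (nat_lit 8) L112010 (by decide +kernel)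
theorem L112012 : W_41 (nat_lit 6) (nat_lit 0x76001200090005800000000000000000000000000) (nat_lit 0x0) (nat_lit 0x80000000500020000000078003000100000000000000) := T_41 (nat_lit 90) (nat_lit 140) (nat_lit 5) (nat_lit 5) (nat_lit 5) L112011 (by decide +kernel)
theorem L112013 : W_41 (nat_lit 7) (nat_lit 0x74001200090005800000000000000000000000000) (nat_lit 0x0) (nat_lit 0xc0002000500020000000078003000100000000000000) := T_41 (nat_lit 157) (nat_lit 174) (nat_lit 5) (nat_lit 5) (nat_lit 6) L112012 (by decide +kernel)
theorem L112014 : W_41 (nat_lit 8) (nat_lit 0x70001200090005800000000000000000000000000) (nat_lit 0x0) (nat_lit 0xc00060005000200000000f8003000100000000000000) := T_41 (nat_lit 158) (nat_lit 91) (nat_lit 6) (nat_lit 5) (nat_lit 9) L112013 (by decide +kernel)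
theorem L112015 : W_41 (nat_lit 9) (nat_lit 0x30001200090005800000000000000000000000000) (nat_lit 0x0) (nat_lit 0x8c00460005000200000000f8003000100000000000000) := T_41 (nat_lit 162) (nat_lit 179) (nat_lit 7) (nat_lit 8) (nat_lit 6) L112014 (by decide +kernel)
theorem L112016 : W_41 (nat_lit 10) (nat_lit 0x30001200090004800000000000000000000000000) (nat_lit 0x0) (nat_lit 0x8c00460005001280030000f8007000100000000000000) := Q_41 (nat_lit 108) (C_41 L111809 (C_41 L111806 (C_41 L112015 N_41))) (by decide +kernel)
theorem L112017 : W_41 (nat_lit 2) (nat_lit 0x760012000b0004800040004000000000000000000) (nat_lit 0x0) (nat_lit 0x400000000000000002000200000000000000) := D_41 (nat_lit 73) (nat_lit 142) (nat_lit 57) (nat_lit 7) (nat_lit 5) (nat_lit 4) (nat_lit 6) (nat_lit 5) (nat_lit 7) (by decide +kernel)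
theorem L112018 : W_41 (nat_lit 3) (nat_lit 0x760012000b0004800040000000000000000000000) (nat_lit 0x0) (nat_lit 0x400000000000080006000200000000000000) := T_41 (nat_lit 74) (nat_lit 91) (nat_lit 6) (nat_lit 5) (nat_lit 8) L112017 (by decide +kernel)
theorem L112019 : W_41 (nat_lit 4) (nat_lit 0x760012000b0004800000000000000000000000000) (nat_lit 0x0) (nat_lit 0x5000000000000c0006000200000000000000) := T_41 (nat_lit 90) (nat_lit 140) (nat_lit 5) (nat_lit 5) (nat_lit 5) L112018 (by decide +kernel)
theorem L112020 : W_41 (nat_lit 5) (nat_lit 0x740012000b0004800000000000000000000000000) (nat_lit 0x0) (nat_lit 0x400020005000000000000c0006000200000000000000) := T_41 (nat_lit 157) (nat_lit 174) (nat_lit 5) (nat_lit 5) (nat_lit 6) L112019 (by decide +kernel)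
theorem L112021 : W_41 (nat_lit 6) (nat_lit 0x340012000b0004800000000000000000000000000) (nat_lit 0x0) (nat_lit 0x8400420005000000000000c0006000200000000000000) := T_41 (nat_lit 162) (nat_lit 179) (nat_lit 7) (nat_lit 8) (nat_lit 6) L112020 (by decide +kernel)
theorem L112022 : W_41 (nat_lit 2) (nat_lit 0x800360012000b0004800040000000000000000000000) (nat_lit 0x0) (nat_lit 0x1000000000000400000000000000002000000000000000000) := D_41 (nat_lit 142) (nat_lit 73) (nat_lit 192) (nat_lit 7) (nat_lit 5) (nat_lit 4) (nat_lit 6) (nat_lit 5) (nat_lit 11) (by decide +kernel)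
theorem L112023 : W_41 (nat_lit 3) (nat_lit 0x360012000b0004800040000000000000000000000) (nat_lit 0x0) (nat_lit 0x1000080000000400000001000000002000000000000000000) := T_41 (nat_lit 175) (nat_lit 108) (nat_lit 6) (nat_lit 5) (nat_lit 10) L112022 (by decide +kernel)
theorem L112024 : W_41 (nat_lit 4) (nat_lit 0x360012000b0004800000000000000000000000000) (nat_lit 0x0) (nat_lit 0x1000080000000500000001000040002000000000000000000) := T_41 (nat_lit 90) (nat_lit 140) (nat_lit 5) (nat_lit 5) (nat_lit 5) L112023 (by decide +kernel)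
theorem L112025 : W_41 (nat_lit 5) (nat_lit 0x340012000b0004800000000000000000000000000) (nat_lit 0x0) (nat_lit 0x10000c0002000500000001000040002000000000000000000) := T_41 (nat_lit 157) (nat_lit 174) (nat_lit 5) (nat_lit 5) (nat_lit 6) L112024 (by decide +kernel)
theorem L112026 : W_41 (nat_lit 7) (nat_lit 0x300012000b0004800000000000000000000000000) (nat_lit 0x0) (nat_lit 0x10008c00460005000000010000c0006000200000000000000) := Q_41 (nat_lit 158) (C_41 L111795 (C_41 L112021 (C_41 L112025 N_41))) (by decide +kernel)
theorem L112027 : W_41 (nat_lit 8) (nat_lit 0x30001200090004800000000000000000000000000) (nat_lit 0x0) (nat_lit 0x10008c00460005001600014000c0006000200000000000000) := Q_41 (nat_lit 125) (C_41 L111804 (C_41 L112026 (C_41 L111794 N_41))) (by decide +kernel)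
theorem L112028 : W_41 (nat_lit 2) (nat_lit 0x700012000b0004800040002000000000000000000) (nat_lit 0x0) (nat_lit 0x20001000080000000000000) := D_41 (nat_lit 72) (nat_lit 89) (nat_lit 55) (nat_lit 4) (nat_lit 5) (nat_lit 8) (nat_lit 4) (nat_lit 5) (nat_lit 7) (by decide +kernel)
theorem L112029 : W_41 (nat_lit 3) (nat_lit 0x700012000b0004800040000000000000000000000) (nat_lit 0x0) (nat_lit 0x400000000000020003000080000000000000) := T_41 (nat_lit 73) (nat_lit 142) (nat_lit 7) (nat_lit 5) (nat_lit 4) L112028 (by decide +kernel)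
theorem L112030 : W_41 (nat_lit 4) (nat_lit 0x300012000b0004800040000000000000000000000) (nat_lit 0x0) (nat_lit 0x800040000400000000000020003000080000000000000) := T_41 (nat_lit 162) (nat_lit 179) (nat_lit 7) (nat_lit 8) (nat_lit 6) L112029 (by decide +kernel)
theorem L112031 : W_41 (nat_lit 2) (nat_lit 0x340012000b00048000c0000000000000000000000) (nat_lit 0x0) (nat_lit 0x400020001000000000000000000) := D_41 (nat_lit 89) (nat_lit 106) (nat_lit 72) (nat_lit 4) (nat_lit 5) (nat_lit 9) (nat_lit 4) (nat_lit 5) (nat_lit 8) (by decide +kernel)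
theorem L112032 : W_41 (nat_lit 3) (nat_lit 0x300012000b00048000c0000000000000000000000) (nat_lit 0x0) (nat_lit 0x4000000000001400020001000000000000000000) := T_41 (nat_lit 158) (nat_lit 108) (nat_lit 6) (nat_lit 5) (nat_lit 9) L112031 (by decide +kernel)
theorem L112033 : W_41 (nat_lit 4) (nat_lit 0x300012000b0004800040000000000000000000000) (nat_lit 0x0) (nat_lit 0x40000000000014000a0005000000000000000000) := T_41 (nat_lit 91) (nat_lit 74) (nat_lit 6) (nat_lit 5) (nat_lit 8) L112032 (by decide +kernel)
theorem L112034 : W_41 (nat_lit 2) (nat_lit 0x800340012000b0004d000c0000000000000000000000) (nat_lit 0x0) (nat_lit 0x1000000000000400000000000000002000000000000000000) := D_41 (nat_lit 142) (nat_lit 73) (nat_lit 192) (nat_lit 7) (nat_lit 5) (nat_lit 4) (nat_lit 6) (nat_lit 5) (nat_lit 11) (by decide +kernel)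
theorem L112035 : W_41 (nat_lit 3) (nat_lit 0x340012000b0004d000c0000000000000000000000) (nat_lit 0x0) (nat_lit 0x1000080000000400008000000000002000000000000000000) := T_41 (nat_lit 175) (nat_lit 123) (nat_lit 4) (nat_lit 5) (nat_lit 10) L112034 (by decide +kernel)
theorem L112036 : W_41 (nat_lit 4) (nat_lit 0x340012000b0004c000c0000000000000000000000) (nat_lit 0x0) (nat_lit 0x1000080000000400008000300000002000000000000000000) := T_41 (nat_lit 104) (nat_lit 105) (nat_lit 3) (nat_lit 2) (nat_lit 6) L112035 (by decide +kernel)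
theorem L112037 : W_41 (nat_lit 5) (nat_lit 0x340012000b00048000c0000000000000000000000) (nat_lit 0x0) (nat_lit 0x1000080000000400008000700020002000000000000000000) := T_41 (nat_lit 106) (nat_lit 89) (nat_lit 4) (nat_lit 5) (nat_lit 9) L112036 (by decide +kernel)
theorem L112038 : W_41 (nat_lit 6) (nat_lit 0x300012000b00048000c0000000000000000000000) (nat_lit 0x0) (nat_lit 0x1000080004000400008001700020002000000000000000000) := T_41 (nat_lit 158) (nat_lit 108) (nat_lit 6) (nat_lit 5) (nat_lit 9) L112037 (by decide +kernel)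
theorem L112039 : W_41 (nat_lit 7) (nat_lit 0x300012000b0004800040000000000000000000000) (nat_lit 0x0) (nat_lit 0x10000800040004000080017000a0006000000000000000000) := T_41 (nat_lit 91) (nat_lit 74) (nat_lit 6) (nat_lit 5) (nat_lit 8) L112038 (by decide +kernel)
theorem L112040 : W_41 (nat_lit 2) (nat_lit 0x300012000b0004800040002000000000000000000) (nat_lit 0x0) (nat_lit 0x80004000200000000000000) := D_41 (nat_lit 74) (nat_lit 91) (nat_lit 57) (nat_lit 6) (nat_lit 5) (nat_lit 8) (nat_lit 6) (nat_lit 5) (nat_lit 7) (by decide +kernel)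
theorem L112041 : W_41 (nat_lit 3) (nat_lit 0x300012000b0004800040000000000000000000000) (nat_lit 0x0) (nat_lit 0x400000000000080006000200000000000000) := T_41 (nat_lit 73) (nat_lit 142) (nat_lit 7) (nat_lit 5) (nat_lit 4) L112040 (by decide +kernel)
theorem L112042 : W_41 (nat_lit 8) (nat_lit 0x300012000b0004800000000000000000000000000) (nat_lit 0x0) (nat_lit 0x10008800440004000080017000e0007000280000000000000) := Q_41 (nat_lit 90) (C_41 L112030 (C_41 L112033 (C_41 L112039 (C_41 L112041 N_41)))) (by decide +kernel)
theorem L112043 : W_41 (nat_lit 9) (nat_lit 0x30001200090004800000000000000000000000000) (nat_lit 0x0) (nat_lit 0x10008800440005001680017000e0007000280000000000000) := Q_41 (nat_lit 125) (C_41 L111804 (C_41 L112042 (C_41 L111794 (C_41 L111802 N_41)))) (by decide +kernel)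
theorem L112044 : W_41 (nat_lit 14) (nat_lit 0x30001200080004800000000000000000000000000) (nat_lit 0x0) (nat_lit 0x2000700038009e0047c005e017f0037000f8007c00380018000000000) := Q_41 (nat_lit 124) (C_41 L111805 (C_41 L111814 (C_41 L111839 (C_41 L111961 (C_41 L111962 (C_41 L111977 (C_41 L112007 (C_41 L112016 (C_41 L112027 (C_41 L112043 N_41)))))))))) (by decide +kernel)
theorem L112045 : W_41 (nat_lit 2) (nat_lit 0x70001200080007c00000000000000000000000000) (nat_lit 0x0) (nat_lit 0x70000000000000000000000) := D_41 (nat_lit 89) (nat_lit 90) (nat_lit 88) (nat_lit 0) (nat_lit 8) (nat_lit 6) (nat_lit 0) (nat_lit 7) (nat_lit 6) (by decide +kernel)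
theorem L112046 : W_41 (nat_lit 3) (nat_lit 0x70001200080007800000000000000000000000000) (nat_lit 0x0) (nat_lit 0x40000400070000000000000000000000) := T_41 (nat_lit 106) (nat_lit 126) (nat_lit 3) (nat_lit 4) (nat_lit 6) L112045 (by decide +kernel)
theorem L112047 : W_41 (nat_lit 4) (nat_lit 0x70001200080006800000000000000000000000000) (nat_lit 0x0) (nat_lit 0x140001400070000000000000000000000) := T_41 (nat_lit 108) (nat_lit 128) (nat_lit 3) (nat_lit 5) (nat_lit 6) L112046 (by decide +kernel)
theorem L112048 : W_41 (nat_lit 5) (nat_lit 0x70001200080004800000000000000000000000000) (nat_lit 0x0) (nat_lit 0x140003400170000000000000000000000) := T_41 (nat_lit 109) (nat_lit 92) (nat_lit 4) (nat_lit 8) (nat_lit 9) L112047 (by decide +kernel)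
theorem L112049 : W_41 (nat_lit 6) (nat_lit 0x30001200080004800000000000000000000000000) (nat_lit 0x0) (nat_lit 0x800040000000140003400170000000000000000000000) := T_41 (nat_lit 162) (nat_lit 179) (nat_lit 7) (nat_lit 8) (nat_lit 6) L112048 (by decide +kernel)
theorem L112050 : W_41 (nat_lit 2) (nat_lit 0x300013000900048000c0002000000000000000000) (nat_lit 0x0) (nat_lit 0x400060000000000000000000000000000000) := D_41 (nat_lit 125) (nat_lit 126) (nat_lit 142) (nat_lit 1) (nat_lit 8) (nat_lit 7) (nat_lit 7) (nat_lit 5) (nat_lit 4) (by decide +kernel)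
theorem L112051 : W_41 (nat_lit 3) (nat_lit 0x300013000900048000c0000000000000000000000) (nat_lit 0x0) (nat_lit 0x400068000000000002000000000000000000) := T_41 (nat_lit 73) (nat_lit 123) (nat_lit 5) (nat_lit 5) (nat_lit 4) L112050 (by decide +kernel)
theorem L112052 : W_41 (nat_lit 4) (nat_lit 0x300012000900048000c0000000000000000000000) (nat_lit 0x0) (nat_lit 0x2000500068000000000002000000000000000000) := T_41 (nat_lit 140) (nat_lit 157) (nat_lit 5) (nat_lit 5) (nat_lit 5) L112051 (by decide +kernel)
theorem L112053 : W_41 (nat_lit 5) (nat_lit 0x30001200090004800040000000000000000000000) (nat_lit 0x0) (nat_lit 0x2000500068000000080006000000000000000000) := T_41 (nat_lit 91) (nat_lit 74) (nat_lit 6) (nat_lit 5) (nat_lit 8) L112052 (by decide +kernel)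
theorem L112054 : W_41 (nat_lit 2) (nat_lit 0x300012000900048000e0000000000000000000000) (nat_lit 0x0) (nat_lit 0x4000000000001400000000000000000000000000) := D_41 (nat_lit 158) (nat_lit 108) (nat_lit 106) (nat_lit 6) (nat_lit 5) (nat_lit 9) (nat_lit 4) (nat_lit 5) (nat_lit 9) (by decide +kernel)
theorem L112055 : W_41 (nat_lit 3) (nat_lit 0x300012000900048000c0000000000000000000000) (nat_lit 0x0) (nat_lit 0x4000000000001400020001000000000000000000) := T_41 (nat_lit 89) (nat_lit 72) (nat_lit 4) (nat_lit 5) (nat_lit 8) L112054 (by decide +kernel)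
theorem L112056 : W_41 (nat_lit 4) (nat_lit 0x30001200090004800040000000000000000000000) (nat_lit 0x0) (nat_lit 0x40000000000014000a0005000000000000000000) := T_41 (nat_lit 91) (nat_lit 74) (nat_lit 6) (nat_lit 5) (nat_lit 8) L112055 (by decide +kernel)
theorem L112057 : W_41 (nat_lit 6) (nat_lit 0x30001200090004800000000000000000000000000) (nat_lit 0x0) (nat_lit 0x400060005000680014000e0007000080000000000000) := Q_41 (nat_lit 90) (C_41 L111826 (C_41 L111823 (C_41 L112053 (C_41 L112056 N_41)))) (by decide +kernel)
theorem L112058 : W_41 (nat_lit 8) (nat_lit 0x74001200090004800000000000000000000000000) (nat_lit 0x0) (nat_lit 0xc00020005000200010000f8003000100000000000000) := T_41 (nat_lit 108) (nat_lit 91) (nat_lit 6) (nat_lit 5) (nat_lit 9) L112013 (by decide +kernel)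
theorem L112059 : W_41 (nat_lit 9) (nat_lit 0x34001200090004800000000000000000000000000) (nat_lit 0x0) (nat_lit 0x8c00420005000200010000f8003000100000000000000) := T_41 (nat_lit 162) (nat_lit 179) (nat_lit 7) (nat_lit 8) (nat_lit 6) L112058 (by decide +kernel)
theorem L112060 : W_41 (nat_lit 2) (nat_lit 0x36001200090004800040000000000000000000000) (nat_lit 0x0) (nat_lit 0x400020001000000000000000000) := D_41 (nat_lit 89) (nat_lit 72) (nat_lit 106) (nat_lit 4) (nat_lit 5) (nat_lit 8) (nat_lit 4) (nat_lit 5) (nat_lit 9) (by decide +kernel)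
theorem L112061 : W_41 (nat_lit 3) (nat_lit 0x36001200090004800000000000000000000000000) (nat_lit 0x0) (nat_lit 0x100000000400060001000000000000000000) := T_41 (nat_lit 90) (nat_lit 140) (nat_lit 5) (nat_lit 5) (nat_lit 5) L112060 (by decide +kernel)
theorem L112062 : W_41 (nat_lit 4) (nat_lit 0x34001200090004800000000000000000000000000) (nat_lit 0x0) (nat_lit 0x40002000100000000400060001000000000000000000) := T_41 (nat_lit 157) (nat_lit 174) (nat_lit 5) (nat_lit 5) (nat_lit 6) L112061 (by decide +kernel)
theorem L112063 : W_41 (nat_lit 5) (nat_lit 0x34001200090004800000000000000000000000000) (nat_lit 0x0) (nat_lit 0xc00020000000280014000a0000000000000000000000) := T_41 (nat_lit 108) (nat_lit 91) (nat_lit 6) (nat_lit 5) (nat_lit 9) L111970 (by decide +kernel)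
theorem L112064 : W_41 (nat_lit 2) (nat_lit 0x74001200090005c00000000000000000000000000) (nat_lit 0x0) (nat_lit 0x80000000000028000000000000000000000000000000) := D_41 (nat_lit 175) (nat_lit 125) (nat_lit 123) (nat_lit 6) (nat_lit 5) (nat_lit 10) (nat_lit 4) (nat_lit 5) (nat_lit 10) (by decide +kernel)
theorem L112065 : W_41 (nat_lit 3) (nat_lit 0x74001200090005800000000000000000000000000) (nat_lit 0x0) (nat_lit 0x80000000000028000400020000000000000000000000) := T_41 (nat_lit 106) (nat_lit 89) (nat_lit 4) (nat_lit 5) (nat_lit 9) L112064 (by decide +kernel)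
theorem L112066 : W_41 (nat_lit 4) (nat_lit 0x74001200090004800000000000000000000000000) (nat_lit 0x0) (nat_lit 0x800000000000280014000a0000000000000000000000) := T_41 (nat_lit 108) (nat_lit 91) (nat_lit 6) (nat_lit 5) (nat_lit 9) L112065 (by decide +kernel)
theorem L112067 : W_41 (nat_lit 5) (nat_lit 0x34001200090004800000000000000000000000000) (nat_lit 0x0) (nat_lit 0x8800400000000280014000a0000000000000000000000) := T_41 (nat_lit 162) (nat_lit 179) (nat_lit 7) (nat_lit 8) (nat_lit 6) L112066 (by decide +kernel)
theorem L112068 : W_41 (nat_lit 2) (nat_lit 0x80074001200090005800000000000000000000000000) (nat_lit 0x0) (nat_lit 0x800040002000000000000000000000000000000000000000) := D_41 (nat_lit 174) (nat_lit 191) (nat_lit 157) (nat_lit 5) (nat_lit 5) (nat_lit 7) (nat_lit 5) (nat_lit 5) (nat_lit 6) (by decide +kernel)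
theorem L112069 : W_41 (nat_lit 3) (nat_lit 0x74001200090005800000000000000000000000000) (nat_lit 0x0) (nat_lit 0x8000c0002000000020000000000000000000000000000000) := T_41 (nat_lit 175) (nat_lit 125) (nat_lit 6) (nat_lit 5) (nat_lit 10) L112068 (by decide +kernel)
theorem L112070 : W_41 (nat_lit 4) (nat_lit 0x34001200090005800000000000000000000000000) (nat_lit 0x0) (nat_lit 0x8008c0042000000020000000000000000000000000000000) := T_41 (nat_lit 162) (nat_lit 179) (nat_lit 7) (nat_lit 8) (nat_lit 6) L112069 (by decide +kernel)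
theorem L112071 : W_41 (nat_lit 5) (nat_lit 0x34001200090004800000000000000000000000000) (nat_lit 0x0) (nat_lit 0x8008c0042000000020001000080000000000000000000000) := T_41 (nat_lit 108) (nat_lit 91) (nat_lit 6) (nat_lit 5) (nat_lit 9) L112070 (by decide +kernel)
theorem L112072 : W_41 (nat_lit 10) (nat_lit 0x30001200090004800000000000000000000000000) (nat_lit 0x0) (nat_lit 0x8008c00460005000280014000f8003000100000000000000) := Q_41 (nat_lit 158) (C_41 L112059 (C_41 L112062 (C_41 L112063 (C_41 L112067 (C_41 L112071 N_41))))) (by decide +kernel)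
theorem L112073 : W_41 (nat_lit 2) (nat_lit 0x70001300090004800040002000000000000000000) (nat_lit 0x0) (nat_lit 0x80004000200000000000000) := D_41 (nat_lit 74) (nat_lit 91) (nat_lit 57) (nat_lit 6) (nat_lit 5) (nat_lit 8) (nat_lit 6) (nat_lit 5) (nat_lit 7) (by decide +kernel)
theorem L112074 : W_41 (nat_lit 3) (nat_lit 0x70001300090004800040000000000000000000000) (nat_lit 0x0) (nat_lit 0x8000000080006000200000000000000) := T_41 (nat_lit 73) (nat_lit 123) (nat_lit 5) (nat_lit 5) (nat_lit 4) L112073 (by decide +kernel)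
theorem L112075 : W_41 (nat_lit 4) (nat_lit 0x70001200090004800040000000000000000000000) (nat_lit 0x0) (nat_lit 0x2000100008000000080006000200000000000000) := T_41 (nat_lit 140) (nat_lit 157) (nat_lit 5) (nat_lit 5) (nat_lit 5) L112074 (by decide +kernel)
theorem L112076 : W_41 (nat_lit 5) (nat_lit 0x30001200090004800040000000000000000000000) (nat_lit 0x0) (nat_lit 0x800042000100008000000080006000200000000000000) := T_41 (nat_lit 162) (nat_lit 179) (nat_lit 7) (nat_lit 8) (nat_lit 6) L112075 (by decide +kernel)
theorem L112077 : W_41 (nat_lit 6) (nat_lit 0x30001200090004800000000000000000000000000) (nat_lit 0x0) (nat_lit 0x8000460001000080014000e0007000280000000000000) := Q_41 (nat_lit 90) (C_41 L112056 (C_41 L111826 (C_41 L112076 N_41))) (by decide +kernel)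
theorem L112078 : W_41 (nat_lit 2) (nat_lit 0x700013800b8004d00070000000000000000000000) (nat_lit 0x0) (nat_lit 0x1080008000000000000000000000) := D_41 (nat_lit 87) (nat_lit 108) (nat_lit 103) (nat_lit 3) (nat_lit 2) (nat_lit 5) (nat_lit 1) (nat_lit 5) (nat_lit 5) (by decide +kernel)
theorem L112079 : W_41 (nat_lit 3) (nat_lit 0x700013800b8004d00060000000000000000000000) (nat_lit 0x0) (nat_lit 0x1080018000800000000000000000) := T_41 (nat_lit 88) (nat_lit 71) (nat_lit 4) (nat_lit 4) (nat_lit 8) L112078 (by decide +kernel)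
theorem L112080 : W_41 (nat_lit 4) (nat_lit 0x700013800b0004d00060000000000000000000000) (nat_lit 0x0) (nat_lit 0x1000000008001080018000800000000000000000) := T_41 (nat_lit 123) (nat_lit 156) (nat_lit 5) (nat_lit 4) (nat_lit 5) L112079 (by decide +kernel)
theorem L112081 : W_41 (nat_lit 5) (nat_lit 0x700013000b0004d00060000000000000000000000) (nat_lit 0x0) (nat_lit 0x10000c0008001080018000800000000000000000) := T_41 (nat_lit 139) (nat_lit 138) (nat_lit 2) (nat_lit 2) (nat_lit 8) L112080 (by decide +kernel)
theorem L112082 : W_41 (nat_lit 6) (nat_lit 0x700013000b0004c00060000000000000000000000) (nat_lit 0x0) (nat_lit 0x10000c0008001380018000800000000000000000) := T_41 (nat_lit 104) (nat_lit 105) (nat_lit 3) (nat_lit 2) (nat_lit 6) L112081 (by decide +kernel)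
theorem L112083 : W_41 (nat_lit 7) (nat_lit 0x700013000b0004c00040000000000000000000000) (nat_lit 0x0) (nat_lit 0x10000c0008001380038001800000000000000000) := T_41 (nat_lit 89) (nat_lit 72) (nat_lit 4) (nat_lit 5) (nat_lit 8) L112082 (by decide +kernel)
theorem L112084 : W_41 (nat_lit 8) (nat_lit 0x70001300090004c00040000000000000000000000) (nat_lit 0x0) (nat_lit 0x10000c0068001380038001800000000000000000) := T_41 (nat_lit 125) (nat_lit 126) (nat_lit 1) (nat_lit 8) (nat_lit 7) L112083 (by decide +kernel)
theorem L112085 : W_41 (nat_lit 9) (nat_lit 0x70001200090004c00040000000000000000000000) (nat_lit 0x0) (nat_lit 0x30001c0068001380038001800000000000000000) := T_41 (nat_lit 140) (nat_lit 157) (nat_lit 5) (nat_lit 5) (nat_lit 5) L112084 (by decide +kernel)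
theorem L112086 : W_41 (nat_lit 10) (nat_lit 0x30001200090004c00040000000000000000000000) (nat_lit 0x0) (nat_lit 0x8000430001c0068001380038001800000000000000000) := T_41 (nat_lit 162) (nat_lit 179) (nat_lit 7) (nat_lit 8) (nat_lit 6) L112085 (by decide +kernel)
theorem L112087 : W_41 (nat_lit 2) (nat_lit 0x700012000b0004d00060002000000000000000000) (nat_lit 0x0) (nat_lit 0x1000000000000100008000000000) := D_41 (nat_lit 56) (nat_lit 108) (nat_lit 39) (nat_lit 7) (nat_lit 5) (nat_lit 3) (nat_lit 5) (nat_lit 5) (nat_lit 2) (by decide +kernel)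
theorem L112088 : W_41 (nat_lit 3) (nat_lit 0x700012000b0004d00060000000000000000000000) (nat_lit 0x0) (nat_lit 0x400000001000000002000100008000000000) := T_41 (nat_lit 73) (nat_lit 142) (nat_lit 7) (nat_lit 5) (nat_lit 4) L112087 (by decide +kernel)
theorem L112089 : W_41 (nat_lit 4) (nat_lit 0x700012000b0004c00060000000000000000000000) (nat_lit 0x0) (nat_lit 0x400000001300000002000100008000000000) := T_41 (nat_lit 104) (nat_lit 105) (nat_lit 3) (nat_lit 2) (nat_lit 6) L112088 (by decide +kernel)
theorem L112090 : W_41 (nat_lit 5) (nat_lit 0x70001200090004c00060000000000000000000000) (nat_lit 0x0) (nat_lit 0x400060001300000002000100008000000000) := T_41 (nat_lit 125) (nat_lit 126) (nat_lit 0) (nat_lit 8) (nat_lit 7) L112089 (by decide +kernel)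
theorem L112091 : W_41 (nat_lit 6) (nat_lit 0x30001200090004c00060000000000000000000000) (nat_lit 0x0) (nat_lit 0x800040000400060001300000002000100008000000000) := T_41 (nat_lit 162) (nat_lit 179) (nat_lit 7) (nat_lit 8) (nat_lit 6) L112090 (by decide +kernel)
theorem L112092 : W_41 (nat_lit 7) (nat_lit 0x30001200090004c00040000000000000000000000) (nat_lit 0x0) (nat_lit 0x800040000400060001300020003000100008000000000) := T_41 (nat_lit 89) (nat_lit 72) (nat_lit 4) (nat_lit 5) (nat_lit 8) L112091 (by decide +kernel)
theorem L112093 : W_41 (nat_lit 11) (nat_lit 0x30001200090004c00000000000000000000000000) (nat_lit 0x0) (nat_lit 0x8000430005c0068001380078003800180008000000000) := Q_41 (nat_lit 90) (C_41 L111858 (C_41 L112086 (C_41 L111855 (C_41 L112092 N_41)))) (by decide +kernel)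
theorem L112094 : W_41 (nat_lit 9) (nat_lit 0x30001200090004c00000000000000000000000000) (nat_lit 0x0) (nat_lit 0x600030009c0046000500068001300040002000100000000000000) := Q_41 (nat_lit 157) (C_41 L111956 (C_41 L111933 (C_41 L111929 (C_41 L111949 (C_41 L111944 N_41))))) (by decide +kernel)
theorem L112095 : W_41 (nat_lit 12) (nat_lit 0x30001200090004800000000000000000000000000) (nat_lit 0x0) (nat_lit 0x600038009c00470005c0068001780078003800180008000000000) := Q_41 (nat_lit 106) (C_41 L111960 (C_41 L112093 (C_41 L111913 (C_41 L111927 (C_41 L112094 N_41))))) (by decide +kernel)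
theorem L112096 : W_41 (nat_lit 2) (nat_lit 0x100030000800760012000d0004c00000000000000000000000000) (nat_lit 0x0) (nat_lit 0x200020000000000000000100000000000000000000000000000000000) := D_41 (nat_lit 209) (nat_lit 140) (nat_lit 225) (nat_lit 4) (nat_lit 5) (nat_lit 12) (nat_lit 5) (nat_lit 5) (nat_lit 9) (by decide +kernel)
theorem L112097 : W_41 (nat_lit 3) (nat_lit 0x30000800760012000d0004c00000000000000000000000000) (nat_lit 0x0) (nat_lit 0x200030000800000000000100000000000000000000000000000000000) := T_41 (nat_lit 208) (nat_lit 191) (nat_lit 5) (nat_lit 5) (nat_lit 8) L112096 (by decide +kernel)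
theorem L112098 : W_41 (nat_lit 4) (nat_lit 0x20000800760012000d0004c00000000000000000000000000) (nat_lit 0x0) (nat_lit 0x200070001800000000000100000000000000000000000000000000000) := T_41 (nat_lit 192) (nat_lit 210) (nat_lit 7) (nat_lit 5) (nat_lit 8) L112097 (by decide +kernel)
theorem L112099 : W_41 (nat_lit 5) (nat_lit 0x800760012000d0004c00000000000000000000000000) (nat_lit 0x0) (nat_lit 0x200070003800100000000100000000000000000000000000000000000) := T_41 (nat_lit 193) (nat_lit 176) (nat_lit 7) (nat_lit 5) (nat_lit 7) L112098 (by decide +kernel)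
theorem L112100 : W_41 (nat_lit 6) (nat_lit 0x760012000d0004c00000000000000000000000000) (nat_lit 0x0) (nat_lit 0x200070003800180000000100008000000000000000000000000000000) := T_41 (nat_lit 175) (nat_lit 123) (nat_lit 4) (nat_lit 5) (nat_lit 10) L112099 (by decide +kernel)
theorem L112101 : W_41 (nat_lit 7) (nat_lit 0x76001200090004c00000000000000000000000000) (nat_lit 0x0) (nat_lit 0x200070003800180000000100068000000000000000000000000000000) := T_41 (nat_lit 126) (nat_lit 125) (nat_lit 0) (nat_lit 8) (nat_lit 7) L112100 (by decide +kernel)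
theorem L112102 : W_41 (nat_lit 8) (nat_lit 0x76001200090004800000000000000000000000000) (nat_lit 0x0) (nat_lit 0x200070003800180000000100068000400020000000000000000000000) := T_41 (nat_lit 106) (nat_lit 89) (nat_lit 4) (nat_lit 5) (nat_lit 9) L112101 (by decide +kernel)
theorem L112103 : W_41 (nat_lit 9) (nat_lit 0x74001200090004800000000000000000000000000) (nat_lit 0x0) (nat_lit 0x2000700038001c0002000100068000400020000000000000000000000) := T_41 (nat_lit 157) (nat_lit 174) (nat_lit 5) (nat_lit 5) (nat_lit 6) L112102 (by decide +kernel)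
theorem L112104 : W_41 (nat_lit 10) (nat_lit 0x34001200090004800000000000000000000000000) (nat_lit 0x0) (nat_lit 0x2000700038009c0042000100068000400020000000000000000000000) := T_41 (nat_lit 162) (nat_lit 179) (nat_lit 7) (nat_lit 8) (nat_lit 6) L112103 (by decide +kernel)
theorem L112105 : W_41 (nat_lit 2) (nat_lit 0x80034001200090005c00000000000000000000000000) (nat_lit 0x0) (nat_lit 0x800040002000000000000000000000000000000000000000) := D_41 (nat_lit 174) (nat_lit 157) (nat_lit 191) (nat_lit 5) (nat_lit 5) (nat_lit 6) (nat_lit 5) (nat_lit 5) (nat_lit 7) (by decide +kernel)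
theorem L112106 : W_41 (nat_lit 3) (nat_lit 0x34001200090005c00000000000000000000000000) (nat_lit 0x0) (nat_lit 0x8000c0002000000008000000000000000000000000000000) := T_41 (nat_lit 175) (nat_lit 123) (nat_lit 4) (nat_lit 5) (nat_lit 10) L112105 (by decide +kernel)
theorem L112107 : W_41 (nat_lit 4) (nat_lit 0x34001200090004c00000000000000000000000000) (nat_lit 0x0) (nat_lit 0x8000c0002000000008001000080000000000000000000000) := T_41 (nat_lit 108) (nat_lit 91) (nat_lit 6) (nat_lit 5) (nat_lit 9) L112106 (by decide +kernel)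
theorem L112108 : W_41 (nat_lit 5) (nat_lit 0x34001200090004800000000000000000000000000) (nat_lit 0x0) (nat_lit 0x8000c00020000000080014000a0000000000000000000000) := T_41 (nat_lit 106) (nat_lit 89) (nat_lit 4) (nat_lit 5) (nat_lit 9) L112107 (by decide +kernel)
theorem L112109 : W_41 (nat_lit 2) (nat_lit 0x760012000b4005e00010000000000000000000000) (nat_lit 0x0) (nat_lit 0x180008000000000000000000000000000000) := D_41 (nat_lit 140) (nat_lit 123) (nat_lit 139) (nat_lit 4) (nat_lit 4) (nat_lit 9) (nat_lit 7) (nat_lit 3) (nat_lit 5) (by decide +kernel)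
theorem L112110 : W_41 (nat_lit 3) (nat_lit 0x760012000b4005e00000000000000000000000000) (nat_lit 0x0) (nat_lit 0x180008000000018000000000000000000000) := T_41 (nat_lit 88) (nat_lit 87) (nat_lit 0) (nat_lit 6) (nat_lit 6) L112109 (by decide +kernel)
theorem L112111 : W_41 (nat_lit 4) (nat_lit 0x760012000b0005e00000000000000000000000000) (nat_lit 0x0) (nat_lit 0x18000e000000018000000000000000000000) := T_41 (nat_lit 122) (nat_lit 121) (nat_lit 1) (nat_lit 6) (nat_lit 6) L112110 (by decide +kernel)
theorem L112112 : W_41 (nat_lit 5) (nat_lit 0x760012000b0005c00000000000000000000000000) (nat_lit 0x0) (nat_lit 0x18000e000300018000000000000000000000) := T_41 (nat_lit 105) (nat_lit 104) (nat_lit 3) (nat_lit 2) (nat_lit 6) L112111 (by decide +kernel)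
theorem L112113 : W_41 (nat_lit 6) (nat_lit 0x740012000b0005c00000000000000000000000000) (nat_lit 0x0) (nat_lit 0x4000200018000e000300018000000000000000000000) := T_41 (nat_lit 157) (nat_lit 174) (nat_lit 5) (nat_lit 5) (nat_lit 6) L112112 (by decide +kernel)
theorem L112114 : W_41 (nat_lit 7) (nat_lit 0x74001200090005c00000000000000000000000000) (nat_lit 0x0) (nat_lit 0x4000200018006e000300018000000000000000000000) := T_41 (nat_lit 125) (nat_lit 126) (nat_lit 0) (nat_lit 8) (nat_lit 7) L112113 (by decide +kernel)
theorem L112115 : W_41 (nat_lit 8) (nat_lit 0x74001200090005800000000000000000000000000) (nat_lit 0x0) (nat_lit 0x4000200018006e000700038000000000000000000000) := T_41 (nat_lit 106) (nat_lit 89) (nat_lit 4) (nat_lit 5) (nat_lit 9) L112114 (by decide +kernel)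
theorem L112116 : W_41 (nat_lit 9) (nat_lit 0x74001200090004800000000000000000000000000) (nat_lit 0x0) (nat_lit 0x4000200018006e0017000b8000000000000000000000) := T_41 (nat_lit 108) (nat_lit 91) (nat_lit 6) (nat_lit 5) (nat_lit 9) L112115 (by decide +kernel)
theorem L112117 : W_41 (nat_lit 10) (nat_lit 0x34001200090004800000000000000000000000000) (nat_lit 0x0) (nat_lit 0x84004200018006e0017000b8000000000000000000000) := T_41 (nat_lit 162) (nat_lit 179) (nat_lit 7) (nat_lit 8) (nat_lit 6) L112116 (by decide +kernel)
theorem L112118 : W_41 (nat_lit 11) (nat_lit 0x30001200090004800000000000000000000000000) (nat_lit 0x0) (nat_lit 0x2000700038009c004600018006e0017000b8000000000000000000000) := Q_41 (nat_lit 158) (C_41 L112071 (C_41 L112063 (C_41 L112104 (C_41 L112108 (C_41 L112117 (C_41 L112067 N_41)))))) (by decide +kernel)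
theorem L112119 : W_41 (nat_lit 2) (nat_lit 0x300012000d0004e000c0000000000000000000000) (nat_lit 0x0) (nat_lit 0x320000000000000000000000) := D_41 (nat_lit 92) (nat_lit 93) (nat_lit 89) (nat_lit 1) (nat_lit 8) (nat_lit 5) (nat_lit 1) (nat_lit 7) (nat_lit 5) (by decide +kernel)
theorem L112120 : W_41 (nat_lit 3) (nat_lit 0x300012000d0004c000c0000000000000000000000) (nat_lit 0x0) (nat_lit 0x300320000000000000000000000) := T_41 (nat_lit 105) (nat_lit 104) (nat_lit 2) (nat_lit 2) (nat_lit 6) L112119 (by decide +kernel)
theorem L112121 : W_41 (nat_lit 4) (nat_lit 0x300012000d0004c00040000000000000000000000) (nat_lit 0x0) (nat_lit 0x3003a0004000000000000000000) := T_41 (nat_lit 91) (nat_lit 74) (nat_lit 6) (nat_lit 5) (nat_lit 8) L112120 (by decide +kernel)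
theorem L112122 : W_41 (nat_lit 5) (nat_lit 0x30001200090004c00040000000000000000000000) (nat_lit 0x0) (nat_lit 0x600003003a0004000000000000000000) := T_41 (nat_lit 126) (nat_lit 125) (nat_lit 0) (nat_lit 8) (nat_lit 7) L112121 (by decide +kernel)
theorem L112123 : W_41 (nat_lit 2) (nat_lit 0x70001300090004e000c0000000000000000000000) (nat_lit 0x0) (nat_lit 0x320000000000000000000000) := D_41 (nat_lit 92) (nat_lit 93) (nat_lit 89) (nat_lit 1) (nat_lit 8) (nat_lit 5) (nat_lit 1) (nat_lit 7) (nat_lit 5) (by decide +kernel)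
theorem L112124 : W_41 (nat_lit 3) (nat_lit 0x70001300090004c000c0000000000000000000000) (nat_lit 0x0) (nat_lit 0x300320000000000000000000000) := T_41 (nat_lit 105) (nat_lit 104) (nat_lit 2) (nat_lit 2) (nat_lit 6) L112123 (by decide +kernel)
theorem L112125 : W_41 (nat_lit 4) (nat_lit 0x70001300090004c00040000000000000000000000) (nat_lit 0x0) (nat_lit 0x3003a0004000000000000000000) := T_41 (nat_lit 91) (nat_lit 74) (nat_lit 6) (nat_lit 5) (nat_lit 8) L112124 (by decide +kernel)
theorem L112126 : W_41 (nat_lit 5) (nat_lit 0x30001300090004c00040000000000000000000000) (nat_lit 0x0) (nat_lit 0x8000400000000000003003a0004000000000000000000) := T_41 (nat_lit 162) (nat_lit 179) (nat_lit 7) (nat_lit 8) (nat_lit 6) L112125 (by decide +kernel)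
theorem L112127 : W_41 (nat_lit 6) (nat_lit 0x30001200090004c00040000000000000000000000) (nat_lit 0x0) (nat_lit 0x8000420001000000003003a0004000000000000000000) := T_41 (nat_lit 140) (nat_lit 157) (nat_lit 5) (nat_lit 5) (nat_lit 5) L112126 (by decide +kernel)
theorem L112128 : W_41 (nat_lit 2) (nat_lit 0x700013800b8004c002f0000000000000000000000) (nat_lit 0x0) (nat_lit 0x100000c000000000000000000000) := D_41 (nat_lit 87) (nat_lit 108) (nat_lit 86) (nat_lit 3) (nat_lit 2) (nat_lit 5) (nat_lit 3) (nat_lit 1) (nat_lit 5) (by decide +kernel)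
theorem L112129 : W_41 (nat_lit 3) (nat_lit 0x700013800b8004c002e0000000000000000000000) (nat_lit 0x0) (nat_lit 0x100001c000800000000000000000) := T_41 (nat_lit 88) (nat_lit 71) (nat_lit 4) (nat_lit 4) (nat_lit 8) L112128 (by decide +kernel)
theorem L112130 : W_41 (nat_lit 4) (nat_lit 0x700013800b0004c002e0000000000000000000000) (nat_lit 0x0) (nat_lit 0x100000000800100001c000800000000000000000) := T_41 (nat_lit 123) (nat_lit 156) (nat_lit 5) (nat_lit 4) (nat_lit 5) L112129 (by decide +kernel)
theorem L112131 : W_41 (nat_lit 5) (nat_lit 0x700013000b0004c002e0000000000000000000000) (nat_lit 0x0) (nat_lit 0x10000c000800100001c000800000000000000000) := T_41 (nat_lit 139) (nat_lit 138) (nat_lit 2) (nat_lit 2) (nat_lit 8) L112130 (by decide +kernel)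
theorem L112132 : W_41 (nat_lit 6) (nat_lit 0x700012000b0004c002e0000000000000000000000) (nat_lit 0x0) (nat_lit 0x30001c000800100001c000800000000000000000) := T_41 (nat_lit 140) (nat_lit 157) (nat_lit 5) (nat_lit 5) (nat_lit 5) L112131 (by decide +kernel)
theorem L112133 : W_41 (nat_lit 7) (nat_lit 0x300012000b0004c002e0000000000000000000000) (nat_lit 0x0) (nat_lit 0x8000430001c000800100001c000800000000000000000) := T_41 (nat_lit 162) (nat_lit 179) (nat_lit 7) (nat_lit 8) (nat_lit 6) L112132 (by decide +kernel)
theorem L112134 : W_41 (nat_lit 8) (nat_lit 0x300012000b0004c000e0000000000000000000000) (nat_lit 0x0) (nat_lit 0x8000430001c000800100031c000800000000000000000) := T_41 (nat_lit 93) (nat_lit 92) (nat_lit 1) (nat_lit 8) (nat_lit 5) L112133 (by decide +kernel)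
theorem L112135 : W_41 (nat_lit 9) (nat_lit 0x300012000b0004c00060000000000000000000000) (nat_lit 0x0) (nat_lit 0x8000430001c000800100039c004800000000000000000) := T_41 (nat_lit 91) (nat_lit 74) (nat_lit 6) (nat_lit 5) (nat_lit 8) L112134 (by decide +kernel)
theorem L112136 : W_41 (nat_lit 10) (nat_lit 0x30001200090004c00060000000000000000000000) (nat_lit 0x0) (nat_lit 0x8000430001c006800100039c004800000000000000000) := T_41 (nat_lit 125) (nat_lit 126) (nat_lit 0) (nat_lit 8) (nat_lit 7) L112135 (by decide +kernel)
theorem L112137 : W_41 (nat_lit 11) (nat_lit 0x30001200090004c00040000000000000000000000) (nat_lit 0x0) (nat_lit 0x8000430001c00680010003bc005800000000000000000) := T_41 (nat_lit 89) (nat_lit 72) (nat_lit 4) (nat_lit 5) (nat_lit 8) L112136 (by decide +kernel)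
theorem L112138 : W_41 (nat_lit 2) (nat_lit 0x700012000d0004e000c0000000000000000000000) (nat_lit 0x0) (nat_lit 0x1000300000000000000000000000) := D_41 (nat_lit 92) (nat_lit 93) (nat_lit 108) (nat_lit 1) (nat_lit 8) (nat_lit 5) (nat_lit 2) (nat_lit 3) (nat_lit 6) (by decide +kernel)
theorem L112139 : W_41 (nat_lit 3) (nat_lit 0x700012000d0004c000c0000000000000000000000) (nat_lit 0x0) (nat_lit 0x1300300000000000000000000000) := T_41 (nat_lit 105) (nat_lit 104) (nat_lit 2) (nat_lit 2) (nat_lit 6) L112138 (by decide +kernel)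
theorem L112140 : W_41 (nat_lit 4) (nat_lit 0x700012000d0004c00040000000000000000000000) (nat_lit 0x0) (nat_lit 0x1300380004000000000000000000) := T_41 (nat_lit 91) (nat_lit 74) (nat_lit 6) (nat_lit 5) (nat_lit 8) L112139 (by decide +kernel)
theorem L112141 : W_41 (nat_lit 5) (nat_lit 0x70001200090004c00040000000000000000000000) (nat_lit 0x0) (nat_lit 0x60001300380004000000000000000000) := T_41 (nat_lit 126) (nat_lit 125) (nat_lit 0) (nat_lit 8) (nat_lit 7) L112140 (by decide +kernel)
theorem L112142 : W_41 (nat_lit 6) (nat_lit 0x30001200090004c00040000000000000000000000) (nat_lit 0x0) (nat_lit 0x800040000000060001300380004000000000000000000) := T_41 (nat_lit 162) (nat_lit 179) (nat_lit 7) (nat_lit 8) (nat_lit 6) L112141 (by decide +kernel)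
theorem L112143 : W_41 (nat_lit 12) (nat_lit 0x30001200090004800040000000000000000000000) (nat_lit 0x0) (nat_lit 0x8000430001c00680017803bc005800000000000000000) := Q_41 (nat_lit 106) (C_41 L112086 (C_41 L112122 (C_41 L112127 (C_41 L112137 (C_41 L112142 N_41))))) (by decide +kernel)
theorem L112144 : W_41 (nat_lit 2) (nat_lit 0x700012000b0004800068006000100000000000000) (nat_lit 0x0) (nat_lit 0x48000400000000000000000000000000) := D_41 (nat_lit 106) (nat_lit 123) (nat_lit 126) (nat_lit 5) (nat_lit 5) (nat_lit 3) (nat_lit 0) (nat_lit 8) (nat_lit 7) (by decide +kernel)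
theorem L112145 : W_41 (nat_lit 3) (nat_lit 0x700012000b0004800068006000000000000000000) (nat_lit 0x0) (nat_lit 0x48001400000000000100000000000000) := T_41 (nat_lit 56) (nat_lit 108) (nat_lit 7) (nat_lit 5) (nat_lit 3) L112144 (by decide +kernel)
theorem L112146 : W_41 (nat_lit 4) (nat_lit 0x70001200090004800068006000000000000000000) (nat_lit 0x0) (nat_lit 0x400068001400000000000100000000000000) := T_41 (nat_lit 125) (nat_lit 142) (nat_lit 7) (nat_lit 5) (nat_lit 4) L112145 (by decide +kernel)
theorem L112147 : W_41 (nat_lit 5) (nat_lit 0x70001200090004800060006000000000000000000) (nat_lit 0x0) (nat_lit 0x400068001400018000000100000000000000) := T_41 (nat_lit 87) (nat_lit 88) (nat_lit 2) (nat_lit 2) (nat_lit 5) L112146 (by decide +kernel)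
theorem L112148 : W_41 (nat_lit 6) (nat_lit 0x70001200090004800060004000000000000000000) (nat_lit 0x0) (nat_lit 0x400068001400018002000300000000000000) := T_41 (nat_lit 73) (nat_lit 57) (nat_lit 6) (nat_lit 5) (nat_lit 7) L112147 (by decide +kernel)
theorem L112149 : W_41 (nat_lit 7) (nat_lit 0x70001200090004800060000000000000000000000) (nat_lit 0x0) (nat_lit 0x400068001400098006000300000000000000) := T_41 (nat_lit 74) (nat_lit 91) (nat_lit 6) (nat_lit 5) (nat_lit 8) L112148 (by decide +kernel)
theorem L112150 : W_41 (nat_lit 8) (nat_lit 0x70001200090004800040000000000000000000000) (nat_lit 0x0) (nat_lit 0x4000680014000b8007000300000000000000) := T_41 (nat_lit 89) (nat_lit 72) (nat_lit 4) (nat_lit 5) (nat_lit 8) L112149 (by decide +kernel)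
theorem L112151 : W_41 (nat_lit 9) (nat_lit 0x30001200090004800040000000000000000000000) (nat_lit 0x0) (nat_lit 0x8000400004000680014000b8007000300000000000000) := T_41 (nat_lit 162) (nat_lit 179) (nat_lit 7) (nat_lit 8) (nat_lit 6) L112150 (by decide +kernel)
theorem L112152 : W_41 (nat_lit 2) (nat_lit 0x700013400b00048000c0002000000000000000000) (nat_lit 0x0) (nat_lit 0x20001000080000000000000) := D_41 (nat_lit 72) (nat_lit 89) (nat_lit 55) (nat_lit 4) (nat_lit 5) (nat_lit 8) (nat_lit 4) (nat_lit 5) (nat_lit 7) (by decide +kernel)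
theorem L112153 : W_41 (nat_lit 3) (nat_lit 0x700013400b00048000c0000000000000000000000) (nat_lit 0x0) (nat_lit 0x400000000000020003000080000000000000) := T_41 (nat_lit 73) (nat_lit 142) (nat_lit 7) (nat_lit 5) (nat_lit 4) L112152 (by decide +kernel)
theorem L112154 : W_41 (nat_lit 4) (nat_lit 0x700013000b00048000c0000000000000000000000) (nat_lit 0x0) (nat_lit 0x4c0000000000020003000080000000000000) := T_41 (nat_lit 138) (nat_lit 139) (nat_lit 2) (nat_lit 2) (nat_lit 8) L112153 (by decide +kernel)
theorem L112155 : W_41 (nat_lit 5) (nat_lit 0x300013000b00048000c0000000000000000000000) (nat_lit 0x0) (nat_lit 0x8000400004c0000000000020003000080000000000000) := T_41 (nat_lit 162) (nat_lit 179) (nat_lit 7) (nat_lit 8) (nat_lit 6) L112154 (by decide +kernel)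
theorem L112156 : W_41 (nat_lit 6) (nat_lit 0x300013000900048000c0000000000000000000000) (nat_lit 0x0) (nat_lit 0x8000400004c0060000000020003000080000000000000) := T_41 (nat_lit 125) (nat_lit 126) (nat_lit 1) (nat_lit 8) (nat_lit 7) L112155 (by decide +kernel)
theorem L112157 : W_41 (nat_lit 7) (nat_lit 0x300012000900048000c0000000000000000000000) (nat_lit 0x0) (nat_lit 0x8000420005c0060000000020003000080000000000000) := T_41 (nat_lit 140) (nat_lit 157) (nat_lit 5) (nat_lit 5) (nat_lit 5) L112156 (by decide +kernel)
theorem L112158 : W_41 (nat_lit 8) (nat_lit 0x30001200090004800040000000000000000000000) (nat_lit 0x0) (nat_lit 0x8000420005c00600000000a0007000080000000000000) := T_41 (nat_lit 91) (nat_lit 74) (nat_lit 6) (nat_lit 5) (nat_lit 8) L112157 (by decide +kernel)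
theorem L112159 : W_41 (nat_lit 13) (nat_lit 0x30001200090004800000000000000000000000000) (nat_lit 0x0) (nat_lit 0x8000430005c00680017803fc007800380000000000000) := Q_41 (nat_lit 90) (C_41 L112076 (C_41 L112053 (C_41 L111830 (C_41 L112143 (C_41 L112151 (C_41 L112158 N_41)))))) (by decide +kernel)
theorem L112160 : W_41 (nat_lit 2) (nat_lit 0x700013400b0005a000f0000800000000000000000) (nat_lit 0x0) (nat_lit 0xe000000000000000000000000000000) := D_41 (nat_lit 122) (nat_lit 121) (nat_lit 123) (nat_lit 5) (nat_lit 3) (nat_lit 4) (nat_lit 7) (nat_lit 3) (nat_lit 4) (by decide +kernel)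
theorem L112161 : W_41 (nat_lit 3) (nat_lit 0x700013400b0005a000f0000000000000000000000) (nat_lit 0x0) (nat_lit 0xe000000000000c00000000000000000) := T_41 (nat_lit 71) (nat_lit 70) (nat_lit 0) (nat_lit 6) (nat_lit 5) L112160 (by decide +kernel)
theorem L112162 : W_41 (nat_lit 4) (nat_lit 0x700013400b00058000f0000000000000000000000) (nat_lit 0x0) (nat_lit 0xe000300000000c00000000000000000) := T_41 (nat_lit 105) (nat_lit 104) (nat_lit 1) (nat_lit 6) (nat_lit 5) L112161 (by decide +kernel)
theorem L112163 : W_41 (nat_lit 5) (nat_lit 0x700013400b00058000e0000000000000000000000) (nat_lit 0x0) (nat_lit 0xe000300018000c00000000000000000) := T_41 (nat_lit 88) (nat_lit 87) (nat_lit 3) (nat_lit 2) (nat_lit 5) L112162 (by decide +kernel)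
theorem L112164 : W_41 (nat_lit 6) (nat_lit 0x700013400b00058000c0000000000000000000000) (nat_lit 0x0) (nat_lit 0xe000300038001c00000000000000000) := T_41 (nat_lit 89) (nat_lit 72) (nat_lit 4) (nat_lit 5) (nat_lit 8) L112163 (by decide +kernel)
theorem L112165 : W_41 (nat_lit 7) (nat_lit 0x700013000b00058000c0000000000000000000000) (nat_lit 0x0) (nat_lit 0xc000e000300038001c00000000000000000) := T_41 (nat_lit 138) (nat_lit 139) (nat_lit 2) (nat_lit 2) (nat_lit 8) L112164 (by decide +kernel)
theorem L112166 : W_41 (nat_lit 8) (nat_lit 0x700013000b00048000c0000000000000000000000) (nat_lit 0x0) (nat_lit 0x40000c000e001300038001c00000000000000000) := T_41 (nat_lit 108) (nat_lit 158) (nat_lit 6) (nat_lit 5) (nat_lit 9) L112165 (by decide +kernel)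
theorem L112167 : W_41 (nat_lit 9) (nat_lit 0x700013000900048000c0000000000000000000000) (nat_lit 0x0) (nat_lit 0x40000c006e001300038001c00000000000000000) := T_41 (nat_lit 125) (nat_lit 126) (nat_lit 1) (nat_lit 8) (nat_lit 7) L112166 (by decide +kernel)
theorem L112168 : W_41 (nat_lit 10) (nat_lit 0x700012000900048000c0000000000000000000000) (nat_lit 0x0) (nat_lit 0x60001c006e001300038001c00000000000000000) := T_41 (nat_lit 140) (nat_lit 157) (nat_lit 5) (nat_lit 5) (nat_lit 5) L112167 (by decide +kernel)
theorem L112169 : W_41 (nat_lit 11) (nat_lit 0x70001200090004800040000000000000000000000) (nat_lit 0x0) (nat_lit 0x60001c006e0013000b8005c00000000000000000) := T_41 (nat_lit 91) (nat_lit 74) (nat_lit 6) (nat_lit 5) (nat_lit 8) L112168 (by decide +kernel)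
theorem L112170 : W_41 (nat_lit 12) (nat_lit 0x30001200090004800040000000000000000000000) (nat_lit 0x0) (nat_lit 0x8000460001c006e0013000b8005c00000000000000000) := T_41 (nat_lit 162) (nat_lit 179) (nat_lit 7) (nat_lit 8) (nat_lit 6) L112169 (by decide +kernel)
theorem L112171 : W_41 (nat_lit 2) (nat_lit 0x70001200090004800040003000000000000000000) (nat_lit 0x0) (nat_lit 0x80004000200000000000000) := D_41 (nat_lit 74) (nat_lit 91) (nat_lit 57) (nat_lit 6) (nat_lit 5) (nat_lit 8) (nat_lit 6) (nat_lit 5) (nat_lit 7) (by decide +kernel)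
theorem L112172 : W_41 (nat_lit 3) (nat_lit 0x70001200090004800040001000000000000000000) (nat_lit 0x0) (nat_lit 0x80006000280000000000000) := T_41 (nat_lit 73) (nat_lit 55) (nat_lit 4) (nat_lit 5) (nat_lit 7) L112171 (by decide +kernel)
theorem L112173 : W_41 (nat_lit 4) (nat_lit 0x30001200090004800040001000000000000000000) (nat_lit 0x0) (nat_lit 0x800040000000000000000080006000280000000000000) := T_41 (nat_lit 162) (nat_lit 179) (nat_lit 7) (nat_lit 8) (nat_lit 6) L112172 (by decide +kernel)
theorem L112174 : W_41 (nat_lit 5) (nat_lit 0x30001200090004800040000000000000000000000) (nat_lit 0x0) (nat_lit 0x8000400000000000000000a0007000280000000000000) := T_41 (nat_lit 72) (nat_lit 89) (nat_lit 4) (nat_lit 5) (nat_lit 8) L112173 (by decide +kernel)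
theorem L112175 : W_41 (nat_lit 13) (nat_lit 0x30001200090004800000000000000000000000000) (nat_lit 0x0) (nat_lit 0x8000460005c006e0013000f8007c00280000000000000) := Q_41 (nat_lit 90) (C_41 L112158 (C_41 L112053 (C_41 L112076 (C_41 L111830 (C_41 L112170 (C_41 L112174 N_41)))))) (by decide +kernel)
theorem L112176 : W_41 (nat_lit 2) (nat_lit 0x20000800760012000b0004d00000000000000000000000000) (nat_lit 0x0) (nat_lit 0x40001000000000000400000000000000000000000000000000000) := D_41 (nat_lit 192) (nat_lit 142) (nat_lit 210) (nat_lit 6) (nat_lit 5) (nat_lit 11) (nat_lit 7) (nat_lit 5) (nat_lit 8) (by decide +kernel)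
theorem L112177 : W_41 (nat_lit 3) (nat_lit 0x800760012000b0004d00000000000000000000000000) (nat_lit 0x0) (nat_lit 0x40003000100000000400000000000000000000000000000000000) := T_41 (nat_lit 193) (nat_lit 176) (nat_lit 7) (nat_lit 5) (nat_lit 7) L112176 (by decide +kernel)
theorem L112178 : W_41 (nat_lit 4) (nat_lit 0x800760012000b0004c00000000000000000000000000) (nat_lit 0x0) (nat_lit 0x40003000100000000400000000300000000000000000000000000) := T_41 (nat_lit 104) (nat_lit 105) (nat_lit 3) (nat_lit 2) (nat_lit 6) L112177 (by decide +kernel)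
theorem L112179 : W_41 (nat_lit 5) (nat_lit 0x760012000b0004c00000000000000000000000000) (nat_lit 0x0) (nat_lit 0x40003000180000000400008000300000000000000000000000000) := T_41 (nat_lit 175) (nat_lit 123) (nat_lit 4) (nat_lit 5) (nat_lit 10) L112178 (by decide +kernel)
theorem L112180 : W_41 (nat_lit 6) (nat_lit 0x76001200090004c00000000000000000000000000) (nat_lit 0x0) (nat_lit 0x40003000180000000400068000300000000000000000000000000) := T_41 (nat_lit 125) (nat_lit 126) (nat_lit 0) (nat_lit 8) (nat_lit 7) L112179 (by decide +kernel)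
theorem L112181 : W_41 (nat_lit 7) (nat_lit 0x76001200090004800000000000000000000000000) (nat_lit 0x0) (nat_lit 0x40003000180000000400068000700020000000000000000000000) := T_41 (nat_lit 106) (nat_lit 89) (nat_lit 4) (nat_lit 5) (nat_lit 9) L112180 (by decide +kernel)
theorem L112182 : W_41 (nat_lit 8) (nat_lit 0x74001200090004800000000000000000000000000) (nat_lit 0x0) (nat_lit 0x400030001c0002000400068000700020000000000000000000000) := T_41 (nat_lit 157) (nat_lit 174) (nat_lit 5) (nat_lit 5) (nat_lit 6) L112181 (by decide +kernel)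
theorem L112183 : W_41 (nat_lit 9) (nat_lit 0x34001200090004800000000000000000000000000) (nat_lit 0x0) (nat_lit 0x400030009c0042000400068000700020000000000000000000000) := T_41 (nat_lit 162) (nat_lit 179) (nat_lit 7) (nat_lit 8) (nat_lit 6) L112182 (by decide +kernel)
theorem L112184 : W_41 (nat_lit 2) (nat_lit 0x340012000b0004d000c0002000100000000000000) (nat_lit 0x0) (nat_lit 0x1000080004000000000) := D_41 (nat_lit 55) (nat_lit 38) (nat_lit 72) (nat_lit 4) (nat_lit 5) (nat_lit 6) (nat_lit 4) (nat_lit 5) (nat_lit 7) (by decide +kernel)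
theorem L112185 : W_41 (nat_lit 3) (nat_lit 0x340012000b0004d000c0002000000000000000000) (nat_lit 0x0) (nat_lit 0x8000000000001000180004000000000) := T_41 (nat_lit 56) (nat_lit 123) (nat_lit 5) (nat_lit 5) (nat_lit 3) L112184 (by decide +kernel)
theorem L112186 : W_41 (nat_lit 4) (nat_lit 0x340012000b0004d000c0000000000000000000000) (nat_lit 0x0) (nat_lit 0x400008000000000003000180004000000000) := T_41 (nat_lit 73) (nat_lit 142) (nat_lit 7) (nat_lit 5) (nat_lit 4) L112185 (by decide +kernel)
theorem L112187 : W_41 (nat_lit 5) (nat_lit 0x340012000b0004c000c0000000000000000000000) (nat_lit 0x0) (nat_lit 0x400008000300000003000180004000000000) := T_41 (nat_lit 104) (nat_lit 105) (nat_lit 3) (nat_lit 2) (nat_lit 6) L112186 (by decide +kernel)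
theorem L112188 : W_41 (nat_lit 6) (nat_lit 0x340012000b0004c00080000000000000000000000) (nat_lit 0x0) (nat_lit 0x400008000300040007000180004000000000) := T_41 (nat_lit 90) (nat_lit 74) (nat_lit 6) (nat_lit 5) (nat_lit 8) L112187 (by decide +kernel)
theorem L112189 : W_41 (nat_lit 7) (nat_lit 0x34001200090004c00080000000000000000000000) (nat_lit 0x0) (nat_lit 0x400068000300040007000180004000000000) := T_41 (nat_lit 125) (nat_lit 126) (nat_lit 0) (nat_lit 8) (nat_lit 7) L112188 (by decide +kernel)
theorem L112190 : W_41 (nat_lit 8) (nat_lit 0x34001200090004800080000000000000000000000) (nat_lit 0x0) (nat_lit 0x400068000700060007000180004000000000) := T_41 (nat_lit 106) (nat_lit 89) (nat_lit 4) (nat_lit 5) (nat_lit 9) L112189 (by decide +kernel)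
theorem L112191 : W_41 (nat_lit 9) (nat_lit 0x34001200090004800000000000000000000000000) (nat_lit 0x0) (nat_lit 0x4000680017000e0007000180004000000000) := T_41 (nat_lit 91) (nat_lit 108) (nat_lit 6) (nat_lit 5) (nat_lit 9) L112190 (by decide +kernel)
theorem L112192 : W_41 (nat_lit 10) (nat_lit 0x30001200090004800000000000000000000000000) (nat_lit 0x0) (nat_lit 0x400038009c00460004000680017000e0007000180004000000000) := Q_41 (nat_lit 158) (C_41 L112108 (C_41 L112183 (C_41 L112071 (C_41 L112191 N_41)))) (by decide +kernel)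
theorem L112193 : W_41 (nat_lit 14) (nat_lit 0x30001200080004800000000000000000000000000) (nat_lit 0x0) (nat_lit 0x2000700038009c00470005c017e0017803fc007c0038000c000000000) := Q_41 (nat_lit 124) (C_41 L112043 (C_41 L112057 (C_41 L112072 (C_41 L111839 (C_41 L112077 (C_41 L112095 (C_41 L111805 (C_41 L112118 (C_41 L112159 (C_41 L112175 (C_41 L112192 (C_41 L112027 N_41)))))))))))) (by decide +kernel)
theorem L112194 : W_41 (nat_lit 15) (nat_lit 0x30001200080004000000000000000000000000000) (nat_lit 0x0) (nat_lit 0x2000700038009e0047c005e017f003f807fc0ffc01f8003c000000000) := Q_41 (nat_lit 107) (C_41 L111783 (C_41 L111787 (C_41 L111793 (C_41 L112044 (C_41 L112049 (C_41 L112193 N_41)))))) (by decide +kernel)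
theorem L112195 : W_41 (nat_lit 2) (nat_lit 0x100078001200080007000200010001c00000000000000) (nat_lit 0x0) (nat_lit 0x100000800400000000000000000000000) := D_41 (nat_lit 107) (nat_lit 128) (nat_lit 94) (nat_lit 3) (nat_lit 5) (nat_lit 6) (nat_lit 2) (nat_lit 5) (nat_lit 6) (by decide +kernel)
theorem L112196 : W_41 (nat_lit 3) (nat_lit 0x100078001200080005000200010001c00000000000000) (nat_lit 0x0) (nat_lit 0x140002800400000000000000000000000) := T_41 (nat_lit 109) (nat_lit 126) (nat_lit 5) (nat_lit 8) (nat_lit 3) L112195 (by decide +kernel)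
theorem L112197 : W_41 (nat_lit 4) (nat_lit 0x100078001200080005000200010000c00000000000000) (nat_lit 0x0) (nat_lit 0x140002800400000001000080000000000) := T_41 (nat_lit 60) (nat_lit 43) (nat_lit 6) (nat_lit 8) (nat_lit 6) L112196 (by decide +kernel)
theorem L112198 : W_41 (nat_lit 5) (nat_lit 0x78001200080005000200010000c00000000000000) (nat_lit 0x0) (nat_lit 0x180000000000140002800400000001000080000000000) := T_41 (nat_lit 176) (nat_lit 175) (nat_lit 1) (nat_lit 9) (nat_lit 9) L112197 (by decide +kernel)
theorem L112199 : W_41 (nat_lit 6) (nat_lit 0x78001200080005000200010000400000000000000) (nat_lit 0x0) (nat_lit 0x1800000000001400028004000000018000a0000000000) := T_41 (nat_lit 59) (nat_lit 41) (nat_lit 4) (nat_lit 8) (nat_lit 6) L112198 (by decide +kernel)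
theorem L112200 : W_41 (nat_lit 7) (nat_lit 0x70001200080005000200010000400000000000000) (nat_lit 0x0) (nat_lit 0x1800080004001400028004000000018000a0000000000) := T_41 (nat_lit 159) (nat_lit 142) (nat_lit 0) (nat_lit 9) (nat_lit 9) L112199 (by decide +kernel)
theorem L112201 : W_41 (nat_lit 8) (nat_lit 0x30001200080005000200010000400000000000000) (nat_lit 0x0) (nat_lit 0x9800480004001400028004000000018000a0000000000) := T_41 (nat_lit 162) (nat_lit 179) (nat_lit 7) (nat_lit 8) (nat_lit 6) L112200 (by decide +kernel)
theorem L112202 : W_41 (nat_lit 2) (nat_lit 0x30001200080007000200010000c00000000000000) (nat_lit 0x0) (nat_lit 0x100000800400000000000000000000000) := D_41 (nat_lit 107) (nat_lit 128) (nat_lit 94) (nat_lit 3) (nat_lit 5) (nat_lit 6) (nat_lit 2) (nat_lit 5) (nat_lit 6) (by decide +kernel)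
theorem L112203 : W_41 (nat_lit 3) (nat_lit 0x30001200080005000200010000c00000000000000) (nat_lit 0x0) (nat_lit 0x140002800400000000000000000000000) := T_41 (nat_lit 109) (nat_lit 126) (nat_lit 5) (nat_lit 8) (nat_lit 3) L112202 (by decide +kernel)
theorem L112204 : W_41 (nat_lit 4) (nat_lit 0x30001200080005000200010000400000000000000) (nat_lit 0x0) (nat_lit 0x140002800400000000800020000000000) := T_41 (nat_lit 59) (nat_lit 41) (nat_lit 4) (nat_lit 8) (nat_lit 6) L112203 (by decide +kernel)
theorem L112205 : W_41 (nat_lit 2) (nat_lit 0x8007c001200090005800200010001c00000000000000) (nat_lit 0x0) (nat_lit 0x8000400020000000000000000000000) := D_41 (nat_lit 106) (nat_lit 89) (nat_lit 123) (nat_lit 4) (nat_lit 5) (nat_lit 9) (nat_lit 4) (nat_lit 5) (nat_lit 10) (by decide +kernel)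
theorem L112206 : W_41 (nat_lit 3) (nat_lit 0x8007c001200090005000200010001c00000000000000) (nat_lit 0x0) (nat_lit 0x8000c000a0000000000000000000000) := T_41 (nat_lit 107) (nat_lit 91) (nat_lit 6) (nat_lit 5) (nat_lit 9) L112205 (by decide +kernel)
theorem L112207 : W_41 (nat_lit 4) (nat_lit 0x8007c001200080005000200010001c00000000000000) (nat_lit 0x0) (nat_lit 0x38000c000a0000000000000000000000) := T_41 (nat_lit 124) (nat_lit 125) (nat_lit 6) (nat_lit 5) (nat_lit 10) L112206 (by decide +kernel)
theorem L112208 : W_41 (nat_lit 5) (nat_lit 0x80078001200080005000200010001c00000000000000) (nat_lit 0x0) (nat_lit 0x40004000000038000c000a0000000000000000000000) := T_41 (nat_lit 158) (nat_lit 174) (nat_lit 1) (nat_lit 8) (nat_lit 9) L112207 (by decide +kernel)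
theorem L112209 : W_41 (nat_lit 6) (nat_lit 0x78001200080005000200010001c00000000000000) (nat_lit 0x0) (nat_lit 0x1c0004000000038000c000a0000000000000000000000) := T_41 (nat_lit 175) (nat_lit 176) (nat_lit 1) (nat_lit 9) (nat_lit 9) L112208 (by decide +kernel)
theorem L112210 : W_41 (nat_lit 7) (nat_lit 0x78001200080005000200010000c00000000000000) (nat_lit 0x0) (nat_lit 0x1c0004000000038000c000a0000001000080000000000) := T_41 (nat_lit 60) (nat_lit 43) (nat_lit 6) (nat_lit 8) (nat_lit 6) L112209 (by decide +kernel)
theorem L112211 : W_41 (nat_lit 8) (nat_lit 0x70001200080005000200010000c00000000000000) (nat_lit 0x0) (nat_lit 0x1c000c000400038000c000a0000001000080000000000) := T_41 (nat_lit 159) (nat_lit 142) (nat_lit 0) (nat_lit 9) (nat_lit 9) L112210 (by decide +kernel)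
theorem L112212 : W_41 (nat_lit 9) (nat_lit 0x30001200080005000200010000c00000000000000) (nat_lit 0x0) (nat_lit 0x9c004c000400038000c000a0000001000080000000000) := T_41 (nat_lit 162) (nat_lit 179) (nat_lit 7) (nat_lit 8) (nat_lit 6) L112211 (by decide +kernel)
theorem L112213 : W_41 (nat_lit 10) (nat_lit 0x30001200080005000200010000400000000000000) (nat_lit 0x0) (nat_lit 0x9c004c000400038000c000a00000018000a0000000000) := T_41 (nat_lit 59) (nat_lit 41) (nat_lit 4) (nat_lit 8) (nat_lit 6) L112212 (by decide +kernel)
theorem L112214 : W_41 (nat_lit 2) (nat_lit 0x8007c001200090005800200010000400000000000000) (nat_lit 0x0) (nat_lit 0x8000400020000000000000000000000) := D_41 (nat_lit 106) (nat_lit 89) (nat_lit 123) (nat_lit 4) (nat_lit 5) (nat_lit 9) (nat_lit 4) (nat_lit 5) (nat_lit 10) (by decide +kernel)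
theorem L112215 : W_41 (nat_lit 3) (nat_lit 0x8007c001200090005000200010000400000000000000) (nat_lit 0x0) (nat_lit 0x8000c000a0000000000000000000000) := T_41 (nat_lit 107) (nat_lit 91) (nat_lit 6) (nat_lit 5) (nat_lit 9) L112214 (by decide +kernel)
theorem L112216 : W_41 (nat_lit 4) (nat_lit 0x8007c001200080005000200010000400000000000000) (nat_lit 0x0) (nat_lit 0x38000c000a0000000000000000000000) := T_41 (nat_lit 124) (nat_lit 125) (nat_lit 6) (nat_lit 5) (nat_lit 10) L112215 (by decide +kernel)
theorem L112217 : W_41 (nat_lit 5) (nat_lit 0x80078001200080005000200010000400000000000000) (nat_lit 0x0) (nat_lit 0x40004000000038000c000a0000000000000000000000) := T_41 (nat_lit 158) (nat_lit 174) (nat_lit 1) (nat_lit 8) (nat_lit 9) L112216 (by decide +kernel)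
theorem L112218 : W_41 (nat_lit 6) (nat_lit 0x78001200080005000200010000400000000000000) (nat_lit 0x0) (nat_lit 0x1c0004000000038000c000a0000000000000000000000) := T_41 (nat_lit 175) (nat_lit 176) (nat_lit 1) (nat_lit 9) (nat_lit 9) L112217 (by decide +kernel)
theorem L112219 : W_41 (nat_lit 7) (nat_lit 0x70001200080005000200010000400000000000000) (nat_lit 0x0) (nat_lit 0x1c000c000400038000c000a0000000000000000000000) := T_41 (nat_lit 159) (nat_lit 142) (nat_lit 0) (nat_lit 9) (nat_lit 9) L112218 (by decide +kernel)
theorem L112220 : W_41 (nat_lit 8) (nat_lit 0x30001200080005000200010000400000000000000) (nat_lit 0x0) (nat_lit 0x9c004c000400038000c000a0000000000000000000000) := T_41 (nat_lit 162) (nat_lit 179) (nat_lit 7) (nat_lit 8) (nat_lit 6) L112219 (by decide +kernel)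
theorem L112221 : W_41 (nat_lit 2) (nat_lit 0x700016000e0005000280014001c00000000000000) (nat_lit 0x0) (nat_lit 0x40002000100000000000000) := D_41 (nat_lit 73) (nat_lit 56) (nat_lit 90) (nat_lit 4) (nat_lit 6) (nat_lit 7) (nat_lit 4) (nat_lit 6) (nat_lit 8) (by decide +kernel)
theorem L112222 : W_41 (nat_lit 3) (nat_lit 0x700016000e0005000280010001c00000000000000) (nat_lit 0x0) (nat_lit 0x10000000040006000100000000000000) := T_41 (nat_lit 74) (nat_lit 124) (nat_lit 5) (nat_lit 6) (nat_lit 4) L112221 (by decide +kernel)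
theorem L112223 : W_41 (nat_lit 4) (nat_lit 0x700016000e0005000200010001c00000000000000) (nat_lit 0x0) (nat_lit 0x40000000100000000c0006000100000000000000) := T_41 (nat_lit 91) (nat_lit 158) (nat_lit 5) (nat_lit 6) (nat_lit 5) L112222 (by decide +kernel)
theorem L112224 : W_41 (nat_lit 5) (nat_lit 0x700016000c0005000200010001c00000000000000) (nat_lit 0x0) (nat_lit 0x40000001300000000c0006000100000000000000) := T_41 (nat_lit 125) (nat_lit 128) (nat_lit 1) (nat_lit 9) (nat_lit 7) L112223 (by decide +kernel)
theorem L112225 : W_41 (nat_lit 6) (nat_lit 0x700016000c0005000200010000c00000000000000) (nat_lit 0x0) (nat_lit 0x40000001300000000c0006001100080000000000) := T_41 (nat_lit 60) (nat_lit 43) (nat_lit 6) (nat_lit 8) (nat_lit 6) L112224 (by decide +kernel)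
theorem L112226 : W_41 (nat_lit 7) (nat_lit 0x70001600080005000200010000c00000000000000) (nat_lit 0x0) (nat_lit 0x40000001700020000c0006001100080000000000) := T_41 (nat_lit 126) (nat_lit 109) (nat_lit 5) (nat_lit 8) (nat_lit 3) L112225 (by decide +kernel)
theorem L112227 : W_41 (nat_lit 8) (nat_lit 0x70001600080005000200010000400000000000000) (nat_lit 0x0) (nat_lit 0x40000001700020000c00060019000a0000000000) := T_41 (nat_lit 59) (nat_lit 41) (nat_lit 4) (nat_lit 8) (nat_lit 6) L112226 (by decide +kernel)
theorem L112228 : W_41 (nat_lit 9) (nat_lit 0x70001200080005000200010000400000000000000) (nat_lit 0x0) (nat_lit 0xc0004001700020000c00060019000a0000000000) := T_41 (nat_lit 142) (nat_lit 159) (nat_lit 0) (nat_lit 9) (nat_lit 9) L112227 (by decide +kernel)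
theorem L112229 : W_41 (nat_lit 10) (nat_lit 0x30001200080005000200010000400000000000000) (nat_lit 0x0) (nat_lit 0x80004c0004001700020000c00060019000a0000000000) := T_41 (nat_lit 162) (nat_lit 179) (nat_lit 7) (nat_lit 8) (nat_lit 6) L112228 (by decide +kernel)
theorem L112230 : W_41 (nat_lit 11) (nat_lit 0x30001200080004000200010000400000000000000) (nat_lit 0x0) (nat_lit 0x9c004c000400178003c004e00060019000a0000000000) := Q_41 (nat_lit 108) (C_41 L112201 (C_41 L112204 (C_41 L112213 (C_41 L112220 (C_41 L112229 N_41))))) (by decide +kernel)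
theorem L112231 : W_41 (nat_lit 12) (nat_lit 0x30001200080004000200010000000000000000000) (nat_lit 0x0) (nat_lit 0x9c004c000400178003c004e000e001d000a0000000000) := T_41 (nat_lit 58) (nat_lit 75) (nat_lit 4) (nat_lit 8) (nat_lit 7) L112230 (by decide +kernel)
theorem L112232 : W_41 (nat_lit 2) (nat_lit 0x100078001200080006800600010000800000000000000) (nat_lit 0x0) (nat_lit 0x8000400020000000000) := D_41 (nat_lit 58) (nat_lit 41) (nat_lit 75) (nat_lit 4) (nat_lit 8) (nat_lit 6) (nat_lit 4) (nat_lit 8) (nat_lit 7) (by decide +kernel)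
theorem L112233 : W_41 (nat_lit 3) (nat_lit 0x100078001200080006800600010000000000000000000) (nat_lit 0x0) (nat_lit 0x40000000000008000c00020000000000) := T_41 (nat_lit 59) (nat_lit 126) (nat_lit 5) (nat_lit 8) (nat_lit 3) L112232 (by decide +kernel)
theorem L112234 : W_41 (nat_lit 4) (nat_lit 0x78001200080006800600010000000000000000000) (nat_lit 0x0) (nat_lit 0x180000000000040000000000008000c00020000000000) := T_41 (nat_lit 176) (nat_lit 175) (nat_lit 1) (nat_lit 9) (nat_lit 9) L112233 (by decide +kernel)
theorem L112235 : W_41 (nat_lit 5) (nat_lit 0x78001200080004800600010000000000000000000) (nat_lit 0x0) (nat_lit 0x180000000000040003000000008000c00020000000000) := T_41 (nat_lit 109) (nat_lit 108) (nat_lit 2) (nat_lit 5) (nat_lit 6) L112234 (by decide +kernel)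
theorem L112236 : W_41 (nat_lit 6) (nat_lit 0x78001200080004800200010000000000000000000) (nat_lit 0x0) (nat_lit 0x180000000000040003000400028000c00020000000000) := T_41 (nat_lit 94) (nat_lit 77) (nat_lit 6) (nat_lit 8) (nat_lit 8) L112235 (by decide +kernel)
theorem L112237 : W_41 (nat_lit 7) (nat_lit 0x70001200080004800200010000000000000000000) (nat_lit 0x0) (nat_lit 0x180008000400040003000400028000c00020000000000) := T_41 (nat_lit 159) (nat_lit 142) (nat_lit 0) (nat_lit 9) (nat_lit 9) L112236 (by decide +kernel)
theorem L112238 : W_41 (nat_lit 8) (nat_lit 0x30001200080004800200010000000000000000000) (nat_lit 0x0) (nat_lit 0x980048000400040003000400028000c00020000000000) := T_41 (nat_lit 162) (nat_lit 179) (nat_lit 7) (nat_lit 8) (nat_lit 6) L112237 (by decide +kernel)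
theorem L112239 : W_41 (nat_lit 2) (nat_lit 0x30001200080006800600010000400000000000000) (nat_lit 0x0) (nat_lit 0x40000000000000000800020000000000) := D_41 (nat_lit 59) (nat_lit 126) (nat_lit 41) (nat_lit 5) (nat_lit 8) (nat_lit 3) (nat_lit 4) (nat_lit 8) (nat_lit 6) (by decide +kernel)
theorem L112240 : W_41 (nat_lit 3) (nat_lit 0x30001200080006800600010000000000000000000) (nat_lit 0x0) (nat_lit 0x40000000000008000c00020000000000) := T_41 (nat_lit 58) (nat_lit 75) (nat_lit 4) (nat_lit 8) (nat_lit 7) L112239 (by decide +kernel)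
theorem L112241 : W_41 (nat_lit 4) (nat_lit 0x30001200080004800600010000000000000000000) (nat_lit 0x0) (nat_lit 0x40003000000008000c00020000000000) := T_41 (nat_lit 109) (nat_lit 108) (nat_lit 2) (nat_lit 5) (nat_lit 6) L112240 (by decide +kernel)
theorem L112242 : W_41 (nat_lit 5) (nat_lit 0x30001200080004800200010000000000000000000) (nat_lit 0x0) (nat_lit 0x40003000400028000c00020000000000) := T_41 (nat_lit 94) (nat_lit 77) (nat_lit 6) (nat_lit 8) (nat_lit 8) L112241 (by decide +kernel)
theorem L112243 : W_41 (nat_lit 2) (nat_lit 0x8007c00120008000580160001a000000000000000000) (nat_lit 0x0) (nat_lit 0x30000000080000000000000000000000) := D_41 (nat_lit 124) (nat_lit 91) (nat_lit 125) (nat_lit 6) (nat_lit 5) (nat_lit 9) (nat_lit 6) (nat_lit 5) (nat_lit 10) (by decide +kernel)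
theorem L112244 : W_41 (nat_lit 3) (nat_lit 0x8007800120008000580160001a000000000000000000) (nat_lit 0x0) (nat_lit 0x40004000000030000000080000000000000000000000) := T_41 (nat_lit 158) (nat_lit 174) (nat_lit 1) (nat_lit 8) (nat_lit 9) L112243 (by decide +kernel)
theorem L112245 : W_41 (nat_lit 4) (nat_lit 0x7800120008000580160001a000000000000000000) (nat_lit 0x0) (nat_lit 0x1c0004000000030000000080000000000000000000000) := T_41 (nat_lit 175) (nat_lit 176) (nat_lit 1) (nat_lit 9) (nat_lit 9) L112244 (by decide +kernel)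
theorem L112246 : W_41 (nat_lit 5) (nat_lit 0x7800120008000580060001a000000000000000000) (nat_lit 0x0) (nat_lit 0x1c0004000000030000001880000000000000000000000) := T_41 (nat_lit 96) (nat_lit 95) (nat_lit 0) (nat_lit 11) (nat_lit 5) L112245 (by decide +kernel)
theorem L112247 : W_41 (nat_lit 6) (nat_lit 0x7800120008000480060001a000000000000000000) (nat_lit 0x0) (nat_lit 0x1c0004000000030003001880000000000000000000000) := T_41 (nat_lit 108) (nat_lit 109) (nat_lit 2) (nat_lit 5) (nat_lit 6) L112246 (by decide +kernel)
theorem L112248 : W_41 (nat_lit 7) (nat_lit 0x78001200080004800600018000000000000000000) (nat_lit 0x0) (nat_lit 0x1c0004000000030003001880006000000000000000000) := T_41 (nat_lit 73) (nat_lit 74) (nat_lit 3) (nat_lit 5) (nat_lit 4) L112247 (by decide +kernel)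
theorem L112249 : W_41 (nat_lit 8) (nat_lit 0x78001200080004800200018000000000000000000) (nat_lit 0x0) (nat_lit 0x1c0004000000030003001c80026000000000000000000) := T_41 (nat_lit 94) (nat_lit 77) (nat_lit 6) (nat_lit 8) (nat_lit 8) L112248 (by decide +kernel)
theorem L112250 : W_41 (nat_lit 9) (nat_lit 0x70001200080004800200018000000000000000000) (nat_lit 0x0) (nat_lit 0x1c000c000400030003001c80026000000000000000000) := T_41 (nat_lit 159) (nat_lit 142) (nat_lit 0) (nat_lit 9) (nat_lit 9) L112249 (by decide +kernel)
theorem L112251 : W_41 (nat_lit 10) (nat_lit 0x30001200080004800200018000000000000000000) (nat_lit 0x0) (nat_lit 0x9c004c000400030003001c80026000000000000000000) := T_41 (nat_lit 162) (nat_lit 179) (nat_lit 7) (nat_lit 8) (nat_lit 6) L112250 (by decide +kernel)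
theorem L112252 : W_41 (nat_lit 11) (nat_lit 0x30001200080004800200010000000000000000000) (nat_lit 0x0) (nat_lit 0x9c004c000400030003001c8002e000400000000000000) := T_41 (nat_lit 75) (nat_lit 58) (nat_lit 4) (nat_lit 8) (nat_lit 7) L112251 (by decide +kernel)
theorem L112253 : W_41 (nat_lit 2) (nat_lit 0x78001200090004800200018000000000000000000) (nat_lit 0x0) (nat_lit 0x180004000000000000000000000000000000000000000) := D_41 (nat_lit 176) (nat_lit 175) (nat_lit 158) (nat_lit 1) (nat_lit 9) (nat_lit 9) (nat_lit 7) (nat_lit 5) (nat_lit 6) (by decide +kernel)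
theorem L112254 : W_41 (nat_lit 3) (nat_lit 0x70001200090004800200018000000000000000000) (nat_lit 0x0) (nat_lit 0x18000c000400000000000000000000000000000000000) := T_41 (nat_lit 159) (nat_lit 142) (nat_lit 0) (nat_lit 9) (nat_lit 9) L112253 (by decide +kernel)
theorem L112255 : W_41 (nat_lit 4) (nat_lit 0x30001200090004800200018000000000000000000) (nat_lit 0x0) (nat_lit 0x98004c000400000000000000000000000000000000000) := T_41 (nat_lit 162) (nat_lit 179) (nat_lit 7) (nat_lit 8) (nat_lit 6) L112254 (by decide +kernel)
theorem L112256 : W_41 (nat_lit 5) (nat_lit 0x30001200090004800200010000000000000000000) (nat_lit 0x0) (nat_lit 0x98004c000400000000000000008000400000000000000) := T_41 (nat_lit 75) (nat_lit 58) (nat_lit 4) (nat_lit 8) (nat_lit 7) L112255 (by decide +kernel)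
theorem L112257 : W_41 (nat_lit 2) (nat_lit 0x78001200090004800200010000000000000000000) (nat_lit 0x0) (nat_lit 0x180004000000000000000000000000000000000000000) := D_41 (nat_lit 176) (nat_lit 175) (nat_lit 158) (nat_lit 1) (nat_lit 9) (nat_lit 9) (nat_lit 7) (nat_lit 5) (nat_lit 6) (by decide +kernel)
theorem L112258 : W_41 (nat_lit 3) (nat_lit 0x70001200090004800200010000000000000000000) (nat_lit 0x0) (nat_lit 0x18000c000400000000000000000000000000000000000) := T_41 (nat_lit 159) (nat_lit 142) (nat_lit 0) (nat_lit 9) (nat_lit 9) L112257 (by decide +kernel)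
theorem L112259 : W_41 (nat_lit 4) (nat_lit 0x30001200090004800200010000000000000000000) (nat_lit 0x0) (nat_lit 0x98004c000400000000000000000000000000000000000) := T_41 (nat_lit 162) (nat_lit 179) (nat_lit 7) (nat_lit 8) (nat_lit 6) L112258 (by decide +kernel)
theorem L112260 : W_41 (nat_lit 2) (nat_lit 0x3800120009000480166001c000000000000000000) (nat_lit 0x0) (nat_lit 0x100004000000000000400000000000000000000000000) := D_41 (nat_lit 158) (nat_lit 106) (nat_lit 176) (nat_lit 4) (nat_lit 5) (nat_lit 9) (nat_lit 7) (nat_lit 5) (nat_lit 6) (by decide +kernel)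
theorem L112261 : W_41 (nat_lit 3) (nat_lit 0x3000120009000480166001c000000000000000000) (nat_lit 0x0) (nat_lit 0x10000c000400000000400000000000000000000000000) := T_41 (nat_lit 159) (nat_lit 142) (nat_lit 7) (nat_lit 5) (nat_lit 5) L112260 (by decide +kernel)
theorem L112262 : W_41 (nat_lit 4) (nat_lit 0x3000120009000480164001c000000000000000000) (nat_lit 0x0) (nat_lit 0x10000c000400000000400020001000000000000000000) := T_41 (nat_lit 89) (nat_lit 72) (nat_lit 4) (nat_lit 5) (nat_lit 8) L112261 (by decide +kernel)
theorem L112263 : W_41 (nat_lit 5) (nat_lit 0x3000120009000480160001c000000000000000000) (nat_lit 0x0) (nat_lit 0x10000c0004000000004000e0001000000000000000000) := T_41 (nat_lit 90) (nat_lit 91) (nat_lit 6) (nat_lit 5) (nat_lit 8) L112262 (by decide +kernel)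
theorem L112264 : W_41 (nat_lit 6) (nat_lit 0x3000120009000480060001c000000000000000000) (nat_lit 0x0) (nat_lit 0x10000c0004000000004018e0001000000000000000000) := T_41 (nat_lit 96) (nat_lit 95) (nat_lit 0) (nat_lit 11) (nat_lit 5) L112263 (by decide +kernel)
theorem L112265 : W_41 (nat_lit 7) (nat_lit 0x30001200090004800600018000000000000000000) (nat_lit 0x0) (nat_lit 0x10000c0004000000004018e0007000000000000000000) := T_41 (nat_lit 74) (nat_lit 73) (nat_lit 3) (nat_lit 5) (nat_lit 4) L112264 (by decide +kernel)
theorem L112266 : W_41 (nat_lit 8) (nat_lit 0x30001200090004800600010000000000000000000) (nat_lit 0x0) (nat_lit 0x10000c0004000000004018e000f000400000000000000) := T_41 (nat_lit 75) (nat_lit 58) (nat_lit 4) (nat_lit 8) (nat_lit 7) L112265 (by decide +kernel)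
theorem L112267 : W_41 (nat_lit 9) (nat_lit 0x30001200090004800200010000000000000000000) (nat_lit 0x0) (nat_lit 0x10000c000400000000401ce002f000400000000000000) := T_41 (nat_lit 94) (nat_lit 77) (nat_lit 6) (nat_lit 8) (nat_lit 8) L112266 (by decide +kernel)
theorem L112268 : W_41 (nat_lit 2) (nat_lit 0x4007400120009000480166001c000000000000000000) (nat_lit 0x0) (nat_lit 0x180008000000000000000000000000000000000000000) := D_41 (nat_lit 159) (nat_lit 176) (nat_lit 175) (nat_lit 7) (nat_lit 5) (nat_lit 6) (nat_lit 1) (nat_lit 8) (nat_lit 9) (by decide +kernel)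
theorem L112269 : W_41 (nat_lit 3) (nat_lit 0x7400120009000480166001c000000000000000000) (nat_lit 0x0) (nat_lit 0x1c000a000000000000000000000000000000000000000) := T_41 (nat_lit 174) (nat_lit 157) (nat_lit 5) (nat_lit 5) (nat_lit 6) L112268 (by decide +kernel)
theorem L112270 : W_41 (nat_lit 4) (nat_lit 0x7000120009000480166001c000000000000000000) (nat_lit 0x0) (nat_lit 0x1c000e000000000000400000000000000000000000000) := T_41 (nat_lit 158) (nat_lit 106) (nat_lit 4) (nat_lit 5) (nat_lit 9) L112269 (by decide +kernel)
theorem L112271 : W_41 (nat_lit 5) (nat_lit 0x7000120009000480164001c000000000000000000) (nat_lit 0x0) (nat_lit 0x1c000e000000000000400020001000000000000000000) := T_41 (nat_lit 89) (nat_lit 72) (nat_lit 4) (nat_lit 5) (nat_lit 8) L112270 (by decide +kernel)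
theorem L112272 : W_41 (nat_lit 6) (nat_lit 0x7000120009000480160001c000000000000000000) (nat_lit 0x0) (nat_lit 0x1c000e0000000000004000e0001000000000000000000) := T_41 (nat_lit 90) (nat_lit 91) (nat_lit 6) (nat_lit 5) (nat_lit 8) L112271 (by decide +kernel)
theorem L112273 : W_41 (nat_lit 7) (nat_lit 0x7000120009000480060001c000000000000000000) (nat_lit 0x0) (nat_lit 0x1c000e0000000000004018e0001000000000000000000) := T_41 (nat_lit 96) (nat_lit 95) (nat_lit 0) (nat_lit 11) (nat_lit 5) L112272 (by decide +kernel)
theorem L112274 : W_41 (nat_lit 8) (nat_lit 0x70001200090004800600018000000000000000000) (nat_lit 0x0) (nat_lit 0x1c000e0000000000004018e0007000000000000000000) := T_41 (nat_lit 74) (nat_lit 73) (nat_lit 3) (nat_lit 5) (nat_lit 4) L112273 (by decide +kernel)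
theorem L112275 : W_41 (nat_lit 9) (nat_lit 0x70001200090004800200018000000000000000000) (nat_lit 0x0) (nat_lit 0x1c000e000000000000401ce0027000000000000000000) := T_41 (nat_lit 94) (nat_lit 77) (nat_lit 6) (nat_lit 8) (nat_lit 8) L112274 (by decide +kernel)
theorem L112276 : W_41 (nat_lit 10) (nat_lit 0x30001200090004800200018000000000000000000) (nat_lit 0x0) (nat_lit 0x9c004e000000000000401ce0027000000000000000000) := T_41 (nat_lit 162) (nat_lit 179) (nat_lit 7) (nat_lit 8) (nat_lit 6) L112275 (by decide +kernel)
theorem L112277 : W_41 (nat_lit 11) (nat_lit 0x30001200090004800200010000000000000000000) (nat_lit 0x0) (nat_lit 0x9c004e000000000000401ce002f000400000000000000) := T_41 (nat_lit 75) (nat_lit 58) (nat_lit 4) (nat_lit 8) (nat_lit 7) L112276 (by decide +kernel)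
theorem L112278 : W_41 (nat_lit 2) (nat_lit 0x7000160009000480164001a000000000000000000) (nat_lit 0x0) (nat_lit 0x20001000080000000000000) := D_41 (nat_lit 72) (nat_lit 89) (nat_lit 55) (nat_lit 4) (nat_lit 5) (nat_lit 8) (nat_lit 4) (nat_lit 5) (nat_lit 7) (by decide +kernel)
theorem L112279 : W_41 (nat_lit 3) (nat_lit 0x7000160009000480160001a000000000000000000) (nat_lit 0x0) (nat_lit 0x20000000060001000080000000000000) := T_41 (nat_lit 90) (nat_lit 125) (nat_lit 7) (nat_lit 5) (nat_lit 4) L112278 (by decide +kernel)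
theorem L112280 : W_41 (nat_lit 4) (nat_lit 0x7000120009000480160001a000000000000000000) (nat_lit 0x0) (nat_lit 0x8000400020000000060001000080000000000000) := T_41 (nat_lit 142) (nat_lit 159) (nat_lit 0) (nat_lit 9) (nat_lit 9) L112279 (by decide +kernel)
theorem L112281 : W_41 (nat_lit 5) (nat_lit 0x3000120009000480160001a000000000000000000) (nat_lit 0x0) (nat_lit 0x800048000400020000000060001000080000000000000) := T_41 (nat_lit 162) (nat_lit 179) (nat_lit 7) (nat_lit 8) (nat_lit 6) L112280 (by decide +kernel)
theorem L112282 : W_41 (nat_lit 6) (nat_lit 0x3000120009000480060001a000000000000000000) (nat_lit 0x0) (nat_lit 0x800048000400020000001860001000080000000000000) := T_41 (nat_lit 96) (nat_lit 95) (nat_lit 0) (nat_lit 11) (nat_lit 5) L112281 (by decide +kernel)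
theorem L112283 : W_41 (nat_lit 7) (nat_lit 0x30001200090004800600018000000000000000000) (nat_lit 0x0) (nat_lit 0x800048000400020000001860007000080000000000000) := T_41 (nat_lit 73) (nat_lit 74) (nat_lit 3) (nat_lit 5) (nat_lit 4) L112282 (by decide +kernel)
theorem L112284 : W_41 (nat_lit 8) (nat_lit 0x30001200090004800600010000000000000000000) (nat_lit 0x0) (nat_lit 0x80004800040002000000186000f000480000000000000) := T_41 (nat_lit 75) (nat_lit 58) (nat_lit 4) (nat_lit 8) (nat_lit 7) L112283 (by decide +kernel)
theorem L112285 : W_41 (nat_lit 9) (nat_lit 0x30001200090004800200010000000000000000000) (nat_lit 0x0) (nat_lit 0x800048000400020000001c6002f000480000000000000) := T_41 (nat_lit 94) (nat_lit 77) (nat_lit 6) (nat_lit 8) (nat_lit 8) L112284 (by decide +kernel)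
theorem L112286 : W_41 (nat_lit 2) (nat_lit 0x800740012000d0004c00600010000c00000000000000) (nat_lit 0x0) (nat_lit 0x800040002000000000000000000000000000000000000000) := D_41 (nat_lit 174) (nat_lit 157) (nat_lit 191) (nat_lit 5) (nat_lit 5) (nat_lit 6) (nat_lit 5) (nat_lit 5) (nat_lit 7) (by decide +kernel)
theorem L112287 : W_41 (nat_lit 3) (nat_lit 0x740012000d0004c00600010000c00000000000000) (nat_lit 0x0) (nat_lit 0x8000c0002000000008000000000000000000000000000000) := T_41 (nat_lit 175) (nat_lit 123) (nat_lit 4) (nat_lit 5) (nat_lit 10) L112286 (by decide +kernel)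
theorem L112288 : W_41 (nat_lit 4) (nat_lit 0x700012000d0004c00600010000c00000000000000) (nat_lit 0x0) (nat_lit 0x8000c0006000000008000000020000000000000000000000) := T_41 (nat_lit 158) (nat_lit 89) (nat_lit 4) (nat_lit 5) (nat_lit 9) L112287 (by decide +kernel)
theorem L112289 : W_41 (nat_lit 5) (nat_lit 0x700012000d0004800600010000c00000000000000) (nat_lit 0x0) (nat_lit 0x8000c0006000000028000400020000000000000000000000) := T_41 (nat_lit 106) (nat_lit 125) (nat_lit 0) (nat_lit 8) (nat_lit 7) L112288 (by decide +kernel)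
theorem L112290 : W_41 (nat_lit 6) (nat_lit 0x70001200090004800600010000c00000000000000) (nat_lit 0x0) (nat_lit 0x8000c0006000000068002400020000000000000000000000) := T_41 (nat_lit 126) (nat_lit 109) (nat_lit 5) (nat_lit 8) (nat_lit 3) L112289 (by decide +kernel)
theorem L112291 : W_41 (nat_lit 7) (nat_lit 0x70001200090004800600010000400000000000000) (nat_lit 0x0) (nat_lit 0x8000c0006000000068002400020000000800020000000000) := T_41 (nat_lit 59) (nat_lit 41) (nat_lit 4) (nat_lit 8) (nat_lit 6) L112290 (by decide +kernel)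
theorem L112292 : W_41 (nat_lit 8) (nat_lit 0x70001200090004800600010000000000000000000) (nat_lit 0x0) (nat_lit 0x8000c0006000000068002400020008000c00020000000000) := T_41 (nat_lit 58) (nat_lit 75) (nat_lit 4) (nat_lit 8) (nat_lit 7) L112291 (by decide +kernel)
theorem L112293 : W_41 (nat_lit 9) (nat_lit 0x70001200090004800200010000000000000000000) (nat_lit 0x0) (nat_lit 0x8000c0006000000068002400420028000c00020000000000) := T_41 (nat_lit 94) (nat_lit 77) (nat_lit 6) (nat_lit 8) (nat_lit 8) L112292 (by decide +kernel)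
theorem L112294 : W_41 (nat_lit 10) (nat_lit 0x30001200090004800200010000000000000000000) (nat_lit 0x0) (nat_lit 0x8008c0046000000068002400420028000c00020000000000) := T_41 (nat_lit 162) (nat_lit 179) (nat_lit 7) (nat_lit 8) (nat_lit 6) L112293 (by decide +kernel)
theorem L112295 : W_41 (nat_lit 12) (nat_lit 0x30001200080004800200010000000000000000000) (nat_lit 0x0) (nat_lit 0x8009c004e000400078002401ce002f000c80020000000000) := Q_41 (nat_lit 124) (C_41 L112256 (C_41 L112259 (C_41 L112267 (C_41 L112277 (C_41 L112285 (C_41 L112294 N_41)))))) (by decide +kernel)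
theorem L112296 : W_41 (nat_lit 2) (nat_lit 0x100078001200080006800200010000c00000000000000) (nat_lit 0x0) (nat_lit 0x100001000400000000000000000000000) := D_41 (nat_lit 108) (nat_lit 128) (nat_lit 94) (nat_lit 3) (nat_lit 5) (nat_lit 6) (nat_lit 2) (nat_lit 5) (nat_lit 6) (by decide +kernel)
theorem L112297 : W_41 (nat_lit 3) (nat_lit 0x100078001200080004800200010000c00000000000000) (nat_lit 0x0) (nat_lit 0x140003000400000000000000000000000) := T_41 (nat_lit 109) (nat_lit 126) (nat_lit 5) (nat_lit 8) (nat_lit 3) L112296 (by decide +kernel)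
theorem L112298 : W_41 (nat_lit 4) (nat_lit 0x78001200080004800200010000c00000000000000) (nat_lit 0x0) (nat_lit 0x180000000000140003000400000000000000000000000) := T_41 (nat_lit 176) (nat_lit 175) (nat_lit 1) (nat_lit 9) (nat_lit 9) L112297 (by decide +kernel)
theorem L112299 : W_41 (nat_lit 5) (nat_lit 0x78001200080004800200010000400000000000000) (nat_lit 0x0) (nat_lit 0x180000000000140003000400000000800020000000000) := T_41 (nat_lit 59) (nat_lit 41) (nat_lit 4) (nat_lit 8) (nat_lit 6) L112298 (by decide +kernel)
theorem L112300 : W_41 (nat_lit 6) (nat_lit 0x70001200080004800200010000400000000000000) (nat_lit 0x0) (nat_lit 0x180008000400140003000400000000800020000000000) := T_41 (nat_lit 159) (nat_lit 142) (nat_lit 0) (nat_lit 9) (nat_lit 9) L112299 (by decide +kernel)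
theorem L112301 : W_41 (nat_lit 7) (nat_lit 0x30001200080004800200010000400000000000000) (nat_lit 0x0) (nat_lit 0x980048000400140003000400000000800020000000000) := T_41 (nat_lit 162) (nat_lit 179) (nat_lit 7) (nat_lit 8) (nat_lit 6) L112300 (by decide +kernel)
theorem L112302 : W_41 (nat_lit 8) (nat_lit 0x30001200080004800200010000000000000000000) (nat_lit 0x0) (nat_lit 0x980048000400140003000400008000c00020000000000) := T_41 (nat_lit 58) (nat_lit 75) (nat_lit 4) (nat_lit 8) (nat_lit 7) L112301 (by decide +kernel)
theorem L112303 : W_41 (nat_lit 2) (nat_lit 0x8007c001200080005800600010000000000000000000) (nat_lit 0x0) (nat_lit 0x30000000080000000000000000000000) := D_41 (nat_lit 124) (nat_lit 91) (nat_lit 125) (nat_lit 6) (nat_lit 5) (nat_lit 9) (nat_lit 6) (nat_lit 5) (nat_lit 10) (by decide +kernel)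
theorem L112304 : W_41 (nat_lit 3) (nat_lit 0x80078001200080005800600010000000000000000000) (nat_lit 0x0) (nat_lit 0x40004000000030000000080000000000000000000000) := T_41 (nat_lit 158) (nat_lit 174) (nat_lit 1) (nat_lit 8) (nat_lit 9) L112303 (by decide +kernel)
theorem L112305 : W_41 (nat_lit 4) (nat_lit 0x78001200080005800600010000000000000000000) (nat_lit 0x0) (nat_lit 0x1c0004000000030000000080000000000000000000000) := T_41 (nat_lit 175) (nat_lit 176) (nat_lit 1) (nat_lit 9) (nat_lit 9) L112304 (by decide +kernel)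
theorem L112306 : W_41 (nat_lit 5) (nat_lit 0x78001200080004800600010000000000000000000) (nat_lit 0x0) (nat_lit 0x1c0004000000030003000080000000000000000000000) := T_41 (nat_lit 108) (nat_lit 109) (nat_lit 2) (nat_lit 5) (nat_lit 6) L112305 (by decide +kernel)
theorem L112307 : W_41 (nat_lit 6) (nat_lit 0x78001200080004800200010000000000000000000) (nat_lit 0x0) (nat_lit 0x1c0004000000030003000480020000000000000000000) := T_41 (nat_lit 94) (nat_lit 77) (nat_lit 6) (nat_lit 8) (nat_lit 8) L112306 (by decide +kernel)
theorem L112308 : W_41 (nat_lit 7) (nat_lit 0x70001200080004800200010000000000000000000) (nat_lit 0x0) (nat_lit 0x1c000c000400030003000480020000000000000000000) := T_41 (nat_lit 159) (nat_lit 142) (nat_lit 0) (nat_lit 9) (nat_lit 9) L112307 (by decide +kernel)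
theorem L112309 : W_41 (nat_lit 8) (nat_lit 0x30001200080004800200010000000000000000000) (nat_lit 0x0) (nat_lit 0x9c004c000400030003000480020000000000000000000) := T_41 (nat_lit 162) (nat_lit 179) (nat_lit 7) (nat_lit 8) (nat_lit 6) L112308 (by decide +kernel)
theorem L112310 : W_41 (nat_lit 2) (nat_lit 0x10007800120009000480168001c000000000000000000) (nat_lit 0x0) (nat_lit 0x20001000000000000200000000000000) := D_41 (nat_lit 108) (nat_lit 125) (nat_lit 57) (nat_lit 5) (nat_lit 6) (nat_lit 4) (nat_lit 5) (nat_lit 6) (nat_lit 3) (by decide +kernel)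
theorem L112311 : W_41 (nat_lit 3) (nat_lit 0x10007800120009000480160001c000000000000000000) (nat_lit 0x0) (nat_lit 0x200010000c0000000200000000000000) := T_41 (nat_lit 91) (nat_lit 90) (nat_lit 6) (nat_lit 5) (nat_lit 8) L112310 (by decide +kernel)
theorem L112312 : W_41 (nat_lit 4) (nat_lit 0x10007800120008000480160001c000000000000000000) (nat_lit 0x0) (nat_lit 0x40000000300010000c0000000200000000000000) := T_41 (nat_lit 124) (nat_lit 158) (nat_lit 7) (nat_lit 5) (nat_lit 6) L112311 (by decide +kernel)
theorem L112313 : W_41 (nat_lit 5) (nat_lit 0x7800120008000480160001c000000000000000000) (nat_lit 0x0) (nat_lit 0x1800040000000300010000c0000000200000000000000) := T_41 (nat_lit 176) (nat_lit 175) (nat_lit 1) (nat_lit 9) (nat_lit 9) L112312 (by decide +kernel)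
theorem L112314 : W_41 (nat_lit 6) (nat_lit 0x7000120008000480160001c000000000000000000) (nat_lit 0x0) (nat_lit 0x18000c0004000300010000c0000000200000000000000) := T_41 (nat_lit 159) (nat_lit 142) (nat_lit 0) (nat_lit 9) (nat_lit 9) L112313 (by decide +kernel)
theorem L112315 : W_41 (nat_lit 7) (nat_lit 0x3000120008000480160001c000000000000000000) (nat_lit 0x0) (nat_lit 0x98004c0004000300010000c0000000200000000000000) := T_41 (nat_lit 162) (nat_lit 179) (nat_lit 7) (nat_lit 8) (nat_lit 6) L112314 (by decide +kernel)
theorem L112316 : W_41 (nat_lit 8) (nat_lit 0x3000120008000480060001c000000000000000000) (nat_lit 0x0) (nat_lit 0x98004c0004000300010018c0000000200000000000000) := T_41 (nat_lit 96) (nat_lit 95) (nat_lit 0) (nat_lit 11) (nat_lit 5) L112315 (by decide +kernel)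
theorem L112317 : W_41 (nat_lit 9) (nat_lit 0x30001200080004800600018000000000000000000) (nat_lit 0x0) (nat_lit 0x98004c0004000300010018c0006000200000000000000) := T_41 (nat_lit 74) (nat_lit 73) (nat_lit 3) (nat_lit 5) (nat_lit 4) L112316 (by decide +kernel)
theorem L112318 : W_41 (nat_lit 10) (nat_lit 0x30001200080004800600010000000000000000000) (nat_lit 0x0) (nat_lit 0x98004c0004000300010018c000e000600000000000000) := T_41 (nat_lit 75) (nat_lit 58) (nat_lit 4) (nat_lit 8) (nat_lit 7) L112317 (by decide +kernel)
theorem L112319 : W_41 (nat_lit 11) (nat_lit 0x30001200080004800200010000000000000000000) (nat_lit 0x0) (nat_lit 0x98004c000400030001001cc002e000600000000000000) := T_41 (nat_lit 94) (nat_lit 77) (nat_lit 6) (nat_lit 8) (nat_lit 8) L112318 (by decide +kernel)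
theorem L112320 : W_41 (nat_lit 2) (nat_lit 0x100078001200090006800200010000c00000000000000) (nat_lit 0x0) (nat_lit 0x108001000000000000000000000000000) := D_41 (nat_lit 108) (nat_lit 128) (nat_lit 123) (nat_lit 3) (nat_lit 5) (nat_lit 6) (nat_lit 1) (nat_lit 8) (nat_lit 6) (by decide +kernel)
theorem L112321 : W_41 (nat_lit 3) (nat_lit 0x100078001200090004800200010000c00000000000000) (nat_lit 0x0) (nat_lit 0x148003000000000000000000000000000) := T_41 (nat_lit 109) (nat_lit 126) (nat_lit 5) (nat_lit 8) (nat_lit 3) L112320 (by decide +kernel)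
theorem L112322 : W_41 (nat_lit 4) (nat_lit 0x100078001200080004800200010000c00000000000000) (nat_lit 0x0) (nat_lit 0x4000000158003000000000000000000000000000) := T_41 (nat_lit 124) (nat_lit 158) (nat_lit 7) (nat_lit 5) (nat_lit 6) L112321 (by decide +kernel)
theorem L112323 : W_41 (nat_lit 5) (nat_lit 0x100078001200080004800200010000400000000000000) (nat_lit 0x0) (nat_lit 0x4000000158003000000000000800020000000000) := T_41 (nat_lit 59) (nat_lit 41) (nat_lit 4) (nat_lit 8) (nat_lit 6) L112322 (by decide +kernel)
theorem L112324 : W_41 (nat_lit 6) (nat_lit 0x78001200080004800200010000400000000000000) (nat_lit 0x0) (nat_lit 0x180004000000158003000000000000800020000000000) := T_41 (nat_lit 176) (nat_lit 175) (nat_lit 1) (nat_lit 9) (nat_lit 9) L112323 (by decide +kernel)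
theorem L112325 : W_41 (nat_lit 7) (nat_lit 0x78001200080004800200010000000000000000000) (nat_lit 0x0) (nat_lit 0x180004000000158003000000008000c00020000000000) := T_41 (nat_lit 58) (nat_lit 75) (nat_lit 4) (nat_lit 8) (nat_lit 7) L112324 (by decide +kernel)
theorem L112326 : W_41 (nat_lit 8) (nat_lit 0x70001200080004800200010000000000000000000) (nat_lit 0x0) (nat_lit 0x18000c000400158003000000008000c00020000000000) := T_41 (nat_lit 159) (nat_lit 142) (nat_lit 0) (nat_lit 9) (nat_lit 9) L112325 (by decide +kernel)
theorem L112327 : W_41 (nat_lit 9) (nat_lit 0x30001200080004800200010000000000000000000) (nat_lit 0x0) (nat_lit 0x98004c000400158003000000008000c00020000000000) := T_41 (nat_lit 162) (nat_lit 179) (nat_lit 7) (nat_lit 8) (nat_lit 6) L112326 (by decide +kernel)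
theorem L112328 : W_41 (nat_lit 13) (nat_lit 0x30001200080004000200010000000000000000000) (nat_lit 0x0) (nat_lit 0x8009c004e000400178003c01ce002f000e80020000000000) := Q_41 (nat_lit 107) (C_41 L112238 (C_41 L112242 (C_41 L112252 (C_41 L112295 (C_41 L112302 (C_41 L112309 (C_41 L112319 (C_41 L112327 N_41)))))))) (by decide +kernel)
theorem L112329 : W_41 (nat_lit 14) (nat_lit 0x30001200080004000200000000000000000000000) (nat_lit 0x0) (nat_lit 0x8009c004e000400178003c01ce003f001f800a0000000000) := Q_41 (nat_lit 76) (C_41 L112231 (C_41 L110943 (C_41 L110940 (C_41 L112328 N_41)))) (by decide +kernel)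
theorem L112330 : W_41 (nat_lit 15) (nat_lit 0x30001200080004000000000000000000000000000) (nat_lit 0x0) (nat_lit 0x8009c004e000400778003c01fe003f001f800a0000000000) := Q_41 (nat_lit 93) (C_41 L111389 (C_41 L111635 (C_41 L110939 (C_41 L112329 N_41)))) (by decide +kernel)
theorem L112331 : W_41 (nat_lit 16) (nat_lit 0x30001000080004000000000000000000000000000) (nat_lit 0x0) (nat_lit 0xa00070003c009e004fe007e077f003f81ffc0ffc01f800bc000000000) := Q_41 (nat_lit 141) (C_41 L110938 (C_41 L111390 (C_41 L111394 (C_41 L111616 (C_41 L111636 (C_41 L112194 (C_41 L112330 N_41))))))) (by decide +kernel)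
theorem L112332 : W_41 (nat_lit 17) (nat_lit 0x20001000080004000000000000000000000000000) (nat_lit 0x0) (nat_lit 0xa00070003c00be005fe007e077f003f81ffc0ffc01f800bc000000000) := T_41 (nat_lit 160) (nat_lit 177) (nat_lit 5) (nat_lit 8) (nat_lit 6) L112331 (by decide +kernel)
theorem L112333 : W_41 (nat_lit 2) (nat_lit 0x20001000080004000000020000000000000000000) (nat_lit 0x0) (nat_lit 0x8000600000000000000000000000) := D_41 (nat_lit 94) (nat_lit 93) (nat_lit 111) (nat_lit 6) (nat_lit 8) (nat_lit 8) (nat_lit 6) (nat_lit 8) (nat_lit 9) (by decide +kernel)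
theorem L112334 : W_41 (nat_lit 2) (nat_lit 0x20001000380004000000020000000000000000000) (nat_lit 0x0) (nat_lit 0x400002000100000000000000000000000) := D_41 (nat_lit 109) (nat_lit 130) (nat_lit 92) (nat_lit 0) (nat_lit 11) (nat_lit 7) (nat_lit 4) (nat_lit 8) (nat_lit 9) (by decide +kernel)
theorem L112335 : W_41 (nat_lit 2) (nat_lit 0x6000100038000c000000020000000000000000000) (nat_lit 0x0) (nat_lit 0xc00002000000000000000000000000000) := D_41 (nat_lit 130) (nat_lit 131) (nat_lit 109) (nat_lit 0) (nat_lit 12) (nat_lit 7) (nat_lit 0) (nat_lit 11) (nat_lit 7) (by decide +kernel)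
theorem L112336 : W_41 (nat_lit 3) (nat_lit 0x60001000380004000000020000000000000000000) (nat_lit 0x0) (nat_lit 0xc0000a000400000000000000000000000) := T_41 (nat_lit 111) (nat_lit 94) (nat_lit 6) (nat_lit 8) (nat_lit 9) L112335 (by decide +kernel)
theorem L112337 : W_41 (nat_lit 4) (nat_lit 0x20001000380004000000020000000000000000000) (nat_lit 0x0) (nat_lit 0x800040000000c0000a000400000000000000000000000) := T_41 (nat_lit 162) (nat_lit 179) (nat_lit 7) (nat_lit 8) (nat_lit 6) L112336 (by decide +kernel)
theorem L112338 : W_41 (nat_lit 2) (nat_lit 0x300010003c0014000000020000000000000000000) (nat_lit 0x0) (nat_lit 0x20008000400000000000000000000000) := D_41 (nat_lit 111) (nat_lit 125) (nat_lit 94) (nat_lit 2) (nat_lit 6) (nat_lit 7) (nat_lit 6) (nat_lit 8) (nat_lit 9) (by decide +kernel)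
theorem L112339 : W_41 (nat_lit 3) (nat_lit 0x30001000380014000000020000000000000000000) (nat_lit 0x0) (nat_lit 0x60028000400000000000000000000000) := T_41 (nat_lit 126) (nat_lit 113) (nat_lit 2) (nat_lit 7) (nat_lit 7) L112338 (by decide +kernel)
theorem L112340 : W_41 (nat_lit 4) (nat_lit 0x20001000380014000000020000000000000000000) (nat_lit 0x0) (nat_lit 0x200010000000060028000400000000000000000000000) := T_41 (nat_lit 160) (nat_lit 177) (nat_lit 5) (nat_lit 8) (nat_lit 6) L112339 (by decide +kernel)
theorem L112341 : W_41 (nat_lit 2) (nat_lit 0x200010003c0014000000020000000000000000000) (nat_lit 0x0) (nat_lit 0x20008000400000000000000000000000) := D_41 (nat_lit 111) (nat_lit 125) (nat_lit 94) (nat_lit 2) (nat_lit 6) (nat_lit 7) (nat_lit 6) (nat_lit 8) (nat_lit 9) (by decide +kernel)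
theorem L112342 : W_41 (nat_lit 3) (nat_lit 0x20001000380014000000020000000000000000000) (nat_lit 0x0) (nat_lit 0x60028000400000000000000000000000) := T_41 (nat_lit 126) (nat_lit 113) (nat_lit 2) (nat_lit 7) (nat_lit 7) L112341 (by decide +kernel)
theorem L112343 : W_41 (nat_lit 2) (nat_lit 0x7000100038001e000800020000000000000000000) (nat_lit 0x0) (nat_lit 0x40003000000000000000) := D_41 (nat_lit 78) (nat_lit 60) (nat_lit 61) (nat_lit 4) (nat_lit 10) (nat_lit 7) (nat_lit 5) (nat_lit 10) (nat_lit 3) (by decide +kernel)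
theorem L112344 : W_41 (nat_lit 3) (nat_lit 0x7000100038001e000000020000000000000000000) (nat_lit 0x0) (nat_lit 0x1800040003000000000000000) := T_41 (nat_lit 95) (nat_lit 96) (nat_lit 2) (nat_lit 7) (nat_lit 6) L112343 (by decide +kernel)
theorem L112345 : W_41 (nat_lit 4) (nat_lit 0x70001000380016000000020000000000000000000) (nat_lit 0x0) (nat_lit 0x8001c00040003000000000000000) := T_41 (nat_lit 111) (nat_lit 94) (nat_lit 6) (nat_lit 8) (nat_lit 9) L112344 (by decide +kernel)
theorem L112346 : W_41 (nat_lit 5) (nat_lit 0x70001000380014000000020000000000000000000) (nat_lit 0x0) (nat_lit 0xa001d00040003000000000000000) := T_41 (nat_lit 109) (nat_lit 92) (nat_lit 4) (nat_lit 8) (nat_lit 9) L112345 (by decide +kernel)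
theorem L112347 : W_41 (nat_lit 6) (nat_lit 0x30001000380014000000020000000000000000000) (nat_lit 0x0) (nat_lit 0x80004000000000000a001d00040003000000000000000) := T_41 (nat_lit 162) (nat_lit 179) (nat_lit 7) (nat_lit 8) (nat_lit 6) L112346 (by decide +kernel)
theorem L112348 : W_41 (nat_lit 7) (nat_lit 0x20001000380014000000020000000000000000000) (nat_lit 0x0) (nat_lit 0xa0005000000000000a001d00040003000000000000000) := T_41 (nat_lit 160) (nat_lit 177) (nat_lit 5) (nat_lit 8) (nat_lit 6) L112347 (by decide +kernel)
theorem L112349 : W_41 (nat_lit 2) (nat_lit 0x600050003c0016000800060000000000000000000) (nat_lit 0x0) (nat_lit 0x1000080004000000000000000) := D_41 (nat_lit 79) (nat_lit 96) (nat_lit 62) (nat_lit 6) (nat_lit 10) (nat_lit 8) (nat_lit 6) (nat_lit 10) (nat_lit 7) (by decide +kernel)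
theorem L112350 : W_41 (nat_lit 3) (nat_lit 0x600050003c0016000800020000000000000000000) (nat_lit 0x0) (nat_lit 0x10000c0005000000000000000) := T_41 (nat_lit 78) (nat_lit 60) (nat_lit 4) (nat_lit 10) (nat_lit 7) L112349 (by decide +kernel)
theorem L112351 : W_41 (nat_lit 4) (nat_lit 0x600050003c0016000000020000000000000000000) (nat_lit 0x0) (nat_lit 0x1c000c0005000000000000000) := T_41 (nat_lit 95) (nat_lit 94) (nat_lit 4) (nat_lit 10) (nat_lit 8) L112350 (by decide +kernel)
theorem L112352 : W_41 (nat_lit 5) (nat_lit 0x600050003c0014000000020000000000000000000) (nat_lit 0x0) (nat_lit 0x2001d000c0005000000000000000) := T_41 (nat_lit 109) (nat_lit 92) (nat_lit 4) (nat_lit 8) (nat_lit 9) L112351 (by decide +kernel)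
theorem L112353 : W_41 (nat_lit 6) (nat_lit 0x600010003c0014000000020000000000000000000) (nat_lit 0x0) (nat_lit 0xc000000002001d000c0005000000000000000) := T_41 (nat_lit 146) (nat_lit 147) (nat_lit 3) (nat_lit 7) (nat_lit 7) L112352 (by decide +kernel)
theorem L112354 : W_41 (nat_lit 7) (nat_lit 0x200010003c0014000000020000000000000000000) (nat_lit 0x0) (nat_lit 0x80004000c000000002001d000c0005000000000000000) := T_41 (nat_lit 162) (nat_lit 179) (nat_lit 7) (nat_lit 8) (nat_lit 6) L112353 (by decide +kernel)
theorem L112355 : W_41 (nat_lit 8) (nat_lit 0x20001000380014000000020000000000000000000) (nat_lit 0x0) (nat_lit 0x80004000c000040022001d000c0005000000000000000) := T_41 (nat_lit 126) (nat_lit 113) (nat_lit 2) (nat_lit 7) (nat_lit 7) L112354 (by decide +kernel)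
theorem L112356 : W_41 (nat_lit 2) (nat_lit 0x200012003e0016000000020000000000000000000) (nat_lit 0x0) (nat_lit 0x100018000000000000000000000000000000) := D_41 (nat_lit 124) (nat_lit 123) (nat_lit 140) (nat_lit 2) (nat_lit 4) (nat_lit 7) (nat_lit 1) (nat_lit 8) (nat_lit 7) (by decide +kernel)
theorem L112357 : W_41 (nat_lit 3) (nat_lit 0x200012003e0014000000020000000000000000000) (nat_lit 0x0) (nat_lit 0x100018002000100000000000000000000000) := T_41 (nat_lit 109) (nat_lit 92) (nat_lit 4) (nat_lit 8) (nat_lit 9) L112356 (by decide +kernel)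
theorem L112358 : W_41 (nat_lit 4) (nat_lit 0x200010003e0014000000020000000000000000000) (nat_lit 0x0) (nat_lit 0x700018002000100000000000000000000000) := T_41 (nat_lit 141) (nat_lit 142) (nat_lit 1) (nat_lit 9) (nat_lit 7) L112357 (by decide +kernel)
theorem L112359 : W_41 (nat_lit 5) (nat_lit 0x200010003c0014000000020000000000000000000) (nat_lit 0x0) (nat_lit 0x70003800a000100000000000000000000000) := T_41 (nat_lit 125) (nat_lit 111) (nat_lit 2) (nat_lit 6) (nat_lit 7) L112358 (by decide +kernel)
theorem L112360 : W_41 (nat_lit 6) (nat_lit 0x20001000380014000000020000000000000000000) (nat_lit 0x0) (nat_lit 0x70007802a000100000000000000000000000) := T_41 (nat_lit 126) (nat_lit 113) (nat_lit 2) (nat_lit 7) (nat_lit 7) L112359 (by decide +kernel)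
theorem L112361 : W_41 (nat_lit 9) (nat_lit 0x20001000380004000000020000000000000000000) (nat_lit 0x0) (nat_lit 0xa0005000c70007803a001d000c0007000000000000000) := Q_41 (nat_lit 112) (C_41 L112340 (C_41 L112342 (C_41 L112348 (C_41 L112355 (C_41 L112360 N_41))))) (by decide +kernel)
theorem L112362 : W_41 (nat_lit 2) (nat_lit 0x7000900078000c000000020000000000000000000) (nat_lit 0x0) (nat_lit 0x80004000040000000000000000000000000000000) := D_41 (nat_lit 146) (nat_lit 126) (nat_lit 163) (nat_lit 3) (nat_lit 7) (nat_lit 7) (nat_lit 2) (nat_lit 7) (nat_lit 9) (by decide +kernel)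
theorem L112363 : W_41 (nat_lit 3) (nat_lit 0x7000100078000c000000020000000000000000000) (nat_lit 0x0) (nat_lit 0x8001c000040000000000000000000000000000000) := T_41 (nat_lit 147) (nat_lit 148) (nat_lit 3) (nat_lit 8) (nat_lit 7) L112362 (by decide +kernel)
theorem L112364 : W_41 (nat_lit 4) (nat_lit 0x6000100078000c000000020000000000000000000) (nat_lit 0x0) (nat_lit 0x20009001c000040000000000000000000000000000000) := T_41 (nat_lit 160) (nat_lit 177) (nat_lit 5) (nat_lit 8) (nat_lit 6) L112363 (by decide +kernel)
theorem L112365 : W_41 (nat_lit 5) (nat_lit 0x6000100038000c000000020000000000000000000) (nat_lit 0x0) (nat_lit 0x20009001c000c40000000000000000000000000000000) := T_41 (nat_lit 130) (nat_lit 131) (nat_lit 0) (nat_lit 12) (nat_lit 7) L112364 (by decide +kernel)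
theorem L112366 : W_41 (nat_lit 6) (nat_lit 0x2000100038000c000000020000000000000000000) (nat_lit 0x0) (nat_lit 0xa000d001c000c40000000000000000000000000000000) := T_41 (nat_lit 162) (nat_lit 179) (nat_lit 7) (nat_lit 8) (nat_lit 6) L112365 (by decide +kernel)
theorem L112367 : W_41 (nat_lit 7) (nat_lit 0x20001000380004000000020000000000000000000) (nat_lit 0x0) (nat_lit 0xa000d001c000c40008000400000000000000000000000) := T_41 (nat_lit 111) (nat_lit 94) (nat_lit 6) (nat_lit 8) (nat_lit 9) L112366 (by decide +kernel)
theorem L112368 : W_41 (nat_lit 10) (nat_lit 0x20001000180004000000020000000000000000000) (nat_lit 0x0) (nat_lit 0xa000d001c700e7803a001d000c0007000000000000000) := Q_41 (nat_lit 129) (C_41 L112334 (C_41 L112337 (C_41 L112361 (C_41 L112367 N_41)))) (by decide +kernel)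
theorem L112369 : W_41 (nat_lit 2) (nat_lit 0x6000100018000e000000020000000000000000000) (nat_lit 0x0) (nat_lit 0x200001800000000000000000000000000) := D_41 (nat_lit 108) (nat_lit 129) (nat_lit 107) (nat_lit 3) (nat_lit 6) (nat_lit 6) (nat_lit 3) (nat_lit 5) (nat_lit 6) (by decide +kernel)
theorem L112370 : W_41 (nat_lit 3) (nat_lit 0x6000100018000c000000020000000000000000000) (nat_lit 0x0) (nat_lit 0x200003800100000000000000000000000) := T_41 (nat_lit 109) (nat_lit 92) (nat_lit 4) (nat_lit 8) (nat_lit 9) L112369 (by decide +kernel)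
theorem L112371 : W_41 (nat_lit 4) (nat_lit 0x2000100018000c000000020000000000000000000) (nat_lit 0x0) (nat_lit 0x800040000000200003800100000000000000000000000) := T_41 (nat_lit 162) (nat_lit 179) (nat_lit 7) (nat_lit 8) (nat_lit 6) L112370 (by decide +kernel)
theorem L112372 : W_41 (nat_lit 5) (nat_lit 0x20001000180004000000020000000000000000000) (nat_lit 0x0) (nat_lit 0x80004000000020000b800500000000000000000000000) := T_41 (nat_lit 111) (nat_lit 94) (nat_lit 6) (nat_lit 8) (nat_lit 9) L112371 (by decide +kernel)
theorem L112373 : W_41 (nat_lit 2) (nat_lit 0x20001000180007000000020000000000000000000) (nat_lit 0x0) (nat_lit 0x640000000000000000000000000000000) := D_41 (nat_lit 129) (nat_lit 130) (nat_lit 126) (nat_lit 0) (nat_lit 11) (nat_lit 7) (nat_lit 0) (nat_lit 10) (nat_lit 7) (by decide +kernel)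
theorem L112374 : W_41 (nat_lit 3) (nat_lit 0x20001000180006000000020000000000000000000) (nat_lit 0x0) (nat_lit 0x640001800000000000000000000000000) := T_41 (nat_lit 108) (nat_lit 107) (nat_lit 3) (nat_lit 5) (nat_lit 6) L112373 (by decide +kernel)
theorem L112375 : W_41 (nat_lit 4) (nat_lit 0x20001000180004000000020000000000000000000) (nat_lit 0x0) (nat_lit 0x640003800100000000000000000000000) := T_41 (nat_lit 109) (nat_lit 92) (nat_lit 4) (nat_lit 8) (nat_lit 9) L112374 (by decide +kernel)
theorem L112376 : W_41 (nat_lit 2) (nat_lit 0x700010001a001f001080020000000000000000000) (nat_lit 0x0) (nat_lit 0x60002000000000000000000000000) := D_41 (nat_lit 113) (nat_lit 114) (nat_lit 97) (nat_lit 1) (nat_lit 12) (nat_lit 6) (nat_lit 2) (nat_lit 8) (nat_lit 6) (by decide +kernel)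
theorem L112377 : W_41 (nat_lit 3) (nat_lit 0x700010001a001f000080020000000000000000000) (nat_lit 0x0) (nat_lit 0x60003800000000000000000000000) := T_41 (nat_lit 96) (nat_lit 95) (nat_lit 2) (nat_lit 7) (nat_lit 6) L112376 (by decide +kernel)
theorem L112378 : W_41 (nat_lit 4) (nat_lit 0x700010001a000f000080020000000000000000000) (nat_lit 0x0) (nat_lit 0x40070003800000000000000000000000) := T_41 (nat_lit 112) (nat_lit 126) (nat_lit 2) (nat_lit 6) (nat_lit 7) L112377 (by decide +kernel)
theorem L112379 : W_41 (nat_lit 5) (nat_lit 0x7000100018000f000080020000000000000000000) (nat_lit 0x0) (nat_lit 0x70070003800000000000000000000000) := T_41 (nat_lit 125) (nat_lit 124) (nat_lit 1) (nat_lit 9) (nat_lit 6) L112378 (by decide +kernel)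
theorem L112380 : W_41 (nat_lit 6) (nat_lit 0x7000100018000f000000020000000000000000000) (nat_lit 0x0) (nat_lit 0x700700038c0000000000000000000000) := T_41 (nat_lit 91) (nat_lit 90) (nat_lit 0) (nat_lit 9) (nat_lit 6) L112379 (by decide +kernel)
theorem L112381 : W_41 (nat_lit 7) (nat_lit 0x70001000180007000000020000000000000000000) (nat_lit 0x0) (nat_lit 0x70078003cc0000000000000000000000) := T_41 (nat_lit 111) (nat_lit 94) (nat_lit 6) (nat_lit 8) (nat_lit 9) L112380 (by decide +kernel)
theorem L112382 : W_41 (nat_lit 8) (nat_lit 0x70001000180006000000020000000000000000000) (nat_lit 0x0) (nat_lit 0x70079803cc0000000000000000000000) := T_41 (nat_lit 108) (nat_lit 107) (nat_lit 3) (nat_lit 5) (nat_lit 6) L112381 (by decide +kernel)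
theorem L112383 : W_41 (nat_lit 9) (nat_lit 0x70001000180004000000020000000000000000000) (nat_lit 0x0) (nat_lit 0x7007b803dc0000000000000000000000) := T_41 (nat_lit 109) (nat_lit 92) (nat_lit 4) (nat_lit 8) (nat_lit 9) L112382 (by decide +kernel)
theorem L112384 : W_41 (nat_lit 10) (nat_lit 0x30001000180004000000020000000000000000000) (nat_lit 0x0) (nat_lit 0x80004000000007007b803dc0000000000000000000000) := T_41 (nat_lit 162) (nat_lit 179) (nat_lit 7) (nat_lit 8) (nat_lit 6) L112383 (by decide +kernel)
theorem L112385 : W_41 (nat_lit 11) (nat_lit 0x20001000180004000000020000000000000000000) (nat_lit 0x0) (nat_lit 0xa0005000000007007b803dc0000000000000000000000) := T_41 (nat_lit 160) (nat_lit 177) (nat_lit 5) (nat_lit 8) (nat_lit 6) L112384 (by decide +kernel)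
theorem L112386 : W_41 (nat_lit 2) (nat_lit 0x2000100038000c000000020000000000000000000) (nat_lit 0x0) (nat_lit 0x400003000000000000000000000000000) := D_41 (nat_lit 109) (nat_lit 108) (nat_lit 130) (nat_lit 3) (nat_lit 6) (nat_lit 6) (nat_lit 0) (nat_lit 11) (nat_lit 7) (by decide +kernel)
theorem L112387 : W_41 (nat_lit 3) (nat_lit 0x20001000380004000000020000000000000000000) (nat_lit 0x0) (nat_lit 0x40000b000400000000000000000000000) := T_41 (nat_lit 111) (nat_lit 94) (nat_lit 6) (nat_lit 8) (nat_lit 9) L112386 (by decide +kernel)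
theorem L112388 : W_41 (nat_lit 2) (nat_lit 0x70009000780004000000020000000000000000000) (nat_lit 0x0) (nat_lit 0x80004000040000000000000000000000000000000) := D_41 (nat_lit 146) (nat_lit 126) (nat_lit 163) (nat_lit 3) (nat_lit 7) (nat_lit 7) (nat_lit 2) (nat_lit 7) (nat_lit 9) (by decide +kernel)
theorem L112389 : W_41 (nat_lit 3) (nat_lit 0x70001000780004000000020000000000000000000) (nat_lit 0x0) (nat_lit 0x8001c000040000000000000000000000000000000) := T_41 (nat_lit 147) (nat_lit 148) (nat_lit 3) (nat_lit 8) (nat_lit 7) L112388 (by decide +kernel)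
theorem L112390 : W_41 (nat_lit 4) (nat_lit 0x30001000780004000000020000000000000000000) (nat_lit 0x0) (nat_lit 0x8000c001c000040000000000000000000000000000000) := T_41 (nat_lit 162) (nat_lit 179) (nat_lit 7) (nat_lit 8) (nat_lit 6) L112389 (by decide +kernel)
theorem L112391 : W_41 (nat_lit 5) (nat_lit 0x30001000380004000000020000000000000000000) (nat_lit 0x0) (nat_lit 0x8000c001c000440002000000000000000000000000000) := T_41 (nat_lit 130) (nat_lit 109) (nat_lit 0) (nat_lit 11) (nat_lit 7) L112390 (by decide +kernel)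
theorem L112392 : W_41 (nat_lit 6) (nat_lit 0x20001000380004000000020000000000000000000) (nat_lit 0x0) (nat_lit 0xa000d001c000440002000000000000000000000000000) := T_41 (nat_lit 160) (nat_lit 177) (nat_lit 5) (nat_lit 8) (nat_lit 6) L112391 (by decide +kernel)
theorem L112393 : W_41 (nat_lit 2) (nat_lit 0x200010003c0014000400020000000000000000000) (nat_lit 0x0) (nat_lit 0xc000000000000800000000000000000000000) := D_41 (nat_lit 146) (nat_lit 147) (nat_lit 95) (nat_lit 3) (nat_lit 7) (nat_lit 7) (nat_lit 4) (nat_lit 10) (nat_lit 8) (by decide +kernel)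
theorem L112394 : W_41 (nat_lit 3) (nat_lit 0x200010003c0004000400020000000000000000000) (nat_lit 0x0) (nat_lit 0xc000000030000800000000000000000000000) := T_41 (nat_lit 112) (nat_lit 113) (nat_lit 2) (nat_lit 7) (nat_lit 7) L112393 (by decide +kernel)
theorem L112395 : W_41 (nat_lit 4) (nat_lit 0x200010003c0004000000020000000000000000000) (nat_lit 0x0) (nat_lit 0xc000000038000c00000000000000000000000) := T_41 (nat_lit 94) (nat_lit 111) (nat_lit 6) (nat_lit 8) (nat_lit 9) L112394 (by decide +kernel)
theorem L112396 : W_41 (nat_lit 2) (nat_lit 0x200050003e0005000000020000000000000000000) (nat_lit 0x0) (nat_lit 0x10008000400000000000000000000000) := D_41 (nat_lit 111) (nat_lit 94) (nat_lit 124) (nat_lit 7) (nat_lit 9) (nat_lit 4) (nat_lit 2) (nat_lit 5) (nat_lit 7) (by decide +kernel)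
theorem L112397 : W_41 (nat_lit 3) (nat_lit 0x200050003c0005000000020000000000000000000) (nat_lit 0x0) (nat_lit 0x30008800400000000000000000000000) := T_41 (nat_lit 125) (nat_lit 107) (nat_lit 0) (nat_lit 9) (nat_lit 7) L112396 (by decide +kernel)
theorem L112398 : W_41 (nat_lit 4) (nat_lit 0x200010003c0005000000020000000000000000000) (nat_lit 0x0) (nat_lit 0xc000030008800400000000000000000000000) := T_41 (nat_lit 146) (nat_lit 147) (nat_lit 3) (nat_lit 7) (nat_lit 7) L112397 (by decide +kernel)
theorem L112399 : W_41 (nat_lit 5) (nat_lit 0x200010003c0004000000020000000000000000000) (nat_lit 0x0) (nat_lit 0xc00003000b800400000000000000000000000) := T_41 (nat_lit 108) (nat_lit 109) (nat_lit 0) (nat_lit 10) (nat_lit 7) L112398 (by decide +kernel)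
theorem L112400 : W_41 (nat_lit 3) (nat_lit 0x200010003c0004000000020000000000000000000) (nat_lit 0x0) (nat_lit 0x20038000400000000000000000000000) := T_41 (nat_lit 112) (nat_lit 113) (nat_lit 2) (nat_lit 7) (nat_lit 7) L112341 (by decide +kernel)
theorem L112401 : W_41 (nat_lit 2) (nat_lit 0x700050003c0016000800060000000000000000000) (nat_lit 0x0) (nat_lit 0x1000080004000000000000000) := D_41 (nat_lit 79) (nat_lit 96) (nat_lit 62) (nat_lit 6) (nat_lit 10) (nat_lit 8) (nat_lit 6) (nat_lit 10) (nat_lit 7) (by decide +kernel)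
theorem L112402 : W_41 (nat_lit 3) (nat_lit 0x700050003c0016000800020000000000000000000) (nat_lit 0x0) (nat_lit 0x10000c0005000000000000000) := T_41 (nat_lit 78) (nat_lit 60) (nat_lit 4) (nat_lit 10) (nat_lit 7) L112401 (by decide +kernel)
theorem L112403 : W_41 (nat_lit 4) (nat_lit 0x700050003c0016000000020000000000000000000) (nat_lit 0x0) (nat_lit 0x1c000c0005000000000000000) := T_41 (nat_lit 95) (nat_lit 94) (nat_lit 4) (nat_lit 10) (nat_lit 8) L112402 (by decide +kernel)
theorem L112404 : W_41 (nat_lit 5) (nat_lit 0x300050003c0016000000020000000000000000000) (nat_lit 0x0) (nat_lit 0x800040000000000000001c000c0005000000000000000) := T_41 (nat_lit 162) (nat_lit 179) (nat_lit 7) (nat_lit 8) (nat_lit 6) L112403 (by decide +kernel)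
theorem L112405 : W_41 (nat_lit 6) (nat_lit 0x300050003c0006000000020000000000000000000) (nat_lit 0x0) (nat_lit 0x800040000000000030001c000c0005000000000000000) := T_41 (nat_lit 112) (nat_lit 113) (nat_lit 2) (nat_lit 7) (nat_lit 7) L112404 (by decide +kernel)
theorem L112406 : W_41 (nat_lit 7) (nat_lit 0x300010003c0006000000020000000000000000000) (nat_lit 0x0) (nat_lit 0x80004000c000000030001c000c0005000000000000000) := T_41 (nat_lit 146) (nat_lit 147) (nat_lit 3) (nat_lit 7) (nat_lit 7) L112405 (by decide +kernel)
theorem L112407 : W_41 (nat_lit 8) (nat_lit 0x200010003c0006000000020000000000000000000) (nat_lit 0x0) (nat_lit 0xa0005000c000000030001c000c0005000000000000000) := T_41 (nat_lit 160) (nat_lit 177) (nat_lit 5) (nat_lit 8) (nat_lit 6) L112406 (by decide +kernel)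
theorem L112408 : W_41 (nat_lit 9) (nat_lit 0x200010003c0004000000020000000000000000000) (nat_lit 0x0) (nat_lit 0xa0005000c000000033001c000c0005000000000000000) := T_41 (nat_lit 109) (nat_lit 108) (nat_lit 0) (nat_lit 10) (nat_lit 7) L112407 (by decide +kernel)
theorem L112409 : W_41 (nat_lit 2) (nat_lit 0x200010003e0014000000020000000000000000000) (nat_lit 0x0) (nat_lit 0x3800000000000000000000000000) := D_41 (nat_lit 108) (nat_lit 109) (nat_lit 107) (nat_lit 0) (nat_lit 10) (nat_lit 7) (nat_lit 0) (nat_lit 9) (nat_lit 7) (by decide +kernel)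
theorem L112410 : W_41 (nat_lit 3) (nat_lit 0x200010003c0014000000020000000000000000000) (nat_lit 0x0) (nat_lit 0x2000b800000000000000000000000000) := T_41 (nat_lit 125) (nat_lit 111) (nat_lit 2) (nat_lit 6) (nat_lit 7) L112409 (by decide +kernel)
theorem L112411 : W_41 (nat_lit 4) (nat_lit 0x200010003c0004000000020000000000000000000) (nat_lit 0x0) (nat_lit 0x2003b800000000000000000000000000) := T_41 (nat_lit 112) (nat_lit 113) (nat_lit 2) (nat_lit 7) (nat_lit 7) L112410 (by decide +kernel)
theorem L112412 : W_41 (nat_lit 10) (nat_lit 0x20001000380004000000020000000000000000000) (nat_lit 0x0) (nat_lit 0xa0005000c00007003b801c000c0005000000000000000) := Q_41 (nat_lit 126) (C_41 L112395 (C_41 L112399 (C_41 L112400 (C_41 L112408 (C_41 L112411 N_41))))) (by decide +kernel)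
theorem L112413 : W_41 (nat_lit 11) (nat_lit 0x20001000180004000000020000000000000000000) (nat_lit 0x0) (nat_lit 0xa000d001c000e7003b801c000c0005000000000000000) := Q_41 (nat_lit 129) (C_41 L112367 (C_41 L112337 (C_41 L112387 (C_41 L112392 (C_41 L112412 N_41))))) (by decide +kernel)
theorem L112414 : W_41 (nat_lit 2) (nat_lit 0x600010007c002c000000020000000000000000000) (nat_lit 0x0) (nat_lit 0x1c000000000000000000000000000000000000) := D_41 (nat_lit 147) (nat_lit 146) (nat_lit 148) (nat_lit 3) (nat_lit 7) (nat_lit 7) (nat_lit 3) (nat_lit 8) (nat_lit 7) (by decide +kernel)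
theorem L112415 : W_41 (nat_lit 3) (nat_lit 0x6000100078002c000000020000000000000000000) (nat_lit 0x0) (nat_lit 0x1c000040010000000000000000000000000000) := T_41 (nat_lit 126) (nat_lit 112) (nat_lit 2) (nat_lit 7) (nat_lit 7) L112414 (by decide +kernel)
theorem L112416 : W_41 (nat_lit 4) (nat_lit 0x6000100078000c000000020000000000000000000) (nat_lit 0x0) (nat_lit 0x1c000040070000000000000000000000000000) := T_41 (nat_lit 113) (nat_lit 114) (nat_lit 2) (nat_lit 8) (nat_lit 7) L112415 (by decide +kernel)
theorem L112417 : W_41 (nat_lit 5) (nat_lit 0x6000100038000c000000020000000000000000000) (nat_lit 0x0) (nat_lit 0x1c000c40070000000000000000000000000000) := T_41 (nat_lit 130) (nat_lit 131) (nat_lit 0) (nat_lit 12) (nat_lit 7) L112416 (by decide +kernel)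
theorem L112418 : W_41 (nat_lit 6) (nat_lit 0x60001000380004000000020000000000000000000) (nat_lit 0x0) (nat_lit 0x1c000c40078000400000000000000000000000) := T_41 (nat_lit 111) (nat_lit 94) (nat_lit 6) (nat_lit 8) (nat_lit 9) L112417 (by decide +kernel)
theorem L112419 : W_41 (nat_lit 7) (nat_lit 0x20001000380004000000020000000000000000000) (nat_lit 0x0) (nat_lit 0x80004001c000c40078000400000000000000000000000) := T_41 (nat_lit 162) (nat_lit 179) (nat_lit 7) (nat_lit 8) (nat_lit 6) L112418 (by decide +kernel)
theorem L112420 : W_41 (nat_lit 2) (nat_lit 0x300090007c000c000000020000000000000000000) (nat_lit 0x0) (nat_lit 0x20030000000000000000000000000000) := D_41 (nat_lit 112) (nat_lit 113) (nat_lit 125) (nat_lit 2) (nat_lit 7) (nat_lit 7) (nat_lit 2) (nat_lit 6) (nat_lit 7) (by decide +kernel)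
theorem L112421 : W_41 (nat_lit 3) (nat_lit 0x3000900078000c000000020000000000000000000) (nat_lit 0x0) (nat_lit 0x4000060030000000000000000000000000000) := T_41 (nat_lit 126) (nat_lit 146) (nat_lit 3) (nat_lit 7) (nat_lit 7) L112420 (by decide +kernel)
theorem L112422 : W_41 (nat_lit 4) (nat_lit 0x3000100078000c000000020000000000000000000) (nat_lit 0x0) (nat_lit 0x1c000060030000000000000000000000000000) := T_41 (nat_lit 147) (nat_lit 148) (nat_lit 3) (nat_lit 8) (nat_lit 7) L112421 (by decide +kernel)
theorem L112423 : W_41 (nat_lit 5) (nat_lit 0x2000100078000c000000020000000000000000000) (nat_lit 0x0) (nat_lit 0x20001001c000060030000000000000000000000000000) := T_41 (nat_lit 160) (nat_lit 177) (nat_lit 5) (nat_lit 8) (nat_lit 6) L112422 (by decide +kernel)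
theorem L112424 : W_41 (nat_lit 6) (nat_lit 0x2000100038000c000000020000000000000000000) (nat_lit 0x0) (nat_lit 0x20001001c000c60030000000000000000000000000000) := T_41 (nat_lit 130) (nat_lit 131) (nat_lit 0) (nat_lit 12) (nat_lit 7) L112423 (by decide +kernel)
theorem L112425 : W_41 (nat_lit 7) (nat_lit 0x20001000380004000000020000000000000000000) (nat_lit 0x0) (nat_lit 0x20001001c000c60038000400000000000000000000000) := T_41 (nat_lit 111) (nat_lit 94) (nat_lit 6) (nat_lit 8) (nat_lit 9) L112424 (by decide +kernel)
theorem L112426 : W_41 (nat_lit 2) (nat_lit 0xf000900078002c000000020000000000000000000) (nat_lit 0x0) (nat_lit 0x3000100000000000000000000000000000000000000000) := D_41 (nat_lit 180) (nat_lit 181) (nat_lit 164) (nat_lit 3) (nat_lit 7) (nat_lit 9) (nat_lit 5) (nat_lit 11) (nat_lit 6) (by decide +kernel)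
theorem L112427 : W_41 (nat_lit 3) (nat_lit 0x7000900078002c000000020000000000000000000) (nat_lit 0x0) (nat_lit 0x3000180004000000000000000000000000000000000000) := T_41 (nat_lit 163) (nat_lit 146) (nat_lit 2) (nat_lit 7) (nat_lit 9) L112426 (by decide +kernel)
theorem L112428 : W_41 (nat_lit 4) (nat_lit 0x6000900078002c000000020000000000000000000) (nat_lit 0x0) (nat_lit 0x3200190004000000000000000000000000000000000000) := T_41 (nat_lit 160) (nat_lit 177) (nat_lit 5) (nat_lit 8) (nat_lit 6) L112427 (by decide +kernel)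
theorem L112429 : W_41 (nat_lit 5) (nat_lit 0x6000900078000c000000020000000000000000000) (nat_lit 0x0) (nat_lit 0x3200190004000000060000000000000000000000000000) := T_41 (nat_lit 113) (nat_lit 114) (nat_lit 2) (nat_lit 8) (nat_lit 7) L112428 (by decide +kernel)
theorem L112430 : W_41 (nat_lit 6) (nat_lit 0x6000100078000c000000020000000000000000000) (nat_lit 0x0) (nat_lit 0x320019001c000000060000000000000000000000000000) := T_41 (nat_lit 147) (nat_lit 148) (nat_lit 3) (nat_lit 8) (nat_lit 7) L112429 (by decide +kernel)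
theorem L112431 : W_41 (nat_lit 7) (nat_lit 0x2000100078000c000000020000000000000000000) (nat_lit 0x0) (nat_lit 0x3a001d001c000000060000000000000000000000000000) := T_41 (nat_lit 162) (nat_lit 179) (nat_lit 7) (nat_lit 8) (nat_lit 6) L112430 (by decide +kernel)
theorem L112432 : W_41 (nat_lit 8) (nat_lit 0x2000100038000c000000020000000000000000000) (nat_lit 0x0) (nat_lit 0x3a001d001c000c00060000000000000000000000000000) := T_41 (nat_lit 130) (nat_lit 131) (nat_lit 0) (nat_lit 12) (nat_lit 7) L112431 (by decide +kernel)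
theorem L112433 : W_41 (nat_lit 9) (nat_lit 0x20001000380004000000020000000000000000000) (nat_lit 0x0) (nat_lit 0x3a001d001c000c00068000400000000000000000000000) := T_41 (nat_lit 111) (nat_lit 94) (nat_lit 6) (nat_lit 8) (nat_lit 9) L112432 (by decide +kernel)
theorem L112434 : W_41 (nat_lit 2) (nat_lit 0x7000100078003c001000020000000000000000000) (nat_lit 0x0) (nat_lit 0x4000000000000000080004000000000000000) := D_41 (nat_lit 79) (nat_lit 62) (nat_lit 146) (nat_lit 5) (nat_lit 11) (nat_lit 3) (nat_lit 5) (nat_lit 11) (nat_lit 4) (by decide +kernel)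
theorem L112435 : W_41 (nat_lit 3) (nat_lit 0x7000100078003c000000020000000000000000000) (nat_lit 0x0) (nat_lit 0x4000000000003000080004000000000000000) := T_41 (nat_lit 96) (nat_lit 97) (nat_lit 2) (nat_lit 8) (nat_lit 6) L112434 (by decide +kernel)
theorem L112436 : W_41 (nat_lit 4) (nat_lit 0x7000100078002c000000020000000000000000000) (nat_lit 0x0) (nat_lit 0x4000040010003000080004000000000000000) := T_41 (nat_lit 112) (nat_lit 126) (nat_lit 2) (nat_lit 7) (nat_lit 7) L112435 (by decide +kernel)
theorem L112437 : W_41 (nat_lit 5) (nat_lit 0x7000100078000c000000020000000000000000000) (nat_lit 0x0) (nat_lit 0x4000040070003000080004000000000000000) := T_41 (nat_lit 113) (nat_lit 114) (nat_lit 2) (nat_lit 8) (nat_lit 7) L112436 (by decide +kernel)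
theorem L112438 : W_41 (nat_lit 6) (nat_lit 0x7000100038000c000000020000000000000000000) (nat_lit 0x0) (nat_lit 0x4000c40070003000080004000000000000000) := T_41 (nat_lit 130) (nat_lit 131) (nat_lit 0) (nat_lit 12) (nat_lit 7) L112437 (by decide +kernel)
theorem L112439 : W_41 (nat_lit 7) (nat_lit 0x3000100038000c000000020000000000000000000) (nat_lit 0x0) (nat_lit 0x800040004000c40070003000080004000000000000000) := T_41 (nat_lit 162) (nat_lit 179) (nat_lit 7) (nat_lit 8) (nat_lit 6) L112438 (by decide +kernel)
theorem L112440 : W_41 (nat_lit 8) (nat_lit 0x30001000380004000000020000000000000000000) (nat_lit 0x0) (nat_lit 0x800040004000c40078003400080004000000000000000) := T_41 (nat_lit 111) (nat_lit 94) (nat_lit 6) (nat_lit 8) (nat_lit 9) L112439 (by decide +kernel)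
theorem L112441 : W_41 (nat_lit 9) (nat_lit 0x20001000380004000000020000000000000000000) (nat_lit 0x0) (nat_lit 0xa00050004000c40078003400080004000000000000000) := T_41 (nat_lit 160) (nat_lit 177) (nat_lit 5) (nat_lit 8) (nat_lit 6) L112440 (by decide +kernel)
theorem L112442 : W_41 (nat_lit 2) (nat_lit 0x30009000780024000000020000000000000000000) (nat_lit 0x0) (nat_lit 0x4000040010000000000000000000000000000) := D_41 (nat_lit 126) (nat_lit 112) (nat_lit 146) (nat_lit 2) (nat_lit 7) (nat_lit 7) (nat_lit 3) (nat_lit 7) (nat_lit 7) (by decide +kernel)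
theorem L112443 : W_41 (nat_lit 3) (nat_lit 0x30009000780004000000020000000000000000000) (nat_lit 0x0) (nat_lit 0x4000040070000000000000000000000000000) := T_41 (nat_lit 113) (nat_lit 114) (nat_lit 2) (nat_lit 8) (nat_lit 7) L112442 (by decide +kernel)
theorem L112444 : W_41 (nat_lit 4) (nat_lit 0x30009000380004000000020000000000000000000) (nat_lit 0x0) (nat_lit 0x14000440070000000000000000000000000000) := T_41 (nat_lit 130) (nat_lit 148) (nat_lit 3) (nat_lit 8) (nat_lit 7) L112443 (by decide +kernel)
theorem L112445 : W_41 (nat_lit 5) (nat_lit 0x20009000380004000000020000000000000000000) (nat_lit 0x0) (nat_lit 0x200010014000440070000000000000000000000000000) := T_41 (nat_lit 160) (nat_lit 177) (nat_lit 5) (nat_lit 8) (nat_lit 6) L112444 (by decide +kernel)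
theorem L112446 : W_41 (nat_lit 2) (nat_lit 0x200090003c0024000000020000000000000000000) (nat_lit 0x0) (nat_lit 0x10000400040000000000000000000000000000) := D_41 (nat_lit 130) (nat_lit 148) (nat_lit 114) (nat_lit 3) (nat_lit 8) (nat_lit 7) (nat_lit 2) (nat_lit 8) (nat_lit 7) (by decide +kernel)
theorem L112447 : W_41 (nat_lit 3) (nat_lit 0x200090003c0004000000020000000000000000000) (nat_lit 0x0) (nat_lit 0x10000400070000000000000000000000000000) := T_41 (nat_lit 113) (nat_lit 112) (nat_lit 2) (nat_lit 7) (nat_lit 7) L112446 (by decide +kernel)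
theorem L112448 : W_41 (nat_lit 4) (nat_lit 0x20009000380004000000020000000000000000000) (nat_lit 0x0) (nat_lit 0x14000440070000000000000000000000000000) := T_41 (nat_lit 126) (nat_lit 146) (nat_lit 3) (nat_lit 7) (nat_lit 7) L112447 (by decide +kernel)
theorem L112449 : W_41 (nat_lit 2) (nat_lit 0x3000d000780024000000020000000000000000000) (nat_lit 0x0) (nat_lit 0x8000c0000000000000000000000000000000000000000) := D_41 (nat_lit 162) (nat_lit 179) (nat_lit 163) (nat_lit 7) (nat_lit 8) (nat_lit 6) (nat_lit 2) (nat_lit 7) (nat_lit 9) (by decide +kernel)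
theorem L112450 : W_41 (nat_lit 3) (nat_lit 0x30009000780024000000020000000000000000000) (nat_lit 0x0) (nat_lit 0x8000c0004000040000000000000000000000000000000) := T_41 (nat_lit 146) (nat_lit 126) (nat_lit 3) (nat_lit 7) (nat_lit 7) L112449 (by decide +kernel)
theorem L112451 : W_41 (nat_lit 4) (nat_lit 0x20009000780024000000020000000000000000000) (nat_lit 0x0) (nat_lit 0xa000d0004000040000000000000000000000000000000) := T_41 (nat_lit 160) (nat_lit 177) (nat_lit 5) (nat_lit 8) (nat_lit 6) L112450 (by decide +kernel)
theorem L112452 : W_41 (nat_lit 5) (nat_lit 0x20009000780004000000020000000000000000000) (nat_lit 0x0) (nat_lit 0xa000d0004000040060000000000000000000000000000) := T_41 (nat_lit 113) (nat_lit 114) (nat_lit 2) (nat_lit 8) (nat_lit 7) L112451 (by decide +kernel)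
theorem L112453 : W_41 (nat_lit 6) (nat_lit 0x20009000380004000000020000000000000000000) (nat_lit 0x0) (nat_lit 0xa000d0014000440060000000000000000000000000000) := T_41 (nat_lit 130) (nat_lit 148) (nat_lit 3) (nat_lit 8) (nat_lit 7) L112452 (by decide +kernel)
theorem L112454 : W_41 (nat_lit 2) (nat_lit 0xf0009000380004000000020000000000000000000) (nat_lit 0x0) (nat_lit 0x100010000400000000000000000000000000000000) := D_41 (nat_lit 148) (nat_lit 130) (nat_lit 164) (nat_lit 3) (nat_lit 8) (nat_lit 7) (nat_lit 2) (nat_lit 8) (nat_lit 9) (by decide +kernel)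
theorem L112455 : W_41 (nat_lit 3) (nat_lit 0x70009000380004000000020000000000000000000) (nat_lit 0x0) (nat_lit 0x180014000400000000000000000000000000000000) := T_41 (nat_lit 163) (nat_lit 146) (nat_lit 2) (nat_lit 7) (nat_lit 9) L112454 (by decide +kernel)
theorem L112456 : W_41 (nat_lit 4) (nat_lit 0x60009000380004000000020000000000000000000) (nat_lit 0x0) (nat_lit 0x200190014000400000000000000000000000000000000) := T_41 (nat_lit 160) (nat_lit 177) (nat_lit 5) (nat_lit 8) (nat_lit 6) L112455 (by decide +kernel)
theorem L112457 : W_41 (nat_lit 5) (nat_lit 0x20009000380004000000020000000000000000000) (nat_lit 0x0) (nat_lit 0xa001d0014000400000000000000000000000000000000) := T_41 (nat_lit 162) (nat_lit 179) (nat_lit 7) (nat_lit 8) (nat_lit 6) L112456 (by decide +kernel)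
theorem L112458 : W_41 (nat_lit 2) (nat_lit 0x3000d000380004000000020000000000000000000) (nat_lit 0x0) (nat_lit 0x8000c0000000000000000000000000000000000000000) := D_41 (nat_lit 162) (nat_lit 163) (nat_lit 179) (nat_lit 2) (nat_lit 7) (nat_lit 9) (nat_lit 7) (nat_lit 8) (nat_lit 6) (by decide +kernel)
theorem L112459 : W_41 (nat_lit 3) (nat_lit 0x2000d000380004000000020000000000000000000) (nat_lit 0x0) (nat_lit 0xa000d0000000000000000000000000000000000000000) := T_41 (nat_lit 160) (nat_lit 177) (nat_lit 5) (nat_lit 8) (nat_lit 6) L112458 (by decide +kernel)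
theorem L112460 : W_41 (nat_lit 4) (nat_lit 0x20009000380004000000020000000000000000000) (nat_lit 0x0) (nat_lit 0xa000d0004000040000000000000000000000000000000) := T_41 (nat_lit 146) (nat_lit 126) (nat_lit 3) (nat_lit 7) (nat_lit 7) L112459 (by decide +kernel)
theorem L112461 : W_41 (nat_lit 2) (nat_lit 0x30009000780034000000020000000000000000000) (nat_lit 0x0) (nat_lit 0x2000100000000000000000800000000000000000000000) := D_41 (nat_lit 164) (nat_lit 95) (nat_lit 181) (nat_lit 4) (nat_lit 11) (nat_lit 9) (nat_lit 4) (nat_lit 11) (nat_lit 10) (by decide +kernel)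
theorem L112462 : W_41 (nat_lit 3) (nat_lit 0x30009000780024000000020000000000000000000) (nat_lit 0x0) (nat_lit 0x2000100000000040010000800000000000000000000000) := T_41 (nat_lit 112) (nat_lit 126) (nat_lit 2) (nat_lit 7) (nat_lit 7) L112461 (by decide +kernel)
theorem L112463 : W_41 (nat_lit 4) (nat_lit 0x30009000780004000000020000000000000000000) (nat_lit 0x0) (nat_lit 0x2000100000000040070000800000000000000000000000) := T_41 (nat_lit 113) (nat_lit 114) (nat_lit 2) (nat_lit 8) (nat_lit 7) L112462 (by decide +kernel)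
theorem L112464 : W_41 (nat_lit 5) (nat_lit 0x30009000380004000000020000000000000000000) (nat_lit 0x0) (nat_lit 0x2000100010000440070000800000000000000000000000) := T_41 (nat_lit 130) (nat_lit 148) (nat_lit 3) (nat_lit 8) (nat_lit 7) L112463 (by decide +kernel)
theorem L112465 : W_41 (nat_lit 6) (nat_lit 0x20009000380004000000020000000000000000000) (nat_lit 0x0) (nat_lit 0x2200110010000440070000800000000000000000000000) := T_41 (nat_lit 160) (nat_lit 177) (nat_lit 5) (nat_lit 8) (nat_lit 6) L112464 (by decide +kernel)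
theorem L112466 : W_41 (nat_lit 7) (nat_lit 0x20001000380004000000020000000000000000000) (nat_lit 0x0) (nat_lit 0x2a001d001c000440070000800000000000000000000000) := Q_41 (nat_lit 147) (C_41 L112445 (C_41 L112448 (C_41 L112453 (C_41 L112457 (C_41 L112460 (C_41 L112465 N_41)))))) (by decide +kernel)
theorem L112467 : W_41 (nat_lit 2) (nat_lit 0xf0005000380014000400020000000000000000000) (nat_lit 0x0) (nat_lit 0x3000100000000000000000000000000000000000000000) := D_41 (nat_lit 181) (nat_lit 180) (nat_lit 164) (nat_lit 3) (nat_lit 7) (nat_lit 9) (nat_lit 7) (nat_lit 10) (nat_lit 6) (by decide +kernel)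
theorem L112468 : W_41 (nat_lit 3) (nat_lit 0x70005000380014000400020000000000000000000) (nat_lit 0x0) (nat_lit 0x3000180008000000000000000000000000000000000000) := T_41 (nat_lit 163) (nat_lit 147) (nat_lit 2) (nat_lit 7) (nat_lit 9) L112467 (by decide +kernel)
theorem L112469 : W_41 (nat_lit 4) (nat_lit 0x60005000380014000400020000000000000000000) (nat_lit 0x0) (nat_lit 0x3200190008000000000000000000000000000000000000) := T_41 (nat_lit 160) (nat_lit 177) (nat_lit 5) (nat_lit 8) (nat_lit 6) L112468 (by decide +kernel)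
theorem L112470 : W_41 (nat_lit 5) (nat_lit 0x60001000380014000400020000000000000000000) (nat_lit 0x0) (nat_lit 0x320019000c000000000000800000000000000000000000) := T_41 (nat_lit 146) (nat_lit 95) (nat_lit 4) (nat_lit 10) (nat_lit 8) L112469 (by decide +kernel)
theorem L112471 : W_41 (nat_lit 6) (nat_lit 0x60001000380014000000020000000000000000000) (nat_lit 0x0) (nat_lit 0x320019000c000000008000c00000000000000000000000) := T_41 (nat_lit 94) (nat_lit 111) (nat_lit 6) (nat_lit 8) (nat_lit 9) L112470 (by decide +kernel)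
theorem L112472 : W_41 (nat_lit 7) (nat_lit 0x20001000380014000000020000000000000000000) (nat_lit 0x0) (nat_lit 0x3a001d000c000000008000c00000000000000000000000) := T_41 (nat_lit 162) (nat_lit 179) (nat_lit 7) (nat_lit 8) (nat_lit 6) L112471 (by decide +kernel)
theorem L112473 : W_41 (nat_lit 2) (nat_lit 0x700050003c0014000800060000000000000000000) (nat_lit 0x0) (nat_lit 0x1000080004000000000000000) := D_41 (nat_lit 79) (nat_lit 96) (nat_lit 62) (nat_lit 6) (nat_lit 10) (nat_lit 8) (nat_lit 6) (nat_lit 10) (nat_lit 7) (by decide +kernel)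
theorem L112474 : W_41 (nat_lit 3) (nat_lit 0x700050003c0014000800020000000000000000000) (nat_lit 0x0) (nat_lit 0x10000c0005000000000000000) := T_41 (nat_lit 78) (nat_lit 60) (nat_lit 4) (nat_lit 10) (nat_lit 7) L112473 (by decide +kernel)
theorem L112475 : W_41 (nat_lit 4) (nat_lit 0x700050003c0014000000020000000000000000000) (nat_lit 0x0) (nat_lit 0x1c000c0005000000000000000) := T_41 (nat_lit 95) (nat_lit 94) (nat_lit 4) (nat_lit 10) (nat_lit 8) L112474 (by decide +kernel)
theorem L112476 : W_41 (nat_lit 5) (nat_lit 0x700010003c0014000000020000000000000000000) (nat_lit 0x0) (nat_lit 0xc000000000001c000c0005000000000000000) := T_41 (nat_lit 146) (nat_lit 147) (nat_lit 3) (nat_lit 7) (nat_lit 7) L112475 (by decide +kernel)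
theorem L112477 : W_41 (nat_lit 6) (nat_lit 0x70001000380014000000020000000000000000000) (nat_lit 0x0) (nat_lit 0xc000040020001c000c0005000000000000000) := T_41 (nat_lit 126) (nat_lit 113) (nat_lit 2) (nat_lit 7) (nat_lit 7) L112476 (by decide +kernel)
theorem L112478 : W_41 (nat_lit 7) (nat_lit 0x30001000380014000000020000000000000000000) (nat_lit 0x0) (nat_lit 0x80004000c000040020001c000c0005000000000000000) := T_41 (nat_lit 162) (nat_lit 179) (nat_lit 7) (nat_lit 8) (nat_lit 6) L112477 (by decide +kernel)
theorem L112479 : W_41 (nat_lit 8) (nat_lit 0x20001000380014000000020000000000000000000) (nat_lit 0x0) (nat_lit 0xa0005000c000040020001c000c0005000000000000000) := T_41 (nat_lit 160) (nat_lit 177) (nat_lit 5) (nat_lit 8) (nat_lit 6) L112478 (by decide +kernel)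
theorem L112480 : W_41 (nat_lit 2) (nat_lit 0x300012003f0014000000020000000000000000000) (nat_lit 0x0) (nat_lit 0x1c00000000000000000000000000) := D_41 (nat_lit 107) (nat_lit 106) (nat_lit 108) (nat_lit 0) (nat_lit 8) (nat_lit 7) (nat_lit 0) (nat_lit 9) (nat_lit 7) (by decide +kernel)
theorem L112481 : W_41 (nat_lit 3) (nat_lit 0x300012003e0014000000020000000000000000000) (nat_lit 0x0) (nat_lit 0x100010001c00000000000000000000000000) := T_41 (nat_lit 124) (nat_lit 140) (nat_lit 1) (nat_lit 8) (nat_lit 7) L112480 (by decide +kernel)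
theorem L112482 : W_41 (nat_lit 4) (nat_lit 0x200012003e0014000000020000000000000000000) (nat_lit 0x0) (nat_lit 0x200010000100010001c00000000000000000000000000) := T_41 (nat_lit 160) (nat_lit 177) (nat_lit 5) (nat_lit 8) (nat_lit 6) L112481 (by decide +kernel)
theorem L112483 : W_41 (nat_lit 5) (nat_lit 0x200010003e0014000000020000000000000000000) (nat_lit 0x0) (nat_lit 0x200010000700010001c00000000000000000000000000) := T_41 (nat_lit 141) (nat_lit 142) (nat_lit 1) (nat_lit 9) (nat_lit 7) L112482 (by decide +kernel)
theorem L112484 : W_41 (nat_lit 6) (nat_lit 0x200010003c0014000000020000000000000000000) (nat_lit 0x0) (nat_lit 0x200010000700030009c00000000000000000000000000) := T_41 (nat_lit 125) (nat_lit 111) (nat_lit 2) (nat_lit 6) (nat_lit 7) L112483 (by decide +kernel)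
theorem L112485 : W_41 (nat_lit 7) (nat_lit 0x20001000380014000000020000000000000000000) (nat_lit 0x0) (nat_lit 0x200010000700070029c00000000000000000000000000) := T_41 (nat_lit 126) (nat_lit 113) (nat_lit 2) (nat_lit 7) (nat_lit 7) L112484 (by decide +kernel)
theorem L112486 : W_41 (nat_lit 9) (nat_lit 0x20001000380004000000020000000000000000000) (nat_lit 0x0) (nat_lit 0x3a001d000c700070039c01c000c0005000000000000000) := Q_41 (nat_lit 112) (C_41 L112342 (C_41 L112472 (C_41 L112479 (C_41 L112485 N_41)))) (by decide +kernel)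
theorem L112487 : W_41 (nat_lit 2) (nat_lit 0x6000900078003c000000020000000000000000000) (nat_lit 0x0) (nat_lit 0x100000000000000000800040000000000000000000) := D_41 (nat_lit 95) (nat_lit 78) (nat_lit 164) (nat_lit 7) (nat_lit 10) (nat_lit 4) (nat_lit 4) (nat_lit 11) (nat_lit 9) (by decide +kernel)
theorem L112488 : W_41 (nat_lit 3) (nat_lit 0x6000900078002c000000020000000000000000000) (nat_lit 0x0) (nat_lit 0x100000000040010000800040000000000000000000) := T_41 (nat_lit 112) (nat_lit 126) (nat_lit 2) (nat_lit 7) (nat_lit 7) L112487 (by decide +kernel)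
theorem L112489 : W_41 (nat_lit 4) (nat_lit 0x6000900078000c000000020000000000000000000) (nat_lit 0x0) (nat_lit 0x100000000040070000800040000000000000000000) := T_41 (nat_lit 113) (nat_lit 114) (nat_lit 2) (nat_lit 8) (nat_lit 7) L112488 (by decide +kernel)
theorem L112490 : W_41 (nat_lit 5) (nat_lit 0x6000100078000c000000020000000000000000000) (nat_lit 0x0) (nat_lit 0x100018000040070000800040000000000000000000) := T_41 (nat_lit 147) (nat_lit 148) (nat_lit 3) (nat_lit 8) (nat_lit 7) L112489 (by decide +kernel)
theorem L112491 : W_41 (nat_lit 6) (nat_lit 0x2000100078000c000000020000000000000000000) (nat_lit 0x0) (nat_lit 0x800140018000040070000800040000000000000000000) := T_41 (nat_lit 162) (nat_lit 179) (nat_lit 7) (nat_lit 8) (nat_lit 6) L112490 (by decide +kernel)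
theorem L112492 : W_41 (nat_lit 7) (nat_lit 0x2000100038000c000000020000000000000000000) (nat_lit 0x0) (nat_lit 0x800140018000c40070000800040000000000000000000) := T_41 (nat_lit 130) (nat_lit 131) (nat_lit 0) (nat_lit 12) (nat_lit 7) L112491 (by decide +kernel)
theorem L112493 : W_41 (nat_lit 8) (nat_lit 0x20001000380004000000020000000000000000000) (nat_lit 0x0) (nat_lit 0x800140018000c40078000c00040000000000000000000) := T_41 (nat_lit 111) (nat_lit 94) (nat_lit 6) (nat_lit 8) (nat_lit 9) L112492 (by decide +kernel)
theorem L112494 : W_41 (nat_lit 10) (nat_lit 0x20001000180004000000020000000000000000000) (nat_lit 0x0) (nat_lit 0x3a001d001c700e70079c03c000c0005000000000000000) := Q_41 (nat_lit 129) (C_41 L112367 (C_41 L112419 (C_41 L112425 (C_41 L112433 (C_41 L112441 (C_41 L112466 (C_41 L112486 (C_41 L112493 N_41)))))))) (by decide +kernel)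
theorem L112495 : W_41 (nat_lit 12) (nat_lit 0x20001000080004000000020000000000000000000) (nat_lit 0x0) (nat_lit 0x3a001d001c700f7807bc03dc00c0007000000000000000) := Q_41 (nat_lit 128) (C_41 L112368 (C_41 L112372 (C_41 L112375 (C_41 L112385 (C_41 L112413 (C_41 L112494 N_41)))))) (by decide +kernel)
theorem L112496 : W_41 (nat_lit 2) (nat_lit 0x20001000080004000000020001000000000000000) (nat_lit 0x0) (nat_lit 0x600010000000000000000000) := D_41 (nat_lit 93) (nat_lit 94) (nat_lit 76) (nat_lit 6) (nat_lit 8) (nat_lit 8) (nat_lit 6) (nat_lit 8) (nat_lit 7) (by decide +kernel)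
theorem L112497 : W_41 (nat_lit 2) (nat_lit 0x20001000080004000c000200010000c0004000000) (nat_lit 0x0) (nat_lit 0x100008000400) := D_41 (nat_lit 27) (nat_lit 10) (nat_lit 44) (nat_lit 6) (nat_lit 9) (nat_lit 4) (nat_lit 6) (nat_lit 9) (nat_lit 5) (by decide +kernel)
theorem L112498 : W_41 (nat_lit 3) (nat_lit 0x20001000080004000c000200010000c0000000000) (nat_lit 0x0) (nat_lit 0x4000000010000c000400) := T_41 (nat_lit 26) (nat_lit 78) (nat_lit 7) (nat_lit 9) (nat_lit 1) L112497 (by decide +kernel)
theorem L112499 : W_41 (nat_lit 4) (nat_lit 0x200010000800040004000200010000c0000000000) (nat_lit 0x0) (nat_lit 0x1000080004000000010000c000400) := T_41 (nat_lit 95) (nat_lit 112) (nat_lit 7) (nat_lit 9) (nat_lit 2) L112498 (by decide +kernel)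
theorem L112500 : W_41 (nat_lit 5) (nat_lit 0x20001000080004000400020001000080000000000) (nat_lit 0x0) (nat_lit 0x1000080004000000014000e000400) := T_41 (nat_lit 42) (nat_lit 25) (nat_lit 4) (nat_lit 9) (nat_lit 5) L112499 (by decide +kernel)
theorem L112501 : W_41 (nat_lit 2) (nat_lit 0x700010000800060004000600030000e002c000000) (nat_lit 0x0) (nat_lit 0xc800000000000000) := D_41 (nat_lit 62) (nat_lit 63) (nat_lit 59) (nat_lit 0) (nat_lit 12) (nat_lit 3) (nat_lit 0) (nat_lit 11) (nat_lit 3) (by decide +kernel)
theorem L112502 : W_41 (nat_lit 3) (nat_lit 0x700010000800060004000600010000e002c000000) (nat_lit 0x0) (nat_lit 0xe800000000000200) := T_41 (nat_lit 61) (nat_lit 9) (nat_lit 7) (nat_lit 9) (nat_lit 0) L112501 (by decide +kernel)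
theorem L112503 : W_41 (nat_lit 4) (nat_lit 0x700010000800060004000200010000e002c000000) (nat_lit 0x0) (nat_lit 0x80004000e800000000000200) := T_41 (nat_lit 78) (nat_lit 95) (nat_lit 7) (nat_lit 9) (nat_lit 1) L112502 (by decide +kernel)
theorem L112504 : W_41 (nat_lit 5) (nat_lit 0x700010000800060004000200010000e000c000000) (nat_lit 0x0) (nat_lit 0x80004000e800000030000200) := T_41 (nat_lit 29) (nat_lit 28) (nat_lit 1) (nat_lit 12) (nat_lit 1) L112503 (by decide +kernel)
theorem L112505 : W_41 (nat_lit 6) (nat_lit 0x700010000800040004000200010000e000c000000) (nat_lit 0x0) (nat_lit 0x200090004000e800000030000200) := T_41 (nat_lit 109) (nat_lit 92) (nat_lit 4) (nat_lit 8) (nat_lit 9) L112504 (by decide +kernel)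
theorem L112506 : W_41 (nat_lit 7) (nat_lit 0x700010000800040004000200010000c000c000000) (nat_lit 0x0) (nat_lit 0x200090004000e800030030000200) := T_41 (nat_lit 41) (nat_lit 40) (nat_lit 2) (nat_lit 6) (nat_lit 2) L112505 (by decide +kernel)
theorem L112507 : W_41 (nat_lit 8) (nat_lit 0x700010000800040004000200010000c0008000000) (nat_lit 0x0) (nat_lit 0x200090004000e800030034000600) := T_41 (nat_lit 26) (nat_lit 10) (nat_lit 6) (nat_lit 9) (nat_lit 4) L112506 (by decide +kernel)
theorem L112508 : W_41 (nat_lit 9) (nat_lit 0x600010000800040004000200010000c0008000000) (nat_lit 0x0) (nat_lit 0x20001000000000000200090004000e800030034000600) := T_41 (nat_lit 160) (nat_lit 177) (nat_lit 5) (nat_lit 8) (nat_lit 6) L112507 (by decide +kernel)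
theorem L112509 : W_41 (nat_lit 10) (nat_lit 0x600010000800040004000200010000c0000000000) (nat_lit 0x0) (nat_lit 0x20001000000000000200090004000e80013003c000600) := T_41 (nat_lit 27) (nat_lit 44) (nat_lit 6) (nat_lit 9) (nat_lit 5) L112508 (by decide +kernel)
theorem L112510 : W_41 (nat_lit 11) (nat_lit 0x200010000800040004000200010000c0000000000) (nat_lit 0x0) (nat_lit 0xa0005000000000000200090004000e80013003c000600) := T_41 (nat_lit 162) (nat_lit 179) (nat_lit 7) (nat_lit 8) (nat_lit 6) L112509 (by decide +kernel)
theorem L112511 : W_41 (nat_lit 12) (nat_lit 0x20001000080004000400020001000080000000000) (nat_lit 0x0) (nat_lit 0xa0005000000000000200090004000e80017003e000600) := T_41 (nat_lit 42) (nat_lit 25) (nat_lit 4) (nat_lit 9) (nat_lit 5) L112510 (by decide +kernel)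
theorem L112512 : W_41 (nat_lit 2) (nat_lit 0x7000100008000400040002000100008000a000000) (nat_lit 0x0) (nat_lit 0x4000500) := D_41 (nat_lit 26) (nat_lit 10) (nat_lit 8) (nat_lit 6) (nat_lit 9) (nat_lit 4) (nat_lit 4) (nat_lit 9) (nat_lit 4) (by decide +kernel)
theorem L112513 : W_41 (nat_lit 3) (nat_lit 0x70001000080004000400020001000080008000000) (nat_lit 0x0) (nat_lit 0x40006000500) := T_41 (nat_lit 25) (nat_lit 42) (nat_lit 4) (nat_lit 9) (nat_lit 5) L112512 (by decide +kernel)
theorem L112514 : W_41 (nat_lit 4) (nat_lit 0x70001000080004000400020001000080000000000) (nat_lit 0x0) (nat_lit 0x14000e000500) := T_41 (nat_lit 27) (nat_lit 44) (nat_lit 6) (nat_lit 9) (nat_lit 5) L112513 (by decide +kernel)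
theorem L112515 : W_41 (nat_lit 2) (nat_lit 0x6000100008000400000002000f000080000000000) (nat_lit 0x0) (nat_lit 0x40010000100000000000) := D_41 (nat_lit 64) (nat_lit 44) (nat_lit 78) (nat_lit 0) (nat_lit 13) (nat_lit 3) (nat_lit 1) (nat_lit 13) (nat_lit 3) (by decide +kernel)
theorem L112516 : W_41 (nat_lit 2) (nat_lit 0x700010000800060000000a00078003c0012000000) (nat_lit 0x0) (nat_lit 0x800040000000000000000800) := D_41 (nat_lit 78) (nat_lit 11) (nat_lit 95) (nat_lit 5) (nat_lit 11) (nat_lit 0) (nat_lit 6) (nat_lit 10) (nat_lit 5) (by decide +kernel)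
theorem L112517 : W_41 (nat_lit 3) (nat_lit 0x700010000800060000000a00078003c0002000000) (nat_lit 0x0) (nat_lit 0x800040000000000030000800) := T_41 (nat_lit 28) (nat_lit 29) (nat_lit 2) (nat_lit 8) (nat_lit 2) L112516 (by decide +kernel)
theorem L112518 : W_41 (nat_lit 4) (nat_lit 0x700010000800060000000a00078002c0002000000) (nat_lit 0x0) (nat_lit 0x800040000000100031000800) := T_41 (nat_lit 44) (nat_lit 24) (nat_lit 0) (nat_lit 11) (nat_lit 2) L112517 (by decide +kernel)
theorem L112519 : W_41 (nat_lit 2) (nat_lit 0x6000100008000600000002001f000080000000000) (nat_lit 0x0) (nat_lit 0x700000000000000000000) := D_41 (nat_lit 81) (nat_lit 80) (nat_lit 82) (nat_lit 3) (nat_lit 9) (nat_lit 3) (nat_lit 3) (nat_lit 10) (nat_lit 3) (by decide +kernel)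
theorem L112520 : W_41 (nat_lit 3) (nat_lit 0x6000100008000600000002000f000080000000000) (nat_lit 0x0) (nat_lit 0x700010000100000000000) := T_41 (nat_lit 64) (nat_lit 44) (nat_lit 0) (nat_lit 13) (nat_lit 3) L112519 (by decide +kernel)
theorem L112521 : W_41 (nat_lit 2) (nat_lit 0x2000100008000600000002001f000080000000000) (nat_lit 0x0) (nat_lit 0x1c00000000000) := D_41 (nat_lit 47) (nat_lit 46) (nat_lit 48) (nat_lit 2) (nat_lit 9) (nat_lit 3) (nat_lit 2) (nat_lit 10) (nat_lit 3) (by decide +kernel)
theorem L112522 : W_41 (nat_lit 3) (nat_lit 0x2000100008000600000002000f000080000000000) (nat_lit 0x0) (nat_lit 0x10001d00000000000) := T_41 (nat_lit 64) (nat_lit 44) (nat_lit 0) (nat_lit 13) (nat_lit 3) L112521 (by decide +kernel)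
theorem L112523 : W_41 (nat_lit 4) (nat_lit 0x20001000080006000000020007000080000000000) (nat_lit 0x0) (nat_lit 0x18001d40000000000) := T_41 (nat_lit 63) (nat_lit 42) (nat_lit 0) (nat_lit 12) (nat_lit 3) L112522 (by decide +kernel)
theorem L112524 : W_41 (nat_lit 5) (nat_lit 0x20001000080004000000020007000080000000000) (nat_lit 0x0) (nat_lit 0x2000100000018001d40000000000) := T_41 (nat_lit 109) (nat_lit 92) (nat_lit 4) (nat_lit 8) (nat_lit 9) L112523 (by decide +kernel)
theorem L112525 : W_41 (nat_lit 2) (nat_lit 0x200010000800040000000200070000c0000000000) (nat_lit 0x0) (nat_lit 0x800030000000000) := D_41 (nat_lit 41) (nat_lit 59) (nat_lit 40) (nat_lit 0) (nat_lit 11) (nat_lit 3) (nat_lit 3) (nat_lit 6) (nat_lit 2) (by decide +kernel)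
theorem L112526 : W_41 (nat_lit 2) (nat_lit 0x200010000800040000000200070000c0000000000) (nat_lit 0x0) (nat_lit 0x130000000000) := D_41 (nat_lit 41) (nat_lit 44) (nat_lit 40) (nat_lit 3) (nat_lit 7) (nat_lit 2) (nat_lit 3) (nat_lit 6) (nat_lit 2) (by decide +kernel)
theorem L112527 : W_41 (nat_lit 2) (nat_lit 0x3000100008000600000002001f000080000000000) (nat_lit 0x0) (nat_lit 0x700000000000000000000) := D_41 (nat_lit 81) (nat_lit 80) (nat_lit 82) (nat_lit 3) (nat_lit 9) (nat_lit 3) (nat_lit 3) (nat_lit 10) (nat_lit 3) (by decide +kernel)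
theorem L112528 : W_41 (nat_lit 3) (nat_lit 0x3000100008000600000002000f000080000000000) (nat_lit 0x0) (nat_lit 0x700010000100000000000) := T_41 (nat_lit 64) (nat_lit 44) (nat_lit 0) (nat_lit 13) (nat_lit 3) L112527 (by decide +kernel)
theorem L112529 : W_41 (nat_lit 4) (nat_lit 0x3000100008000400000002000f000080000000000) (nat_lit 0x0) (nat_lit 0x2000100700010000100000000000) := T_41 (nat_lit 109) (nat_lit 92) (nat_lit 4) (nat_lit 8) (nat_lit 9) L112528 (by decide +kernel)
theorem L112530 : W_41 (nat_lit 2) (nat_lit 0x200010000800060020001e000d000000000000000) (nat_lit 0x0) (nat_lit 0x800040000000000000000200000000000) := D_41 (nat_lit 114) (nat_lit 45) (nat_lit 131) (nat_lit 4) (nat_lit 12) (nat_lit 6) (nat_lit 4) (nat_lit 12) (nat_lit 7) (by decide +kernel)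
theorem L112531 : W_41 (nat_lit 3) (nat_lit 0x200010000800060000001e000d000000000000000) (nat_lit 0x0) (nat_lit 0x800040006000000000000200000000000) := T_41 (nat_lit 97) (nat_lit 98) (nat_lit 3) (nat_lit 9) (nat_lit 4) L112530 (by decide +kernel)
theorem L112532 : W_41 (nat_lit 4) (nat_lit 0x200010000800060000001e0005000000000000000) (nat_lit 0x0) (nat_lit 0x800040006000000018000200000000000) := T_41 (nat_lit 63) (nat_lit 64) (nat_lit 2) (nat_lit 9) (nat_lit 4) L112531 (by decide +kernel)
theorem L112533 : W_41 (nat_lit 5) (nat_lit 0x200010000800040000001e0005000000000000000) (nat_lit 0x0) (nat_lit 0x800042006100000018000200000000000) := T_41 (nat_lit 109) (nat_lit 92) (nat_lit 4) (nat_lit 8) (nat_lit 9) L112532 (by decide +kernel)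
theorem L112534 : W_41 (nat_lit 2) (nat_lit 0x600010000800040020001e000d000000000000000) (nat_lit 0x0) (nat_lit 0x800040000000000000000200000000000) := D_41 (nat_lit 114) (nat_lit 45) (nat_lit 131) (nat_lit 4) (nat_lit 12) (nat_lit 6) (nat_lit 4) (nat_lit 12) (nat_lit 7) (by decide +kernel)
theorem L112535 : W_41 (nat_lit 3) (nat_lit 0x600010000800040000001e000d000000000000000) (nat_lit 0x0) (nat_lit 0x800040006000000000000200000000000) := T_41 (nat_lit 97) (nat_lit 98) (nat_lit 3) (nat_lit 9) (nat_lit 4) L112534 (by decide +kernel)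
theorem L112536 : W_41 (nat_lit 4) (nat_lit 0x600010000800040000001e0005000000000000000) (nat_lit 0x0) (nat_lit 0x800040006000000018000200000000000) := T_41 (nat_lit 63) (nat_lit 64) (nat_lit 2) (nat_lit 9) (nat_lit 4) L112535 (by decide +kernel)
theorem L112537 : W_41 (nat_lit 5) (nat_lit 0x200010000800040000001e0005000000000000000) (nat_lit 0x0) (nat_lit 0x800040000000800040006000000018000200000000000) := T_41 (nat_lit 162) (nat_lit 179) (nat_lit 7) (nat_lit 8) (nat_lit 6) L112536 (by decide +kernel)
theorem L112538 : W_41 (nat_lit 2) (nat_lit 0x600010000800040000000e000f000480000000000) (nat_lit 0x0) (nat_lit 0x10000800000000000000004000000) := D_41 (nat_lit 95) (nat_lit 112) (nat_lit 26) (nat_lit 4) (nat_lit 10) (nat_lit 6) (nat_lit 7) (nat_lit 9) (nat_lit 1) (by decide +kernel)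
theorem L112539 : W_41 (nat_lit 3) (nat_lit 0x600010000800040000000e000f000400000000000) (nat_lit 0x0) (nat_lit 0x100008000000000000c0004000000) := T_41 (nat_lit 43) (nat_lit 42) (nat_lit 0) (nat_lit 12) (nat_lit 3) L112538 (by decide +kernel)
theorem L112540 : W_41 (nat_lit 4) (nat_lit 0x600010000800040000000e000f000000000000000) (nat_lit 0x0) (nat_lit 0x10000800000000000cc0004000000) := T_41 (nat_lit 46) (nat_lit 47) (nat_lit 2) (nat_lit 9) (nat_lit 3) L112539 (by decide +kernel)
theorem L112541 : W_41 (nat_lit 5) (nat_lit 0x200010000800040000000e000f000000000000000) (nat_lit 0x0) (nat_lit 0x800040000000000010000800000000000cc0004000000) := T_41 (nat_lit 162) (nat_lit 179) (nat_lit 7) (nat_lit 8) (nat_lit 6) L112540 (by decide +kernel)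
theorem L112542 : W_41 (nat_lit 6) (nat_lit 0x200010000800040000000e0007000000000000000) (nat_lit 0x0) (nat_lit 0x800040000000000010000800000018000cc0004000000) := T_41 (nat_lit 63) (nat_lit 64) (nat_lit 1) (nat_lit 13) (nat_lit 3) L112541 (by decide +kernel)
theorem L112543 : W_41 (nat_lit 2) (nat_lit 0x200010000800060000000e0005000200038000000) (nat_lit 0x0) (nat_lit 0x1000000000000500000000000) := D_41 (nat_lit 96) (nat_lit 44) (nat_lit 46) (nat_lit 4) (nat_lit 11) (nat_lit 5) (nat_lit 6) (nat_lit 11) (nat_lit 5) (by decide +kernel)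
theorem L112544 : W_41 (nat_lit 3) (nat_lit 0x200010000800060000000e0005000200018000000) (nat_lit 0x0) (nat_lit 0x1000000000000500020001000) := T_41 (nat_lit 29) (nat_lit 12) (nat_lit 6) (nat_lit 11) (nat_lit 4) L112543 (by decide +kernel)
theorem L112545 : W_41 (nat_lit 4) (nat_lit 0x200010000800060000000e0005000200010000000) (nat_lit 0x0) (nat_lit 0x1000000000000500028001400) := T_41 (nat_lit 27) (nat_lit 10) (nat_lit 4) (nat_lit 11) (nat_lit 4) L112544 (by decide +kernel)
theorem L112546 : W_41 (nat_lit 5) (nat_lit 0x200010000800060000000e0005000200000000000) (nat_lit 0x0) (nat_lit 0x1800000000000500038001400) := T_41 (nat_lit 28) (nat_lit 95) (nat_lit 5) (nat_lit 11) (nat_lit 1) L112545 (by decide +kernel)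
theorem L112547 : W_41 (nat_lit 6) (nat_lit 0x200010000800040000000e0005000200000000000) (nat_lit 0x0) (nat_lit 0x2001900000000000500038001400) := T_41 (nat_lit 109) (nat_lit 92) (nat_lit 4) (nat_lit 8) (nat_lit 9) L112546 (by decide +kernel)
theorem L112548 : W_41 (nat_lit 2) (nat_lit 0x200010003800060000000e0005000000000000000) (nat_lit 0x0) (nat_lit 0x40001800000000000000000000000000) := D_41 (nat_lit 108) (nat_lit 126) (nat_lit 107) (nat_lit 0) (nat_lit 10) (nat_lit 7) (nat_lit 3) (nat_lit 5) (nat_lit 6) (by decide +kernel)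
theorem L112549 : W_41 (nat_lit 3) (nat_lit 0x200010002800060000000e0005000000000000000) (nat_lit 0x0) (nat_lit 0x540001800000000000000000000000000) := T_41 (nat_lit 128) (nat_lit 130) (nat_lit 0) (nat_lit 11) (nat_lit 7) L112548 (by decide +kernel)
theorem L112550 : W_41 (nat_lit 4) (nat_lit 0x200010002800040000000e0005000000000000000) (nat_lit 0x0) (nat_lit 0x540003800100000000000000000000000) := T_41 (nat_lit 109) (nat_lit 92) (nat_lit 4) (nat_lit 8) (nat_lit 9) L112549 (by decide +kernel)
theorem L112551 : W_41 (nat_lit 2) (nat_lit 0x600010000800040000000e0017800240038000100) (nat_lit 0x0) (nat_lit 0x180004000000) := D_41 (nat_lit 43) (nat_lit 44) (nat_lit 26) (nat_lit 2) (nat_lit 8) (nat_lit 2) (nat_lit 1) (nat_lit 12) (nat_lit 1) (by decide +kernel)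
theorem L112552 : W_41 (nat_lit 3) (nat_lit 0x600010000800040000000e0017800240018000100) (nat_lit 0x0) (nat_lit 0x180024001000) := T_41 (nat_lit 29) (nat_lit 12) (nat_lit 6) (nat_lit 11) (nat_lit 4) L112551 (by decide +kernel)
theorem L112553 : W_41 (nat_lit 4) (nat_lit 0x600010000800040000000e0017800240010000100) (nat_lit 0x0) (nat_lit 0x18002c001400) := T_41 (nat_lit 27) (nat_lit 10) (nat_lit 4) (nat_lit 11) (nat_lit 4) L112552 (by decide +kernel)
theorem L112554 : W_41 (nat_lit 5) (nat_lit 0x600010000800040000000e0017800240000000100) (nat_lit 0x0) (nat_lit 0x18003c001c00) := T_41 (nat_lit 28) (nat_lit 11) (nat_lit 5) (nat_lit 11) (nat_lit 0) L112553 (by decide +kernel)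
theorem L112555 : W_41 (nat_lit 6) (nat_lit 0x600010000800040000000e0017800240000000000) (nat_lit 0x0) (nat_lit 0x18003e001d00) := T_41 (nat_lit 8) (nat_lit 25) (nat_lit 7) (nat_lit 8) (nat_lit 0) L112554 (by decide +kernel)
theorem L112556 : W_41 (nat_lit 7) (nat_lit 0x600010000800040000000e0017800040000000000) (nat_lit 0x0) (nat_lit 0x78003e001d00) := T_41 (nat_lit 45) (nat_lit 46) (nat_lit 2) (nat_lit 8) (nat_lit 3) L112555 (by decide +kernel)
theorem L112557 : W_41 (nat_lit 8) (nat_lit 0x600010000800040000000e0017800000000000000) (nat_lit 0x0) (nat_lit 0x7e003e001d00) := T_41 (nat_lit 42) (nat_lit 41) (nat_lit 0) (nat_lit 11) (nat_lit 3) L112556 (by decide +kernel)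
theorem L112558 : W_41 (nat_lit 9) (nat_lit 0x200010000800040000000e0017800000000000000) (nat_lit 0x0) (nat_lit 0x8000400000000000000000000000000007e003e001d00) := T_41 (nat_lit 162) (nat_lit 179) (nat_lit 7) (nat_lit 8) (nat_lit 6) L112557 (by decide +kernel)
theorem L112559 : W_41 (nat_lit 10) (nat_lit 0x200010000800040000000e0017000000000000000) (nat_lit 0x0) (nat_lit 0x800040000000000000000000000000c007e003e001d00) := T_41 (nat_lit 59) (nat_lit 58) (nat_lit 3) (nat_lit 7) (nat_lit 3) L112558 (by decide +kernel)
theorem L112560 : W_41 (nat_lit 11) (nat_lit 0x200010000800040000000e0007000000000000000) (nat_lit 0x0) (nat_lit 0x800040000000000000000000000018c007e003e001d00) := T_41 (nat_lit 64) (nat_lit 63) (nat_lit 1) (nat_lit 13) (nat_lit 3) L112559 (by decide +kernel)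
theorem L112561 : W_41 (nat_lit 2) (nat_lit 0x600010000800060000000e000f40018000e000000) (nat_lit 0x0) (nat_lit 0x200001800000) := D_41 (nat_lit 24) (nat_lit 23) (nat_lit 45) (nat_lit 3) (nat_lit 6) (nat_lit 1) (nat_lit 3) (nat_lit 7) (nat_lit 1) (by decide +kernel)
theorem L112562 : W_41 (nat_lit 3) (nat_lit 0x600010000800060000000e000f40008000e000000) (nat_lit 0x0) (nat_lit 0x1000000000000300001800000) := T_41 (nat_lit 44) (nat_lit 96) (nat_lit 7) (nat_lit 10) (nat_lit 1) L112561 (by decide +kernel)
theorem L112563 : W_41 (nat_lit 4) (nat_lit 0x600010000800060000000e000f40008000c000000) (nat_lit 0x0) (nat_lit 0x1000000000000300003800100) := T_41 (nat_lit 25) (nat_lit 8) (nat_lit 4) (nat_lit 9) (nat_lit 4) L112562 (by decide +kernel)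
theorem L112564 : W_41 (nat_lit 5) (nat_lit 0x600010000800060000000e000f400080004000000) (nat_lit 0x0) (nat_lit 0x100000000000030000b800500) := T_41 (nat_lit 27) (nat_lit 10) (nat_lit 6) (nat_lit 9) (nat_lit 4) L112563 (by decide +kernel)
theorem L112565 : W_41 (nat_lit 6) (nat_lit 0x600010000800060000000e000f400080000000000) (nat_lit 0x0) (nat_lit 0x100000000000030000f800700) := T_41 (nat_lit 26) (nat_lit 9) (nat_lit 7) (nat_lit 9) (nat_lit 0) L112564 (by decide +kernel)
theorem L112566 : W_41 (nat_lit 7) (nat_lit 0x600010000800060000000e000f400000000000000) (nat_lit 0x0) (nat_lit 0x10000000000003c000f800700) := T_41 (nat_lit 43) (nat_lit 42) (nat_lit 0) (nat_lit 12) (nat_lit 3) L112565 (by decide +kernel)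
theorem L112567 : W_41 (nat_lit 8) (nat_lit 0x600010000800060000000e0007400000000000000) (nat_lit 0x0) (nat_lit 0x10000000180003c000f800700) := T_41 (nat_lit 63) (nat_lit 64) (nat_lit 1) (nat_lit 13) (nat_lit 3) L112566 (by decide +kernel)
theorem L112568 : W_41 (nat_lit 9) (nat_lit 0x600010000800060000000e0007000000000000000) (nat_lit 0x0) (nat_lit 0x1000000018c003c000f800700) := T_41 (nat_lit 58) (nat_lit 59) (nat_lit 3) (nat_lit 7) (nat_lit 3) L112567 (by decide +kernel)
theorem L112569 : W_41 (nat_lit 10) (nat_lit 0x200010000800060000000e0007000000000000000) (nat_lit 0x0) (nat_lit 0x800040000000000000001000000018c003c000f800700) := T_41 (nat_lit 162) (nat_lit 179) (nat_lit 7) (nat_lit 8) (nat_lit 6) L112568 (by decide +kernel)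
theorem L112570 : W_41 (nat_lit 11) (nat_lit 0x200010000800040000000e0007000000000000000) (nat_lit 0x0) (nat_lit 0x800040000000000002001100000018c003c000f800700) := T_41 (nat_lit 109) (nat_lit 92) (nat_lit 4) (nat_lit 8) (nat_lit 9) L112569 (by decide +kernel)
theorem L112571 : W_41 (nat_lit 2) (nat_lit 0x3000100008000400000016000fc00000000000000) (nat_lit 0x0) (nat_lit 0x70000000000) := D_41 (nat_lit 41) (nat_lit 42) (nat_lit 40) (nat_lit 0) (nat_lit 11) (nat_lit 3) (nat_lit 0) (nat_lit 10) (nat_lit 3) (by decide +kernel)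
theorem L112572 : W_41 (nat_lit 3) (nat_lit 0x3000100008000400000016000f800000000000000) (nat_lit 0x0) (nat_lit 0x600070000000000) := T_41 (nat_lit 58) (nat_lit 57) (nat_lit 3) (nat_lit 6) (nat_lit 3) L112571 (by decide +kernel)
theorem L112573 : W_41 (nat_lit 4) (nat_lit 0x3000100008000400000016000f000000000000000) (nat_lit 0x0) (nat_lit 0x80000e00070000000000) := T_41 (nat_lit 59) (nat_lit 79) (nat_lit 3) (nat_lit 8) (nat_lit 3) L112572 (by decide +kernel)
theorem L112574 : W_41 (nat_lit 5) (nat_lit 0x3000100008000400000006000f000000000000000) (nat_lit 0x0) (nat_lit 0x380000e00070000000000) := T_41 (nat_lit 80) (nat_lit 81) (nat_lit 3) (nat_lit 9) (nat_lit 3) L112573 (by decide +kernel)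
theorem L112575 : W_41 (nat_lit 6) (nat_lit 0x2000100008000400000006000f000000000000000) (nat_lit 0x0) (nat_lit 0x200010000000000000000000380000e00070000000000) := T_41 (nat_lit 160) (nat_lit 177) (nat_lit 5) (nat_lit 8) (nat_lit 6) L112574 (by decide +kernel)
theorem L112576 : W_41 (nat_lit 7) (nat_lit 0x20001000080004000000060007000000000000000) (nat_lit 0x0) (nat_lit 0x200010000000000000000000380018e00070000000000) := T_41 (nat_lit 63) (nat_lit 64) (nat_lit 1) (nat_lit 13) (nat_lit 3) L112575 (by decide +kernel)
theorem L112577 : W_41 (nat_lit 2) (nat_lit 0x300010000800060020001e000d000000000000000) (nat_lit 0x0) (nat_lit 0x800040000000000000000200000000000) := D_41 (nat_lit 114) (nat_lit 45) (nat_lit 131) (nat_lit 4) (nat_lit 12) (nat_lit 6) (nat_lit 4) (nat_lit 12) (nat_lit 7) (by decide +kernel)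
theorem L112578 : W_41 (nat_lit 2) (nat_lit 0x7000100008000400000016000f000480000000000) (nat_lit 0x0) (nat_lit 0x10000800000000000000004000000) := D_41 (nat_lit 95) (nat_lit 112) (nat_lit 26) (nat_lit 4) (nat_lit 10) (nat_lit 6) (nat_lit 7) (nat_lit 9) (nat_lit 1) (by decide +kernel)
theorem L112579 : W_41 (nat_lit 2) (nat_lit 0x2000100008000600000012001f000400000000000) (nat_lit 0x0) (nat_lit 0x1c0000000000) := D_41 (nat_lit 43) (nat_lit 44) (nat_lit 42) (nat_lit 0) (nat_lit 13) (nat_lit 3) (nat_lit 0) (nat_lit 12) (nat_lit 3) (by decide +kernel)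
theorem L112580 : W_41 (nat_lit 3) (nat_lit 0x2000100008000600000012000f000400000000000) (nat_lit 0x0) (nat_lit 0x400100001c0000000000) := T_41 (nat_lit 64) (nat_lit 78) (nat_lit 1) (nat_lit 13) (nat_lit 3) L112579 (by decide +kernel)
theorem L112581 : W_41 (nat_lit 4) (nat_lit 0x2000100008000600000012000f000000000000000) (nat_lit 0x0) (nat_lit 0x40010000dc0000000000) := T_41 (nat_lit 46) (nat_lit 47) (nat_lit 2) (nat_lit 9) (nat_lit 3) L112580 (by decide +kernel)
theorem L112582 : W_41 (nat_lit 5) (nat_lit 0x2000100008000600000002000f000000000000000) (nat_lit 0x0) (nat_lit 0x340010000dc0000000000) := T_41 (nat_lit 80) (nat_lit 81) (nat_lit 3) (nat_lit 9) (nat_lit 3) L112581 (by decide +kernel)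
theorem L112583 : W_41 (nat_lit 6) (nat_lit 0x2000100008000400000002000f000000000000000) (nat_lit 0x0) (nat_lit 0x2000100340010000dc0000000000) := T_41 (nat_lit 109) (nat_lit 92) (nat_lit 4) (nat_lit 8) (nat_lit 9) L112582 (by decide +kernel)
theorem L112584 : W_41 (nat_lit 2) (nat_lit 0x2000100008000400000002001f000000000000000) (nat_lit 0x0) (nat_lit 0x1c0000000000) := D_41 (nat_lit 43) (nat_lit 44) (nat_lit 42) (nat_lit 0) (nat_lit 13) (nat_lit 3) (nat_lit 0) (nat_lit 12) (nat_lit 3) (by decide +kernel)
theorem L112585 : W_41 (nat_lit 3) (nat_lit 0x2000100008000400000002000f000000000000000) (nat_lit 0x0) (nat_lit 0x400100001c0000000000) := T_41 (nat_lit 64) (nat_lit 78) (nat_lit 1) (nat_lit 13) (nat_lit 3) L112584 (by decide +kernel)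
theorem L112586 : W_41 (nat_lit 2) (nat_lit 0x2000100008000600000012000f800000000000000) (nat_lit 0x0) (nat_lit 0xe0000000000) := D_41 (nat_lit 42) (nat_lit 41) (nat_lit 43) (nat_lit 0) (nat_lit 11) (nat_lit 3) (nat_lit 0) (nat_lit 12) (nat_lit 3) (by decide +kernel)
theorem L112587 : W_41 (nat_lit 3) (nat_lit 0x2000100008000600000012000f000000000000000) (nat_lit 0x0) (nat_lit 0x800008000e0000000000) := T_41 (nat_lit 59) (nat_lit 79) (nat_lit 3) (nat_lit 8) (nat_lit 3) L112586 (by decide +kernel)
theorem L112588 : W_41 (nat_lit 4) (nat_lit 0x2000100008000600000002000f000000000000000) (nat_lit 0x0) (nat_lit 0x3800008000e0000000000) := T_41 (nat_lit 80) (nat_lit 81) (nat_lit 3) (nat_lit 9) (nat_lit 3) L112587 (by decide +kernel)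
theorem L112589 : W_41 (nat_lit 5) (nat_lit 0x2000100008000400000002000f000000000000000) (nat_lit 0x0) (nat_lit 0x20001003800008000e0000000000) := T_41 (nat_lit 109) (nat_lit 92) (nat_lit 4) (nat_lit 8) (nat_lit 9) L112588 (by decide +kernel)
theorem L112590 : W_41 (nat_lit 2) (nat_lit 0x2000100008000600000016000f800420000000000) (nat_lit 0x0) (nat_lit 0x600010000000000) := D_41 (nat_lit 58) (nat_lit 40) (nat_lit 57) (nat_lit 0) (nat_lit 10) (nat_lit 3) (nat_lit 3) (nat_lit 6) (nat_lit 3) (by decide +kernel)
theorem L112591 : W_41 (nat_lit 3) (nat_lit 0x2000100008000600000012000f800420000000000) (nat_lit 0x0) (nat_lit 0x40010600010000000000) := T_41 (nat_lit 78) (nat_lit 64) (nat_lit 1) (nat_lit 13) (nat_lit 3) L112590 (by decide +kernel)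
theorem L112592 : W_41 (nat_lit 4) (nat_lit 0x2000100008000600000012000f800400000000000) (nat_lit 0x0) (nat_lit 0x40010600070000000000) := T_41 (nat_lit 41) (nat_lit 42) (nat_lit 0) (nat_lit 11) (nat_lit 3) L112591 (by decide +kernel)
theorem L112593 : W_41 (nat_lit 5) (nat_lit 0x2000100008000600000012000f000400000000000) (nat_lit 0x0) (nat_lit 0xc0010e00070000000000) := T_41 (nat_lit 59) (nat_lit 79) (nat_lit 3) (nat_lit 8) (nat_lit 3) L112592 (by decide +kernel)
theorem L112594 : W_41 (nat_lit 6) (nat_lit 0x2000100008000600000002000f000400000000000) (nat_lit 0x0) (nat_lit 0x3c0010e00070000000000) := T_41 (nat_lit 80) (nat_lit 81) (nat_lit 3) (nat_lit 9) (nat_lit 3) L112593 (by decide +kernel)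
theorem L112595 : W_41 (nat_lit 7) (nat_lit 0x2000100008000400000002000f000400000000000) (nat_lit 0x0) (nat_lit 0x20001003c0010e00070000000000) := T_41 (nat_lit 109) (nat_lit 92) (nat_lit 4) (nat_lit 8) (nat_lit 9) L112594 (by decide +kernel)
theorem L112596 : W_41 (nat_lit 8) (nat_lit 0x2000100008000400000002000f000000000000000) (nat_lit 0x0) (nat_lit 0x20001003c0010e00c70000000000) := T_41 (nat_lit 46) (nat_lit 47) (nat_lit 2) (nat_lit 9) (nat_lit 3) L112595 (by decide +kernel)
theorem L112597 : W_41 (nat_lit 2) (nat_lit 0x600010000800060000001a000f000400000000000) (nat_lit 0x0) (nat_lit 0x20001000000000000000020000000) := D_41 (nat_lit 96) (nat_lit 113) (nat_lit 29) (nat_lit 6) (nat_lit 11) (nat_lit 6) (nat_lit 5) (nat_lit 12) (nat_lit 1) (by decide +kernel)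
theorem L112598 : W_41 (nat_lit 3) (nat_lit 0x6000100008000600000012000f000400000000000) (nat_lit 0x0) (nat_lit 0x20001000080000800000020000000) := T_41 (nat_lit 79) (nat_lit 59) (nat_lit 3) (nat_lit 8) (nat_lit 3) L112597 (by decide +kernel)
theorem L112599 : W_41 (nat_lit 4) (nat_lit 0x6000100008000600000002000f000400000000000) (nat_lit 0x0) (nat_lit 0x20001000380000800000020000000) := T_41 (nat_lit 80) (nat_lit 81) (nat_lit 3) (nat_lit 9) (nat_lit 3) L112598 (by decide +kernel)
theorem L112600 : W_41 (nat_lit 5) (nat_lit 0x6000100008000400000002000f000400000000000) (nat_lit 0x0) (nat_lit 0x22001100380000800000020000000) := T_41 (nat_lit 109) (nat_lit 92) (nat_lit 4) (nat_lit 8) (nat_lit 9) L112599 (by decide +kernel)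
theorem L112601 : W_41 (nat_lit 6) (nat_lit 0x6000100008000400000002000f000000000000000) (nat_lit 0x0) (nat_lit 0x22001100380000800c00020000000) := T_41 (nat_lit 46) (nat_lit 47) (nat_lit 2) (nat_lit 9) (nat_lit 3) L112600 (by decide +kernel)
theorem L112602 : W_41 (nat_lit 7) (nat_lit 0x2000100008000400000002000f000000000000000) (nat_lit 0x0) (nat_lit 0x800040000000000022001100380000800c00020000000) := T_41 (nat_lit 162) (nat_lit 179) (nat_lit 7) (nat_lit 8) (nat_lit 6) L112601 (by decide +kernel)
theorem L112603 : W_41 (nat_lit 9) (nat_lit 0x20001000080004000000020007000000000000000) (nat_lit 0x0) (nat_lit 0x8000400000000000220011003c0018e00df0020000000) := Q_41 (nat_lit 63) (C_41 L112583 (C_41 L112585 (C_41 L112589 (C_41 L112596 (C_41 L112602 N_41))))) (by decide +kernel)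
theorem L112604 : W_41 (nat_lit 2) (nat_lit 0x7000100008000400000022001f000400000000000) (nat_lit 0x0) (nat_lit 0x1c0000000000) := D_41 (nat_lit 43) (nat_lit 44) (nat_lit 42) (nat_lit 0) (nat_lit 13) (nat_lit 3) (nat_lit 0) (nat_lit 12) (nat_lit 3) (by decide +kernel)
theorem L112605 : W_41 (nat_lit 3) (nat_lit 0x7000100008000400000022000f000400000000000) (nat_lit 0x0) (nat_lit 0x4000100001c0000000000) := T_41 (nat_lit 64) (nat_lit 82) (nat_lit 3) (nat_lit 10) (nat_lit 3) L112604 (by decide +kernel)
theorem L112606 : W_41 (nat_lit 4) (nat_lit 0x6000100008000400000022000f000400000000000) (nat_lit 0x0) (nat_lit 0x2000100000000000000000004000100001c0000000000) := T_41 (nat_lit 160) (nat_lit 177) (nat_lit 5) (nat_lit 8) (nat_lit 6) L112605 (by decide +kernel)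
theorem L112607 : W_41 (nat_lit 5) (nat_lit 0x6000100008000400000002000f000400000000000) (nat_lit 0x0) (nat_lit 0x2000100000000000000000007000100001c0000000000) := T_41 (nat_lit 81) (nat_lit 80) (nat_lit 3) (nat_lit 9) (nat_lit 3) L112606 (by decide +kernel)
theorem L112608 : W_41 (nat_lit 6) (nat_lit 0x6000100008000400000002000f000000000000000) (nat_lit 0x0) (nat_lit 0x200010000000000000000000700010000dc0000000000) := T_41 (nat_lit 46) (nat_lit 47) (nat_lit 2) (nat_lit 9) (nat_lit 3) L112607 (by decide +kernel)
theorem L112609 : W_41 (nat_lit 7) (nat_lit 0x2000100008000400000002000f000000000000000) (nat_lit 0x0) (nat_lit 0xa00050000000000000000000700010000dc0000000000) := T_41 (nat_lit 162) (nat_lit 179) (nat_lit 7) (nat_lit 8) (nat_lit 6) L112608 (by decide +kernel)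
theorem L112610 : W_41 (nat_lit 2) (nat_lit 0x6000100008000400000012000f000800000000000) (nat_lit 0x0) (nat_lit 0x40010001000000000000) := D_41 (nat_lit 64) (nat_lit 78) (nat_lit 48) (nat_lit 1) (nat_lit 13) (nat_lit 3) (nat_lit 2) (nat_lit 10) (nat_lit 3) (by decide +kernel)
theorem L112611 : W_41 (nat_lit 3) (nat_lit 0x6000100008000400000012000f000000000000000) (nat_lit 0x0) (nat_lit 0x40010001c00000000000) := T_41 (nat_lit 47) (nat_lit 46) (nat_lit 2) (nat_lit 9) (nat_lit 3) L112610 (by decide +kernel)
theorem L112612 : W_41 (nat_lit 4) (nat_lit 0x2000100008000400000012000f000000000000000) (nat_lit 0x0) (nat_lit 0x800040000000000000000000040010001c00000000000) := T_41 (nat_lit 162) (nat_lit 179) (nat_lit 7) (nat_lit 8) (nat_lit 6) L112611 (by decide +kernel)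
theorem L112613 : W_41 (nat_lit 5) (nat_lit 0x2000100008000400000002000f000000000000000) (nat_lit 0x0) (nat_lit 0x800040000000000000000000340010001c00000000000) := T_41 (nat_lit 80) (nat_lit 81) (nat_lit 3) (nat_lit 9) (nat_lit 3) L112612 (by decide +kernel)
theorem L112614 : W_41 (nat_lit 2) (nat_lit 0x200010000800060010000a000f000400000000000) (nat_lit 0x0) (nat_lit 0x200020001000) := D_41 (nat_lit 29) (nat_lit 12) (nat_lit 45) (nat_lit 5) (nat_lit 12) (nat_lit 0) (nat_lit 6) (nat_lit 11) (nat_lit 5) (by decide +kernel)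
theorem L112615 : W_41 (nat_lit 3) (nat_lit 0x200010000800060000000a000f000400000000000) (nat_lit 0x0) (nat_lit 0x20001000000000000200020001000) := T_41 (nat_lit 96) (nat_lit 113) (nat_lit 6) (nat_lit 11) (nat_lit 6) L112614 (by decide +kernel)
theorem L112616 : W_41 (nat_lit 4) (nat_lit 0x200010000800040000000a000f000400000000000) (nat_lit 0x0) (nat_lit 0x22001100000000000200020001000) := T_41 (nat_lit 109) (nat_lit 92) (nat_lit 4) (nat_lit 8) (nat_lit 9) L112615 (by decide +kernel)
theorem L112617 : W_41 (nat_lit 5) (nat_lit 0x200010000800040000000a000f000000000000000) (nat_lit 0x0) (nat_lit 0x22001100000000000e00020001000) := T_41 (nat_lit 46) (nat_lit 47) (nat_lit 2) (nat_lit 9) (nat_lit 3) L112616 (by decide +kernel)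
theorem L112618 : W_41 (nat_lit 2) (nat_lit 0x700010000800040000001a000f000480000000000) (nat_lit 0x0) (nat_lit 0x1000000000000000020001000) := D_41 (nat_lit 29) (nat_lit 12) (nat_lit 96) (nat_lit 5) (nat_lit 12) (nat_lit 0) (nat_lit 5) (nat_lit 12) (nat_lit 1) (by decide +kernel)
theorem L112619 : W_41 (nat_lit 3) (nat_lit 0x700010000800040000001a000f000080000000000) (nat_lit 0x0) (nat_lit 0x1000000000000c00020001000) := T_41 (nat_lit 46) (nat_lit 47) (nat_lit 2) (nat_lit 9) (nat_lit 3) L112618 (by decide +kernel)
theorem L112620 : W_41 (nat_lit 4) (nat_lit 0x300010000800040000001a000f000080000000000) (nat_lit 0x0) (nat_lit 0x800040000000000000001000000000000c00020001000) := T_41 (nat_lit 162) (nat_lit 179) (nat_lit 7) (nat_lit 8) (nat_lit 6) L112619 (by decide +kernel)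
theorem L112621 : W_41 (nat_lit 5) (nat_lit 0x200010000800040000001a000f000080000000000) (nat_lit 0x0) (nat_lit 0xa00050000000000000001000000000000c00020001000) := T_41 (nat_lit 160) (nat_lit 177) (nat_lit 5) (nat_lit 8) (nat_lit 6) L112620 (by decide +kernel)
theorem L112622 : W_41 (nat_lit 6) (nat_lit 0x200010000800040000000a000f000080000000000) (nat_lit 0x0) (nat_lit 0xa00050000000000000001000300000000c00020001000) := T_41 (nat_lit 80) (nat_lit 81) (nat_lit 3) (nat_lit 9) (nat_lit 3) L112621 (by decide +kernel)
theorem L112623 : W_41 (nat_lit 7) (nat_lit 0x200010000800040000000a000f000000000000000) (nat_lit 0x0) (nat_lit 0xa00050000000000000001000300000000cc0020001000) := T_41 (nat_lit 43) (nat_lit 42) (nat_lit 0) (nat_lit 12) (nat_lit 3) L112622 (by decide +kernel)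
theorem L112624 : W_41 (nat_lit 2) (nat_lit 0x700010000800060000001a000f000600070000000) (nat_lit 0x0) (nat_lit 0x1c0000000000) := D_41 (nat_lit 43) (nat_lit 42) (nat_lit 44) (nat_lit 0) (nat_lit 12) (nat_lit 3) (nat_lit 2) (nat_lit 9) (nat_lit 2) (by decide +kernel)
theorem L112625 : W_41 (nat_lit 3) (nat_lit 0x700010000800060000001a000f000400070000000) (nat_lit 0x0) (nat_lit 0x20000000000003c0000000000) := T_41 (nat_lit 45) (nat_lit 97) (nat_lit 7) (nat_lit 11) (nat_lit 1) L112624 (by decide +kernel)
theorem L112626 : W_41 (nat_lit 4) (nat_lit 0x300010000800060000001a000f000400070000000) (nat_lit 0x0) (nat_lit 0x8000400000000000000020000000000003c0000000000) := T_41 (nat_lit 162) (nat_lit 179) (nat_lit 7) (nat_lit 8) (nat_lit 6) L112625 (by decide +kernel)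
theorem L112627 : W_41 (nat_lit 5) (nat_lit 0x300010000800060000001a000f000400060000000) (nat_lit 0x0) (nat_lit 0x8000400000000000000020000000000003c0010000800) := T_41 (nat_lit 28) (nat_lit 11) (nat_lit 4) (nat_lit 12) (nat_lit 4) L112626 (by decide +kernel)
theorem L112628 : W_41 (nat_lit 6) (nat_lit 0x300010000800060000001a000f000400020000000) (nat_lit 0x0) (nat_lit 0x8000400000000000000020000000000003c0050002800) := T_41 (nat_lit 30) (nat_lit 13) (nat_lit 6) (nat_lit 12) (nat_lit 4) L112627 (by decide +kernel)
theorem L112629 : W_41 (nat_lit 7) (nat_lit 0x300010000800060000000a000f000400020000000) (nat_lit 0x0) (nat_lit 0x8000400000000000000020003000000003c0050002800) := T_41 (nat_lit 80) (nat_lit 81) (nat_lit 3) (nat_lit 9) (nat_lit 3) L112628 (by decide +kernel)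
theorem L112630 : W_41 (nat_lit 8) (nat_lit 0x200010000800060000000a000f000400020000000) (nat_lit 0x0) (nat_lit 0xa000500000000000000020003000000003c0050002800) := T_41 (nat_lit 160) (nat_lit 177) (nat_lit 5) (nat_lit 8) (nat_lit 6) L112629 (by decide +kernel)
theorem L112631 : W_41 (nat_lit 9) (nat_lit 0x200010000800060000000a000f000400000000000) (nat_lit 0x0) (nat_lit 0xa000500000000000000020003000000003c0070003800) := T_41 (nat_lit 29) (nat_lit 12) (nat_lit 5) (nat_lit 12) (nat_lit 0) L112630 (by decide +kernel)
theorem L112632 : W_41 (nat_lit 10) (nat_lit 0x200010000800040000000a000f000400000000000) (nat_lit 0x0) (nat_lit 0xa000500000000000020021003000000003c0070003800) := T_41 (nat_lit 109) (nat_lit 92) (nat_lit 4) (nat_lit 8) (nat_lit 9) L112631 (by decide +kernel)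
theorem L112633 : W_41 (nat_lit 11) (nat_lit 0x200010000800040000000a000f000000000000000) (nat_lit 0x0) (nat_lit 0xa00050000000000002002100300000000fc0070003800) := T_41 (nat_lit 46) (nat_lit 47) (nat_lit 2) (nat_lit 9) (nat_lit 3) L112632 (by decide +kernel)
theorem L112634 : W_41 (nat_lit 2) (nat_lit 0x3000100008000400000006000f000080000000000) (nat_lit 0x0) (nat_lit 0x10000800000000000000004000000) := D_41 (nat_lit 95) (nat_lit 112) (nat_lit 26) (nat_lit 4) (nat_lit 10) (nat_lit 6) (nat_lit 7) (nat_lit 9) (nat_lit 1) (by decide +kernel)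
theorem L112635 : W_41 (nat_lit 3) (nat_lit 0x3000100008000400000006000f000000000000000) (nat_lit 0x0) (nat_lit 0x100008000000000000c0004000000) := T_41 (nat_lit 43) (nat_lit 42) (nat_lit 0) (nat_lit 12) (nat_lit 3) L112634 (by decide +kernel)
theorem L112636 : W_41 (nat_lit 4) (nat_lit 0x2000100008000400000006000f000000000000000) (nat_lit 0x0) (nat_lit 0x2000100000000000100008000000000000c0004000000) := T_41 (nat_lit 160) (nat_lit 177) (nat_lit 5) (nat_lit 8) (nat_lit 6) L112635 (by decide +kernel)
theorem L112637 : W_41 (nat_lit 2) (nat_lit 0x20001000080004000800060007000000000000000) (nat_lit 0x0) (nat_lit 0x200010000000000000000200000000000) := D_41 (nat_lit 112) (nat_lit 45) (nat_lit 129) (nat_lit 6) (nat_lit 10) (nat_lit 6) (nat_lit 4) (nat_lit 10) (nat_lit 7) (by decide +kernel)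
theorem L112638 : W_41 (nat_lit 2) (nat_lit 0x600010000800060008000600070000c0000000000) (nat_lit 0x0) (nat_lit 0x130000000000) := D_41 (nat_lit 41) (nat_lit 40) (nat_lit 44) (nat_lit 3) (nat_lit 6) (nat_lit 2) (nat_lit 3) (nat_lit 7) (nat_lit 2) (by decide +kernel)
theorem L112639 : W_41 (nat_lit 3) (nat_lit 0x60001000080006000800060007000080000000000) (nat_lit 0x0) (nat_lit 0x8000170000000000) := T_41 (nat_lit 42) (nat_lit 63) (nat_lit 0) (nat_lit 12) (nat_lit 3) L112638 (by decide +kernel)
theorem L112640 : W_41 (nat_lit 4) (nat_lit 0x20001000080006000800060007000080000000000) (nat_lit 0x0) (nat_lit 0x800040000000000000000000000008000170000000000) := T_41 (nat_lit 162) (nat_lit 179) (nat_lit 7) (nat_lit 8) (nat_lit 6) L112639 (by decide +kernel)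
theorem L112641 : W_41 (nat_lit 5) (nat_lit 0x20001000080006000800060007000000000000000) (nat_lit 0x0) (nat_lit 0x8000400000000000000000000000080001f0004000000) := T_41 (nat_lit 43) (nat_lit 26) (nat_lit 7) (nat_lit 9) (nat_lit 1) L112640 (by decide +kernel)
theorem L112642 : W_41 (nat_lit 6) (nat_lit 0x20001000080004000800060007000000000000000) (nat_lit 0x0) (nat_lit 0x8000400000000000020001000000080001f0004000000) := T_41 (nat_lit 109) (nat_lit 92) (nat_lit 4) (nat_lit 8) (nat_lit 9) L112641 (by decide +kernel)
theorem L112643 : W_41 (nat_lit 7) (nat_lit 0x20001000080004000000060007000000000000000) (nat_lit 0x0) (nat_lit 0x8000400000002000120009000000080003f0004000000) := Q_41 (nat_lit 95) (C_41 L112637 (C_41 L112642 N_41)) (by decide +kernel)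
theorem L112644 : W_41 (nat_lit 2) (nat_lit 0x700010000800040020001e0007000200000000000) (nat_lit 0x0) (nat_lit 0x800040001000000000000000000000000) := D_41 (nat_lit 114) (nat_lit 131) (nat_lit 96) (nat_lit 4) (nat_lit 12) (nat_lit 7) (nat_lit 7) (nat_lit 11) (nat_lit 2) (by decide +kernel)
theorem L112645 : W_41 (nat_lit 3) (nat_lit 0x700010000800040020001e0007000000000000000) (nat_lit 0x0) (nat_lit 0x800040001000000000000200010000000) := T_41 (nat_lit 45) (nat_lit 28) (nat_lit 7) (nat_lit 11) (nat_lit 1) L112644 (by decide +kernel)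
theorem L112646 : W_41 (nat_lit 4) (nat_lit 0x300010000800040020001e0007000000000000000) (nat_lit 0x0) (nat_lit 0x800040000000800040001000000000000200010000000) := T_41 (nat_lit 162) (nat_lit 179) (nat_lit 7) (nat_lit 8) (nat_lit 6) L112645 (by decide +kernel)
theorem L112647 : W_41 (nat_lit 5) (nat_lit 0x300010000800040000001e0007000000000000000) (nat_lit 0x0) (nat_lit 0x800040000000800040007000000000000200010000000) := T_41 (nat_lit 97) (nat_lit 98) (nat_lit 3) (nat_lit 9) (nat_lit 4) L112646 (by decide +kernel)
theorem L112648 : W_41 (nat_lit 6) (nat_lit 0x200010000800040000001e0007000000000000000) (nat_lit 0x0) (nat_lit 0xa00050000000800040007000000000000200010000000) := T_41 (nat_lit 160) (nat_lit 177) (nat_lit 5) (nat_lit 8) (nat_lit 6) L112647 (by decide +kernel)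
theorem L112649 : W_41 (nat_lit 7) (nat_lit 0x200010000800040000000e0007000000000000000) (nat_lit 0x0) (nat_lit 0xa00050000000800040007000300000000200010000000) := T_41 (nat_lit 80) (nat_lit 81) (nat_lit 0) (nat_lit 13) (nat_lit 4) L112648 (by decide +kernel)
theorem L112650 : W_41 (nat_lit 5) (nat_lit 0x3000100008000400000002000f000000000000000) (nat_lit 0x0) (nat_lit 0x20001007000100001c0000000000) := T_41 (nat_lit 43) (nat_lit 42) (nat_lit 0) (nat_lit 12) (nat_lit 3) L112529 (by decide +kernel)
theorem L112651 : W_41 (nat_lit 2) (nat_lit 0x6000100008000400000002001f000000000000000) (nat_lit 0x0) (nat_lit 0x1c0000000000) := D_41 (nat_lit 43) (nat_lit 44) (nat_lit 42) (nat_lit 0) (nat_lit 13) (nat_lit 3) (nat_lit 0) (nat_lit 12) (nat_lit 3) (by decide +kernel)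
theorem L112652 : W_41 (nat_lit 3) (nat_lit 0x6000100008000400000002000f000000000000000) (nat_lit 0x0) (nat_lit 0x400100001c0000000000) := T_41 (nat_lit 64) (nat_lit 78) (nat_lit 1) (nat_lit 13) (nat_lit 3) L112651 (by decide +kernel)
theorem L112653 : W_41 (nat_lit 2) (nat_lit 0x6000100008000400000002001f000000000000000) (nat_lit 0x0) (nat_lit 0x1c00000000000) := D_41 (nat_lit 47) (nat_lit 46) (nat_lit 48) (nat_lit 2) (nat_lit 9) (nat_lit 3) (nat_lit 2) (nat_lit 10) (nat_lit 3) (by decide +kernel)
theorem L112654 : W_41 (nat_lit 3) (nat_lit 0x6000100008000400000002000f000000000000000) (nat_lit 0x0) (nat_lit 0x40010001c00000000000) := T_41 (nat_lit 64) (nat_lit 78) (nat_lit 1) (nat_lit 13) (nat_lit 3) L112653 (by decide +kernel)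
theorem L112655 : W_41 (nat_lit 2) (nat_lit 0x200010000800060000000e0007800200000000000) (nat_lit 0x0) (nat_lit 0x800000000000000010000800) := D_41 (nat_lit 28) (nat_lit 95) (nat_lit 11) (nat_lit 5) (nat_lit 11) (nat_lit 1) (nat_lit 5) (nat_lit 11) (nat_lit 0) (by decide +kernel)
theorem L112656 : W_41 (nat_lit 3) (nat_lit 0x20001000080006000000060007800200000000000) (nat_lit 0x0) (nat_lit 0x800180000000000010000800) := T_41 (nat_lit 79) (nat_lit 80) (nat_lit 3) (nat_lit 8) (nat_lit 3) L112655 (by decide +kernel)
theorem L112657 : W_41 (nat_lit 4) (nat_lit 0x20001000080006000000060007800000000000000) (nat_lit 0x0) (nat_lit 0x800180000000600010000800) := T_41 (nat_lit 45) (nat_lit 46) (nat_lit 2) (nat_lit 8) (nat_lit 3) L112656 (by decide +kernel)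
theorem L112658 : W_41 (nat_lit 5) (nat_lit 0x20001000080004000000060007800000000000000) (nat_lit 0x0) (nat_lit 0x2000900180000000600010000800) := T_41 (nat_lit 109) (nat_lit 92) (nat_lit 4) (nat_lit 8) (nat_lit 9) L112657 (by decide +kernel)
theorem L112659 : W_41 (nat_lit 2) (nat_lit 0x300010000800040000000e0007800200000000000) (nat_lit 0x0) (nat_lit 0x800000000000000010000800) := D_41 (nat_lit 28) (nat_lit 95) (nat_lit 11) (nat_lit 5) (nat_lit 11) (nat_lit 1) (nat_lit 5) (nat_lit 11) (nat_lit 0) (by decide +kernel)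
theorem L112660 : W_41 (nat_lit 3) (nat_lit 0x30001000080004000000060007800200000000000) (nat_lit 0x0) (nat_lit 0x800180000000000010000800) := T_41 (nat_lit 79) (nat_lit 80) (nat_lit 3) (nat_lit 8) (nat_lit 3) L112659 (by decide +kernel)
theorem L112661 : W_41 (nat_lit 4) (nat_lit 0x30001000080004000000060007800000000000000) (nat_lit 0x0) (nat_lit 0x800180000000600010000800) := T_41 (nat_lit 45) (nat_lit 46) (nat_lit 2) (nat_lit 8) (nat_lit 3) L112660 (by decide +kernel)
theorem L112662 : W_41 (nat_lit 5) (nat_lit 0x20001000080004000000060007800000000000000) (nat_lit 0x0) (nat_lit 0x200010000000000000000800180000000600010000800) := T_41 (nat_lit 160) (nat_lit 177) (nat_lit 5) (nat_lit 8) (nat_lit 6) L112661 (by decide +kernel)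
theorem L112663 : W_41 (nat_lit 2) (nat_lit 0x200010000800040000000a0007800100008000000) (nat_lit 0x0) (nat_lit 0x20001000040000000000000000000) := D_41 (nat_lit 96) (nat_lit 113) (nat_lit 78) (nat_lit 4) (nat_lit 11) (nat_lit 6) (nat_lit 7) (nat_lit 10) (nat_lit 1) (by decide +kernel)
theorem L112664 : W_41 (nat_lit 3) (nat_lit 0x200010000800040000000a0007800100000000000) (nat_lit 0x0) (nat_lit 0x20001000040000000000008000400) := T_41 (nat_lit 27) (nat_lit 10) (nat_lit 7) (nat_lit 10) (nat_lit 0) L112663 (by decide +kernel)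
theorem L112665 : W_41 (nat_lit 4) (nat_lit 0x20001000080004000000020007800100000000000) (nat_lit 0x0) (nat_lit 0x200010001c0000000000008000400) := T_41 (nat_lit 79) (nat_lit 80) (nat_lit 3) (nat_lit 8) (nat_lit 3) L112664 (by decide +kernel)
theorem L112666 : W_41 (nat_lit 2) (nat_lit 0x700010000800060000000200078003c0012000400) (nat_lit 0x0) (nat_lit 0x800040000000000000000800) := D_41 (nat_lit 78) (nat_lit 11) (nat_lit 95) (nat_lit 5) (nat_lit 11) (nat_lit 0) (nat_lit 6) (nat_lit 10) (nat_lit 5) (by decide +kernel)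
theorem L112667 : W_41 (nat_lit 3) (nat_lit 0x700010000800060000000200078003c0002000400) (nat_lit 0x0) (nat_lit 0x800040000000000030000800) := T_41 (nat_lit 28) (nat_lit 29) (nat_lit 2) (nat_lit 8) (nat_lit 2) L112666 (by decide +kernel)
theorem L112668 : W_41 (nat_lit 4) (nat_lit 0x70001000080006000000020007800340002000400) (nat_lit 0x0) (nat_lit 0x800040000000080031000800) := T_41 (nat_lit 43) (nat_lit 24) (nat_lit 0) (nat_lit 11) (nat_lit 2) L112667 (by decide +kernel)
theorem L112669 : W_41 (nat_lit 5) (nat_lit 0x70001000080006000000020007800340000000400) (nat_lit 0x0) (nat_lit 0x800040000000080033000900) := T_41 (nat_lit 25) (nat_lit 8) (nat_lit 7) (nat_lit 8) (nat_lit 0) L112668 (by decide +kernel)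
theorem L112670 : W_41 (nat_lit 6) (nat_lit 0x70001000080004000000020007800340000000400) (nat_lit 0x0) (nat_lit 0x2000900040000000080033000900) := T_41 (nat_lit 109) (nat_lit 92) (nat_lit 4) (nat_lit 8) (nat_lit 9) L112669 (by decide +kernel)
theorem L112671 : W_41 (nat_lit 7) (nat_lit 0x70001000080004000000020007800300000000400) (nat_lit 0x0) (nat_lit 0x20009000400000000e0033000900) := T_41 (nat_lit 42) (nat_lit 41) (nat_lit 0) (nat_lit 11) (nat_lit 3) L112670 (by decide +kernel)
theorem L112672 : W_41 (nat_lit 8) (nat_lit 0x60001000080004000000020007800300000000400) (nat_lit 0x0) (nat_lit 0x2000100000000000020009000400000000e0033000900) := T_41 (nat_lit 160) (nat_lit 177) (nat_lit 5) (nat_lit 8) (nat_lit 6) L112671 (by decide +kernel)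
theorem L112673 : W_41 (nat_lit 9) (nat_lit 0x20001000080004000000020007800300000000400) (nat_lit 0x0) (nat_lit 0xa000500000000000020009000400000000e0033000900) := T_41 (nat_lit 162) (nat_lit 179) (nat_lit 7) (nat_lit 8) (nat_lit 6) L112672 (by decide +kernel)
theorem L112674 : W_41 (nat_lit 10) (nat_lit 0x20001000080004000000020007800300000000000) (nat_lit 0x0) (nat_lit 0xa000500000000000020009000400000000e003b000d00) := T_41 (nat_lit 10) (nat_lit 27) (nat_lit 5) (nat_lit 10) (nat_lit 0) L112673 (by decide +kernel)
theorem L112675 : W_41 (nat_lit 11) (nat_lit 0x20001000080004000000020007800100000000000) (nat_lit 0x0) (nat_lit 0xa000500000000000020009000400000006e003b000d00) := T_41 (nat_lit 45) (nat_lit 46) (nat_lit 2) (nat_lit 8) (nat_lit 3) L112674 (by decide +kernel)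
theorem L112676 : W_41 (nat_lit 2) (nat_lit 0x200010000800040000000a0007800140008000100) (nat_lit 0x0) (nat_lit 0x1000000000000600000000000) := D_41 (nat_lit 45) (nat_lit 46) (nat_lit 96) (nat_lit 2) (nat_lit 8) (nat_lit 3) (nat_lit 4) (nat_lit 11) (nat_lit 5) (by decide +kernel)
theorem L112677 : W_41 (nat_lit 3) (nat_lit 0x200010000800040000000a0007800140000000100) (nat_lit 0x0) (nat_lit 0x1000000000000600008000400) := T_41 (nat_lit 27) (nat_lit 10) (nat_lit 7) (nat_lit 10) (nat_lit 0) L112676 (by decide +kernel)
theorem L112678 : W_41 (nat_lit 4) (nat_lit 0x200010000800040000000a0007800140000000000) (nat_lit 0x0) (nat_lit 0x100000000000060000a000500) := T_41 (nat_lit 8) (nat_lit 25) (nat_lit 7) (nat_lit 8) (nat_lit 0) L112677 (by decide +kernel)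
theorem L112679 : W_41 (nat_lit 5) (nat_lit 0x20001000080004000000020007800140000000000) (nat_lit 0x0) (nat_lit 0x100018000000060000a000500) := T_41 (nat_lit 79) (nat_lit 80) (nat_lit 3) (nat_lit 8) (nat_lit 3) L112678 (by decide +kernel)
theorem L112680 : W_41 (nat_lit 6) (nat_lit 0x20001000080004000000020007800100000000000) (nat_lit 0x0) (nat_lit 0x100018000000066000a000500) := T_41 (nat_lit 42) (nat_lit 41) (nat_lit 0) (nat_lit 11) (nat_lit 3) L112679 (by decide +kernel)
theorem L112681 : W_41 (nat_lit 2) (nat_lit 0x600010000800260000000a00078003c0012000000) (nat_lit 0x0) (nat_lit 0x800040000000000000000800) := D_41 (nat_lit 78) (nat_lit 11) (nat_lit 95) (nat_lit 5) (nat_lit 11) (nat_lit 0) (nat_lit 6) (nat_lit 10) (nat_lit 5) (by decide +kernel)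
theorem L112682 : W_41 (nat_lit 3) (nat_lit 0x600010000800260000000a00078003c0002000000) (nat_lit 0x0) (nat_lit 0x800040000000000030000800) := T_41 (nat_lit 28) (nat_lit 29) (nat_lit 2) (nat_lit 8) (nat_lit 2) L112681 (by decide +kernel)
theorem L112683 : W_41 (nat_lit 4) (nat_lit 0x600010000800260000000a0007800340002000000) (nat_lit 0x0) (nat_lit 0x800040000000080031000800) := T_41 (nat_lit 43) (nat_lit 24) (nat_lit 0) (nat_lit 11) (nat_lit 2) L112682 (by decide +kernel)
theorem L112684 : W_41 (nat_lit 5) (nat_lit 0x600010000800260000000a0007800140002000000) (nat_lit 0x0) (nat_lit 0x800040000000680031000800) := T_41 (nat_lit 45) (nat_lit 46) (nat_lit 2) (nat_lit 8) (nat_lit 3) L112683 (by decide +kernel)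
theorem L112685 : W_41 (nat_lit 6) (nat_lit 0x200010000800260000000a0007800140002000000) (nat_lit 0x0) (nat_lit 0x800040000000000000000800040000000680031000800) := T_41 (nat_lit 162) (nat_lit 179) (nat_lit 7) (nat_lit 8) (nat_lit 6) L112684 (by decide +kernel)
theorem L112686 : W_41 (nat_lit 7) (nat_lit 0x200010000800260000000a0007800140000000000) (nat_lit 0x0) (nat_lit 0x800040000000000000000800040000000680033000900) := T_41 (nat_lit 25) (nat_lit 8) (nat_lit 7) (nat_lit 8) (nat_lit 0) L112685 (by decide +kernel)
theorem L112687 : W_41 (nat_lit 8) (nat_lit 0x200010000800060000000a0007800140000000000) (nat_lit 0x0) (nat_lit 0x800040000000000020001800040000000680033000900) := T_41 (nat_lit 113) (nat_lit 96) (nat_lit 4) (nat_lit 11) (nat_lit 6) L112686 (by decide +kernel)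
theorem L112688 : W_41 (nat_lit 9) (nat_lit 0x20001000080006000000020007800140000000000) (nat_lit 0x0) (nat_lit 0x8000400000000000200018001c0000000680033000900) := T_41 (nat_lit 79) (nat_lit 80) (nat_lit 3) (nat_lit 8) (nat_lit 3) L112687 (by decide +kernel)
theorem L112689 : W_41 (nat_lit 10) (nat_lit 0x20001000080006000000020007800100000000000) (nat_lit 0x0) (nat_lit 0x8000400000000000200018001c00000006e0033000900) := T_41 (nat_lit 42) (nat_lit 41) (nat_lit 0) (nat_lit 11) (nat_lit 3) L112688 (by decide +kernel)
theorem L112690 : W_41 (nat_lit 11) (nat_lit 0x20001000080004000000020007800100000000000) (nat_lit 0x0) (nat_lit 0x8000400000000000220019001c00000006e0033000900) := T_41 (nat_lit 109) (nat_lit 92) (nat_lit 4) (nat_lit 8) (nat_lit 9) L112689 (by decide +kernel)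
theorem L112691 : W_41 (nat_lit 12) (nat_lit 0x20001000080004000000020007800000000000000) (nat_lit 0x0) (nat_lit 0xa000500000000000220019001c00000007e003b000d00) := Q_41 (nat_lit 44) (C_41 L112665 (C_41 L112675 (C_41 L112680 (C_41 L112690 N_41)))) (by decide +kernel)
theorem L112692 : W_41 (nat_lit 2) (nat_lit 0x200010000800060000000a0007c00200000000000) (nat_lit 0x0) (nat_lit 0x70000000000) := D_41 (nat_lit 41) (nat_lit 40) (nat_lit 42) (nat_lit 0) (nat_lit 10) (nat_lit 3) (nat_lit 0) (nat_lit 11) (nat_lit 3) (by decide +kernel)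
theorem L112693 : W_41 (nat_lit 3) (nat_lit 0x200010000800060000000a0007800200000000000) (nat_lit 0x0) (nat_lit 0x400170000000000) := T_41 (nat_lit 58) (nat_lit 44) (nat_lit 2) (nat_lit 7) (nat_lit 3) L112692 (by decide +kernel)
theorem L112694 : W_41 (nat_lit 4) (nat_lit 0x200010000800060000000a0007800000000000000) (nat_lit 0x0) (nat_lit 0x400770000000000) := T_41 (nat_lit 45) (nat_lit 46) (nat_lit 2) (nat_lit 8) (nat_lit 3) L112693 (by decide +kernel)
theorem L112695 : W_41 (nat_lit 2) (nat_lit 0x3000100008000600000002001f000480000000000) (nat_lit 0x0) (nat_lit 0x700000000000000000000) := D_41 (nat_lit 81) (nat_lit 80) (nat_lit 82) (nat_lit 3) (nat_lit 9) (nat_lit 3) (nat_lit 3) (nat_lit 10) (nat_lit 3) (by decide +kernel)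
theorem L112696 : W_41 (nat_lit 3) (nat_lit 0x3000100008000600000002000f000480000000000) (nat_lit 0x0) (nat_lit 0x740010000000000000000) := T_41 (nat_lit 64) (nat_lit 78) (nat_lit 1) (nat_lit 13) (nat_lit 3) L112695 (by decide +kernel)
theorem L112697 : W_41 (nat_lit 4) (nat_lit 0x2000100008000600000002000f000480000000000) (nat_lit 0x0) (nat_lit 0x200010000000000000000000740010000000000000000) := T_41 (nat_lit 160) (nat_lit 177) (nat_lit 5) (nat_lit 8) (nat_lit 6) L112696 (by decide +kernel)
theorem L112698 : W_41 (nat_lit 5) (nat_lit 0x2000100008000400000002000f000480000000000) (nat_lit 0x0) (nat_lit 0x200010000000000002000100740010000000000000000) := T_41 (nat_lit 109) (nat_lit 92) (nat_lit 4) (nat_lit 8) (nat_lit 9) L112697 (by decide +kernel)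
theorem L112699 : W_41 (nat_lit 6) (nat_lit 0x2000100008000400000002000f000080000000000) (nat_lit 0x0) (nat_lit 0x200010000000000002000100740010000c00000000000) := T_41 (nat_lit 46) (nat_lit 47) (nat_lit 2) (nat_lit 9) (nat_lit 3) L112698 (by decide +kernel)
theorem L112700 : W_41 (nat_lit 2) (nat_lit 0x7000100008000600000002001f000080000000000) (nat_lit 0x0) (nat_lit 0x1c00000000000) := D_41 (nat_lit 47) (nat_lit 46) (nat_lit 48) (nat_lit 2) (nat_lit 9) (nat_lit 3) (nat_lit 2) (nat_lit 10) (nat_lit 3) (by decide +kernel)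
theorem L112701 : W_41 (nat_lit 3) (nat_lit 0x7000100008000600000002000f000080000000000) (nat_lit 0x0) (nat_lit 0x40010001c00000000000) := T_41 (nat_lit 64) (nat_lit 78) (nat_lit 1) (nat_lit 13) (nat_lit 3) L112700 (by decide +kernel)
theorem L112702 : W_41 (nat_lit 2) (nat_lit 0x200010000800040000000a0007800100008000000) (nat_lit 0x0) (nat_lit 0x1000000000000600000000000) := D_41 (nat_lit 45) (nat_lit 46) (nat_lit 96) (nat_lit 2) (nat_lit 8) (nat_lit 3) (nat_lit 4) (nat_lit 11) (nat_lit 5) (by decide +kernel)
theorem L112703 : W_41 (nat_lit 3) (nat_lit 0x200010000800040000000a0007800100000000000) (nat_lit 0x0) (nat_lit 0x1000000000000600008000400) := T_41 (nat_lit 27) (nat_lit 10) (nat_lit 7) (nat_lit 10) (nat_lit 0) L112702 (by decide +kernel)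
theorem L112704 : W_41 (nat_lit 4) (nat_lit 0x20001000080004000000020007800100000000000) (nat_lit 0x0) (nat_lit 0x1000180000000600008000400) := T_41 (nat_lit 79) (nat_lit 80) (nat_lit 3) (nat_lit 8) (nat_lit 3) L112703 (by decide +kernel)
theorem L112705 : W_41 (nat_lit 2) (nat_lit 0x200010000800040000000a0007c00200000000000) (nat_lit 0x0) (nat_lit 0x70000000000) := D_41 (nat_lit 41) (nat_lit 40) (nat_lit 42) (nat_lit 0) (nat_lit 10) (nat_lit 3) (nat_lit 0) (nat_lit 11) (nat_lit 3) (by decide +kernel)
theorem L112706 : W_41 (nat_lit 3) (nat_lit 0x200010000800040000000a0007800200000000000) (nat_lit 0x0) (nat_lit 0x400170000000000) := T_41 (nat_lit 58) (nat_lit 44) (nat_lit 2) (nat_lit 7) (nat_lit 3) L112705 (by decide +kernel)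
theorem L112707 : W_41 (nat_lit 4) (nat_lit 0x200010000800040000000a0007800000000000000) (nat_lit 0x0) (nat_lit 0x400770000000000) := T_41 (nat_lit 45) (nat_lit 46) (nat_lit 2) (nat_lit 8) (nat_lit 3) L112706 (by decide +kernel)
theorem L112708 : W_41 (nat_lit 5) (nat_lit 0x20001000080004000000020007800000000000000) (nat_lit 0x0) (nat_lit 0x180000400770000000000) := T_41 (nat_lit 79) (nat_lit 80) (nat_lit 3) (nat_lit 8) (nat_lit 3) L112707 (by decide +kernel)
theorem L112709 : W_41 (nat_lit 2) (nat_lit 0x20001000080006000000020007c00020000000000) (nat_lit 0x0) (nat_lit 0x700000000000) := D_41 (nat_lit 45) (nat_lit 46) (nat_lit 44) (nat_lit 2) (nat_lit 8) (nat_lit 3) (nat_lit 2) (nat_lit 7) (nat_lit 3) (by decide +kernel)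
theorem L112710 : W_41 (nat_lit 3) (nat_lit 0x20001000080006000000020007800020000000000) (nat_lit 0x0) (nat_lit 0x400710000000000) := T_41 (nat_lit 58) (nat_lit 40) (nat_lit 0) (nat_lit 10) (nat_lit 3) L112709 (by decide +kernel)
theorem L112711 : W_41 (nat_lit 4) (nat_lit 0x20001000080004000000020007800020000000000) (nat_lit 0x0) (nat_lit 0x2000100000000400710000000000) := T_41 (nat_lit 109) (nat_lit 92) (nat_lit 4) (nat_lit 8) (nat_lit 9) L112710 (by decide +kernel)
theorem L112712 : W_41 (nat_lit 5) (nat_lit 0x20001000080004000000020007800000000000000) (nat_lit 0x0) (nat_lit 0x2000100000000400770000000000) := T_41 (nat_lit 41) (nat_lit 42) (nat_lit 0) (nat_lit 11) (nat_lit 3) L112711 (by decide +kernel)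
theorem L112713 : W_41 (nat_lit 2) (nat_lit 0x200010000800040000001a0007000000000000000) (nat_lit 0x0) (nat_lit 0x600008000000000000000) := D_41 (nat_lit 81) (nat_lit 63) (nat_lit 82) (nat_lit 3) (nat_lit 9) (nat_lit 3) (nat_lit 0) (nat_lit 14) (nat_lit 4) (by decide +kernel)
theorem L112714 : W_41 (nat_lit 2) (nat_lit 0x7000100008000400000002000f800400000000000) (nat_lit 0x0) (nat_lit 0x380000000000000000000) := D_41 (nat_lit 80) (nat_lit 81) (nat_lit 79) (nat_lit 3) (nat_lit 9) (nat_lit 3) (nat_lit 3) (nat_lit 8) (nat_lit 3) (by decide +kernel)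
theorem L112715 : W_41 (nat_lit 3) (nat_lit 0x7000100008000400000002000f000400000000000) (nat_lit 0x0) (nat_lit 0x380000800200000000000) := T_41 (nat_lit 59) (nat_lit 45) (nat_lit 2) (nat_lit 8) (nat_lit 3) L112714 (by decide +kernel)
theorem L112716 : W_41 (nat_lit 4) (nat_lit 0x7000100008000400000002000f000000000000000) (nat_lit 0x0) (nat_lit 0x380000800e00000000000) := T_41 (nat_lit 46) (nat_lit 47) (nat_lit 2) (nat_lit 9) (nat_lit 3) L112715 (by decide +kernel)
theorem L112717 : W_41 (nat_lit 5) (nat_lit 0x3000100008000400000002000f000000000000000) (nat_lit 0x0) (nat_lit 0x800040000000000000000000380000800e00000000000) := T_41 (nat_lit 162) (nat_lit 179) (nat_lit 7) (nat_lit 8) (nat_lit 6) L112716 (by decide +kernel)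
theorem L112718 : W_41 (nat_lit 2) (nat_lit 0x6000100008000400000012000f800000000000000) (nat_lit 0x0) (nat_lit 0xe00000000000) := D_41 (nat_lit 46) (nat_lit 45) (nat_lit 47) (nat_lit 2) (nat_lit 8) (nat_lit 3) (nat_lit 2) (nat_lit 9) (nat_lit 3) (by decide +kernel)
theorem L112719 : W_41 (nat_lit 3) (nat_lit 0x6000100008000400000012000f000000000000000) (nat_lit 0x0) (nat_lit 0x80000800e00000000000) := T_41 (nat_lit 59) (nat_lit 79) (nat_lit 3) (nat_lit 8) (nat_lit 3) L112718 (by decide +kernel)
theorem L112720 : W_41 (nat_lit 4) (nat_lit 0x6000100008000400000002000f000000000000000) (nat_lit 0x0) (nat_lit 0x380000800e00000000000) := T_41 (nat_lit 80) (nat_lit 81) (nat_lit 3) (nat_lit 9) (nat_lit 3) L112719 (by decide +kernel)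
theorem L112721 : W_41 (nat_lit 2) (nat_lit 0x300010000800060000001a000f000400000000000) (nat_lit 0x0) (nat_lit 0x1000000000000000020001000) := D_41 (nat_lit 29) (nat_lit 12) (nat_lit 96) (nat_lit 5) (nat_lit 12) (nat_lit 0) (nat_lit 5) (nat_lit 12) (nat_lit 1) (by decide +kernel)
theorem L112722 : W_41 (nat_lit 3) (nat_lit 0x300010000800060000001a000f000000000000000) (nat_lit 0x0) (nat_lit 0x1000000000000c00020001000) := T_41 (nat_lit 46) (nat_lit 47) (nat_lit 2) (nat_lit 9) (nat_lit 3) L112721 (by decide +kernel)
theorem L112723 : W_41 (nat_lit 4) (nat_lit 0x3000100008000600000012000f000000000000000) (nat_lit 0x0) (nat_lit 0x1000080000800c00020001000) := T_41 (nat_lit 79) (nat_lit 59) (nat_lit 3) (nat_lit 8) (nat_lit 3) L112722 (by decide +kernel)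
theorem L112724 : W_41 (nat_lit 5) (nat_lit 0x3000100008000600000002000f000000000000000) (nat_lit 0x0) (nat_lit 0x1000380000800c00020001000) := T_41 (nat_lit 80) (nat_lit 81) (nat_lit 3) (nat_lit 9) (nat_lit 3) L112723 (by decide +kernel)
theorem L112725 : W_41 (nat_lit 6) (nat_lit 0x2000100008000600000002000f000000000000000) (nat_lit 0x0) (nat_lit 0x200010000000000000001000380000800c00020001000) := T_41 (nat_lit 160) (nat_lit 177) (nat_lit 5) (nat_lit 8) (nat_lit 6) L112724 (by decide +kernel)
theorem L112726 : W_41 (nat_lit 2) (nat_lit 0x3000100008000600000002001f000800000000000) (nat_lit 0x0) (nat_lit 0x700000000000000000000) := D_41 (nat_lit 81) (nat_lit 80) (nat_lit 82) (nat_lit 3) (nat_lit 9) (nat_lit 3) (nat_lit 3) (nat_lit 10) (nat_lit 3) (by decide +kernel)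
theorem L112727 : W_41 (nat_lit 3) (nat_lit 0x3000100008000600000002000f000800000000000) (nat_lit 0x0) (nat_lit 0x700010001000000000000) := T_41 (nat_lit 64) (nat_lit 48) (nat_lit 2) (nat_lit 10) (nat_lit 3) L112726 (by decide +kernel)
theorem L112728 : W_41 (nat_lit 4) (nat_lit 0x2000100008000600000002000f000800000000000) (nat_lit 0x0) (nat_lit 0x200010000000000000000000700010001000000000000) := T_41 (nat_lit 160) (nat_lit 177) (nat_lit 5) (nat_lit 8) (nat_lit 6) L112727 (by decide +kernel)
theorem L112729 : W_41 (nat_lit 5) (nat_lit 0x2000100008000600000002000f000000000000000) (nat_lit 0x0) (nat_lit 0x200010000000000000000000700010001c00000000000) := T_41 (nat_lit 47) (nat_lit 46) (nat_lit 2) (nat_lit 9) (nat_lit 3) L112728 (by decide +kernel)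
theorem L112730 : W_41 (nat_lit 2) (nat_lit 0x7000100008000400000002001f000080000000000) (nat_lit 0x0) (nat_lit 0x700000000000000000000) := D_41 (nat_lit 81) (nat_lit 80) (nat_lit 82) (nat_lit 3) (nat_lit 9) (nat_lit 3) (nat_lit 3) (nat_lit 10) (nat_lit 3) (by decide +kernel)
theorem L112731 : W_41 (nat_lit 3) (nat_lit 0x7000100008000400000002000f000080000000000) (nat_lit 0x0) (nat_lit 0x700010000100000000000) := T_41 (nat_lit 64) (nat_lit 44) (nat_lit 0) (nat_lit 13) (nat_lit 3) L112730 (by decide +kernel)
theorem L112732 : W_41 (nat_lit 4) (nat_lit 0x6000100008000400000002000f000080000000000) (nat_lit 0x0) (nat_lit 0x200010000000000000000000700010000100000000000) := T_41 (nat_lit 160) (nat_lit 177) (nat_lit 5) (nat_lit 8) (nat_lit 6) L112731 (by decide +kernel)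
theorem L112733 : W_41 (nat_lit 5) (nat_lit 0x6000100008000400000002000f000000000000000) (nat_lit 0x0) (nat_lit 0x2000100000000000000000007000100001c0000000000) := T_41 (nat_lit 43) (nat_lit 42) (nat_lit 0) (nat_lit 12) (nat_lit 3) L112732 (by decide +kernel)
theorem L112734 : W_41 (nat_lit 2) (nat_lit 0x3000100008000600000002000f800400000000000) (nat_lit 0x0) (nat_lit 0xe0000000000) := D_41 (nat_lit 42) (nat_lit 41) (nat_lit 43) (nat_lit 0) (nat_lit 11) (nat_lit 3) (nat_lit 0) (nat_lit 12) (nat_lit 3) (by decide +kernel)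
theorem L112735 : W_41 (nat_lit 3) (nat_lit 0x3000100008000600000002000f000400000000000) (nat_lit 0x0) (nat_lit 0x8002e0000000000) := T_41 (nat_lit 59) (nat_lit 45) (nat_lit 2) (nat_lit 8) (nat_lit 3) L112734 (by decide +kernel)
theorem L112736 : W_41 (nat_lit 4) (nat_lit 0x3000100008000600000002000f000000000000000) (nat_lit 0x0) (nat_lit 0x800ee0000000000) := T_41 (nat_lit 46) (nat_lit 47) (nat_lit 2) (nat_lit 9) (nat_lit 3) L112735 (by decide +kernel)
theorem L112737 : W_41 (nat_lit 5) (nat_lit 0x3000100008000400000002000f000000000000000) (nat_lit 0x0) (nat_lit 0x2000100000000800ee0000000000) := T_41 (nat_lit 109) (nat_lit 92) (nat_lit 4) (nat_lit 8) (nat_lit 9) L112736 (by decide +kernel)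
theorem L112738 : W_41 (nat_lit 6) (nat_lit 0x30001000080004000000020007000000000000000) (nat_lit 0x0) (nat_lit 0x800040000000000002000100780018800fe0000000000) := Q_41 (nat_lit 63) (C_41 L112650 (C_41 L112717 (C_41 L112737 N_41))) (by decide +kernel)
theorem L112739 : W_41 (nat_lit 4) (nat_lit 0x2000100008000600000002000f000000000000000) (nat_lit 0x0) (nat_lit 0x10001dc0000000000) := T_41 (nat_lit 43) (nat_lit 42) (nat_lit 0) (nat_lit 12) (nat_lit 3) L112522 (by decide +kernel)
theorem L112740 : W_41 (nat_lit 2) (nat_lit 0x200010000800040000000a0005800200000000000) (nat_lit 0x0) (nat_lit 0x100002000400000000000) := D_41 (nat_lit 61) (nat_lit 46) (nat_lit 80) (nat_lit 2) (nat_lit 8) (nat_lit 3) (nat_lit 3) (nat_lit 8) (nat_lit 3) (by decide +kernel)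
theorem L112741 : W_41 (nat_lit 2) (nat_lit 0x300010000800060000000a0007800300000000000) (nat_lit 0x0) (nat_lit 0x1000000000000000008000400) := D_41 (nat_lit 27) (nat_lit 10) (nat_lit 96) (nat_lit 7) (nat_lit 10) (nat_lit 0) (nat_lit 4) (nat_lit 11) (nat_lit 5) (by decide +kernel)
theorem L112742 : W_41 (nat_lit 3) (nat_lit 0x30001000080006000000020007800300000000000) (nat_lit 0x0) (nat_lit 0x1000180000000000008000400) := T_41 (nat_lit 79) (nat_lit 80) (nat_lit 3) (nat_lit 8) (nat_lit 3) L112741 (by decide +kernel)
theorem L112743 : W_41 (nat_lit 2) (nat_lit 0x600010000800060000000a0007800300000000000) (nat_lit 0x0) (nat_lit 0x20001000000000000000008000000) := D_41 (nat_lit 96) (nat_lit 27) (nat_lit 113) (nat_lit 4) (nat_lit 11) (nat_lit 5) (nat_lit 4) (nat_lit 11) (nat_lit 6) (by decide +kernel)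
theorem L112744 : W_41 (nat_lit 3) (nat_lit 0x600010000800060000000a0007800200000000000) (nat_lit 0x0) (nat_lit 0x20001000000000400100008000000) := T_41 (nat_lit 44) (nat_lit 58) (nat_lit 2) (nat_lit 7) (nat_lit 3) L112743 (by decide +kernel)
theorem L112745 : W_41 (nat_lit 4) (nat_lit 0x600010000800060000000a0007800000000000000) (nat_lit 0x0) (nat_lit 0x20001000000000400700008000000) := T_41 (nat_lit 45) (nat_lit 46) (nat_lit 2) (nat_lit 8) (nat_lit 3) L112744 (by decide +kernel)
theorem L112746 : W_41 (nat_lit 2) (nat_lit 0x20001000080004000000020007000300000000000) (nat_lit 0x0) (nat_lit 0x800c00000000000) := D_41 (nat_lit 46) (nat_lit 47) (nat_lit 59) (nat_lit 1) (nat_lit 13) (nat_lit 2) (nat_lit 2) (nat_lit 8) (nat_lit 3) (by decide +kernel)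
theorem L112747 : W_41 (nat_lit 2) (nat_lit 0x200010000800060000001a000f000400000000000) (nat_lit 0x0) (nat_lit 0x1000000000000000020001000) := D_41 (nat_lit 29) (nat_lit 12) (nat_lit 96) (nat_lit 5) (nat_lit 12) (nat_lit 0) (nat_lit 5) (nat_lit 12) (nat_lit 1) (by decide +kernel)
theorem L112748 : W_41 (nat_lit 3) (nat_lit 0x200010000800060000001a000f000000000000000) (nat_lit 0x0) (nat_lit 0x1000000000000c00020001000) := T_41 (nat_lit 46) (nat_lit 47) (nat_lit 2) (nat_lit 9) (nat_lit 3) L112747 (by decide +kernel)
theorem L112749 : W_41 (nat_lit 4) (nat_lit 0x200010000800060000001a000d000000000000000) (nat_lit 0x0) (nat_lit 0x1000200002000c00020001000) := T_41 (nat_lit 61) (nat_lit 81) (nat_lit 3) (nat_lit 9) (nat_lit 3) L112748 (by decide +kernel)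
theorem L112750 : W_41 (nat_lit 5) (nat_lit 0x200010000800040000001a000d000000000000000) (nat_lit 0x0) (nat_lit 0x2001100200002000c00020001000) := T_41 (nat_lit 109) (nat_lit 92) (nat_lit 4) (nat_lit 8) (nat_lit 9) L112749 (by decide +kernel)
theorem L112751 : W_41 (nat_lit 2) (nat_lit 0x700010000800040000001a000f000400000000000) (nat_lit 0x0) (nat_lit 0x1000000000000000020001000) := D_41 (nat_lit 29) (nat_lit 12) (nat_lit 96) (nat_lit 5) (nat_lit 12) (nat_lit 0) (nat_lit 5) (nat_lit 12) (nat_lit 1) (by decide +kernel)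
theorem L112752 : W_41 (nat_lit 3) (nat_lit 0x700010000800040000001a000f000000000000000) (nat_lit 0x0) (nat_lit 0x1000000000000c00020001000) := T_41 (nat_lit 46) (nat_lit 47) (nat_lit 2) (nat_lit 9) (nat_lit 3) L112751 (by decide +kernel)
theorem L112753 : W_41 (nat_lit 4) (nat_lit 0x700010000800040000001a000d000000000000000) (nat_lit 0x0) (nat_lit 0x1000200002000c00020001000) := T_41 (nat_lit 61) (nat_lit 81) (nat_lit 3) (nat_lit 9) (nat_lit 3) L112752 (by decide +kernel)
theorem L112754 : W_41 (nat_lit 5) (nat_lit 0x600010000800040000001a000d000000000000000) (nat_lit 0x0) (nat_lit 0x200010000000000000001000200002000c00020001000) := T_41 (nat_lit 160) (nat_lit 177) (nat_lit 5) (nat_lit 8) (nat_lit 6) L112753 (by decide +kernel)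
theorem L112755 : W_41 (nat_lit 6) (nat_lit 0x200010000800040000001a000d000000000000000) (nat_lit 0x0) (nat_lit 0xa00050000000000000001000200002000c00020001000) := T_41 (nat_lit 162) (nat_lit 179) (nat_lit 7) (nat_lit 8) (nat_lit 6) L112754 (by decide +kernel)
theorem L112756 : W_41 (nat_lit 2) (nat_lit 0x200010000800060000001a0005000200038000800) (nat_lit 0x0) (nat_lit 0x1000000000000500000000000) := D_41 (nat_lit 96) (nat_lit 46) (nat_lit 44) (nat_lit 6) (nat_lit 11) (nat_lit 5) (nat_lit 4) (nat_lit 11) (nat_lit 5) (by decide +kernel)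
theorem L112757 : W_41 (nat_lit 3) (nat_lit 0x200010000800060000001a0005000200030000800) (nat_lit 0x0) (nat_lit 0x1000000000000500008000400) := T_41 (nat_lit 27) (nat_lit 10) (nat_lit 4) (nat_lit 11) (nat_lit 4) L112756 (by decide +kernel)
theorem L112758 : W_41 (nat_lit 2) (nat_lit 0x600010000800060000001a0007000000000000000) (nat_lit 0x0) (nat_lit 0x600008000000000000000) := D_41 (nat_lit 81) (nat_lit 82) (nat_lit 63) (nat_lit 0) (nat_lit 14) (nat_lit 4) (nat_lit 3) (nat_lit 9) (nat_lit 3) (by decide +kernel)
theorem L112759 : W_41 (nat_lit 2) (nat_lit 0x300010000800060040007e000d000400000000000) (nat_lit 0x0) (nat_lit 0x20001800000000000000000000000) := D_41 (nat_lit 96) (nat_lit 95) (nat_lit 113) (nat_lit 1) (nat_lit 14) (nat_lit 4) (nat_lit 6) (nat_lit 11) (nat_lit 6) (by decide +kernel)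
theorem L112760 : W_41 (nat_lit 3) (nat_lit 0x300010000800060040007e000d000000000000000) (nat_lit 0x0) (nat_lit 0x20001800000000000400020000000) := T_41 (nat_lit 46) (nat_lit 29) (nat_lit 7) (nat_lit 12) (nat_lit 1) L112759 (by decide +kernel)
theorem L112761 : W_41 (nat_lit 4) (nat_lit 0x300010000800060040003e000d000000000000000) (nat_lit 0x0) (nat_lit 0x20001800c00000000400020000000) := T_41 (nat_lit 82) (nat_lit 83) (nat_lit 0) (nat_lit 15) (nat_lit 4) L112760 (by decide +kernel)
theorem L112762 : W_41 (nat_lit 5) (nat_lit 0x300010000800060040001e000d000000000000000) (nat_lit 0x0) (nat_lit 0x20009800e00000000400020000000) := T_41 (nat_lit 81) (nat_lit 99) (nat_lit 3) (nat_lit 10) (nat_lit 4) L112761 (by decide +kernel)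
theorem L112763 : W_41 (nat_lit 6) (nat_lit 0x300010000800040040001e000d000000000000000) (nat_lit 0x0) (nat_lit 0x22009900e00000000400020000000) := T_41 (nat_lit 109) (nat_lit 92) (nat_lit 4) (nat_lit 8) (nat_lit 9) L112762 (by decide +kernel)
theorem L112764 : W_41 (nat_lit 7) (nat_lit 0x300010000800040000001e000d000000000000000) (nat_lit 0x0) (nat_lit 0x2200f900e00000000400020000000) := T_41 (nat_lit 98) (nat_lit 97) (nat_lit 3) (nat_lit 9) (nat_lit 4) L112763 (by decide +kernel)
theorem L112765 : W_41 (nat_lit 8) (nat_lit 0x300010000800040000001a000d000000000000000) (nat_lit 0x0) (nat_lit 0x2200f900e40010000400020000000) := T_41 (nat_lit 78) (nat_lit 64) (nat_lit 2) (nat_lit 9) (nat_lit 4) L112764 (by decide +kernel)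
theorem L112766 : W_41 (nat_lit 9) (nat_lit 0x200010000800040000001a000d000000000000000) (nat_lit 0x0) (nat_lit 0x20001000000000002200f900e40010000400020000000) := T_41 (nat_lit 160) (nat_lit 177) (nat_lit 5) (nat_lit 8) (nat_lit 6) L112765 (by decide +kernel)
theorem L112767 : W_41 (nat_lit 5) (nat_lit 0x60001000080004000000020007000000000000000) (nat_lit 0x0) (nat_lit 0x3c0018801fc0000000000) := Q_41 (nat_lit 63) (C_41 L112720 (C_41 L112654 (C_41 L112652 N_41))) (by decide +kernel)
theorem L112768 : W_41 (nat_lit 2) (nat_lit 0x600010000800040000000a0007c00000000000000) (nat_lit 0x0) (nat_lit 0x70000000000) := D_41 (nat_lit 41) (nat_lit 40) (nat_lit 42) (nat_lit 0) (nat_lit 10) (nat_lit 3) (nat_lit 0) (nat_lit 11) (nat_lit 3) (by decide +kernel)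
theorem L112769 : W_41 (nat_lit 3) (nat_lit 0x600010000800040000000a0007800000000000000) (nat_lit 0x0) (nat_lit 0x40000400070000000000) := T_41 (nat_lit 58) (nat_lit 78) (nat_lit 3) (nat_lit 7) (nat_lit 3) L112768 (by decide +kernel)
theorem L112770 : W_41 (nat_lit 2) (nat_lit 0x700010000800040000001a0007000000000000000) (nat_lit 0x0) (nat_lit 0x600008000000000000000) := D_41 (nat_lit 81) (nat_lit 82) (nat_lit 63) (nat_lit 0) (nat_lit 14) (nat_lit 4) (nat_lit 3) (nat_lit 9) (nat_lit 3) (by decide +kernel)
theorem L112771 : W_41 (nat_lit 5) (nat_lit 0x60001000080004000400020001000080000000000) (nat_lit 0x0) (nat_lit 0x20001000000000000000000000000000014000e000500) := T_41 (nat_lit 160) (nat_lit 177) (nat_lit 5) (nat_lit 8) (nat_lit 6) L112514 (by decide +kernel)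
theorem L112772 : W_41 (nat_lit 2) (nat_lit 0x3000100008000400000002000f000080000000000) (nat_lit 0x0) (nat_lit 0x40010000100000000000) := D_41 (nat_lit 64) (nat_lit 44) (nat_lit 78) (nat_lit 0) (nat_lit 13) (nat_lit 3) (nat_lit 1) (nat_lit 13) (nat_lit 3) (by decide +kernel)
theorem L112773 : W_41 (nat_lit 2) (nat_lit 0x3000100008000600000006000f800400000000000) (nat_lit 0x0) (nat_lit 0x80000600000000000000) := D_41 (nat_lit 58) (nat_lit 57) (nat_lit 79) (nat_lit 3) (nat_lit 6) (nat_lit 3) (nat_lit 3) (nat_lit 7) (nat_lit 3) (by decide +kernel)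
theorem L112774 : W_41 (nat_lit 3) (nat_lit 0x3000100008000600000002000f800400000000000) (nat_lit 0x0) (nat_lit 0xc0010600000000000000) := T_41 (nat_lit 78) (nat_lit 64) (nat_lit 1) (nat_lit 13) (nat_lit 3) L112773 (by decide +kernel)
theorem L112775 : W_41 (nat_lit 4) (nat_lit 0x3000100008000600000002000f000400000000000) (nat_lit 0x0) (nat_lit 0xc0010e00200000000000) := T_41 (nat_lit 59) (nat_lit 45) (nat_lit 2) (nat_lit 8) (nat_lit 3) L112774 (by decide +kernel)
theorem L112776 : W_41 (nat_lit 5) (nat_lit 0x3000100008000600000002000f000000000000000) (nat_lit 0x0) (nat_lit 0xc0010e00e00000000000) := T_41 (nat_lit 46) (nat_lit 47) (nat_lit 2) (nat_lit 9) (nat_lit 3) L112775 (by decide +kernel)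
theorem L112777 : W_41 (nat_lit 5) (nat_lit 0x700010000800060000000a0007800240002000000) (nat_lit 0x0) (nat_lit 0xc00040000000180031000800) := T_41 (nat_lit 43) (nat_lit 94) (nat_lit 4) (nat_lit 9) (nat_lit 5) L112518 (by decide +kernel)
theorem L112778 : W_41 (nat_lit 2) (nat_lit 0x2000100008000600000002001f000000000000000) (nat_lit 0x0) (nat_lit 0x700000000000000000000) := D_41 (nat_lit 81) (nat_lit 80) (nat_lit 82) (nat_lit 3) (nat_lit 9) (nat_lit 3) (nat_lit 3) (nat_lit 10) (nat_lit 3) (by decide +kernel)
theorem L112779 : W_41 (nat_lit 3) (nat_lit 0x2000100008000600000002000f000000000000000) (nat_lit 0x0) (nat_lit 0x740010000000000000000) := T_41 (nat_lit 64) (nat_lit 78) (nat_lit 1) (nat_lit 13) (nat_lit 3) L112778 (by decide +kernel)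
theorem L112780 : W_41 (nat_lit 6) (nat_lit 0x2000100008000600000002000f000000000000000) (nat_lit 0x0) (nat_lit 0x2000100000000000000000000c0010e00e00000000000) := T_41 (nat_lit 160) (nat_lit 177) (nat_lit 5) (nat_lit 8) (nat_lit 6) L112776 (by decide +kernel)
theorem L112781 : W_41 (nat_lit 7) (nat_lit 0x20001000080006000000020007000000000000000) (nat_lit 0x0) (nat_lit 0x2000100000000000000010007c0018e01e00020001000) := Q_41 (nat_lit 63) (C_41 L112779 (C_41 L112729 (C_41 L112780 (C_41 L112725 N_41)))) (by decide +kernel)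
theorem L112782 : W_41 (nat_lit 2) (nat_lit 0x3000100008000600000012000f000600000000000) (nat_lit 0x0) (nat_lit 0x40002000000000000000010000000) := D_41 (nat_lit 97) (nat_lit 28) (nat_lit 114) (nat_lit 4) (nat_lit 12) (nat_lit 5) (nat_lit 4) (nat_lit 12) (nat_lit 6) (by decide +kernel)
theorem L112783 : W_41 (nat_lit 3) (nat_lit 0x3000100008000600000012000f000400000000000) (nat_lit 0x0) (nat_lit 0x40002000000000800200010000000) := T_41 (nat_lit 45) (nat_lit 59) (nat_lit 2) (nat_lit 8) (nat_lit 3) L112782 (by decide +kernel)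
theorem L112784 : W_41 (nat_lit 4) (nat_lit 0x3000100008000600000012000f000000000000000) (nat_lit 0x0) (nat_lit 0x40002000000000800e00010000000) := T_41 (nat_lit 46) (nat_lit 47) (nat_lit 2) (nat_lit 9) (nat_lit 3) L112783 (by decide +kernel)
theorem L112785 : W_41 (nat_lit 5) (nat_lit 0x2000100008000600000012000f000000000000000) (nat_lit 0x0) (nat_lit 0x200010000000000040002000000000800e00010000000) := T_41 (nat_lit 160) (nat_lit 177) (nat_lit 5) (nat_lit 8) (nat_lit 6) L112784 (by decide +kernel)
theorem L112786 : W_41 (nat_lit 6) (nat_lit 0x2000100008000600000002000f000000000000000) (nat_lit 0x0) (nat_lit 0x200010000000000040002000300000800e00010000000) := T_41 (nat_lit 80) (nat_lit 81) (nat_lit 3) (nat_lit 9) (nat_lit 3) L112785 (by decide +kernel)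
theorem L112787 : W_41 (nat_lit 2) (nat_lit 0x3000100008000600000002001f000600000000000) (nat_lit 0x0) (nat_lit 0x60000100000000000) := D_41 (nat_lit 65) (nat_lit 66) (nat_lit 44) (nat_lit 0) (nat_lit 15) (nat_lit 3) (nat_lit 0) (nat_lit 14) (nat_lit 3) (by decide +kernel)
theorem L112788 : W_41 (nat_lit 3) (nat_lit 0x3000100008000600000002000f000600000000000) (nat_lit 0x0) (nat_lit 0x40070000100000000000) := T_41 (nat_lit 64) (nat_lit 78) (nat_lit 1) (nat_lit 13) (nat_lit 3) L112787 (by decide +kernel)
theorem L112789 : W_41 (nat_lit 4) (nat_lit 0x3000100008000600000002000f000400000000000) (nat_lit 0x0) (nat_lit 0x40070800300000000000) := T_41 (nat_lit 45) (nat_lit 59) (nat_lit 2) (nat_lit 8) (nat_lit 3) L112788 (by decide +kernel)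
theorem L112790 : W_41 (nat_lit 5) (nat_lit 0x3000100008000600000002000f000000000000000) (nat_lit 0x0) (nat_lit 0x40070800f00000000000) := T_41 (nat_lit 46) (nat_lit 47) (nat_lit 2) (nat_lit 9) (nat_lit 3) L112789 (by decide +kernel)
theorem L112791 : W_41 (nat_lit 6) (nat_lit 0x2000100008000600000002000f000000000000000) (nat_lit 0x0) (nat_lit 0x200010000000000000000000040070800f00000000000) := T_41 (nat_lit 160) (nat_lit 177) (nat_lit 5) (nat_lit 8) (nat_lit 6) L112790 (by decide +kernel)
theorem L112792 : W_41 (nat_lit 7) (nat_lit 0x20001000080006000000020007000000000000000) (nat_lit 0x0) (nat_lit 0x200010000000000040002000740078800f00010000000) := Q_41 (nat_lit 63) (C_41 L112786 (C_41 L112779 (C_41 L112791 N_41))) (by decide +kernel)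
theorem L112793 : W_41 (nat_lit 6) (nat_lit 0x20001000080004000400020001000080000000000) (nat_lit 0x0) (nat_lit 0xa0005000000000000000000000000000014000e000500) := T_41 (nat_lit 162) (nat_lit 179) (nat_lit 7) (nat_lit 8) (nat_lit 6) L112771 (by decide +kernel)
theorem L112794 : W_41 (nat_lit 2) (nat_lit 0x2000100008000600040002000100008000c000000) (nat_lit 0x0) (nat_lit 0x10000800040000000000000000000) := D_41 (nat_lit 95) (nat_lit 112) (nat_lit 78) (nat_lit 7) (nat_lit 9) (nat_lit 2) (nat_lit 7) (nat_lit 9) (nat_lit 1) (by decide +kernel)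
theorem L112795 : W_41 (nat_lit 3) (nat_lit 0x20001000080006000400020001000080008000000) (nat_lit 0x0) (nat_lit 0x10000800040000000000004000400) := T_41 (nat_lit 26) (nat_lit 10) (nat_lit 6) (nat_lit 9) (nat_lit 4) L112794 (by decide +kernel)
theorem L112796 : W_41 (nat_lit 4) (nat_lit 0x20001000080004000400020001000080008000000) (nat_lit 0x0) (nat_lit 0x12000900040000000000004000400) := T_41 (nat_lit 109) (nat_lit 92) (nat_lit 4) (nat_lit 8) (nat_lit 9) L112795 (by decide +kernel)
theorem L112797 : W_41 (nat_lit 5) (nat_lit 0x20001000080004000400020001000080000000000) (nat_lit 0x0) (nat_lit 0x1200090004000000010000c000400) := T_41 (nat_lit 27) (nat_lit 44) (nat_lit 6) (nat_lit 9) (nat_lit 5) L112796 (by decide +kernel)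
theorem L112798 : W_41 (nat_lit 2) (nat_lit 0x70001000080006000c0002000b000780030000000) (nat_lit 0x0) (nat_lit 0x2000100000000000000000800) := D_41 (nat_lit 80) (nat_lit 97) (nat_lit 11) (nat_lit 4) (nat_lit 12) (nat_lit 5) (nat_lit 4) (nat_lit 12) (nat_lit 4) (by decide +kernel)
theorem L112799 : W_41 (nat_lit 3) (nat_lit 0x70001000080006000c0002000b000780020000000) (nat_lit 0x0) (nat_lit 0x2000140000000000010000800) := T_41 (nat_lit 28) (nat_lit 78) (nat_lit 6) (nat_lit 10) (nat_lit 5) L112798 (by decide +kernel)
theorem L112800 : W_41 (nat_lit 4) (nat_lit 0x7000100008000600040002000b000780020000000) (nat_lit 0x0) (nat_lit 0x10002800140000000000010000800) := T_41 (nat_lit 95) (nat_lit 112) (nat_lit 7) (nat_lit 9) (nat_lit 2) L112799 (by decide +kernel)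
theorem L112801 : W_41 (nat_lit 2) (nat_lit 0x200010000800040004000200010007c0000000000) (nat_lit 0x0) (nat_lit 0x1c000000000000000) := D_41 (nat_lit 63) (nat_lit 62) (nat_lit 64) (nat_lit 3) (nat_lit 8) (nat_lit 2) (nat_lit 3) (nat_lit 9) (nat_lit 2) (by decide +kernel)
theorem L112802 : W_41 (nat_lit 3) (nat_lit 0x20001000080004000400020001000780000000000) (nat_lit 0x0) (nat_lit 0x1c000040002000000) := T_41 (nat_lit 42) (nat_lit 25) (nat_lit 4) (nat_lit 9) (nat_lit 5) L112801 (by decide +kernel)
theorem L112803 : W_41 (nat_lit 4) (nat_lit 0x20001000080004000400020001000380000000000) (nat_lit 0x0) (nat_lit 0x1c800440002000000) := T_41 (nat_lit 46) (nat_lit 59) (nat_lit 1) (nat_lit 12) (nat_lit 2) L112802 (by decide +kernel)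
theorem L112804 : W_41 (nat_lit 2) (nat_lit 0x70001000080006000c000200052003e0000800000) (nat_lit 0x0) (nat_lit 0x100010000400000) := D_41 (nat_lit 40) (nat_lit 56) (nat_lit 22) (nat_lit 1) (nat_lit 9) (nat_lit 2) (nat_lit 0) (nat_lit 9) (nat_lit 2) (by decide +kernel)
theorem L112805 : W_41 (nat_lit 3) (nat_lit 0x70001000080006000c000200052003e0000000000) (nat_lit 0x0) (nat_lit 0x100010001c00000) := T_41 (nat_lit 23) (nat_lit 24) (nat_lit 0) (nat_lit 10) (nat_lit 2) L112804 (by decide +kernel)
theorem L112806 : W_41 (nat_lit 4) (nat_lit 0x70001000080006000c000200050003e0000000000) (nat_lit 0x0) (nat_lit 0x700010001c00000) := T_41 (nat_lit 57) (nat_lit 58) (nat_lit 1) (nat_lit 10) (nat_lit 2) L112805 (by decide +kernel)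
theorem L112807 : W_41 (nat_lit 5) (nat_lit 0x70001000080006000c000200050003c0000000000) (nat_lit 0x0) (nat_lit 0x2700030001c00000) := T_41 (nat_lit 41) (nat_lit 61) (nat_lit 3) (nat_lit 7) (nat_lit 2) L112806 (by decide +kernel)
theorem L112808 : W_41 (nat_lit 6) (nat_lit 0x70001000080006000c000200010003c0000000000) (nat_lit 0x0) (nat_lit 0xe700030001c00000) := T_41 (nat_lit 62) (nat_lit 63) (nat_lit 3) (nat_lit 8) (nat_lit 2) L112807 (by decide +kernel)
theorem L112809 : W_41 (nat_lit 7) (nat_lit 0x70001000080006000c00020001000380000000000) (nat_lit 0x0) (nat_lit 0xe700070003c00000) := T_41 (nat_lit 42) (nat_lit 25) (nat_lit 4) (nat_lit 9) (nat_lit 5) L112808 (by decide +kernel)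
theorem L112810 : W_41 (nat_lit 8) (nat_lit 0x60001000080006000c00020001000380000000000) (nat_lit 0x0) (nat_lit 0x20001000000000000000000000000e700070003c00000) := T_41 (nat_lit 160) (nat_lit 177) (nat_lit 5) (nat_lit 8) (nat_lit 6) L112809 (by decide +kernel)
theorem L112811 : W_41 (nat_lit 9) (nat_lit 0x60001000080004000c00020001000380000000000) (nat_lit 0x0) (nat_lit 0x20001000000000000200010000000e700070003c00000) := T_41 (nat_lit 109) (nat_lit 92) (nat_lit 4) (nat_lit 8) (nat_lit 9) L112810 (by decide +kernel)
theorem L112812 : W_41 (nat_lit 10) (nat_lit 0x60001000080004000400020001000380000000000) (nat_lit 0x0) (nat_lit 0x20001000000000001200090000000e700070003c00000) := T_41 (nat_lit 95) (nat_lit 112) (nat_lit 7) (nat_lit 9) (nat_lit 2) L112811 (by decide +kernel)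
theorem L112813 : W_41 (nat_lit 11) (nat_lit 0x20001000080004000400020001000380000000000) (nat_lit 0x0) (nat_lit 0xa0005000000000001200090000000e700070003c00000) := T_41 (nat_lit 162) (nat_lit 179) (nat_lit 7) (nat_lit 8) (nat_lit 6) L112812 (by decide +kernel)
theorem L112814 : W_41 (nat_lit 5) (nat_lit 0x7000100008000400040002000b000780020000000) (nat_lit 0x0) (nat_lit 0x12002900140000000000010000800) := T_41 (nat_lit 109) (nat_lit 92) (nat_lit 4) (nat_lit 8) (nat_lit 9) L112800 (by decide +kernel)
theorem L112815 : W_41 (nat_lit 6) (nat_lit 0x6000100008000400040002000b000780020000000) (nat_lit 0x0) (nat_lit 0x200010000000000012002900140000000000010000800) := T_41 (nat_lit 160) (nat_lit 177) (nat_lit 5) (nat_lit 8) (nat_lit 6) L112814 (by decide +kernel)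
theorem L112816 : W_41 (nat_lit 7) (nat_lit 0x60001000080004000400020009000780020000000) (nat_lit 0x0) (nat_lit 0x200010000000000012002900140002000800010000800) := T_41 (nat_lit 61) (nat_lit 47) (nat_lit 1) (nat_lit 13) (nat_lit 2) L112815 (by decide +kernel)
theorem L112817 : W_41 (nat_lit 8) (nat_lit 0x60001000080004000400020009000780000000000) (nat_lit 0x0) (nat_lit 0x200010000000000012002900140002000800070000800) := T_41 (nat_lit 29) (nat_lit 30) (nat_lit 2) (nat_lit 9) (nat_lit 2) L112816 (by decide +kernel)
theorem L112818 : W_41 (nat_lit 9) (nat_lit 0x60001000080004000400020001000780000000000) (nat_lit 0x0) (nat_lit 0x20001000000000001200290014001a000800070000800) := T_41 (nat_lit 63) (nat_lit 64) (nat_lit 3) (nat_lit 9) (nat_lit 2) L112817 (by decide +kernel)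
theorem L112819 : W_41 (nat_lit 10) (nat_lit 0x20001000080004000400020001000780000000000) (nat_lit 0x0) (nat_lit 0xa0005000000000001200290014001a000800070000800) := T_41 (nat_lit 162) (nat_lit 179) (nat_lit 7) (nat_lit 8) (nat_lit 6) L112818 (by decide +kernel)
theorem L112820 : W_41 (nat_lit 11) (nat_lit 0x20001000080004000400020001000380000000000) (nat_lit 0x0) (nat_lit 0xa0005000000000001200290014001a800c00070000800) := T_41 (nat_lit 46) (nat_lit 59) (nat_lit 1) (nat_lit 12) (nat_lit 2) L112819 (by decide +kernel)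
theorem L112821 : W_41 (nat_lit 2) (nat_lit 0x20001000080004000c000200010003c0000000000) (nat_lit 0x0) (nat_lit 0xc00400000000000) := D_41 (nat_lit 59) (nat_lit 46) (nat_lit 58) (nat_lit 1) (nat_lit 12) (nat_lit 2) (nat_lit 1) (nat_lit 11) (nat_lit 2) (by decide +kernel)
theorem L112822 : W_41 (nat_lit 3) (nat_lit 0x20001000080004000c00020001000380000000000) (nat_lit 0x0) (nat_lit 0xc00440002000000) := T_41 (nat_lit 42) (nat_lit 25) (nat_lit 4) (nat_lit 9) (nat_lit 5) L112821 (by decide +kernel)
theorem L112823 : W_41 (nat_lit 4) (nat_lit 0x20001000080004000400020001000380000000000) (nat_lit 0x0) (nat_lit 0x10000800000000c00440002000000) := T_41 (nat_lit 95) (nat_lit 112) (nat_lit 7) (nat_lit 9) (nat_lit 2) L112822 (by decide +kernel)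
theorem L112824 : W_41 (nat_lit 12) (nat_lit 0x20001000080004000400020001000180000000000) (nat_lit 0x0) (nat_lit 0xa0005000000000001200290014001ef00e70073c00800) := Q_41 (nat_lit 45) (C_41 L112803 (C_41 L112813 (C_41 L112820 (C_41 L112823 N_41)))) (by decide +kernel)
theorem L112825 : W_41 (nat_lit 13) (nat_lit 0x20001000080004000400020001000080000000000) (nat_lit 0x0) (nat_lit 0xa0005000000000001200290014001ef00f7007bc00800) := T_41 (nat_lit 44) (nat_lit 27) (nat_lit 6) (nat_lit 9) (nat_lit 5) L112824 (by decide +kernel)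
theorem L112826 : W_41 (nat_lit 2) (nat_lit 0x60001000080006000400020001000080006000000) (nat_lit 0x0) (nat_lit 0x10000800040000000000000000000) := D_41 (nat_lit 95) (nat_lit 112) (nat_lit 78) (nat_lit 7) (nat_lit 9) (nat_lit 2) (nat_lit 7) (nat_lit 9) (nat_lit 1) (by decide +kernel)
theorem L112827 : W_41 (nat_lit 3) (nat_lit 0x60001000080006000400020001000080002000000) (nat_lit 0x0) (nat_lit 0x10000800040000000000004000100) := T_41 (nat_lit 26) (nat_lit 8) (nat_lit 4) (nat_lit 9) (nat_lit 4) L112826 (by decide +kernel)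
theorem L112828 : W_41 (nat_lit 4) (nat_lit 0x60001000080004000400020001000080002000000) (nat_lit 0x0) (nat_lit 0x12000900040000000000004000100) := T_41 (nat_lit 109) (nat_lit 92) (nat_lit 4) (nat_lit 8) (nat_lit 9) L112827 (by decide +kernel)
theorem L112829 : W_41 (nat_lit 5) (nat_lit 0x60001000080004000400020001000080000000000) (nat_lit 0x0) (nat_lit 0x12000900040000000040006000100) := T_41 (nat_lit 25) (nat_lit 42) (nat_lit 4) (nat_lit 9) (nat_lit 5) L112828 (by decide +kernel)
theorem L112830 : W_41 (nat_lit 6) (nat_lit 0x20001000080004000400020001000080000000000) (nat_lit 0x0) (nat_lit 0x800040000000000012000900040000000040006000100) := T_41 (nat_lit 162) (nat_lit 179) (nat_lit 7) (nat_lit 8) (nat_lit 6) L112829 (by decide +kernel)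
theorem L112831 : W_41 (nat_lit 14) (nat_lit 0x20001000080004000400020001000000000000000) (nat_lit 0x0) (nat_lit 0xa0005000000000001200290014001ef00ff007fc00f00) := Q_41 (nat_lit 43) (C_41 L112511 (C_41 L112500 (C_41 L112793 (C_41 L112797 (C_41 L112825 (C_41 L112830 N_41)))))) (by decide +kernel)
theorem L112832 : W_41 (nat_lit 15) (nat_lit 0x20001000080004000000020001000000000000000) (nat_lit 0x0) (nat_lit 0xa00050000000000012002f0014001ef00ff007fc00f00) := T_41 (nat_lit 94) (nat_lit 93) (nat_lit 6) (nat_lit 8) (nat_lit 8) L112831 (by decide +kernel)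
theorem L112833 : W_41 (nat_lit 2) (nat_lit 0x2000100008000400000002000d000180000000000) (nat_lit 0x0) (nat_lit 0x12000040000000000) := D_41 (nat_lit 61) (nat_lit 42) (nat_lit 64) (nat_lit 0) (nat_lit 12) (nat_lit 3) (nat_lit 0) (nat_lit 13) (nat_lit 3) (by decide +kernel)
theorem L112834 : W_41 (nat_lit 2) (nat_lit 0x2000100008000400000002000d000180000000000) (nat_lit 0x0) (nat_lit 0x10012000000000000000) := D_41 (nat_lit 61) (nat_lit 76) (nat_lit 64) (nat_lit 1) (nat_lit 12) (nat_lit 3) (nat_lit 0) (nat_lit 13) (nat_lit 3) (by decide +kernel)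
theorem L112835 : W_41 (nat_lit 2) (nat_lit 0x700010000800060000000a0007c000c0002000000) (nat_lit 0x0) (nat_lit 0x300100000000000) := D_41 (nat_lit 57) (nat_lit 56) (nat_lit 44) (nat_lit 2) (nat_lit 5) (nat_lit 3) (nat_lit 2) (nat_lit 6) (nat_lit 3) (by decide +kernel)
theorem L112836 : W_41 (nat_lit 3) (nat_lit 0x700010000800060000000a00078000c0002000000) (nat_lit 0x0) (nat_lit 0x40000700100000000000) := T_41 (nat_lit 58) (nat_lit 78) (nat_lit 3) (nat_lit 7) (nat_lit 3) L112835 (by decide +kernel)
theorem L112837 : W_41 (nat_lit 4) (nat_lit 0x700010000800060000000200078000c0002000000) (nat_lit 0x0) (nat_lit 0x1c0000700100000000000) := T_41 (nat_lit 79) (nat_lit 80) (nat_lit 3) (nat_lit 8) (nat_lit 3) L112836 (by decide +kernel)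
theorem L112838 : W_41 (nat_lit 5) (nat_lit 0x700010000800060000000200070000c0002000000) (nat_lit 0x0) (nat_lit 0x1c0000f00100000000100) := T_41 (nat_lit 59) (nat_lit 8) (nat_lit 7) (nat_lit 8) (nat_lit 0) L112837 (by decide +kernel)
theorem L112839 : W_41 (nat_lit 6) (nat_lit 0x300010000800060000000200070000c0002000000) (nat_lit 0x0) (nat_lit 0x8000400000000000000000001c0000f00100000000100) := T_41 (nat_lit 162) (nat_lit 179) (nat_lit 7) (nat_lit 8) (nat_lit 6) L112838 (by decide +kernel)
theorem L112840 : W_41 (nat_lit 4) (nat_lit 0x70001000080006000000020007000080000000000) (nat_lit 0x0) (nat_lit 0x50018001c00000000000) := T_41 (nat_lit 63) (nat_lit 76) (nat_lit 1) (nat_lit 12) (nat_lit 3) L112701 (by decide +kernel)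
theorem L112841 : W_41 (nat_lit 5) (nat_lit 0x60001000080006000000020007000080000000000) (nat_lit 0x0) (nat_lit 0x200010000000000000000000050018001c00000000000) := T_41 (nat_lit 160) (nat_lit 177) (nat_lit 5) (nat_lit 8) (nat_lit 6) L112840 (by decide +kernel)
theorem L112842 : W_41 (nat_lit 6) (nat_lit 0x60001000080004000000020007000080000000000) (nat_lit 0x0) (nat_lit 0x200010000000000002000100050018001c00000000000) := T_41 (nat_lit 109) (nat_lit 92) (nat_lit 4) (nat_lit 8) (nat_lit 9) L112841 (by decide +kernel)
theorem L112843 : W_41 (nat_lit 7) (nat_lit 0x20001000080004000000020007000080000000000) (nat_lit 0x0) (nat_lit 0xa00050000000000002000100050018001c00000000000) := T_41 (nat_lit 162) (nat_lit 179) (nat_lit 7) (nat_lit 8) (nat_lit 6) L112842 (by decide +kernel)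
theorem L112844 : W_41 (nat_lit 7) (nat_lit 0x300010000800040000000200070000c0002000000) (nat_lit 0x0) (nat_lit 0x8000400000000000020001001c0000f00100000000100) := T_41 (nat_lit 109) (nat_lit 92) (nat_lit 4) (nat_lit 8) (nat_lit 9) L112839 (by decide +kernel)
theorem L112845 : W_41 (nat_lit 8) (nat_lit 0x300010000800040000000200070000c0000000000) (nat_lit 0x0) (nat_lit 0x8000400000000000020005001c0000f00100002000100) := T_41 (nat_lit 25) (nat_lit 94) (nat_lit 4) (nat_lit 9) (nat_lit 5) L112844 (by decide +kernel)
theorem L112846 : W_41 (nat_lit 9) (nat_lit 0x200010000800040000000200070000c0000000000) (nat_lit 0x0) (nat_lit 0xa000500000000000020005001c0000f00100002000100) := T_41 (nat_lit 160) (nat_lit 177) (nat_lit 5) (nat_lit 8) (nat_lit 6) L112845 (by decide +kernel)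
theorem L112847 : W_41 (nat_lit 10) (nat_lit 0x20001000080004000000020007000080000000000) (nat_lit 0x0) (nat_lit 0xa000500000000000020005001c0000f00170002000100) := Q_41 (nat_lit 42) (C_41 L112526 (C_41 L112846 (C_41 L112525 N_41))) (by decide +kernel)
theorem L112848 : W_41 (nat_lit 4) (nat_lit 0x70001000080004000000020007000080000000000) (nat_lit 0x0) (nat_lit 0x710018000100000000000) := T_41 (nat_lit 63) (nat_lit 76) (nat_lit 1) (nat_lit 12) (nat_lit 3) L112731 (by decide +kernel)
theorem L112849 : W_41 (nat_lit 5) (nat_lit 0x30001000080004000000020007000080000000000) (nat_lit 0x0) (nat_lit 0x800040000000000000000000710018000100000000000) := T_41 (nat_lit 162) (nat_lit 179) (nat_lit 7) (nat_lit 8) (nat_lit 6) L112848 (by decide +kernel)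
theorem L112850 : W_41 (nat_lit 6) (nat_lit 0x20001000080004000000020007000080000000000) (nat_lit 0x0) (nat_lit 0xa00050000000000000000000710018000100000000000) := T_41 (nat_lit 160) (nat_lit 177) (nat_lit 5) (nat_lit 8) (nat_lit 6) L112849 (by decide +kernel)
theorem L112851 : W_41 (nat_lit 3) (nat_lit 0x30001000080004000000020007000080000000000) (nat_lit 0x0) (nat_lit 0x50018000100000000000) := T_41 (nat_lit 63) (nat_lit 76) (nat_lit 1) (nat_lit 12) (nat_lit 3) L112772 (by decide +kernel)
theorem L112852 : W_41 (nat_lit 3) (nat_lit 0x60001000080004000000020007000080000000000) (nat_lit 0x0) (nat_lit 0x50018000100000000000) := T_41 (nat_lit 63) (nat_lit 76) (nat_lit 1) (nat_lit 12) (nat_lit 3) L112515 (by decide +kernel)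
theorem L112853 : W_41 (nat_lit 2) (nat_lit 0x20001000080004000000020007000080000000000) (nat_lit 0x0) (nat_lit 0x10008000040000000000) := D_41 (nat_lit 63) (nat_lit 76) (nat_lit 42) (nat_lit 1) (nat_lit 12) (nat_lit 3) (nat_lit 0) (nat_lit 12) (nat_lit 3) (by decide +kernel)
theorem L112854 : W_41 (nat_lit 2) (nat_lit 0x2000100008000400000002000d000080000000000) (nat_lit 0x0) (nat_lit 0x10002000040000000000) := D_41 (nat_lit 61) (nat_lit 42) (nat_lit 76) (nat_lit 0) (nat_lit 12) (nat_lit 3) (nat_lit 1) (nat_lit 12) (nat_lit 3) (by decide +kernel)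
theorem L112855 : W_41 (nat_lit 5) (nat_lit 0x6000100008000400000002000d000080000000000) (nat_lit 0x0) (nat_lit 0x200010000000000000000000700012000140000000000) := T_41 (nat_lit 61) (nat_lit 42) (nat_lit 0) (nat_lit 12) (nat_lit 3) L112732 (by decide +kernel)
theorem L112856 : W_41 (nat_lit 6) (nat_lit 0x2000100008000400000002000d000080000000000) (nat_lit 0x0) (nat_lit 0xa00050000000000000000000700012000140000000000) := T_41 (nat_lit 162) (nat_lit 179) (nat_lit 7) (nat_lit 8) (nat_lit 6) L112855 (by decide +kernel)
theorem L112857 : W_41 (nat_lit 2) (nat_lit 0x600010000800040000000e000d000080000000000) (nat_lit 0x0) (nat_lit 0x100030000000000000000) := D_41 (nat_lit 64) (nat_lit 65) (nat_lit 80) (nat_lit 1) (nat_lit 14) (nat_lit 3) (nat_lit 2) (nat_lit 9) (nat_lit 4) (by decide +kernel)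
theorem L112858 : W_41 (nat_lit 3) (nat_lit 0x6000100008000400000006000d000080000000000) (nat_lit 0x0) (nat_lit 0x190030000000000000000) := T_41 (nat_lit 79) (nat_lit 76) (nat_lit 2) (nat_lit 8) (nat_lit 4) L112857 (by decide +kernel)
theorem L112859 : W_41 (nat_lit 4) (nat_lit 0x2000100008000400000006000d000080000000000) (nat_lit 0x0) (nat_lit 0x800040000000000000000000190030000000000000000) := T_41 (nat_lit 162) (nat_lit 179) (nat_lit 7) (nat_lit 8) (nat_lit 6) L112858 (by decide +kernel)
theorem L112860 : W_41 (nat_lit 2) (nat_lit 0x200010000800060000000e000d000080000000000) (nat_lit 0x0) (nat_lit 0x100030000000000000000) := D_41 (nat_lit 64) (nat_lit 65) (nat_lit 80) (nat_lit 1) (nat_lit 14) (nat_lit 3) (nat_lit 2) (nat_lit 9) (nat_lit 4) (by decide +kernel)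
theorem L112861 : W_41 (nat_lit 3) (nat_lit 0x2000100008000600000006000d000080000000000) (nat_lit 0x0) (nat_lit 0x190030000000000000000) := T_41 (nat_lit 79) (nat_lit 76) (nat_lit 2) (nat_lit 8) (nat_lit 4) L112860 (by decide +kernel)
theorem L112862 : W_41 (nat_lit 4) (nat_lit 0x2000100008000400000006000d000080000000000) (nat_lit 0x0) (nat_lit 0x2000100190030000000000000000) := T_41 (nat_lit 109) (nat_lit 92) (nat_lit 4) (nat_lit 8) (nat_lit 9) L112861 (by decide +kernel)
theorem L112863 : W_41 (nat_lit 2) (nat_lit 0x70001000080006002c000a00050003c0010000000) (nat_lit 0x0) (nat_lit 0x40001000010000000000000000000) := D_41 (nat_lit 96) (nat_lit 76) (nat_lit 114) (nat_lit 0) (nat_lit 12) (nat_lit 5) (nat_lit 7) (nat_lit 11) (nat_lit 2) (by decide +kernel)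
theorem L112864 : W_41 (nat_lit 3) (nat_lit 0x70001000080006000c000a00050003c0010000000) (nat_lit 0x0) (nat_lit 0x40003000110000000000000000000) := T_41 (nat_lit 97) (nat_lit 80) (nat_lit 7) (nat_lit 11) (nat_lit 1) L112863 (by decide +kernel)
theorem L112865 : W_41 (nat_lit 4) (nat_lit 0x70001000080006000c000200050003c0010000000) (nat_lit 0x0) (nat_lit 0x400030001d0000000000000000000) := T_41 (nat_lit 79) (nat_lit 78) (nat_lit 5) (nat_lit 11) (nat_lit 1) L112864 (by decide +kernel)
theorem L112866 : W_41 (nat_lit 5) (nat_lit 0x70001000080004000c000200050003c0010000000) (nat_lit 0x0) (nat_lit 0x420031001d0000000000000000000) := T_41 (nat_lit 109) (nat_lit 92) (nat_lit 4) (nat_lit 8) (nat_lit 9) L112865 (by decide +kernel)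
theorem L112867 : W_41 (nat_lit 6) (nat_lit 0x70001000080004000c000200050003c0000000000) (nat_lit 0x0) (nat_lit 0x420031001d0000000000030000000) := T_41 (nat_lit 28) (nat_lit 29) (nat_lit 2) (nat_lit 8) (nat_lit 2) L112866 (by decide +kernel)
theorem L112868 : W_41 (nat_lit 7) (nat_lit 0x70001000080004000c000200050001c0000000000) (nat_lit 0x0) (nat_lit 0x420031001d0008000200030000000) := T_41 (nat_lit 45) (nat_lit 63) (nat_lit 3) (nat_lit 8) (nat_lit 2) L112867 (by decide +kernel)
theorem L112869 : W_41 (nat_lit 8) (nat_lit 0x70001000080004000c000200050000c0000000000) (nat_lit 0x0) (nat_lit 0x420031001d0008000300038000000) := T_41 (nat_lit 44) (nat_lit 27) (nat_lit 6) (nat_lit 9) (nat_lit 5) L112868 (by decide +kernel)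
theorem L112870 : W_41 (nat_lit 2) (nat_lit 0x70001000080004002c000a00050003c0010000000) (nat_lit 0x0) (nat_lit 0x40001000010000000000000000000) := D_41 (nat_lit 96) (nat_lit 76) (nat_lit 114) (nat_lit 0) (nat_lit 12) (nat_lit 5) (nat_lit 7) (nat_lit 11) (nat_lit 2) (by decide +kernel)
theorem L112871 : W_41 (nat_lit 3) (nat_lit 0x70001000080004000c000a00050003c0010000000) (nat_lit 0x0) (nat_lit 0x40003000110000000000000000000) := T_41 (nat_lit 97) (nat_lit 80) (nat_lit 7) (nat_lit 11) (nat_lit 1) L112870 (by decide +kernel)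
theorem L112872 : W_41 (nat_lit 4) (nat_lit 0x60001000080004000c000a00050003c0010000000) (nat_lit 0x0) (nat_lit 0x200010000000000040003000110000000000000000000) := T_41 (nat_lit 160) (nat_lit 177) (nat_lit 5) (nat_lit 8) (nat_lit 6) L112871 (by decide +kernel)
theorem L112873 : W_41 (nat_lit 5) (nat_lit 0x60001000080004000c000200050003c0010000000) (nat_lit 0x0) (nat_lit 0x2000100000000000400030001d0000000000000000000) := T_41 (nat_lit 79) (nat_lit 78) (nat_lit 5) (nat_lit 11) (nat_lit 1) L112872 (by decide +kernel)
theorem L112874 : W_41 (nat_lit 6) (nat_lit 0x600010000800040004000200050003c0010000000) (nat_lit 0x0) (nat_lit 0x2000100000000000500038001d0000000000000000000) := T_41 (nat_lit 95) (nat_lit 112) (nat_lit 7) (nat_lit 9) (nat_lit 2) L112873 (by decide +kernel)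
theorem L112875 : W_41 (nat_lit 7) (nat_lit 0x600010000800040004000200050003c0000000000) (nat_lit 0x0) (nat_lit 0x2000100000000000500038001d0000000000030000000) := T_41 (nat_lit 28) (nat_lit 29) (nat_lit 2) (nat_lit 8) (nat_lit 2) L112874 (by decide +kernel)
theorem L112876 : W_41 (nat_lit 8) (nat_lit 0x600010000800040004000200050001c0000000000) (nat_lit 0x0) (nat_lit 0x2000100000000000500038001d0008000200030000000) := T_41 (nat_lit 45) (nat_lit 63) (nat_lit 3) (nat_lit 8) (nat_lit 2) L112875 (by decide +kernel)
theorem L112877 : W_41 (nat_lit 9) (nat_lit 0x60001000080004000400020005000180000000000) (nat_lit 0x0) (nat_lit 0x2000100000000000500038001d0008000240032000000) := T_41 (nat_lit 42) (nat_lit 25) (nat_lit 4) (nat_lit 9) (nat_lit 5) L112876 (by decide +kernel)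
theorem L112878 : W_41 (nat_lit 10) (nat_lit 0x60001000080004000000020005000180000000000) (nat_lit 0x0) (nat_lit 0x200010000000000050003c001d000800024003a000000) := T_41 (nat_lit 94) (nat_lit 27) (nat_lit 6) (nat_lit 9) (nat_lit 5) L112877 (by decide +kernel)
theorem L112879 : W_41 (nat_lit 11) (nat_lit 0x20001000080004000000020005000180000000000) (nat_lit 0x0) (nat_lit 0xa00050000000000050003c001d000800024003a000000) := T_41 (nat_lit 162) (nat_lit 179) (nat_lit 7) (nat_lit 8) (nat_lit 6) L112878 (by decide +kernel)
theorem L112880 : W_41 (nat_lit 2) (nat_lit 0x200010000800060004000200050001c0000000000) (nat_lit 0x0) (nat_lit 0xa000200000000000) := D_41 (nat_lit 63) (nat_lit 45) (nat_lit 61) (nat_lit 3) (nat_lit 8) (nat_lit 2) (nat_lit 0) (nat_lit 12) (nat_lit 3) (by decide +kernel)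
theorem L112881 : W_41 (nat_lit 3) (nat_lit 0x20001000080006000400020005000180000000000) (nat_lit 0x0) (nat_lit 0xa000240002000000) := T_41 (nat_lit 42) (nat_lit 25) (nat_lit 4) (nat_lit 9) (nat_lit 5) L112880 (by decide +kernel)
theorem L112882 : W_41 (nat_lit 4) (nat_lit 0x20001000080006000000020005000180000000000) (nat_lit 0x0) (nat_lit 0x40000000a00024000a000000) := T_41 (nat_lit 94) (nat_lit 27) (nat_lit 6) (nat_lit 9) (nat_lit 5) L112881 (by decide +kernel)
theorem L112883 : W_41 (nat_lit 5) (nat_lit 0x20001000080004000000020005000180000000000) (nat_lit 0x0) (nat_lit 0x200050000000a00024000a000000) := T_41 (nat_lit 109) (nat_lit 92) (nat_lit 4) (nat_lit 8) (nat_lit 9) L112882 (by decide +kernel)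
theorem L112884 : W_41 (nat_lit 2) (nat_lit 0x6000100008000400000002000d000380000000000) (nat_lit 0x0) (nat_lit 0x30000400000000000) := D_41 (nat_lit 64) (nat_lit 65) (nat_lit 46) (nat_lit 0) (nat_lit 14) (nat_lit 3) (nat_lit 3) (nat_lit 9) (nat_lit 2) (by decide +kernel)
theorem L112885 : W_41 (nat_lit 3) (nat_lit 0x6000100008000400000002000d000180000000000) (nat_lit 0x0) (nat_lit 0x30000640000000000) := T_41 (nat_lit 45) (nat_lit 42) (nat_lit 3) (nat_lit 8) (nat_lit 2) L112884 (by decide +kernel)
theorem L112886 : W_41 (nat_lit 4) (nat_lit 0x2000100008000400000002000d000180000000000) (nat_lit 0x0) (nat_lit 0x800040000000000000000000000030000640000000000) := T_41 (nat_lit 162) (nat_lit 179) (nat_lit 7) (nat_lit 8) (nat_lit 6) L112885 (by decide +kernel)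
theorem L112887 : W_41 (nat_lit 2) (nat_lit 0x2000100008000400000002000d000180000000000) (nat_lit 0x0) (nat_lit 0x2000240000000000) := D_41 (nat_lit 42) (nat_lit 45) (nat_lit 61) (nat_lit 3) (nat_lit 8) (nat_lit 2) (nat_lit 0) (nat_lit 12) (nat_lit 3) (by decide +kernel)
theorem L112888 : W_41 (nat_lit 5) (nat_lit 0x20001000080004000000020005000180000000000) (nat_lit 0x0) (nat_lit 0x80004000000000000000000001003a000640000000000) := Q_41 (nat_lit 63) (C_41 L112834 (C_41 L112833 (C_41 L112886 (C_41 L112887 N_41)))) (by decide +kernel)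
theorem L112889 : W_41 (nat_lit 2) (nat_lit 0x60001000080006000000020007000180008000000) (nat_lit 0x0) (nat_lit 0x10018000000000000000) := D_41 (nat_lit 63) (nat_lit 76) (nat_lit 64) (nat_lit 1) (nat_lit 12) (nat_lit 3) (nat_lit 0) (nat_lit 13) (nat_lit 3) (by decide +kernel)
theorem L112890 : W_41 (nat_lit 3) (nat_lit 0x60001000080006000000020005000180008000000) (nat_lit 0x0) (nat_lit 0x1001a000000000000400) := T_41 (nat_lit 61) (nat_lit 10) (nat_lit 5) (nat_lit 10) (nat_lit 0) L112889 (by decide +kernel)
theorem L112891 : W_41 (nat_lit 4) (nat_lit 0x20001000080006000000020005000180008000000) (nat_lit 0x0) (nat_lit 0x80004000000000000000000001001a000000000000400) := T_41 (nat_lit 162) (nat_lit 179) (nat_lit 7) (nat_lit 8) (nat_lit 6) L112890 (by decide +kernel)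
theorem L112892 : W_41 (nat_lit 5) (nat_lit 0x20001000080006000000020005000180000000000) (nat_lit 0x0) (nat_lit 0x80004000000000000000040001001a000000008000400) := T_41 (nat_lit 27) (nat_lit 94) (nat_lit 6) (nat_lit 9) (nat_lit 5) L112891 (by decide +kernel)
theorem L112893 : W_41 (nat_lit 6) (nat_lit 0x20001000080004000000020005000180000000000) (nat_lit 0x0) (nat_lit 0x80004000000000000200050001001a000000008000400) := T_41 (nat_lit 109) (nat_lit 92) (nat_lit 4) (nat_lit 8) (nat_lit 9) L112892 (by decide +kernel)
theorem L112894 : W_41 (nat_lit 2) (nat_lit 0x300010000800060004000200052001e0000800000) (nat_lit 0x0) (nat_lit 0x100010000400000) := D_41 (nat_lit 40) (nat_lit 56) (nat_lit 22) (nat_lit 1) (nat_lit 9) (nat_lit 2) (nat_lit 0) (nat_lit 9) (nat_lit 2) (by decide +kernel)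
theorem L112895 : W_41 (nat_lit 3) (nat_lit 0x300010000800060004000200052001e0000000000) (nat_lit 0x0) (nat_lit 0x100010001c00000) := T_41 (nat_lit 23) (nat_lit 24) (nat_lit 0) (nat_lit 10) (nat_lit 2) L112894 (by decide +kernel)
theorem L112896 : W_41 (nat_lit 4) (nat_lit 0x300010000800060004000200050001e0000000000) (nat_lit 0x0) (nat_lit 0x700010001c00000) := T_41 (nat_lit 57) (nat_lit 58) (nat_lit 1) (nat_lit 10) (nat_lit 2) L112895 (by decide +kernel)
theorem L112897 : W_41 (nat_lit 5) (nat_lit 0x300010000800060004000200050001c0000000000) (nat_lit 0x0) (nat_lit 0x2700030001c00000) := T_41 (nat_lit 41) (nat_lit 61) (nat_lit 3) (nat_lit 7) (nat_lit 2) L112896 (by decide +kernel)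
theorem L112898 : W_41 (nat_lit 6) (nat_lit 0x30001000080006000400020005000180000000000) (nat_lit 0x0) (nat_lit 0x2700070003c00000) := T_41 (nat_lit 42) (nat_lit 25) (nat_lit 4) (nat_lit 9) (nat_lit 5) L112897 (by decide +kernel)
theorem L112899 : W_41 (nat_lit 7) (nat_lit 0x30001000080006000000020005000180000000000) (nat_lit 0x0) (nat_lit 0x40000000270007000bc00000) := T_41 (nat_lit 94) (nat_lit 27) (nat_lit 6) (nat_lit 9) (nat_lit 5) L112898 (by decide +kernel)
theorem L112900 : W_41 (nat_lit 8) (nat_lit 0x30001000080004000000020005000180000000000) (nat_lit 0x0) (nat_lit 0x200050000000270007000bc00000) := T_41 (nat_lit 109) (nat_lit 92) (nat_lit 4) (nat_lit 8) (nat_lit 9) L112899 (by decide +kernel)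
theorem L112901 : W_41 (nat_lit 9) (nat_lit 0x20001000080004000000020005000180000000000) (nat_lit 0x0) (nat_lit 0x20001000000000000200050000000270007000bc00000) := T_41 (nat_lit 160) (nat_lit 177) (nat_lit 5) (nat_lit 8) (nat_lit 6) L112900 (by decide +kernel)
theorem L112902 : W_41 (nat_lit 12) (nat_lit 0x20001000080004000000020005000080000000000) (nat_lit 0x0) (nat_lit 0xa00050000000000052003d001d003a70077003bc00400) := Q_41 (nat_lit 44) (C_41 L112879 (C_41 L112883 (C_41 L112888 (C_41 L112893 (C_41 L112901 N_41))))) (by decide +kernel)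
theorem L112903 : W_41 (nat_lit 2) (nat_lit 0x2000100008000400040002000d000180000000000) (nat_lit 0x0) (nat_lit 0x240002000000) := D_41 (nat_lit 42) (nat_lit 25) (nat_lit 45) (nat_lit 4) (nat_lit 9) (nat_lit 5) (nat_lit 3) (nat_lit 8) (nat_lit 2) (by decide +kernel)
theorem L112904 : W_41 (nat_lit 3) (nat_lit 0x2000100008000400000002000d000180000000000) (nat_lit 0x0) (nat_lit 0x40000000000024000a000000) := T_41 (nat_lit 94) (nat_lit 27) (nat_lit 6) (nat_lit 9) (nat_lit 5) L112903 (by decide +kernel)
theorem L112905 : W_41 (nat_lit 4) (nat_lit 0x6000100008000600000002000d000080000000000) (nat_lit 0x0) (nat_lit 0x710012000100000000000) := T_41 (nat_lit 61) (nat_lit 76) (nat_lit 1) (nat_lit 12) (nat_lit 3) L112520 (by decide +kernel)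
theorem L112906 : W_41 (nat_lit 5) (nat_lit 0x6000100008000400000002000d000080000000000) (nat_lit 0x0) (nat_lit 0x2000100710012000100000000000) := T_41 (nat_lit 109) (nat_lit 92) (nat_lit 4) (nat_lit 8) (nat_lit 9) L112905 (by decide +kernel)
theorem L112907 : W_41 (nat_lit 6) (nat_lit 0x2000100008000400000002000d000080000000000) (nat_lit 0x0) (nat_lit 0x800040000000000002000100710012000100000000000) := T_41 (nat_lit 162) (nat_lit 179) (nat_lit 7) (nat_lit 8) (nat_lit 6) L112906 (by decide +kernel)
theorem L112908 : W_41 (nat_lit 7) (nat_lit 0x2000100008000400000002000d000080000000000) (nat_lit 0x0) (nat_lit 0x200010000000000002000100750012000c00000000000) := T_41 (nat_lit 61) (nat_lit 76) (nat_lit 1) (nat_lit 12) (nat_lit 3) L112699 (by decide +kernel)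
theorem L112909 : W_41 (nat_lit 3) (nat_lit 0x3000100008000400000002000d000080000000000) (nat_lit 0x0) (nat_lit 0x50012000100000000000) := T_41 (nat_lit 61) (nat_lit 76) (nat_lit 1) (nat_lit 12) (nat_lit 3) L112772 (by decide +kernel)
theorem L112910 : W_41 (nat_lit 4) (nat_lit 0x2000100008000400000002000d000080000000000) (nat_lit 0x0) (nat_lit 0x200010000000000000000000050012000100000000000) := T_41 (nat_lit 160) (nat_lit 177) (nat_lit 5) (nat_lit 8) (nat_lit 6) L112909 (by decide +kernel)
theorem L112911 : W_41 (nat_lit 2) (nat_lit 0x70001000380016000800020005000080000000000) (nat_lit 0x0) (nat_lit 0x40021000000000000000000000000000) := D_41 (nat_lit 126) (nat_lit 108) (nat_lit 113) (nat_lit 0) (nat_lit 10) (nat_lit 7) (nat_lit 2) (nat_lit 7) (nat_lit 7) (by decide +kernel)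
theorem L112912 : W_41 (nat_lit 3) (nat_lit 0x70001000280016000800020005000080000000000) (nat_lit 0x0) (nat_lit 0x540021000000000000000000000000000) := T_41 (nat_lit 128) (nat_lit 130) (nat_lit 0) (nat_lit 11) (nat_lit 7) L112911 (by decide +kernel)
theorem L112913 : W_41 (nat_lit 4) (nat_lit 0x70001000080016000800020005000080000000000) (nat_lit 0x0) (nat_lit 0x740021000000040000000000000000000) := T_41 (nat_lit 129) (nat_lit 78) (nat_lit 4) (nat_lit 10) (nat_lit 7) L112912 (by decide +kernel)
theorem L112914 : W_41 (nat_lit 5) (nat_lit 0x70001000080014000800020005000080000000000) (nat_lit 0x0) (nat_lit 0x740023000100040000000000000000000) := T_41 (nat_lit 109) (nat_lit 92) (nat_lit 4) (nat_lit 8) (nat_lit 9) L112913 (by decide +kernel)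
theorem L112915 : W_41 (nat_lit 6) (nat_lit 0x70001000080004000800020005000080000000000) (nat_lit 0x0) (nat_lit 0x740033000500040000000000000000000) := T_41 (nat_lit 112) (nat_lit 94) (nat_lit 7) (nat_lit 9) (nat_lit 2) L112914 (by decide +kernel)
theorem L112916 : W_41 (nat_lit 7) (nat_lit 0x60001000080004000800020005000080000000000) (nat_lit 0x0) (nat_lit 0x200010000000740033000500040000000000000000000) := T_41 (nat_lit 160) (nat_lit 177) (nat_lit 5) (nat_lit 8) (nat_lit 6) L112915 (by decide +kernel)
theorem L112917 : W_41 (nat_lit 8) (nat_lit 0x20001000080004000800020005000080000000000) (nat_lit 0x0) (nat_lit 0xa00050000000740033000500040000000000000000000) := T_41 (nat_lit 162) (nat_lit 179) (nat_lit 7) (nat_lit 8) (nat_lit 6) L112916 (by decide +kernel)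
theorem L112918 : W_41 (nat_lit 2) (nat_lit 0x700010000800040000000e0007800040000000000) (nat_lit 0x0) (nat_lit 0x18000080000000000) := D_41 (nat_lit 63) (nat_lit 64) (nat_lit 43) (nat_lit 1) (nat_lit 13) (nat_lit 3) (nat_lit 0) (nat_lit 12) (nat_lit 3) (by decide +kernel)
theorem L112919 : W_41 (nat_lit 3) (nat_lit 0x700010000800040000000e0007800000000000000) (nat_lit 0x0) (nat_lit 0x180000e0000000000) := T_41 (nat_lit 42) (nat_lit 41) (nat_lit 0) (nat_lit 11) (nat_lit 3) L112918 (by decide +kernel)
theorem L112920 : W_41 (nat_lit 4) (nat_lit 0x600010000800040000000e0007800000000000000) (nat_lit 0x0) (nat_lit 0x2000100000000000000000000000180000e0000000000) := T_41 (nat_lit 160) (nat_lit 177) (nat_lit 5) (nat_lit 8) (nat_lit 6) L112919 (by decide +kernel)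
theorem L112921 : W_41 (nat_lit 5) (nat_lit 0x600010000800040000000e0007000000000000000) (nat_lit 0x0) (nat_lit 0x200010000000000000000000000018c000e0000000000) := T_41 (nat_lit 59) (nat_lit 58) (nat_lit 3) (nat_lit 7) (nat_lit 3) L112920 (by decide +kernel)
theorem L112922 : W_41 (nat_lit 6) (nat_lit 0x200010000800040000000e0007000000000000000) (nat_lit 0x0) (nat_lit 0xa00050000000000000000000000018c000e0000000000) := T_41 (nat_lit 162) (nat_lit 179) (nat_lit 7) (nat_lit 8) (nat_lit 6) L112921 (by decide +kernel)
theorem L112923 : W_41 (nat_lit 2) (nat_lit 0x200010000800060018000f0005800600000000000) (nat_lit 0x0) (nat_lit 0x180008000000) := D_41 (nat_lit 44) (nat_lit 43) (nat_lit 27) (nat_lit 1) (nat_lit 12) (nat_lit 2) (nat_lit 4) (nat_lit 11) (nat_lit 5) (by decide +kernel)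
theorem L112924 : W_41 (nat_lit 3) (nat_lit 0x200010000800060018000f0005800200000000000) (nat_lit 0x0) (nat_lit 0x580028000000) := T_41 (nat_lit 46) (nat_lit 29) (nat_lit 6) (nat_lit 11) (nat_lit 5) L112923 (by decide +kernel)
theorem L112925 : W_41 (nat_lit 4) (nat_lit 0x200010000800040018000f0005800200000000000) (nat_lit 0x0) (nat_lit 0x2000100000000000580028000000) := T_41 (nat_lit 109) (nat_lit 92) (nat_lit 4) (nat_lit 8) (nat_lit 9) L112924 (by decide +kernel)
theorem L112926 : W_41 (nat_lit 5) (nat_lit 0x200010000800040018000f0005800000000000000) (nat_lit 0x0) (nat_lit 0x2000100000000000780038000000) := T_41 (nat_lit 45) (nat_lit 28) (nat_lit 5) (nat_lit 11) (nat_lit 1) L112925 (by decide +kernel)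
theorem L112927 : W_41 (nat_lit 6) (nat_lit 0x200010000800040008000f0005800000000000000) (nat_lit 0x0) (nat_lit 0x2003100000000000780038000000) := T_41 (nat_lit 96) (nat_lit 97) (nat_lit 3) (nat_lit 8) (nat_lit 4) L112926 (by decide +kernel)
theorem L112928 : W_41 (nat_lit 7) (nat_lit 0x200010000800040008000f0005000000000000000) (nat_lit 0x0) (nat_lit 0x2003100000000c00780038000000) := T_41 (nat_lit 59) (nat_lit 58) (nat_lit 0) (nat_lit 11) (nat_lit 4) L112927 (by decide +kernel)
theorem L112929 : W_41 (nat_lit 8) (nat_lit 0x200010000800040008000e0005000000000000000) (nat_lit 0x0) (nat_lit 0x2003100010008c00780038000000) := T_41 (nat_lit 76) (nat_lit 63) (nat_lit 2) (nat_lit 8) (nat_lit 4) L112928 (by decide +kernel)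
theorem L112930 : W_41 (nat_lit 2) (nat_lit 0x200010006800060018000f0005800000000000000) (nat_lit 0x0) (nat_lit 0xc000000020000000000000000000000000000) := D_41 (nat_lit 113) (nat_lit 147) (nat_lit 146) (nat_lit 4) (nat_lit 11) (nat_lit 8) (nat_lit 5) (nat_lit 11) (nat_lit 4) (by decide +kernel)
theorem L112931 : W_41 (nat_lit 3) (nat_lit 0x200010006800060008000f0005800000000000000) (nat_lit 0x0) (nat_lit 0xc000000020003000000000000000000000000) := T_41 (nat_lit 96) (nat_lit 97) (nat_lit 3) (nat_lit 8) (nat_lit 4) L112930 (by decide +kernel)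
theorem L112932 : W_41 (nat_lit 4) (nat_lit 0x200010006800060008000f0005000000000000000) (nat_lit 0x0) (nat_lit 0xc000000020003000000000c00000000000000) := T_41 (nat_lit 59) (nat_lit 58) (nat_lit 0) (nat_lit 11) (nat_lit 4) L112931 (by decide +kernel)
theorem L112933 : W_41 (nat_lit 5) (nat_lit 0x200010006800060008000e0005000000000000000) (nat_lit 0x0) (nat_lit 0xc000000020003000010008c00000000000000) := T_41 (nat_lit 76) (nat_lit 63) (nat_lit 2) (nat_lit 8) (nat_lit 4) L112932 (by decide +kernel)
theorem L112934 : W_41 (nat_lit 6) (nat_lit 0x200010002800060008000e0005000000000000000) (nat_lit 0x0) (nat_lit 0xc000500020003000010008c00000000000000) := T_41 (nat_lit 130) (nat_lit 128) (nat_lit 0) (nat_lit 11) (nat_lit 7) L112933 (by decide +kernel)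
theorem L112935 : W_41 (nat_lit 7) (nat_lit 0x200010000800060008000e0005000000000000000) (nat_lit 0x0) (nat_lit 0xc000700030003000010008c00000000000000) := T_41 (nat_lit 129) (nat_lit 112) (nat_lit 6) (nat_lit 10) (nat_lit 7) L112934 (by decide +kernel)
theorem L112936 : W_41 (nat_lit 8) (nat_lit 0x200010000800040008000e0005000000000000000) (nat_lit 0x0) (nat_lit 0xc000700032003100010008c00000000000000) := T_41 (nat_lit 109) (nat_lit 92) (nat_lit 4) (nat_lit 8) (nat_lit 9) L112935 (by decide +kernel)
theorem L112937 : W_41 (nat_lit 2) (nat_lit 0x200010003800060008000e0005000000000000000) (nat_lit 0x0) (nat_lit 0x40001800000000000000000000000000) := D_41 (nat_lit 108) (nat_lit 126) (nat_lit 107) (nat_lit 0) (nat_lit 10) (nat_lit 7) (nat_lit 3) (nat_lit 5) (nat_lit 6) (by decide +kernel)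
theorem L112938 : W_41 (nat_lit 3) (nat_lit 0x200010002800060008000e0005000000000000000) (nat_lit 0x0) (nat_lit 0x540001800000000000000000000000000) := T_41 (nat_lit 128) (nat_lit 130) (nat_lit 0) (nat_lit 11) (nat_lit 7) L112937 (by decide +kernel)
theorem L112939 : W_41 (nat_lit 4) (nat_lit 0x200010000800060008000e0005000000000000000) (nat_lit 0x0) (nat_lit 0x740011800000000000000000000000000) := T_41 (nat_lit 129) (nat_lit 112) (nat_lit 6) (nat_lit 10) (nat_lit 7) L112938 (by decide +kernel)
theorem L112940 : W_41 (nat_lit 5) (nat_lit 0x200010000800040008000e0005000000000000000) (nat_lit 0x0) (nat_lit 0x740013800100000000000000000000000) := T_41 (nat_lit 109) (nat_lit 92) (nat_lit 4) (nat_lit 8) (nat_lit 9) L112939 (by decide +kernel)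
theorem L112941 : W_41 (nat_lit 2) (nat_lit 0x700010003800340000000e0005000000000000000) (nat_lit 0x0) (nat_lit 0x4000c0000000000000000000000000000) := D_41 (nat_lit 114) (nat_lit 115) (nat_lit 130) (nat_lit 1) (nat_lit 13) (nat_lit 6) (nat_lit 2) (nat_lit 8) (nat_lit 7) (by decide +kernel)
theorem L112942 : W_41 (nat_lit 3) (nat_lit 0x700010002800340000000e0005000000000000000) (nat_lit 0x0) (nat_lit 0x5400c0000000000000000000000000000) := T_41 (nat_lit 128) (nat_lit 126) (nat_lit 2) (nat_lit 7) (nat_lit 7) L112941 (by decide +kernel)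
theorem L112943 : W_41 (nat_lit 4) (nat_lit 0x600010002800340000000e0005000000000000000) (nat_lit 0x0) (nat_lit 0x2000100000005400c0000000000000000000000000000) := T_41 (nat_lit 160) (nat_lit 177) (nat_lit 5) (nat_lit 8) (nat_lit 6) L112942 (by decide +kernel)
theorem L112944 : W_41 (nat_lit 5) (nat_lit 0x600010002800140000000e0005000000000000000) (nat_lit 0x0) (nat_lit 0x2000100000005400e0001000000000000000000000000) := T_41 (nat_lit 113) (nat_lit 96) (nat_lit 5) (nat_lit 11) (nat_lit 3) L112943 (by decide +kernel)
theorem L112945 : W_41 (nat_lit 6) (nat_lit 0x600010002800040000000e0005000000000000000) (nat_lit 0x0) (nat_lit 0x2000100000005400f0001800000000000000000000000) := T_41 (nat_lit 112) (nat_lit 95) (nat_lit 6) (nat_lit 10) (nat_lit 7) L112944 (by decide +kernel)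
theorem L112946 : W_41 (nat_lit 7) (nat_lit 0x200010002800040000000e0005000000000000000) (nat_lit 0x0) (nat_lit 0xa000500000005400f0001800000000000000000000000) := T_41 (nat_lit 162) (nat_lit 179) (nat_lit 7) (nat_lit 8) (nat_lit 6) L112945 (by decide +kernel)
theorem L112947 : W_41 (nat_lit 2) (nat_lit 0x300010002800040010000f0005000000000000000) (nat_lit 0x0) (nat_lit 0x30000800000000000000000000000) := D_41 (nat_lit 112) (nat_lit 95) (nat_lit 113) (nat_lit 6) (nat_lit 10) (nat_lit 7) (nat_lit 5) (nat_lit 11) (nat_lit 3) (by decide +kernel)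
theorem L112948 : W_41 (nat_lit 3) (nat_lit 0x300010002800040000000f0005000000000000000) (nat_lit 0x0) (nat_lit 0x30003800000000000000000000000) := T_41 (nat_lit 96) (nat_lit 97) (nat_lit 3) (nat_lit 8) (nat_lit 4) L112947 (by decide +kernel)
theorem L112949 : W_41 (nat_lit 4) (nat_lit 0x300010002800040000000e0005000000000000000) (nat_lit 0x0) (nat_lit 0x30003800010008000000000000000) := T_41 (nat_lit 76) (nat_lit 63) (nat_lit 2) (nat_lit 8) (nat_lit 4) L112948 (by decide +kernel)
theorem L112950 : W_41 (nat_lit 5) (nat_lit 0x200010002800040000000e0005000000000000000) (nat_lit 0x0) (nat_lit 0x200010000000000030003800010008000000000000000) := T_41 (nat_lit 160) (nat_lit 177) (nat_lit 5) (nat_lit 8) (nat_lit 6) L112949 (by decide +kernel)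
theorem L112951 : W_41 (nat_lit 2) (nat_lit 0x200010000800060000000e0007800240000000000) (nat_lit 0x0) (nat_lit 0x800000000000000010000800) := D_41 (nat_lit 28) (nat_lit 11) (nat_lit 95) (nat_lit 5) (nat_lit 11) (nat_lit 0) (nat_lit 5) (nat_lit 11) (nat_lit 1) (by decide +kernel)
theorem L112952 : W_41 (nat_lit 3) (nat_lit 0x200010000800060000000e0007800040000000000) (nat_lit 0x0) (nat_lit 0x800000000000600010000800) := T_41 (nat_lit 45) (nat_lit 46) (nat_lit 2) (nat_lit 8) (nat_lit 3) L112951 (by decide +kernel)
theorem L112953 : W_41 (nat_lit 4) (nat_lit 0x200010000800060000000e0007800000000000000) (nat_lit 0x0) (nat_lit 0x800000000000660010000800) := T_41 (nat_lit 42) (nat_lit 41) (nat_lit 0) (nat_lit 11) (nat_lit 3) L112952 (by decide +kernel)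
theorem L112954 : W_41 (nat_lit 5) (nat_lit 0x200010000800040000000e0007800000000000000) (nat_lit 0x0) (nat_lit 0x2000900000000000660010000800) := T_41 (nat_lit 109) (nat_lit 92) (nat_lit 4) (nat_lit 8) (nat_lit 9) L112953 (by decide +kernel)
theorem L112955 : W_41 (nat_lit 6) (nat_lit 0x200010000800040000000e0007000000000000000) (nat_lit 0x0) (nat_lit 0x2000900000000c00660010000800) := T_41 (nat_lit 59) (nat_lit 58) (nat_lit 3) (nat_lit 7) (nat_lit 3) L112954 (by decide +kernel)
theorem L112956 : W_41 (nat_lit 2) (nat_lit 0x200010000800060000000e0017800200000000000) (nat_lit 0x0) (nat_lit 0x800000000000000010000800) := D_41 (nat_lit 28) (nat_lit 11) (nat_lit 95) (nat_lit 5) (nat_lit 11) (nat_lit 0) (nat_lit 5) (nat_lit 11) (nat_lit 1) (by decide +kernel)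
theorem L112957 : W_41 (nat_lit 3) (nat_lit 0x200010000800060000000e0017800000000000000) (nat_lit 0x0) (nat_lit 0x800000000000600010000800) := T_41 (nat_lit 45) (nat_lit 46) (nat_lit 2) (nat_lit 8) (nat_lit 3) L112956 (by decide +kernel)
theorem L112958 : W_41 (nat_lit 4) (nat_lit 0x200010000800040000000e0017800000000000000) (nat_lit 0x0) (nat_lit 0x2000900000000000600010000800) := T_41 (nat_lit 109) (nat_lit 92) (nat_lit 4) (nat_lit 8) (nat_lit 9) L112957 (by decide +kernel)
theorem L112959 : W_41 (nat_lit 5) (nat_lit 0x200010000800040000000e0017000000000000000) (nat_lit 0x0) (nat_lit 0x2000900000000c00600010000800) := T_41 (nat_lit 59) (nat_lit 58) (nat_lit 3) (nat_lit 7) (nat_lit 3) L112958 (by decide +kernel)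
theorem L112960 : W_41 (nat_lit 6) (nat_lit 0x200010000800040000000e0007000000000000000) (nat_lit 0x0) (nat_lit 0x2000900000018c00600010000800) := T_41 (nat_lit 64) (nat_lit 63) (nat_lit 1) (nat_lit 13) (nat_lit 3) L112959 (by decide +kernel)
theorem L112961 : W_41 (nat_lit 3) (nat_lit 0x300010000800040000000e0007800000000000000) (nat_lit 0x0) (nat_lit 0x800000000000600010000800) := T_41 (nat_lit 45) (nat_lit 46) (nat_lit 2) (nat_lit 8) (nat_lit 3) L112659 (by decide +kernel)
theorem L112962 : W_41 (nat_lit 4) (nat_lit 0x300010000800040000000e0007000000000000000) (nat_lit 0x0) (nat_lit 0x800000000c00600010000800) := T_41 (nat_lit 59) (nat_lit 58) (nat_lit 3) (nat_lit 7) (nat_lit 3) L112961 (by decide +kernel)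
theorem L112963 : W_41 (nat_lit 5) (nat_lit 0x200010000800040000000e0007000000000000000) (nat_lit 0x0) (nat_lit 0x200010000000000000000800000000c00600010000800) := T_41 (nat_lit 160) (nat_lit 177) (nat_lit 5) (nat_lit 8) (nat_lit 6) L112962 (by decide +kernel)
theorem L112964 : W_41 (nat_lit 2) (nat_lit 0x200010000800040018000f0005800000000000000) (nat_lit 0x0) (nat_lit 0x10000000000000000200010000000) := D_41 (nat_lit 45) (nat_lit 112) (nat_lit 28) (nat_lit 5) (nat_lit 11) (nat_lit 2) (nat_lit 5) (nat_lit 11) (nat_lit 1) (by decide +kernel)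
theorem L112965 : W_41 (nat_lit 3) (nat_lit 0x200010000800040008000f0005800000000000000) (nat_lit 0x0) (nat_lit 0x10003000000000000200010000000) := T_41 (nat_lit 96) (nat_lit 97) (nat_lit 3) (nat_lit 8) (nat_lit 4) L112964 (by decide +kernel)
theorem L112966 : W_41 (nat_lit 4) (nat_lit 0x200010000800040008000f0005000000000000000) (nat_lit 0x0) (nat_lit 0x10003000000000c00200010000000) := T_41 (nat_lit 59) (nat_lit 58) (nat_lit 0) (nat_lit 11) (nat_lit 4) L112965 (by decide +kernel)
theorem L112967 : W_41 (nat_lit 5) (nat_lit 0x200010000800040008000e0005000000000000000) (nat_lit 0x0) (nat_lit 0x10003000010008c00200010000000) := T_41 (nat_lit 76) (nat_lit 63) (nat_lit 2) (nat_lit 8) (nat_lit 4) L112966 (by decide +kernel)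
theorem L112968 : W_41 (nat_lit 9) (nat_lit 0x200010000800040000000e0005000000000000000) (nat_lit 0x0) (nat_lit 0xc000740033803900010008c00780038000000) := Q_41 (nat_lit 95) (C_41 L112940 (C_41 L112936 (C_41 L112929 (C_41 L112967 N_41)))) (by decide +kernel)
theorem L112969 : W_41 (nat_lit 2) (nat_lit 0x300010006800160030000e0005800600000000000) (nat_lit 0x0) (nat_lit 0x180008000000) := D_41 (nat_lit 44) (nat_lit 43) (nat_lit 27) (nat_lit 1) (nat_lit 12) (nat_lit 2) (nat_lit 4) (nat_lit 11) (nat_lit 5) (by decide +kernel)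
theorem L112970 : W_41 (nat_lit 3) (nat_lit 0x300010006800160030000e0005000600000000000) (nat_lit 0x0) (nat_lit 0x2800180008000000) := T_41 (nat_lit 59) (nat_lit 61) (nat_lit 2) (nat_lit 8) (nat_lit 3) L112969 (by decide +kernel)
theorem L112971 : W_41 (nat_lit 4) (nat_lit 0x300010006800160030000e0005000200000000000) (nat_lit 0x0) (nat_lit 0x2800580028000000) := T_41 (nat_lit 46) (nat_lit 29) (nat_lit 6) (nat_lit 11) (nat_lit 5) L112970 (by decide +kernel)
theorem L112972 : W_41 (nat_lit 5) (nat_lit 0x300010006800160030000e0005000000000000000) (nat_lit 0x0) (nat_lit 0x40000000000002800780028000000) := T_41 (nat_lit 45) (nat_lit 114) (nat_lit 7) (nat_lit 11) (nat_lit 2) L112971 (by decide +kernel)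
theorem L112973 : W_41 (nat_lit 6) (nat_lit 0x300010002800160030000e0005000000000000000) (nat_lit 0x0) (nat_lit 0x500040000000000002800780028000000) := T_41 (nat_lit 130) (nat_lit 128) (nat_lit 0) (nat_lit 11) (nat_lit 7) L112972 (by decide +kernel)
theorem L112974 : W_41 (nat_lit 7) (nat_lit 0x300010002800140030000e0005000000000000000) (nat_lit 0x0) (nat_lit 0x500042000100000002800780028000000) := T_41 (nat_lit 109) (nat_lit 92) (nat_lit 4) (nat_lit 8) (nat_lit 9) L112973 (by decide +kernel)
theorem L112975 : W_41 (nat_lit 8) (nat_lit 0x300010002800140010000e0005000000000000000) (nat_lit 0x0) (nat_lit 0x500042002100010002800780028000000) := T_41 (nat_lit 97) (nat_lit 76) (nat_lit 3) (nat_lit 8) (nat_lit 4) L112974 (by decide +kernel)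
theorem L112976 : W_41 (nat_lit 9) (nat_lit 0x300010002800140000000e0005000000000000000) (nat_lit 0x0) (nat_lit 0x500062003100010002800780028000000) := T_41 (nat_lit 96) (nat_lit 113) (nat_lit 5) (nat_lit 11) (nat_lit 3) L112975 (by decide +kernel)
theorem L112977 : W_41 (nat_lit 10) (nat_lit 0x300010002800040000000e0005000000000000000) (nat_lit 0x0) (nat_lit 0x500072003900010002800780028000000) := T_41 (nat_lit 112) (nat_lit 95) (nat_lit 6) (nat_lit 10) (nat_lit 7) L112976 (by decide +kernel)
theorem L112978 : W_41 (nat_lit 11) (nat_lit 0x200010002800040000000e0005000000000000000) (nat_lit 0x0) (nat_lit 0x200010000000500072003900010002800780028000000) := T_41 (nat_lit 160) (nat_lit 177) (nat_lit 5) (nat_lit 8) (nat_lit 6) L112977 (by decide +kernel)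
theorem L112979 : W_41 (nat_lit 2) (nat_lit 0x3000100028001600b0000e0005800600000000000) (nat_lit 0x0) (nat_lit 0x180008000000) := D_41 (nat_lit 44) (nat_lit 43) (nat_lit 27) (nat_lit 1) (nat_lit 12) (nat_lit 2) (nat_lit 4) (nat_lit 11) (nat_lit 5) (by decide +kernel)
theorem L112980 : W_41 (nat_lit 3) (nat_lit 0x3000100028001600b0000e0005000600000000000) (nat_lit 0x0) (nat_lit 0x2800180008000000) := T_41 (nat_lit 59) (nat_lit 61) (nat_lit 2) (nat_lit 8) (nat_lit 3) L112979 (by decide +kernel)
theorem L112981 : W_41 (nat_lit 4) (nat_lit 0x3000100028001600b0000e0005000200000000000) (nat_lit 0x0) (nat_lit 0x2800580028000000) := T_41 (nat_lit 46) (nat_lit 29) (nat_lit 6) (nat_lit 11) (nat_lit 5) L112980 (by decide +kernel)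
theorem L112982 : W_41 (nat_lit 5) (nat_lit 0x3000100028001600b0000e0005000000000000000) (nat_lit 0x0) (nat_lit 0x40000000000002800780028000000) := T_41 (nat_lit 45) (nat_lit 114) (nat_lit 7) (nat_lit 11) (nat_lit 2) L112981 (by decide +kernel)
theorem L112983 : W_41 (nat_lit 6) (nat_lit 0x300010002800160030000e0005000000000000000) (nat_lit 0x0) (nat_lit 0x4000c000000002800780028000000) := T_41 (nat_lit 99) (nat_lit 98) (nat_lit 0) (nat_lit 14) (nat_lit 5) L112982 (by decide +kernel)
theorem L112984 : W_41 (nat_lit 7) (nat_lit 0x300010002800160010000e0005000000000000000) (nat_lit 0x0) (nat_lit 0x4000e000010002800780028000000) := T_41 (nat_lit 97) (nat_lit 76) (nat_lit 3) (nat_lit 8) (nat_lit 4) L112983 (by decide +kernel)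
theorem L112985 : W_41 (nat_lit 8) (nat_lit 0x300010002800160000000e0005000000000000000) (nat_lit 0x0) (nat_lit 0x6000f000010002800780028000000) := T_41 (nat_lit 96) (nat_lit 113) (nat_lit 5) (nat_lit 11) (nat_lit 3) L112984 (by decide +kernel)
theorem L112986 : W_41 (nat_lit 9) (nat_lit 0x300010002800060000000e0005000000000000000) (nat_lit 0x0) (nat_lit 0x7000f800010002800780028000000) := T_41 (nat_lit 112) (nat_lit 95) (nat_lit 6) (nat_lit 10) (nat_lit 7) L112985 (by decide +kernel)
theorem L112987 : W_41 (nat_lit 10) (nat_lit 0x200010002800060000000e0005000000000000000) (nat_lit 0x0) (nat_lit 0x20001000000000007000f800010002800780028000000) := T_41 (nat_lit 160) (nat_lit 177) (nat_lit 5) (nat_lit 8) (nat_lit 6) L112986 (by decide +kernel)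
theorem L112988 : W_41 (nat_lit 11) (nat_lit 0x200010002800040000000e0005000000000000000) (nat_lit 0x0) (nat_lit 0x20001000000000007200f900010002800780028000000) := T_41 (nat_lit 109) (nat_lit 92) (nat_lit 4) (nat_lit 8) (nat_lit 9) L112987 (by decide +kernel)
theorem L112989 : W_41 (nat_lit 2) (nat_lit 0x3000100028001400b0000e0005800600000000000) (nat_lit 0x0) (nat_lit 0x180008000000) := D_41 (nat_lit 44) (nat_lit 43) (nat_lit 27) (nat_lit 1) (nat_lit 12) (nat_lit 2) (nat_lit 4) (nat_lit 11) (nat_lit 5) (by decide +kernel)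
theorem L112990 : W_41 (nat_lit 3) (nat_lit 0x3000100028001400b0000e0005000600000000000) (nat_lit 0x0) (nat_lit 0x2800180008000000) := T_41 (nat_lit 59) (nat_lit 61) (nat_lit 2) (nat_lit 8) (nat_lit 3) L112989 (by decide +kernel)
theorem L112991 : W_41 (nat_lit 4) (nat_lit 0x3000100028001400b0000e0005000200000000000) (nat_lit 0x0) (nat_lit 0x2800580028000000) := T_41 (nat_lit 46) (nat_lit 29) (nat_lit 6) (nat_lit 11) (nat_lit 5) L112990 (by decide +kernel)
theorem L112992 : W_41 (nat_lit 5) (nat_lit 0x3000100028001400b0000e0005000000000000000) (nat_lit 0x0) (nat_lit 0x40000000000002800780028000000) := T_41 (nat_lit 45) (nat_lit 114) (nat_lit 7) (nat_lit 11) (nat_lit 2) L112991 (by decide +kernel)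
theorem L112993 : W_41 (nat_lit 6) (nat_lit 0x300010002800140030000e0005000000000000000) (nat_lit 0x0) (nat_lit 0x4000c000000002800780028000000) := T_41 (nat_lit 99) (nat_lit 98) (nat_lit 0) (nat_lit 14) (nat_lit 5) L112992 (by decide +kernel)
theorem L112994 : W_41 (nat_lit 7) (nat_lit 0x300010002800140010000e0005000000000000000) (nat_lit 0x0) (nat_lit 0x4000e000010002800780028000000) := T_41 (nat_lit 97) (nat_lit 76) (nat_lit 3) (nat_lit 8) (nat_lit 4) L112993 (by decide +kernel)
theorem L112995 : W_41 (nat_lit 8) (nat_lit 0x300010002800140000000e0005000000000000000) (nat_lit 0x0) (nat_lit 0x6000f000010002800780028000000) := T_41 (nat_lit 96) (nat_lit 113) (nat_lit 5) (nat_lit 11) (nat_lit 3) L112994 (by decide +kernel)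
theorem L112996 : W_41 (nat_lit 9) (nat_lit 0x200010002800140000000e0005000000000000000) (nat_lit 0x0) (nat_lit 0x20001000000000006000f000010002800780028000000) := T_41 (nat_lit 160) (nat_lit 177) (nat_lit 5) (nat_lit 8) (nat_lit 6) L112995 (by decide +kernel)
theorem L112997 : W_41 (nat_lit 10) (nat_lit 0x200010002800040000000e0005000000000000000) (nat_lit 0x0) (nat_lit 0x20001000000000007000f800010002800780028000000) := T_41 (nat_lit 112) (nat_lit 95) (nat_lit 6) (nat_lit 10) (nat_lit 7) L112996 (by decide +kernel)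
theorem L112998 : W_41 (nat_lit 12) (nat_lit 0x200010000800040000000e0005000000000000000) (nat_lit 0x0) (nat_lit 0x20001000000074007380f900010002800780028000000) := Q_41 (nat_lit 129) (C_41 L112550 (C_41 L112978 (C_41 L112988 (C_41 L112997 N_41)))) (by decide +kernel)
theorem L112999 : W_41 (nat_lit 2) (nat_lit 0x700010000800040018000f0005800280000000000) (nat_lit 0x0) (nat_lit 0x500008000000) := D_41 (nat_lit 44) (nat_lit 27) (nat_lit 46) (nat_lit 4) (nat_lit 11) (nat_lit 5) (nat_lit 1) (nat_lit 12) (nat_lit 2) (by decide +kernel)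
theorem L113000 : W_41 (nat_lit 3) (nat_lit 0x700010000800040018000f0005800080000000000) (nat_lit 0x0) (nat_lit 0x700018000000) := T_41 (nat_lit 45) (nat_lit 28) (nat_lit 5) (nat_lit 11) (nat_lit 1) L112999 (by decide +kernel)
theorem L113001 : W_41 (nat_lit 4) (nat_lit 0x300010000800040018000f0005800080000000000) (nat_lit 0x0) (nat_lit 0x800040000000000000000000000000000700018000000) := T_41 (nat_lit 162) (nat_lit 179) (nat_lit 7) (nat_lit 8) (nat_lit 6) L113000 (by decide +kernel)
theorem L113002 : W_41 (nat_lit 2) (nat_lit 0x600010000800040000000e0005000200038000000) (nat_lit 0x0) (nat_lit 0x1000000000000500000000000) := D_41 (nat_lit 96) (nat_lit 44) (nat_lit 46) (nat_lit 4) (nat_lit 11) (nat_lit 5) (nat_lit 6) (nat_lit 11) (nat_lit 5) (by decide +kernel)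
theorem L113003 : W_41 (nat_lit 3) (nat_lit 0x600010000800040000000e0005000200018000000) (nat_lit 0x0) (nat_lit 0x1000000000000500020001000) := T_41 (nat_lit 29) (nat_lit 12) (nat_lit 6) (nat_lit 11) (nat_lit 4) L113002 (by decide +kernel)
theorem L113004 : W_41 (nat_lit 4) (nat_lit 0x600010000800040000000e0005000200010000000) (nat_lit 0x0) (nat_lit 0x1000000000000500028001400) := T_41 (nat_lit 27) (nat_lit 10) (nat_lit 4) (nat_lit 11) (nat_lit 4) L113003 (by decide +kernel)
theorem L113005 : W_41 (nat_lit 5) (nat_lit 0x600010000800040000000e0005000200000000000) (nat_lit 0x0) (nat_lit 0x1800000000000500038001400) := T_41 (nat_lit 28) (nat_lit 95) (nat_lit 5) (nat_lit 11) (nat_lit 1) L113004 (by decide +kernel)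
theorem L113006 : W_41 (nat_lit 6) (nat_lit 0x200010000800040000000e0005000200000000000) (nat_lit 0x0) (nat_lit 0x800040000000000000001800000000000500038001400) := T_41 (nat_lit 162) (nat_lit 179) (nat_lit 7) (nat_lit 8) (nat_lit 6) L113005 (by decide +kernel)
theorem L113007 : W_41 (nat_lit 2) (nat_lit 0x700010000800060010000f0005800600000000000) (nat_lit 0x0) (nat_lit 0x180008000000) := D_41 (nat_lit 44) (nat_lit 43) (nat_lit 27) (nat_lit 1) (nat_lit 12) (nat_lit 2) (nat_lit 4) (nat_lit 11) (nat_lit 5) (by decide +kernel)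
theorem L113008 : W_41 (nat_lit 3) (nat_lit 0x700010000800060010000f0005800200000000000) (nat_lit 0x0) (nat_lit 0x580028000000) := T_41 (nat_lit 46) (nat_lit 29) (nat_lit 6) (nat_lit 11) (nat_lit 5) L113007 (by decide +kernel)
theorem L113009 : W_41 (nat_lit 4) (nat_lit 0x600010000800060010000f0005800200000000000) (nat_lit 0x0) (nat_lit 0x200010000000000000000000000000000580028000000) := T_41 (nat_lit 160) (nat_lit 177) (nat_lit 5) (nat_lit 8) (nat_lit 6) L113008 (by decide +kernel)
theorem L113010 : W_41 (nat_lit 5) (nat_lit 0x600010000800060000000f0005800200000000000) (nat_lit 0x0) (nat_lit 0x200010000000000000003000000000000580028000000) := T_41 (nat_lit 96) (nat_lit 97) (nat_lit 3) (nat_lit 8) (nat_lit 4) L113009 (by decide +kernel)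
theorem L113011 : W_41 (nat_lit 6) (nat_lit 0x600010000800060000000f0005000200000000000) (nat_lit 0x0) (nat_lit 0x200010000000000000003000000000c00580028000000) := T_41 (nat_lit 59) (nat_lit 58) (nat_lit 0) (nat_lit 11) (nat_lit 4) L113010 (by decide +kernel)
theorem L113012 : W_41 (nat_lit 7) (nat_lit 0x600010000800060000000e0005000200000000000) (nat_lit 0x0) (nat_lit 0x200010000000000000003000010008c00580028000000) := T_41 (nat_lit 76) (nat_lit 63) (nat_lit 2) (nat_lit 8) (nat_lit 4) L113011 (by decide +kernel)
theorem L113013 : W_41 (nat_lit 8) (nat_lit 0x200010000800060000000e0005000200000000000) (nat_lit 0x0) (nat_lit 0xa00050000000000000003000010008c00580028000000) := T_41 (nat_lit 162) (nat_lit 179) (nat_lit 7) (nat_lit 8) (nat_lit 6) L113012 (by decide +kernel)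
theorem L113014 : W_41 (nat_lit 9) (nat_lit 0x200010000800040000000e0005000200000000000) (nat_lit 0x0) (nat_lit 0xa00050000000000002003100010008c00580028000000) := T_41 (nat_lit 109) (nat_lit 92) (nat_lit 4) (nat_lit 8) (nat_lit 9) L113013 (by decide +kernel)
theorem L113015 : W_41 (nat_lit 2) (nat_lit 0x700010000800060008000e002d000780000000000) (nat_lit 0x0) (nat_lit 0x60001000) := D_41 (nat_lit 29) (nat_lit 30) (nat_lit 12) (nat_lit 2) (nat_lit 9) (nat_lit 2) (nat_lit 5) (nat_lit 12) (nat_lit 0) (by decide +kernel)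
theorem L113016 : W_41 (nat_lit 3) (nat_lit 0x700010000800060008000e002d000380000000000) (nat_lit 0x0) (nat_lit 0x800400060001000) := T_41 (nat_lit 46) (nat_lit 59) (nat_lit 1) (nat_lit 12) (nat_lit 2) L113015 (by decide +kernel)
theorem L113017 : W_41 (nat_lit 4) (nat_lit 0x700010000800060008000e002d000280000000000) (nat_lit 0x0) (nat_lit 0x800540060001000) := T_41 (nat_lit 44) (nat_lit 42) (nat_lit 3) (nat_lit 8) (nat_lit 2) L113016 (by decide +kernel)
theorem L113018 : W_41 (nat_lit 5) (nat_lit 0x700010000800060008000e002d000200000000000) (nat_lit 0x0) (nat_lit 0x8005c0064001000) := T_41 (nat_lit 43) (nat_lit 26) (nat_lit 7) (nat_lit 9) (nat_lit 1) L113017 (by decide +kernel)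
theorem L113019 : W_41 (nat_lit 6) (nat_lit 0x600010000800060008000e002d000200000000000) (nat_lit 0x0) (nat_lit 0x2000100000000000000000000000008005c0064001000) := T_41 (nat_lit 160) (nat_lit 177) (nat_lit 5) (nat_lit 8) (nat_lit 6) L113018 (by decide +kernel)
theorem L113020 : W_41 (nat_lit 7) (nat_lit 0x600010000800060000000e002d000200000000000) (nat_lit 0x0) (nat_lit 0x2000100000000000000008000000008005c0074001000) := T_41 (nat_lit 95) (nat_lit 28) (nat_lit 5) (nat_lit 11) (nat_lit 1) L113019 (by decide +kernel)
theorem L113021 : W_41 (nat_lit 8) (nat_lit 0x600010000800040000000e002d000200000000000) (nat_lit 0x0) (nat_lit 0x2000100000000000020009000000008005c0074001000) := T_41 (nat_lit 109) (nat_lit 92) (nat_lit 4) (nat_lit 8) (nat_lit 9) L113020 (by decide +kernel)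
theorem L113022 : W_41 (nat_lit 9) (nat_lit 0x600010000800040000000e000d000200000000000) (nat_lit 0x0) (nat_lit 0x2000100000000000020009000000308005c0074001000) := T_41 (nat_lit 65) (nat_lit 64) (nat_lit 1) (nat_lit 14) (nat_lit 3) L113021 (by decide +kernel)
theorem L113023 : W_41 (nat_lit 10) (nat_lit 0x200010000800040000000e000d000200000000000) (nat_lit 0x0) (nat_lit 0xa000500000000000020009000000308005c0074001000) := T_41 (nat_lit 162) (nat_lit 179) (nat_lit 7) (nat_lit 8) (nat_lit 6) L113022 (by decide +kernel)
theorem L113024 : W_41 (nat_lit 11) (nat_lit 0x200010000800040000000e0005000200000000000) (nat_lit 0x0) (nat_lit 0xa000500000000000020009000100388005c0074001000) := T_41 (nat_lit 63) (nat_lit 76) (nat_lit 2) (nat_lit 8) (nat_lit 4) L113023 (by decide +kernel)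
theorem L113025 : W_41 (nat_lit 2) (nat_lit 0x200010000800040000000f0005000200038000000) (nat_lit 0x0) (nat_lit 0x3000000000000400000000000) := D_41 (nat_lit 96) (nat_lit 46) (nat_lit 97) (nat_lit 6) (nat_lit 11) (nat_lit 5) (nat_lit 3) (nat_lit 8) (nat_lit 4) (by decide +kernel)
theorem L113026 : W_41 (nat_lit 3) (nat_lit 0x200010000800040000000e0005000200038000000) (nat_lit 0x0) (nat_lit 0x3000010008000400000000000) := T_41 (nat_lit 76) (nat_lit 63) (nat_lit 2) (nat_lit 8) (nat_lit 4) L113025 (by decide +kernel)
theorem L113027 : W_41 (nat_lit 4) (nat_lit 0x200010000800040000000e0005000200018000000) (nat_lit 0x0) (nat_lit 0x3000010008000400020001000) := T_41 (nat_lit 29) (nat_lit 12) (nat_lit 6) (nat_lit 11) (nat_lit 4) L113026 (by decide +kernel)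
theorem L113028 : W_41 (nat_lit 5) (nat_lit 0x200010000800040000000e0005000200010000000) (nat_lit 0x0) (nat_lit 0x3000010008000400028001400) := T_41 (nat_lit 27) (nat_lit 10) (nat_lit 4) (nat_lit 11) (nat_lit 4) L113027 (by decide +kernel)
theorem L113029 : W_41 (nat_lit 6) (nat_lit 0x200010000800040000000e0005000200000000000) (nat_lit 0x0) (nat_lit 0x3800010008000400038001400) := T_41 (nat_lit 28) (nat_lit 95) (nat_lit 5) (nat_lit 11) (nat_lit 1) L113028 (by decide +kernel)
theorem L113030 : W_41 (nat_lit 2) (nat_lit 0x200010000800040010000f0005800200010000000) (nat_lit 0x0) (nat_lit 0x100008000400) := D_41 (nat_lit 27) (nat_lit 10) (nat_lit 44) (nat_lit 4) (nat_lit 11) (nat_lit 4) (nat_lit 4) (nat_lit 11) (nat_lit 5) (by decide +kernel)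
theorem L113031 : W_41 (nat_lit 3) (nat_lit 0x200010000800040010000f0005800200000000000) (nat_lit 0x0) (nat_lit 0x800000000000100018000400) := T_41 (nat_lit 28) (nat_lit 95) (nat_lit 5) (nat_lit 11) (nat_lit 1) L113030 (by decide +kernel)
theorem L113032 : W_41 (nat_lit 4) (nat_lit 0x200010000800040000000f0005800200000000000) (nat_lit 0x0) (nat_lit 0x3800000000000100018000400) := T_41 (nat_lit 96) (nat_lit 97) (nat_lit 3) (nat_lit 8) (nat_lit 4) L113031 (by decide +kernel)
theorem L113033 : W_41 (nat_lit 5) (nat_lit 0x200010000800040000000f0005000200000000000) (nat_lit 0x0) (nat_lit 0x3800000000c00100018000400) := T_41 (nat_lit 59) (nat_lit 58) (nat_lit 0) (nat_lit 11) (nat_lit 4) L113032 (by decide +kernel)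
theorem L113034 : W_41 (nat_lit 6) (nat_lit 0x200010000800040000000e0005000200000000000) (nat_lit 0x0) (nat_lit 0x3800010008c00100018000400) := T_41 (nat_lit 76) (nat_lit 63) (nat_lit 2) (nat_lit 8) (nat_lit 4) L113033 (by decide +kernel)
theorem L113035 : W_41 (nat_lit 12) (nat_lit 0x200010000800040000000e0005000000000000000) (nat_lit 0x0) (nat_lit 0xa00050000000000002003900010038c007c007c001400) := Q_41 (nat_lit 45) (C_41 L112547 (C_41 L113006 (C_41 L113014 (C_41 L113024 (C_41 L113029 (C_41 L113034 N_41)))))) (by decide +kernel)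
theorem L113036 : W_41 (nat_lit 2) (nat_lit 0x200010000800040000000e0007000000000000000) (nat_lit 0x0) (nat_lit 0x300000800000000000000) := D_41 (nat_lit 80) (nat_lit 59) (nat_lit 81) (nat_lit 3) (nat_lit 8) (nat_lit 3) (nat_lit 0) (nat_lit 13) (nat_lit 4) (by decide +kernel)
theorem L113037 : W_41 (nat_lit 5) (nat_lit 0x200010000800040018000f0005800080000000000) (nat_lit 0x0) (nat_lit 0xa00050000000000000000000000000000700018000000) := T_41 (nat_lit 160) (nat_lit 177) (nat_lit 5) (nat_lit 8) (nat_lit 6) L113001 (by decide +kernel)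
theorem L113038 : W_41 (nat_lit 2) (nat_lit 0x600010000800040008000e0005000080000000000) (nat_lit 0x0) (nat_lit 0x200010000400000000000000000000000) := D_41 (nat_lit 112) (nat_lit 129) (nat_lit 94) (nat_lit 6) (nat_lit 10) (nat_lit 7) (nat_lit 7) (nat_lit 9) (nat_lit 2) (by decide +kernel)
theorem L113039 : W_41 (nat_lit 3) (nat_lit 0x600010000800040008000e0005000000000000000) (nat_lit 0x0) (nat_lit 0x200010000400000000000080004000000) := T_41 (nat_lit 43) (nat_lit 26) (nat_lit 7) (nat_lit 9) (nat_lit 1) L113038 (by decide +kernel)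
theorem L113040 : W_41 (nat_lit 4) (nat_lit 0x200010000800040008000e0005000000000000000) (nat_lit 0x0) (nat_lit 0x800040000000200010000400000000000080004000000) := T_41 (nat_lit 162) (nat_lit 179) (nat_lit 7) (nat_lit 8) (nat_lit 6) L113039 (by decide +kernel)
theorem L113041 : W_41 (nat_lit 6) (nat_lit 0x200010000800040008000f0005800080000000000) (nat_lit 0x0) (nat_lit 0xa00050000000000000003000000000000700018000000) := T_41 (nat_lit 96) (nat_lit 97) (nat_lit 3) (nat_lit 8) (nat_lit 4) L113037 (by decide +kernel)
theorem L113042 : W_41 (nat_lit 7) (nat_lit 0x200010000800040008000f0005000080000000000) (nat_lit 0x0) (nat_lit 0xa00050000000000000003000000000c00700018000000) := T_41 (nat_lit 59) (nat_lit 58) (nat_lit 0) (nat_lit 11) (nat_lit 4) L113041 (by decide +kernel)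
theorem L113043 : W_41 (nat_lit 8) (nat_lit 0x200010000800040008000e0005000080000000000) (nat_lit 0x0) (nat_lit 0xa00050000000000000003000010008c00700018000000) := T_41 (nat_lit 76) (nat_lit 63) (nat_lit 2) (nat_lit 8) (nat_lit 4) L113042 (by decide +kernel)
theorem L113044 : W_41 (nat_lit 9) (nat_lit 0x200010000800040008000e0005000000000000000) (nat_lit 0x0) (nat_lit 0xa00050000000000000003000010008c0078001c000000) := T_41 (nat_lit 43) (nat_lit 26) (nat_lit 7) (nat_lit 9) (nat_lit 1) L113043 (by decide +kernel)
theorem L113045 : W_41 (nat_lit 10) (nat_lit 0x200010000800040000000e0005000000000000000) (nat_lit 0x0) (nat_lit 0xa00050000000200010003c00010008c0078001c000000) := Q_41 (nat_lit 95) (C_41 L113040 (C_41 L112967 (C_41 L113044 N_41))) (by decide +kernel)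
theorem L113046 : W_41 (nat_lit 2) (nat_lit 0x200010000800040030000e0005000000000000000) (nat_lit 0x0) (nat_lit 0xc800000000000000000000000) := D_41 (nat_lit 98) (nat_lit 99) (nat_lit 95) (nat_lit 0) (nat_lit 14) (nat_lit 5) (nat_lit 0) (nat_lit 13) (nat_lit 5) (by decide +kernel)
theorem L113047 : W_41 (nat_lit 3) (nat_lit 0x200010000800040010000e0005000000000000000) (nat_lit 0x0) (nat_lit 0xe800010000000000000000000) := T_41 (nat_lit 97) (nat_lit 76) (nat_lit 3) (nat_lit 8) (nat_lit 4) L113046 (by decide +kernel)
theorem L113048 : W_41 (nat_lit 2) (nat_lit 0x20001000380006000800060005000080000000000) (nat_lit 0x0) (nat_lit 0x40001800000000000000000000000000) := D_41 (nat_lit 108) (nat_lit 126) (nat_lit 107) (nat_lit 0) (nat_lit 10) (nat_lit 7) (nat_lit 3) (nat_lit 5) (nat_lit 6) (by decide +kernel)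
theorem L113049 : W_41 (nat_lit 3) (nat_lit 0x20001000280006000800060005000080000000000) (nat_lit 0x0) (nat_lit 0x540001800000000000000000000000000) := T_41 (nat_lit 128) (nat_lit 130) (nat_lit 0) (nat_lit 11) (nat_lit 7) L113048 (by decide +kernel)
theorem L113050 : W_41 (nat_lit 4) (nat_lit 0x20001000080006000800060005000080000000000) (nat_lit 0x0) (nat_lit 0x740011800000000000000000000000000) := T_41 (nat_lit 129) (nat_lit 112) (nat_lit 4) (nat_lit 10) (nat_lit 7) L113049 (by decide +kernel)
theorem L113051 : W_41 (nat_lit 2) (nat_lit 0x6000100008000400000006001d000080000000000) (nat_lit 0x0) (nat_lit 0x180020000000000000000) := D_41 (nat_lit 79) (nat_lit 80) (nat_lit 65) (nat_lit 2) (nat_lit 9) (nat_lit 4) (nat_lit 1) (nat_lit 14) (nat_lit 3) (by decide +kernel)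
theorem L113052 : W_41 (nat_lit 3) (nat_lit 0x6000100008000400000006000d000080000000000) (nat_lit 0x0) (nat_lit 0x180032000000000000000) := T_41 (nat_lit 64) (nat_lit 61) (nat_lit 1) (nat_lit 13) (nat_lit 3) L113051 (by decide +kernel)
theorem L113053 : W_41 (nat_lit 4) (nat_lit 0x2000100008000400000006000d000080000000000) (nat_lit 0x0) (nat_lit 0x800040000000000000000000180032000000000000000) := T_41 (nat_lit 162) (nat_lit 179) (nat_lit 7) (nat_lit 8) (nat_lit 6) L113052 (by decide +kernel)
theorem L113054 : W_41 (nat_lit 2) (nat_lit 0x200010000800040000000e000d000000000000000) (nat_lit 0x0) (nat_lit 0x100030000000000000000) := D_41 (nat_lit 64) (nat_lit 65) (nat_lit 80) (nat_lit 1) (nat_lit 14) (nat_lit 3) (nat_lit 2) (nat_lit 9) (nat_lit 4) (by decide +kernel)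
theorem L113055 : W_41 (nat_lit 2) (nat_lit 0x7000100008000400000006000500018000e000200) (nat_lit 0x0) (nat_lit 0x200001800000) := D_41 (nat_lit 24) (nat_lit 45) (nat_lit 23) (nat_lit 3) (nat_lit 7) (nat_lit 1) (nat_lit 3) (nat_lit 6) (nat_lit 1) (by decide +kernel)
theorem L113056 : W_41 (nat_lit 2) (nat_lit 0x200010000800040000003e0005000000000000000) (nat_lit 0x0) (nat_lit 0xe000000000000000000000000) := D_41 (nat_lit 98) (nat_lit 97) (nat_lit 99) (nat_lit 3) (nat_lit 9) (nat_lit 4) (nat_lit 3) (nat_lit 10) (nat_lit 4) (by decide +kernel)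
theorem L113057 : W_41 (nat_lit 3) (nat_lit 0x200010000800040000001e0005000000000000000) (nat_lit 0x0) (nat_lit 0xe000200002000000000000000) := T_41 (nat_lit 81) (nat_lit 61) (nat_lit 0) (nat_lit 13) (nat_lit 4) L113056 (by decide +kernel)
theorem L113058 : W_41 (nat_lit 2) (nat_lit 0x600010000800040000001e000f000400000000000) (nat_lit 0x0) (nat_lit 0x1000000000000000020001000) := D_41 (nat_lit 29) (nat_lit 12) (nat_lit 96) (nat_lit 5) (nat_lit 12) (nat_lit 0) (nat_lit 5) (nat_lit 12) (nat_lit 1) (by decide +kernel)
theorem L113059 : W_41 (nat_lit 3) (nat_lit 0x600010000800040000001e000f000000000000000) (nat_lit 0x0) (nat_lit 0x1000000000000c00020001000) := T_41 (nat_lit 46) (nat_lit 47) (nat_lit 2) (nat_lit 9) (nat_lit 3) L113058 (by decide +kernel)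
theorem L113060 : W_41 (nat_lit 4) (nat_lit 0x600010000800040000001e000d000000000000000) (nat_lit 0x0) (nat_lit 0x1000200002000c00020001000) := T_41 (nat_lit 61) (nat_lit 81) (nat_lit 3) (nat_lit 9) (nat_lit 3) L113059 (by decide +kernel)
theorem L113061 : W_41 (nat_lit 5) (nat_lit 0x600010000800040000001e0005000000000000000) (nat_lit 0x0) (nat_lit 0x100020001a000c00020001000) := T_41 (nat_lit 63) (nat_lit 64) (nat_lit 2) (nat_lit 9) (nat_lit 4) L113060 (by decide +kernel)
theorem L113062 : W_41 (nat_lit 6) (nat_lit 0x200010000800040000001e0005000000000000000) (nat_lit 0x0) (nat_lit 0x80004000000000000000100020001a000c00020001000) := T_41 (nat_lit 162) (nat_lit 179) (nat_lit 7) (nat_lit 8) (nat_lit 6) L113061 (by decide +kernel)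
theorem L113063 : W_41 (nat_lit 2) (nat_lit 0x6000100008000600000006000500018000e000200) (nat_lit 0x0) (nat_lit 0x200001800000) := D_41 (nat_lit 24) (nat_lit 45) (nat_lit 23) (nat_lit 3) (nat_lit 7) (nat_lit 1) (nat_lit 3) (nat_lit 6) (nat_lit 1) (by decide +kernel)
theorem L113064 : W_41 (nat_lit 3) (nat_lit 0x6000100008000600000006000500008000e000200) (nat_lit 0x0) (nat_lit 0x400000000000300001800000) := T_41 (nat_lit 44) (nat_lit 94) (nat_lit 6) (nat_lit 9) (nat_lit 5) L113063 (by decide +kernel)
theorem L113065 : W_41 (nat_lit 4) (nat_lit 0x6000100008000600000006000500008000c000200) (nat_lit 0x0) (nat_lit 0x400000000000300003800100) := T_41 (nat_lit 25) (nat_lit 8) (nat_lit 4) (nat_lit 9) (nat_lit 4) L113064 (by decide +kernel)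
theorem L113066 : W_41 (nat_lit 5) (nat_lit 0x60001000080006000000060005000080004000200) (nat_lit 0x0) (nat_lit 0x40000000000030000b800500) := T_41 (nat_lit 27) (nat_lit 10) (nat_lit 6) (nat_lit 9) (nat_lit 4) L113065 (by decide +kernel)
theorem L113067 : W_41 (nat_lit 6) (nat_lit 0x60001000080006000000060005000080004000000) (nat_lit 0x0) (nat_lit 0x40000000200030000b800700) := T_41 (nat_lit 9) (nat_lit 61) (nat_lit 7) (nat_lit 9) (nat_lit 0) L113066 (by decide +kernel)
theorem L113068 : W_41 (nat_lit 2) (nat_lit 0x700010000800040000000b000780024000f000000) (nat_lit 0x0) (nat_lit 0x10000c00) := D_41 (nat_lit 10) (nat_lit 11) (nat_lit 28) (nat_lit 2) (nat_lit 7) (nat_lit 1) (nat_lit 4) (nat_lit 11) (nat_lit 4) (by decide +kernel)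
theorem L113069 : W_41 (nat_lit 3) (nat_lit 0x700010000800040000000b0007800240007000000) (nat_lit 0x0) (nat_lit 0x100018000c00) := T_41 (nat_lit 27) (nat_lit 44) (nat_lit 3) (nat_lit 7) (nat_lit 1) L113068 (by decide +kernel)
theorem L113070 : W_41 (nat_lit 2) (nat_lit 0x600010000800060000000a0007800240002000000) (nat_lit 0x0) (nat_lit 0x400010000000080000000000) := D_41 (nat_lit 94) (nat_lit 43) (nat_lit 76) (nat_lit 4) (nat_lit 9) (nat_lit 5) (nat_lit 7) (nat_lit 8) (nat_lit 1) (by decide +kernel)
theorem L113071 : W_41 (nat_lit 3) (nat_lit 0x600010000800060000000a0007800240000000000) (nat_lit 0x0) (nat_lit 0x400010000000080002000100) := T_41 (nat_lit 25) (nat_lit 8) (nat_lit 7) (nat_lit 8) (nat_lit 0) L113070 (by decide +kernel)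
theorem L113072 : W_41 (nat_lit 4) (nat_lit 0x600010000800060000000a0007800200000000000) (nat_lit 0x0) (nat_lit 0x4000100000000e0002000100) := T_41 (nat_lit 42) (nat_lit 41) (nat_lit 0) (nat_lit 11) (nat_lit 3) L113071 (by decide +kernel)
theorem L113073 : W_41 (nat_lit 5) (nat_lit 0x600010000800040000000a0007800200000000000) (nat_lit 0x0) (nat_lit 0x20005000100000000e0002000100) := T_41 (nat_lit 109) (nat_lit 92) (nat_lit 4) (nat_lit 8) (nat_lit 9) L113072 (by decide +kernel)
theorem L113074 : W_41 (nat_lit 6) (nat_lit 0x600010000800040000000a0007800000000000000) (nat_lit 0x0) (nat_lit 0x20005000100000006e0002000100) := T_41 (nat_lit 45) (nat_lit 46) (nat_lit 2) (nat_lit 8) (nat_lit 3) L113073 (by decide +kernel)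
theorem L113075 : W_41 (nat_lit 7) (nat_lit 0x200010000800040000000a0007800000000000000) (nat_lit 0x0) (nat_lit 0x8000400000000000020005000100000006e0002000100) := T_41 (nat_lit 162) (nat_lit 179) (nat_lit 7) (nat_lit 8) (nat_lit 6) L113074 (by decide +kernel)
theorem L113076 : W_41 (nat_lit 8) (nat_lit 0x20001000080004000000020007800000000000000) (nat_lit 0x0) (nat_lit 0x8000400000000000020005001900000006e0002000100) := T_41 (nat_lit 79) (nat_lit 80) (nat_lit 3) (nat_lit 8) (nat_lit 3) L113075 (by decide +kernel)
theorem L113077 : W_41 (nat_lit 2) (nat_lit 0x30001000080004000000020007800240002000000) (nat_lit 0x0) (nat_lit 0x400010000000080000000000) := D_41 (nat_lit 94) (nat_lit 43) (nat_lit 76) (nat_lit 4) (nat_lit 9) (nat_lit 5) (nat_lit 7) (nat_lit 8) (nat_lit 1) (by decide +kernel)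
theorem L113078 : W_41 (nat_lit 3) (nat_lit 0x30001000080004000000020007800240000000000) (nat_lit 0x0) (nat_lit 0x400010000000080002000100) := T_41 (nat_lit 25) (nat_lit 8) (nat_lit 7) (nat_lit 8) (nat_lit 0) L113077 (by decide +kernel)
theorem L113079 : W_41 (nat_lit 4) (nat_lit 0x30001000080004000000020007800040000000000) (nat_lit 0x0) (nat_lit 0x400010000000680002000100) := T_41 (nat_lit 45) (nat_lit 46) (nat_lit 2) (nat_lit 8) (nat_lit 3) L113078 (by decide +kernel)
theorem L113080 : W_41 (nat_lit 5) (nat_lit 0x30001000080004000000020007800000000000000) (nat_lit 0x0) (nat_lit 0x4000100000006e0002000100) := T_41 (nat_lit 42) (nat_lit 41) (nat_lit 0) (nat_lit 11) (nat_lit 3) L113079 (by decide +kernel)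
theorem L113081 : W_41 (nat_lit 6) (nat_lit 0x20001000080004000000020007800000000000000) (nat_lit 0x0) (nat_lit 0x2000100000000000000004000100000006e0002000100) := T_41 (nat_lit 160) (nat_lit 177) (nat_lit 5) (nat_lit 8) (nat_lit 6) L113080 (by decide +kernel)
theorem L113082 : W_41 (nat_lit 4) (nat_lit 0x700010000800040000000b0007800240006000000) (nat_lit 0x0) (nat_lit 0x100019000c80) := T_41 (nat_lit 24) (nat_lit 7) (nat_lit 4) (nat_lit 8) (nat_lit 4) L113069 (by decide +kernel)
theorem L113083 : W_41 (nat_lit 5) (nat_lit 0x700010000800040000000b0007800240002000000) (nat_lit 0x0) (nat_lit 0x10001d000e80) := T_41 (nat_lit 26) (nat_lit 9) (nat_lit 6) (nat_lit 8) (nat_lit 4) L113082 (by decide +kernel)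
theorem L113084 : W_41 (nat_lit 6) (nat_lit 0x700010000800040000000a0007800240002000000) (nat_lit 0x0) (nat_lit 0x40001000000010001d000e80) := T_41 (nat_lit 76) (nat_lit 94) (nat_lit 7) (nat_lit 8) (nat_lit 1) L113083 (by decide +kernel)
theorem L113085 : W_41 (nat_lit 7) (nat_lit 0x700010000800040000000a0007800240000000000) (nat_lit 0x0) (nat_lit 0x40001000000010001f000f80) := T_41 (nat_lit 25) (nat_lit 8) (nat_lit 7) (nat_lit 8) (nat_lit 0) L113084 (by decide +kernel)
theorem L113086 : W_41 (nat_lit 8) (nat_lit 0x70001000080004000000020007800240000000000) (nat_lit 0x0) (nat_lit 0x40019000000010001f000f80) := T_41 (nat_lit 79) (nat_lit 80) (nat_lit 3) (nat_lit 8) (nat_lit 3) L113085 (by decide +kernel)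
theorem L113087 : W_41 (nat_lit 9) (nat_lit 0x70001000080004000000020007800200000000000) (nat_lit 0x0) (nat_lit 0x40019000000016001f000f80) := T_41 (nat_lit 42) (nat_lit 41) (nat_lit 0) (nat_lit 11) (nat_lit 3) L113086 (by decide +kernel)
theorem L113088 : W_41 (nat_lit 10) (nat_lit 0x30001000080004000000020007800200000000000) (nat_lit 0x0) (nat_lit 0x80004000000000000000040019000000016001f000f80) := T_41 (nat_lit 162) (nat_lit 179) (nat_lit 7) (nat_lit 8) (nat_lit 6) L113087 (by decide +kernel)
theorem L113089 : W_41 (nat_lit 11) (nat_lit 0x30001000080004000000020007800000000000000) (nat_lit 0x0) (nat_lit 0x80004000000000000000040019000000076001f000f80) := T_41 (nat_lit 45) (nat_lit 46) (nat_lit 2) (nat_lit 8) (nat_lit 3) L113088 (by decide +kernel)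
theorem L113090 : W_41 (nat_lit 12) (nat_lit 0x20001000080004000000020007800000000000000) (nat_lit 0x0) (nat_lit 0xa0005000000000000000040019000000076001f000f80) := T_41 (nat_lit 160) (nat_lit 177) (nat_lit 5) (nat_lit 8) (nat_lit 6) L113089 (by decide +kernel)
theorem L113091 : W_41 (nat_lit 2) (nat_lit 0x60001000080006000000020007800300008000000) (nat_lit 0x0) (nat_lit 0x400040000000080000000000) := D_41 (nat_lit 94) (nat_lit 78) (nat_lit 43) (nat_lit 5) (nat_lit 10) (nat_lit 1) (nat_lit 6) (nat_lit 9) (nat_lit 5) (by decide +kernel)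
theorem L113092 : W_41 (nat_lit 3) (nat_lit 0x60001000080006000000020007800300000000000) (nat_lit 0x0) (nat_lit 0x400040000000080008000400) := T_41 (nat_lit 27) (nat_lit 10) (nat_lit 5) (nat_lit 10) (nat_lit 0) L113091 (by decide +kernel)
theorem L113093 : W_41 (nat_lit 4) (nat_lit 0x60001000080004000000020007800300000000000) (nat_lit 0x0) (nat_lit 0x2000500040000000080008000400) := T_41 (nat_lit 109) (nat_lit 92) (nat_lit 4) (nat_lit 8) (nat_lit 9) L113092 (by decide +kernel)
theorem L113094 : W_41 (nat_lit 5) (nat_lit 0x60001000080004000000020007800100000000000) (nat_lit 0x0) (nat_lit 0x2000500040000000680008000400) := T_41 (nat_lit 45) (nat_lit 46) (nat_lit 2) (nat_lit 8) (nat_lit 3) L113093 (by decide +kernel)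
theorem L113095 : W_41 (nat_lit 6) (nat_lit 0x20001000080004000000020007800100000000000) (nat_lit 0x0) (nat_lit 0x800040000000000002000500040000000680008000400) := T_41 (nat_lit 162) (nat_lit 179) (nat_lit 7) (nat_lit 8) (nat_lit 6) L113094 (by decide +kernel)
theorem L113096 : W_41 (nat_lit 2) (nat_lit 0x700010000800060018000e0007800300000000000) (nat_lit 0x0) (nat_lit 0x40006000000000000000000000000) := D_41 (nat_lit 97) (nat_lit 114) (nat_lit 98) (nat_lit 7) (nat_lit 11) (nat_lit 2) (nat_lit 0) (nat_lit 13) (nat_lit 5) (by decide +kernel)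
theorem L113097 : W_41 (nat_lit 3) (nat_lit 0x700010000800060018000a0007800300000000000) (nat_lit 0x0) (nat_lit 0x40006000040000000000010000000) := T_41 (nat_lit 78) (nat_lit 28) (nat_lit 6) (nat_lit 10) (nat_lit 5) L113096 (by decide +kernel)
theorem L113098 : W_41 (nat_lit 4) (nat_lit 0x700010000800060010000a0007800300000000000) (nat_lit 0x0) (nat_lit 0x50006800040000000000010000000) := T_41 (nat_lit 95) (nat_lit 112) (nat_lit 5) (nat_lit 11) (nat_lit 2) L113097 (by decide +kernel)
theorem L113099 : W_41 (nat_lit 5) (nat_lit 0x700010000800060010000a0007800100000000000) (nat_lit 0x0) (nat_lit 0x50006800040000000600010000000) := T_41 (nat_lit 45) (nat_lit 46) (nat_lit 2) (nat_lit 8) (nat_lit 3) L113098 (by decide +kernel)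
theorem L113100 : W_41 (nat_lit 6) (nat_lit 0x700010000800040010000a0007800100000000000) (nat_lit 0x0) (nat_lit 0x52006900040000000600010000000) := T_41 (nat_lit 109) (nat_lit 92) (nat_lit 4) (nat_lit 8) (nat_lit 9) L113099 (by decide +kernel)
theorem L113101 : W_41 (nat_lit 7) (nat_lit 0x700010000800040000000a0007800100000000000) (nat_lit 0x0) (nat_lit 0x72007900040000000600010000000) := T_41 (nat_lit 96) (nat_lit 113) (nat_lit 4) (nat_lit 11) (nat_lit 6) L113100 (by decide +kernel)
theorem L113102 : W_41 (nat_lit 8) (nat_lit 0x70001000080004000000020007800100000000000) (nat_lit 0x0) (nat_lit 0x720079001c0000000600010000000) := T_41 (nat_lit 79) (nat_lit 80) (nat_lit 3) (nat_lit 8) (nat_lit 3) L113101 (by decide +kernel)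
theorem L113103 : W_41 (nat_lit 9) (nat_lit 0x30001000080004000000020007800100000000000) (nat_lit 0x0) (nat_lit 0x8000400000000000720079001c0000000600010000000) := T_41 (nat_lit 162) (nat_lit 179) (nat_lit 7) (nat_lit 8) (nat_lit 6) L113102 (by decide +kernel)
theorem L113104 : W_41 (nat_lit 10) (nat_lit 0x20001000080004000000020007800100000000000) (nat_lit 0x0) (nat_lit 0xa000500000000000720079001c0000000600010000000) := T_41 (nat_lit 160) (nat_lit 177) (nat_lit 5) (nat_lit 8) (nat_lit 6) L113103 (by decide +kernel)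
theorem L113105 : W_41 (nat_lit 11) (nat_lit 0x20001000080004000000020007800000000000000) (nat_lit 0x0) (nat_lit 0xa00050000000000072007d001c0000000780018000400) := Q_41 (nat_lit 44) (C_41 L112704 (C_41 L113095 (C_41 L112665 (C_41 L113104 N_41)))) (by decide +kernel)
theorem L113106 : W_41 (nat_lit 7) (nat_lit 0x20001000080004000000020007000000000000000) (nat_lit 0x0) (nat_lit 0xa00050000000000002000100780018800fe0000000000) := T_41 (nat_lit 160) (nat_lit 177) (nat_lit 5) (nat_lit 8) (nat_lit 6) L112738 (by decide +kernel)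
theorem L113107 : W_41 (nat_lit 6) (nat_lit 0x20001000080004000000020007000000000000000) (nat_lit 0x0) (nat_lit 0x800040000000000000000000350018001c00000000000) := T_41 (nat_lit 63) (nat_lit 76) (nat_lit 1) (nat_lit 12) (nat_lit 3) L112613 (by decide +kernel)
theorem L113108 : W_41 (nat_lit 6) (nat_lit 0x20001000080004000000020007000000000000000) (nat_lit 0x0) (nat_lit 0x20001003900088000e0000000000) := T_41 (nat_lit 63) (nat_lit 76) (nat_lit 1) (nat_lit 12) (nat_lit 3) L112589 (by decide +kernel)
theorem L113109 : W_41 (nat_lit 4) (nat_lit 0x20001000080004000000020007000000000000000) (nat_lit 0x0) (nat_lit 0x500180001c0000000000) := T_41 (nat_lit 63) (nat_lit 76) (nat_lit 1) (nat_lit 12) (nat_lit 3) L112585 (by decide +kernel)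
theorem L113110 : W_41 (nat_lit 2) (nat_lit 0x600010000800060000000a0007800040002000000) (nat_lit 0x0) (nat_lit 0x400010000000080000000000) := D_41 (nat_lit 94) (nat_lit 43) (nat_lit 76) (nat_lit 4) (nat_lit 9) (nat_lit 5) (nat_lit 7) (nat_lit 8) (nat_lit 1) (by decide +kernel)
theorem L113111 : W_41 (nat_lit 3) (nat_lit 0x600010000800060000000a0007800040000000000) (nat_lit 0x0) (nat_lit 0x400010000000080002000100) := T_41 (nat_lit 25) (nat_lit 8) (nat_lit 7) (nat_lit 8) (nat_lit 0) L113110 (by decide +kernel)
theorem L113112 : W_41 (nat_lit 4) (nat_lit 0x600010000800040000000a0007800040000000000) (nat_lit 0x0) (nat_lit 0x2000500010000000080002000100) := T_41 (nat_lit 109) (nat_lit 92) (nat_lit 4) (nat_lit 8) (nat_lit 9) L113111 (by decide +kernel)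
theorem L113113 : W_41 (nat_lit 5) (nat_lit 0x600010000800040000000a0007800000000000000) (nat_lit 0x0) (nat_lit 0x20005000100000000e0002000100) := T_41 (nat_lit 42) (nat_lit 41) (nat_lit 0) (nat_lit 11) (nat_lit 3) L113112 (by decide +kernel)
theorem L113114 : W_41 (nat_lit 6) (nat_lit 0x200010000800040000000a0007800000000000000) (nat_lit 0x0) (nat_lit 0x8000400000000000020005000100000000e0002000100) := T_41 (nat_lit 162) (nat_lit 179) (nat_lit 7) (nat_lit 8) (nat_lit 6) L113113 (by decide +kernel)
theorem L113115 : W_41 (nat_lit 7) (nat_lit 0x20001000080004000000020007800000000000000) (nat_lit 0x0) (nat_lit 0x8000400000000000020005001900000000e0002000100) := T_41 (nat_lit 79) (nat_lit 80) (nat_lit 3) (nat_lit 8) (nat_lit 3) L113114 (by decide +kernel)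
theorem L113116 : W_41 (nat_lit 13) (nat_lit 0x20001000080004000000020007000000000000000) (nat_lit 0x0) (nat_lit 0xa00050000000000072007d001d00008007e003f000f80) := Q_41 (nat_lit 59) (C_41 L112691 (C_41 L113105 (C_41 L113076 (C_41 L113081 (C_41 L113090 (C_41 L113115 N_41)))))) (by decide +kernel)
theorem L113117 : W_41 (nat_lit 6) (nat_lit 0x60001000080004000000020007000000000000000) (nat_lit 0x0) (nat_lit 0x2000100000000000000000007100180001c0000000000) := T_41 (nat_lit 63) (nat_lit 76) (nat_lit 1) (nat_lit 12) (nat_lit 3) L112733 (by decide +kernel)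
theorem L113118 : W_41 (nat_lit 7) (nat_lit 0x20001000080004000000020007000000000000000) (nat_lit 0x0) (nat_lit 0xa000500000000000000000007100180001c0000000000) := T_41 (nat_lit 162) (nat_lit 179) (nat_lit 7) (nat_lit 8) (nat_lit 6) L113117 (by decide +kernel)
theorem L113119 : W_41 (nat_lit 2) (nat_lit 0x300010000800040020001e000f00050000c001000) (nat_lit 0x0) (nat_lit 0x200010000800) := D_41 (nat_lit 28) (nat_lit 11) (nat_lit 45) (nat_lit 6) (nat_lit 10) (nat_lit 4) (nat_lit 7) (nat_lit 11) (nat_lit 1) (by decide +kernel)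
theorem L113120 : W_41 (nat_lit 3) (nat_lit 0x300010000800040000001e000f00050000c001000) (nat_lit 0x0) (nat_lit 0x6000000000000200010000800) := T_41 (nat_lit 97) (nat_lit 98) (nat_lit 3) (nat_lit 9) (nat_lit 4) L113119 (by decide +kernel)
theorem L113121 : W_41 (nat_lit 4) (nat_lit 0x300010000800040000001e000f00050000c000000) (nat_lit 0x0) (nat_lit 0x6000000000000200030001800) := T_41 (nat_lit 12) (nat_lit 29) (nat_lit 5) (nat_lit 12) (nat_lit 0) L113120 (by decide +kernel)
theorem L113122 : W_41 (nat_lit 5) (nat_lit 0x3000100008000400000016000f00050000c000000) (nat_lit 0x0) (nat_lit 0x7000080000000200030001800) := T_41 (nat_lit 79) (nat_lit 96) (nat_lit 7) (nat_lit 10) (nat_lit 1) L113121 (by decide +kernel)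
theorem L113123 : W_41 (nat_lit 6) (nat_lit 0x3000100008000400000016000f000500008000000) (nat_lit 0x0) (nat_lit 0x7000080000000200034001a00) := T_41 (nat_lit 26) (nat_lit 9) (nat_lit 4) (nat_lit 10) (nat_lit 4) L113122 (by decide +kernel)
theorem L113124 : W_41 (nat_lit 7) (nat_lit 0x3000100008000400000012000f000500008000000) (nat_lit 0x0) (nat_lit 0x74000c0000000200034001a00) := T_41 (nat_lit 78) (nat_lit 94) (nat_lit 5) (nat_lit 10) (nat_lit 1) L113123 (by decide +kernel)
theorem L113125 : W_41 (nat_lit 8) (nat_lit 0x2000100008000400000012000f000500008000000) (nat_lit 0x0) (nat_lit 0x2000100000000000000074000c0000000200034001a00) := T_41 (nat_lit 160) (nat_lit 177) (nat_lit 5) (nat_lit 8) (nat_lit 6) L113124 (by decide +kernel)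
theorem L113126 : W_41 (nat_lit 9) (nat_lit 0x2000100008000400000012000f000400008000000) (nat_lit 0x0) (nat_lit 0x2000100000000000000074000c0000000300034001e00) := T_41 (nat_lit 44) (nat_lit 10) (nat_lit 5) (nat_lit 10) (nat_lit 0) L113125 (by decide +kernel)
theorem L113127 : W_41 (nat_lit 10) (nat_lit 0x2000100008000400000012000f000000008000000) (nat_lit 0x0) (nat_lit 0x2000100000000000000074000c0000000f00034001e00) := T_41 (nat_lit 46) (nat_lit 47) (nat_lit 2) (nat_lit 9) (nat_lit 3) L113126 (by decide +kernel)
theorem L113128 : W_41 (nat_lit 11) (nat_lit 0x2000100008000400000002000f000000008000000) (nat_lit 0x0) (nat_lit 0x2000100000000000000074003c0000000f00034001e00) := T_41 (nat_lit 80) (nat_lit 81) (nat_lit 3) (nat_lit 9) (nat_lit 3) L113127 (by decide +kernel)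
theorem L113129 : W_41 (nat_lit 2) (nat_lit 0x2000100008000400000002000f000000008000400) (nat_lit 0x0) (nat_lit 0xc0004000000) := D_41 (nat_lit 43) (nat_lit 42) (nat_lit 26) (nat_lit 0) (nat_lit 12) (nat_lit 3) (nat_lit 6) (nat_lit 9) (nat_lit 4) (by decide +kernel)
theorem L113130 : W_41 (nat_lit 3) (nat_lit 0x2000100008000400000002000f000000008000000) (nat_lit 0x0) (nat_lit 0x1c0004000400) := T_41 (nat_lit 10) (nat_lit 44) (nat_lit 5) (nat_lit 10) (nat_lit 0) L113129 (by decide +kernel)
theorem L113131 : W_41 (nat_lit 2) (nat_lit 0x3000100008000400000012000f000100008000000) (nat_lit 0x0) (nat_lit 0x4000000000000c0000000000) := D_41 (nat_lit 43) (nat_lit 42) (nat_lit 94) (nat_lit 0) (nat_lit 12) (nat_lit 3) (nat_lit 6) (nat_lit 9) (nat_lit 5) (by decide +kernel)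
theorem L113132 : W_41 (nat_lit 3) (nat_lit 0x3000100008000400000012000f000000008000000) (nat_lit 0x0) (nat_lit 0x4000000000001c0000000400) := T_41 (nat_lit 44) (nat_lit 10) (nat_lit 5) (nat_lit 10) (nat_lit 0) L113131 (by decide +kernel)
theorem L113133 : W_41 (nat_lit 4) (nat_lit 0x2000100008000400000012000f000000008000000) (nat_lit 0x0) (nat_lit 0x2000100000000000000004000000000001c0000000400) := T_41 (nat_lit 160) (nat_lit 177) (nat_lit 5) (nat_lit 8) (nat_lit 6) L113132 (by decide +kernel)
theorem L113134 : W_41 (nat_lit 5) (nat_lit 0x2000100008000400000002000f000000008000000) (nat_lit 0x0) (nat_lit 0x2000100000000000000004003000000001c0000000400) := T_41 (nat_lit 80) (nat_lit 81) (nat_lit 3) (nat_lit 9) (nat_lit 3) L113133 (by decide +kernel)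
theorem L113135 : W_41 (nat_lit 2) (nat_lit 0x7000100008000600000012000f00008000c000000) (nat_lit 0x0) (nat_lit 0x800040000000000000000200) := D_41 (nat_lit 78) (nat_lit 9) (nat_lit 95) (nat_lit 7) (nat_lit 9) (nat_lit 0) (nat_lit 7) (nat_lit 9) (nat_lit 1) (by decide +kernel)
theorem L113136 : W_41 (nat_lit 3) (nat_lit 0x7000100008000600000012000f000080008000000) (nat_lit 0x0) (nat_lit 0x800040000000000004000600) := T_41 (nat_lit 26) (nat_lit 10) (nat_lit 6) (nat_lit 9) (nat_lit 4) L113135 (by decide +kernel)
theorem L113137 : W_41 (nat_lit 4) (nat_lit 0x3000100008000600000012000f000080008000000) (nat_lit 0x0) (nat_lit 0x800040000000000000000800040000000000004000600) := T_41 (nat_lit 162) (nat_lit 179) (nat_lit 7) (nat_lit 8) (nat_lit 6) L113136 (by decide +kernel)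
theorem L113138 : W_41 (nat_lit 5) (nat_lit 0x3000100008000600000012000f000000008000000) (nat_lit 0x0) (nat_lit 0x8000400000000000000008000400000000c0004000600) := T_41 (nat_lit 43) (nat_lit 42) (nat_lit 0) (nat_lit 12) (nat_lit 3) L113137 (by decide +kernel)
theorem L113139 : W_41 (nat_lit 6) (nat_lit 0x3000100008000600000002000f000000008000000) (nat_lit 0x0) (nat_lit 0x8000400000000000000008003400000000c0004000600) := T_41 (nat_lit 80) (nat_lit 81) (nat_lit 3) (nat_lit 9) (nat_lit 3) L113138 (by decide +kernel)
theorem L113140 : W_41 (nat_lit 7) (nat_lit 0x2000100008000600000002000f000000008000000) (nat_lit 0x0) (nat_lit 0xa000500000000000000008003400000000c0004000600) := T_41 (nat_lit 160) (nat_lit 177) (nat_lit 5) (nat_lit 8) (nat_lit 6) L113139 (by decide +kernel)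
theorem L113141 : W_41 (nat_lit 8) (nat_lit 0x2000100008000400000002000f000000008000000) (nat_lit 0x0) (nat_lit 0xa000500000000000020009003400000000c0004000600) := T_41 (nat_lit 109) (nat_lit 92) (nat_lit 4) (nat_lit 8) (nat_lit 9) L113140 (by decide +kernel)
theorem L113142 : W_41 (nat_lit 2) (nat_lit 0x20001000080006000c0012000f00048001e000000) (nat_lit 0x0) (nat_lit 0x20001800) := D_41 (nat_lit 11) (nat_lit 12) (nat_lit 29) (nat_lit 2) (nat_lit 8) (nat_lit 1) (nat_lit 4) (nat_lit 12) (nat_lit 4) (by decide +kernel)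
theorem L113143 : W_41 (nat_lit 3) (nat_lit 0x20001000080006000c0012000f00048000e000000) (nat_lit 0x0) (nat_lit 0x200030001800) := T_41 (nat_lit 28) (nat_lit 45) (nat_lit 3) (nat_lit 8) (nat_lit 1) L113142 (by decide +kernel)
theorem L113144 : W_41 (nat_lit 4) (nat_lit 0x20001000080006000c0002000f00048000e000000) (nat_lit 0x0) (nat_lit 0x300000000200030001800) := T_41 (nat_lit 80) (nat_lit 81) (nat_lit 3) (nat_lit 9) (nat_lit 3) L113143 (by decide +kernel)
theorem L113145 : W_41 (nat_lit 5) (nat_lit 0x20001000080006000c0002000f00008000e000000) (nat_lit 0x0) (nat_lit 0x300000000e00030001800) := T_41 (nat_lit 46) (nat_lit 47) (nat_lit 2) (nat_lit 9) (nat_lit 3) L113144 (by decide +kernel)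
theorem L113146 : W_41 (nat_lit 6) (nat_lit 0x20001000080006000c0002000f00008000c000000) (nat_lit 0x0) (nat_lit 0x300000000e00032001900) := T_41 (nat_lit 25) (nat_lit 8) (nat_lit 4) (nat_lit 9) (nat_lit 4) L113145 (by decide +kernel)
theorem L113147 : W_41 (nat_lit 7) (nat_lit 0x20001000080006000c0002000f000080008000000) (nat_lit 0x0) (nat_lit 0x340000000e00036001900) := T_41 (nat_lit 26) (nat_lit 78) (nat_lit 7) (nat_lit 9) (nat_lit 1) L113146 (by decide +kernel)
theorem L113148 : W_41 (nat_lit 8) (nat_lit 0x2000100008000600040002000f000080008000000) (nat_lit 0x0) (nat_lit 0x10000800340000000e00036001900) := T_41 (nat_lit 95) (nat_lit 112) (nat_lit 7) (nat_lit 9) (nat_lit 2) L113147 (by decide +kernel)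
theorem L113149 : W_41 (nat_lit 9) (nat_lit 0x2000100008000600000002000f000080008000000) (nat_lit 0x0) (nat_lit 0x10000c00340000000f00036001900) := T_41 (nat_lit 94) (nat_lit 44) (nat_lit 6) (nat_lit 9) (nat_lit 5) L113148 (by decide +kernel)
theorem L113150 : W_41 (nat_lit 10) (nat_lit 0x2000100008000400000002000f000080008000000) (nat_lit 0x0) (nat_lit 0x12000d00340000000f00036001900) := T_41 (nat_lit 109) (nat_lit 92) (nat_lit 4) (nat_lit 8) (nat_lit 9) L113149 (by decide +kernel)
theorem L113151 : W_41 (nat_lit 11) (nat_lit 0x2000100008000400000002000f000000008000000) (nat_lit 0x0) (nat_lit 0x12000d00340000000fc0036001900) := T_41 (nat_lit 43) (nat_lit 42) (nat_lit 0) (nat_lit 12) (nat_lit 3) L113150 (by decide +kernel)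
theorem L113152 : W_41 (nat_lit 12) (nat_lit 0x2000100008000400000002000f000000000000000) (nat_lit 0x0) (nat_lit 0xa00050000000000012007d003c0000000fc003e001f00) := Q_41 (nat_lit 27) (C_41 L113128 (C_41 L113130 (C_41 L113134 (C_41 L113141 (C_41 L113151 N_41))))) (by decide +kernel)
theorem L113153 : W_41 (nat_lit 13) (nat_lit 0x20001000080004000000020007000000000000000) (nat_lit 0x0) (nat_lit 0xa00050000000000012007d007c0018001fc003e001f00) := Q_41 (nat_lit 63) (C_41 L112613 (C_41 L112585 (C_41 L112609 (C_41 L113152 N_41)))) (by decide +kernel)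
theorem L113154 : W_41 (nat_lit 2) (nat_lit 0x200010000800040000000a0007c00000000000000) (nat_lit 0x0) (nat_lit 0x700000000000) := D_41 (nat_lit 45) (nat_lit 44) (nat_lit 46) (nat_lit 2) (nat_lit 7) (nat_lit 3) (nat_lit 2) (nat_lit 8) (nat_lit 3) (by decide +kernel)
theorem L113155 : W_41 (nat_lit 3) (nat_lit 0x200010000800040000000a0007800000000000000) (nat_lit 0x0) (nat_lit 0x40000400700000000000) := T_41 (nat_lit 58) (nat_lit 78) (nat_lit 3) (nat_lit 7) (nat_lit 3) L113154 (by decide +kernel)
theorem L113156 : W_41 (nat_lit 4) (nat_lit 0x20001000080004000000020007800000000000000) (nat_lit 0x0) (nat_lit 0x1c0000400700000000000) := T_41 (nat_lit 79) (nat_lit 80) (nat_lit 3) (nat_lit 8) (nat_lit 3) L113155 (by decide +kernel)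
theorem L113157 : W_41 (nat_lit 8) (nat_lit 0x20001000080004000000020007000000000000000) (nat_lit 0x0) (nat_lit 0x8000400000000000020005001d0000c007f0002000100) := Q_41 (nat_lit 59) (C_41 L113115 (C_41 L112712 (C_41 L112708 (C_41 L113156 N_41)))) (by decide +kernel)
theorem L113158 : W_41 (nat_lit 2) (nat_lit 0x200010000800060000000a0007c00000000000000) (nat_lit 0x0) (nat_lit 0x70000000000) := D_41 (nat_lit 41) (nat_lit 40) (nat_lit 42) (nat_lit 0) (nat_lit 10) (nat_lit 3) (nat_lit 0) (nat_lit 11) (nat_lit 3) (by decide +kernel)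
theorem L113159 : W_41 (nat_lit 3) (nat_lit 0x200010000800060000000a0007800000000000000) (nat_lit 0x0) (nat_lit 0x40000400070000000000) := T_41 (nat_lit 58) (nat_lit 78) (nat_lit 3) (nat_lit 7) (nat_lit 3) L113158 (by decide +kernel)
theorem L113160 : W_41 (nat_lit 4) (nat_lit 0x20001000080006000000020007800000000000000) (nat_lit 0x0) (nat_lit 0x1c0000400070000000000) := T_41 (nat_lit 79) (nat_lit 80) (nat_lit 3) (nat_lit 8) (nat_lit 3) L113159 (by decide +kernel)
theorem L113161 : W_41 (nat_lit 5) (nat_lit 0x20001000080004000000020007800000000000000) (nat_lit 0x0) (nat_lit 0x20001001c0000400070000000000) := T_41 (nat_lit 109) (nat_lit 92) (nat_lit 4) (nat_lit 8) (nat_lit 9) L113160 (by decide +kernel)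
theorem L113162 : W_41 (nat_lit 7) (nat_lit 0x20001000080004000000020007000000000000000) (nat_lit 0x0) (nat_lit 0x2000100000000000020005001d0000c007f0002000100) := Q_41 (nat_lit 59) (C_41 L113156 (C_41 L113081 (C_41 L113161 N_41))) (by decide +kernel)
theorem L113163 : W_41 (nat_lit 8) (nat_lit 0x20001000080004000000020007000000000000000) (nat_lit 0x0) (nat_lit 0x200010000000000042002100740078800f00010000000) := T_41 (nat_lit 109) (nat_lit 92) (nat_lit 4) (nat_lit 8) (nat_lit 9) L112792 (by decide +kernel)
theorem L113164 : W_41 (nat_lit 2) (nat_lit 0x300010000800040000000a0007c00000000000000) (nat_lit 0x0) (nat_lit 0x70000000000) := D_41 (nat_lit 41) (nat_lit 40) (nat_lit 42) (nat_lit 0) (nat_lit 10) (nat_lit 3) (nat_lit 0) (nat_lit 11) (nat_lit 3) (by decide +kernel)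
theorem L113165 : W_41 (nat_lit 3) (nat_lit 0x300010000800040000000a0007800000000000000) (nat_lit 0x0) (nat_lit 0x40000400070000000000) := T_41 (nat_lit 58) (nat_lit 78) (nat_lit 3) (nat_lit 7) (nat_lit 3) L113164 (by decide +kernel)
theorem L113166 : W_41 (nat_lit 4) (nat_lit 0x30001000080004000000020007800000000000000) (nat_lit 0x0) (nat_lit 0x1c0000400070000000000) := T_41 (nat_lit 79) (nat_lit 80) (nat_lit 3) (nat_lit 8) (nat_lit 3) L113165 (by decide +kernel)
theorem L113167 : W_41 (nat_lit 5) (nat_lit 0x20001000080004000000020007800000000000000) (nat_lit 0x0) (nat_lit 0x2000100000000000000000001c0000400070000000000) := T_41 (nat_lit 160) (nat_lit 177) (nat_lit 5) (nat_lit 8) (nat_lit 6) L113166 (by decide +kernel)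
theorem L113168 : W_41 (nat_lit 13) (nat_lit 0x20001000080004000000020007000000000000000) (nat_lit 0x0) (nat_lit 0xa000500000000000000004001d0000c007f001f000f80) := Q_41 (nat_lit 59) (C_41 L113156 (C_41 L113090 (C_41 L113081 (C_41 L113167 N_41)))) (by decide +kernel)
theorem L113169 : W_41 (nat_lit 6) (nat_lit 0x20001000080004000000020007000000000000000) (nat_lit 0x0) (nat_lit 0x8000400000000000000000003c0018801fc0000000000) := T_41 (nat_lit 162) (nat_lit 179) (nat_lit 7) (nat_lit 8) (nat_lit 6) L112767 (by decide +kernel)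
theorem L113170 : W_41 (nat_lit 4) (nat_lit 0x30001000080004000000020007800300000000000) (nat_lit 0x0) (nat_lit 0x2001100180000000000008000400) := T_41 (nat_lit 109) (nat_lit 92) (nat_lit 4) (nat_lit 8) (nat_lit 9) L112742 (by decide +kernel)
theorem L113171 : W_41 (nat_lit 5) (nat_lit 0x30001000080004000000020007800200000000000) (nat_lit 0x0) (nat_lit 0x2001100180000400100008000400) := T_41 (nat_lit 44) (nat_lit 58) (nat_lit 2) (nat_lit 7) (nat_lit 3) L113170 (by decide +kernel)
theorem L113172 : W_41 (nat_lit 6) (nat_lit 0x30001000080004000000020007800000000000000) (nat_lit 0x0) (nat_lit 0x2001100180000400700008000400) := T_41 (nat_lit 45) (nat_lit 46) (nat_lit 2) (nat_lit 8) (nat_lit 3) L113171 (by decide +kernel)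
theorem L113173 : W_41 (nat_lit 7) (nat_lit 0x20001000080004000000020007800000000000000) (nat_lit 0x0) (nat_lit 0x200010000000000002001100180000400700008000400) := T_41 (nat_lit 160) (nat_lit 177) (nat_lit 5) (nat_lit 8) (nat_lit 6) L113172 (by decide +kernel)
theorem L113174 : W_41 (nat_lit 8) (nat_lit 0x20001000080004000000020007000000000000000) (nat_lit 0x0) (nat_lit 0xa00050000000000002001500190000c007f000a000500) := Q_41 (nat_lit 59) (C_41 L113115 (C_41 L113081 (C_41 L112712 (C_41 L113173 N_41)))) (by decide +kernel)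
theorem L113175 : W_41 (nat_lit 8) (nat_lit 0x20001000080004000000020007000000000000000) (nat_lit 0x0) (nat_lit 0x800040000000000022001100390008800c00020000000) := T_41 (nat_lit 63) (nat_lit 76) (nat_lit 1) (nat_lit 12) (nat_lit 3) L112602 (by decide +kernel)
theorem L113176 : W_41 (nat_lit 5) (nat_lit 0x20001000080006000000020007000000000000000) (nat_lit 0x0) (nat_lit 0x10018001dc0000000000) := T_41 (nat_lit 63) (nat_lit 76) (nat_lit 1) (nat_lit 12) (nat_lit 3) L112739 (by decide +kernel)
theorem L113177 : W_41 (nat_lit 6) (nat_lit 0x20001000080004000000020007000000000000000) (nat_lit 0x0) (nat_lit 0x2000100010018001dc0000000000) := T_41 (nat_lit 109) (nat_lit 92) (nat_lit 4) (nat_lit 8) (nat_lit 9) L113176 (by decide +kernel)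
theorem L113178 : W_41 (nat_lit 13) (nat_lit 0x20001000080004000000020007000000000000000) (nat_lit 0x0) (nat_lit 0xa000500000000000020015001d0000c0077001f000f80) := Q_41 (nat_lit 59) (C_41 L113167 (C_41 L113173 (C_41 L113161 (C_41 L113090 (C_41 L112712 N_41))))) (by decide +kernel)
theorem L113179 : W_41 (nat_lit 2) (nat_lit 0x7000100008000600000002001f000000000000000) (nat_lit 0x0) (nat_lit 0x1c00000000000) := D_41 (nat_lit 47) (nat_lit 46) (nat_lit 48) (nat_lit 2) (nat_lit 9) (nat_lit 3) (nat_lit 2) (nat_lit 10) (nat_lit 3) (by decide +kernel)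
theorem L113180 : W_41 (nat_lit 3) (nat_lit 0x7000100008000600000002000f000000000000000) (nat_lit 0x0) (nat_lit 0x40010001c00000000000) := T_41 (nat_lit 64) (nat_lit 78) (nat_lit 1) (nat_lit 13) (nat_lit 3) L113179 (by decide +kernel)
theorem L113181 : W_41 (nat_lit 4) (nat_lit 0x70001000080006000000020007000000000000000) (nat_lit 0x0) (nat_lit 0x50018001c00000000000) := T_41 (nat_lit 63) (nat_lit 76) (nat_lit 1) (nat_lit 12) (nat_lit 3) L113180 (by decide +kernel)
theorem L113182 : W_41 (nat_lit 5) (nat_lit 0x60001000080006000000020007000000000000000) (nat_lit 0x0) (nat_lit 0x200010000000000000000000050018001c00000000000) := T_41 (nat_lit 160) (nat_lit 177) (nat_lit 5) (nat_lit 8) (nat_lit 6) L113181 (by decide +kernel)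
theorem L113183 : W_41 (nat_lit 6) (nat_lit 0x60001000080004000000020007000000000000000) (nat_lit 0x0) (nat_lit 0x200010000000000002000100050018001c00000000000) := T_41 (nat_lit 109) (nat_lit 92) (nat_lit 4) (nat_lit 8) (nat_lit 9) L113182 (by decide +kernel)
theorem L113184 : W_41 (nat_lit 7) (nat_lit 0x20001000080004000000020007000000000000000) (nat_lit 0x0) (nat_lit 0xa00050000000000002000100050018001c00000000000) := T_41 (nat_lit 162) (nat_lit 179) (nat_lit 7) (nat_lit 8) (nat_lit 6) L113183 (by decide +kernel)
theorem L113185 : W_41 (nat_lit 2) (nat_lit 0x7000100008000400000016000fc00140000000100) (nat_lit 0x0) (nat_lit 0x400000000000000008000400) := D_41 (nat_lit 27) (nat_lit 10) (nat_lit 94) (nat_lit 5) (nat_lit 10) (nat_lit 0) (nat_lit 5) (nat_lit 10) (nat_lit 1) (by decide +kernel)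
theorem L113186 : W_41 (nat_lit 3) (nat_lit 0x7000100008000400000016000fc00040000000100) (nat_lit 0x0) (nat_lit 0x400000000000300008000400) := T_41 (nat_lit 44) (nat_lit 45) (nat_lit 2) (nat_lit 7) (nat_lit 3) L113185 (by decide +kernel)
theorem L113187 : W_41 (nat_lit 4) (nat_lit 0x6000100008000400000016000fc00040000000100) (nat_lit 0x0) (nat_lit 0x200010000000000000000400000000000300008000400) := T_41 (nat_lit 160) (nat_lit 177) (nat_lit 5) (nat_lit 8) (nat_lit 6) L113186 (by decide +kernel)
theorem L113188 : W_41 (nat_lit 5) (nat_lit 0x6000100008000400000016000f800040000000100) (nat_lit 0x0) (nat_lit 0x200010000000000000000400000000600300008000400) := T_41 (nat_lit 58) (nat_lit 57) (nat_lit 3) (nat_lit 6) (nat_lit 3) L113187 (by decide +kernel)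
theorem L113189 : W_41 (nat_lit 6) (nat_lit 0x6000100008000400000016000f800040000000000) (nat_lit 0x0) (nat_lit 0x20001000000000000000040000000060030000a000500) := T_41 (nat_lit 8) (nat_lit 25) (nat_lit 7) (nat_lit 8) (nat_lit 0) L113188 (by decide +kernel)
theorem L113190 : W_41 (nat_lit 7) (nat_lit 0x6000100008000400000012000f800040000000000) (nat_lit 0x0) (nat_lit 0x20001000000000000000040004001060030000a000500) := T_41 (nat_lit 78) (nat_lit 64) (nat_lit 1) (nat_lit 13) (nat_lit 3) L113189 (by decide +kernel)
theorem L113191 : W_41 (nat_lit 8) (nat_lit 0x6000100008000400000012000f800000000000000) (nat_lit 0x0) (nat_lit 0x20001000000000000000040004001060036000a000500) := T_41 (nat_lit 42) (nat_lit 41) (nat_lit 0) (nat_lit 11) (nat_lit 3) L113190 (by decide +kernel)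
theorem L113192 : W_41 (nat_lit 9) (nat_lit 0x6000100008000400000012000f000000000000000) (nat_lit 0x0) (nat_lit 0x2000100000000000000004000c0010e0036000a000500) := T_41 (nat_lit 59) (nat_lit 79) (nat_lit 3) (nat_lit 8) (nat_lit 3) L113191 (by decide +kernel)
theorem L113193 : W_41 (nat_lit 10) (nat_lit 0x6000100008000400000002000f000000000000000) (nat_lit 0x0) (nat_lit 0x2000100000000000000004003c0010e0036000a000500) := T_41 (nat_lit 80) (nat_lit 81) (nat_lit 3) (nat_lit 9) (nat_lit 3) L113192 (by decide +kernel)
theorem L113194 : W_41 (nat_lit 11) (nat_lit 0x2000100008000400000002000f000000000000000) (nat_lit 0x0) (nat_lit 0xa000500000000000000004003c0010e0036000a000500) := T_41 (nat_lit 162) (nat_lit 179) (nat_lit 7) (nat_lit 8) (nat_lit 6) L113193 (by decide +kernel)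
theorem L113195 : W_41 (nat_lit 12) (nat_lit 0x20001000080004000000020007000000000000000) (nat_lit 0x0) (nat_lit 0xa000500000000000000004003d0018e0036000a000500) := T_41 (nat_lit 63) (nat_lit 76) (nat_lit 1) (nat_lit 12) (nat_lit 3) L113194 (by decide +kernel)
theorem L113196 : W_41 (nat_lit 2) (nat_lit 0x600010000800040000002e00070001a003c000000) (nat_lit 0x0) (nat_lit 0x200000003000) := D_41 (nat_lit 12) (nat_lit 13) (nat_lit 45) (nat_lit 2) (nat_lit 9) (nat_lit 1) (nat_lit 6) (nat_lit 11) (nat_lit 4) (by decide +kernel)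
theorem L113197 : W_41 (nat_lit 3) (nat_lit 0x600010000800040000002e00070001a001c000000) (nat_lit 0x0) (nat_lit 0x200060003000) := T_41 (nat_lit 29) (nat_lit 30) (nat_lit 1) (nat_lit 13) (nat_lit 1) L113196 (by decide +kernel)
theorem L113198 : W_41 (nat_lit 4) (nat_lit 0x600010000800040000002e00070001a000c000000) (nat_lit 0x0) (nat_lit 0x200070003800) := T_41 (nat_lit 28) (nat_lit 11) (nat_lit 6) (nat_lit 10) (nat_lit 4) L113197 (by decide +kernel)
theorem L113199 : W_41 (nat_lit 5) (nat_lit 0x600010000800040000000e00070001a000c000000) (nat_lit 0x0) (nat_lit 0x300000000200070003800) := T_41 (nat_lit 81) (nat_lit 80) (nat_lit 0) (nat_lit 13) (nat_lit 4) L113198 (by decide +kernel)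
theorem L113200 : W_41 (nat_lit 6) (nat_lit 0x600010000800040000000600070001a000c000000) (nat_lit 0x0) (nat_lit 0x1000380000000200070003800) := T_41 (nat_lit 79) (nat_lit 96) (nat_lit 7) (nat_lit 10) (nat_lit 1) L113199 (by decide +kernel)
theorem L113201 : W_41 (nat_lit 7) (nat_lit 0x6000100008000400000006000700018000c000000) (nat_lit 0x0) (nat_lit 0x1000380000000260070003800) := T_41 (nat_lit 41) (nat_lit 42) (nat_lit 3) (nat_lit 7) (nat_lit 2) L113200 (by decide +kernel)
theorem L113202 : W_41 (nat_lit 8) (nat_lit 0x6000100008000400000006000700008000c000000) (nat_lit 0x0) (nat_lit 0x1400380000000360070003800) := T_41 (nat_lit 44) (nat_lit 94) (nat_lit 6) (nat_lit 9) (nat_lit 5) L113201 (by decide +kernel)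
theorem L113203 : W_41 (nat_lit 9) (nat_lit 0x60001000080004000000060007000080004000000) (nat_lit 0x0) (nat_lit 0x1400380000000360078003c00) := T_41 (nat_lit 27) (nat_lit 10) (nat_lit 6) (nat_lit 9) (nat_lit 4) L113202 (by decide +kernel)
theorem L113204 : W_41 (nat_lit 10) (nat_lit 0x60001000080004000000020007000080004000000) (nat_lit 0x0) (nat_lit 0x14003c0000000360078003e00) := T_41 (nat_lit 78) (nat_lit 9) (nat_lit 7) (nat_lit 9) (nat_lit 0) L113203 (by decide +kernel)
theorem L113205 : W_41 (nat_lit 11) (nat_lit 0x20001000080004000000020007000080004000000) (nat_lit 0x0) (nat_lit 0x8000400000000000000014003c0000000360078003e00) := T_41 (nat_lit 162) (nat_lit 179) (nat_lit 7) (nat_lit 8) (nat_lit 6) L113204 (by decide +kernel)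
theorem L113206 : W_41 (nat_lit 2) (nat_lit 0x300010000800060000001e00070001a001c000000) (nat_lit 0x0) (nat_lit 0x6000000000000200000000000) := D_41 (nat_lit 97) (nat_lit 45) (nat_lit 98) (nat_lit 7) (nat_lit 11) (nat_lit 1) (nat_lit 3) (nat_lit 9) (nat_lit 4) (by decide +kernel)
theorem L113207 : W_41 (nat_lit 3) (nat_lit 0x300010000800060000001e00070001a000c000000) (nat_lit 0x0) (nat_lit 0x6000000000000200010000800) := T_41 (nat_lit 28) (nat_lit 11) (nat_lit 6) (nat_lit 10) (nat_lit 4) L113206 (by decide +kernel)
theorem L113208 : W_41 (nat_lit 4) (nat_lit 0x300010000800060000000e00070001a000c000000) (nat_lit 0x0) (nat_lit 0x6000300000000200010000800) := T_41 (nat_lit 80) (nat_lit 81) (nat_lit 0) (nat_lit 13) (nat_lit 4) L113207 (by decide +kernel)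
theorem L113209 : W_41 (nat_lit 5) (nat_lit 0x300010000800060000000600070001a000c000000) (nat_lit 0x0) (nat_lit 0x7000380000000200010000800) := T_41 (nat_lit 79) (nat_lit 96) (nat_lit 7) (nat_lit 10) (nat_lit 1) L113208 (by decide +kernel)
theorem L113210 : W_41 (nat_lit 2) (nat_lit 0x200010000800040010000e0005000000000000000) (nat_lit 0x0) (nat_lit 0x2000010008000000000000000) := D_41 (nat_lit 76) (nat_lit 63) (nat_lit 97) (nat_lit 2) (nat_lit 8) (nat_lit 4) (nat_lit 3) (nat_lit 8) (nat_lit 4) (by decide +kernel)
theorem L113211 : W_41 (nat_lit 2) (nat_lit 0x200010000800040020001a0005000200000000000) (nat_lit 0x0) (nat_lit 0x800040000000000008000000000000000) := D_41 (nat_lit 114) (nat_lit 131) (nat_lit 63) (nat_lit 4) (nat_lit 12) (nat_lit 7) (nat_lit 4) (nat_lit 12) (nat_lit 6) (by decide +kernel)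
theorem L113212 : W_41 (nat_lit 3) (nat_lit 0x200010000800040000001a0005000200000000000) (nat_lit 0x0) (nat_lit 0x800040002000000008000000010000000) := T_41 (nat_lit 97) (nat_lit 28) (nat_lit 7) (nat_lit 11) (nat_lit 1) L113211 (by decide +kernel)
theorem L113213 : W_41 (nat_lit 3) (nat_lit 0x700010000800040000001a0005000000000000000) (nat_lit 0x0) (nat_lit 0x60000a800000000000000) := T_41 (nat_lit 61) (nat_lit 59) (nat_lit 3) (nat_lit 8) (nat_lit 3) L112770 (by decide +kernel)
theorem L113214 : W_41 (nat_lit 4) (nat_lit 0x600010000800040000001a0005000000000000000) (nat_lit 0x0) (nat_lit 0x20001000000000000000000060000a800000000000000) := T_41 (nat_lit 160) (nat_lit 177) (nat_lit 5) (nat_lit 8) (nat_lit 6) L113213 (by decide +kernel)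
theorem L113215 : W_41 (nat_lit 5) (nat_lit 0x600010000800060000000a0005800000000000000) (nat_lit 0x0) (nat_lit 0x20001000100002400700008000000) := T_41 (nat_lit 61) (nat_lit 80) (nat_lit 3) (nat_lit 8) (nat_lit 3) L112745 (by decide +kernel)
theorem L113216 : W_41 (nat_lit 6) (nat_lit 0x200010000800060000000a0005800000000000000) (nat_lit 0x0) (nat_lit 0x800040000000000020001000100002400700008000000) := T_41 (nat_lit 162) (nat_lit 179) (nat_lit 7) (nat_lit 8) (nat_lit 6) L113215 (by decide +kernel)
theorem L113217 : W_41 (nat_lit 5) (nat_lit 0x200010000800060000000a0005800000000000000) (nat_lit 0x0) (nat_lit 0x100002400770000000000) := T_41 (nat_lit 61) (nat_lit 80) (nat_lit 3) (nat_lit 8) (nat_lit 3) L112694 (by decide +kernel)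
theorem L113218 : W_41 (nat_lit 2) (nat_lit 0x700010000800040000000a0007c00200000000000) (nat_lit 0x0) (nat_lit 0x70000000000) := D_41 (nat_lit 41) (nat_lit 40) (nat_lit 42) (nat_lit 0) (nat_lit 10) (nat_lit 3) (nat_lit 0) (nat_lit 11) (nat_lit 3) (by decide +kernel)
theorem L113219 : W_41 (nat_lit 3) (nat_lit 0x700010000800040000000a0007800200000000000) (nat_lit 0x0) (nat_lit 0x400170000000000) := T_41 (nat_lit 58) (nat_lit 44) (nat_lit 2) (nat_lit 7) (nat_lit 3) L113218 (by decide +kernel)
theorem L113220 : W_41 (nat_lit 4) (nat_lit 0x700010000800040000000a0007800000000000000) (nat_lit 0x0) (nat_lit 0x400770000000000) := T_41 (nat_lit 45) (nat_lit 46) (nat_lit 2) (nat_lit 8) (nat_lit 3) L113219 (by decide +kernel)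
theorem L113221 : W_41 (nat_lit 2) (nat_lit 0x600010000800040000000a0007c00200000000000) (nat_lit 0x0) (nat_lit 0x70000000000) := D_41 (nat_lit 41) (nat_lit 40) (nat_lit 42) (nat_lit 0) (nat_lit 10) (nat_lit 3) (nat_lit 0) (nat_lit 11) (nat_lit 3) (by decide +kernel)
theorem L113222 : W_41 (nat_lit 3) (nat_lit 0x600010000800040000000a0007800200000000000) (nat_lit 0x0) (nat_lit 0x400170000000000) := T_41 (nat_lit 58) (nat_lit 44) (nat_lit 2) (nat_lit 7) (nat_lit 3) L113221 (by decide +kernel)
theorem L113223 : W_41 (nat_lit 4) (nat_lit 0x600010000800040000000a0007800000000000000) (nat_lit 0x0) (nat_lit 0x400770000000000) := T_41 (nat_lit 45) (nat_lit 46) (nat_lit 2) (nat_lit 8) (nat_lit 3) L113222 (by decide +kernel)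
theorem L113224 : W_41 (nat_lit 5) (nat_lit 0x600010000800040000000a0005800000000000000) (nat_lit 0x0) (nat_lit 0x100002400770000000000) := T_41 (nat_lit 61) (nat_lit 80) (nat_lit 3) (nat_lit 8) (nat_lit 3) L113223 (by decide +kernel)
theorem L113225 : W_41 (nat_lit 2) (nat_lit 0x300010000800040000000a0007800300000000000) (nat_lit 0x0) (nat_lit 0x20001000000000000000008000000) := D_41 (nat_lit 96) (nat_lit 27) (nat_lit 113) (nat_lit 4) (nat_lit 11) (nat_lit 5) (nat_lit 4) (nat_lit 11) (nat_lit 6) (by decide +kernel)
theorem L113226 : W_41 (nat_lit 3) (nat_lit 0x300010000800040000000a0007800200000000000) (nat_lit 0x0) (nat_lit 0x20001000000000400100008000000) := T_41 (nat_lit 44) (nat_lit 58) (nat_lit 2) (nat_lit 7) (nat_lit 3) L113225 (by decide +kernel)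
theorem L113227 : W_41 (nat_lit 4) (nat_lit 0x300010000800040000000a0007800000000000000) (nat_lit 0x0) (nat_lit 0x20001000000000400700008000000) := T_41 (nat_lit 45) (nat_lit 46) (nat_lit 2) (nat_lit 8) (nat_lit 3) L113226 (by decide +kernel)
theorem L113228 : W_41 (nat_lit 5) (nat_lit 0x300010000800040000000a0005800000000000000) (nat_lit 0x0) (nat_lit 0x20001000100002400700008000000) := T_41 (nat_lit 61) (nat_lit 80) (nat_lit 3) (nat_lit 8) (nat_lit 3) L113227 (by decide +kernel)
theorem L113229 : W_41 (nat_lit 5) (nat_lit 0x200010000800060000000a0007000000000000000) (nat_lit 0x0) (nat_lit 0x100000c00770000000000) := T_41 (nat_lit 59) (nat_lit 80) (nat_lit 3) (nat_lit 8) (nat_lit 3) L112694 (by decide +kernel)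
theorem L113230 : W_41 (nat_lit 6) (nat_lit 0x200010000800040000000a0007000000000000000) (nat_lit 0x0) (nat_lit 0x2000100100000c00770000000000) := T_41 (nat_lit 109) (nat_lit 92) (nat_lit 4) (nat_lit 8) (nat_lit 9) L113229 (by decide +kernel)
theorem L113231 : W_41 (nat_lit 2) (nat_lit 0x300010000800040000000a001f000000000000000) (nat_lit 0x0) (nat_lit 0x1c0000000000) := D_41 (nat_lit 43) (nat_lit 44) (nat_lit 42) (nat_lit 0) (nat_lit 13) (nat_lit 3) (nat_lit 0) (nat_lit 12) (nat_lit 3) (by decide +kernel)
theorem L113232 : W_41 (nat_lit 3) (nat_lit 0x300010000800040000000a000f000000000000000) (nat_lit 0x0) (nat_lit 0x400100001c0000000000) := T_41 (nat_lit 64) (nat_lit 78) (nat_lit 1) (nat_lit 13) (nat_lit 3) L113231 (by decide +kernel)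
theorem L113233 : W_41 (nat_lit 4) (nat_lit 0x200010000800040000000a000f000000000000000) (nat_lit 0x0) (nat_lit 0x2000100000000000000000000400100001c0000000000) := T_41 (nat_lit 160) (nat_lit 177) (nat_lit 5) (nat_lit 8) (nat_lit 6) L113232 (by decide +kernel)
theorem L113234 : W_41 (nat_lit 6) (nat_lit 0x200010000800040000000a0007000000000000000) (nat_lit 0x0) (nat_lit 0x200010000000000022001100040018000fc0020001000) := Q_41 (nat_lit 63) (C_41 L112617 (C_41 L113233 N_41)) (by decide +kernel)
theorem L113235 : W_41 (nat_lit 2) (nat_lit 0x200010000800040000000a000d000000000000000) (nat_lit 0x0) (nat_lit 0x50002000000000000000) := D_41 (nat_lit 76) (nat_lit 61) (nat_lit 78) (nat_lit 1) (nat_lit 12) (nat_lit 3) (nat_lit 2) (nat_lit 8) (nat_lit 4) (by decide +kernel)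
theorem L113236 : W_41 (nat_lit 3) (nat_lit 0x200010000800040000000a000d000000000000000) (nat_lit 0x0) (nat_lit 0x150030000000000000000) := T_41 (nat_lit 78) (nat_lit 76) (nat_lit 2) (nat_lit 8) (nat_lit 4) L113054 (by decide +kernel)
theorem L113237 : W_41 (nat_lit 5) (nat_lit 0x700010000800040000000a0007000000000000000) (nat_lit 0x0) (nat_lit 0x100000c00770000000000) := T_41 (nat_lit 59) (nat_lit 80) (nat_lit 3) (nat_lit 8) (nat_lit 3) L113220 (by decide +kernel)
theorem L113238 : W_41 (nat_lit 6) (nat_lit 0x300010000800040000000a0007000000000000000) (nat_lit 0x0) (nat_lit 0x800040000000000000000000100000c00770000000000) := T_41 (nat_lit 162) (nat_lit 179) (nat_lit 7) (nat_lit 8) (nat_lit 6) L113237 (by decide +kernel)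
theorem L113239 : W_41 (nat_lit 7) (nat_lit 0x200010000800040000000a0007000000000000000) (nat_lit 0x0) (nat_lit 0xa00050000000000000000000100000c00770000000000) := T_41 (nat_lit 160) (nat_lit 177) (nat_lit 5) (nat_lit 8) (nat_lit 6) L113238 (by decide +kernel)
theorem L113240 : W_41 (nat_lit 4) (nat_lit 0x200010000800040000000a0007000000000000000) (nat_lit 0x0) (nat_lit 0x140000c00700000000000) := T_41 (nat_lit 59) (nat_lit 80) (nat_lit 3) (nat_lit 8) (nat_lit 3) L113155 (by decide +kernel)
theorem L113241 : W_41 (nat_lit 4) (nat_lit 0x200010000800060000000a0007000000000000000) (nat_lit 0x0) (nat_lit 0x140000c00070000000000) := T_41 (nat_lit 59) (nat_lit 80) (nat_lit 3) (nat_lit 8) (nat_lit 3) L113159 (by decide +kernel)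
theorem L113242 : W_41 (nat_lit 5) (nat_lit 0x200010000800040000000a0007000000000000000) (nat_lit 0x0) (nat_lit 0x2000100140000c00070000000000) := T_41 (nat_lit 109) (nat_lit 92) (nat_lit 4) (nat_lit 8) (nat_lit 9) L113241 (by decide +kernel)
theorem L113243 : W_41 (nat_lit 8) (nat_lit 0x200010000800040000000a0005000000000000000) (nat_lit 0x0) (nat_lit 0xa0005000000000002200110014001ac00ff0020001000) := Q_41 (nat_lit 61) (C_41 L113230 (C_41 L113234 (C_41 L113239 (C_41 L113240 (C_41 L113242 N_41))))) (by decide +kernel)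
theorem L113244 : W_41 (nat_lit 2) (nat_lit 0x200010000800040000000f0005000000000000000) (nat_lit 0x0) (nat_lit 0x100000c00000000000000) := D_41 (nat_lit 59) (nat_lit 58) (nat_lit 80) (nat_lit 0) (nat_lit 11) (nat_lit 4) (nat_lit 0) (nat_lit 12) (nat_lit 4) (by decide +kernel)
theorem L113245 : W_41 (nat_lit 3) (nat_lit 0x200010000800040000000e0005000000000000000) (nat_lit 0x0) (nat_lit 0x110008c00000000000000) := T_41 (nat_lit 76) (nat_lit 63) (nat_lit 2) (nat_lit 8) (nat_lit 4) L113244 (by decide +kernel)
theorem L113246 : W_41 (nat_lit 3) (nat_lit 0x300010000800060020001e0005000000000000000) (nat_lit 0x0) (nat_lit 0x800040000000000018000200000000000) := T_41 (nat_lit 63) (nat_lit 64) (nat_lit 2) (nat_lit 9) (nat_lit 4) L112577 (by decide +kernel)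
theorem L113247 : W_41 (nat_lit 4) (nat_lit 0x300010000800060000001e0005000000000000000) (nat_lit 0x0) (nat_lit 0x800040006000000018000200000000000) := T_41 (nat_lit 97) (nat_lit 98) (nat_lit 3) (nat_lit 9) (nat_lit 4) L113246 (by decide +kernel)
theorem L113248 : W_41 (nat_lit 5) (nat_lit 0x300010000800040000001e0005000000000000000) (nat_lit 0x0) (nat_lit 0x800042006100000018000200000000000) := T_41 (nat_lit 109) (nat_lit 92) (nat_lit 4) (nat_lit 8) (nat_lit 9) L113247 (by decide +kernel)
theorem L113249 : W_41 (nat_lit 6) (nat_lit 0x300010000800040000000e0005000000000000000) (nat_lit 0x0) (nat_lit 0x800042006100100018800200000000000) := T_41 (nat_lit 80) (nat_lit 59) (nat_lit 0) (nat_lit 12) (nat_lit 4) L113248 (by decide +kernel)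
theorem L113250 : W_41 (nat_lit 7) (nat_lit 0x200010000800040000000e0005000000000000000) (nat_lit 0x0) (nat_lit 0x200010000000800042006100100018800200000000000) := T_41 (nat_lit 160) (nat_lit 177) (nat_lit 5) (nat_lit 8) (nat_lit 6) L113249 (by decide +kernel)
theorem L113251 : W_41 (nat_lit 3) (nat_lit 0x200010000800040000000e0005000000000000000) (nat_lit 0x0) (nat_lit 0x110038000000000000000) := T_41 (nat_lit 63) (nat_lit 76) (nat_lit 2) (nat_lit 8) (nat_lit 4) L113054 (by decide +kernel)
theorem L113252 : W_41 (nat_lit 5) (nat_lit 0x200010000800060000001a0005000000000000000) (nat_lit 0x0) (nat_lit 0x800040006000040018800200000000000) := T_41 (nat_lit 78) (nat_lit 59) (nat_lit 0) (nat_lit 12) (nat_lit 4) L112532 (by decide +kernel)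
theorem L113253 : W_41 (nat_lit 6) (nat_lit 0x200010000800040000001a0005000000000000000) (nat_lit 0x0) (nat_lit 0x800042006100040018800200000000000) := T_41 (nat_lit 109) (nat_lit 92) (nat_lit 4) (nat_lit 8) (nat_lit 9) L113252 (by decide +kernel)
theorem L113254 : W_41 (nat_lit 5) (nat_lit 0x600010000800040000001a0005000000000000000) (nat_lit 0x0) (nat_lit 0x800040006000040018800200000000000) := T_41 (nat_lit 78) (nat_lit 59) (nat_lit 0) (nat_lit 12) (nat_lit 4) L112536 (by decide +kernel)
theorem L113255 : W_41 (nat_lit 6) (nat_lit 0x200010000800040000001a0005000000000000000) (nat_lit 0x0) (nat_lit 0x800040000000800040006000040018800200000000000) := T_41 (nat_lit 162) (nat_lit 179) (nat_lit 7) (nat_lit 8) (nat_lit 6) L113254 (by decide +kernel)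
theorem L113256 : W_41 (nat_lit 2) (nat_lit 0x300010000800740010000a000d000200018000000) (nat_lit 0x0) (nat_lit 0x400000000000100000000000000000800) := D_41 (nat_lit 80) (nat_lit 130) (nat_lit 11) (nat_lit 6) (nat_lit 11) (nat_lit 7) (nat_lit 7) (nat_lit 11) (nat_lit 0) (by decide +kernel)
theorem L113257 : W_41 (nat_lit 3) (nat_lit 0x300010000800740010000a000d000200008000000) (nat_lit 0x0) (nat_lit 0x400000000000100000000000010000c00) := T_41 (nat_lit 28) (nat_lit 10) (nat_lit 4) (nat_lit 11) (nat_lit 4) L113256 (by decide +kernel)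
theorem L113258 : W_41 (nat_lit 4) (nat_lit 0x200010000800740010000a000d000200008000000) (nat_lit 0x0) (nat_lit 0x200010000000400000000000100000000000010000c00) := T_41 (nat_lit 160) (nat_lit 177) (nat_lit 5) (nat_lit 8) (nat_lit 6) L113257 (by decide +kernel)
theorem L113259 : W_41 (nat_lit 5) (nat_lit 0x200010000800740010000a000d000200000000000) (nat_lit 0x0) (nat_lit 0x200010000000400000000000100000000100018000c00) := T_41 (nat_lit 27) (nat_lit 44) (nat_lit 4) (nat_lit 11) (nat_lit 5) L113258 (by decide +kernel)
theorem L113260 : W_41 (nat_lit 6) (nat_lit 0x200010000800740010000a000d000000000000000) (nat_lit 0x0) (nat_lit 0x200010000000400000002000100000000300018000c00) := T_41 (nat_lit 45) (nat_lit 97) (nat_lit 7) (nat_lit 11) (nat_lit 2) L113259 (by decide +kernel)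
theorem L113261 : W_41 (nat_lit 7) (nat_lit 0x200010000800340010000a000d000000000000000) (nat_lit 0x0) (nat_lit 0x200010000000c00040002000100000000300018000c00) := T_41 (nat_lit 114) (nat_lit 131) (nat_lit 7) (nat_lit 11) (nat_lit 3) L113260 (by decide +kernel)
theorem L113262 : W_41 (nat_lit 8) (nat_lit 0x200010000800240010000a000d000000000000000) (nat_lit 0x0) (nat_lit 0x200010000000e00050002000100000000300018000c00) := T_41 (nat_lit 112) (nat_lit 129) (nat_lit 5) (nat_lit 11) (nat_lit 3) L113261 (by decide +kernel)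
theorem L113263 : W_41 (nat_lit 2) (nat_lit 0x200010000800040010000a000d000400000000000) (nat_lit 0x0) (nat_lit 0x200020001000) := D_41 (nat_lit 29) (nat_lit 45) (nat_lit 12) (nat_lit 6) (nat_lit 11) (nat_lit 5) (nat_lit 5) (nat_lit 12) (nat_lit 0) (by decide +kernel)
theorem L113264 : W_41 (nat_lit 3) (nat_lit 0x200010000800040010000a000d000000000000000) (nat_lit 0x0) (nat_lit 0x20000000000000000600020001000) := T_41 (nat_lit 46) (nat_lit 113) (nat_lit 6) (nat_lit 11) (nat_lit 6) L113263 (by decide +kernel)
theorem L113265 : W_41 (nat_lit 2) (nat_lit 0x300010008800340010000a000d000000000000000) (nat_lit 0x0) (nat_lit 0x10000400000000000100000000000000000000) := D_41 (nat_lit 130) (nat_lit 80) (nat_lit 148) (nat_lit 6) (nat_lit 11) (nat_lit 7) (nat_lit 7) (nat_lit 11) (nat_lit 4) (by decide +kernel)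
theorem L113266 : W_41 (nat_lit 3) (nat_lit 0x300010000800340010000a000d000000000000000) (nat_lit 0x0) (nat_lit 0x10000c00040000000100000000000000000000) := T_41 (nat_lit 131) (nat_lit 114) (nat_lit 7) (nat_lit 11) (nat_lit 3) L113265 (by decide +kernel)
theorem L113267 : W_41 (nat_lit 4) (nat_lit 0x300010000800240010000a000d000000000000000) (nat_lit 0x0) (nat_lit 0x10000e00050000000100000000000000000000) := T_41 (nat_lit 112) (nat_lit 129) (nat_lit 5) (nat_lit 11) (nat_lit 3) L113266 (by decide +kernel)
theorem L113268 : W_41 (nat_lit 2) (nat_lit 0x600010000800640010000a0005000200000000000) (nat_lit 0x0) (nat_lit 0x8000400020000000) := D_41 (nat_lit 46) (nat_lit 29) (nat_lit 63) (nat_lit 6) (nat_lit 11) (nat_lit 5) (nat_lit 6) (nat_lit 11) (nat_lit 6) (by decide +kernel)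
theorem L113269 : W_41 (nat_lit 3) (nat_lit 0x600010000800640010000a0005000000000000000) (nat_lit 0x0) (nat_lit 0x2000000008000600020000000) := T_41 (nat_lit 45) (nat_lit 97) (nat_lit 7) (nat_lit 11) (nat_lit 2) L113268 (by decide +kernel)
theorem L113270 : W_41 (nat_lit 4) (nat_lit 0x600010000800240010000a0005000000000000000) (nat_lit 0x0) (nat_lit 0x800040002000000008000600020000000) := T_41 (nat_lit 114) (nat_lit 131) (nat_lit 7) (nat_lit 11) (nat_lit 3) L113269 (by decide +kernel)
theorem L113271 : W_41 (nat_lit 5) (nat_lit 0x200010000800240010000a0005000000000000000) (nat_lit 0x0) (nat_lit 0x800040000000800040002000000008000600020000000) := T_41 (nat_lit 162) (nat_lit 179) (nat_lit 7) (nat_lit 8) (nat_lit 6) L113270 (by decide +kernel)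
theorem L113272 : W_41 (nat_lit 9) (nat_lit 0x200010000800240010000a0005000000000000000) (nat_lit 0x0) (nat_lit 0x200010000000e00050002000100008000700018000c00) := T_41 (nat_lit 63) (nat_lit 46) (nat_lit 6) (nat_lit 11) (nat_lit 6) L113262 (by decide +kernel)
theorem L113273 : W_41 (nat_lit 2) (nat_lit 0x700190004800360010000a000d000000000000000) (nat_lit 0x0) (nat_lit 0x180004000000000000000000000000000000000000) := D_41 (nat_lit 163) (nat_lit 146) (nat_lit 164) (nat_lit 2) (nat_lit 7) (nat_lit 9) (nat_lit 2) (nat_lit 8) (nat_lit 9) (by decide +kernel)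
theorem L113274 : W_41 (nat_lit 3) (nat_lit 0x700110004800360010000a000d000000000000000) (nat_lit 0x0) (nat_lit 0x38000c000000000000000000000000000000000000) := T_41 (nat_lit 147) (nat_lit 165) (nat_lit 7) (nat_lit 11) (nat_lit 5) L113273 (by decide +kernel)
theorem L113275 : W_41 (nat_lit 4) (nat_lit 0x700110004800340010000a000d000000000000000) (nat_lit 0x0) (nat_lit 0x38000c000000002000100000000000000000000000) := T_41 (nat_lit 109) (nat_lit 92) (nat_lit 4) (nat_lit 8) (nat_lit 9) L113274 (by decide +kernel)
theorem L113276 : W_41 (nat_lit 5) (nat_lit 0x700010004800340010000a000d000000000000000) (nat_lit 0x0) (nat_lit 0x38001c000800002000100000000000000000000000) := T_41 (nat_lit 148) (nat_lit 131) (nat_lit 7) (nat_lit 11) (nat_lit 4) L113275 (by decide +kernel)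
theorem L113277 : W_41 (nat_lit 6) (nat_lit 0x600010004800340010000a000d000000000000000) (nat_lit 0x0) (nat_lit 0x20039001c000800002000100000000000000000000000) := T_41 (nat_lit 160) (nat_lit 177) (nat_lit 5) (nat_lit 8) (nat_lit 6) L113276 (by decide +kernel)
theorem L113278 : W_41 (nat_lit 7) (nat_lit 0x600010000800340010000a000d000000000000000) (nat_lit 0x0) (nat_lit 0x20039001c000c00002000100100000000000000000000) := T_41 (nat_lit 130) (nat_lit 80) (nat_lit 6) (nat_lit 11) (nat_lit 7) L113277 (by decide +kernel)
theorem L113279 : W_41 (nat_lit 8) (nat_lit 0x600010000800240010000a000d000000000000000) (nat_lit 0x0) (nat_lit 0x20039001c000e00012000100100000000000000000000) := T_41 (nat_lit 112) (nat_lit 129) (nat_lit 5) (nat_lit 11) (nat_lit 3) L113278 (by decide +kernel)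
theorem L113280 : W_41 (nat_lit 9) (nat_lit 0x600010000800240010000a0005000000000000000) (nat_lit 0x0) (nat_lit 0x20039001c000e00012000100100008000400000000000) := T_41 (nat_lit 63) (nat_lit 46) (nat_lit 6) (nat_lit 11) (nat_lit 6) L113279 (by decide +kernel)
theorem L113281 : W_41 (nat_lit 10) (nat_lit 0x200010000800240010000a0005000000000000000) (nat_lit 0x0) (nat_lit 0xa003d001c000e00012000100100008000400000000000) := T_41 (nat_lit 162) (nat_lit 179) (nat_lit 7) (nat_lit 8) (nat_lit 6) L113280 (by decide +kernel)
theorem L113282 : W_41 (nat_lit 2) (nat_lit 0x600010002800640010000a0005000780004000000) (nat_lit 0x0) (nat_lit 0x4000500000000000000000000000000000000) := D_41 (nat_lit 130) (nat_lit 128) (nat_lit 146) (nat_lit 2) (nat_lit 8) (nat_lit 7) (nat_lit 5) (nat_lit 11) (nat_lit 4) (by decide +kernel)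
theorem L113283 : W_41 (nat_lit 3) (nat_lit 0x600010000800640010000a0005000780004000000) (nat_lit 0x0) (nat_lit 0x4000700010000000000000000000000000000) := T_41 (nat_lit 129) (nat_lit 112) (nat_lit 5) (nat_lit 11) (nat_lit 3) L113282 (by decide +kernel)
theorem L113284 : W_41 (nat_lit 4) (nat_lit 0x200010000800640010000a0005000780004000000) (nat_lit 0x0) (nat_lit 0x800040004000700010000000000000000000000000000) := T_41 (nat_lit 162) (nat_lit 179) (nat_lit 7) (nat_lit 8) (nat_lit 6) L113283 (by decide +kernel)
theorem L113285 : W_41 (nat_lit 5) (nat_lit 0x200010000800640010000a0005000780000000000) (nat_lit 0x0) (nat_lit 0x800040004000700010000000000000000000006000000) := T_41 (nat_lit 26) (nat_lit 25) (nat_lit 0) (nat_lit 12) (nat_lit 2) L113284 (by decide +kernel)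
theorem L113286 : W_41 (nat_lit 6) (nat_lit 0x200010000800640010000a0005000700000000000) (nat_lit 0x0) (nat_lit 0x800040004000700010000000000000800080006000000) := T_41 (nat_lit 43) (nat_lit 59) (nat_lit 1) (nat_lit 12) (nat_lit 2) L113285 (by decide +kernel)
theorem L113287 : W_41 (nat_lit 7) (nat_lit 0x200010000800640010000a0005000600000000000) (nat_lit 0x0) (nat_lit 0x80004000400070001000000000000080018000e000000) := T_41 (nat_lit 44) (nat_lit 27) (nat_lit 4) (nat_lit 11) (nat_lit 5) L113286 (by decide +kernel)
theorem L113288 : W_41 (nat_lit 8) (nat_lit 0x200010000800640010000a0005000200000000000) (nat_lit 0x0) (nat_lit 0x80004000400070001000000000000080058002e000000) := T_41 (nat_lit 46) (nat_lit 29) (nat_lit 6) (nat_lit 11) (nat_lit 5) L113287 (by decide +kernel)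
theorem L113289 : W_41 (nat_lit 9) (nat_lit 0x200010000800640010000a0005000000000000000) (nat_lit 0x0) (nat_lit 0x80004000400070001000200000000080078002e000000) := T_41 (nat_lit 45) (nat_lit 97) (nat_lit 7) (nat_lit 11) (nat_lit 2) L113288 (by decide +kernel)
theorem L113290 : W_41 (nat_lit 10) (nat_lit 0x200010000800240010000a0005000000000000000) (nat_lit 0x0) (nat_lit 0x800040004000f0005000200000000080078002e000000) := T_41 (nat_lit 114) (nat_lit 131) (nat_lit 7) (nat_lit 11) (nat_lit 3) L113289 (by decide +kernel)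
theorem L113291 : W_41 (nat_lit 2) (nat_lit 0x700010004800240010000a000d000000000000000) (nat_lit 0x0) (nat_lit 0x4000200010000000000000000000000000000) := D_41 (nat_lit 129) (nat_lit 146) (nat_lit 112) (nat_lit 5) (nat_lit 11) (nat_lit 4) (nat_lit 5) (nat_lit 11) (nat_lit 3) (by decide +kernel)
theorem L113292 : W_41 (nat_lit 3) (nat_lit 0x700010000800240010000a000d000000000000000) (nat_lit 0x0) (nat_lit 0x4000600010000000100000000000000000000) := T_41 (nat_lit 130) (nat_lit 80) (nat_lit 6) (nat_lit 11) (nat_lit 7) L113291 (by decide +kernel)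
theorem L113293 : W_41 (nat_lit 4) (nat_lit 0x300010000800240010000a000d000000000000000) (nat_lit 0x0) (nat_lit 0x800040004000600010000000100000000000000000000) := T_41 (nat_lit 162) (nat_lit 179) (nat_lit 7) (nat_lit 8) (nat_lit 6) L113292 (by decide +kernel)
theorem L113294 : W_41 (nat_lit 5) (nat_lit 0x300010000800240010000a0005000000000000000) (nat_lit 0x0) (nat_lit 0x800040004000600010000000100008000400000000000) := T_41 (nat_lit 63) (nat_lit 46) (nat_lit 6) (nat_lit 11) (nat_lit 6) L113293 (by decide +kernel)
theorem L113295 : W_41 (nat_lit 6) (nat_lit 0x200010000800240010000a0005000000000000000) (nat_lit 0x0) (nat_lit 0xa00050004000600010000000100008000400000000000) := T_41 (nat_lit 160) (nat_lit 177) (nat_lit 5) (nat_lit 8) (nat_lit 6) L113294 (by decide +kernel)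
theorem L113296 : W_41 (nat_lit 2) (nat_lit 0xf0009000c800360010001a0005000000000000000) (nat_lit 0x0) (nat_lit 0x3000100000000000000000000000000000000000000000) := D_41 (nat_lit 180) (nat_lit 181) (nat_lit 164) (nat_lit 3) (nat_lit 7) (nat_lit 9) (nat_lit 5) (nat_lit 11) (nat_lit 6) (by decide +kernel)
theorem L113297 : W_41 (nat_lit 3) (nat_lit 0x70009000c800360010001a0005000000000000000) (nat_lit 0x0) (nat_lit 0x3000180004000000000000000000000000000000000000) := T_41 (nat_lit 163) (nat_lit 146) (nat_lit 2) (nat_lit 7) (nat_lit 9) L113296 (by decide +kernel)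
theorem L113298 : W_41 (nat_lit 4) (nat_lit 0x70001000c800360010001a0005000000000000000) (nat_lit 0x0) (nat_lit 0x300018000c000000000002000000000000000000000000) := T_41 (nat_lit 147) (nat_lit 97) (nat_lit 6) (nat_lit 11) (nat_lit 8) L113297 (by decide +kernel)
theorem L113299 : W_41 (nat_lit 5) (nat_lit 0x70001000c800360010000a0005000000000000000) (nat_lit 0x0) (nat_lit 0x300018000c000000000002000100008000000000000000) := T_41 (nat_lit 80) (nat_lit 63) (nat_lit 6) (nat_lit 11) (nat_lit 7) L113298 (by decide +kernel)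
theorem L113300 : W_41 (nat_lit 6) (nat_lit 0x700010008800360010000a0005000000000000000) (nat_lit 0x0) (nat_lit 0x300018001c000400000002000100008000000000000000) := T_41 (nat_lit 130) (nat_lit 148) (nat_lit 7) (nat_lit 11) (nat_lit 4) L113299 (by decide +kernel)
theorem L113301 : W_41 (nat_lit 7) (nat_lit 0x700010008800340010000a0005000000000000000) (nat_lit 0x0) (nat_lit 0x300018001c000400002002100100008000000000000000) := T_41 (nat_lit 109) (nat_lit 92) (nat_lit 4) (nat_lit 8) (nat_lit 9) L113300 (by decide +kernel)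
theorem L113302 : W_41 (nat_lit 8) (nat_lit 0x700010000800340010000a0005000000000000000) (nat_lit 0x0) (nat_lit 0x300018001c000c00042002100100008000000000000000) := T_41 (nat_lit 131) (nat_lit 114) (nat_lit 7) (nat_lit 11) (nat_lit 3) L113301 (by decide +kernel)
theorem L113303 : W_41 (nat_lit 9) (nat_lit 0x300010000800340010000a0005000000000000000) (nat_lit 0x0) (nat_lit 0x38001c001c000c00042002100100008000000000000000) := T_41 (nat_lit 162) (nat_lit 179) (nat_lit 7) (nat_lit 8) (nat_lit 6) L113302 (by decide +kernel)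
theorem L113304 : W_41 (nat_lit 10) (nat_lit 0x200010000800340010000a0005000000000000000) (nat_lit 0x0) (nat_lit 0x3a001d001c000c00042002100100008000000000000000) := T_41 (nat_lit 160) (nat_lit 177) (nat_lit 5) (nat_lit 8) (nat_lit 6) L113303 (by decide +kernel)
theorem L113305 : W_41 (nat_lit 11) (nat_lit 0x200010000800240010000a0005000000000000000) (nat_lit 0x0) (nat_lit 0x3a001d001c000e00052002100100008000000000000000) := T_41 (nat_lit 112) (nat_lit 129) (nat_lit 5) (nat_lit 11) (nat_lit 3) L113304 (by decide +kernel)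
theorem L113306 : W_41 (nat_lit 12) (nat_lit 0x200010000800040010000a0005000000000000000) (nat_lit 0x0) (nat_lit 0x3a003d001c000f0007200210010000880078003e000c00) := Q_41 (nat_lit 113) (C_41 L113271 (C_41 L113272 (C_41 L113281 (C_41 L113290 (C_41 L113295 (C_41 L113305 N_41)))))) (by decide +kernel)
theorem L113307 : W_41 (nat_lit 2) (nat_lit 0x200010002800260010000b000d000000000000000) (nat_lit 0x0) (nat_lit 0x4000500000000000000000000000000000000) := D_41 (nat_lit 130) (nat_lit 128) (nat_lit 146) (nat_lit 0) (nat_lit 11) (nat_lit 7) (nat_lit 5) (nat_lit 11) (nat_lit 4) (by decide +kernel)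
theorem L113308 : W_41 (nat_lit 3) (nat_lit 0x200010000800260010000b000d000000000000000) (nat_lit 0x0) (nat_lit 0x4000700010000000000000000000000000000) := T_41 (nat_lit 129) (nat_lit 112) (nat_lit 5) (nat_lit 11) (nat_lit 3) L113307 (by decide +kernel)
theorem L113309 : W_41 (nat_lit 4) (nat_lit 0x200010000800260010000a000d000000000000000) (nat_lit 0x0) (nat_lit 0x4000700010000000050000000000000000000) := T_41 (nat_lit 76) (nat_lit 78) (nat_lit 2) (nat_lit 8) (nat_lit 4) L113308 (by decide +kernel)
theorem L113310 : W_41 (nat_lit 5) (nat_lit 0x200010000800260010000a0005000000000000000) (nat_lit 0x0) (nat_lit 0x4000700010000000050008000400000000000) := T_41 (nat_lit 63) (nat_lit 46) (nat_lit 6) (nat_lit 11) (nat_lit 6) L113309 (by decide +kernel)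
theorem L113311 : W_41 (nat_lit 6) (nat_lit 0x200010000800240010000a0005000000000000000) (nat_lit 0x0) (nat_lit 0x4000700012000100050008000400000000000) := T_41 (nat_lit 109) (nat_lit 92) (nat_lit 4) (nat_lit 8) (nat_lit 9) L113310 (by decide +kernel)
theorem L113312 : W_41 (nat_lit 2) (nat_lit 0x600010002800660010000a0005000300000000000) (nat_lit 0x0) (nat_lit 0x4000500000000000000000000000000000000) := D_41 (nat_lit 130) (nat_lit 128) (nat_lit 146) (nat_lit 2) (nat_lit 8) (nat_lit 7) (nat_lit 5) (nat_lit 11) (nat_lit 4) (by decide +kernel)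
theorem L113313 : W_41 (nat_lit 3) (nat_lit 0x600010000800660010000a0005000300000000000) (nat_lit 0x0) (nat_lit 0x4000700010000000000000000000000000000) := T_41 (nat_lit 129) (nat_lit 112) (nat_lit 5) (nat_lit 11) (nat_lit 3) L113312 (by decide +kernel)
theorem L113314 : W_41 (nat_lit 4) (nat_lit 0x200010000800660010000a0005000300000000000) (nat_lit 0x0) (nat_lit 0x800040004000700010000000000000000000000000000) := T_41 (nat_lit 162) (nat_lit 179) (nat_lit 7) (nat_lit 8) (nat_lit 6) L113313 (by decide +kernel)
theorem L113315 : W_41 (nat_lit 5) (nat_lit 0x200010000800640010000a0005000300000000000) (nat_lit 0x0) (nat_lit 0x800040004000700012000100000000000000000000000) := T_41 (nat_lit 109) (nat_lit 92) (nat_lit 4) (nat_lit 8) (nat_lit 9) L113314 (by decide +kernel)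
theorem L113316 : W_41 (nat_lit 6) (nat_lit 0x200010000800640010000a0005000200000000000) (nat_lit 0x0) (nat_lit 0x800040004000700012000100000000000100008000000) := T_41 (nat_lit 44) (nat_lit 27) (nat_lit 4) (nat_lit 11) (nat_lit 5) L113315 (by decide +kernel)
theorem L113317 : W_41 (nat_lit 7) (nat_lit 0x200010000800640010000a0005000000000000000) (nat_lit 0x0) (nat_lit 0x800040004000700012002100000000000300008000000) := T_41 (nat_lit 45) (nat_lit 97) (nat_lit 7) (nat_lit 11) (nat_lit 2) L113316 (by decide +kernel)
theorem L113318 : W_41 (nat_lit 8) (nat_lit 0x200010000800240010000a0005000000000000000) (nat_lit 0x0) (nat_lit 0x800040004000f00052002100000000000300008000000) := T_41 (nat_lit 114) (nat_lit 131) (nat_lit 7) (nat_lit 11) (nat_lit 3) L113317 (by decide +kernel)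
theorem L113319 : W_41 (nat_lit 11) (nat_lit 0x200010000800040010000a0005000000000000000) (nat_lit 0x0) (nat_lit 0x800040004000f0007200210005000880078002e000000) := Q_41 (nat_lit 113) (C_41 L113271 (C_41 L113290 (C_41 L113311 (C_41 L113318 N_41)))) (by decide +kernel)
theorem L113320 : W_41 (nat_lit 2) (nat_lit 0x300010000800060030001e0005000000000000000) (nat_lit 0x0) (nat_lit 0x40000000000000000200010000000) := D_41 (nat_lit 45) (nat_lit 114) (nat_lit 28) (nat_lit 7) (nat_lit 11) (nat_lit 2) (nat_lit 7) (nat_lit 11) (nat_lit 1) (by decide +kernel)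
theorem L113321 : W_41 (nat_lit 3) (nat_lit 0x300010000800060010001e0005000000000000000) (nat_lit 0x0) (nat_lit 0x40006000000000000200010000000) := T_41 (nat_lit 97) (nat_lit 98) (nat_lit 3) (nat_lit 9) (nat_lit 4) L113320 (by decide +kernel)
theorem L113322 : W_41 (nat_lit 4) (nat_lit 0x300010000800040010001e0005000000000000000) (nat_lit 0x0) (nat_lit 0x42006100000000000200010000000) := T_41 (nat_lit 109) (nat_lit 92) (nat_lit 4) (nat_lit 8) (nat_lit 9) L113321 (by decide +kernel)
theorem L113323 : W_41 (nat_lit 5) (nat_lit 0x300010000800040010000e0005000000000000000) (nat_lit 0x0) (nat_lit 0x42006100100000800200010000000) := T_41 (nat_lit 80) (nat_lit 59) (nat_lit 0) (nat_lit 12) (nat_lit 4) L113322 (by decide +kernel)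
theorem L113324 : W_41 (nat_lit 6) (nat_lit 0x200010000800040010000e0005000000000000000) (nat_lit 0x0) (nat_lit 0x200010000000000042006100100000800200010000000) := T_41 (nat_lit 160) (nat_lit 177) (nat_lit 5) (nat_lit 8) (nat_lit 6) L113323 (by decide +kernel)
theorem L113325 : W_41 (nat_lit 2) (nat_lit 0x200010000800060010000f0005000000000000000) (nat_lit 0x0) (nat_lit 0x100000c00000000000000) := D_41 (nat_lit 59) (nat_lit 58) (nat_lit 80) (nat_lit 0) (nat_lit 11) (nat_lit 4) (nat_lit 0) (nat_lit 12) (nat_lit 4) (by decide +kernel)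
theorem L113326 : W_41 (nat_lit 3) (nat_lit 0x200010000800060010000e0005000000000000000) (nat_lit 0x0) (nat_lit 0x110008c00000000000000) := T_41 (nat_lit 76) (nat_lit 63) (nat_lit 2) (nat_lit 8) (nat_lit 4) L113325 (by decide +kernel)
theorem L113327 : W_41 (nat_lit 4) (nat_lit 0x200010000800040010000e0005000000000000000) (nat_lit 0x0) (nat_lit 0x2000100110008c00000000000000) := T_41 (nat_lit 109) (nat_lit 92) (nat_lit 4) (nat_lit 8) (nat_lit 9) L113326 (by decide +kernel)
theorem L113328 : W_41 (nat_lit 7) (nat_lit 0x200010000800040010000a0005000000000000000) (nat_lit 0x0) (nat_lit 0x200010000000000042006100150008c00200010000000) := Q_41 (nat_lit 78) (C_41 L113210 (C_41 L113324 (C_41 L113327 N_41))) (by decide +kernel)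
theorem L113329 : W_41 (nat_lit 2) (nat_lit 0x700010000800040030001e0005000000000000000) (nat_lit 0x0) (nat_lit 0x40000000000000000200010000000) := D_41 (nat_lit 45) (nat_lit 114) (nat_lit 28) (nat_lit 7) (nat_lit 11) (nat_lit 2) (nat_lit 7) (nat_lit 11) (nat_lit 1) (by decide +kernel)
theorem L113330 : W_41 (nat_lit 3) (nat_lit 0x700010000800040010001e0005000000000000000) (nat_lit 0x0) (nat_lit 0x40006000000000000200010000000) := T_41 (nat_lit 97) (nat_lit 98) (nat_lit 3) (nat_lit 9) (nat_lit 4) L113329 (by decide +kernel)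
theorem L113331 : W_41 (nat_lit 4) (nat_lit 0x300010000800040010001e0005000000000000000) (nat_lit 0x0) (nat_lit 0x800040000000000040006000000000000200010000000) := T_41 (nat_lit 162) (nat_lit 179) (nat_lit 7) (nat_lit 8) (nat_lit 6) L113330 (by decide +kernel)
theorem L113332 : W_41 (nat_lit 5) (nat_lit 0x300010000800040010000e0005000000000000000) (nat_lit 0x0) (nat_lit 0x800040000000000040006000100000800200010000000) := T_41 (nat_lit 80) (nat_lit 59) (nat_lit 0) (nat_lit 12) (nat_lit 4) L113331 (by decide +kernel)
theorem L113333 : W_41 (nat_lit 6) (nat_lit 0x200010000800040010000e0005000000000000000) (nat_lit 0x0) (nat_lit 0xa00050000000000040006000100000800200010000000) := T_41 (nat_lit 160) (nat_lit 177) (nat_lit 5) (nat_lit 8) (nat_lit 6) L113332 (by decide +kernel)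
theorem L113334 : W_41 (nat_lit 2) (nat_lit 0x600010000800040010000f0005000000000000000) (nat_lit 0x0) (nat_lit 0x100000c00000000000000) := D_41 (nat_lit 59) (nat_lit 58) (nat_lit 80) (nat_lit 0) (nat_lit 11) (nat_lit 4) (nat_lit 0) (nat_lit 12) (nat_lit 4) (by decide +kernel)
theorem L113335 : W_41 (nat_lit 3) (nat_lit 0x600010000800040010000e0005000000000000000) (nat_lit 0x0) (nat_lit 0x110008c00000000000000) := T_41 (nat_lit 76) (nat_lit 63) (nat_lit 2) (nat_lit 8) (nat_lit 4) L113334 (by decide +kernel)
theorem L113336 : W_41 (nat_lit 4) (nat_lit 0x200010000800040010000e0005000000000000000) (nat_lit 0x0) (nat_lit 0x800040000000000000000000110008c00000000000000) := T_41 (nat_lit 162) (nat_lit 179) (nat_lit 7) (nat_lit 8) (nat_lit 6) L113335 (by decide +kernel)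
theorem L113337 : W_41 (nat_lit 7) (nat_lit 0x200010000800040010000a0005000000000000000) (nat_lit 0x0) (nat_lit 0xa00050000000000040006000150008c00200010000000) := Q_41 (nat_lit 78) (C_41 L113210 (C_41 L113333 (C_41 L113336 N_41))) (by decide +kernel)
theorem L113338 : W_41 (nat_lit 9) (nat_lit 0x200010000800040010000a0005000000000000000) (nat_lit 0x0) (nat_lit 0x800040004000f00072002100050008000700028000000) := Q_41 (nat_lit 113) (C_41 L113271 (C_41 L113318 (C_41 L113311 N_41))) (by decide +kernel)
theorem L113339 : W_41 (nat_lit 2) (nat_lit 0x300010000800060030001e000d000000010000000) (nat_lit 0x0) (nat_lit 0x400020000000000000000400000000000) := D_41 (nat_lit 113) (nat_lit 130) (nat_lit 46) (nat_lit 6) (nat_lit 11) (nat_lit 7) (nat_lit 6) (nat_lit 11) (nat_lit 6) (by decide +kernel)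
theorem L113340 : W_41 (nat_lit 3) (nat_lit 0x300010000800060030001e0005000000010000000) (nat_lit 0x0) (nat_lit 0x400020000000000018000400000000000) := T_41 (nat_lit 63) (nat_lit 64) (nat_lit 2) (nat_lit 9) (nat_lit 4) L113339 (by decide +kernel)
theorem L113341 : W_41 (nat_lit 4) (nat_lit 0x300010000800060030001e0005000000000000000) (nat_lit 0x0) (nat_lit 0x400020000000000018000600010000000) := T_41 (nat_lit 28) (nat_lit 45) (nat_lit 7) (nat_lit 11) (nat_lit 1) L113340 (by decide +kernel)
theorem L113342 : W_41 (nat_lit 5) (nat_lit 0x300010000800060010001e0005000000000000000) (nat_lit 0x0) (nat_lit 0x400020006000000018000600010000000) := T_41 (nat_lit 97) (nat_lit 98) (nat_lit 3) (nat_lit 9) (nat_lit 4) L113341 (by decide +kernel)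
theorem L113343 : W_41 (nat_lit 6) (nat_lit 0x300010000800040010001e0005000000000000000) (nat_lit 0x0) (nat_lit 0x400022006100000018000600010000000) := T_41 (nat_lit 109) (nat_lit 92) (nat_lit 4) (nat_lit 8) (nat_lit 9) L113342 (by decide +kernel)
theorem L113344 : W_41 (nat_lit 7) (nat_lit 0x300010000800040010000e0005000000000000000) (nat_lit 0x0) (nat_lit 0x400022006100100018800600010000000) := T_41 (nat_lit 80) (nat_lit 59) (nat_lit 0) (nat_lit 12) (nat_lit 4) L113343 (by decide +kernel)
theorem L113345 : W_41 (nat_lit 8) (nat_lit 0x200010000800040010000e0005000000000000000) (nat_lit 0x0) (nat_lit 0x200010000000400022006100100018800600010000000) := T_41 (nat_lit 160) (nat_lit 177) (nat_lit 5) (nat_lit 8) (nat_lit 6) L113344 (by decide +kernel)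
theorem L113346 : W_41 (nat_lit 2) (nat_lit 0x200010000800040010000f0005000000000000000) (nat_lit 0x0) (nat_lit 0x100000c00000000000000) := D_41 (nat_lit 59) (nat_lit 58) (nat_lit 80) (nat_lit 0) (nat_lit 11) (nat_lit 4) (nat_lit 0) (nat_lit 12) (nat_lit 4) (by decide +kernel)
theorem L113347 : W_41 (nat_lit 3) (nat_lit 0x200010000800040010000e0005000000000000000) (nat_lit 0x0) (nat_lit 0x2000110000c00000000000000) := T_41 (nat_lit 76) (nat_lit 97) (nat_lit 3) (nat_lit 8) (nat_lit 4) L113346 (by decide +kernel)
theorem L113348 : W_41 (nat_lit 9) (nat_lit 0x200010000800040010000a0005000000000000000) (nat_lit 0x0) (nat_lit 0xa00050000000400022006100150018c00600010000000) := Q_41 (nat_lit 78) (C_41 L113336 (C_41 L113327 (C_41 L113345 (C_41 L113210 (C_41 L113347 N_41))))) (by decide +kernel)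
theorem L113349 : W_41 (nat_lit 2) (nat_lit 0x600010000800040030000a0005000200010000000) (nat_lit 0x0) (nat_lit 0x400020001000) := D_41 (nat_lit 29) (nat_lit 12) (nat_lit 46) (nat_lit 6) (nat_lit 11) (nat_lit 4) (nat_lit 6) (nat_lit 11) (nat_lit 5) (by decide +kernel)
theorem L113350 : W_41 (nat_lit 3) (nat_lit 0x600010000800040030000a0005000200000000000) (nat_lit 0x0) (nat_lit 0x100000000400030001000) := T_41 (nat_lit 28) (nat_lit 80) (nat_lit 7) (nat_lit 11) (nat_lit 1) L113349 (by decide +kernel)
theorem L113351 : W_41 (nat_lit 4) (nat_lit 0x600010000800040010000a0005000200000000000) (nat_lit 0x0) (nat_lit 0x40002000100000000400030001000) := T_41 (nat_lit 97) (nat_lit 114) (nat_lit 7) (nat_lit 11) (nat_lit 2) L113350 (by decide +kernel)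
theorem L113352 : W_41 (nat_lit 5) (nat_lit 0x200010000800040010000a0005000200000000000) (nat_lit 0x0) (nat_lit 0x800040000000000040002000100000000400030001000) := T_41 (nat_lit 162) (nat_lit 179) (nat_lit 7) (nat_lit 8) (nat_lit 6) L113351 (by decide +kernel)
theorem L113353 : W_41 (nat_lit 2) (nat_lit 0x200010000800040030000a0005000600010000000) (nat_lit 0x0) (nat_lit 0x100008000400) := D_41 (nat_lit 27) (nat_lit 10) (nat_lit 44) (nat_lit 4) (nat_lit 11) (nat_lit 4) (nat_lit 4) (nat_lit 11) (nat_lit 5) (by decide +kernel)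
theorem L113354 : W_41 (nat_lit 3) (nat_lit 0x200010000800040030000a0005000600000000000) (nat_lit 0x0) (nat_lit 0x100000000100018000400) := T_41 (nat_lit 28) (nat_lit 80) (nat_lit 7) (nat_lit 11) (nat_lit 1) L113353 (by decide +kernel)
theorem L113355 : W_41 (nat_lit 4) (nat_lit 0x200010000800040010000a0005000600000000000) (nat_lit 0x0) (nat_lit 0x40002000100000000100018000400) := T_41 (nat_lit 97) (nat_lit 114) (nat_lit 7) (nat_lit 11) (nat_lit 2) L113354 (by decide +kernel)
theorem L113356 : W_41 (nat_lit 5) (nat_lit 0x200010000800040010000a0005000200000000000) (nat_lit 0x0) (nat_lit 0x40002000100000000500038000400) := T_41 (nat_lit 46) (nat_lit 29) (nat_lit 6) (nat_lit 11) (nat_lit 5) L113355 (by decide +kernel)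
theorem L113357 : W_41 (nat_lit 2) (nat_lit 0x200010000800040010000a0005000780002000000) (nat_lit 0x0) (nat_lit 0x400000000000040001000000) := D_41 (nat_lit 42) (nat_lit 24) (nat_lit 94) (nat_lit 0) (nat_lit 11) (nat_lit 2) (nat_lit 4) (nat_lit 9) (nat_lit 5) (by decide +kernel)
theorem L113358 : W_41 (nat_lit 3) (nat_lit 0x200010000800040010000a0005000780000000000) (nat_lit 0x0) (nat_lit 0x400000000000040007000000) := T_41 (nat_lit 25) (nat_lit 26) (nat_lit 0) (nat_lit 12) (nat_lit 2) L113357 (by decide +kernel)
theorem L113359 : W_41 (nat_lit 4) (nat_lit 0x200010000800040010000a0005000700000000000) (nat_lit 0x0) (nat_lit 0x4000000008000c0007000000) := T_41 (nat_lit 43) (nat_lit 59) (nat_lit 1) (nat_lit 12) (nat_lit 2) L113358 (by decide +kernel)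
theorem L113360 : W_41 (nat_lit 5) (nat_lit 0x200010000800040010000a0005000300000000000) (nat_lit 0x0) (nat_lit 0x4000000008004c0027000000) := T_41 (nat_lit 46) (nat_lit 29) (nat_lit 6) (nat_lit 11) (nat_lit 5) L113359 (by decide +kernel)
theorem L113361 : W_41 (nat_lit 6) (nat_lit 0x200010000800040010000a0005000200000000000) (nat_lit 0x0) (nat_lit 0x4000000008005c002f000000) := T_41 (nat_lit 44) (nat_lit 27) (nat_lit 4) (nat_lit 11) (nat_lit 5) L113360 (by decide +kernel)
theorem L113362 : W_41 (nat_lit 2) (nat_lit 0x300010000800040030001a0005000300000000000) (nat_lit 0x0) (nat_lit 0x4000050000000000000000000) := D_41 (nat_lit 78) (nat_lit 76) (nat_lit 98) (nat_lit 3) (nat_lit 8) (nat_lit 4) (nat_lit 3) (nat_lit 9) (nat_lit 4) (by decide +kernel)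
theorem L113363 : W_41 (nat_lit 3) (nat_lit 0x300010000800040030000a0005000300000000000) (nat_lit 0x0) (nat_lit 0x4000150000000000010000000) := T_41 (nat_lit 80) (nat_lit 28) (nat_lit 7) (nat_lit 11) (nat_lit 1) L113362 (by decide +kernel)
theorem L113364 : W_41 (nat_lit 4) (nat_lit 0x300010000800040010000a0005000300000000000) (nat_lit 0x0) (nat_lit 0x40006000150000000000010000000) := T_41 (nat_lit 97) (nat_lit 114) (nat_lit 7) (nat_lit 11) (nat_lit 2) L113363 (by decide +kernel)
theorem L113365 : W_41 (nat_lit 5) (nat_lit 0x300010000800040010000a0005000200000000000) (nat_lit 0x0) (nat_lit 0x40006000150000000100018000000) := T_41 (nat_lit 44) (nat_lit 27) (nat_lit 4) (nat_lit 11) (nat_lit 5) L113364 (by decide +kernel)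
theorem L113366 : W_41 (nat_lit 6) (nat_lit 0x200010000800040010000a0005000200000000000) (nat_lit 0x0) (nat_lit 0x200010000000000040006000150000000100018000000) := T_41 (nat_lit 160) (nat_lit 177) (nat_lit 5) (nat_lit 8) (nat_lit 6) L113365 (by decide +kernel)
theorem L113367 : W_41 (nat_lit 7) (nat_lit 0x200010000800040010000a0005000000000000000) (nat_lit 0x0) (nat_lit 0xa000500000000000400064001500008007c003f001400) := Q_41 (nat_lit 45) (C_41 L113352 (C_41 L113356 (C_41 L113361 (C_41 L113366 N_41)))) (by decide +kernel)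
theorem L113368 : W_41 (nat_lit 2) (nat_lit 0x600010000800640010000e000d000000000000000) (nat_lit 0x0) (nat_lit 0x100030000000000000000) := D_41 (nat_lit 64) (nat_lit 65) (nat_lit 80) (nat_lit 1) (nat_lit 14) (nat_lit 3) (nat_lit 2) (nat_lit 9) (nat_lit 4) (by decide +kernel)
theorem L113369 : W_41 (nat_lit 3) (nat_lit 0x600010000800640010000a000d000000000000000) (nat_lit 0x0) (nat_lit 0x150030000000000000000) := T_41 (nat_lit 78) (nat_lit 76) (nat_lit 2) (nat_lit 8) (nat_lit 4) L113368 (by decide +kernel)
theorem L113370 : W_41 (nat_lit 4) (nat_lit 0x600010000800640010000a0005000000000000000) (nat_lit 0x0) (nat_lit 0x150038000400000000000) := T_41 (nat_lit 63) (nat_lit 46) (nat_lit 6) (nat_lit 11) (nat_lit 6) L113369 (by decide +kernel)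
theorem L113371 : W_41 (nat_lit 5) (nat_lit 0x600010000800240010000a0005000000000000000) (nat_lit 0x0) (nat_lit 0x800040000000150038000400000000000) := T_41 (nat_lit 114) (nat_lit 131) (nat_lit 7) (nat_lit 11) (nat_lit 3) L113370 (by decide +kernel)
theorem L113372 : W_41 (nat_lit 6) (nat_lit 0x200010000800240010000a0005000000000000000) (nat_lit 0x0) (nat_lit 0x800040000000800040000000150038000400000000000) := T_41 (nat_lit 162) (nat_lit 179) (nat_lit 7) (nat_lit 8) (nat_lit 6) L113371 (by decide +kernel)
theorem L113373 : W_41 (nat_lit 2) (nat_lit 0x700010002800660010000a0005000000000000000) (nat_lit 0x0) (nat_lit 0x4000500000000000000000000000000000000) := D_41 (nat_lit 130) (nat_lit 128) (nat_lit 146) (nat_lit 2) (nat_lit 8) (nat_lit 7) (nat_lit 5) (nat_lit 11) (nat_lit 4) (by decide +kernel)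
theorem L113374 : W_41 (nat_lit 3) (nat_lit 0x700010000800660010000a0005000000000000000) (nat_lit 0x0) (nat_lit 0x4000700010000000000000000000000000000) := T_41 (nat_lit 129) (nat_lit 112) (nat_lit 5) (nat_lit 11) (nat_lit 3) L113373 (by decide +kernel)
theorem L113375 : W_41 (nat_lit 4) (nat_lit 0x600010000800660010000a0005000000000000000) (nat_lit 0x0) (nat_lit 0x200010004000700010000000000000000000000000000) := T_41 (nat_lit 160) (nat_lit 177) (nat_lit 5) (nat_lit 8) (nat_lit 6) L113374 (by decide +kernel)
theorem L113376 : W_41 (nat_lit 5) (nat_lit 0x200010000800660010000a0005000000000000000) (nat_lit 0x0) (nat_lit 0xa00050004000700010000000000000000000000000000) := T_41 (nat_lit 162) (nat_lit 179) (nat_lit 7) (nat_lit 8) (nat_lit 6) L113375 (by decide +kernel)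
theorem L113377 : W_41 (nat_lit 6) (nat_lit 0x200010000800260010000a0005000000000000000) (nat_lit 0x0) (nat_lit 0xa00050004000f00050000000000000000000000000000) := T_41 (nat_lit 114) (nat_lit 131) (nat_lit 7) (nat_lit 11) (nat_lit 3) L113376 (by decide +kernel)
theorem L113378 : W_41 (nat_lit 7) (nat_lit 0x200010000800240010000a0005000000000000000) (nat_lit 0x0) (nat_lit 0xa00050004000f00052000100000000000000000000000) := T_41 (nat_lit 109) (nat_lit 92) (nat_lit 4) (nat_lit 8) (nat_lit 9) L113377 (by decide +kernel)
theorem L113379 : W_41 (nat_lit 8) (nat_lit 0x200010000800040010000a0005000000000000000) (nat_lit 0x0) (nat_lit 0xa00050004000f00072000100150038000400000000000) := Q_41 (nat_lit 113) (C_41 L113372 (C_41 L113311 (C_41 L113295 (C_41 L113378 N_41)))) (by decide +kernel)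
theorem L113380 : W_41 (nat_lit 13) (nat_lit 0x200010000800040000000a0005000000000000000) (nat_lit 0x0) (nat_lit 0x3a003d001c000f00072007500150038c007c003f001c00) := Q_41 (nat_lit 96) (C_41 L113306 (C_41 L113319 (C_41 L113328 (C_41 L113337 (C_41 L113338 (C_41 L113348 (C_41 L113367 (C_41 L113379 N_41)))))))) (by decide +kernel)
theorem L113381 : W_41 (nat_lit 6) (nat_lit 0x200010000800040000000a0005800000000000000) (nat_lit 0x0) (nat_lit 0x2000100100002400770000000000) := T_41 (nat_lit 109) (nat_lit 92) (nat_lit 4) (nat_lit 8) (nat_lit 9) L113217 (by decide +kernel)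
theorem L113382 : W_41 (nat_lit 7) (nat_lit 0x200010000800040000000a0005800000000000000) (nat_lit 0x0) (nat_lit 0x8000400000000000020005000500024007e0002000100) := Q_41 (nat_lit 61) (C_41 L113114 (C_41 L113155 N_41)) (by decide +kernel)
theorem L113383 : W_41 (nat_lit 2) (nat_lit 0x200010000800040000000a0005800000000000000) (nat_lit 0x0) (nat_lit 0x140002000000000000000) := D_41 (nat_lit 80) (nat_lit 61) (nat_lit 78) (nat_lit 3) (nat_lit 8) (nat_lit 3) (nat_lit 0) (nat_lit 12) (nat_lit 4) (by decide +kernel)
theorem L113384 : W_41 (nat_lit 2) (nat_lit 0x200010000800060000000e0005800000000000000) (nat_lit 0x0) (nat_lit 0x10000600000000000000) := D_41 (nat_lit 58) (nat_lit 76) (nat_lit 57) (nat_lit 0) (nat_lit 11) (nat_lit 4) (nat_lit 3) (nat_lit 6) (nat_lit 3) (by decide +kernel)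
theorem L113385 : W_41 (nat_lit 3) (nat_lit 0x200010000800060000000a0005800000000000000) (nat_lit 0x0) (nat_lit 0x150000600000000000000) := T_41 (nat_lit 78) (nat_lit 80) (nat_lit 0) (nat_lit 12) (nat_lit 4) L113384 (by decide +kernel)
theorem L113386 : W_41 (nat_lit 4) (nat_lit 0x200010000800040000000a0005800000000000000) (nat_lit 0x0) (nat_lit 0x2000100150000600000000000000) := T_41 (nat_lit 109) (nat_lit 92) (nat_lit 4) (nat_lit 8) (nat_lit 9) L113385 (by decide +kernel)
theorem L113387 : W_41 (nat_lit 8) (nat_lit 0x200010000800040000000a0005000000000000000) (nat_lit 0x0) (nat_lit 0x800040000000000002000500150002e007f0002000100) := Q_41 (nat_lit 59) (C_41 L113381 (C_41 L113382 (C_41 L113383 (C_41 L113386 N_41)))) (by decide +kernel)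
theorem L113388 : W_41 (nat_lit 3) (nat_lit 0x300010000800060020001e0005000000000000000) (nat_lit 0x0) (nat_lit 0x40001000010000000200010000000) := T_41 (nat_lit 96) (nat_lit 76) (nat_lit 3) (nat_lit 8) (nat_lit 4) L113320 (by decide +kernel)
theorem L113389 : W_41 (nat_lit 4) (nat_lit 0x300010000800060000001e0005000000000000000) (nat_lit 0x0) (nat_lit 0x40007000010000000200010000000) := T_41 (nat_lit 97) (nat_lit 98) (nat_lit 3) (nat_lit 9) (nat_lit 4) L113388 (by decide +kernel)
theorem L113390 : W_41 (nat_lit 5) (nat_lit 0x300010000800040000001e0005000000000000000) (nat_lit 0x0) (nat_lit 0x42007100010000000200010000000) := T_41 (nat_lit 109) (nat_lit 92) (nat_lit 4) (nat_lit 8) (nat_lit 9) L113389 (by decide +kernel)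
theorem L113391 : W_41 (nat_lit 6) (nat_lit 0x300010000800040000000e0005000000000000000) (nat_lit 0x0) (nat_lit 0x42007100110000800200010000000) := T_41 (nat_lit 80) (nat_lit 59) (nat_lit 0) (nat_lit 12) (nat_lit 4) L113390 (by decide +kernel)
theorem L113392 : W_41 (nat_lit 7) (nat_lit 0x200010000800040000000e0005000000000000000) (nat_lit 0x0) (nat_lit 0x200010000000000042007100110000800200010000000) := T_41 (nat_lit 160) (nat_lit 177) (nat_lit 5) (nat_lit 8) (nat_lit 6) L113391 (by decide +kernel)
theorem L113393 : W_41 (nat_lit 13) (nat_lit 0x200010000800040000000a0005000000000000000) (nat_lit 0x0) (nat_lit 0xa00050000000800042007900150038c007c007c001400) := Q_41 (nat_lit 78) (C_41 L113251 (C_41 L113250 (C_41 L113035 (C_41 L113392 N_41)))) (by decide +kernel)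
theorem L113394 : W_41 (nat_lit 6) (nat_lit 0x200010000800040000000a0005800000000000000) (nat_lit 0x0) (nat_lit 0x800040000000000000000000100002400770000000000) := T_41 (nat_lit 162) (nat_lit 179) (nat_lit 7) (nat_lit 8) (nat_lit 6) L113224 (by decide +kernel)
theorem L113395 : W_41 (nat_lit 7) (nat_lit 0x200010000800040000000a0005800000000000000) (nat_lit 0x0) (nat_lit 0x800040000000000022001100100002400700008000000) := T_41 (nat_lit 109) (nat_lit 92) (nat_lit 4) (nat_lit 8) (nat_lit 9) L113216 (by decide +kernel)
theorem L113396 : W_41 (nat_lit 2) (nat_lit 0x20001000080007c000000a2007f00010000000000) (nat_lit 0x0) (nat_lit 0x1c000000000000000000000000000000) := D_41 (nat_lit 123) (nat_lit 124) (nat_lit 122) (nat_lit 1) (nat_lit 8) (nat_lit 6) (nat_lit 1) (nat_lit 7) (nat_lit 6) (by decide +kernel)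
theorem L113397 : W_41 (nat_lit 3) (nat_lit 0x200010000800078000000a2007f00010000000000) (nat_lit 0x0) (nat_lit 0x5c000400000000000000000000000000) := T_41 (nat_lit 106) (nat_lit 126) (nat_lit 3) (nat_lit 4) (nat_lit 6) L113396 (by decide +kernel)
theorem L113398 : W_41 (nat_lit 4) (nat_lit 0x200010000800068000000a2007f00010000000000) (nat_lit 0x0) (nat_lit 0x15c001400000000000000000000000000) := T_41 (nat_lit 108) (nat_lit 128) (nat_lit 3) (nat_lit 5) (nat_lit 6) L113397 (by decide +kernel)
theorem L113399 : W_41 (nat_lit 5) (nat_lit 0x200010000800060000000a2007f00010000000000) (nat_lit 0x0) (nat_lit 0x15c001c00040000000000000000000000) := T_41 (nat_lit 107) (nat_lit 90) (nat_lit 6) (nat_lit 5) (nat_lit 6) L113398 (by decide +kernel)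
theorem L113400 : W_41 (nat_lit 6) (nat_lit 0x200010000800060000000a2007e00010000000000) (nat_lit 0x0) (nat_lit 0x15c001c00040001000100000000000000) := T_41 (nat_lit 56) (nat_lit 72) (nat_lit 1) (nat_lit 8) (nat_lit 3) L113399 (by decide +kernel)
theorem L113401 : W_41 (nat_lit 2) (nat_lit 0x700010000800040000000a0007800300000000000) (nat_lit 0x0) (nat_lit 0x20001000000000000000008000000) := D_41 (nat_lit 96) (nat_lit 27) (nat_lit 113) (nat_lit 4) (nat_lit 11) (nat_lit 5) (nat_lit 4) (nat_lit 11) (nat_lit 6) (by decide +kernel)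
theorem L113402 : W_41 (nat_lit 3) (nat_lit 0x700010000800040000000a0007800200000000000) (nat_lit 0x0) (nat_lit 0x20001000000000400100008000000) := T_41 (nat_lit 44) (nat_lit 58) (nat_lit 2) (nat_lit 7) (nat_lit 3) L113401 (by decide +kernel)
theorem L113403 : W_41 (nat_lit 4) (nat_lit 0x700010000800040000000a0007800000000000000) (nat_lit 0x0) (nat_lit 0x20001000000000400700008000000) := T_41 (nat_lit 45) (nat_lit 46) (nat_lit 2) (nat_lit 8) (nat_lit 3) L113402 (by decide +kernel)
theorem L113404 : W_41 (nat_lit 5) (nat_lit 0x700010000800040000000a0007000000000000000) (nat_lit 0x0) (nat_lit 0x20001000100000c00700008000000) := T_41 (nat_lit 59) (nat_lit 80) (nat_lit 3) (nat_lit 8) (nat_lit 3) L113403 (by decide +kernel)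
theorem L113405 : W_41 (nat_lit 6) (nat_lit 0x300010000800040000000a0007000000000000000) (nat_lit 0x0) (nat_lit 0x800040000000000020001000100000c00700008000000) := T_41 (nat_lit 162) (nat_lit 179) (nat_lit 7) (nat_lit 8) (nat_lit 6) L113404 (by decide +kernel)
theorem L113406 : W_41 (nat_lit 7) (nat_lit 0x200010000800040000000a0007000000000000000) (nat_lit 0x0) (nat_lit 0xa00050000000000020001000100000c00700008000000) := T_41 (nat_lit 160) (nat_lit 177) (nat_lit 5) (nat_lit 8) (nat_lit 6) L113405 (by decide +kernel)
theorem L113407 : W_41 (nat_lit 2) (nat_lit 0x700010000800060000001a001f001080000000000) (nat_lit 0x0) (nat_lit 0x60002000000000000) := D_41 (nat_lit 65) (nat_lit 66) (nat_lit 49) (nat_lit 1) (nat_lit 15) (nat_lit 3) (nat_lit 2) (nat_lit 11) (nat_lit 3) (by decide +kernel)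
theorem L113408 : W_41 (nat_lit 3) (nat_lit 0x700010000800060000001a001f000080000000000) (nat_lit 0x0) (nat_lit 0x60003800000000000) := T_41 (nat_lit 48) (nat_lit 47) (nat_lit 2) (nat_lit 10) (nat_lit 3) L113407 (by decide +kernel)
theorem L113409 : W_41 (nat_lit 4) (nat_lit 0x600010000800060000001a001f000080000000000) (nat_lit 0x0) (nat_lit 0x200010000000000000000000000060003800000000000) := T_41 (nat_lit 160) (nat_lit 177) (nat_lit 5) (nat_lit 8) (nat_lit 6) L113408 (by decide +kernel)
theorem L113410 : W_41 (nat_lit 5) (nat_lit 0x600010000800060000001a000f000080000000000) (nat_lit 0x0) (nat_lit 0x200010000000000000000000000070003900000000000) := T_41 (nat_lit 64) (nat_lit 44) (nat_lit 0) (nat_lit 13) (nat_lit 3) L113409 (by decide +kernel)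
theorem L113411 : W_41 (nat_lit 6) (nat_lit 0x200010000800060000001a000f000080000000000) (nat_lit 0x0) (nat_lit 0xa00050000000000000000000000070003900000000000) := T_41 (nat_lit 162) (nat_lit 179) (nat_lit 7) (nat_lit 8) (nat_lit 6) L113410 (by decide +kernel)
theorem L113412 : W_41 (nat_lit 7) (nat_lit 0x200010000800060000001a000f000000000000000) (nat_lit 0x0) (nat_lit 0xa000500000000000000000000000700039c0000000000) := T_41 (nat_lit 43) (nat_lit 42) (nat_lit 0) (nat_lit 12) (nat_lit 3) L113411 (by decide +kernel)
theorem L113413 : W_41 (nat_lit 8) (nat_lit 0x200010000800040000001a000f000000000000000) (nat_lit 0x0) (nat_lit 0xa000500000000000020001000000700039c0000000000) := T_41 (nat_lit 109) (nat_lit 92) (nat_lit 4) (nat_lit 8) (nat_lit 9) L113412 (by decide +kernel)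
theorem L113414 : W_41 (nat_lit 9) (nat_lit 0x200010000800040000000a000f000000000000000) (nat_lit 0x0) (nat_lit 0xa000500000000000020001003000700039c0000000000) := T_41 (nat_lit 80) (nat_lit 81) (nat_lit 3) (nat_lit 9) (nat_lit 3) L113413 (by decide +kernel)
theorem L113415 : W_41 (nat_lit 2) (nat_lit 0x200010000800040020001e000f000000000000000) (nat_lit 0x0) (nat_lit 0x800040000000000000000200000000000) := D_41 (nat_lit 114) (nat_lit 45) (nat_lit 131) (nat_lit 4) (nat_lit 12) (nat_lit 6) (nat_lit 4) (nat_lit 12) (nat_lit 7) (by decide +kernel)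
theorem L113416 : W_41 (nat_lit 3) (nat_lit 0x200010000800040000001e000f000000000000000) (nat_lit 0x0) (nat_lit 0x800040006000000000000200000000000) := T_41 (nat_lit 97) (nat_lit 98) (nat_lit 3) (nat_lit 9) (nat_lit 4) L113415 (by decide +kernel)
theorem L113417 : W_41 (nat_lit 4) (nat_lit 0x200010000800040000001a000f000000000000000) (nat_lit 0x0) (nat_lit 0x800040006000040010000200000000000) := T_41 (nat_lit 78) (nat_lit 64) (nat_lit 2) (nat_lit 9) (nat_lit 4) L113416 (by decide +kernel)
theorem L113418 : W_41 (nat_lit 5) (nat_lit 0x200010000800040000000a000f000000000000000) (nat_lit 0x0) (nat_lit 0x800040006000340010000200000000000) := T_41 (nat_lit 80) (nat_lit 81) (nat_lit 3) (nat_lit 9) (nat_lit 3) L113417 (by decide +kernel)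
theorem L113419 : W_41 (nat_lit 2) (nat_lit 0x200010000800640010000a0005000200000000000) (nat_lit 0x0) (nat_lit 0x8000400020000000) := D_41 (nat_lit 46) (nat_lit 29) (nat_lit 63) (nat_lit 6) (nat_lit 11) (nat_lit 5) (nat_lit 6) (nat_lit 11) (nat_lit 6) (by decide +kernel)
theorem L113420 : W_41 (nat_lit 3) (nat_lit 0x200010000800640010000a0005000000000000000) (nat_lit 0x0) (nat_lit 0x2000000008000600020000000) := T_41 (nat_lit 45) (nat_lit 97) (nat_lit 7) (nat_lit 11) (nat_lit 2) L113419 (by decide +kernel)
theorem L113421 : W_41 (nat_lit 4) (nat_lit 0x200010000800240010000a0005000000000000000) (nat_lit 0x0) (nat_lit 0x800040002000000008000600020000000) := T_41 (nat_lit 114) (nat_lit 131) (nat_lit 7) (nat_lit 11) (nat_lit 3) L113420 (by decide +kernel)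
theorem L113422 : W_41 (nat_lit 2) (nat_lit 0x600010000800340010000a000d000200000000000) (nat_lit 0x0) (nat_lit 0x2000100008000000) := D_41 (nat_lit 44) (nat_lit 27) (nat_lit 61) (nat_lit 4) (nat_lit 11) (nat_lit 5) (nat_lit 4) (nat_lit 11) (nat_lit 6) (by decide +kernel)
theorem L113423 : W_41 (nat_lit 3) (nat_lit 0x600010000800340010000a000d000000000000000) (nat_lit 0x0) (nat_lit 0x800000002000300008000000) := T_41 (nat_lit 45) (nat_lit 95) (nat_lit 5) (nat_lit 11) (nat_lit 2) L113422 (by decide +kernel)
theorem L113424 : W_41 (nat_lit 4) (nat_lit 0x600010000800240010000a000d000000000000000) (nat_lit 0x0) (nat_lit 0x200010000800000002000300008000000) := T_41 (nat_lit 112) (nat_lit 129) (nat_lit 5) (nat_lit 11) (nat_lit 3) L113423 (by decide +kernel)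
theorem L113425 : W_41 (nat_lit 5) (nat_lit 0x200010000800240010000a000d000000000000000) (nat_lit 0x0) (nat_lit 0x800040000000200010000800000002000300008000000) := T_41 (nat_lit 162) (nat_lit 179) (nat_lit 7) (nat_lit 8) (nat_lit 6) L113424 (by decide +kernel)
theorem L113426 : W_41 (nat_lit 6) (nat_lit 0x200010000800240010000a0005000000000000000) (nat_lit 0x0) (nat_lit 0x80004000000020001000080000000a000700008000000) := T_41 (nat_lit 63) (nat_lit 46) (nat_lit 6) (nat_lit 11) (nat_lit 6) L113425 (by decide +kernel)
theorem L113427 : W_41 (nat_lit 9) (nat_lit 0x200010000800040010000a0005000000000000000) (nat_lit 0x0) (nat_lit 0xa00050004000f0007200290000000a000700028000000) := Q_41 (nat_lit 113) (C_41 L113378 (C_41 L113318 (C_41 L113421 (C_41 L113426 N_41)))) (by decide +kernel)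
theorem L113428 : W_41 (nat_lit 2) (nat_lit 0x300010000800040018000a0005000600010000000) (nat_lit 0x0) (nat_lit 0x100008000400) := D_41 (nat_lit 27) (nat_lit 10) (nat_lit 44) (nat_lit 4) (nat_lit 11) (nat_lit 4) (nat_lit 4) (nat_lit 11) (nat_lit 5) (by decide +kernel)
theorem L113429 : W_41 (nat_lit 3) (nat_lit 0x300010000800040018000a0005000600000000000) (nat_lit 0x0) (nat_lit 0x40000000100018000400) := T_41 (nat_lit 28) (nat_lit 78) (nat_lit 5) (nat_lit 11) (nat_lit 1) L113428 (by decide +kernel)
theorem L113430 : W_41 (nat_lit 4) (nat_lit 0x300010000800040010000a0005000600000000000) (nat_lit 0x0) (nat_lit 0x10000800040000000100018000400) := T_41 (nat_lit 95) (nat_lit 112) (nat_lit 5) (nat_lit 11) (nat_lit 2) L113429 (by decide +kernel)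
theorem L113431 : W_41 (nat_lit 5) (nat_lit 0x300010000800040010000a0005000200000000000) (nat_lit 0x0) (nat_lit 0x10000800040000000500038000400) := T_41 (nat_lit 46) (nat_lit 29) (nat_lit 6) (nat_lit 11) (nat_lit 5) L113430 (by decide +kernel)
theorem L113432 : W_41 (nat_lit 6) (nat_lit 0x200010000800040010000a0005000200000000000) (nat_lit 0x0) (nat_lit 0x200010000000000010000800040000000500038000400) := T_41 (nat_lit 160) (nat_lit 177) (nat_lit 5) (nat_lit 8) (nat_lit 6) L113431 (by decide +kernel)
theorem L113433 : W_41 (nat_lit 2) (nat_lit 0x300010000800040018000a0005000300010000000) (nat_lit 0x0) (nat_lit 0x40002000100000000000000000000) := D_41 (nat_lit 97) (nat_lit 114) (nat_lit 80) (nat_lit 7) (nat_lit 11) (nat_lit 2) (nat_lit 7) (nat_lit 11) (nat_lit 1) (by decide +kernel)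
theorem L113434 : W_41 (nat_lit 3) (nat_lit 0x300010000800040018000a0005000300000000000) (nat_lit 0x0) (nat_lit 0x40002000140000000000010000000) := T_41 (nat_lit 28) (nat_lit 78) (nat_lit 5) (nat_lit 11) (nat_lit 1) L113433 (by decide +kernel)
theorem L113435 : W_41 (nat_lit 4) (nat_lit 0x300010000800040010000a0005000300000000000) (nat_lit 0x0) (nat_lit 0x50002800140000000000010000000) := T_41 (nat_lit 95) (nat_lit 112) (nat_lit 5) (nat_lit 11) (nat_lit 2) L113434 (by decide +kernel)
theorem L113436 : W_41 (nat_lit 5) (nat_lit 0x200010000800040010000a0005000300000000000) (nat_lit 0x0) (nat_lit 0x200010000000000050002800140000000000010000000) := T_41 (nat_lit 160) (nat_lit 177) (nat_lit 5) (nat_lit 8) (nat_lit 6) L113435 (by decide +kernel)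
theorem L113437 : W_41 (nat_lit 6) (nat_lit 0x200010000800040010000a0005000200000000000) (nat_lit 0x0) (nat_lit 0x200010000000000050002800140000000100018000000) := T_41 (nat_lit 44) (nat_lit 27) (nat_lit 4) (nat_lit 11) (nat_lit 5) L113436 (by decide +kernel)
theorem L113438 : W_41 (nat_lit 2) (nat_lit 0x200010000800240030000a0005000700000000000) (nat_lit 0x0) (nat_lit 0x200010000800000000000000000000000) := D_41 (nat_lit 112) (nat_lit 129) (nat_lit 95) (nat_lit 5) (nat_lit 11) (nat_lit 3) (nat_lit 5) (nat_lit 11) (nat_lit 2) (by decide +kernel)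
theorem L113439 : W_41 (nat_lit 3) (nat_lit 0x200010000800040030000a0005000700000000000) (nat_lit 0x0) (nat_lit 0x200030000800000008000000000000000) := T_41 (nat_lit 113) (nat_lit 63) (nat_lit 6) (nat_lit 11) (nat_lit 6) L113438 (by decide +kernel)
theorem L113440 : W_41 (nat_lit 4) (nat_lit 0x200010000800040030000a0005000600000000000) (nat_lit 0x0) (nat_lit 0x200030000800000008000100008000000) := T_41 (nat_lit 44) (nat_lit 27) (nat_lit 4) (nat_lit 11) (nat_lit 5) L113439 (by decide +kernel)
theorem L113441 : W_41 (nat_lit 5) (nat_lit 0x200010000800040030000a0005000200000000000) (nat_lit 0x0) (nat_lit 0x200030000800000008000500028000000) := T_41 (nat_lit 46) (nat_lit 29) (nat_lit 6) (nat_lit 11) (nat_lit 5) L113440 (by decide +kernel)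
theorem L113442 : W_41 (nat_lit 6) (nat_lit 0x200010000800040010000a0005000200000000000) (nat_lit 0x0) (nat_lit 0x200070002800000008000500028000000) := T_41 (nat_lit 97) (nat_lit 114) (nat_lit 7) (nat_lit 11) (nat_lit 2) L113441 (by decide +kernel)
theorem L113443 : W_41 (nat_lit 7) (nat_lit 0x200010000800040010000a0005000000000000000) (nat_lit 0x0) (nat_lit 0xa00050000000200070002800140008000700038001400) := Q_41 (nat_lit 45) (C_41 L113356 (C_41 L113432 (C_41 L113352 (C_41 L113437 (C_41 L113442 N_41))))) (by decide +kernel)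
theorem L113444 : W_41 (nat_lit 2) (nat_lit 0x600010004800260010000a000d000000000000000) (nat_lit 0x0) (nat_lit 0x4000200010000000000000000000000000000) := D_41 (nat_lit 129) (nat_lit 146) (nat_lit 112) (nat_lit 5) (nat_lit 11) (nat_lit 4) (nat_lit 5) (nat_lit 11) (nat_lit 3) (by decide +kernel)
theorem L113445 : W_41 (nat_lit 3) (nat_lit 0x600010000800260010000a000d000000000000000) (nat_lit 0x0) (nat_lit 0x4000600010000000100000000000000000000) := T_41 (nat_lit 130) (nat_lit 80) (nat_lit 6) (nat_lit 11) (nat_lit 7) L113444 (by decide +kernel)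
theorem L113446 : W_41 (nat_lit 4) (nat_lit 0x200010000800260010000a000d000000000000000) (nat_lit 0x0) (nat_lit 0x800040004000600010000000100000000000000000000) := T_41 (nat_lit 162) (nat_lit 179) (nat_lit 7) (nat_lit 8) (nat_lit 6) L113445 (by decide +kernel)
theorem L113447 : W_41 (nat_lit 5) (nat_lit 0x200010000800260010000a0005000000000000000) (nat_lit 0x0) (nat_lit 0x800040004000600010000000100008000400000000000) := T_41 (nat_lit 63) (nat_lit 46) (nat_lit 6) (nat_lit 11) (nat_lit 6) L113446 (by decide +kernel)
theorem L113448 : W_41 (nat_lit 6) (nat_lit 0x200010000800240010000a0005000000000000000) (nat_lit 0x0) (nat_lit 0x800040004000600012000100100008000400000000000) := T_41 (nat_lit 109) (nat_lit 92) (nat_lit 4) (nat_lit 8) (nat_lit 9) L113447 (by decide +kernel)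
theorem L113449 : W_41 (nat_lit 9) (nat_lit 0x200010000800040010000a0005000000000000000) (nat_lit 0x0) (nat_lit 0x800040004000f0007200290010000a000700028000000) := Q_41 (nat_lit 113) (C_41 L113426 (C_41 L113421 (C_41 L113318 (C_41 L113448 N_41)))) (by decide +kernel)
theorem L113450 : W_41 (nat_lit 2) (nat_lit 0x300010000800340010000a000d000200000000000) (nat_lit 0x0) (nat_lit 0x2000100008000000) := D_41 (nat_lit 44) (nat_lit 27) (nat_lit 61) (nat_lit 4) (nat_lit 11) (nat_lit 5) (nat_lit 4) (nat_lit 11) (nat_lit 6) (by decide +kernel)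
theorem L113451 : W_41 (nat_lit 3) (nat_lit 0x300010000800340010000a000d000000000000000) (nat_lit 0x0) (nat_lit 0x800000002000300008000000) := T_41 (nat_lit 45) (nat_lit 95) (nat_lit 5) (nat_lit 11) (nat_lit 2) L113450 (by decide +kernel)
theorem L113452 : W_41 (nat_lit 4) (nat_lit 0x300010000800240010000a000d000000000000000) (nat_lit 0x0) (nat_lit 0x200010000800000002000300008000000) := T_41 (nat_lit 112) (nat_lit 129) (nat_lit 5) (nat_lit 11) (nat_lit 3) L113451 (by decide +kernel)
theorem L113453 : W_41 (nat_lit 5) (nat_lit 0x300010000800240010000a0005000000000000000) (nat_lit 0x0) (nat_lit 0x20001000080000000a000700008000000) := T_41 (nat_lit 63) (nat_lit 46) (nat_lit 6) (nat_lit 11) (nat_lit 6) L113452 (by decide +kernel)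
theorem L113454 : W_41 (nat_lit 6) (nat_lit 0x200010000800240010000a0005000000000000000) (nat_lit 0x0) (nat_lit 0x20001000000020001000080000000a000700008000000) := T_41 (nat_lit 160) (nat_lit 177) (nat_lit 5) (nat_lit 8) (nat_lit 6) L113453 (by decide +kernel)
theorem L113455 : W_41 (nat_lit 2) (nat_lit 0x200010000800640010000a0005000200000000000) (nat_lit 0x0) (nat_lit 0x2000100008000000) := D_41 (nat_lit 44) (nat_lit 61) (nat_lit 27) (nat_lit 4) (nat_lit 11) (nat_lit 6) (nat_lit 4) (nat_lit 11) (nat_lit 5) (by decide +kernel)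
theorem L113456 : W_41 (nat_lit 3) (nat_lit 0x200010000800640010000a0005000000000000000) (nat_lit 0x0) (nat_lit 0x2000000002000300008000000) := T_41 (nat_lit 45) (nat_lit 97) (nat_lit 7) (nat_lit 11) (nat_lit 2) L113455 (by decide +kernel)
theorem L113457 : W_41 (nat_lit 4) (nat_lit 0x200010000800240010000a0005000000000000000) (nat_lit 0x0) (nat_lit 0x800040002000000002000300008000000) := T_41 (nat_lit 114) (nat_lit 131) (nat_lit 7) (nat_lit 11) (nat_lit 3) L113456 (by decide +kernel)
theorem L113458 : W_41 (nat_lit 5) (nat_lit 0x300010000800240010000a0005000000000000000) (nat_lit 0x0) (nat_lit 0x10000e00050000000100008000400000000000) := T_41 (nat_lit 63) (nat_lit 46) (nat_lit 6) (nat_lit 11) (nat_lit 6) L113267 (by decide +kernel)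
theorem L113459 : W_41 (nat_lit 6) (nat_lit 0x200010000800240010000a0005000000000000000) (nat_lit 0x0) (nat_lit 0x200010010000e00050000000100008000400000000000) := T_41 (nat_lit 160) (nat_lit 177) (nat_lit 5) (nat_lit 8) (nat_lit 6) L113458 (by decide +kernel)
theorem L113460 : W_41 (nat_lit 7) (nat_lit 0x200010000800040010000a0005000000000000000) (nat_lit 0x0) (nat_lit 0x200010010000e0007000280010000a000700028000000) := Q_41 (nat_lit 113) (C_41 L113421 (C_41 L113454 (C_41 L113457 (C_41 L113459 N_41)))) (by decide +kernel)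
theorem L113461 : W_41 (nat_lit 2) (nat_lit 0x200010000800260010000a000f000000000000000) (nat_lit 0x0) (nat_lit 0x400000000000300000000000000000000) := D_41 (nat_lit 80) (nat_lit 81) (nat_lit 130) (nat_lit 3) (nat_lit 9) (nat_lit 3) (nat_lit 6) (nat_lit 11) (nat_lit 7) (by decide +kernel)
theorem L113462 : W_41 (nat_lit 3) (nat_lit 0x200010000800260010000a000d000000000000000) (nat_lit 0x0) (nat_lit 0x400000000000300002000100000000000) := T_41 (nat_lit 61) (nat_lit 44) (nat_lit 4) (nat_lit 11) (nat_lit 6) L113461 (by decide +kernel)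
theorem L113463 : W_41 (nat_lit 4) (nat_lit 0x200010000800260010000a0005000000000000000) (nat_lit 0x0) (nat_lit 0x40000000000030000a000500000000000) := T_41 (nat_lit 63) (nat_lit 46) (nat_lit 6) (nat_lit 11) (nat_lit 6) L113462 (by decide +kernel)
theorem L113464 : W_41 (nat_lit 5) (nat_lit 0x200010000800240010000a0005000000000000000) (nat_lit 0x0) (nat_lit 0x40000200010030000a000500000000000) := T_41 (nat_lit 109) (nat_lit 92) (nat_lit 4) (nat_lit 8) (nat_lit 9) L113463 (by decide +kernel)
theorem L113465 : W_41 (nat_lit 6) (nat_lit 0x200010000800040010000a0005000000000000000) (nat_lit 0x0) (nat_lit 0xc0006200210030000a000700028000000) := Q_41 (nat_lit 113) (C_41 L113457 (C_41 L113421 (C_41 L113464 N_41))) (by decide +kernel)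
theorem L113466 : W_41 (nat_lit 2) (nat_lit 0x300010000800040018000a0015000f80040000000) (nat_lit 0x0) (nat_lit 0x40000000000006000000) := D_41 (nat_lit 26) (nat_lit 78) (nat_lit 25) (nat_lit 7) (nat_lit 9) (nat_lit 1) (nat_lit 0) (nat_lit 12) (nat_lit 2) (by decide +kernel)
theorem L113467 : W_41 (nat_lit 3) (nat_lit 0x300010000800040018000a0015000f00040000000) (nat_lit 0x0) (nat_lit 0x40008000080006000000) := T_41 (nat_lit 43) (nat_lit 63) (nat_lit 3) (nat_lit 9) (nat_lit 2) L113466 (by decide +kernel)
theorem L113468 : W_41 (nat_lit 4) (nat_lit 0x300010000800040018000a0005000f00040000000) (nat_lit 0x0) (nat_lit 0x40038000080006000000) := T_41 (nat_lit 64) (nat_lit 65) (nat_lit 3) (nat_lit 10) (nat_lit 2) L113467 (by decide +kernel)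
theorem L113469 : W_41 (nat_lit 5) (nat_lit 0x300010000800040018000a0005000f00000000000) (nat_lit 0x0) (nat_lit 0x400380000800c6000000) := T_41 (nat_lit 30) (nat_lit 31) (nat_lit 2) (nat_lit 10) (nat_lit 2) L113468 (by decide +kernel)
theorem L113470 : W_41 (nat_lit 6) (nat_lit 0x300010000800040010000a0005000f00000000000) (nat_lit 0x0) (nat_lit 0x100008000400380000800c6000000) := T_41 (nat_lit 95) (nat_lit 112) (nat_lit 5) (nat_lit 11) (nat_lit 2) L113469 (by decide +kernel)
theorem L113471 : W_41 (nat_lit 7) (nat_lit 0x300010000800040010000a0005000700000000000) (nat_lit 0x0) (nat_lit 0x1000080004003a0008800c6000000) := T_41 (nat_lit 47) (nat_lit 61) (nat_lit 1) (nat_lit 13) (nat_lit 2) L113470 (by decide +kernel)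
theorem L113472 : W_41 (nat_lit 8) (nat_lit 0x300010000800040010000a0005000300000000000) (nat_lit 0x0) (nat_lit 0x1000080004003a000c800e6000000) := T_41 (nat_lit 46) (nat_lit 29) (nat_lit 6) (nat_lit 11) (nat_lit 5) L113471 (by decide +kernel)
theorem L113473 : W_41 (nat_lit 9) (nat_lit 0x300010000800040010000a0005000200000000000) (nat_lit 0x0) (nat_lit 0x1000080004003a000d800ee000000) := T_41 (nat_lit 44) (nat_lit 27) (nat_lit 4) (nat_lit 11) (nat_lit 5) L113472 (by decide +kernel)
theorem L113474 : W_41 (nat_lit 10) (nat_lit 0x200010000800040010000a0005000200000000000) (nat_lit 0x0) (nat_lit 0x20001000000000001000080004003a000d800ee000000) := T_41 (nat_lit 160) (nat_lit 177) (nat_lit 5) (nat_lit 8) (nat_lit 6) L113473 (by decide +kernel)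
theorem L113475 : W_41 (nat_lit 11) (nat_lit 0x200010000800040010000a0005000000000000000) (nat_lit 0x0) (nat_lit 0xa0005000000000005000280014003a000f800fe001400) := Q_41 (nat_lit 45) (C_41 L113356 (C_41 L113437 (C_41 L113432 (C_41 L113352 (C_41 L113474 N_41))))) (by decide +kernel)
theorem L113476 : W_41 (nat_lit 2) (nat_lit 0x200010000800260018000a0005000600000000000) (nat_lit 0x0) (nat_lit 0x2000100008000000) := D_41 (nat_lit 44) (nat_lit 61) (nat_lit 27) (nat_lit 4) (nat_lit 11) (nat_lit 6) (nat_lit 4) (nat_lit 11) (nat_lit 5) (by decide +kernel)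
theorem L113477 : W_41 (nat_lit 3) (nat_lit 0x200010000800060018000a0005000600000000000) (nat_lit 0x0) (nat_lit 0x2000000000000a000100008000000) := T_41 (nat_lit 113) (nat_lit 63) (nat_lit 6) (nat_lit 11) (nat_lit 6) L113476 (by decide +kernel)
theorem L113478 : W_41 (nat_lit 4) (nat_lit 0x200010000800060010000a0005000600000000000) (nat_lit 0x0) (nat_lit 0x3000080000000a000100008000000) := T_41 (nat_lit 95) (nat_lit 112) (nat_lit 5) (nat_lit 11) (nat_lit 2) L113477 (by decide +kernel)
theorem L113479 : W_41 (nat_lit 5) (nat_lit 0x200010000800060010000a0005000200000000000) (nat_lit 0x0) (nat_lit 0x3000080000000a000500028000000) := T_41 (nat_lit 46) (nat_lit 29) (nat_lit 6) (nat_lit 11) (nat_lit 5) L113478 (by decide +kernel)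
theorem L113480 : W_41 (nat_lit 6) (nat_lit 0x200010000800040010000a0005000200000000000) (nat_lit 0x0) (nat_lit 0x3200090000000a000500028000000) := T_41 (nat_lit 109) (nat_lit 92) (nat_lit 4) (nat_lit 8) (nat_lit 9) L113479 (by decide +kernel)
theorem L113481 : W_41 (nat_lit 2) (nat_lit 0x200010000800260010000a0005000300000000000) (nat_lit 0x0) (nat_lit 0x8000400020000000) := D_41 (nat_lit 46) (nat_lit 29) (nat_lit 63) (nat_lit 6) (nat_lit 11) (nat_lit 5) (nat_lit 6) (nat_lit 11) (nat_lit 6) (by decide +kernel)
theorem L113482 : W_41 (nat_lit 3) (nat_lit 0x200010000800060010000a0005000300000000000) (nat_lit 0x0) (nat_lit 0x2000000000000a000400020000000) := T_41 (nat_lit 113) (nat_lit 61) (nat_lit 4) (nat_lit 11) (nat_lit 6) L113481 (by decide +kernel)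
theorem L113483 : W_41 (nat_lit 4) (nat_lit 0x200010000800040010000a0005000300000000000) (nat_lit 0x0) (nat_lit 0x2200010000000a000400020000000) := T_41 (nat_lit 109) (nat_lit 92) (nat_lit 4) (nat_lit 8) (nat_lit 9) L113482 (by decide +kernel)
theorem L113484 : W_41 (nat_lit 5) (nat_lit 0x200010000800040010000a0005000200000000000) (nat_lit 0x0) (nat_lit 0x2200010000000a000500028000000) := T_41 (nat_lit 44) (nat_lit 27) (nat_lit 4) (nat_lit 11) (nat_lit 5) L113483 (by decide +kernel)
theorem L113485 : W_41 (nat_lit 2) (nat_lit 0x200010000800040018001a000500160001a000000) (nat_lit 0x0) (nat_lit 0x20000000000008000000000000800) := D_41 (nat_lit 63) (nat_lit 11) (nat_lit 113) (nat_lit 7) (nat_lit 11) (nat_lit 0) (nat_lit 6) (nat_lit 11) (nat_lit 6) (by decide +kernel)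
theorem L113486 : W_41 (nat_lit 3) (nat_lit 0x200010000800040018000a000500160001a000000) (nat_lit 0x0) (nat_lit 0x20002000100008000000000000800) := T_41 (nat_lit 80) (nat_lit 97) (nat_lit 7) (nat_lit 11) (nat_lit 1) L113485 (by decide +kernel)
theorem L113487 : W_41 (nat_lit 4) (nat_lit 0x200010000800040018000a000500060001a000000) (nat_lit 0x0) (nat_lit 0x20002000100008001800000000800) := T_41 (nat_lit 48) (nat_lit 47) (nat_lit 0) (nat_lit 14) (nat_lit 2) L113486 (by decide +kernel)
theorem L113488 : W_41 (nat_lit 5) (nat_lit 0x200010000800040018000a0005000600018000000) (nat_lit 0x0) (nat_lit 0x20002000100008001800006000800) := T_41 (nat_lit 25) (nat_lit 26) (nat_lit 3) (nat_lit 8) (nat_lit 1) L113487 (by decide +kernel)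
theorem L113489 : W_41 (nat_lit 6) (nat_lit 0x200010000800040018000a0005000600010000000) (nat_lit 0x0) (nat_lit 0x2000200010000800180000e000c00) := T_41 (nat_lit 27) (nat_lit 10) (nat_lit 4) (nat_lit 11) (nat_lit 4) L113488 (by decide +kernel)
theorem L113490 : W_41 (nat_lit 7) (nat_lit 0x200010000800040018000a0005000600000000000) (nat_lit 0x0) (nat_lit 0x2000200014000800180001e000c00) := T_41 (nat_lit 28) (nat_lit 78) (nat_lit 5) (nat_lit 11) (nat_lit 1) L113489 (by decide +kernel)
theorem L113491 : W_41 (nat_lit 8) (nat_lit 0x200010000800040010000a0005000600000000000) (nat_lit 0x0) (nat_lit 0x3000280014000800180001e000c00) := T_41 (nat_lit 95) (nat_lit 112) (nat_lit 5) (nat_lit 11) (nat_lit 2) L113490 (by decide +kernel)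
theorem L113492 : W_41 (nat_lit 9) (nat_lit 0x200010000800040010000a0005000200000000000) (nat_lit 0x0) (nat_lit 0x30002800140008001c0003e000c00) := T_41 (nat_lit 46) (nat_lit 29) (nat_lit 6) (nat_lit 11) (nat_lit 5) L113491 (by decide +kernel)
theorem L113493 : W_41 (nat_lit 2) (nat_lit 0x200010000800040018000a000d000600010000000) (nat_lit 0x0) (nat_lit 0x2000100000000000000000800) := D_41 (nat_lit 80) (nat_lit 97) (nat_lit 11) (nat_lit 7) (nat_lit 11) (nat_lit 1) (nat_lit 7) (nat_lit 11) (nat_lit 0) (by decide +kernel)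
theorem L113494 : W_41 (nat_lit 3) (nat_lit 0x200010000800040018000a0005000600010000000) (nat_lit 0x0) (nat_lit 0x20002000100008000000000000800) := T_41 (nat_lit 63) (nat_lit 113) (nat_lit 6) (nat_lit 11) (nat_lit 6) L113493 (by decide +kernel)
theorem L113495 : W_41 (nat_lit 4) (nat_lit 0x200010000800040018000a0005000600000000000) (nat_lit 0x0) (nat_lit 0x20002000140008000000010000800) := T_41 (nat_lit 28) (nat_lit 78) (nat_lit 5) (nat_lit 11) (nat_lit 1) L113494 (by decide +kernel)
theorem L113496 : W_41 (nat_lit 5) (nat_lit 0x200010000800040010000a0005000600000000000) (nat_lit 0x0) (nat_lit 0x30002800140008000000010000800) := T_41 (nat_lit 95) (nat_lit 112) (nat_lit 5) (nat_lit 11) (nat_lit 2) L113495 (by decide +kernel)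
theorem L113497 : W_41 (nat_lit 6) (nat_lit 0x200010000800040010000a0005000200000000000) (nat_lit 0x0) (nat_lit 0x30002800140008000400030000800) := T_41 (nat_lit 46) (nat_lit 29) (nat_lit 6) (nat_lit 11) (nat_lit 5) L113496 (by decide +kernel)
theorem L113498 : W_41 (nat_lit 2) (nat_lit 0x600010000800040018000a0005000200010000000) (nat_lit 0x0) (nat_lit 0x100008000400) := D_41 (nat_lit 27) (nat_lit 10) (nat_lit 44) (nat_lit 4) (nat_lit 11) (nat_lit 4) (nat_lit 4) (nat_lit 11) (nat_lit 5) (by decide +kernel)
theorem L113499 : W_41 (nat_lit 3) (nat_lit 0x600010000800040018000a0005000200000000000) (nat_lit 0x0) (nat_lit 0x40000000100018000400) := T_41 (nat_lit 28) (nat_lit 78) (nat_lit 5) (nat_lit 11) (nat_lit 1) L113498 (by decide +kernel)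
theorem L113500 : W_41 (nat_lit 4) (nat_lit 0x600010000800040010000a0005000200000000000) (nat_lit 0x0) (nat_lit 0x10000800040000000100018000400) := T_41 (nat_lit 95) (nat_lit 112) (nat_lit 5) (nat_lit 11) (nat_lit 2) L113499 (by decide +kernel)
theorem L113501 : W_41 (nat_lit 5) (nat_lit 0x200010000800040010000a0005000200000000000) (nat_lit 0x0) (nat_lit 0x800040000000000010000800040000000100018000400) := T_41 (nat_lit 162) (nat_lit 179) (nat_lit 7) (nat_lit 8) (nat_lit 6) L113500 (by decide +kernel)
theorem L113502 : W_41 (nat_lit 11) (nat_lit 0x200010000800040010000a0005000000000000000) (nat_lit 0x0) (nat_lit 0xa0005000000000003200290014003a001f800fe000c00) := Q_41 (nat_lit 45) (C_41 L113480 (C_41 L113484 (C_41 L113474 (C_41 L113432 (C_41 L113492 (C_41 L113497 (C_41 L113501 N_41))))))) (by decide +kernel)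
theorem L113503 : W_41 (nat_lit 2) (nat_lit 0x300010000800040010000a0005000700000000000) (nat_lit 0x0) (nat_lit 0x20000000000002000800000000000) := D_41 (nat_lit 61) (nat_lit 47) (nat_lit 113) (nat_lit 1) (nat_lit 13) (nat_lit 2) (nat_lit 4) (nat_lit 11) (nat_lit 6) (by decide +kernel)
theorem L113504 : W_41 (nat_lit 3) (nat_lit 0x300010000800040010000a0005000300000000000) (nat_lit 0x0) (nat_lit 0x20000000000002000c00020000000) := T_41 (nat_lit 46) (nat_lit 29) (nat_lit 6) (nat_lit 11) (nat_lit 5) L113503 (by decide +kernel)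
theorem L113505 : W_41 (nat_lit 4) (nat_lit 0x300010000800040010000a0005000200000000000) (nat_lit 0x0) (nat_lit 0x20000000000002000d00028000000) := T_41 (nat_lit 44) (nat_lit 27) (nat_lit 4) (nat_lit 11) (nat_lit 5) L113504 (by decide +kernel)
theorem L113506 : W_41 (nat_lit 5) (nat_lit 0x200010000800040010000a0005000200000000000) (nat_lit 0x0) (nat_lit 0x200010000000000020000000000002000d00028000000) := T_41 (nat_lit 160) (nat_lit 177) (nat_lit 5) (nat_lit 8) (nat_lit 6) L113505 (by decide +kernel)
theorem L113507 : W_41 (nat_lit 6) (nat_lit 0x200010000800040010000a0005000000000000000) (nat_lit 0x0) (nat_lit 0xa00050000000000070002800140002000f00038001400) := Q_41 (nat_lit 45) (C_41 L113356 (C_41 L113501 (C_41 L113352 (C_41 L113506 N_41)))) (by decide +kernel)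
theorem L113508 : W_41 (nat_lit 8) (nat_lit 0x200010000800040010000a0005000000000000000) (nat_lit 0x0) (nat_lit 0xa00050014000f00072002100100008000600020000000) := Q_41 (nat_lit 113) (C_41 L113459 (C_41 L113448 (C_41 L113421 (C_41 L113378 N_41)))) (by decide +kernel)
theorem L113509 : W_41 (nat_lit 8) (nat_lit 0x200010000800040010000a0005000000000000000) (nat_lit 0x0) (nat_lit 0xa00050014000f0007200090030000a000700008000000) := Q_41 (nat_lit 113) (C_41 L113464 (C_41 L113459 (C_41 L113454 (C_41 L113378 N_41)))) (by decide +kernel)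
theorem L113510 : W_41 (nat_lit 2) (nat_lit 0x600010000800360010001e000f000000000000000) (nat_lit 0x0) (nat_lit 0x8000000000000c0000000000) := D_41 (nat_lit 43) (nat_lit 95) (nat_lit 42) (nat_lit 4) (nat_lit 10) (nat_lit 6) (nat_lit 0) (nat_lit 12) (nat_lit 3) (by decide +kernel)
theorem L113511 : W_41 (nat_lit 3) (nat_lit 0x600010000800360010001a000f000000000000000) (nat_lit 0x0) (nat_lit 0x8000400100000c0000000000) := T_41 (nat_lit 78) (nat_lit 64) (nat_lit 2) (nat_lit 9) (nat_lit 4) L113510 (by decide +kernel)
theorem L113512 : W_41 (nat_lit 4) (nat_lit 0x600010000800360010000a000f000000000000000) (nat_lit 0x0) (nat_lit 0x8003400100000c0000000000) := T_41 (nat_lit 80) (nat_lit 81) (nat_lit 3) (nat_lit 9) (nat_lit 3) L113511 (by decide +kernel)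
theorem L113513 : W_41 (nat_lit 5) (nat_lit 0x600010000800360010000a000d000000000000000) (nat_lit 0x0) (nat_lit 0x8003400120001c0000000000) := T_41 (nat_lit 61) (nat_lit 44) (nat_lit 4) (nat_lit 11) (nat_lit 6) L113512 (by decide +kernel)
theorem L113514 : W_41 (nat_lit 6) (nat_lit 0x600010000800260010000a000d000000000000000) (nat_lit 0x0) (nat_lit 0x2000100008003400120001c0000000000) := T_41 (nat_lit 112) (nat_lit 129) (nat_lit 5) (nat_lit 11) (nat_lit 3) L113513 (by decide +kernel)
theorem L113515 : W_41 (nat_lit 7) (nat_lit 0x600010000800260010000a0005000000000000000) (nat_lit 0x0) (nat_lit 0x20001000080034001a0005c0000000000) := T_41 (nat_lit 63) (nat_lit 46) (nat_lit 6) (nat_lit 11) (nat_lit 6) L113514 (by decide +kernel)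
theorem L113516 : W_41 (nat_lit 8) (nat_lit 0x600010000800240010000a0005000000000000000) (nat_lit 0x0) (nat_lit 0x20001200090034001a0005c0000000000) := T_41 (nat_lit 109) (nat_lit 92) (nat_lit 4) (nat_lit 8) (nat_lit 9) L113515 (by decide +kernel)
theorem L113517 : W_41 (nat_lit 9) (nat_lit 0x200010000800240010000a0005000000000000000) (nat_lit 0x0) (nat_lit 0x80004000000020001200090034001a0005c0000000000) := T_41 (nat_lit 162) (nat_lit 179) (nat_lit 7) (nat_lit 8) (nat_lit 6) L113516 (by decide +kernel)
theorem L113518 : W_41 (nat_lit 10) (nat_lit 0x200010000800040010000a0005000000000000000) (nat_lit 0x0) (nat_lit 0xa00050014000f0007200090034001a0005c0000000000) := Q_41 (nat_lit 113) (C_41 L113464 (C_41 L113459 (C_41 L113517 (C_41 L113378 N_41)))) (by decide +kernel)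
theorem L113519 : W_41 (nat_lit 2) (nat_lit 0x300010000800340010000a0005000200000000000) (nat_lit 0x0) (nat_lit 0x2000100008000000) := D_41 (nat_lit 44) (nat_lit 27) (nat_lit 61) (nat_lit 4) (nat_lit 11) (nat_lit 5) (nat_lit 4) (nat_lit 11) (nat_lit 6) (by decide +kernel)
theorem L113520 : W_41 (nat_lit 3) (nat_lit 0x300010000800340010000a0005000000000000000) (nat_lit 0x0) (nat_lit 0x800000002000300008000000) := T_41 (nat_lit 45) (nat_lit 95) (nat_lit 5) (nat_lit 11) (nat_lit 2) L113519 (by decide +kernel)
theorem L113521 : W_41 (nat_lit 4) (nat_lit 0x300010000800240010000a0005000000000000000) (nat_lit 0x0) (nat_lit 0x200010000800000002000300008000000) := T_41 (nat_lit 112) (nat_lit 129) (nat_lit 5) (nat_lit 11) (nat_lit 3) L113520 (by decide +kernel)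
theorem L113522 : W_41 (nat_lit 5) (nat_lit 0x200010000800240010000a0005000000000000000) (nat_lit 0x0) (nat_lit 0x200010000000200010000800000002000300008000000) := T_41 (nat_lit 160) (nat_lit 177) (nat_lit 5) (nat_lit 8) (nat_lit 6) L113521 (by decide +kernel)
theorem L113523 : W_41 (nat_lit 8) (nat_lit 0x200010000800040010000a0005000000000000000) (nat_lit 0x0) (nat_lit 0xa00050004000f00072002900000002000300008000000) := Q_41 (nat_lit 113) (C_41 L113457 (C_41 L113378 (C_41 L113522 N_41))) (by decide +kernel)
theorem L113524 : W_41 (nat_lit 12) (nat_lit 0x200010000800040000000a0005000000000000000) (nat_lit 0x0) (nat_lit 0xa00050014000f0007200390034003a001fc00fe001c00) := Q_41 (nat_lit 96) (C_41 L113427 (C_41 L113443 (C_41 L113449 (C_41 L113460 (C_41 L113465 (C_41 L113475 (C_41 L113502 (C_41 L113507 (C_41 L113508 (C_41 L113509 (C_41 L113518 (C_41 L113523 N_41)))))))))))) (by decide +kernel)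
theorem L113525 : W_41 (nat_lit 12) (nat_lit 0x200010000800040000000a0007000000000000000) (nat_lit 0x0) (nat_lit 0x800040000000000012001900040018c00fe003f801f00) := Q_41 (nat_lit 78) (C_41 L112960 (C_41 L112560 (C_41 L112542 (C_41 L112955 (C_41 L112570 N_41))))) (by decide +kernel)
theorem L113526 : W_41 (nat_lit 12) (nat_lit 0x200010000800040000000a0007000000000000000) (nat_lit 0x0) (nat_lit 0xa00050000000000010000800040018c00fe003e001d00) := Q_41 (nat_lit 78) (C_41 L112963 (C_41 L112560 (C_41 L112542 (C_41 L112922 N_41)))) (by decide +kernel)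
theorem L113527 : W_41 (nat_lit 4) (nat_lit 0x300010000800040000000a0007000000000000000) (nat_lit 0x0) (nat_lit 0x140000c00070000000000) := T_41 (nat_lit 59) (nat_lit 80) (nat_lit 3) (nat_lit 8) (nat_lit 3) L113165 (by decide +kernel)
theorem L113528 : W_41 (nat_lit 5) (nat_lit 0x200010000800040000000a0007000000000000000) (nat_lit 0x0) (nat_lit 0x200010000000000000000000140000c00070000000000) := T_41 (nat_lit 160) (nat_lit 177) (nat_lit 5) (nat_lit 8) (nat_lit 6) L113527 (by decide +kernel)
theorem L113529 : W_41 (nat_lit 7) (nat_lit 0x200010000800040000001a0005000000000000000) (nat_lit 0x0) (nat_lit 0x80004000000080004000f00024001a000e00020001000) := Q_41 (nat_lit 78) (C_41 L113062 (C_41 L113057 (C_41 L112537 N_41))) (by decide +kernel)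
theorem L113530 : W_41 (nat_lit 5) (nat_lit 0x200010000800040000001a0005000000000000000) (nat_lit 0x0) (nat_lit 0xa0005000000000000000000060000a800000000000000) := T_41 (nat_lit 162) (nat_lit 179) (nat_lit 7) (nat_lit 8) (nat_lit 6) L113214 (by decide +kernel)
theorem L113531 : W_41 (nat_lit 2) (nat_lit 0x200010000800040000001a0005000000000000000) (nat_lit 0x0) (nat_lit 0x40002800000000000000) := D_41 (nat_lit 59) (nat_lit 61) (nat_lit 78) (nat_lit 3) (nat_lit 8) (nat_lit 3) (nat_lit 0) (nat_lit 12) (nat_lit 4) (by decide +kernel)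
theorem L113532 : W_41 (nat_lit 8) (nat_lit 0x200010000800040000000a0005000000000000000) (nat_lit 0x0) (nat_lit 0xa0005000000080004200f10074001a800e00020001000) := Q_41 (nat_lit 80) (C_41 L113255 (C_41 L113253 (C_41 L113529 (C_41 L113530 (C_41 L113531 N_41))))) (by decide +kernel)
theorem L113533 : W_41 (nat_lit 2) (nat_lit 0x200010000800060038001a0005000300000000000) (nat_lit 0x0) (nat_lit 0x400600000000000000000000) := D_41 (nat_lit 81) (nat_lit 94) (nat_lit 82) (nat_lit 2) (nat_lit 9) (nat_lit 5) (nat_lit 1) (nat_lit 14) (nat_lit 4) (by decide +kernel)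
theorem L113534 : W_41 (nat_lit 3) (nat_lit 0x200010000800060038000a0005000300000000000) (nat_lit 0x0) (nat_lit 0x400700000000000010000000) := T_41 (nat_lit 80) (nat_lit 28) (nat_lit 7) (nat_lit 11) (nat_lit 1) L113533 (by decide +kernel)
theorem L113535 : W_41 (nat_lit 4) (nat_lit 0x200010000800060018000a0005000300000000000) (nat_lit 0x0) (nat_lit 0x40002400700000000000010000000) := T_41 (nat_lit 97) (nat_lit 114) (nat_lit 7) (nat_lit 11) (nat_lit 2) L113534 (by decide +kernel)
theorem L113536 : W_41 (nat_lit 5) (nat_lit 0x200010000800060010000a0005000300000000000) (nat_lit 0x0) (nat_lit 0x50002c00700000000000010000000) := T_41 (nat_lit 95) (nat_lit 112) (nat_lit 5) (nat_lit 11) (nat_lit 2) L113535 (by decide +kernel)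
theorem L113537 : W_41 (nat_lit 6) (nat_lit 0x200010000800060010000a0005000200000000000) (nat_lit 0x0) (nat_lit 0x50002c00700000000100018000000) := T_41 (nat_lit 44) (nat_lit 27) (nat_lit 4) (nat_lit 11) (nat_lit 5) L113536 (by decide +kernel)
theorem L113538 : W_41 (nat_lit 7) (nat_lit 0x200010000800040010000a0005000200000000000) (nat_lit 0x0) (nat_lit 0x52002d00700000000100018000000) := T_41 (nat_lit 109) (nat_lit 92) (nat_lit 4) (nat_lit 8) (nat_lit 9) L113537 (by decide +kernel)
theorem L113539 : W_41 (nat_lit 8) (nat_lit 0x200010000800040000000a0005000200000000000) (nat_lit 0x0) (nat_lit 0x800040000000200072003d007000088005c003f001000) := Q_41 (nat_lit 96) (C_41 L113361 (C_41 L113442 (C_41 L113352 (C_41 L113538 N_41)))) (by decide +kernel)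
theorem L113540 : W_41 (nat_lit 2) (nat_lit 0x700010000800240010000a0005000600000000000) (nat_lit 0x0) (nat_lit 0x200010000800000000000000000000000) := D_41 (nat_lit 112) (nat_lit 129) (nat_lit 95) (nat_lit 5) (nat_lit 11) (nat_lit 3) (nat_lit 5) (nat_lit 11) (nat_lit 2) (by decide +kernel)
theorem L113541 : W_41 (nat_lit 3) (nat_lit 0x700010000800040010000a0005000600000000000) (nat_lit 0x0) (nat_lit 0x200030000800000008000000000000000) := T_41 (nat_lit 113) (nat_lit 63) (nat_lit 6) (nat_lit 11) (nat_lit 6) L113540 (by decide +kernel)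
theorem L113542 : W_41 (nat_lit 4) (nat_lit 0x300010000800040010000a0005000600000000000) (nat_lit 0x0) (nat_lit 0x800040000000200030000800000008000000000000000) := T_41 (nat_lit 162) (nat_lit 179) (nat_lit 7) (nat_lit 8) (nat_lit 6) L113541 (by decide +kernel)
theorem L113543 : W_41 (nat_lit 5) (nat_lit 0x300010000800040010000a0005000200000000000) (nat_lit 0x0) (nat_lit 0x800040000000200030000800000008000400020000000) := T_41 (nat_lit 46) (nat_lit 29) (nat_lit 6) (nat_lit 11) (nat_lit 5) L113542 (by decide +kernel)
theorem L113544 : W_41 (nat_lit 6) (nat_lit 0x200010000800040010000a0005000200000000000) (nat_lit 0x0) (nat_lit 0xa00050000000200030000800000008000400020000000) := T_41 (nat_lit 160) (nat_lit 177) (nat_lit 5) (nat_lit 8) (nat_lit 6) L113543 (by decide +kernel)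
theorem L113545 : W_41 (nat_lit 7) (nat_lit 0x200010000800040000000a0005000200000000000) (nat_lit 0x0) (nat_lit 0xa00050000000200070003c000400088005c003f000400) := Q_41 (nat_lit 96) (C_41 L113501 (C_41 L113442 (C_41 L113361 (C_41 L113544 N_41)))) (by decide +kernel)
theorem L113546 : W_41 (nat_lit 8) (nat_lit 0x200010000800040000000a0005000200000000000) (nat_lit 0x0) (nat_lit 0x200010000000000072003d007400088005c003f000c00) := Q_41 (nat_lit 96) (C_41 L113432 (C_41 L113538 (C_41 L113361 (C_41 L113497 N_41)))) (by decide +kernel)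
theorem L113547 : W_41 (nat_lit 2) (nat_lit 0x300010000800040030001a0005000300000000000) (nat_lit 0x0) (nat_lit 0x4000040000800000000000000) := D_41 (nat_lit 78) (nat_lit 98) (nat_lit 59) (nat_lit 3) (nat_lit 9) (nat_lit 4) (nat_lit 0) (nat_lit 12) (nat_lit 4) (by decide +kernel)
theorem L113548 : W_41 (nat_lit 3) (nat_lit 0x300010000800040030000a0005000300000000000) (nat_lit 0x0) (nat_lit 0x4000140000800000010000000) := T_41 (nat_lit 80) (nat_lit 28) (nat_lit 7) (nat_lit 11) (nat_lit 1) L113547 (by decide +kernel)
theorem L113549 : W_41 (nat_lit 4) (nat_lit 0x300010000800040010000a0005000300000000000) (nat_lit 0x0) (nat_lit 0x40006000140000800000010000000) := T_41 (nat_lit 97) (nat_lit 114) (nat_lit 7) (nat_lit 11) (nat_lit 2) L113548 (by decide +kernel)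
theorem L113550 : W_41 (nat_lit 5) (nat_lit 0x300010000800040010000a0005000200000000000) (nat_lit 0x0) (nat_lit 0x40006000140000800100018000000) := T_41 (nat_lit 44) (nat_lit 27) (nat_lit 4) (nat_lit 11) (nat_lit 5) L113549 (by decide +kernel)
theorem L113551 : W_41 (nat_lit 6) (nat_lit 0x200010000800040010000a0005000200000000000) (nat_lit 0x0) (nat_lit 0x200010000000000040006000140000800100018000000) := T_41 (nat_lit 160) (nat_lit 177) (nat_lit 5) (nat_lit 8) (nat_lit 6) L113550 (by decide +kernel)
theorem L113552 : W_41 (nat_lit 7) (nat_lit 0x200010000800040000000a0005000200000000000) (nat_lit 0x0) (nat_lit 0xa000500000000000400074001400008005c003f001400) := Q_41 (nat_lit 96) (C_41 L113361 (C_41 L113356 (C_41 L113352 (C_41 L113551 N_41)))) (by decide +kernel)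
theorem L113553 : W_41 (nat_lit 8) (nat_lit 0x200010000800040000000a0005000200000000000) (nat_lit 0x0) (nat_lit 0xa00050000000200072003d00700008000500038000400) := Q_41 (nat_lit 96) (C_41 L113544 (C_41 L113538 (C_41 L113356 N_41))) (by decide +kernel)
theorem L113554 : W_41 (nat_lit 7) (nat_lit 0x200010000800040000000a0005000200000000000) (nat_lit 0x0) (nat_lit 0xa00050000000200070007800140008800500038000400) := Q_41 (nat_lit 96) (C_41 L113544 (C_41 L113551 (C_41 L113501 N_41))) (by decide +kernel)
theorem L113555 : W_41 (nat_lit 2) (nat_lit 0x600010000800040000001e0005000200030000000) (nat_lit 0x0) (nat_lit 0x18000000000000800) := D_41 (nat_lit 63) (nat_lit 64) (nat_lit 11) (nat_lit 2) (nat_lit 9) (nat_lit 4) (nat_lit 7) (nat_lit 11) (nat_lit 0) (by decide +kernel)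
theorem L113556 : W_41 (nat_lit 3) (nat_lit 0x600010000800040000000e0005000200030000000) (nat_lit 0x0) (nat_lit 0x100018800000000000800) := T_41 (nat_lit 80) (nat_lit 59) (nat_lit 0) (nat_lit 12) (nat_lit 4) L113555 (by decide +kernel)
theorem L113557 : W_41 (nat_lit 4) (nat_lit 0x600010000800040000000a0005000200030000000) (nat_lit 0x0) (nat_lit 0x800140018800000000000800) := T_41 (nat_lit 78) (nat_lit 95) (nat_lit 5) (nat_lit 11) (nat_lit 1) L113556 (by decide +kernel)
theorem L113558 : W_41 (nat_lit 5) (nat_lit 0x600010000800040000000a0005000200010000000) (nat_lit 0x0) (nat_lit 0x800140018800000020001800) := T_41 (nat_lit 29) (nat_lit 12) (nat_lit 6) (nat_lit 11) (nat_lit 4) L113557 (by decide +kernel)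
theorem L113559 : W_41 (nat_lit 6) (nat_lit 0x200010000800040000000a0005000200010000000) (nat_lit 0x0) (nat_lit 0x800040000000000000000800140018800000020001800) := T_41 (nat_lit 162) (nat_lit 179) (nat_lit 7) (nat_lit 8) (nat_lit 6) L113558 (by decide +kernel)
theorem L113560 : W_41 (nat_lit 2) (nat_lit 0x600010000800060000001a000d000200018000000) (nat_lit 0x0) (nat_lit 0x40010800000000000000) := D_41 (nat_lit 78) (nat_lit 59) (nat_lit 64) (nat_lit 0) (nat_lit 12) (nat_lit 4) (nat_lit 2) (nat_lit 9) (nat_lit 4) (by decide +kernel)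
theorem L113561 : W_41 (nat_lit 3) (nat_lit 0x600010000800060000001a0005000200018000000) (nat_lit 0x0) (nat_lit 0x40018800000000000800) := T_41 (nat_lit 63) (nat_lit 11) (nat_lit 7) (nat_lit 11) (nat_lit 0) L113560 (by decide +kernel)
theorem L113562 : W_41 (nat_lit 4) (nat_lit 0x600010000800060000000a0005000200018000000) (nat_lit 0x0) (nat_lit 0x2000140018800000000000800) := T_41 (nat_lit 80) (nat_lit 97) (nat_lit 7) (nat_lit 11) (nat_lit 1) L113561 (by decide +kernel)
theorem L113563 : W_41 (nat_lit 5) (nat_lit 0x600010000800060000000a0005000200010000000) (nat_lit 0x0) (nat_lit 0x2000140018800000008000c00) := T_41 (nat_lit 27) (nat_lit 10) (nat_lit 4) (nat_lit 11) (nat_lit 4) L113562 (by decide +kernel)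
theorem L113564 : W_41 (nat_lit 6) (nat_lit 0x200010000800060000000a0005000200010000000) (nat_lit 0x0) (nat_lit 0x800040000000000000002000140018800000008000c00) := T_41 (nat_lit 162) (nat_lit 179) (nat_lit 7) (nat_lit 8) (nat_lit 6) L113563 (by decide +kernel)
theorem L113565 : W_41 (nat_lit 7) (nat_lit 0x200010000800040000000a0005000200010000000) (nat_lit 0x0) (nat_lit 0x800040000000000002002100140018800000008000c00) := T_41 (nat_lit 109) (nat_lit 92) (nat_lit 4) (nat_lit 8) (nat_lit 9) L113564 (by decide +kernel)
theorem L113566 : W_41 (nat_lit 2) (nat_lit 0x700010000800040000001e0005000200010000000) (nat_lit 0x0) (nat_lit 0x18000000000000800) := D_41 (nat_lit 63) (nat_lit 64) (nat_lit 11) (nat_lit 2) (nat_lit 9) (nat_lit 4) (nat_lit 7) (nat_lit 11) (nat_lit 0) (by decide +kernel)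
theorem L113567 : W_41 (nat_lit 3) (nat_lit 0x700010000800040000001e0005000200000000000) (nat_lit 0x0) (nat_lit 0x800000018000000010000800) := T_41 (nat_lit 28) (nat_lit 95) (nat_lit 5) (nat_lit 11) (nat_lit 1) L113566 (by decide +kernel)
theorem L113568 : W_41 (nat_lit 4) (nat_lit 0x600010000800040000001e0005000200000000000) (nat_lit 0x0) (nat_lit 0x200010000000000000000800000018000000010000800) := T_41 (nat_lit 160) (nat_lit 177) (nat_lit 5) (nat_lit 8) (nat_lit 6) L113567 (by decide +kernel)
theorem L113569 : W_41 (nat_lit 5) (nat_lit 0x600010000800040000001a0005000200000000000) (nat_lit 0x0) (nat_lit 0x200010000000000000000800040018800000010000800) := T_41 (nat_lit 78) (nat_lit 59) (nat_lit 0) (nat_lit 12) (nat_lit 4) L113568 (by decide +kernel)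
theorem L113570 : W_41 (nat_lit 6) (nat_lit 0x200010000800040000001a0005000200000000000) (nat_lit 0x0) (nat_lit 0xa00050000000000000000800040018800000010000800) := T_41 (nat_lit 162) (nat_lit 179) (nat_lit 7) (nat_lit 8) (nat_lit 6) L113569 (by decide +kernel)
theorem L113571 : W_41 (nat_lit 2) (nat_lit 0x300010000800040000001a0005000200010000000) (nat_lit 0x0) (nat_lit 0x800040000800000000000000) := D_41 (nat_lit 78) (nat_lit 59) (nat_lit 95) (nat_lit 0) (nat_lit 12) (nat_lit 4) (nat_lit 5) (nat_lit 11) (nat_lit 1) (by decide +kernel)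
theorem L113572 : W_41 (nat_lit 3) (nat_lit 0x300010000800040000001a0005000200000000000) (nat_lit 0x0) (nat_lit 0x2800040000800000010000000) := T_41 (nat_lit 28) (nat_lit 97) (nat_lit 7) (nat_lit 11) (nat_lit 1) L113571 (by decide +kernel)
theorem L113573 : W_41 (nat_lit 4) (nat_lit 0x200010000800040000001a0005000200000000000) (nat_lit 0x0) (nat_lit 0x200010000000000000002800040000800000010000000) := T_41 (nat_lit 160) (nat_lit 177) (nat_lit 5) (nat_lit 8) (nat_lit 6) L113572 (by decide +kernel)
theorem L113574 : W_41 (nat_lit 2) (nat_lit 0x700010000800060020001e0005000200000000000) (nat_lit 0x0) (nat_lit 0x40000000000018000000000000000) := D_41 (nat_lit 63) (nat_lit 64) (nat_lit 114) (nat_lit 2) (nat_lit 9) (nat_lit 4) (nat_lit 4) (nat_lit 12) (nat_lit 6) (by decide +kernel)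
theorem L113575 : W_41 (nat_lit 3) (nat_lit 0x700010000800060000001e0005000200000000000) (nat_lit 0x0) (nat_lit 0x40006000000018000000000000000) := T_41 (nat_lit 97) (nat_lit 98) (nat_lit 3) (nat_lit 9) (nat_lit 4) L113574 (by decide +kernel)
theorem L113576 : W_41 (nat_lit 4) (nat_lit 0x700010000800040000001e0005000200000000000) (nat_lit 0x0) (nat_lit 0x42006100000018000000000000000) := T_41 (nat_lit 109) (nat_lit 92) (nat_lit 4) (nat_lit 8) (nat_lit 9) L113575 (by decide +kernel)
theorem L113577 : W_41 (nat_lit 5) (nat_lit 0x700010000800040000001a0005000200000000000) (nat_lit 0x0) (nat_lit 0x42006100040018800000000000000) := T_41 (nat_lit 78) (nat_lit 59) (nat_lit 0) (nat_lit 12) (nat_lit 4) L113576 (by decide +kernel)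
theorem L113578 : W_41 (nat_lit 6) (nat_lit 0x600010000800040000001a0005000200000000000) (nat_lit 0x0) (nat_lit 0x200010000000000042006100040018800000000000000) := T_41 (nat_lit 160) (nat_lit 177) (nat_lit 5) (nat_lit 8) (nat_lit 6) L113577 (by decide +kernel)
theorem L113579 : W_41 (nat_lit 7) (nat_lit 0x200010000800040000001a0005000200000000000) (nat_lit 0x0) (nat_lit 0xa00050000000000042006100040018800000000000000) := T_41 (nat_lit 162) (nat_lit 179) (nat_lit 7) (nat_lit 8) (nat_lit 6) L113578 (by decide +kernel)
theorem L113580 : W_41 (nat_lit 8) (nat_lit 0x200010000800040000000a0005000200000000000) (nat_lit 0x0) (nat_lit 0xa00050000000800042006900140018800000010000800) := Q_41 (nat_lit 80) (C_41 L113212 (C_41 L113570 (C_41 L113573 (C_41 L113579 N_41)))) (by decide +kernel)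
theorem L113581 : W_41 (nat_lit 4) (nat_lit 0x200010000800060000001a0005000200030000000) (nat_lit 0x0) (nat_lit 0x1000000008000500008000c00) := T_41 (nat_lit 11) (nat_lit 63) (nat_lit 7) (nat_lit 11) (nat_lit 0) L112757 (by decide +kernel)
theorem L113582 : W_41 (nat_lit 5) (nat_lit 0x200010000800060000000a0005000200030000000) (nat_lit 0x0) (nat_lit 0x3000100008000500008000c00) := T_41 (nat_lit 80) (nat_lit 97) (nat_lit 7) (nat_lit 11) (nat_lit 1) L113581 (by decide +kernel)
theorem L113583 : W_41 (nat_lit 6) (nat_lit 0x200010000800060000000a0005000200010000000) (nat_lit 0x0) (nat_lit 0x3000100008000500028001c00) := T_41 (nat_lit 29) (nat_lit 12) (nat_lit 6) (nat_lit 11) (nat_lit 4) L113582 (by decide +kernel)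
theorem L113584 : W_41 (nat_lit 7) (nat_lit 0x200010000800040000000a0005000200010000000) (nat_lit 0x0) (nat_lit 0x2003100100008000500028001c00) := T_41 (nat_lit 109) (nat_lit 92) (nat_lit 4) (nat_lit 8) (nat_lit 9) L113583 (by decide +kernel)
theorem L113585 : W_41 (nat_lit 2) (nat_lit 0x200010000800060010000a0005000200030000000) (nat_lit 0x0) (nat_lit 0x10000800040000000000000000000) := D_41 (nat_lit 95) (nat_lit 112) (nat_lit 78) (nat_lit 5) (nat_lit 11) (nat_lit 2) (nat_lit 5) (nat_lit 11) (nat_lit 1) (by decide +kernel)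
theorem L113586 : W_41 (nat_lit 3) (nat_lit 0x200010000800060000000a0005000200030000000) (nat_lit 0x0) (nat_lit 0x10001800040000000400000000000) := T_41 (nat_lit 96) (nat_lit 46) (nat_lit 6) (nat_lit 11) (nat_lit 5) L113585 (by decide +kernel)
theorem L113587 : W_41 (nat_lit 4) (nat_lit 0x200010000800040000000a0005000200030000000) (nat_lit 0x0) (nat_lit 0x12001900040000000400000000000) := T_41 (nat_lit 109) (nat_lit 92) (nat_lit 4) (nat_lit 8) (nat_lit 9) L113586 (by decide +kernel)
theorem L113588 : W_41 (nat_lit 5) (nat_lit 0x200010000800040000000a0005000200010000000) (nat_lit 0x0) (nat_lit 0x12001900040000000400020001000) := T_41 (nat_lit 29) (nat_lit 12) (nat_lit 6) (nat_lit 11) (nat_lit 4) L113587 (by decide +kernel)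
theorem L113589 : W_41 (nat_lit 8) (nat_lit 0x200010000800040000000a0005000200000000000) (nat_lit 0x0) (nat_lit 0x800040000000000012003900140018800500038001c00) := Q_41 (nat_lit 28) (C_41 L113584 (C_41 L113559 (C_41 L113588 (C_41 L113565 N_41)))) (by decide +kernel)
theorem L113590 : W_41 (nat_lit 7) (nat_lit 0x200010000800040000000a0005000200000000000) (nat_lit 0x0) (nat_lit 0xa00050000000200030001c000400088005c003f000400) := Q_41 (nat_lit 96) (C_41 L113544 (C_41 L113501 (C_41 L113432 (C_41 L113361 N_41)))) (by decide +kernel)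
theorem L113591 : W_41 (nat_lit 2) (nat_lit 0x700010000801060078004a0005000300000000000) (nat_lit 0x0) (nat_lit 0x200008000800000000000000000000) := D_41 (nat_lit 99) (nat_lit 117) (nat_lit 83) (nat_lit 3) (nat_lit 11) (nat_lit 5) (nat_lit 2) (nat_lit 11) (nat_lit 5) (by decide +kernel)
theorem L113592 : W_41 (nat_lit 3) (nat_lit 0x700010000801060078000a0005000300000000000) (nat_lit 0x0) (nat_lit 0x200008000e00000000000000000000) := T_41 (nat_lit 82) (nat_lit 81) (nat_lit 2) (nat_lit 10) (nat_lit 5) L113591 (by decide +kernel)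
theorem L113593 : W_41 (nat_lit 4) (nat_lit 0x700010000800060078000a0005000300000000000) (nat_lit 0x0) (nat_lit 0x380008000e00000000000000000000) := T_41 (nat_lit 116) (nat_lit 115) (nat_lit 3) (nat_lit 10) (nat_lit 5) L113592 (by decide +kernel)
theorem L113594 : W_41 (nat_lit 5) (nat_lit 0x700010000800060038000a0005000300000000000) (nat_lit 0x0) (nat_lit 0x38000c000e40000000000000000000) := T_41 (nat_lit 98) (nat_lit 78) (nat_lit 0) (nat_lit 13) (nat_lit 5) L113593 (by decide +kernel)
theorem L113595 : W_41 (nat_lit 6) (nat_lit 0x700010000800060018000a0005000300000000000) (nat_lit 0x0) (nat_lit 0x3c000e000e40000000000000000000) := T_41 (nat_lit 97) (nat_lit 114) (nat_lit 7) (nat_lit 11) (nat_lit 2) L113594 (by decide +kernel)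
theorem L113596 : W_41 (nat_lit 7) (nat_lit 0x300010000800060018000a0005000300000000000) (nat_lit 0x0) (nat_lit 0x8000400000000003c000e000e40000000000000000000) := T_41 (nat_lit 162) (nat_lit 179) (nat_lit 7) (nat_lit 8) (nat_lit 6) L113595 (by decide +kernel)
theorem L113597 : W_41 (nat_lit 8) (nat_lit 0x300010000800060018000a0005000200000000000) (nat_lit 0x0) (nat_lit 0x8000400000000003c000e000e40000000100008000000) := T_41 (nat_lit 44) (nat_lit 27) (nat_lit 4) (nat_lit 11) (nat_lit 5) L113596 (by decide +kernel)
theorem L113598 : W_41 (nat_lit 9) (nat_lit 0x200010000800060018000a0005000200000000000) (nat_lit 0x0) (nat_lit 0xa000500000000003c000e000e40000000100008000000) := T_41 (nat_lit 160) (nat_lit 177) (nat_lit 5) (nat_lit 8) (nat_lit 6) L113597 (by decide +kernel)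
theorem L113599 : W_41 (nat_lit 10) (nat_lit 0x200010000800060010000a0005000200000000000) (nat_lit 0x0) (nat_lit 0xa000500000000003d000e800e40000000100008000000) := T_41 (nat_lit 95) (nat_lit 112) (nat_lit 5) (nat_lit 11) (nat_lit 2) L113598 (by decide +kernel)
theorem L113600 : W_41 (nat_lit 11) (nat_lit 0x200010000800040010000a0005000200000000000) (nat_lit 0x0) (nat_lit 0xa000500000000003d200e900e40000000100008000000) := T_41 (nat_lit 109) (nat_lit 92) (nat_lit 4) (nat_lit 8) (nat_lit 9) L113599 (by decide +kernel)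
theorem L113601 : W_41 (nat_lit 12) (nat_lit 0x200010000800040000000a0005000200000000000) (nat_lit 0x0) (nat_lit 0xa000500000002003f200fd00e400088005c002f000000) := Q_41 (nat_lit 96) (C_41 L113544 (C_41 L113442 (C_41 L113361 (C_41 L113600 N_41)))) (by decide +kernel)
theorem L113602 : W_41 (nat_lit 13) (nat_lit 0x200010000800040000000a0005000000000000000) (nat_lit 0x0) (nat_lit 0xa00050000000a003f200fd00f400188007c003f001c00) := Q_41 (nat_lit 45) (C_41 L113539 (C_41 L113545 (C_41 L113546 (C_41 L113552 (C_41 L113553 (C_41 L113554 (C_41 L113580 (C_41 L113589 (C_41 L113590 (C_41 L113601 N_41)))))))))) (by decide +kernel)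
theorem L113603 : W_41 (nat_lit 2) (nat_lit 0x200010000800040000000a000f000800000000000) (nat_lit 0x0) (nat_lit 0x40010001000000000000) := D_41 (nat_lit 64) (nat_lit 78) (nat_lit 48) (nat_lit 1) (nat_lit 13) (nat_lit 3) (nat_lit 2) (nat_lit 10) (nat_lit 3) (by decide +kernel)
theorem L113604 : W_41 (nat_lit 3) (nat_lit 0x200010000800040000000a000f000000000000000) (nat_lit 0x0) (nat_lit 0x40010001c00000000000) := T_41 (nat_lit 47) (nat_lit 46) (nat_lit 2) (nat_lit 9) (nat_lit 3) L113603 (by decide +kernel)
theorem L113605 : W_41 (nat_lit 2) (nat_lit 0x700010000800040000004a001f001000000000000) (nat_lit 0x0) (nat_lit 0x800020002000000000000) := D_41 (nat_lit 65) (nat_lit 49) (nat_lit 83) (nat_lit 2) (nat_lit 11) (nat_lit 3) (nat_lit 3) (nat_lit 11) (nat_lit 3) (by decide +kernel)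
theorem L113606 : W_41 (nat_lit 3) (nat_lit 0x700010000800040000000a001f001000000000000) (nat_lit 0x0) (nat_lit 0xe00020002000000000000) := T_41 (nat_lit 82) (nat_lit 81) (nat_lit 3) (nat_lit 10) (nat_lit 3) L113605 (by decide +kernel)
theorem L113607 : W_41 (nat_lit 4) (nat_lit 0x700010000800040000000a001f000000000000000) (nat_lit 0x0) (nat_lit 0xe00020003800000000000) := T_41 (nat_lit 48) (nat_lit 47) (nat_lit 2) (nat_lit 10) (nat_lit 3) L113606 (by decide +kernel)
theorem L113608 : W_41 (nat_lit 5) (nat_lit 0x600010000800040000000a001f000000000000000) (nat_lit 0x0) (nat_lit 0x200010000000000000000000e00020003800000000000) := T_41 (nat_lit 160) (nat_lit 177) (nat_lit 5) (nat_lit 8) (nat_lit 6) L113607 (by decide +kernel)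
theorem L113609 : W_41 (nat_lit 6) (nat_lit 0x600010000800040000000a000f000000000000000) (nat_lit 0x0) (nat_lit 0x200010000000000000000000e40030003800000000000) := T_41 (nat_lit 64) (nat_lit 78) (nat_lit 1) (nat_lit 13) (nat_lit 3) L113608 (by decide +kernel)
theorem L113610 : W_41 (nat_lit 7) (nat_lit 0x200010000800040000000a000f000000000000000) (nat_lit 0x0) (nat_lit 0xa00050000000000000000000e40030003800000000000) := T_41 (nat_lit 162) (nat_lit 179) (nat_lit 7) (nat_lit 8) (nat_lit 6) L113609 (by decide +kernel)
theorem L113611 : W_41 (nat_lit 6) (nat_lit 0x300010000800060000000a0007800240002000000) (nat_lit 0x0) (nat_lit 0x800040000000000000000c00040000000180031000800) := T_41 (nat_lit 162) (nat_lit 179) (nat_lit 7) (nat_lit 8) (nat_lit 6) L112777 (by decide +kernel)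
theorem L113612 : W_41 (nat_lit 7) (nat_lit 0x300010000800060000000a0007800240000000000) (nat_lit 0x0) (nat_lit 0x800040000000000000000c00040000000180033000900) := T_41 (nat_lit 25) (nat_lit 8) (nat_lit 7) (nat_lit 8) (nat_lit 0) L113611 (by decide +kernel)
theorem L113613 : W_41 (nat_lit 8) (nat_lit 0x300010000800040000000a0007800240000000000) (nat_lit 0x0) (nat_lit 0x800040000000000002000d00040000000180033000900) := T_41 (nat_lit 109) (nat_lit 92) (nat_lit 4) (nat_lit 8) (nat_lit 9) L113612 (by decide +kernel)
theorem L113614 : W_41 (nat_lit 9) (nat_lit 0x300010000800040000000a0007800200000000000) (nat_lit 0x0) (nat_lit 0x800040000000000002000d000400000001e0033000900) := T_41 (nat_lit 42) (nat_lit 41) (nat_lit 0) (nat_lit 11) (nat_lit 3) L113613 (by decide +kernel)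
theorem L113615 : W_41 (nat_lit 10) (nat_lit 0x300010000800040000000a0007800000000000000) (nat_lit 0x0) (nat_lit 0x800040000000000002000d000400000007e0033000900) := T_41 (nat_lit 45) (nat_lit 46) (nat_lit 2) (nat_lit 8) (nat_lit 3) L113614 (by decide +kernel)
theorem L113616 : W_41 (nat_lit 11) (nat_lit 0x200010000800040000000a0007800000000000000) (nat_lit 0x0) (nat_lit 0xa00050000000000002000d000400000007e0033000900) := T_41 (nat_lit 160) (nat_lit 177) (nat_lit 5) (nat_lit 8) (nat_lit 6) L113615 (by decide +kernel)
theorem L113617 : W_41 (nat_lit 4) (nat_lit 0x200010000800040000000a0007800000000000000) (nat_lit 0x0) (nat_lit 0x800040000000000000000000040000400070000000000) := T_41 (nat_lit 162) (nat_lit 179) (nat_lit 7) (nat_lit 8) (nat_lit 6) L112769 (by decide +kernel)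
theorem L113618 : W_41 (nat_lit 2) (nat_lit 0x300010000800040000000a001f000080000000000) (nat_lit 0x0) (nat_lit 0x1c00000000000) := D_41 (nat_lit 47) (nat_lit 46) (nat_lit 48) (nat_lit 2) (nat_lit 9) (nat_lit 3) (nat_lit 2) (nat_lit 10) (nat_lit 3) (by decide +kernel)
theorem L113619 : W_41 (nat_lit 3) (nat_lit 0x300010000800040000000a000f000080000000000) (nat_lit 0x0) (nat_lit 0x10001d00000000000) := T_41 (nat_lit 64) (nat_lit 44) (nat_lit 0) (nat_lit 13) (nat_lit 3) L113618 (by decide +kernel)
theorem L113620 : W_41 (nat_lit 4) (nat_lit 0x200010000800040000000a000f000080000000000) (nat_lit 0x0) (nat_lit 0x200010000000000000000000000010001d00000000000) := T_41 (nat_lit 160) (nat_lit 177) (nat_lit 5) (nat_lit 8) (nat_lit 6) L113619 (by decide +kernel)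
theorem L113621 : W_41 (nat_lit 5) (nat_lit 0x200010000800040000000a000f000000000000000) (nat_lit 0x0) (nat_lit 0x200010000000000000000000000010001dc0000000000) := T_41 (nat_lit 43) (nat_lit 42) (nat_lit 0) (nat_lit 12) (nat_lit 3) L113620 (by decide +kernel)
theorem L113622 : W_41 (nat_lit 4) (nat_lit 0x200010000800040000000a0007800000000000000) (nat_lit 0x0) (nat_lit 0x200010000000000000000000040000400070000000000) := T_41 (nat_lit 160) (nat_lit 177) (nat_lit 5) (nat_lit 8) (nat_lit 6) L113165 (by decide +kernel)
theorem L113623 : W_41 (nat_lit 7) (nat_lit 0x200010000800060000000a0007e00010000000000) (nat_lit 0x0) (nat_lit 0x15c001c00040007000100000000000000) := T_41 (nat_lit 73) (nat_lit 74) (nat_lit 1) (nat_lit 9) (nat_lit 3) L113400 (by decide +kernel)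
theorem L113624 : W_41 (nat_lit 8) (nat_lit 0x200010000800060000000a0007c00010000000000) (nat_lit 0x0) (nat_lit 0x15c001c00040007000300008000000000) := T_41 (nat_lit 57) (nat_lit 39) (nat_lit 0) (nat_lit 9) (nat_lit 3) L113623 (by decide +kernel)
theorem L113625 : W_41 (nat_lit 9) (nat_lit 0x200010000800040000000a0007c00010000000000) (nat_lit 0x0) (nat_lit 0x15c003c00140007000300008000000000) := T_41 (nat_lit 109) (nat_lit 92) (nat_lit 4) (nat_lit 8) (nat_lit 9) L113624 (by decide +kernel)
theorem L113626 : W_41 (nat_lit 10) (nat_lit 0x200010000800040000000a0007c00000000000000) (nat_lit 0x0) (nat_lit 0x15c003c00140007000300038000000000) := T_41 (nat_lit 40) (nat_lit 41) (nat_lit 0) (nat_lit 10) (nat_lit 3) L113625 (by decide +kernel)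
theorem L113627 : W_41 (nat_lit 11) (nat_lit 0x200010000800040000000a0007800000000000000) (nat_lit 0x0) (nat_lit 0x15c003c00140047000700038000000000) := T_41 (nat_lit 58) (nat_lit 78) (nat_lit 3) (nat_lit 7) (nat_lit 3) L113626 (by decide +kernel)
theorem L113628 : W_41 (nat_lit 2) (nat_lit 0x600010000800060020001e0005000200000000000) (nat_lit 0x0) (nat_lit 0x800040001000000000000000000000000) := D_41 (nat_lit 114) (nat_lit 131) (nat_lit 96) (nat_lit 4) (nat_lit 12) (nat_lit 7) (nat_lit 7) (nat_lit 11) (nat_lit 2) (by decide +kernel)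
theorem L113629 : W_41 (nat_lit 3) (nat_lit 0x600010000800060020001e0005000000000000000) (nat_lit 0x0) (nat_lit 0x800040001000000000000200010000000) := T_41 (nat_lit 45) (nat_lit 28) (nat_lit 7) (nat_lit 11) (nat_lit 1) L113628 (by decide +kernel)
theorem L113630 : W_41 (nat_lit 4) (nat_lit 0x600010000800040020001e0005000000000000000) (nat_lit 0x0) (nat_lit 0x800042001100000000000200010000000) := T_41 (nat_lit 109) (nat_lit 92) (nat_lit 4) (nat_lit 8) (nat_lit 9) L113629 (by decide +kernel)
theorem L113631 : W_41 (nat_lit 5) (nat_lit 0x600010000800040000001e0005000000000000000) (nat_lit 0x0) (nat_lit 0x800042007100000000000200010000000) := T_41 (nat_lit 97) (nat_lit 98) (nat_lit 3) (nat_lit 9) (nat_lit 4) L113630 (by decide +kernel)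
theorem L113632 : W_41 (nat_lit 6) (nat_lit 0x200010000800040000001e0005000000000000000) (nat_lit 0x0) (nat_lit 0x800040000000800042007100000000000200010000000) := T_41 (nat_lit 162) (nat_lit 179) (nat_lit 7) (nat_lit 8) (nat_lit 6) L113631 (by decide +kernel)
theorem L113633 : W_41 (nat_lit 2) (nat_lit 0x700010003800060008007e0015000000000000000) (nat_lit 0x0) (nat_lit 0x40001800000000000000000000000000) := D_41 (nat_lit 108) (nat_lit 126) (nat_lit 107) (nat_lit 0) (nat_lit 10) (nat_lit 7) (nat_lit 3) (nat_lit 5) (nat_lit 6) (by decide +kernel)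
theorem L113634 : W_41 (nat_lit 3) (nat_lit 0x700010002800060008007e0015000000000000000) (nat_lit 0x0) (nat_lit 0x540001800000000000000000000000000) := T_41 (nat_lit 128) (nat_lit 130) (nat_lit 0) (nat_lit 11) (nat_lit 7) L113633 (by decide +kernel)
theorem L113635 : W_41 (nat_lit 4) (nat_lit 0x700010000800060008007e0015000000000000000) (nat_lit 0x0) (nat_lit 0x740011800000000000000000000000000) := T_41 (nat_lit 129) (nat_lit 112) (nat_lit 6) (nat_lit 10) (nat_lit 7) L113634 (by decide +kernel)
theorem L113636 : W_41 (nat_lit 5) (nat_lit 0x700010000800060008003e0015000000000000000) (nat_lit 0x0) (nat_lit 0x740011801000400000000000000000000) := T_41 (nat_lit 82) (nat_lit 96) (nat_lit 1) (nat_lit 14) (nat_lit 4) L113635 (by decide +kernel)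
theorem L113637 : W_41 (nat_lit 6) (nat_lit 0x700010000800060000003e0015000000000000000) (nat_lit 0x0) (nat_lit 0x740011801c00400000000000000000000) := T_41 (nat_lit 95) (nat_lit 94) (nat_lit 1) (nat_lit 13) (nat_lit 4) L113636 (by decide +kernel)
theorem L113638 : W_41 (nat_lit 7) (nat_lit 0x200010000800040000000e0005000000000000000) (nat_lit 0x0) (nat_lit 0x800040000000800042007100100000800200010000000) := T_41 (nat_lit 80) (nat_lit 59) (nat_lit 0) (nat_lit 12) (nat_lit 4) L113632 (by decide +kernel)
theorem L113639 : W_41 (nat_lit 12) (nat_lit 0x200010000800040000000a0005800000000000000) (nat_lit 0x0) (nat_lit 0xa0005000000015c003c00d400470027007f8033000900) := Q_41 (nat_lit 61) (C_41 L113627 (C_41 L113622 (C_41 L113616 (C_41 L112707 (C_41 L113155 N_41))))) (by decide +kernel)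
theorem L113640 : W_41 (nat_lit 2) (nat_lit 0x700010003800060008000e0005a00200004000000) (nat_lit 0x0) (nat_lit 0x40001800000000000000000000000000) := D_41 (nat_lit 108) (nat_lit 126) (nat_lit 107) (nat_lit 0) (nat_lit 10) (nat_lit 7) (nat_lit 3) (nat_lit 5) (nat_lit 6) (by decide +kernel)
theorem L113641 : W_41 (nat_lit 3) (nat_lit 0x700010002800060008000e0005a00200004000000) (nat_lit 0x0) (nat_lit 0x540001800000000000000000000000000) := T_41 (nat_lit 128) (nat_lit 130) (nat_lit 0) (nat_lit 11) (nat_lit 7) L113640 (by decide +kernel)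
theorem L113642 : W_41 (nat_lit 4) (nat_lit 0x600010002800060008000e0005a00200004000000) (nat_lit 0x0) (nat_lit 0x200010000000540001800000000000000000000000000) := T_41 (nat_lit 160) (nat_lit 177) (nat_lit 5) (nat_lit 8) (nat_lit 6) L113641 (by decide +kernel)
theorem L113643 : W_41 (nat_lit 5) (nat_lit 0x600010000800060008000e0005a00200004000000) (nat_lit 0x0) (nat_lit 0x200010000000740011800000000000000000000000000) := T_41 (nat_lit 129) (nat_lit 112) (nat_lit 6) (nat_lit 10) (nat_lit 7) L113642 (by decide +kernel)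
theorem L113644 : W_41 (nat_lit 6) (nat_lit 0x600010000800060008000e0005a00200000000000) (nat_lit 0x0) (nat_lit 0x200010000000740011800000000000000080004000000) := T_41 (nat_lit 26) (nat_lit 43) (nat_lit 7) (nat_lit 9) (nat_lit 1) L113643 (by decide +kernel)
theorem L113645 : W_41 (nat_lit 7) (nat_lit 0x600010000800060008000e0005800200000000000) (nat_lit 0x0) (nat_lit 0x200010000000740011800000000000600080004000000) := T_41 (nat_lit 57) (nat_lit 58) (nat_lit 3) (nat_lit 6) (nat_lit 3) L113644 (by decide +kernel)
theorem L113646 : W_41 (nat_lit 8) (nat_lit 0x600010000800060000000e0005800200000000000) (nat_lit 0x0) (nat_lit 0x200010000000740011800800000000600080014000000) := T_41 (nat_lit 95) (nat_lit 28) (nat_lit 5) (nat_lit 11) (nat_lit 1) L113645 (by decide +kernel)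
theorem L113647 : W_41 (nat_lit 9) (nat_lit 0x600010000800040000000e0005800200000000000) (nat_lit 0x0) (nat_lit 0x200010000000740013800900000000600080014000000) := T_41 (nat_lit 109) (nat_lit 92) (nat_lit 4) (nat_lit 8) (nat_lit 9) L113646 (by decide +kernel)
theorem L113648 : W_41 (nat_lit 10) (nat_lit 0x600010000800040000000a0005800200000000000) (nat_lit 0x0) (nat_lit 0x200010000000740013800900140000600080014000000) := T_41 (nat_lit 78) (nat_lit 80) (nat_lit 0) (nat_lit 12) (nat_lit 4) L113647 (by decide +kernel)
theorem L113649 : W_41 (nat_lit 11) (nat_lit 0x200010000800040000000a0005800200000000000) (nat_lit 0x0) (nat_lit 0xa00050000000740013800900140000600080014000000) := T_41 (nat_lit 162) (nat_lit 179) (nat_lit 7) (nat_lit 8) (nat_lit 6) L113648 (by decide +kernel)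
theorem L113650 : W_41 (nat_lit 2) (nat_lit 0x200010003800060000000a0005800000000000000) (nat_lit 0x0) (nat_lit 0x40001800000000000000000000000000) := D_41 (nat_lit 108) (nat_lit 126) (nat_lit 107) (nat_lit 0) (nat_lit 10) (nat_lit 7) (nat_lit 3) (nat_lit 5) (nat_lit 6) (by decide +kernel)
theorem L113651 : W_41 (nat_lit 3) (nat_lit 0x200010002800060000000a0005800000000000000) (nat_lit 0x0) (nat_lit 0x540001800000000000000000000000000) := T_41 (nat_lit 128) (nat_lit 130) (nat_lit 0) (nat_lit 11) (nat_lit 7) L113650 (by decide +kernel)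
theorem L113652 : W_41 (nat_lit 4) (nat_lit 0x200010002800040000000a0005800000000000000) (nat_lit 0x0) (nat_lit 0x540003800100000000000000000000000) := T_41 (nat_lit 109) (nat_lit 92) (nat_lit 4) (nat_lit 8) (nat_lit 9) L113651 (by decide +kernel)
theorem L113653 : W_41 (nat_lit 2) (nat_lit 0x700010006800060008000e0005c00280000000000) (nat_lit 0x0) (nat_lit 0x540000000000) := D_41 (nat_lit 44) (nat_lit 46) (nat_lit 42) (nat_lit 1) (nat_lit 12) (nat_lit 2) (nat_lit 1) (nat_lit 11) (nat_lit 2) (by decide +kernel)
theorem L113654 : W_41 (nat_lit 3) (nat_lit 0x700010006800060008000e0005c00080000000000) (nat_lit 0x0) (nat_lit 0x740010000000) := T_41 (nat_lit 45) (nat_lit 28) (nat_lit 5) (nat_lit 11) (nat_lit 1) L113653 (by decide +kernel)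
theorem L113655 : W_41 (nat_lit 4) (nat_lit 0x700010006800060008000e0005800080000000000) (nat_lit 0x0) (nat_lit 0x600740010000000) := T_41 (nat_lit 58) (nat_lit 57) (nat_lit 3) (nat_lit 6) (nat_lit 3) L113654 (by decide +kernel)
theorem L113656 : W_41 (nat_lit 5) (nat_lit 0x700010006800060008000e0005800000000000000) (nat_lit 0x0) (nat_lit 0x6007c0014000000) := T_41 (nat_lit 43) (nat_lit 26) (nat_lit 7) (nat_lit 9) (nat_lit 1) L113655 (by decide +kernel)
theorem L113657 : W_41 (nat_lit 6) (nat_lit 0x600010006800060008000e0005800000000000000) (nat_lit 0x0) (nat_lit 0x2000100000000000000000000000006007c0014000000) := T_41 (nat_lit 160) (nat_lit 177) (nat_lit 5) (nat_lit 8) (nat_lit 6) L113656 (by decide +kernel)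
theorem L113658 : W_41 (nat_lit 7) (nat_lit 0x600010006800060000000e0005800000000000000) (nat_lit 0x0) (nat_lit 0x2000100000000000100008000000006007c0014000000) := T_41 (nat_lit 95) (nat_lit 112) (nat_lit 6) (nat_lit 10) (nat_lit 7) L113657 (by decide +kernel)
theorem L113659 : W_41 (nat_lit 8) (nat_lit 0x600010002800060000000e0005800000000000000) (nat_lit 0x0) (nat_lit 0x2000100000005000100008000000006007c0014000000) := T_41 (nat_lit 130) (nat_lit 128) (nat_lit 0) (nat_lit 11) (nat_lit 7) L113658 (by decide +kernel)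
theorem L113660 : W_41 (nat_lit 9) (nat_lit 0x600010002800040000000e0005800000000000000) (nat_lit 0x0) (nat_lit 0x2000100000005000120009000000006007c0014000000) := T_41 (nat_lit 109) (nat_lit 92) (nat_lit 4) (nat_lit 8) (nat_lit 9) L113659 (by decide +kernel)
theorem L113661 : W_41 (nat_lit 10) (nat_lit 0x600010002800040000000a0005800000000000000) (nat_lit 0x0) (nat_lit 0x2000100000005000120009001400006007c0014000000) := T_41 (nat_lit 78) (nat_lit 80) (nat_lit 0) (nat_lit 12) (nat_lit 4) L113660 (by decide +kernel)
theorem L113662 : W_41 (nat_lit 11) (nat_lit 0x200010002800040000000a0005800000000000000) (nat_lit 0x0) (nat_lit 0xa000500000005000120009001400006007c0014000000) := T_41 (nat_lit 162) (nat_lit 179) (nat_lit 7) (nat_lit 8) (nat_lit 6) L113661 (by decide +kernel)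
theorem L113663 : W_41 (nat_lit 2) (nat_lit 0x700010002800060008000e0005a00380000000000) (nat_lit 0x0) (nat_lit 0x1400000000000000008000000) := D_41 (nat_lit 27) (nat_lit 96) (nat_lit 94) (nat_lit 4) (nat_lit 11) (nat_lit 5) (nat_lit 6) (nat_lit 9) (nat_lit 5) (by decide +kernel)
theorem L113664 : W_41 (nat_lit 3) (nat_lit 0x700010002800060008000e0005a00280000000000) (nat_lit 0x0) (nat_lit 0x1400000000000500008000000) := T_41 (nat_lit 44) (nat_lit 46) (nat_lit 1) (nat_lit 12) (nat_lit 2) L113663 (by decide +kernel)
theorem L113665 : W_41 (nat_lit 4) (nat_lit 0x700010002800060008000e0005a00200000000000) (nat_lit 0x0) (nat_lit 0x140000000000058000c000000) := T_41 (nat_lit 43) (nat_lit 26) (nat_lit 7) (nat_lit 9) (nat_lit 1) L113664 (by decide +kernel)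
theorem L113666 : W_41 (nat_lit 5) (nat_lit 0x700010002800060008000e0005a00000000000000) (nat_lit 0x0) (nat_lit 0x140000000000078001c000000) := T_41 (nat_lit 45) (nat_lit 28) (nat_lit 5) (nat_lit 11) (nat_lit 1) L113665 (by decide +kernel)
theorem L113667 : W_41 (nat_lit 6) (nat_lit 0x700010002800060000000e0005a00000000000000) (nat_lit 0x0) (nat_lit 0x10001c0000000000078001c000000) := T_41 (nat_lit 95) (nat_lit 112) (nat_lit 6) (nat_lit 10) (nat_lit 7) L113666 (by decide +kernel)
theorem L113668 : W_41 (nat_lit 7) (nat_lit 0x700010002800060000000e0005800000000000000) (nat_lit 0x0) (nat_lit 0x10001c0000000060078001c000000) := T_41 (nat_lit 57) (nat_lit 58) (nat_lit 3) (nat_lit 6) (nat_lit 3) L113667 (by decide +kernel)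
theorem L113669 : W_41 (nat_lit 8) (nat_lit 0x700010002800060000000a0005800000000000000) (nat_lit 0x0) (nat_lit 0x10001c0014000060078001c000000) := T_41 (nat_lit 78) (nat_lit 80) (nat_lit 0) (nat_lit 12) (nat_lit 4) L113668 (by decide +kernel)
theorem L113670 : W_41 (nat_lit 9) (nat_lit 0x600010002800060000000a0005800000000000000) (nat_lit 0x0) (nat_lit 0x200010000000000010001c0014000060078001c000000) := T_41 (nat_lit 160) (nat_lit 177) (nat_lit 5) (nat_lit 8) (nat_lit 6) L113669 (by decide +kernel)
theorem L113671 : W_41 (nat_lit 10) (nat_lit 0x200010002800060000000a0005800000000000000) (nat_lit 0x0) (nat_lit 0xa00050000000000010001c0014000060078001c000000) := T_41 (nat_lit 162) (nat_lit 179) (nat_lit 7) (nat_lit 8) (nat_lit 6) L113670 (by decide +kernel)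
theorem L113672 : W_41 (nat_lit 11) (nat_lit 0x200010002800040000000a0005800000000000000) (nat_lit 0x0) (nat_lit 0xa00050000000000012001d0014000060078001c000000) := T_41 (nat_lit 109) (nat_lit 92) (nat_lit 4) (nat_lit 8) (nat_lit 9) L113671 (by decide +kernel)
theorem L113673 : W_41 (nat_lit 2) (nat_lit 0x600010003800340000000e0005a00000000000000) (nat_lit 0x0) (nat_lit 0x4000c0000000000000000000000000000) := D_41 (nat_lit 114) (nat_lit 115) (nat_lit 130) (nat_lit 1) (nat_lit 13) (nat_lit 6) (nat_lit 2) (nat_lit 8) (nat_lit 7) (by decide +kernel)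
theorem L113674 : W_41 (nat_lit 3) (nat_lit 0x600010002800340000000e0005a00000000000000) (nat_lit 0x0) (nat_lit 0x5400c0000000000000000000000000000) := T_41 (nat_lit 128) (nat_lit 126) (nat_lit 2) (nat_lit 7) (nat_lit 7) L113673 (by decide +kernel)
theorem L113675 : W_41 (nat_lit 4) (nat_lit 0x600010002800340000000e0005800000000000000) (nat_lit 0x0) (nat_lit 0x5400c0000000000000600000000000000) := T_41 (nat_lit 57) (nat_lit 58) (nat_lit 3) (nat_lit 6) (nat_lit 3) L113674 (by decide +kernel)
theorem L113676 : W_41 (nat_lit 5) (nat_lit 0x600010002800140000000e0005800000000000000) (nat_lit 0x0) (nat_lit 0x5400e0001000000000600000000000000) := T_41 (nat_lit 113) (nat_lit 96) (nat_lit 5) (nat_lit 11) (nat_lit 3) L113675 (by decide +kernel)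
theorem L113677 : W_41 (nat_lit 6) (nat_lit 0x600010002800040000000e0005800000000000000) (nat_lit 0x0) (nat_lit 0x5400f0001800000000600000000000000) := T_41 (nat_lit 112) (nat_lit 95) (nat_lit 6) (nat_lit 10) (nat_lit 7) L113676 (by decide +kernel)
theorem L113678 : W_41 (nat_lit 7) (nat_lit 0x200010002800040000000e0005800000000000000) (nat_lit 0x0) (nat_lit 0x8000400000005400f0001800000000600000000000000) := T_41 (nat_lit 162) (nat_lit 179) (nat_lit 7) (nat_lit 8) (nat_lit 6) L113677 (by decide +kernel)
theorem L113679 : W_41 (nat_lit 8) (nat_lit 0x200010002800040000000a0005800000000000000) (nat_lit 0x0) (nat_lit 0x8000400000005400f0001800140000600000000000000) := T_41 (nat_lit 78) (nat_lit 80) (nat_lit 0) (nat_lit 12) (nat_lit 4) L113678 (by decide +kernel)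
theorem L113680 : W_41 (nat_lit 12) (nat_lit 0x200010000800040000000a0005800000000000000) (nat_lit 0x0) (nat_lit 0xa000500000007400f3801d001400006007c001c000000) := Q_41 (nat_lit 129) (C_41 L113652 (C_41 L113662 (C_41 L113672 (C_41 L113679 N_41)))) (by decide +kernel)
theorem L113681 : W_41 (nat_lit 13) (nat_lit 0x200010000800040000000a0005000000000000000) (nat_lit 0x0) (nat_lit 0xa0005000000075c0f3c01d40147002f007f803f000900) := Q_41 (nat_lit 59) (C_41 L113395 (C_41 L113639 (C_41 L113383 (C_41 L113680 N_41)))) (by decide +kernel)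
theorem L113682 : W_41 (nat_lit 2) (nat_lit 0x300010000800060000001a001f000400000000000) (nat_lit 0x0) (nat_lit 0x1c0000000000) := D_41 (nat_lit 43) (nat_lit 44) (nat_lit 42) (nat_lit 0) (nat_lit 13) (nat_lit 3) (nat_lit 0) (nat_lit 12) (nat_lit 3) (by decide +kernel)
theorem L113683 : W_41 (nat_lit 3) (nat_lit 0x300010000800060000001a000f000400000000000) (nat_lit 0x0) (nat_lit 0x400100001c0000000000) := T_41 (nat_lit 64) (nat_lit 78) (nat_lit 2) (nat_lit 9) (nat_lit 4) L113682 (by decide +kernel)
theorem L113684 : W_41 (nat_lit 4) (nat_lit 0x300010000800060000001a000f000000000000000) (nat_lit 0x0) (nat_lit 0x40010000dc0000000000) := T_41 (nat_lit 46) (nat_lit 47) (nat_lit 2) (nat_lit 9) (nat_lit 3) L113683 (by decide +kernel)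
theorem L113685 : W_41 (nat_lit 5) (nat_lit 0x300010000800060000001a000d000000000000000) (nat_lit 0x0) (nat_lit 0x240012000dc0000000000) := T_41 (nat_lit 61) (nat_lit 81) (nat_lit 3) (nat_lit 9) (nat_lit 3) L113684 (by decide +kernel)
theorem L113686 : W_41 (nat_lit 6) (nat_lit 0x200010000800060000001a000d000000000000000) (nat_lit 0x0) (nat_lit 0x200010000000000000000000240012000dc0000000000) := T_41 (nat_lit 160) (nat_lit 177) (nat_lit 5) (nat_lit 8) (nat_lit 6) L113685 (by decide +kernel)
theorem L113687 : W_41 (nat_lit 7) (nat_lit 0x200010000800040000001a000d000000000000000) (nat_lit 0x0) (nat_lit 0x200010000000000002000100240012000dc0000000000) := T_41 (nat_lit 109) (nat_lit 92) (nat_lit 4) (nat_lit 8) (nat_lit 9) L113686 (by decide +kernel)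
theorem L113688 : W_41 (nat_lit 2) (nat_lit 0x300010000800e60020001e000d000400000000000) (nat_lit 0x0) (nat_lit 0x2000800040000000) := D_41 (nat_lit 47) (nat_lit 30) (nat_lit 61) (nat_lit 6) (nat_lit 12) (nat_lit 5) (nat_lit 2) (nat_lit 9) (nat_lit 3) (by decide +kernel)
theorem L113689 : W_41 (nat_lit 3) (nat_lit 0x300010000800e60020001e000d000000000000000) (nat_lit 0x0) (nat_lit 0x1000000002000c00040000000) := T_41 (nat_lit 46) (nat_lit 96) (nat_lit 6) (nat_lit 11) (nat_lit 6) L113688 (by decide +kernel)
theorem L113690 : W_41 (nat_lit 4) (nat_lit 0x300010000800c60020001e000d000000000000000) (nat_lit 0x0) (nat_lit 0x400020001000000002000c00040000000) := T_41 (nat_lit 113) (nat_lit 130) (nat_lit 5) (nat_lit 12) (nat_lit 3) L113689 (by decide +kernel)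
theorem L113691 : W_41 (nat_lit 5) (nat_lit 0x300010000800460020001e000d000000000000000) (nat_lit 0x0) (nat_lit 0x14000a0001000000002000c00040000000) := T_41 (nat_lit 115) (nat_lit 132) (nat_lit 7) (nat_lit 12) (nat_lit 3) L113690 (by decide +kernel)
theorem L113692 : W_41 (nat_lit 6) (nat_lit 0x300010000800440020001e000d000000000000000) (nat_lit 0x0) (nat_lit 0x14000a2001100000002000c00040000000) := T_41 (nat_lit 109) (nat_lit 92) (nat_lit 4) (nat_lit 8) (nat_lit 9) L113691 (by decide +kernel)
theorem L113693 : W_41 (nat_lit 7) (nat_lit 0x300010000800040020001e000d000000000000000) (nat_lit 0x0) (nat_lit 0x1c000e2001100000002000c00040000000) := T_41 (nat_lit 114) (nat_lit 131) (nat_lit 4) (nat_lit 12) (nat_lit 7) L113692 (by decide +kernel)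
theorem L113694 : W_41 (nat_lit 8) (nat_lit 0x200010000800040020001e000d000000000000000) (nat_lit 0x0) (nat_lit 0x200010000001c000e2001100000002000c00040000000) := T_41 (nat_lit 160) (nat_lit 177) (nat_lit 5) (nat_lit 8) (nat_lit 6) L113693 (by decide +kernel)
theorem L113695 : W_41 (nat_lit 9) (nat_lit 0x200010000800040000001e000d000000000000000) (nat_lit 0x0) (nat_lit 0x200010000001c000e2007100000002000c00040000000) := T_41 (nat_lit 97) (nat_lit 98) (nat_lit 3) (nat_lit 9) (nat_lit 4) L113694 (by decide +kernel)
theorem L113696 : W_41 (nat_lit 10) (nat_lit 0x200010000800040000001a000d000000000000000) (nat_lit 0x0) (nat_lit 0x200010000001c000e2007100040012000c00040000000) := T_41 (nat_lit 78) (nat_lit 64) (nat_lit 2) (nat_lit 9) (nat_lit 4) L113695 (by decide +kernel)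
theorem L113697 : W_41 (nat_lit 3) (nat_lit 0x200010000800040000001a0005000000000000000) (nat_lit 0x0) (nat_lit 0x60000a800000000000000) := T_41 (nat_lit 61) (nat_lit 59) (nat_lit 3) (nat_lit 8) (nat_lit 3) L112713 (by decide +kernel)
theorem L113698 : W_41 (nat_lit 6) (nat_lit 0x200010000800040000000a0005800000000000000) (nat_lit 0x0) (nat_lit 0x200010000000000020001000100002400700008000000) := T_41 (nat_lit 160) (nat_lit 177) (nat_lit 5) (nat_lit 8) (nat_lit 6) L113228 (by decide +kernel)
theorem L113699 : W_41 (nat_lit 8) (nat_lit 0x300010000800040000000a0007800240000000000) (nat_lit 0x0) (nat_lit 0x80004000000000000000040001000000010001f000f80) := T_41 (nat_lit 162) (nat_lit 179) (nat_lit 7) (nat_lit 8) (nat_lit 6) L113085 (by decide +kernel)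
theorem L113700 : W_41 (nat_lit 9) (nat_lit 0x300010000800040000000a0007800200000000000) (nat_lit 0x0) (nat_lit 0x80004000000000000000040001000000016001f000f80) := T_41 (nat_lit 42) (nat_lit 41) (nat_lit 0) (nat_lit 11) (nat_lit 3) L113699 (by decide +kernel)
theorem L113701 : W_41 (nat_lit 10) (nat_lit 0x300010000800040000000a0007800000000000000) (nat_lit 0x0) (nat_lit 0x80004000000000000000040001000000076001f000f80) := T_41 (nat_lit 45) (nat_lit 46) (nat_lit 2) (nat_lit 8) (nat_lit 3) L113700 (by decide +kernel)
theorem L113702 : W_41 (nat_lit 11) (nat_lit 0x200010000800040000000a0007800000000000000) (nat_lit 0x0) (nat_lit 0xa0005000000000000000040001000000076001f000f80) := T_41 (nat_lit 160) (nat_lit 177) (nat_lit 5) (nat_lit 8) (nat_lit 6) L113701 (by decide +kernel)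
theorem L113703 : W_41 (nat_lit 4) (nat_lit 0x200010000800040000000e0005000000000000000) (nat_lit 0x0) (nat_lit 0xe000300002800000000000000) := T_41 (nat_lit 80) (nat_lit 59) (nat_lit 0) (nat_lit 12) (nat_lit 4) L113057 (by decide +kernel)
theorem L113704 : W_41 (nat_lit 2) (nat_lit 0x700010000800040020001e000d000000000000000) (nat_lit 0x0) (nat_lit 0x800040000000000000000200000000000) := D_41 (nat_lit 114) (nat_lit 45) (nat_lit 131) (nat_lit 4) (nat_lit 12) (nat_lit 6) (nat_lit 4) (nat_lit 12) (nat_lit 7) (by decide +kernel)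
theorem L113705 : W_41 (nat_lit 3) (nat_lit 0x700010000800040020001e0005000000000000000) (nat_lit 0x0) (nat_lit 0x800040000000000018000200000000000) := T_41 (nat_lit 63) (nat_lit 64) (nat_lit 2) (nat_lit 9) (nat_lit 4) L113704 (by decide +kernel)
theorem L113706 : W_41 (nat_lit 4) (nat_lit 0x700010000800040000001e0005000000000000000) (nat_lit 0x0) (nat_lit 0x800040006000000018000200000000000) := T_41 (nat_lit 97) (nat_lit 98) (nat_lit 3) (nat_lit 9) (nat_lit 4) L113705 (by decide +kernel)
theorem L113707 : W_41 (nat_lit 5) (nat_lit 0x300010000800040000001e0005000000000000000) (nat_lit 0x0) (nat_lit 0x800040000000800040006000000018000200000000000) := T_41 (nat_lit 162) (nat_lit 179) (nat_lit 7) (nat_lit 8) (nat_lit 6) L113706 (by decide +kernel)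
theorem L113708 : W_41 (nat_lit 6) (nat_lit 0x300010000800040000000e0005000000000000000) (nat_lit 0x0) (nat_lit 0x800040000000800040006000100018800200000000000) := T_41 (nat_lit 80) (nat_lit 59) (nat_lit 0) (nat_lit 12) (nat_lit 4) L113707 (by decide +kernel)
theorem L113709 : W_41 (nat_lit 7) (nat_lit 0x200010000800040000000e0005000000000000000) (nat_lit 0x0) (nat_lit 0xa00050000000800040006000100018800200000000000) := T_41 (nat_lit 160) (nat_lit 177) (nat_lit 5) (nat_lit 8) (nat_lit 6) L113708 (by decide +kernel)
theorem L113710 : W_41 (nat_lit 2) (nat_lit 0x300010000800040030001e0005000000000000000) (nat_lit 0x0) (nat_lit 0x40000000000000000200010000000) := D_41 (nat_lit 45) (nat_lit 28) (nat_lit 114) (nat_lit 7) (nat_lit 11) (nat_lit 1) (nat_lit 7) (nat_lit 11) (nat_lit 2) (by decide +kernel)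
theorem L113711 : W_41 (nat_lit 3) (nat_lit 0x300010000800040020001e0005000000000000000) (nat_lit 0x0) (nat_lit 0x40001000010000000200010000000) := T_41 (nat_lit 96) (nat_lit 76) (nat_lit 3) (nat_lit 8) (nat_lit 4) L113710 (by decide +kernel)
theorem L113712 : W_41 (nat_lit 4) (nat_lit 0x300010000800040000001e0005000000000000000) (nat_lit 0x0) (nat_lit 0x40007000010000000200010000000) := T_41 (nat_lit 97) (nat_lit 98) (nat_lit 3) (nat_lit 9) (nat_lit 4) L113711 (by decide +kernel)
theorem L113713 : W_41 (nat_lit 5) (nat_lit 0x200010000800040000001e0005000000000000000) (nat_lit 0x0) (nat_lit 0x200010000000000040007000010000000200010000000) := T_41 (nat_lit 160) (nat_lit 177) (nat_lit 5) (nat_lit 8) (nat_lit 6) L113712 (by decide +kernel)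
theorem L113714 : W_41 (nat_lit 6) (nat_lit 0x200010000800040000000e0005000000000000000) (nat_lit 0x0) (nat_lit 0x200010000000000040007000110000800200010000000) := T_41 (nat_lit 80) (nat_lit 59) (nat_lit 0) (nat_lit 12) (nat_lit 4) L113713 (by decide +kernel)
theorem L113715 : W_41 (nat_lit 11) (nat_lit 0x200010000800040000000a0005000000000000000) (nat_lit 0x0) (nat_lit 0xa00050000000a00050007c00150038c0078001c000000) := Q_41 (nat_lit 78) (C_41 L113251 (C_41 L113709 (C_41 L113045 (C_41 L113714 N_41)))) (by decide +kernel)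
theorem L113716 : W_41 (nat_lit 12) (nat_lit 0x200010000800040000000a0005800000000000000) (nat_lit 0x0) (nat_lit 0xa0005000000000000000040005000240077001f000f80) := Q_41 (nat_lit 61) (C_41 L113702 (C_41 L113622 (C_41 L113617 (C_41 L113155 N_41)))) (by decide +kernel)
theorem L113717 : W_41 (nat_lit 2) (nat_lit 0x700010000800040000000e0005800000000000000) (nat_lit 0x0) (nat_lit 0x10000600000000000000) := D_41 (nat_lit 58) (nat_lit 76) (nat_lit 57) (nat_lit 0) (nat_lit 11) (nat_lit 4) (nat_lit 3) (nat_lit 6) (nat_lit 3) (by decide +kernel)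
theorem L113718 : W_41 (nat_lit 3) (nat_lit 0x700010000800040000000a0005800000000000000) (nat_lit 0x0) (nat_lit 0x150000600000000000000) := T_41 (nat_lit 78) (nat_lit 80) (nat_lit 0) (nat_lit 12) (nat_lit 4) L113717 (by decide +kernel)
theorem L113719 : W_41 (nat_lit 4) (nat_lit 0x600010000800040000000a0005800000000000000) (nat_lit 0x0) (nat_lit 0x200010000000000000000000150000600000000000000) := T_41 (nat_lit 160) (nat_lit 177) (nat_lit 5) (nat_lit 8) (nat_lit 6) L113718 (by decide +kernel)
theorem L113720 : W_41 (nat_lit 5) (nat_lit 0x200010000800040000000a0005800000000000000) (nat_lit 0x0) (nat_lit 0xa00050000000000000000000150000600000000000000) := T_41 (nat_lit 162) (nat_lit 179) (nat_lit 7) (nat_lit 8) (nat_lit 6) L113719 (by decide +kernel)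
theorem L113721 : W_41 (nat_lit 13) (nat_lit 0x200010000800040000000a0005000000000000000) (nat_lit 0x0) (nat_lit 0xa00050000000000020001400150002e0077001f000f80) := Q_41 (nat_lit 59) (C_41 L113716 (C_41 L113698 (C_41 L113394 (C_41 L113383 (C_41 L113720 N_41))))) (by decide +kernel)
theorem L113722 : W_41 (nat_lit 2) (nat_lit 0x700010000800040018000a001d000f00080000000) (nat_lit 0x0) (nat_lit 0x3000100000000) := D_41 (nat_lit 48) (nat_lit 32) (nat_lit 49) (nat_lit 2) (nat_lit 11) (nat_lit 2) (nat_lit 1) (nat_lit 15) (nat_lit 2) (by decide +kernel)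
theorem L113723 : W_41 (nat_lit 3) (nat_lit 0x700010000800040018000a0015000f00080000000) (nat_lit 0x0) (nat_lit 0x8003080100000000) := T_41 (nat_lit 63) (nat_lit 43) (nat_lit 3) (nat_lit 9) (nat_lit 2) L113722 (by decide +kernel)
theorem L113724 : W_41 (nat_lit 4) (nat_lit 0x700010000800040018000a0005000f00080000000) (nat_lit 0x0) (nat_lit 0x38003080100000000) := T_41 (nat_lit 64) (nat_lit 65) (nat_lit 3) (nat_lit 10) (nat_lit 2) L113723 (by decide +kernel)
theorem L113725 : W_41 (nat_lit 5) (nat_lit 0x700010000800040018000a0005000f00000000000) (nat_lit 0x0) (nat_lit 0x380030801c0000000) := T_41 (nat_lit 31) (nat_lit 30) (nat_lit 2) (nat_lit 10) (nat_lit 2) L113724 (by decide +kernel)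
theorem L113726 : W_41 (nat_lit 6) (nat_lit 0x700010000800040010000a0005000f00000000000) (nat_lit 0x0) (nat_lit 0x100008000000380030801c0000000) := T_41 (nat_lit 95) (nat_lit 112) (nat_lit 5) (nat_lit 11) (nat_lit 2) L113725 (by decide +kernel)
theorem L113727 : W_41 (nat_lit 7) (nat_lit 0x700010000800040010000a0005000700000000000) (nat_lit 0x0) (nat_lit 0x1000080000003a0038801c0000000) := T_41 (nat_lit 47) (nat_lit 61) (nat_lit 1) (nat_lit 13) (nat_lit 2) L113726 (by decide +kernel)
theorem L113728 : W_41 (nat_lit 8) (nat_lit 0x700010000800040010000a0005000300000000000) (nat_lit 0x0) (nat_lit 0x1000080000003a003c801e0000000) := T_41 (nat_lit 46) (nat_lit 29) (nat_lit 6) (nat_lit 11) (nat_lit 5) L113727 (by decide +kernel)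
theorem L113729 : W_41 (nat_lit 9) (nat_lit 0x300010000800040010000a0005000300000000000) (nat_lit 0x0) (nat_lit 0x80004000000000001000080000003a003c801e0000000) := T_41 (nat_lit 162) (nat_lit 179) (nat_lit 7) (nat_lit 8) (nat_lit 6) L113728 (by decide +kernel)
theorem L113730 : W_41 (nat_lit 10) (nat_lit 0x300010000800040010000a0005000200000000000) (nat_lit 0x0) (nat_lit 0x80004000000000001000080000003a003d801e8000000) := T_41 (nat_lit 44) (nat_lit 27) (nat_lit 4) (nat_lit 11) (nat_lit 5) L113729 (by decide +kernel)
theorem L113731 : W_41 (nat_lit 11) (nat_lit 0x200010000800040010000a0005000200000000000) (nat_lit 0x0) (nat_lit 0xa0005000000000001000080000003a003d801e8000000) := T_41 (nat_lit 160) (nat_lit 177) (nat_lit 5) (nat_lit 8) (nat_lit 6) L113730 (by decide +kernel)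
theorem L113732 : W_41 (nat_lit 2) (nat_lit 0x200010000800060010001a000f000080000000000) (nat_lit 0x0) (nat_lit 0xc00020000000) := D_41 (nat_lit 46) (nat_lit 29) (nat_lit 47) (nat_lit 5) (nat_lit 12) (nat_lit 1) (nat_lit 2) (nat_lit 9) (nat_lit 3) (by decide +kernel)
theorem L113733 : W_41 (nat_lit 3) (nat_lit 0x200010000800060010000a000f000080000000000) (nat_lit 0x0) (nat_lit 0x300000000c00020000000) := T_41 (nat_lit 80) (nat_lit 81) (nat_lit 3) (nat_lit 9) (nat_lit 3) L113732 (by decide +kernel)
theorem L113734 : W_41 (nat_lit 4) (nat_lit 0x200010000800060010000a000f000000000000000) (nat_lit 0x0) (nat_lit 0x300000000cc0020000000) := T_41 (nat_lit 43) (nat_lit 42) (nat_lit 0) (nat_lit 12) (nat_lit 3) L113733 (by decide +kernel)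
theorem L113735 : W_41 (nat_lit 5) (nat_lit 0x200010000800060010000a000d000000000000000) (nat_lit 0x0) (nat_lit 0x310002000cc0020000000) := T_41 (nat_lit 61) (nat_lit 76) (nat_lit 1) (nat_lit 12) (nat_lit 3) L113734 (by decide +kernel)
theorem L113736 : W_41 (nat_lit 6) (nat_lit 0x200010000800040010000a000d000000000000000) (nat_lit 0x0) (nat_lit 0x2000100310002000cc0020000000) := T_41 (nat_lit 109) (nat_lit 92) (nat_lit 4) (nat_lit 8) (nat_lit 9) L113735 (by decide +kernel)
theorem L113737 : W_41 (nat_lit 2) (nat_lit 0x200010000800040010000a000f000080000000000) (nat_lit 0x0) (nat_lit 0x20000000000010000100000000000) := D_41 (nat_lit 44) (nat_lit 113) (nat_lit 64) (nat_lit 4) (nat_lit 11) (nat_lit 6) (nat_lit 0) (nat_lit 13) (nat_lit 3) (by decide +kernel)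
theorem L113738 : W_41 (nat_lit 3) (nat_lit 0x200010000800040010000a000f000000000000000) (nat_lit 0x0) (nat_lit 0x200000000000100001c0000000000) := T_41 (nat_lit 43) (nat_lit 42) (nat_lit 0) (nat_lit 12) (nat_lit 3) L113737 (by decide +kernel)
theorem L113739 : W_41 (nat_lit 4) (nat_lit 0x200010000800040010000a000d000000000000000) (nat_lit 0x0) (nat_lit 0x200000000100120001c0000000000) := T_41 (nat_lit 61) (nat_lit 76) (nat_lit 1) (nat_lit 12) (nat_lit 3) L113738 (by decide +kernel)
theorem L113740 : W_41 (nat_lit 7) (nat_lit 0x200010000800040010000a0005000000000000000) (nat_lit 0x0) (nat_lit 0x2200010031001a000fc0020001000) := Q_41 (nat_lit 63) (C_41 L113736 (C_41 L113264 (C_41 L113739 N_41))) (by decide +kernel)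
theorem L113741 : W_41 (nat_lit 2) (nat_lit 0x300010002800140030000e0005000000000000000) (nat_lit 0x0) (nat_lit 0xc000100000000000000000000) := D_41 (nat_lit 98) (nat_lit 99) (nat_lit 80) (nat_lit 0) (nat_lit 14) (nat_lit 5) (nat_lit 3) (nat_lit 9) (nat_lit 4) (by decide +kernel)
theorem L113742 : W_41 (nat_lit 3) (nat_lit 0x300010002800140010000e0005000000000000000) (nat_lit 0x0) (nat_lit 0xe000110000000000000000000) := T_41 (nat_lit 97) (nat_lit 76) (nat_lit 3) (nat_lit 8) (nat_lit 4) L113741 (by decide +kernel)
theorem L113743 : W_41 (nat_lit 4) (nat_lit 0x300010002800140000000e0005000000000000000) (nat_lit 0x0) (nat_lit 0x2000f000110000000000000000000) := T_41 (nat_lit 96) (nat_lit 113) (nat_lit 5) (nat_lit 11) (nat_lit 3) L113742 (by decide +kernel)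
theorem L113744 : W_41 (nat_lit 5) (nat_lit 0x300010002800040000000e0005000000000000000) (nat_lit 0x0) (nat_lit 0x3000f800110000000000000000000) := T_41 (nat_lit 112) (nat_lit 95) (nat_lit 6) (nat_lit 10) (nat_lit 7) L113743 (by decide +kernel)
theorem L113745 : W_41 (nat_lit 6) (nat_lit 0x200010002800040000000e0005000000000000000) (nat_lit 0x0) (nat_lit 0x20001000000000003000f800110000000000000000000) := T_41 (nat_lit 160) (nat_lit 177) (nat_lit 5) (nat_lit 8) (nat_lit 6) L113744 (by decide +kernel)
theorem L113746 : W_41 (nat_lit 8) (nat_lit 0x200010000800040000000e0005000000000000000) (nat_lit 0x0) (nat_lit 0xa000500000007400f380f900110000000000000000000) := Q_41 (nat_lit 129) (C_41 L112946 (C_41 L112550 (C_41 L113745 N_41))) (by decide +kernel)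
theorem L113747 : W_41 (nat_lit 6) (nat_lit 0x300010000800060000001e000d000000000000000) (nat_lit 0x0) (nat_lit 0x2000f800e00000000400020000000) := T_41 (nat_lit 98) (nat_lit 97) (nat_lit 3) (nat_lit 9) (nat_lit 4) L112762 (by decide +kernel)
theorem L113748 : W_41 (nat_lit 7) (nat_lit 0x300010000800060000001e0005000000000000000) (nat_lit 0x0) (nat_lit 0x2000f800e00018000400020000000) := T_41 (nat_lit 63) (nat_lit 64) (nat_lit 2) (nat_lit 9) (nat_lit 4) L113747 (by decide +kernel)
theorem L113749 : W_41 (nat_lit 8) (nat_lit 0x300010000800040000001e0005000000000000000) (nat_lit 0x0) (nat_lit 0x2200f900e00018000400020000000) := T_41 (nat_lit 109) (nat_lit 92) (nat_lit 4) (nat_lit 8) (nat_lit 9) L113748 (by decide +kernel)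
theorem L113750 : W_41 (nat_lit 9) (nat_lit 0x200010000800040000001e0005000000000000000) (nat_lit 0x0) (nat_lit 0x20001000000000002200f900e00018000400020000000) := T_41 (nat_lit 160) (nat_lit 177) (nat_lit 5) (nat_lit 8) (nat_lit 6) L113749 (by decide +kernel)
theorem L113751 : W_41 (nat_lit 7) (nat_lit 0x700010000800060000001e0015000000000000000) (nat_lit 0x0) (nat_lit 0x740011801c00600020000000000000000) := T_41 (nat_lit 81) (nat_lit 65) (nat_lit 2) (nat_lit 10) (nat_lit 4) L113637 (by decide +kernel)
theorem L113752 : W_41 (nat_lit 8) (nat_lit 0x600010000800060000001e0015000000000000000) (nat_lit 0x0) (nat_lit 0x200010000000740011801c00600020000000000000000) := T_41 (nat_lit 160) (nat_lit 177) (nat_lit 5) (nat_lit 8) (nat_lit 6) L113751 (by decide +kernel)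
theorem L113753 : W_41 (nat_lit 9) (nat_lit 0x600010000800060000001e0005000000000000000) (nat_lit 0x0) (nat_lit 0x200010000000740011801c00600038000000000000000) := T_41 (nat_lit 64) (nat_lit 63) (nat_lit 2) (nat_lit 9) (nat_lit 4) L113752 (by decide +kernel)
theorem L113754 : W_41 (nat_lit 10) (nat_lit 0x600010000800040000001e0005000000000000000) (nat_lit 0x0) (nat_lit 0x200010000000740013801d00600038000000000000000) := T_41 (nat_lit 109) (nat_lit 92) (nat_lit 4) (nat_lit 8) (nat_lit 9) L113753 (by decide +kernel)
theorem L113755 : W_41 (nat_lit 11) (nat_lit 0x200010000800040000001e0005000000000000000) (nat_lit 0x0) (nat_lit 0xa00050000000740013801d00600038000000000000000) := T_41 (nat_lit 162) (nat_lit 179) (nat_lit 7) (nat_lit 8) (nat_lit 6) L113754 (by decide +kernel)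
theorem L113756 : W_41 (nat_lit 12) (nat_lit 0x200010000800040000000e0005000000000000000) (nat_lit 0x0) (nat_lit 0xa00050000000f4007380fd00f00038000600030000000) := Q_41 (nat_lit 80) (C_41 L113632 (C_41 L112533 (C_41 L112537 (C_41 L113750 (C_41 L113755 N_41))))) (by decide +kernel)
theorem L113757 : W_41 (nat_lit 2) (nat_lit 0x700010000800060008000e002d000380000000000) (nat_lit 0x0) (nat_lit 0x1400000000000000008000000) := D_41 (nat_lit 27) (nat_lit 96) (nat_lit 94) (nat_lit 4) (nat_lit 11) (nat_lit 5) (nat_lit 6) (nat_lit 9) (nat_lit 5) (by decide +kernel)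
theorem L113758 : W_41 (nat_lit 3) (nat_lit 0x700010000800060008000e002d000280000000000) (nat_lit 0x0) (nat_lit 0x1400000000000140008000000) := T_41 (nat_lit 44) (nat_lit 42) (nat_lit 3) (nat_lit 8) (nat_lit 2) L113757 (by decide +kernel)
theorem L113759 : W_41 (nat_lit 4) (nat_lit 0x700010000800060008000e000d000280000000000) (nat_lit 0x0) (nat_lit 0x1400000030000140008000000) := T_41 (nat_lit 65) (nat_lit 64) (nat_lit 1) (nat_lit 14) (nat_lit 3) L113758 (by decide +kernel)
theorem L113760 : W_41 (nat_lit 5) (nat_lit 0x700010000800060008000e0005000280000000000) (nat_lit 0x0) (nat_lit 0x1400010038000140008000000) := T_41 (nat_lit 63) (nat_lit 76) (nat_lit 2) (nat_lit 8) (nat_lit 4) L113759 (by decide +kernel)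
theorem L113761 : W_41 (nat_lit 6) (nat_lit 0x300010000800060008000e0005000280000000000) (nat_lit 0x0) (nat_lit 0x800040000000000000001400010038000140008000000) := T_41 (nat_lit 162) (nat_lit 179) (nat_lit 7) (nat_lit 8) (nat_lit 6) L113760 (by decide +kernel)
theorem L113762 : W_41 (nat_lit 7) (nat_lit 0x300010000800040008000e0005000280000000000) (nat_lit 0x0) (nat_lit 0x800040000000000002001500010038000140008000000) := T_41 (nat_lit 109) (nat_lit 92) (nat_lit 4) (nat_lit 8) (nat_lit 9) L113761 (by decide +kernel)
theorem L113763 : W_41 (nat_lit 8) (nat_lit 0x300010000800040008000e0005000200000000000) (nat_lit 0x0) (nat_lit 0x8000400000000000020015000100380001c000c000000) := T_41 (nat_lit 43) (nat_lit 26) (nat_lit 7) (nat_lit 9) (nat_lit 1) L113762 (by decide +kernel)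
theorem L113764 : W_41 (nat_lit 9) (nat_lit 0x300010000800040008000e0005000000000000000) (nat_lit 0x0) (nat_lit 0x8000400000000000020015000100380003c001c000000) := T_41 (nat_lit 45) (nat_lit 28) (nat_lit 5) (nat_lit 11) (nat_lit 1) L113763 (by decide +kernel)
theorem L113765 : W_41 (nat_lit 10) (nat_lit 0x200010000800040008000e0005000000000000000) (nat_lit 0x0) (nat_lit 0xa000500000000000020015000100380003c001c000000) := T_41 (nat_lit 160) (nat_lit 177) (nat_lit 5) (nat_lit 8) (nat_lit 6) L113764 (by decide +kernel)
theorem L113766 : W_41 (nat_lit 11) (nat_lit 0x200010000800040000000e0005000000000000000) (nat_lit 0x0) (nat_lit 0xa00050000000740013801d000100380003c001c000000) := Q_41 (nat_lit 95) (C_41 L113765 (C_41 L113040 (C_41 L112940 N_41))) (by decide +kernel)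
theorem L113767 : W_41 (nat_lit 13) (nat_lit 0x200010000800040000000a0005000000000000000) (nat_lit 0x0) (nat_lit 0xa00050000000f400f380fd00f500380007c003c000000) := Q_41 (nat_lit 78) (C_41 L113746 (C_41 L113251 (C_41 L113756 (C_41 L113766 N_41)))) (by decide +kernel)
theorem L113768 : W_41 (nat_lit 2) (nat_lit 0x300010003800060000000a000d000000000000000) (nat_lit 0x0) (nat_lit 0x40001800000000000000000000000000) := D_41 (nat_lit 108) (nat_lit 126) (nat_lit 107) (nat_lit 0) (nat_lit 10) (nat_lit 7) (nat_lit 3) (nat_lit 5) (nat_lit 6) (by decide +kernel)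
theorem L113769 : W_41 (nat_lit 3) (nat_lit 0x300010002800060000000a000d000000000000000) (nat_lit 0x0) (nat_lit 0x540001800000000000000000000000000) := T_41 (nat_lit 128) (nat_lit 130) (nat_lit 0) (nat_lit 11) (nat_lit 7) L113768 (by decide +kernel)
theorem L113770 : W_41 (nat_lit 4) (nat_lit 0x300010002800040000000a000d000000000000000) (nat_lit 0x0) (nat_lit 0x540003800100000000000000000000000) := T_41 (nat_lit 109) (nat_lit 92) (nat_lit 4) (nat_lit 8) (nat_lit 9) L113769 (by decide +kernel)
theorem L113771 : W_41 (nat_lit 5) (nat_lit 0x200010002800040000000a000d000000000000000) (nat_lit 0x0) (nat_lit 0x200010000000540003800100000000000000000000000) := T_41 (nat_lit 160) (nat_lit 177) (nat_lit 5) (nat_lit 8) (nat_lit 6) L113770 (by decide +kernel)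
theorem L113772 : W_41 (nat_lit 2) (nat_lit 0x600010003800060000000b000d000000000000000) (nat_lit 0x0) (nat_lit 0x40001800000000000000000000000000) := D_41 (nat_lit 108) (nat_lit 126) (nat_lit 107) (nat_lit 0) (nat_lit 10) (nat_lit 7) (nat_lit 3) (nat_lit 5) (nat_lit 6) (by decide +kernel)
theorem L113773 : W_41 (nat_lit 3) (nat_lit 0x600010002800060000000b000d000000000000000) (nat_lit 0x0) (nat_lit 0x540001800000000000000000000000000) := T_41 (nat_lit 128) (nat_lit 130) (nat_lit 0) (nat_lit 11) (nat_lit 7) L113772 (by decide +kernel)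
theorem L113774 : W_41 (nat_lit 4) (nat_lit 0x600010002800040000000b000d000000000000000) (nat_lit 0x0) (nat_lit 0x540003800100000000000000000000000) := T_41 (nat_lit 109) (nat_lit 92) (nat_lit 4) (nat_lit 8) (nat_lit 9) L113773 (by decide +kernel)
theorem L113775 : W_41 (nat_lit 5) (nat_lit 0x600010002800040000000a000d000000000000000) (nat_lit 0x0) (nat_lit 0x540003800100050000000000000000000) := T_41 (nat_lit 76) (nat_lit 78) (nat_lit 2) (nat_lit 8) (nat_lit 4) L113774 (by decide +kernel)
theorem L113776 : W_41 (nat_lit 6) (nat_lit 0x200010002800040000000a000d000000000000000) (nat_lit 0x0) (nat_lit 0x800040000000540003800100050000000000000000000) := T_41 (nat_lit 162) (nat_lit 179) (nat_lit 7) (nat_lit 8) (nat_lit 6) L113775 (by decide +kernel)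
theorem L113777 : W_41 (nat_lit 2) (nat_lit 0x700010006800060008000e001d000280000000000) (nat_lit 0x0) (nat_lit 0x540000000000) := D_41 (nat_lit 44) (nat_lit 46) (nat_lit 42) (nat_lit 3) (nat_lit 9) (nat_lit 2) (nat_lit 3) (nat_lit 8) (nat_lit 2) (by decide +kernel)
theorem L113778 : W_41 (nat_lit 3) (nat_lit 0x700010006800060008000e001d000200000000000) (nat_lit 0x0) (nat_lit 0x5c0004000000) := T_41 (nat_lit 43) (nat_lit 26) (nat_lit 7) (nat_lit 9) (nat_lit 1) L113777 (by decide +kernel)
theorem L113779 : W_41 (nat_lit 4) (nat_lit 0x700010006800060008000e001d000000000000000) (nat_lit 0x0) (nat_lit 0x7c0014000000) := T_41 (nat_lit 45) (nat_lit 28) (nat_lit 5) (nat_lit 11) (nat_lit 1) L113778 (by decide +kernel)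
theorem L113780 : W_41 (nat_lit 5) (nat_lit 0x700010006800060000000e001d000000000000000) (nat_lit 0x0) (nat_lit 0x100008000000000007c0014000000) := T_41 (nat_lit 95) (nat_lit 112) (nat_lit 6) (nat_lit 10) (nat_lit 7) L113779 (by decide +kernel)
theorem L113781 : W_41 (nat_lit 6) (nat_lit 0x700010006800060000000e000d000000000000000) (nat_lit 0x0) (nat_lit 0x100008000000300007c0014000000) := T_41 (nat_lit 64) (nat_lit 65) (nat_lit 1) (nat_lit 14) (nat_lit 3) L113780 (by decide +kernel)
theorem L113782 : W_41 (nat_lit 7) (nat_lit 0x700010006800060000000a000d000000000000000) (nat_lit 0x0) (nat_lit 0x100008000500300007c0014000000) := T_41 (nat_lit 78) (nat_lit 76) (nat_lit 2) (nat_lit 8) (nat_lit 4) L113781 (by decide +kernel)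
theorem L113783 : W_41 (nat_lit 8) (nat_lit 0x300010006800060000000a000d000000000000000) (nat_lit 0x0) (nat_lit 0x8000400000000000100008000500300007c0014000000) := T_41 (nat_lit 162) (nat_lit 179) (nat_lit 7) (nat_lit 8) (nat_lit 6) L113782 (by decide +kernel)
theorem L113784 : W_41 (nat_lit 9) (nat_lit 0x200010006800060000000a000d000000000000000) (nat_lit 0x0) (nat_lit 0xa000500000000000100008000500300007c0014000000) := T_41 (nat_lit 160) (nat_lit 177) (nat_lit 5) (nat_lit 8) (nat_lit 6) L113783 (by decide +kernel)
theorem L113785 : W_41 (nat_lit 10) (nat_lit 0x200010002800060000000a000d000000000000000) (nat_lit 0x0) (nat_lit 0xa000500000005000100008000500300007c0014000000) := T_41 (nat_lit 130) (nat_lit 128) (nat_lit 0) (nat_lit 11) (nat_lit 7) L113784 (by decide +kernel)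
theorem L113786 : W_41 (nat_lit 11) (nat_lit 0x200010002800040000000a000d000000000000000) (nat_lit 0x0) (nat_lit 0xa000500000005000120009000500300007c0014000000) := T_41 (nat_lit 109) (nat_lit 92) (nat_lit 4) (nat_lit 8) (nat_lit 9) L113785 (by decide +kernel)
theorem L113787 : W_41 (nat_lit 2) (nat_lit 0x700010002800060008000e000d000380000000000) (nat_lit 0x0) (nat_lit 0x30000400000000000) := D_41 (nat_lit 64) (nat_lit 65) (nat_lit 46) (nat_lit 1) (nat_lit 14) (nat_lit 3) (nat_lit 3) (nat_lit 9) (nat_lit 2) (by decide +kernel)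
theorem L113788 : W_41 (nat_lit 3) (nat_lit 0x700010002800060008000e000d000280000000000) (nat_lit 0x0) (nat_lit 0x30000540000000000) := T_41 (nat_lit 44) (nat_lit 42) (nat_lit 3) (nat_lit 8) (nat_lit 2) L113787 (by decide +kernel)
theorem L113789 : W_41 (nat_lit 4) (nat_lit 0x700010002800040008000e000d000280000000000) (nat_lit 0x0) (nat_lit 0x2000100000030000540000000000) := T_41 (nat_lit 109) (nat_lit 92) (nat_lit 4) (nat_lit 8) (nat_lit 9) L113788 (by decide +kernel)
theorem L113790 : W_41 (nat_lit 5) (nat_lit 0x700010002800040008000e000d000080000000000) (nat_lit 0x0) (nat_lit 0x2000100000030000740010000000) := T_41 (nat_lit 45) (nat_lit 28) (nat_lit 5) (nat_lit 11) (nat_lit 1) L113789 (by decide +kernel)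
theorem L113791 : W_41 (nat_lit 6) (nat_lit 0x700010002800040008000e000d000000000000000) (nat_lit 0x0) (nat_lit 0x20001000000300007c0014000000) := T_41 (nat_lit 43) (nat_lit 26) (nat_lit 7) (nat_lit 9) (nat_lit 1) L113790 (by decide +kernel)
theorem L113792 : W_41 (nat_lit 7) (nat_lit 0x600010002800040008000e000d000000000000000) (nat_lit 0x0) (nat_lit 0x2000100000000000020001000000300007c0014000000) := T_41 (nat_lit 160) (nat_lit 177) (nat_lit 5) (nat_lit 8) (nat_lit 6) L113791 (by decide +kernel)
theorem L113793 : W_41 (nat_lit 8) (nat_lit 0x600010002800040000000e000d000000000000000) (nat_lit 0x0) (nat_lit 0x2000100000000000120009000000300007c0014000000) := T_41 (nat_lit 95) (nat_lit 112) (nat_lit 6) (nat_lit 10) (nat_lit 7) L113792 (by decide +kernel)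
theorem L113794 : W_41 (nat_lit 9) (nat_lit 0x200010002800040000000e000d000000000000000) (nat_lit 0x0) (nat_lit 0xa000500000000000120009000000300007c0014000000) := T_41 (nat_lit 162) (nat_lit 179) (nat_lit 7) (nat_lit 8) (nat_lit 6) L113793 (by decide +kernel)
theorem L113795 : W_41 (nat_lit 10) (nat_lit 0x200010002800040000000a000d000000000000000) (nat_lit 0x0) (nat_lit 0xa000500000000000120009000500300007c0014000000) := T_41 (nat_lit 78) (nat_lit 76) (nat_lit 2) (nat_lit 8) (nat_lit 4) L113794 (by decide +kernel)
theorem L113796 : W_41 (nat_lit 2) (nat_lit 0x700010003800340000000e002d000000000000000) (nat_lit 0x0) (nat_lit 0x4000c0000000000000000000000000000) := D_41 (nat_lit 114) (nat_lit 115) (nat_lit 130) (nat_lit 1) (nat_lit 13) (nat_lit 6) (nat_lit 2) (nat_lit 8) (nat_lit 7) (by decide +kernel)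
theorem L113797 : W_41 (nat_lit 3) (nat_lit 0x700010002800340000000e002d000000000000000) (nat_lit 0x0) (nat_lit 0x5400c0000000000000000000000000000) := T_41 (nat_lit 128) (nat_lit 126) (nat_lit 2) (nat_lit 7) (nat_lit 7) L113796 (by decide +kernel)
theorem L113798 : W_41 (nat_lit 4) (nat_lit 0x700010002800340000000e000d000000000000000) (nat_lit 0x0) (nat_lit 0x5400c0000000000030000000000000000) := T_41 (nat_lit 65) (nat_lit 64) (nat_lit 1) (nat_lit 14) (nat_lit 3) L113797 (by decide +kernel)
theorem L113799 : W_41 (nat_lit 5) (nat_lit 0x700010002800140000000e000d000000000000000) (nat_lit 0x0) (nat_lit 0x5400e0001000000030000000000000000) := T_41 (nat_lit 113) (nat_lit 96) (nat_lit 5) (nat_lit 11) (nat_lit 3) L113798 (by decide +kernel)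
theorem L113800 : W_41 (nat_lit 6) (nat_lit 0x700010002800040000000e000d000000000000000) (nat_lit 0x0) (nat_lit 0x5400f0001800000030000000000000000) := T_41 (nat_lit 112) (nat_lit 95) (nat_lit 6) (nat_lit 10) (nat_lit 7) L113799 (by decide +kernel)
theorem L113801 : W_41 (nat_lit 7) (nat_lit 0x600010002800040000000e000d000000000000000) (nat_lit 0x0) (nat_lit 0x2000100000005400f0001800000030000000000000000) := T_41 (nat_lit 160) (nat_lit 177) (nat_lit 5) (nat_lit 8) (nat_lit 6) L113800 (by decide +kernel)
theorem L113802 : W_41 (nat_lit 8) (nat_lit 0x600010002800040000000a000d000000000000000) (nat_lit 0x0) (nat_lit 0x2000100000005400f0001800050030000000000000000) := T_41 (nat_lit 78) (nat_lit 76) (nat_lit 2) (nat_lit 8) (nat_lit 4) L113801 (by decide +kernel)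
theorem L113803 : W_41 (nat_lit 9) (nat_lit 0x200010002800040000000a000d000000000000000) (nat_lit 0x0) (nat_lit 0xa000500000005400f0001800050030000000000000000) := T_41 (nat_lit 162) (nat_lit 179) (nat_lit 7) (nat_lit 8) (nat_lit 6) L113802 (by decide +kernel)
theorem L113804 : W_41 (nat_lit 12) (nat_lit 0x200010000800040000000a000d000000000000000) (nat_lit 0x0) (nat_lit 0xa000500000007400f38019000500300007c0014000000) := Q_41 (nat_lit 129) (C_41 L113771 (C_41 L113776 (C_41 L113786 (C_41 L113795 (C_41 L113803 N_41))))) (by decide +kernel)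
theorem L113805 : W_41 (nat_lit 12) (nat_lit 0x200010000800040010000a0005000000000000000) (nat_lit 0x0) (nat_lit 0xa000500000000003d200ed00f50000000700038001400) := Q_41 (nat_lit 45) (C_41 L113538 (C_41 L113600 (C_41 L113366 (C_41 L113501 (C_41 L113352 N_41))))) (by decide +kernel)
theorem L113806 : W_41 (nat_lit 2) (nat_lit 0x600010000800040010000a0005000700000000000) (nat_lit 0x0) (nat_lit 0x20000000000002000800000000000) := D_41 (nat_lit 61) (nat_lit 47) (nat_lit 113) (nat_lit 1) (nat_lit 13) (nat_lit 2) (nat_lit 4) (nat_lit 11) (nat_lit 6) (by decide +kernel)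
theorem L113807 : W_41 (nat_lit 3) (nat_lit 0x600010000800040010000a0005000300000000000) (nat_lit 0x0) (nat_lit 0x20000000000002000c00020000000) := T_41 (nat_lit 46) (nat_lit 29) (nat_lit 6) (nat_lit 11) (nat_lit 5) L113806 (by decide +kernel)
theorem L113808 : W_41 (nat_lit 4) (nat_lit 0x600010000800040010000a0005000200000000000) (nat_lit 0x0) (nat_lit 0x20000000000002000d00028000000) := T_41 (nat_lit 44) (nat_lit 27) (nat_lit 4) (nat_lit 11) (nat_lit 5) L113807 (by decide +kernel)
theorem L113809 : W_41 (nat_lit 5) (nat_lit 0x200010000800040010000a0005000200000000000) (nat_lit 0x0) (nat_lit 0x800040000000000020000000000002000d00028000000) := T_41 (nat_lit 162) (nat_lit 179) (nat_lit 7) (nat_lit 8) (nat_lit 6) L113808 (by decide +kernel)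
theorem L113810 : W_41 (nat_lit 8) (nat_lit 0x200010000800040010000a0005000000000000000) (nat_lit 0x0) (nat_lit 0x800040000000000072002d00740002000f00038001400) := Q_41 (nat_lit 45) (C_41 L113538 (C_41 L113356 (C_41 L113501 (C_41 L113352 (C_41 L113809 N_41))))) (by decide +kernel)
theorem L113811 : W_41 (nat_lit 2) (nat_lit 0x300010000800040030000a0005000600010000000) (nat_lit 0x0) (nat_lit 0x800050000000000000000000) := D_41 (nat_lit 78) (nat_lit 95) (nat_lit 76) (nat_lit 5) (nat_lit 11) (nat_lit 1) (nat_lit 3) (nat_lit 8) (nat_lit 4) (by decide +kernel)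
theorem L113812 : W_41 (nat_lit 3) (nat_lit 0x300010000800040030000a0005000600000000000) (nat_lit 0x0) (nat_lit 0x800150000000000010000000) := T_41 (nat_lit 28) (nat_lit 80) (nat_lit 7) (nat_lit 11) (nat_lit 1) L113811 (by decide +kernel)
theorem L113813 : W_41 (nat_lit 4) (nat_lit 0x300010000800040010000a0005000600000000000) (nat_lit 0x0) (nat_lit 0x40002800150000000000010000000) := T_41 (nat_lit 97) (nat_lit 114) (nat_lit 7) (nat_lit 11) (nat_lit 2) L113812 (by decide +kernel)
theorem L113814 : W_41 (nat_lit 5) (nat_lit 0x300010000800040010000a0005000200000000000) (nat_lit 0x0) (nat_lit 0x40002800150000000400030000000) := T_41 (nat_lit 46) (nat_lit 29) (nat_lit 6) (nat_lit 11) (nat_lit 5) L113813 (by decide +kernel)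
theorem L113815 : W_41 (nat_lit 6) (nat_lit 0x200010000800040010000a0005000200000000000) (nat_lit 0x0) (nat_lit 0x200010000000000040002800150000000400030000000) := T_41 (nat_lit 160) (nat_lit 177) (nat_lit 5) (nat_lit 8) (nat_lit 6) L113814 (by decide +kernel)
theorem L113816 : W_41 (nat_lit 8) (nat_lit 0x200010000800040010000a0005000000000000000) (nat_lit 0x0) (nat_lit 0x200010000000000072002d00750002000f00038000000) := Q_41 (nat_lit 45) (C_41 L113538 (C_41 L113506 (C_41 L113815 N_41))) (by decide +kernel)
theorem L113817 : W_41 (nat_lit 2) (nat_lit 0x200010000800060030000a0005000200010000000) (nat_lit 0x0) (nat_lit 0x400020001000) := D_41 (nat_lit 29) (nat_lit 12) (nat_lit 46) (nat_lit 6) (nat_lit 11) (nat_lit 4) (nat_lit 6) (nat_lit 11) (nat_lit 5) (by decide +kernel)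
theorem L113818 : W_41 (nat_lit 3) (nat_lit 0x200010000800060030000a0005000200000000000) (nat_lit 0x0) (nat_lit 0x100000000400030001000) := T_41 (nat_lit 28) (nat_lit 80) (nat_lit 7) (nat_lit 11) (nat_lit 1) L113817 (by decide +kernel)
theorem L113819 : W_41 (nat_lit 4) (nat_lit 0x200010000800060030000a0005000000000000000) (nat_lit 0x0) (nat_lit 0x40000000100000000600030001000) := T_41 (nat_lit 45) (nat_lit 114) (nat_lit 7) (nat_lit 11) (nat_lit 2) L113818 (by decide +kernel)
theorem L113820 : W_41 (nat_lit 5) (nat_lit 0x200010000800040030000a0005000000000000000) (nat_lit 0x0) (nat_lit 0x42000100100000000600030001000) := T_41 (nat_lit 109) (nat_lit 92) (nat_lit 4) (nat_lit 8) (nat_lit 9) L113819 (by decide +kernel)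
theorem L113821 : W_41 (nat_lit 2) (nat_lit 0x600010000800040038000b0005000200010000000) (nat_lit 0x0) (nat_lit 0x400020001000) := D_41 (nat_lit 29) (nat_lit 12) (nat_lit 46) (nat_lit 6) (nat_lit 11) (nat_lit 4) (nat_lit 6) (nat_lit 11) (nat_lit 5) (by decide +kernel)
theorem L113822 : W_41 (nat_lit 3) (nat_lit 0x600010000800040038000b0005000200000000000) (nat_lit 0x0) (nat_lit 0x100000000400030001000) := T_41 (nat_lit 28) (nat_lit 80) (nat_lit 7) (nat_lit 11) (nat_lit 1) L113821 (by decide +kernel)
theorem L113823 : W_41 (nat_lit 4) (nat_lit 0x600010000800040038000b0005000000000000000) (nat_lit 0x0) (nat_lit 0x40000000100000000600030001000) := T_41 (nat_lit 45) (nat_lit 114) (nat_lit 7) (nat_lit 11) (nat_lit 2) L113822 (by decide +kernel)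
theorem L113824 : W_41 (nat_lit 5) (nat_lit 0x600010000800040030000b0005000000000000000) (nat_lit 0x0) (nat_lit 0x40000c00100000000600030001000) := T_41 (nat_lit 95) (nat_lit 94) (nat_lit 0) (nat_lit 12) (nat_lit 5) L113823 (by decide +kernel)
theorem L113825 : W_41 (nat_lit 6) (nat_lit 0x600010000800040030000a0005000000000000000) (nat_lit 0x0) (nat_lit 0x40000c00150000000600030001000) := T_41 (nat_lit 76) (nat_lit 78) (nat_lit 3) (nat_lit 8) (nat_lit 4) L113824 (by decide +kernel)
theorem L113826 : W_41 (nat_lit 7) (nat_lit 0x200010000800040030000a0005000000000000000) (nat_lit 0x0) (nat_lit 0x800040000000000040000c00150000000600030001000) := T_41 (nat_lit 162) (nat_lit 179) (nat_lit 7) (nat_lit 8) (nat_lit 6) L113825 (by decide +kernel)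
theorem L113827 : W_41 (nat_lit 2) (nat_lit 0x700010000800040030000e0005000000000000000) (nat_lit 0x0) (nat_lit 0xc800000000000000000000000) := D_41 (nat_lit 98) (nat_lit 99) (nat_lit 95) (nat_lit 0) (nat_lit 14) (nat_lit 5) (nat_lit 0) (nat_lit 13) (nat_lit 5) (by decide +kernel)
theorem L113828 : W_41 (nat_lit 3) (nat_lit 0x700010000800040030000a0005000000000000000) (nat_lit 0x0) (nat_lit 0xc800050000000000000000000) := T_41 (nat_lit 78) (nat_lit 76) (nat_lit 3) (nat_lit 8) (nat_lit 4) L113827 (by decide +kernel)
theorem L113829 : W_41 (nat_lit 4) (nat_lit 0x300010000800040030000a0005000000000000000) (nat_lit 0x0) (nat_lit 0x80004000000000000000c800050000000000000000000) := T_41 (nat_lit 162) (nat_lit 179) (nat_lit 7) (nat_lit 8) (nat_lit 6) L113828 (by decide +kernel)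
theorem L113830 : W_41 (nat_lit 5) (nat_lit 0x200010000800040030000a0005000000000000000) (nat_lit 0x0) (nat_lit 0xa0005000000000000000c800050000000000000000000) := T_41 (nat_lit 160) (nat_lit 177) (nat_lit 5) (nat_lit 8) (nat_lit 6) L113829 (by decide +kernel)
theorem L113831 : W_41 (nat_lit 8) (nat_lit 0x200010000800040010000a0005000000000000000) (nat_lit 0x0) (nat_lit 0xa0005000000000004200ed00150000000600030001000) := Q_41 (nat_lit 97) (C_41 L113820 (C_41 L113826 (C_41 L113830 N_41))) (by decide +kernel)
theorem L113832 : W_41 (nat_lit 2) (nat_lit 0x700190004800360010000a0007000000000000000) (nat_lit 0x0) (nat_lit 0x180004000000000000000000000000000000000000) := D_41 (nat_lit 163) (nat_lit 146) (nat_lit 164) (nat_lit 2) (nat_lit 7) (nat_lit 9) (nat_lit 2) (nat_lit 8) (nat_lit 9) (by decide +kernel)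
theorem L113833 : W_41 (nat_lit 3) (nat_lit 0x700110004800360010000a0007000000000000000) (nat_lit 0x0) (nat_lit 0x38000c000000000000000000000000000000000000) := T_41 (nat_lit 147) (nat_lit 165) (nat_lit 7) (nat_lit 11) (nat_lit 5) L113832 (by decide +kernel)
theorem L113834 : W_41 (nat_lit 4) (nat_lit 0x700010004800360010000a0007000000000000000) (nat_lit 0x0) (nat_lit 0x38001c000800000000000000000000000000000000) := T_41 (nat_lit 148) (nat_lit 131) (nat_lit 7) (nat_lit 11) (nat_lit 4) L113833 (by decide +kernel)
theorem L113835 : W_41 (nat_lit 5) (nat_lit 0x300010004800360010000a0007000000000000000) (nat_lit 0x0) (nat_lit 0x8003c001c000800000000000000000000000000000000) := T_41 (nat_lit 162) (nat_lit 179) (nat_lit 7) (nat_lit 8) (nat_lit 6) L113834 (by decide +kernel)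
theorem L113836 : W_41 (nat_lit 6) (nat_lit 0x300010000800360010000a0007000000000000000) (nat_lit 0x0) (nat_lit 0x8003c001c000c00000000000040000000000000000000) := T_41 (nat_lit 130) (nat_lit 78) (nat_lit 4) (nat_lit 11) (nat_lit 7) L113835 (by decide +kernel)
theorem L113837 : W_41 (nat_lit 7) (nat_lit 0x300010000800340010000a0007000000000000000) (nat_lit 0x0) (nat_lit 0x8003c001c000c00002000100040000000000000000000) := T_41 (nat_lit 109) (nat_lit 92) (nat_lit 4) (nat_lit 8) (nat_lit 9) L113836 (by decide +kernel)
theorem L113838 : W_41 (nat_lit 8) (nat_lit 0x300010000800340010000a0005000000000000000) (nat_lit 0x0) (nat_lit 0x8003c001c000c00002000100040002000100000000000) := T_41 (nat_lit 61) (nat_lit 44) (nat_lit 4) (nat_lit 11) (nat_lit 6) L113837 (by decide +kernel)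
theorem L113839 : W_41 (nat_lit 9) (nat_lit 0x300010000800240010000a0005000000000000000) (nat_lit 0x0) (nat_lit 0x8003c001c000e00012000100040002000100000000000) := T_41 (nat_lit 112) (nat_lit 129) (nat_lit 5) (nat_lit 11) (nat_lit 3) L113838 (by decide +kernel)
theorem L113840 : W_41 (nat_lit 10) (nat_lit 0x200010000800240010000a0005000000000000000) (nat_lit 0x0) (nat_lit 0xa003d001c000e00012000100040002000100000000000) := T_41 (nat_lit 160) (nat_lit 177) (nat_lit 5) (nat_lit 8) (nat_lit 6) L113839 (by decide +kernel)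
theorem L113841 : W_41 (nat_lit 2) (nat_lit 0x300010004800240010000a0007000000000000000) (nat_lit 0x0) (nat_lit 0x4000200010000000000000000000000000000) := D_41 (nat_lit 129) (nat_lit 112) (nat_lit 146) (nat_lit 5) (nat_lit 11) (nat_lit 3) (nat_lit 5) (nat_lit 11) (nat_lit 4) (by decide +kernel)
theorem L113842 : W_41 (nat_lit 3) (nat_lit 0x300010000800240010000a0007000000000000000) (nat_lit 0x0) (nat_lit 0x4000600010000000040000000000000000000) := T_41 (nat_lit 130) (nat_lit 78) (nat_lit 4) (nat_lit 11) (nat_lit 7) L113841 (by decide +kernel)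
theorem L113843 : W_41 (nat_lit 4) (nat_lit 0x200010000800240010000a0007000000000000000) (nat_lit 0x0) (nat_lit 0x200010004000600010000000040000000000000000000) := T_41 (nat_lit 160) (nat_lit 177) (nat_lit 5) (nat_lit 8) (nat_lit 6) L113842 (by decide +kernel)
theorem L113844 : W_41 (nat_lit 5) (nat_lit 0x200010000800240010000a0005000000000000000) (nat_lit 0x0) (nat_lit 0x200010004000600010000000040002000100000000000) := T_41 (nat_lit 61) (nat_lit 44) (nat_lit 4) (nat_lit 11) (nat_lit 6) L113843 (by decide +kernel)
theorem L113845 : W_41 (nat_lit 11) (nat_lit 0x200010000800040010000a0005000000000000000) (nat_lit 0x0) (nat_lit 0xa003d001c000f00072002100040002000300008000000) := Q_41 (nat_lit 113) (C_41 L113457 (C_41 L113378 (C_41 L113840 (C_41 L113844 N_41)))) (by decide +kernel)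
theorem L113846 : W_41 (nat_lit 2) (nat_lit 0x200010000800040018000e0005000600000000000) (nat_lit 0x0) (nat_lit 0x6000010000000000000000000) := D_41 (nat_lit 97) (nat_lit 76) (nat_lit 98) (nat_lit 3) (nat_lit 8) (nat_lit 4) (nat_lit 0) (nat_lit 13) (nat_lit 5) (by decide +kernel)
theorem L113847 : W_41 (nat_lit 3) (nat_lit 0x200010000800040018000a0005000600000000000) (nat_lit 0x0) (nat_lit 0x6000050000000000010000000) := T_41 (nat_lit 78) (nat_lit 28) (nat_lit 5) (nat_lit 11) (nat_lit 1) L113846 (by decide +kernel)
theorem L113848 : W_41 (nat_lit 4) (nat_lit 0x200010000800040010000a0005000600000000000) (nat_lit 0x0) (nat_lit 0x10006800050000000000010000000) := T_41 (nat_lit 95) (nat_lit 112) (nat_lit 5) (nat_lit 11) (nat_lit 2) L113847 (by decide +kernel)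
theorem L113849 : W_41 (nat_lit 5) (nat_lit 0x200010000800040010000a0005000200000000000) (nat_lit 0x0) (nat_lit 0x10006800050000000400030000000) := T_41 (nat_lit 46) (nat_lit 29) (nat_lit 6) (nat_lit 11) (nat_lit 5) L113848 (by decide +kernel)
theorem L113850 : W_41 (nat_lit 6) (nat_lit 0x200010000800040010000a0005000000000000000) (nat_lit 0x0) (nat_lit 0xa00050000000000030006800050002000f00038000400) := Q_41 (nat_lit 45) (C_41 L113809 (C_41 L113506 (C_41 L113501 (C_41 L113849 N_41)))) (by decide +kernel)
theorem L113851 : W_41 (nat_lit 2) (nat_lit 0x200010000800740010000a0005000200000000000) (nat_lit 0x0) (nat_lit 0x2000100008000000) := D_41 (nat_lit 44) (nat_lit 27) (nat_lit 61) (nat_lit 4) (nat_lit 11) (nat_lit 5) (nat_lit 4) (nat_lit 11) (nat_lit 6) (by decide +kernel)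
theorem L113852 : W_41 (nat_lit 3) (nat_lit 0x200010000800740010000a0005000000000000000) (nat_lit 0x0) (nat_lit 0x800000002000300008000000) := T_41 (nat_lit 45) (nat_lit 95) (nat_lit 5) (nat_lit 11) (nat_lit 2) L113851 (by decide +kernel)
theorem L113853 : W_41 (nat_lit 4) (nat_lit 0x200010000800640010000a0005000000000000000) (nat_lit 0x0) (nat_lit 0x200010000800000002000300008000000) := T_41 (nat_lit 112) (nat_lit 129) (nat_lit 5) (nat_lit 11) (nat_lit 3) L113852 (by decide +kernel)
theorem L113854 : W_41 (nat_lit 5) (nat_lit 0x200010000800240010000a0005000000000000000) (nat_lit 0x0) (nat_lit 0xa00050000800000002000300008000000) := T_41 (nat_lit 114) (nat_lit 131) (nat_lit 7) (nat_lit 11) (nat_lit 3) L113853 (by decide +kernel)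
theorem L113855 : W_41 (nat_lit 2) (nat_lit 0x200010004800640010000a0007000000000000000) (nat_lit 0x0) (nat_lit 0x4000300000000000000000000000000000000) := D_41 (nat_lit 129) (nat_lit 128) (nat_lit 146) (nat_lit 2) (nat_lit 8) (nat_lit 7) (nat_lit 5) (nat_lit 11) (nat_lit 4) (by decide +kernel)
theorem L113856 : W_41 (nat_lit 3) (nat_lit 0x200010000800640010000a0007000000000000000) (nat_lit 0x0) (nat_lit 0x4000700000000000040000000000000000000) := T_41 (nat_lit 130) (nat_lit 78) (nat_lit 4) (nat_lit 11) (nat_lit 7) L113855 (by decide +kernel)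
theorem L113857 : W_41 (nat_lit 4) (nat_lit 0x200010000800240010000a0007000000000000000) (nat_lit 0x0) (nat_lit 0x4000f00040000000040000000000000000000) := T_41 (nat_lit 114) (nat_lit 131) (nat_lit 7) (nat_lit 11) (nat_lit 3) L113856 (by decide +kernel)
theorem L113858 : W_41 (nat_lit 5) (nat_lit 0x200010000800240010000a0005000000000000000) (nat_lit 0x0) (nat_lit 0x4000f00040000000040002000100000000000) := T_41 (nat_lit 61) (nat_lit 44) (nat_lit 4) (nat_lit 11) (nat_lit 6) L113857 (by decide +kernel)
theorem L113859 : W_41 (nat_lit 2) (nat_lit 0x200010008800240010000a0007000000000000000) (nat_lit 0x0) (nat_lit 0x10000400000000000040000000000000000000) := D_41 (nat_lit 130) (nat_lit 78) (nat_lit 148) (nat_lit 4) (nat_lit 11) (nat_lit 7) (nat_lit 7) (nat_lit 11) (nat_lit 4) (by decide +kernel)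
theorem L113860 : W_41 (nat_lit 3) (nat_lit 0x200010000800240010000a0007000000000000000) (nat_lit 0x0) (nat_lit 0x10000c00040000000040000000000000000000) := T_41 (nat_lit 131) (nat_lit 114) (nat_lit 7) (nat_lit 11) (nat_lit 3) L113859 (by decide +kernel)
theorem L113861 : W_41 (nat_lit 4) (nat_lit 0x200010000800240010000a0005000000000000000) (nat_lit 0x0) (nat_lit 0x10000c00040000000040002000100000000000) := T_41 (nat_lit 61) (nat_lit 44) (nat_lit 4) (nat_lit 11) (nat_lit 6) L113860 (by decide +kernel)
theorem L113862 : W_41 (nat_lit 8) (nat_lit 0x200010000800040010000a0005000000000000000) (nat_lit 0x0) (nat_lit 0xa00050014000f00072000900040002000300008000000) := Q_41 (nat_lit 113) (C_41 L113522 (C_41 L113844 (C_41 L113854 (C_41 L113858 (C_41 L113861 (C_41 L113378 N_41)))))) (by decide +kernel)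
theorem L113863 : W_41 (nat_lit 2) (nat_lit 0x600010002800240010000a0007000000000000000) (nat_lit 0x0) (nat_lit 0x4000400000000000040000000000000000000) := D_41 (nat_lit 130) (nat_lit 146) (nat_lit 78) (nat_lit 5) (nat_lit 11) (nat_lit 4) (nat_lit 4) (nat_lit 11) (nat_lit 7) (by decide +kernel)
theorem L113864 : W_41 (nat_lit 3) (nat_lit 0x600010002800240010000a0005000000000000000) (nat_lit 0x0) (nat_lit 0x4000400000000000040002000100000000000) := T_41 (nat_lit 61) (nat_lit 44) (nat_lit 4) (nat_lit 11) (nat_lit 6) L113863 (by decide +kernel)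
theorem L113865 : W_41 (nat_lit 4) (nat_lit 0x600010002800040010000a0005000000000000000) (nat_lit 0x0) (nat_lit 0x4000400030000000040002000100000000000) := T_41 (nat_lit 113) (nat_lit 112) (nat_lit 5) (nat_lit 11) (nat_lit 3) L113864 (by decide +kernel)
theorem L113866 : W_41 (nat_lit 5) (nat_lit 0x200010002800040010000a0005000000000000000) (nat_lit 0x0) (nat_lit 0x800040004000400030000000040002000100000000000) := T_41 (nat_lit 162) (nat_lit 179) (nat_lit 7) (nat_lit 8) (nat_lit 6) L113865 (by decide +kernel)
theorem L113867 : W_41 (nat_lit 2) (nat_lit 0x200010002800140010000a0005000000000000000) (nat_lit 0x0) (nat_lit 0x4000000000000800040000000000000000000) := D_41 (nat_lit 95) (nat_lit 78) (nat_lit 146) (nat_lit 6) (nat_lit 10) (nat_lit 7) (nat_lit 6) (nat_lit 10) (nat_lit 8) (by decide +kernel)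
theorem L113868 : W_41 (nat_lit 3) (nat_lit 0x200010002800040010000a0005000000000000000) (nat_lit 0x0) (nat_lit 0x4000000030000800040000000000000000000) := T_41 (nat_lit 112) (nat_lit 113) (nat_lit 5) (nat_lit 11) (nat_lit 3) L113867 (by decide +kernel)
theorem L113869 : W_41 (nat_lit 2) (nat_lit 0x700010006800260010000a0005000000000000000) (nat_lit 0x0) (nat_lit 0x40002000100000000000) := D_41 (nat_lit 61) (nat_lit 78) (nat_lit 44) (nat_lit 4) (nat_lit 11) (nat_lit 7) (nat_lit 4) (nat_lit 11) (nat_lit 6) (by decide +kernel)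
theorem L113870 : W_41 (nat_lit 3) (nat_lit 0x700010006800060010000a0005000000000000000) (nat_lit 0x0) (nat_lit 0x4000000020000000040002000100000000000) := T_41 (nat_lit 113) (nat_lit 146) (nat_lit 5) (nat_lit 11) (nat_lit 4) L113869 (by decide +kernel)
theorem L113871 : W_41 (nat_lit 4) (nat_lit 0x600010006800060010000a0005000000000000000) (nat_lit 0x0) (nat_lit 0x200010004000000020000000040002000100000000000) := T_41 (nat_lit 160) (nat_lit 177) (nat_lit 5) (nat_lit 8) (nat_lit 6) L113870 (by decide +kernel)
theorem L113872 : W_41 (nat_lit 5) (nat_lit 0x600010002800060010000a0005000000000000000) (nat_lit 0x0) (nat_lit 0x200010004000500020000000040002000100000000000) := T_41 (nat_lit 130) (nat_lit 128) (nat_lit 0) (nat_lit 11) (nat_lit 7) L113871 (by decide +kernel)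
theorem L113873 : W_41 (nat_lit 6) (nat_lit 0x600010002800040010000a0005000000000000000) (nat_lit 0x0) (nat_lit 0x200010004000500022000100040002000100000000000) := T_41 (nat_lit 109) (nat_lit 92) (nat_lit 4) (nat_lit 8) (nat_lit 9) L113872 (by decide +kernel)
theorem L113874 : W_41 (nat_lit 7) (nat_lit 0x200010002800040010000a0005000000000000000) (nat_lit 0x0) (nat_lit 0xa00050004000500022000100040002000100000000000) := T_41 (nat_lit 162) (nat_lit 179) (nat_lit 7) (nat_lit 8) (nat_lit 6) L113873 (by decide +kernel)
theorem L113875 : W_41 (nat_lit 2) (nat_lit 0x300010002800640010000a0007000000000000000) (nat_lit 0x0) (nat_lit 0x4000500000000000000000000000000000000) := D_41 (nat_lit 130) (nat_lit 128) (nat_lit 146) (nat_lit 2) (nat_lit 8) (nat_lit 7) (nat_lit 5) (nat_lit 11) (nat_lit 4) (by decide +kernel)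
theorem L113876 : W_41 (nat_lit 3) (nat_lit 0x300010002800240010000a0007000000000000000) (nat_lit 0x0) (nat_lit 0x4000d00040000000000000000000000000000) := T_41 (nat_lit 114) (nat_lit 131) (nat_lit 7) (nat_lit 11) (nat_lit 3) L113875 (by decide +kernel)
theorem L113877 : W_41 (nat_lit 4) (nat_lit 0x300010002800240010000a0005000000000000000) (nat_lit 0x0) (nat_lit 0x4000d00040000000000002000100000000000) := T_41 (nat_lit 61) (nat_lit 44) (nat_lit 4) (nat_lit 11) (nat_lit 6) L113876 (by decide +kernel)
theorem L113878 : W_41 (nat_lit 5) (nat_lit 0x300010002800040010000a0005000000000000000) (nat_lit 0x0) (nat_lit 0x4000d00070000000000002000100000000000) := T_41 (nat_lit 113) (nat_lit 112) (nat_lit 5) (nat_lit 11) (nat_lit 3) L113877 (by decide +kernel)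
theorem L113879 : W_41 (nat_lit 6) (nat_lit 0x200010002800040010000a0005000000000000000) (nat_lit 0x0) (nat_lit 0x200010004000d00070000000000002000100000000000) := T_41 (nat_lit 160) (nat_lit 177) (nat_lit 5) (nat_lit 8) (nat_lit 6) L113878 (by decide +kernel)
theorem L113880 : W_41 (nat_lit 2) (nat_lit 0x200010002800640010000a0007000000000000000) (nat_lit 0x0) (nat_lit 0x500000000000040000000000000000000) := D_41 (nat_lit 130) (nat_lit 128) (nat_lit 78) (nat_lit 2) (nat_lit 8) (nat_lit 7) (nat_lit 4) (nat_lit 11) (nat_lit 7) (by decide +kernel)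
theorem L113881 : W_41 (nat_lit 3) (nat_lit 0x200010002800240010000a0007000000000000000) (nat_lit 0x0) (nat_lit 0xd00040000000040000000000000000000) := T_41 (nat_lit 114) (nat_lit 131) (nat_lit 7) (nat_lit 11) (nat_lit 3) L113880 (by decide +kernel)
theorem L113882 : W_41 (nat_lit 4) (nat_lit 0x200010002800240010000a0005000000000000000) (nat_lit 0x0) (nat_lit 0xd00040000000040002000100000000000) := T_41 (nat_lit 61) (nat_lit 44) (nat_lit 4) (nat_lit 11) (nat_lit 6) L113881 (by decide +kernel)
theorem L113883 : W_41 (nat_lit 5) (nat_lit 0x200010002800040010000a0005000000000000000) (nat_lit 0x0) (nat_lit 0xd00070000000040002000100000000000) := T_41 (nat_lit 113) (nat_lit 112) (nat_lit 5) (nat_lit 11) (nat_lit 3) L113882 (by decide +kernel)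
theorem L113884 : W_41 (nat_lit 2) (nat_lit 0x700010003800060010000a0005000000000000000) (nat_lit 0x0) (nat_lit 0x40001800000000000000000000000000) := D_41 (nat_lit 108) (nat_lit 126) (nat_lit 107) (nat_lit 0) (nat_lit 10) (nat_lit 7) (nat_lit 3) (nat_lit 5) (nat_lit 6) (by decide +kernel)
theorem L113885 : W_41 (nat_lit 3) (nat_lit 0x700010002800060010000a0005000000000000000) (nat_lit 0x0) (nat_lit 0x540001800000000000000000000000000) := T_41 (nat_lit 128) (nat_lit 130) (nat_lit 0) (nat_lit 11) (nat_lit 7) L113884 (by decide +kernel)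
theorem L113886 : W_41 (nat_lit 4) (nat_lit 0x700010002800040010000a0005000000000000000) (nat_lit 0x0) (nat_lit 0x540003800100000000000000000000000) := T_41 (nat_lit 109) (nat_lit 92) (nat_lit 4) (nat_lit 8) (nat_lit 9) L113885 (by decide +kernel)
theorem L113887 : W_41 (nat_lit 5) (nat_lit 0x300010002800040010000a0005000000000000000) (nat_lit 0x0) (nat_lit 0x800040000000540003800100000000000000000000000) := T_41 (nat_lit 162) (nat_lit 179) (nat_lit 7) (nat_lit 8) (nat_lit 6) L113886 (by decide +kernel)
theorem L113888 : W_41 (nat_lit 6) (nat_lit 0x200010002800040010000a0005000000000000000) (nat_lit 0x0) (nat_lit 0xa00050000000540003800100000000000000000000000) := T_41 (nat_lit 160) (nat_lit 177) (nat_lit 5) (nat_lit 8) (nat_lit 6) L113887 (by decide +kernel)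
theorem L113889 : W_41 (nat_lit 8) (nat_lit 0x200010000800040010000a0005000000000000000) (nat_lit 0x0) (nat_lit 0xa00050004000f40073800900040002000100000000000) := Q_41 (nat_lit 129) (C_41 L113866 (C_41 L113868 (C_41 L113874 (C_41 L113879 (C_41 L113883 (C_41 L113888 N_41)))))) (by decide +kernel)
theorem L113890 : W_41 (nat_lit 13) (nat_lit 0x200010000800040000000a0005000000000000000) (nat_lit 0x0) (nat_lit 0xa003d001c000f403f380fd00f50002000f00038001400) := Q_41 (nat_lit 96) (C_41 L113805 (C_41 L113810 (C_41 L113816 (C_41 L113831 (C_41 L113507 (C_41 L113845 (C_41 L113523 (C_41 L113850 (C_41 L113862 (C_41 L113889 N_41)))))))))) (by decide +kernel)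
theorem L113891 : W_41 (nat_lit 6) (nat_lit 0x200010000800040000000a000d000000000000000) (nat_lit 0x0) (nat_lit 0x200010000000000022001100040012001fc0020001000) := Q_41 (nat_lit 61) (C_41 L113621 (C_41 L113604 (C_41 L112617 (C_41 L113233 N_41)))) (by decide +kernel)
theorem L113892 : W_41 (nat_lit 2) (nat_lit 0x200010000800060010000a001f000480000000000) (nat_lit 0x0) (nat_lit 0x200020001000) := D_41 (nat_lit 29) (nat_lit 12) (nat_lit 45) (nat_lit 5) (nat_lit 12) (nat_lit 0) (nat_lit 6) (nat_lit 11) (nat_lit 5) (by decide +kernel)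
theorem L113893 : W_41 (nat_lit 3) (nat_lit 0x200010000800060000000a001f000480000000000) (nat_lit 0x0) (nat_lit 0x20001000000000000200020001000) := T_41 (nat_lit 96) (nat_lit 113) (nat_lit 6) (nat_lit 11) (nat_lit 6) L113892 (by decide +kernel)
theorem L113894 : W_41 (nat_lit 4) (nat_lit 0x200010000800060000000a000f000480000000000) (nat_lit 0x0) (nat_lit 0x20001000000010000300020001000) := T_41 (nat_lit 64) (nat_lit 44) (nat_lit 0) (nat_lit 13) (nat_lit 3) L113893 (by decide +kernel)
theorem L113895 : W_41 (nat_lit 5) (nat_lit 0x200010000800060000000a000f000080000000000) (nat_lit 0x0) (nat_lit 0x20001000000010000f00020001000) := T_41 (nat_lit 46) (nat_lit 47) (nat_lit 2) (nat_lit 9) (nat_lit 3) L113894 (by decide +kernel)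
theorem L113896 : W_41 (nat_lit 6) (nat_lit 0x200010000800060000000a000f000000000000000) (nat_lit 0x0) (nat_lit 0x20001000000010000fc0020001000) := T_41 (nat_lit 43) (nat_lit 42) (nat_lit 0) (nat_lit 12) (nat_lit 3) L113895 (by decide +kernel)
theorem L113897 : W_41 (nat_lit 7) (nat_lit 0x200010000800060000000a000d000000000000000) (nat_lit 0x0) (nat_lit 0x20001000010012000fc0020001000) := T_41 (nat_lit 61) (nat_lit 76) (nat_lit 1) (nat_lit 12) (nat_lit 3) L113896 (by decide +kernel)
end Crest.Agent.Helper32.Snaky.R1_0
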